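import Vale.Agent.Lib.P154.PChain.BS.R5_0

set_option linter.all false

namespace Vale.Agent.Lib.P154.PChain.BS.S6

open Vale.Agent.Lib.P154.Chain

noncomputable def pc0 : PT := (PT.nd (nat_lit 3303690) (PT.nd (nat_lit 3100812) (PT.nd (nat_lit 3019536) (PT.nd (nat_lit 2978898) (PT.nd (nat_lit 2897778) (PT.nd (nat_lit 2897700) PT.nil (PT.lf (nat_lit 76) (nat_lit 6) (nat_lit 1) (nat_lit 3) (nat_lit 159) (nat_lit 71) (nat_lit 160))) (PT.nd (nat_lit 40560) (PT.lf (nat_lit 76) (nat_lit 6) (nat_lit 1) (nat_lit 1) (nat_lit 160) (nat_lit 71) (nat_lit 159)) (PT.lf (nat_lit 152) (nat_lit 3) (nat_lit 2) (nat_lit 1) (nat_lit 159) (nat_lit 72) (nat_lit 159)))) (PT.nd (nat_lit 78) (PT.lf (nat_lit 228) (nat_lit 6) (nat_lit 3) (nat_lit 3) (nat_lit 158) (nat_lit 73) (nat_lit 159)) (PT.nd (nat_lit 40482) (PT.lf (nat_lit 228) (nat_lit 6) (nat_lit 3) (nat_lit 1) (nat_lit 159) (nat_lit 73) (nat_lit 158)) (PT.lf (nat_lit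 304) (nat_lit 6) (nat_lit 4) (nat_lit 3) (nat_lit 157) (nat_lit 74) (nat_lit 159))))) (PT.nd (nat_lit 40638) (PT.nd (nat_lit 78) (PT.lf (nat_lit 380) (nat_lit 3) (nat_lit 5) (nat_lit 1) (nat_lit 158) (nat_lit 74) (nat_lit 158)) (PT.nd (nat_lit 40482) (PT.lf (nat_lit 304) (nat_lit 6) (nat_lit 4) (nat_lit 1) (nat_lit 159) (nat_lit 74) (nat_lit 157)) (PT.lf (nat_lit 456) (nat_lit 6) (nat_lit 6) (nat_lit 3) (nat_lit 157) (nat_lit 75) (nat_lit 158)))) (PT.nd (nat_lit 40482) (PT.lf (nat_lit 456) (nat_lit 6) (nat_lit 6) (nat_lit 1) (nat_lit 158) (nat_lit 75) (nat_lit 157)) (PT.nd (nat_lit 78) (PT.lf (nat_lit 532) (nat_lit 6) (nat_lit 7) (nat_lit 3) (nat_lit 156) (nat_lit 76) (nat_lit 158)) (PT.lf (nat_lit 608) (nat_lit 3) (nat_lit 8) (nat_lit 1) (nat_lit 157) (nat_lit 76) (nat_lit 157)))))) (PT.nd (nat_lit 121680) (PT.nd (nat_lit 81042) (PT.nd (nat_lit 40482) (PT.lf (nat_lit 532) (nat_lit 6) (nat_lit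 7) (nat_lit 1) (nat_lit 158) (nat_lit 76) (nat_lit 156)) (PT.nd (nat_lit 78) (PT.lf (nat_lit 684) (nat_lit 6) (nat_lit 9) (nat_lit 3) (nat_lit 156) (nat_lit 77) (nat_lit 157)) (PT.lf (nat_lit 684) (nat_lit 6) (nat_lit 9) (nat_lit 1) (nat_lit 157) (nat_lit 77) (nat_lit 156)))) (PT.nd (nat_lit 78) (PT.lf (nat_lit 760) (nat_lit 6) (nat_lit 10) (nat_lit 3) (nat_lit 155) (nat_lit 78) (nat_lit 157)) (PT.nd (nat_lit 78) (PT.lf (nat_lit 836) (nat_lit 3) (nat_lit 11) (nat_lit 1) (nat_lit 156) (nat_lit 78) (nat_lit 156)) (PT.lf (nat_lit 760) (nat_lit 6) (nat_lit 10) (nat_lit 1) (nat_lit 157) (nat_lit 78) (nat_lit 155))))) (PT.nd (nat_lit 40638) (PT.nd (nat_lit 78) (PT.lf (nat_lit 912) (nat_lit 6) (nat_lit 12) (nat_lit 3) (nat_lit 155) (nat_lit 79) (nat_lit 156)) (PT.nd (nat_lit 40482) (PT.lf (nat_lit 912) (nat_lit 6) (nat_lit 12) (nat_lit 1) (nat_lit 156) (nat_lit 79) (nat_lit 155)) (PT.lf (nat_lit 988)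 (nat_lit 6) (nat_lit 13) (nat_lit 3) (nat_lit 154) (nat_lit 80) (nat_lit 156)))) (PT.nd (nat_lit 78) (PT.lf (nat_lit 1064) (nat_lit 3) (nat_lit 14) (nat_lit 1) (nat_lit 155) (nat_lit 80) (nat_lit 155)) (PT.nd (nat_lit 40404) (PT.lf (nat_lit 988) (nat_lit 6) (nat_lit 13) (nat_lit 1) (nat_lit 156) (nat_lit 80) (nat_lit 154)) (PT.lf (nat_lit 1140) (nat_lit 6) (nat_lit 15) (nat_lit 3) (nat_lit 153) (nat_lit 81) (nat_lit 156))))))) (PT.nd (nat_lit 121914) (PT.nd (nat_lit 81120) (PT.nd (nat_lit 40560) (PT.nd (nat_lit 78) (PT.lf (nat_lit 1216) (nat_lit 6) (nat_lit 16) (nat_lit 3) (nat_lit 154) (nat_lit 81) (nat_lit 155)) (PT.nd (nat_lit 78) (PT.lf (nat_lit 1216) (nat_lit 6) (nat_lit 16) (nat_lit 1) (nat_lit 155) (nat_lit 81) (nat_lit 154)) (PT.lf (nat_lit 1140) (nat_lit 6) (nat_lit 15) (nat_lit 1) (nat_lit 156) (nat_lit 81) (nat_lit 153)))) (PT.nd (nat_lit 78) (PT.lf (nat_lit 1292) (nat_lit 6) (nat_lit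 17) (nat_lit 3) (nat_lit 153) (nat_lit 82) (nat_lit 155)) (PT.nd (nat_lit 78) (PT.lf (nat_lit 1368) (nat_lit 3) (nat_lit 18) (nat_lit 1) (nat_lit 154) (nat_lit 82) (nat_lit 154)) (PT.lf (nat_lit 1292) (nat_lit 6) (nat_lit 17) (nat_lit 1) (nat_lit 155) (nat_lit 82) (nat_lit 153))))) (PT.nd (nat_lit 234) (PT.nd (nat_lit 78) (PT.lf (nat_lit 1444) (nat_lit 6) (nat_lit 19) (nat_lit 3) (nat_lit 152) (nat_lit 83) (nat_lit 155)) (PT.nd (nat_lit 78) (PT.lf (nat_lit 1520) (nat_lit 6) (nat_lit 20) (nat_lit 3) (nat_lit 153) (nat_lit 83) (nat_lit 154)) (PT.lf (nat_lit 1520) (nat_lit 6) (nat_lit 20) (nat_lit 1) (nat_lit 154) (nat_lit 83) (nat_lit 153)))) (PT.nd (nat_lit 40404) (PT.lf (nat_lit 1444) (nat_lit 6) (nat_lit 19) (nat_lit 1) (nat_lit 155) (nat_lit 83) (nat_lit 152)) (PT.nd (nat_lit 78) (PT.lf (nat_lit 1596) (nat_lit 6) (nat_lit 21) (nat_lit 3) (nat_lit 152) (nat_lit 84) (nat_lit 154)) (PT.lf (nat_lit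 1672) (nat_lit 3) (nat_lit 22) (nat_lit 1) (nat_lit 153) (nat_lit 84) (nat_lit 153)))))) (PT.nd (nat_lit 81042) (PT.nd (nat_lit 40560) (PT.nd (nat_lit 40404) (PT.lf (nat_lit 1596) (nat_lit 6) (nat_lit 21) (nat_lit 1) (nat_lit 154) (nat_lit 84) (nat_lit 152)) (PT.nd (nat_lit 78) (PT.lf (nat_lit 1748) (nat_lit 6) (nat_lit 23) (nat_lit 3) (nat_lit 151) (nat_lit 85) (nat_lit 154)) (PT.lf (nat_lit 1824) (nat_lit 6) (nat_lit 24) (nat_lit 3) (nat_lit 152) (nat_lit 85) (nat_lit 153)))) (PT.nd (nat_lit 78) (PT.lf (nat_lit 1824) (nat_lit 6) (nat_lit 24) (nat_lit 1) (nat_lit 153) (nat_lit 85) (nat_lit 152)) (PT.nd (nat_lit 40326) (PT.lf (nat_lit 1748) (nat_lit 6) (nat_lit 23) (nat_lit 1) (nat_lit 154) (nat_lit 85) (nat_lit 151)) (PT.lf (nat_lit 1900) (nat_lit 6) (nat_lit 25) (nat_lit 3) (nat_lit 150) (nat_lit 86) (nat_lit 154))))) (PT.nd (nat_lit 234) (PT.nd (nat_lit 78) (PT.lf (nat_lit 1976) (nat_lit 6)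 (nat_lit 26) (nat_lit 3) (nat_lit 151) (nat_lit 86) (nat_lit 153)) (PT.nd (nat_lit 78) (PT.lf (nat_lit 2052) (nat_lit 3) (nat_lit 27) (nat_lit 1) (nat_lit 152) (nat_lit 86) (nat_lit 152)) (PT.lf (nat_lit 1976) (nat_lit 6) (nat_lit 26) (nat_lit 1) (nat_lit 153) (nat_lit 86) (nat_lit 151)))) (PT.nd (nat_lit 40404) (PT.nd (nat_lit 40326) (PT.lf (nat_lit 1900) (nat_lit 6) (nat_lit 25) (nat_lit 1) (nat_lit 154) (nat_lit 86) (nat_lit 150)) (PT.lf (nat_lit 2128) (nat_lit 6) (nat_lit 28) (nat_lit 3) (nat_lit 150) (nat_lit 87) (nat_lit 153))) (PT.nd (nat_lit 78) (PT.lf (nat_lit 2204) (nat_lit 6) (nat_lit 29) (nat_lit 3) (nat_lit 151) (nat_lit 87) (nat_lit 152)) (PT.lf (nat_lit 2204) (nat_lit 6) (nat_lit 29) (nat_lit 1) (nat_lit 152) (nat_lit 87) (nat_lit 151))))))))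
noncomputable def pc1 : PT := (PT.nd (nat_lit 203034) (PT.nd (nat_lit 121680) (PT.nd (nat_lit 80964) (PT.nd (nat_lit 40482) (PT.nd (nat_lit 40326) (PT.lf (nat_lit 2128) (nat_lit 6) (nat_lit 28) (nat_lit 1) (nat_lit 153) (nat_lit 87) (nat_lit 150)) (PT.nd (nat_lit 78) (PT.lf (nat_lit 2280) (nat_lit 6) (nat_lit 30) (nat_lit 3) (nat_lit 149) (nat_lit 88) (nat_lit 153)) (PT.lf (nat_lit 2356) (nat_lit 6) (nat_lit 31) (nat_lit 3) (nat_lit 150) (nat_lit 88) (nat_lit 152)))) (PT.nd (nat_lit 78) (PT.lf (nat_lit 2432) (nat_lit 3) (nat_lit 32) (nat_lit 1) (nat_lit 151) (nat_lit 88) (nat_lit 151)) (PT.nd (nat_lit 78) (PT.lf (nat_lit 2356) (nat_lit 6) (nat_lit 31) (nat_lit 1) (nat_lit 152) (nat_lit 88) (nat_lit 150)) (PT.lf (nat_lit 2280) (nat_lit 6) (nat_lit 30) (nat_lit 1) (nat_lit 153) (nat_lit 88) (nat_lit 149))))) (PT.nd (nat_lit 234) (PT.nd (nat_lit 78) (PT.lf (nat_lit 2508) (nat_lit 6) (nat_lit 33) (nat_lit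 3) (nat_lit 149) (nat_lit 89) (nat_lit 152)) (PT.nd (nat_lit 78) (PT.lf (nat_lit 2584) (nat_lit 6) (nat_lit 34) (nat_lit 3) (nat_lit 150) (nat_lit 89) (nat_lit 151)) (PT.lf (nat_lit 2584) (nat_lit 6) (nat_lit 34) (nat_lit 1) (nat_lit 151) (nat_lit 89) (nat_lit 150)))) (PT.nd (nat_lit 40326) (PT.lf (nat_lit 2508) (nat_lit 6) (nat_lit 33) (nat_lit 1) (nat_lit 152) (nat_lit 89) (nat_lit 149)) (PT.nd (nat_lit 78) (PT.lf (nat_lit 2660) (nat_lit 6) (nat_lit 35) (nat_lit 3) (nat_lit 148) (nat_lit 90) (nat_lit 152)) (PT.lf (nat_lit 2736) (nat_lit 6) (nat_lit 36) (nat_lit 3) (nat_lit 149) (nat_lit 90) (nat_lit 151)))))) (PT.nd (nat_lit 40638) (PT.nd (nat_lit 40404) (PT.nd (nat_lit 78) (PT.lf (nat_lit 2812) (nat_lit 3) (nat_lit 37) (nat_lit 1) (nat_lit 150) (nat_lit 90) (nat_lit 150)) (PT.nd (nat_lit 78) (PT.lf (nat_lit 2736) (nat_lit 6) (nat_lit 36) (nat_lit 1) (nat_lit 151) (nat_lit 90) (nat_lit 149))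 (PT.lf (nat_lit 2660) (nat_lit 6) (nat_lit 35) (nat_lit 1) (nat_lit 152) (nat_lit 90) (nat_lit 148)))) (PT.nd (nat_lit 78) (PT.lf (nat_lit 2888) (nat_lit 6) (nat_lit 38) (nat_lit 3) (nat_lit 147) (nat_lit 91) (nat_lit 152)) (PT.nd (nat_lit 78) (PT.lf (nat_lit 2964) (nat_lit 6) (nat_lit 39) (nat_lit 3) (nat_lit 148) (nat_lit 91) (nat_lit 151)) (PT.lf (nat_lit 3040) (nat_lit 6) (nat_lit 40) (nat_lit 3) (nat_lit 149) (nat_lit 91) (nat_lit 150))))) (PT.nd (nat_lit 40404) (PT.nd (nat_lit 78) (PT.lf (nat_lit 3040) (nat_lit 6) (nat_lit 40) (nat_lit 1) (nat_lit 150) (nat_lit 91) (nat_lit 149)) (PT.nd (nat_lit 78) (PT.lf (nat_lit 2964) (nat_lit 6) (nat_lit 39) (nat_lit 1) (nat_lit 151) (nat_lit 91) (nat_lit 148)) (PT.lf (nat_lit 2888) (nat_lit 6) (nat_lit 38) (nat_lit 1) (nat_lit 152) (nat_lit 91) (nat_lit 147)))) (PT.nd (nat_lit 156) (PT.nd (nat_lit 78) (PT.lf (nat_lit 3116) (nat_lit 6) (nat_lit 41) (nat_lit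 3) (nat_lit 147) (nat_lit 92) (nat_lit 151)) (PT.lf (nat_lit 3192) (nat_lit 6) (nat_lit 42) (nat_lit 3) (nat_lit 148) (nat_lit 92) (nat_lit 150))) (PT.nd (nat_lit 78) (PT.lf (nat_lit 3268) (nat_lit 3) (nat_lit 43) (nat_lit 1) (nat_lit 149) (nat_lit 92) (nat_lit 149)) (PT.lf (nat_lit 3192) (nat_lit 6) (nat_lit 42) (nat_lit 1) (nat_lit 150) (nat_lit 92) (nat_lit 148))))))) (PT.nd (nat_lit 81198) (PT.nd (nat_lit 40638) (PT.nd (nat_lit 40404) (PT.nd (nat_lit 40248) (PT.lf (nat_lit 3116) (nat_lit 6) (nat_lit 41) (nat_lit 1) (nat_lit 151) (nat_lit 92) (nat_lit 147)) (PT.nd (nat_lit 78) (PT.lf (nat_lit 3344) (nat_lit 6) (nat_lit 44) (nat_lit 3) (nat_lit 146) (nat_lit 93) (nat_lit 151)) (PT.lf (nat_lit 3420) (nat_lit 6) (nat_lit 45) (nat_lit 3) (nat_lit 147) (nat_lit 93) (nat_lit 150)))) (PT.nd (nat_lit 78) (PT.lf (nat_lit 3496) (nat_lit 6) (nat_lit 46) (nat_lit 3) (nat_lit 148) (nat_lit 93) (nat_lit 149))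 (PT.nd (nat_lit 78) (PT.lf (nat_lit 3496) (nat_lit 6) (nat_lit 46) (nat_lit 1) (nat_lit 149) (nat_lit 93) (nat_lit 148)) (PT.lf (nat_lit 3420) (nat_lit 6) (nat_lit 45) (nat_lit 1) (nat_lit 150) (nat_lit 93) (nat_lit 147))))) (PT.nd (nat_lit 40326) (PT.nd (nat_lit 40170) (PT.lf (nat_lit 3344) (nat_lit 6) (nat_lit 44) (nat_lit 1) (nat_lit 151) (nat_lit 93) (nat_lit 146)) (PT.nd (nat_lit 78) (PT.lf (nat_lit 3572) (nat_lit 6) (nat_lit 47) (nat_lit 3) (nat_lit 145) (nat_lit 94) (nat_lit 151)) (PT.lf (nat_lit 3648) (nat_lit 6) (nat_lit 48) (nat_lit 3) (nat_lit 146) (nat_lit 94) (nat_lit 150)))) (PT.nd (nat_lit 78) (PT.lf (nat_lit 3724) (nat_lit 6) (nat_lit 49) (nat_lit 3) (nat_lit 147) (nat_lit 94) (nat_lit 149)) (PT.nd (nat_lit 78) (PT.lf (nat_lit 3800) (nat_lit 3) (nat_lit 50) (nat_lit 1) (nat_lit 148) (nat_lit 94) (nat_lit 148)) (PT.lf (nat_lit 3724) (nat_lit 6) (nat_lit 49) (nat_lit 1) (nat_lit 149)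 (nat_lit 94) (nat_lit 147)))))) (PT.nd (nat_lit 40560) (PT.nd (nat_lit 40326) (PT.nd (nat_lit 78) (PT.lf (nat_lit 3648) (nat_lit 6) (nat_lit 48) (nat_lit 1) (nat_lit 150) (nat_lit 94) (nat_lit 146)) (PT.nd (nat_lit 40170) (PT.lf (nat_lit 3572) (nat_lit 6) (nat_lit 47) (nat_lit 1) (nat_lit 151) (nat_lit 94) (nat_lit 145)) (PT.lf (nat_lit 3876) (nat_lit 6) (nat_lit 51) (nat_lit 3) (nat_lit 145) (nat_lit 95) (nat_lit 150)))) (PT.nd (nat_lit 78) (PT.lf (nat_lit 3952) (nat_lit 6) (nat_lit 52) (nat_lit 3) (nat_lit 146) (nat_lit 95) (nat_lit 149)) (PT.nd (nat_lit 78) (PT.lf (nat_lit 4028) (nat_lit 6) (nat_lit 53) (nat_lit 3) (nat_lit 147) (nat_lit 95) (nat_lit 148)) (PT.lf (nat_lit 4028) (nat_lit 6) (nat_lit 53) (nat_lit 1) (nat_lit 148) (nat_lit 95) (nat_lit 147))))) (PT.nd (nat_lit 40326) (PT.nd (nat_lit 78) (PT.lf (nat_lit 3952) (nat_lit 6) (nat_lit 52) (nat_lit 1) (nat_lit 149) (nat_lit 95) (nat_lit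 146)) (PT.nd (nat_lit 40170) (PT.lf (nat_lit 3876) (nat_lit 6) (nat_lit 51) (nat_lit 1) (nat_lit 150) (nat_lit 95) (nat_lit 145)) (PT.lf (nat_lit 4104) (nat_lit 6) (nat_lit 54) (nat_lit 3) (nat_lit 144) (nat_lit 96) (nat_lit 150)))) (PT.nd (nat_lit 156) (PT.nd (nat_lit 78) (PT.lf (nat_lit 4180) (nat_lit 6) (nat_lit 55) (nat_lit 3) (nat_lit 145) (nat_lit 96) (nat_lit 149)) (PT.lf (nat_lit 4256) (nat_lit 6) (nat_lit 56) (nat_lit 3) (nat_lit 146) (nat_lit 96) (nat_lit 148))) (PT.nd (nat_lit 78) (PT.lf (nat_lit 4332) (nat_lit 3) (nat_lit 57) (nat_lit 1) (nat_lit 147) (nat_lit 96) (nat_lit 147)) (PT.lf (nat_lit 4256) (nat_lit 6) (nat_lit 56) (nat_lit 1) (nat_lit 148) (nat_lit 96) (nat_lit 146))))))))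
noncomputable def pc2 : PT := (PT.nd (nat_lit 162006) (PT.nd (nat_lit 81120) (PT.nd (nat_lit 40560) (PT.nd (nat_lit 40326) (PT.nd (nat_lit 78) (PT.lf (nat_lit 4180) (nat_lit 6) (nat_lit 55) (nat_lit 1) (nat_lit 149) (nat_lit 96) (nat_lit 145)) (PT.nd (nat_lit 40170) (PT.lf (nat_lit 4104) (nat_lit 6) (nat_lit 54) (nat_lit 1) (nat_lit 150) (nat_lit 96) (nat_lit 144)) (PT.lf (nat_lit 4408) (nat_lit 6) (nat_lit 58) (nat_lit 3) (nat_lit 144) (nat_lit 97) (nat_lit 149)))) (PT.nd (nat_lit 78) (PT.lf (nat_lit 4484) (nat_lit 6) (nat_lit 59) (nat_lit 3) (nat_lit 145) (nat_lit 97) (nat_lit 148)) (PT.nd (nat_lit 78) (PT.lf (nat_lit 4560) (nat_lit 6) (nat_lit 60) (nat_lit 3) (nat_lit 146) (nat_lit 97) (nat_lit 147)) (PT.lf (nat_lit 4560) (nat_lit 6) (nat_lit 60) (nat_lit 1) (nat_lit 147) (nat_lit 97) (nat_lit 146))))) (PT.nd (nat_lit 40326) (PT.nd (nat_lit 78) (PT.lf (nat_lit 4484) (nat_lit 6) (nat_lit 59)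 (nat_lit 1) (nat_lit 148) (nat_lit 97) (nat_lit 145)) (PT.nd (nat_lit 40170) (PT.lf (nat_lit 4408) (nat_lit 6) (nat_lit 58) (nat_lit 1) (nat_lit 149) (nat_lit 97) (nat_lit 144)) (PT.lf (nat_lit 4636) (nat_lit 6) (nat_lit 61) (nat_lit 3) (nat_lit 143) (nat_lit 98) (nat_lit 149)))) (PT.nd (nat_lit 78) (PT.lf (nat_lit 4712) (nat_lit 6) (nat_lit 62) (nat_lit 3) (nat_lit 144) (nat_lit 98) (nat_lit 148)) (PT.nd (nat_lit 78) (PT.lf (nat_lit 4788) (nat_lit 6) (nat_lit 63) (nat_lit 3) (nat_lit 145) (nat_lit 98) (nat_lit 147)) (PT.lf (nat_lit 4864) (nat_lit 3) (nat_lit 64) (nat_lit 1) (nat_lit 146) (nat_lit 98) (nat_lit 146)))))) (PT.nd (nat_lit 40482) (PT.nd (nat_lit 40248) (PT.nd (nat_lit 78) (PT.lf (nat_lit 4788) (nat_lit 6) (nat_lit 63) (nat_lit 1) (nat_lit 147) (nat_lit 98) (nat_lit 145)) (PT.nd (nat_lit 78) (PT.lf (nat_lit 4712) (nat_lit 6) (nat_lit 62) (nat_lit 1) (nat_lit 148) (nat_lit 98) (nat_lit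 144)) (PT.lf (nat_lit 4636) (nat_lit 6) (nat_lit 61) (nat_lit 1) (nat_lit 149) (nat_lit 98) (nat_lit 143)))) (PT.nd (nat_lit 78) (PT.lf (nat_lit 4940) (nat_lit 6) (nat_lit 65) (nat_lit 3) (nat_lit 142) (nat_lit 99) (nat_lit 149)) (PT.nd (nat_lit 78) (PT.lf (nat_lit 5016) (nat_lit 6) (nat_lit 66) (nat_lit 3) (nat_lit 143) (nat_lit 99) (nat_lit 148)) (PT.lf (nat_lit 5092) (nat_lit 6) (nat_lit 67) (nat_lit 3) (nat_lit 144) (nat_lit 99) (nat_lit 147))))) (PT.nd (nat_lit 234) (PT.nd (nat_lit 78) (PT.lf (nat_lit 5168) (nat_lit 6) (nat_lit 68) (nat_lit 3) (nat_lit 145) (nat_lit 99) (nat_lit 146)) (PT.nd (nat_lit 78) (PT.lf (nat_lit 5168) (nat_lit 6) (nat_lit 68) (nat_lit 1) (nat_lit 146) (nat_lit 99) (nat_lit 145)) (PT.lf (nat_lit 5092) (nat_lit 6) (nat_lit 67) (nat_lit 1) (nat_lit 147) (nat_lit 99) (nat_lit 144)))) (PT.nd (nat_lit 78) (PT.lf (nat_lit 5016) (nat_lit 6) (nat_lit 66) (nat_lit 1) (nat_lit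 148) (nat_lit 99) (nat_lit 143)) (PT.nd (nat_lit 40014) (PT.lf (nat_lit 4940) (nat_lit 6) (nat_lit 65) (nat_lit 1) (nat_lit 149) (nat_lit 99) (nat_lit 142)) (PT.lf (nat_lit 5244) (nat_lit 6) (nat_lit 69) (nat_lit 3) (nat_lit 141) (nat_lit 100) (nat_lit 149))))))) (PT.nd (nat_lit 40872) (PT.nd (nat_lit 468) (PT.nd (nat_lit 234) (PT.nd (nat_lit 78) (PT.lf (nat_lit 5320) (nat_lit 6) (nat_lit 70) (nat_lit 3) (nat_lit 142) (nat_lit 100) (nat_lit 148)) (PT.nd (nat_lit 78) (PT.lf (nat_lit 5396) (nat_lit 6) (nat_lit 71) (nat_lit 3) (nat_lit 143) (nat_lit 100) (nat_lit 147)) (PT.lf (nat_lit 5472) (nat_lit 6) (nat_lit 72) (nat_lit 3) (nat_lit 144) (nat_lit 100) (nat_lit 146)))) (PT.nd (nat_lit 78) (PT.lf (nat_lit 5548) (nat_lit 3) (nat_lit 73) (nat_lit 1) (nat_lit 145) (nat_lit 100) (nat_lit 145)) (PT.nd (nat_lit 78) (PT.lf (nat_lit 5472) (nat_lit 6) (nat_lit 72) (nat_lit 1) (nat_lit 146) (nat_lit 100) (nat_lit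 144)) (PT.lf (nat_lit 5396) (nat_lit 6) (nat_lit 71) (nat_lit 1) (nat_lit 147) (nat_lit 100) (nat_lit 143))))) (PT.nd (nat_lit 40170) (PT.nd (nat_lit 78) (PT.lf (nat_lit 5320) (nat_lit 6) (nat_lit 70) (nat_lit 1) (nat_lit 148) (nat_lit 100) (nat_lit 142)) (PT.nd (nat_lit 40014) (PT.lf (nat_lit 5244) (nat_lit 6) (nat_lit 69) (nat_lit 1) (nat_lit 149) (nat_lit 100) (nat_lit 141)) (PT.lf (nat_lit 5624) (nat_lit 6) (nat_lit 74) (nat_lit 3) (nat_lit 141) (nat_lit 101) (nat_lit 148)))) (PT.nd (nat_lit 78) (PT.lf (nat_lit 5700) (nat_lit 6) (nat_lit 75) (nat_lit 3) (nat_lit 142) (nat_lit 101) (nat_lit 147)) (PT.nd (nat_lit 78) (PT.lf (nat_lit 5776) (nat_lit 6) (nat_lit 76) (nat_lit 3) (nat_lit 143) (nat_lit 101) (nat_lit 146)) (PT.lf (nat_lit 5852) (nat_lit 6) (nat_lit 77) (nat_lit 3) (nat_lit 144) (nat_lit 101) (nat_lit 145)))))) (PT.nd (nat_lit 40404) (PT.nd (nat_lit 234) (PT.nd (nat_lit 78) (PT.lf (nat_lit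 5852) (nat_lit 6) (nat_lit 77) (nat_lit 1) (nat_lit 145) (nat_lit 101) (nat_lit 144)) (PT.nd (nat_lit 78) (PT.lf (nat_lit 5776) (nat_lit 6) (nat_lit 76) (nat_lit 1) (nat_lit 146) (nat_lit 101) (nat_lit 143)) (PT.lf (nat_lit 5700) (nat_lit 6) (nat_lit 75) (nat_lit 1) (nat_lit 147) (nat_lit 101) (nat_lit 142)))) (PT.nd (nat_lit 40014) (PT.lf (nat_lit 5624) (nat_lit 6) (nat_lit 74) (nat_lit 1) (nat_lit 148) (nat_lit 101) (nat_lit 141)) (PT.nd (nat_lit 78) (PT.lf (nat_lit 5928) (nat_lit 6) (nat_lit 78) (nat_lit 3) (nat_lit 140) (nat_lit 102) (nat_lit 148)) (PT.lf (nat_lit 6004) (nat_lit 6) (nat_lit 79) (nat_lit 3) (nat_lit 141) (nat_lit 102) (nat_lit 147))))) (PT.nd (nat_lit 234) (PT.nd (nat_lit 78) (PT.lf (nat_lit 6080) (nat_lit 6) (nat_lit 80) (nat_lit 3) (nat_lit 142) (nat_lit 102) (nat_lit 146)) (PT.nd (nat_lit 78) (PT.lf (nat_lit 6156) (nat_lit 6) (nat_lit 81) (nat_lit 3) (nat_lit 143) (nat_lit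 102) (nat_lit 145)) (PT.lf (nat_lit 6232) (nat_lit 3) (nat_lit 82) (nat_lit 1) (nat_lit 144) (nat_lit 102) (nat_lit 144)))) (PT.nd (nat_lit 156) (PT.nd (nat_lit 78) (PT.lf (nat_lit 6156) (nat_lit 6) (nat_lit 81) (nat_lit 1) (nat_lit 145) (nat_lit 102) (nat_lit 143)) (PT.lf (nat_lit 6080) (nat_lit 6) (nat_lit 80) (nat_lit 1) (nat_lit 146) (nat_lit 102) (nat_lit 142))) (PT.nd (nat_lit 78) (PT.lf (nat_lit 6004) (nat_lit 6) (nat_lit 79) (nat_lit 1) (nat_lit 147) (nat_lit 102) (nat_lit 141)) (PT.lf (nat_lit 5928) (nat_lit 6) (nat_lit 78) (nat_lit 1) (nat_lit 148) (nat_lit 102) (nat_lit 140))))))))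
noncomputable def pc3 : PT := (PT.nd (nat_lit 81666) (PT.nd (nat_lit 40794) (PT.nd (nat_lit 468) (PT.nd (nat_lit 234) (PT.nd (nat_lit 78) (PT.lf (nat_lit 6308) (nat_lit 6) (nat_lit 83) (nat_lit 3) (nat_lit 139) (nat_lit 103) (nat_lit 148)) (PT.nd (nat_lit 78) (PT.lf (nat_lit 6384) (nat_lit 6) (nat_lit 84) (nat_lit 3) (nat_lit 140) (nat_lit 103) (nat_lit 147)) (PT.lf (nat_lit 6460) (nat_lit 6) (nat_lit 85) (nat_lit 3) (nat_lit 141) (nat_lit 103) (nat_lit 146)))) (PT.nd (nat_lit 78) (PT.lf (nat_lit 6536) (nat_lit 6) (nat_lit 86) (nat_lit 3) (nat_lit 142) (nat_lit 103) (nat_lit 145)) (PT.nd (nat_lit 78) (PT.lf (nat_lit 6612) (nat_lit 6) (nat_lit 87) (nat_lit 3) (nat_lit 143) (nat_lit 103) (nat_lit 144)) (PT.lf (nat_lit 6612) (nat_lit 6) (nat_lit 87) (nat_lit 1) (nat_lit 144) (nat_lit 103) (nat_lit 143))))) (PT.nd (nat_lit 234) (PT.nd (nat_lit 78) (PT.lf (nat_lit 6536) (nat_lit 6) (nat_lit 86) (nat_lit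 1) (nat_lit 145) (nat_lit 103) (nat_lit 142)) (PT.nd (nat_lit 78) (PT.lf (nat_lit 6460) (nat_lit 6) (nat_lit 85) (nat_lit 1) (nat_lit 146) (nat_lit 103) (nat_lit 141)) (PT.lf (nat_lit 6384) (nat_lit 6) (nat_lit 84) (nat_lit 1) (nat_lit 147) (nat_lit 103) (nat_lit 140)))) (PT.nd (nat_lit 39936) (PT.lf (nat_lit 6308) (nat_lit 6) (nat_lit 83) (nat_lit 1) (nat_lit 148) (nat_lit 103) (nat_lit 139)) (PT.nd (nat_lit 78) (PT.lf (nat_lit 6688) (nat_lit 6) (nat_lit 88) (nat_lit 3) (nat_lit 139) (nat_lit 104) (nat_lit 147)) (PT.lf (nat_lit 6764) (nat_lit 6) (nat_lit 89) (nat_lit 3) (nat_lit 140) (nat_lit 104) (nat_lit 146)))))) (PT.nd (nat_lit 468) (PT.nd (nat_lit 234) (PT.nd (nat_lit 78) (PT.lf (nat_lit 6840) (nat_lit 6) (nat_lit 90) (nat_lit 3) (nat_lit 141) (nat_lit 104) (nat_lit 145)) (PT.nd (nat_lit 78) (PT.lf (nat_lit 6916) (nat_lit 6) (nat_lit 91) (nat_lit 3) (nat_lit 142) (nat_lit 104) (nat_lit 144))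 (PT.lf (nat_lit 6992) (nat_lit 3) (nat_lit 92) (nat_lit 1) (nat_lit 143) (nat_lit 104) (nat_lit 143)))) (PT.nd (nat_lit 78) (PT.lf (nat_lit 6916) (nat_lit 6) (nat_lit 91) (nat_lit 1) (nat_lit 144) (nat_lit 104) (nat_lit 142)) (PT.nd (nat_lit 78) (PT.lf (nat_lit 6840) (nat_lit 6) (nat_lit 90) (nat_lit 1) (nat_lit 145) (nat_lit 104) (nat_lit 141)) (PT.lf (nat_lit 6764) (nat_lit 6) (nat_lit 89) (nat_lit 1) (nat_lit 146) (nat_lit 104) (nat_lit 140))))) (PT.nd (nat_lit 40092) (PT.nd (nat_lit 39936) (PT.lf (nat_lit 6688) (nat_lit 6) (nat_lit 88) (nat_lit 1) (nat_lit 147) (nat_lit 104) (nat_lit 139)) (PT.nd (nat_lit 78) (PT.lf (nat_lit 7068) (nat_lit 6) (nat_lit 93) (nat_lit 3) (nat_lit 138) (nat_lit 105) (nat_lit 147)) (PT.lf (nat_lit 7144) (nat_lit 6) (nat_lit 94) (nat_lit 3) (nat_lit 139) (nat_lit 105) (nat_lit 146)))) (PT.nd (nat_lit 156) (PT.nd (nat_lit 78) (PT.lf (nat_lit 7220) (nat_lit 6) (nat_lit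 95) (nat_lit 3) (nat_lit 140) (nat_lit 105) (nat_lit 145)) (PT.lf (nat_lit 7296) (nat_lit 6) (nat_lit 96) (nat_lit 3) (nat_lit 141) (nat_lit 105) (nat_lit 144))) (PT.nd (nat_lit 78) (PT.lf (nat_lit 7372) (nat_lit 6) (nat_lit 97) (nat_lit 3) (nat_lit 142) (nat_lit 105) (nat_lit 143)) (PT.lf (nat_lit 7372) (nat_lit 6) (nat_lit 97) (nat_lit 1) (nat_lit 143) (nat_lit 105) (nat_lit 142))))))) (PT.nd (nat_lit 40716) (PT.nd (nat_lit 40248) (PT.nd (nat_lit 234) (PT.nd (nat_lit 78) (PT.lf (nat_lit 7296) (nat_lit 6) (nat_lit 96) (nat_lit 1) (nat_lit 144) (nat_lit 105) (nat_lit 141)) (PT.nd (nat_lit 78) (PT.lf (nat_lit 7220) (nat_lit 6) (nat_lit 95) (nat_lit 1) (nat_lit 145) (nat_lit 105) (nat_lit 140)) (PT.lf (nat_lit 7144) (nat_lit 6) (nat_lit 94) (nat_lit 1) (nat_lit 146) (nat_lit 105) (nat_lit 139)))) (PT.nd (nat_lit 39858) (PT.lf (nat_lit 7068) (nat_lit 6) (nat_lit 93) (nat_lit 1) (nat_lit 147) (nat_lit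 105) (nat_lit 138)) (PT.nd (nat_lit 78) (PT.lf (nat_lit 7448) (nat_lit 6) (nat_lit 98) (nat_lit 3) (nat_lit 137) (nat_lit 106) (nat_lit 147)) (PT.lf (nat_lit 7524) (nat_lit 6) (nat_lit 99) (nat_lit 3) (nat_lit 138) (nat_lit 106) (nat_lit 146))))) (PT.nd (nat_lit 234) (PT.nd (nat_lit 78) (PT.lf (nat_lit 7600) (nat_lit 6) (nat_lit 100) (nat_lit 3) (nat_lit 139) (nat_lit 106) (nat_lit 145)) (PT.nd (nat_lit 78) (PT.lf (nat_lit 7676) (nat_lit 6) (nat_lit 101) (nat_lit 3) (nat_lit 140) (nat_lit 106) (nat_lit 144)) (PT.lf (nat_lit 7752) (nat_lit 6) (nat_lit 102) (nat_lit 3) (nat_lit 141) (nat_lit 106) (nat_lit 143)))) (PT.nd (nat_lit 78) (PT.lf (nat_lit 7828) (nat_lit 3) (nat_lit 103) (nat_lit 1) (nat_lit 142) (nat_lit 106) (nat_lit 142)) (PT.nd (nat_lit 78) (PT.lf (nat_lit 7752) (nat_lit 6) (nat_lit 102) (nat_lit 1) (nat_lit 143) (nat_lit 106) (nat_lit 141)) (PT.lf (nat_lit 7676) (nat_lit 6) (nat_lit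 101) (nat_lit 1) (nat_lit 144) (nat_lit 106) (nat_lit 140)))))) (PT.nd (nat_lit 40170) (PT.nd (nat_lit 39936) (PT.nd (nat_lit 78) (PT.lf (nat_lit 7600) (nat_lit 6) (nat_lit 100) (nat_lit 1) (nat_lit 145) (nat_lit 106) (nat_lit 139)) (PT.nd (nat_lit 78) (PT.lf (nat_lit 7524) (nat_lit 6) (nat_lit 99) (nat_lit 1) (nat_lit 146) (nat_lit 106) (nat_lit 138)) (PT.lf (nat_lit 7448) (nat_lit 6) (nat_lit 98) (nat_lit 1) (nat_lit 147) (nat_lit 106) (nat_lit 137)))) (PT.nd (nat_lit 78) (PT.lf (nat_lit 7904) (nat_lit 6) (nat_lit 104) (nat_lit 3) (nat_lit 136) (nat_lit 107) (nat_lit 147)) (PT.nd (nat_lit 78) (PT.lf (nat_lit 7980) (nat_lit 6) (nat_lit 105) (nat_lit 3) (nat_lit 137) (nat_lit 107) (nat_lit 146)) (PT.lf (nat_lit 8056) (nat_lit 6) (nat_lit 106) (nat_lit 3) (nat_lit 138) (nat_lit 107) (nat_lit 145))))) (PT.nd (nat_lit 234) (PT.nd (nat_lit 78) (PT.lf (nat_lit 8132) (nat_lit 6) (nat_lit 107) (nat_lit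 3) (nat_lit 139) (nat_lit 107) (nat_lit 144)) (PT.nd (nat_lit 78) (PT.lf (nat_lit 8208) (nat_lit 6) (nat_lit 108) (nat_lit 3) (nat_lit 140) (nat_lit 107) (nat_lit 143)) (PT.lf (nat_lit 8284) (nat_lit 6) (nat_lit 109) (nat_lit 3) (nat_lit 141) (nat_lit 107) (nat_lit 142)))) (PT.nd (nat_lit 156) (PT.nd (nat_lit 78) (PT.lf (nat_lit 8284) (nat_lit 6) (nat_lit 109) (nat_lit 1) (nat_lit 142) (nat_lit 107) (nat_lit 141)) (PT.lf (nat_lit 8208) (nat_lit 6) (nat_lit 108) (nat_lit 1) (nat_lit 143) (nat_lit 107) (nat_lit 140))) (PT.nd (nat_lit 78) (PT.lf (nat_lit 8132) (nat_lit 6) (nat_lit 107) (nat_lit 1) (nat_lit 144) (nat_lit 107) (nat_lit 139)) (PT.lf (nat_lit 8056) (nat_lit 6) (nat_lit 106) (nat_lit 1) (nat_lit 145) (nat_lit 107) (nat_lit 138))))))))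
noncomputable def pc4 : PT := (PT.nd (nat_lit 81276) (PT.nd (nat_lit 40638) (PT.nd (nat_lit 40170) (PT.nd (nat_lit 39936) (PT.nd (nat_lit 78) (PT.lf (nat_lit 7980) (nat_lit 6) (nat_lit 105) (nat_lit 1) (nat_lit 146) (nat_lit 107) (nat_lit 137)) (PT.nd (nat_lit 39780) (PT.lf (nat_lit 7904) (nat_lit 6) (nat_lit 104) (nat_lit 1) (nat_lit 147) (nat_lit 107) (nat_lit 136)) (PT.lf (nat_lit 8360) (nat_lit 6) (nat_lit 110) (nat_lit 3) (nat_lit 136) (nat_lit 108) (nat_lit 146)))) (PT.nd (nat_lit 78) (PT.lf (nat_lit 8436) (nat_lit 6) (nat_lit 111) (nat_lit 3) (nat_lit 137) (nat_lit 108) (nat_lit 145)) (PT.nd (nat_lit 78) (PT.lf (nat_lit 8512) (nat_lit 6) (nat_lit 112) (nat_lit 3) (nat_lit 138) (nat_lit 108) (nat_lit 144)) (PT.lf (nat_lit 8588) (nat_lit 6) (nat_lit 113) (nat_lit 3) (nat_lit 139) (nat_lit 108) (nat_lit 143))))) (PT.nd (nat_lit 234) (PT.nd (nat_lit 78) (PT.lf (nat_lit 8664) (nat_lit 6) (nat_lit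 114) (nat_lit 3) (nat_lit 140) (nat_lit 108) (nat_lit 142)) (PT.nd (nat_lit 78) (PT.lf (nat_lit 8740) (nat_lit 3) (nat_lit 115) (nat_lit 1) (nat_lit 141) (nat_lit 108) (nat_lit 141)) (PT.lf (nat_lit 8664) (nat_lit 6) (nat_lit 114) (nat_lit 1) (nat_lit 142) (nat_lit 108) (nat_lit 140)))) (PT.nd (nat_lit 78) (PT.lf (nat_lit 8588) (nat_lit 6) (nat_lit 113) (nat_lit 1) (nat_lit 143) (nat_lit 108) (nat_lit 139)) (PT.nd (nat_lit 78) (PT.lf (nat_lit 8512) (nat_lit 6) (nat_lit 112) (nat_lit 1) (nat_lit 144) (nat_lit 108) (nat_lit 138)) (PT.lf (nat_lit 8436) (nat_lit 6) (nat_lit 111) (nat_lit 1) (nat_lit 145) (nat_lit 108) (nat_lit 137)))))) (PT.nd (nat_lit 40170) (PT.nd (nat_lit 39936) (PT.nd (nat_lit 39780) (PT.lf (nat_lit 8360) (nat_lit 6) (nat_lit 110) (nat_lit 1) (nat_lit 146) (nat_lit 108) (nat_lit 136)) (PT.nd (nat_lit 78) (PT.lf (nat_lit 8816) (nat_lit 6) (nat_lit 116) (nat_lit 3) (nat_lit 135)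 (nat_lit 109) (nat_lit 146)) (PT.lf (nat_lit 8892) (nat_lit 6) (nat_lit 117) (nat_lit 3) (nat_lit 136) (nat_lit 109) (nat_lit 145)))) (PT.nd (nat_lit 78) (PT.lf (nat_lit 8968) (nat_lit 6) (nat_lit 118) (nat_lit 3) (nat_lit 137) (nat_lit 109) (nat_lit 144)) (PT.nd (nat_lit 78) (PT.lf (nat_lit 9044) (nat_lit 6) (nat_lit 119) (nat_lit 3) (nat_lit 138) (nat_lit 109) (nat_lit 143)) (PT.lf (nat_lit 9120) (nat_lit 6) (nat_lit 120) (nat_lit 3) (nat_lit 139) (nat_lit 109) (nat_lit 142))))) (PT.nd (nat_lit 234) (PT.nd (nat_lit 78) (PT.lf (nat_lit 9196) (nat_lit 6) (nat_lit 121) (nat_lit 3) (nat_lit 140) (nat_lit 109) (nat_lit 141)) (PT.nd (nat_lit 78) (PT.lf (nat_lit 9196) (nat_lit 6) (nat_lit 121) (nat_lit 1) (nat_lit 141) (nat_lit 109) (nat_lit 140)) (PT.lf (nat_lit 9120) (nat_lit 6) (nat_lit 120) (nat_lit 1) (nat_lit 142) (nat_lit 109) (nat_lit 139)))) (PT.nd (nat_lit 78) (PT.lf (nat_lit 9044) (nat_lit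 6) (nat_lit 119) (nat_lit 1) (nat_lit 143) (nat_lit 109) (nat_lit 138)) (PT.nd (nat_lit 78) (PT.lf (nat_lit 8968) (nat_lit 6) (nat_lit 118) (nat_lit 1) (nat_lit 144) (nat_lit 109) (nat_lit 137)) (PT.lf (nat_lit 8892) (nat_lit 6) (nat_lit 117) (nat_lit 1) (nat_lit 145) (nat_lit 109) (nat_lit 136))))))) (PT.nd (nat_lit 40560) (PT.nd (nat_lit 40092) (PT.nd (nat_lit 39858) (PT.nd (nat_lit 39702) (PT.lf (nat_lit 8816) (nat_lit 6) (nat_lit 116) (nat_lit 1) (nat_lit 146) (nat_lit 109) (nat_lit 135)) (PT.nd (nat_lit 78) (PT.lf (nat_lit 9272) (nat_lit 6) (nat_lit 122) (nat_lit 3) (nat_lit 134) (nat_lit 110) (nat_lit 146)) (PT.lf (nat_lit 9348) (nat_lit 6) (nat_lit 123) (nat_lit 3) (nat_lit 135) (nat_lit 110) (nat_lit 145)))) (PT.nd (nat_lit 78) (PT.lf (nat_lit 9424) (nat_lit 6) (nat_lit 124) (nat_lit 3) (nat_lit 136) (nat_lit 110) (nat_lit 144)) (PT.nd (nat_lit 78) (PT.lf (nat_lit 9500) (nat_lit 6) (nat_lit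 125) (nat_lit 3) (nat_lit 137) (nat_lit 110) (nat_lit 143)) (PT.lf (nat_lit 9576) (nat_lit 6) (nat_lit 126) (nat_lit 3) (nat_lit 138) (nat_lit 110) (nat_lit 142))))) (PT.nd (nat_lit 234) (PT.nd (nat_lit 78) (PT.lf (nat_lit 9652) (nat_lit 6) (nat_lit 127) (nat_lit 3) (nat_lit 139) (nat_lit 110) (nat_lit 141)) (PT.nd (nat_lit 78) (PT.lf (nat_lit 9728) (nat_lit 3) (nat_lit 128) (nat_lit 1) (nat_lit 140) (nat_lit 110) (nat_lit 140)) (PT.lf (nat_lit 9652) (nat_lit 6) (nat_lit 127) (nat_lit 1) (nat_lit 141) (nat_lit 110) (nat_lit 139)))) (PT.nd (nat_lit 78) (PT.lf (nat_lit 9576) (nat_lit 6) (nat_lit 126) (nat_lit 1) (nat_lit 142) (nat_lit 110) (nat_lit 138)) (PT.nd (nat_lit 78) (PT.lf (nat_lit 9500) (nat_lit 6) (nat_lit 125) (nat_lit 1) (nat_lit 143) (nat_lit 110) (nat_lit 137)) (PT.lf (nat_lit 9424) (nat_lit 6) (nat_lit 124) (nat_lit 1) (nat_lit 144) (nat_lit 110) (nat_lit 136)))))) (PT.nd (nat_lit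 40014) (PT.nd (nat_lit 39780) (PT.nd (nat_lit 78) (PT.lf (nat_lit 9348) (nat_lit 6) (nat_lit 123) (nat_lit 1) (nat_lit 145) (nat_lit 110) (nat_lit 135)) (PT.nd (nat_lit 39624) (PT.lf (nat_lit 9272) (nat_lit 6) (nat_lit 122) (nat_lit 1) (nat_lit 146) (nat_lit 110) (nat_lit 134)) (PT.lf (nat_lit 9804) (nat_lit 6) (nat_lit 129) (nat_lit 3) (nat_lit 133) (nat_lit 111) (nat_lit 146)))) (PT.nd (nat_lit 78) (PT.lf (nat_lit 9880) (nat_lit 6) (nat_lit 130) (nat_lit 3) (nat_lit 134) (nat_lit 111) (nat_lit 145)) (PT.nd (nat_lit 78) (PT.lf (nat_lit 9956) (nat_lit 6) (nat_lit 131) (nat_lit 3) (nat_lit 135) (nat_lit 111) (nat_lit 144)) (PT.lf (nat_lit 10032) (nat_lit 6) (nat_lit 132) (nat_lit 3) (nat_lit 136) (nat_lit 111) (nat_lit 143))))) (PT.nd (nat_lit 234) (PT.nd (nat_lit 78) (PT.lf (nat_lit 10108) (nat_lit 6) (nat_lit 133) (nat_lit 3) (nat_lit 137) (nat_lit 111) (nat_lit 142)) (PT.nd (nat_lit 78) (PT.lf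 (nat_lit 10184) (nat_lit 6) (nat_lit 134) (nat_lit 3) (nat_lit 138) (nat_lit 111) (nat_lit 141)) (PT.lf (nat_lit 10260) (nat_lit 6) (nat_lit 135) (nat_lit 3) (nat_lit 139) (nat_lit 111) (nat_lit 140)))) (PT.nd (nat_lit 156) (PT.nd (nat_lit 78) (PT.lf (nat_lit 10260) (nat_lit 6) (nat_lit 135) (nat_lit 1) (nat_lit 140) (nat_lit 111) (nat_lit 139)) (PT.lf (nat_lit 10184) (nat_lit 6) (nat_lit 134) (nat_lit 1) (nat_lit 141) (nat_lit 111) (nat_lit 138))) (PT.nd (nat_lit 78) (PT.lf (nat_lit 10108) (nat_lit 6) (nat_lit 133) (nat_lit 1) (nat_lit 142) (nat_lit 111) (nat_lit 137)) (PT.lf (nat_lit 10032) (nat_lit 6) (nat_lit 132) (nat_lit 1) (nat_lit 143) (nat_lit 111) (nat_lit 136))))))))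
noncomputable def pc5 : PT := (PT.nd (nat_lit 80886) (PT.nd (nat_lit 40404) (PT.nd (nat_lit 39936) (PT.nd (nat_lit 39702) (PT.nd (nat_lit 78) (PT.lf (nat_lit 9956) (nat_lit 6) (nat_lit 131) (nat_lit 1) (nat_lit 144) (nat_lit 111) (nat_lit 135)) (PT.nd (nat_lit 78) (PT.lf (nat_lit 9880) (nat_lit 6) (nat_lit 130) (nat_lit 1) (nat_lit 145) (nat_lit 111) (nat_lit 134)) (PT.lf (nat_lit 9804) (nat_lit 6) (nat_lit 129) (nat_lit 1) (nat_lit 146) (nat_lit 111) (nat_lit 133)))) (PT.nd (nat_lit 78) (PT.lf (nat_lit 10336) (nat_lit 6) (nat_lit 136) (nat_lit 3) (nat_lit 132) (nat_lit 112) (nat_lit 146)) (PT.nd (nat_lit 78) (PT.lf (nat_lit 10412) (nat_lit 6) (nat_lit 137) (nat_lit 3) (nat_lit 133) (nat_lit 112) (nat_lit 145)) (PT.lf (nat_lit 10488) (nat_lit 6) (nat_lit 138) (nat_lit 3) (nat_lit 134) (nat_lit 112) (nat_lit 144))))) (PT.nd (nat_lit 234) (PT.nd (nat_lit 78) (PT.lf (nat_lit 10564) (nat_lit 6) (nat_lit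 139) (nat_lit 3) (nat_lit 135) (nat_lit 112) (nat_lit 143)) (PT.nd (nat_lit 78) (PT.lf (nat_lit 10640) (nat_lit 6) (nat_lit 140) (nat_lit 3) (nat_lit 136) (nat_lit 112) (nat_lit 142)) (PT.lf (nat_lit 10716) (nat_lit 6) (nat_lit 141) (nat_lit 3) (nat_lit 137) (nat_lit 112) (nat_lit 141)))) (PT.nd (nat_lit 78) (PT.lf (nat_lit 10792) (nat_lit 6) (nat_lit 142) (nat_lit 3) (nat_lit 138) (nat_lit 112) (nat_lit 140)) (PT.nd (nat_lit 78) (PT.lf (nat_lit 10868) (nat_lit 3) (nat_lit 143) (nat_lit 1) (nat_lit 139) (nat_lit 112) (nat_lit 139)) (PT.lf (nat_lit 10792) (nat_lit 6) (nat_lit 142) (nat_lit 1) (nat_lit 140) (nat_lit 112) (nat_lit 138)))))) (PT.nd (nat_lit 39936) (PT.nd (nat_lit 234) (PT.nd (nat_lit 78) (PT.lf (nat_lit 10716) (nat_lit 6) (nat_lit 141) (nat_lit 1) (nat_lit 141) (nat_lit 112) (nat_lit 137)) (PT.nd (nat_lit 78) (PT.lf (nat_lit 10640) (nat_lit 6) (nat_lit 140) (nat_lit 1) (nat_lit 142)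 (nat_lit 112) (nat_lit 136)) (PT.lf (nat_lit 10564) (nat_lit 6) (nat_lit 139) (nat_lit 1) (nat_lit 143) (nat_lit 112) (nat_lit 135)))) (PT.nd (nat_lit 78) (PT.lf (nat_lit 10488) (nat_lit 6) (nat_lit 138) (nat_lit 1) (nat_lit 144) (nat_lit 112) (nat_lit 134)) (PT.nd (nat_lit 78) (PT.lf (nat_lit 10412) (nat_lit 6) (nat_lit 137) (nat_lit 1) (nat_lit 145) (nat_lit 112) (nat_lit 133)) (PT.lf (nat_lit 10336) (nat_lit 6) (nat_lit 136) (nat_lit 1) (nat_lit 146) (nat_lit 112) (nat_lit 132))))) (PT.nd (nat_lit 234) (PT.nd (nat_lit 78) (PT.lf (nat_lit 10944) (nat_lit 6) (nat_lit 144) (nat_lit 3) (nat_lit 132) (nat_lit 113) (nat_lit 145)) (PT.nd (nat_lit 78) (PT.lf (nat_lit 11020) (nat_lit 6) (nat_lit 145) (nat_lit 3) (nat_lit 133) (nat_lit 113) (nat_lit 144)) (PT.lf (nat_lit 11096) (nat_lit 6) (nat_lit 146) (nat_lit 3) (nat_lit 134) (nat_lit 113) (nat_lit 143)))) (PT.nd (nat_lit 156) (PT.nd (nat_lit 78) (PT.lf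 (nat_lit 11172) (nat_lit 6) (nat_lit 147) (nat_lit 3) (nat_lit 135) (nat_lit 113) (nat_lit 142)) (PT.lf (nat_lit 11248) (nat_lit 6) (nat_lit 148) (nat_lit 3) (nat_lit 136) (nat_lit 113) (nat_lit 141))) (PT.nd (nat_lit 78) (PT.lf (nat_lit 11324) (nat_lit 6) (nat_lit 149) (nat_lit 3) (nat_lit 137) (nat_lit 113) (nat_lit 140)) (PT.lf (nat_lit 11400) (nat_lit 6) (nat_lit 150) (nat_lit 3) (nat_lit 138) (nat_lit 113) (nat_lit 139))))))) (PT.nd (nat_lit 40404) (PT.nd (nat_lit 468) (PT.nd (nat_lit 234) (PT.nd (nat_lit 78) (PT.lf (nat_lit 11400) (nat_lit 6) (nat_lit 150) (nat_lit 1) (nat_lit 139) (nat_lit 113) (nat_lit 138)) (PT.nd (nat_lit 78) (PT.lf (nat_lit 11324) (nat_lit 6) (nat_lit 149) (nat_lit 1) (nat_lit 140) (nat_lit 113) (nat_lit 137)) (PT.lf (nat_lit 11248) (nat_lit 6) (nat_lit 148) (nat_lit 1) (nat_lit 141) (nat_lit 113) (nat_lit 136)))) (PT.nd (nat_lit 78) (PT.lf (nat_lit 11172) (nat_lit 6)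 (nat_lit 147) (nat_lit 1) (nat_lit 142) (nat_lit 113) (nat_lit 135)) (PT.nd (nat_lit 78) (PT.lf (nat_lit 11096) (nat_lit 6) (nat_lit 146) (nat_lit 1) (nat_lit 143) (nat_lit 113) (nat_lit 134)) (PT.lf (nat_lit 11020) (nat_lit 6) (nat_lit 145) (nat_lit 1) (nat_lit 144) (nat_lit 113) (nat_lit 133))))) (PT.nd (nat_lit 39702) (PT.nd (nat_lit 39546) (PT.lf (nat_lit 10944) (nat_lit 6) (nat_lit 144) (nat_lit 1) (nat_lit 145) (nat_lit 113) (nat_lit 132)) (PT.nd (nat_lit 78) (PT.lf (nat_lit 11476) (nat_lit 6) (nat_lit 151) (nat_lit 3) (nat_lit 131) (nat_lit 114) (nat_lit 145)) (PT.lf (nat_lit 11552) (nat_lit 6) (nat_lit 152) (nat_lit 3) (nat_lit 132) (nat_lit 114) (nat_lit 144)))) (PT.nd (nat_lit 78) (PT.lf (nat_lit 11628) (nat_lit 6) (nat_lit 153) (nat_lit 3) (nat_lit 133) (nat_lit 114) (nat_lit 143)) (PT.nd (nat_lit 78) (PT.lf (nat_lit 11704) (nat_lit 6) (nat_lit 154) (nat_lit 3) (nat_lit 134) (nat_lit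 114) (nat_lit 142)) (PT.lf (nat_lit 11780) (nat_lit 6) (nat_lit 155) (nat_lit 3) (nat_lit 135) (nat_lit 114) (nat_lit 141)))))) (PT.nd (nat_lit 468) (PT.nd (nat_lit 234) (PT.nd (nat_lit 78) (PT.lf (nat_lit 11856) (nat_lit 6) (nat_lit 156) (nat_lit 3) (nat_lit 136) (nat_lit 114) (nat_lit 140)) (PT.nd (nat_lit 78) (PT.lf (nat_lit 11932) (nat_lit 6) (nat_lit 157) (nat_lit 3) (nat_lit 137) (nat_lit 114) (nat_lit 139)) (PT.lf (nat_lit 12008) (nat_lit 3) (nat_lit 158) (nat_lit 1) (nat_lit 138) (nat_lit 114) (nat_lit 138)))) (PT.nd (nat_lit 78) (PT.lf (nat_lit 11932) (nat_lit 6) (nat_lit 157) (nat_lit 1) (nat_lit 139) (nat_lit 114) (nat_lit 137)) (PT.nd (nat_lit 78) (PT.lf (nat_lit 11856) (nat_lit 6) (nat_lit 156) (nat_lit 1) (nat_lit 140) (nat_lit 114) (nat_lit 136)) (PT.lf (nat_lit 11780) (nat_lit 6) (nat_lit 155) (nat_lit 1) (nat_lit 141) (nat_lit 114) (nat_lit 135))))) (PT.nd (nat_lit 234) (PT.nd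 (nat_lit 78) (PT.lf (nat_lit 11704) (nat_lit 6) (nat_lit 154) (nat_lit 1) (nat_lit 142) (nat_lit 114) (nat_lit 134)) (PT.nd (nat_lit 78) (PT.lf (nat_lit 11628) (nat_lit 6) (nat_lit 153) (nat_lit 1) (nat_lit 143) (nat_lit 114) (nat_lit 133)) (PT.lf (nat_lit 11552) (nat_lit 6) (nat_lit 152) (nat_lit 1) (nat_lit 144) (nat_lit 114) (nat_lit 132)))) (PT.nd (nat_lit 39546) (PT.nd (nat_lit 39468) (PT.lf (nat_lit 11476) (nat_lit 6) (nat_lit 151) (nat_lit 1) (nat_lit 145) (nat_lit 114) (nat_lit 131)) (PT.lf (nat_lit 12540) (nat_lit 6) (nat_lit 165) (nat_lit 3) (nat_lit 130) (nat_lit 115) (nat_lit 145))) (PT.nd (nat_lit 78) (PT.lf (nat_lit 12616) (nat_lit 6) (nat_lit 166) (nat_lit 3) (nat_lit 131) (nat_lit 115) (nat_lit 144)) (PT.lf (nat_lit 12692) (nat_lit 6) (nat_lit 167) (nat_lit 3) (nat_lit 132) (nat_lit 115) (nat_lit 143))))))))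
noncomputable def pc6 : PT := (PT.nd (nat_lit 41262) (PT.nd (nat_lit 936) (PT.nd (nat_lit 468) (PT.nd (nat_lit 234) (PT.nd (nat_lit 78) (PT.lf (nat_lit 12768) (nat_lit 6) (nat_lit 168) (nat_lit 3) (nat_lit 133) (nat_lit 115) (nat_lit 142)) (PT.nd (nat_lit 78) (PT.lf (nat_lit 12844) (nat_lit 6) (nat_lit 169) (nat_lit 3) (nat_lit 134) (nat_lit 115) (nat_lit 141)) (PT.lf (nat_lit 12920) (nat_lit 6) (nat_lit 170) (nat_lit 3) (nat_lit 135) (nat_lit 115) (nat_lit 140)))) (PT.nd (nat_lit 78) (PT.lf (nat_lit 12996) (nat_lit 6) (nat_lit 171) (nat_lit 3) (nat_lit 136) (nat_lit 115) (nat_lit 139)) (PT.nd (nat_lit 78) (PT.lf (nat_lit 13072) (nat_lit 6) (nat_lit 172) (nat_lit 3) (nat_lit 137) (nat_lit 115) (nat_lit 138)) (PT.lf (nat_lit 13072) (nat_lit 6) (nat_lit 172) (nat_lit 1) (nat_lit 138) (nat_lit 115) (nat_lit 137))))) (PT.nd (nat_lit 234) (PT.nd (nat_lit 78) (PT.lf (nat_lit 12996) (nat_lit 6) (nat_lit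 171) (nat_lit 1) (nat_lit 139) (nat_lit 115) (nat_lit 136)) (PT.nd (nat_lit 78) (PT.lf (nat_lit 12920) (nat_lit 6) (nat_lit 170) (nat_lit 1) (nat_lit 140) (nat_lit 115) (nat_lit 135)) (PT.lf (nat_lit 12844) (nat_lit 6) (nat_lit 169) (nat_lit 1) (nat_lit 141) (nat_lit 115) (nat_lit 134)))) (PT.nd (nat_lit 78) (PT.lf (nat_lit 12768) (nat_lit 6) (nat_lit 168) (nat_lit 1) (nat_lit 142) (nat_lit 115) (nat_lit 133)) (PT.nd (nat_lit 78) (PT.lf (nat_lit 12692) (nat_lit 6) (nat_lit 167) (nat_lit 1) (nat_lit 143) (nat_lit 115) (nat_lit 132)) (PT.lf (nat_lit 12616) (nat_lit 6) (nat_lit 166) (nat_lit 1) (nat_lit 144) (nat_lit 115) (nat_lit 131)))))) (PT.nd (nat_lit 39780) (PT.nd (nat_lit 39546) (PT.nd (nat_lit 39390) (PT.lf (nat_lit 12540) (nat_lit 6) (nat_lit 165) (nat_lit 1) (nat_lit 145) (nat_lit 115) (nat_lit 130)) (PT.nd (nat_lit 78) (PT.lf (nat_lit 12464) (nat_lit 6) (nat_lit 164) (nat_lit 3) (nat_lit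 129) (nat_lit 116) (nat_lit 145)) (PT.lf (nat_lit 13680) (nat_lit 6) (nat_lit 180) (nat_lit 3) (nat_lit 130) (nat_lit 116) (nat_lit 144)))) (PT.nd (nat_lit 78) (PT.lf (nat_lit 13756) (nat_lit 6) (nat_lit 181) (nat_lit 3) (nat_lit 131) (nat_lit 116) (nat_lit 143)) (PT.nd (nat_lit 78) (PT.lf (nat_lit 13832) (nat_lit 6) (nat_lit 182) (nat_lit 3) (nat_lit 132) (nat_lit 116) (nat_lit 142)) (PT.lf (nat_lit 13908) (nat_lit 6) (nat_lit 183) (nat_lit 3) (nat_lit 133) (nat_lit 116) (nat_lit 141))))) (PT.nd (nat_lit 234) (PT.nd (nat_lit 78) (PT.lf (nat_lit 13984) (nat_lit 6) (nat_lit 184) (nat_lit 3) (nat_lit 134) (nat_lit 116) (nat_lit 140)) (PT.nd (nat_lit 78) (PT.lf (nat_lit 14060) (nat_lit 6) (nat_lit 185) (nat_lit 3) (nat_lit 135) (nat_lit 116) (nat_lit 139)) (PT.lf (nat_lit 14136) (nat_lit 6) (nat_lit 186) (nat_lit 3) (nat_lit 136) (nat_lit 116) (nat_lit 138)))) (PT.nd (nat_lit 156) (PT.nd (nat_lit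 78) (PT.lf (nat_lit 14212) (nat_lit 3) (nat_lit 187) (nat_lit 1) (nat_lit 137) (nat_lit 116) (nat_lit 137)) (PT.lf (nat_lit 14136) (nat_lit 6) (nat_lit 186) (nat_lit 1) (nat_lit 138) (nat_lit 116) (nat_lit 136))) (PT.nd (nat_lit 78) (PT.lf (nat_lit 14060) (nat_lit 6) (nat_lit 185) (nat_lit 1) (nat_lit 139) (nat_lit 116) (nat_lit 135)) (PT.lf (nat_lit 13984) (nat_lit 6) (nat_lit 184) (nat_lit 1) (nat_lit 140) (nat_lit 116) (nat_lit 134))))))) (PT.nd (nat_lit 40170) (PT.nd (nat_lit 39702) (PT.nd (nat_lit 234) (PT.nd (nat_lit 78) (PT.lf (nat_lit 13908) (nat_lit 6) (nat_lit 183) (nat_lit 1) (nat_lit 141) (nat_lit 116) (nat_lit 133)) (PT.nd (nat_lit 78) (PT.lf (nat_lit 13832) (nat_lit 6) (nat_lit 182) (nat_lit 1) (nat_lit 142) (nat_lit 116) (nat_lit 132)) (PT.lf (nat_lit 13756) (nat_lit 6) (nat_lit 181) (nat_lit 1) (nat_lit 143) (nat_lit 116) (nat_lit 131)))) (PT.nd (nat_lit 78) (PT.lf (nat_lit 13680)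 (nat_lit 6) (nat_lit 180) (nat_lit 1) (nat_lit 144) (nat_lit 116) (nat_lit 130)) (PT.nd (nat_lit 39312) (PT.lf (nat_lit 12464) (nat_lit 6) (nat_lit 164) (nat_lit 1) (nat_lit 145) (nat_lit 116) (nat_lit 129)) (PT.lf (nat_lit 12388) (nat_lit 6) (nat_lit 163) (nat_lit 3) (nat_lit 128) (nat_lit 117) (nat_lit 145))))) (PT.nd (nat_lit 234) (PT.nd (nat_lit 78) (PT.lf (nat_lit 13604) (nat_lit 6) (nat_lit 179) (nat_lit 3) (nat_lit 129) (nat_lit 117) (nat_lit 144)) (PT.nd (nat_lit 78) (PT.lf (nat_lit 14744) (nat_lit 6) (nat_lit 194) (nat_lit 3) (nat_lit 130) (nat_lit 117) (nat_lit 143)) (PT.lf (nat_lit 14820) (nat_lit 6) (nat_lit 195) (nat_lit 3) (nat_lit 131) (nat_lit 117) (nat_lit 142)))) (PT.nd (nat_lit 78) (PT.lf (nat_lit 14896) (nat_lit 6) (nat_lit 196) (nat_lit 3) (nat_lit 132) (nat_lit 117) (nat_lit 141)) (PT.nd (nat_lit 78) (PT.lf (nat_lit 14972) (nat_lit 6) (nat_lit 197) (nat_lit 3) (nat_lit 133)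 (nat_lit 117) (nat_lit 140)) (PT.lf (nat_lit 15048) (nat_lit 6) (nat_lit 198) (nat_lit 3) (nat_lit 134) (nat_lit 117) (nat_lit 139)))))) (PT.nd (nat_lit 468) (PT.nd (nat_lit 234) (PT.nd (nat_lit 78) (PT.lf (nat_lit 15124) (nat_lit 6) (nat_lit 199) (nat_lit 3) (nat_lit 135) (nat_lit 117) (nat_lit 138)) (PT.nd (nat_lit 78) (PT.lf (nat_lit 15200) (nat_lit 6) (nat_lit 200) (nat_lit 3) (nat_lit 136) (nat_lit 117) (nat_lit 137)) (PT.lf (nat_lit 15200) (nat_lit 6) (nat_lit 200) (nat_lit 1) (nat_lit 137) (nat_lit 117) (nat_lit 136)))) (PT.nd (nat_lit 78) (PT.lf (nat_lit 15124) (nat_lit 6) (nat_lit 199) (nat_lit 1) (nat_lit 138) (nat_lit 117) (nat_lit 135)) (PT.nd (nat_lit 78) (PT.lf (nat_lit 15048) (nat_lit 6) (nat_lit 198) (nat_lit 1) (nat_lit 139) (nat_lit 117) (nat_lit 134)) (PT.lf (nat_lit 14972) (nat_lit 6) (nat_lit 197) (nat_lit 1) (nat_lit 140) (nat_lit 117) (nat_lit 133))))) (PT.nd (nat_lit 234)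 (PT.nd (nat_lit 78) (PT.lf (nat_lit 14896) (nat_lit 6) (nat_lit 196) (nat_lit 1) (nat_lit 141) (nat_lit 117) (nat_lit 132)) (PT.nd (nat_lit 78) (PT.lf (nat_lit 14820) (nat_lit 6) (nat_lit 195) (nat_lit 1) (nat_lit 142) (nat_lit 117) (nat_lit 131)) (PT.lf (nat_lit 14744) (nat_lit 6) (nat_lit 194) (nat_lit 1) (nat_lit 143) (nat_lit 117) (nat_lit 130)))) (PT.nd (nat_lit 39312) (PT.nd (nat_lit 78) (PT.lf (nat_lit 13604) (nat_lit 6) (nat_lit 179) (nat_lit 1) (nat_lit 144) (nat_lit 117) (nat_lit 129)) (PT.lf (nat_lit 12388) (nat_lit 6) (nat_lit 163) (nat_lit 1) (nat_lit 145) (nat_lit 117) (nat_lit 128))) (PT.nd (nat_lit 78) (PT.lf (nat_lit 12312) (nat_lit 6) (nat_lit 162) (nat_lit 3) (nat_lit 127) (nat_lit 118) (nat_lit 145)) (PT.lf (nat_lit 13528) (nat_lit 6) (nat_lit 178) (nat_lit 3) (nat_lit 128) (nat_lit 118) (nat_lit 144))))))))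
noncomputable def pc7 : PT := (PT.nd (nat_lit 41028) (PT.nd (nat_lit 936) (PT.nd (nat_lit 468) (PT.nd (nat_lit 234) (PT.nd (nat_lit 78) (PT.lf (nat_lit 14668) (nat_lit 6) (nat_lit 193) (nat_lit 3) (nat_lit 129) (nat_lit 118) (nat_lit 143)) (PT.nd (nat_lit 78) (PT.lf (nat_lit 15732) (nat_lit 6) (nat_lit 207) (nat_lit 3) (nat_lit 130) (nat_lit 118) (nat_lit 142)) (PT.lf (nat_lit 15808) (nat_lit 6) (nat_lit 208) (nat_lit 3) (nat_lit 131) (nat_lit 118) (nat_lit 141)))) (PT.nd (nat_lit 78) (PT.lf (nat_lit 15884) (nat_lit 6) (nat_lit 209) (nat_lit 3) (nat_lit 132) (nat_lit 118) (nat_lit 140)) (PT.nd (nat_lit 78) (PT.lf (nat_lit 15960) (nat_lit 6) (nat_lit 210) (nat_lit 3) (nat_lit 133) (nat_lit 118) (nat_lit 139)) (PT.lf (nat_lit 16036) (nat_lit 6) (nat_lit 211) (nat_lit 3) (nat_lit 134) (nat_lit 118) (nat_lit 138))))) (PT.nd (nat_lit 234) (PT.nd (nat_lit 78) (PT.lf (nat_lit 16112) (nat_lit 6) (nat_lit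 212) (nat_lit 3) (nat_lit 135) (nat_lit 118) (nat_lit 137)) (PT.nd (nat_lit 78) (PT.lf (nat_lit 16188) (nat_lit 3) (nat_lit 213) (nat_lit 1) (nat_lit 136) (nat_lit 118) (nat_lit 136)) (PT.lf (nat_lit 16112) (nat_lit 6) (nat_lit 212) (nat_lit 1) (nat_lit 137) (nat_lit 118) (nat_lit 135)))) (PT.nd (nat_lit 78) (PT.lf (nat_lit 16036) (nat_lit 6) (nat_lit 211) (nat_lit 1) (nat_lit 138) (nat_lit 118) (nat_lit 134)) (PT.nd (nat_lit 78) (PT.lf (nat_lit 15960) (nat_lit 6) (nat_lit 210) (nat_lit 1) (nat_lit 139) (nat_lit 118) (nat_lit 133)) (PT.lf (nat_lit 15884) (nat_lit 6) (nat_lit 209) (nat_lit 1) (nat_lit 140) (nat_lit 118) (nat_lit 132)))))) (PT.nd (nat_lit 39546) (PT.nd (nat_lit 234) (PT.nd (nat_lit 78) (PT.lf (nat_lit 15808) (nat_lit 6) (nat_lit 208) (nat_lit 1) (nat_lit 141) (nat_lit 118) (nat_lit 131)) (PT.nd (nat_lit 78) (PT.lf (nat_lit 15732) (nat_lit 6) (nat_lit 207) (nat_lit 1) (nat_lit 142)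 (nat_lit 118) (nat_lit 130)) (PT.lf (nat_lit 14668) (nat_lit 6) (nat_lit 193) (nat_lit 1) (nat_lit 143) (nat_lit 118) (nat_lit 129)))) (PT.nd (nat_lit 78) (PT.lf (nat_lit 13528) (nat_lit 6) (nat_lit 178) (nat_lit 1) (nat_lit 144) (nat_lit 118) (nat_lit 128)) (PT.nd (nat_lit 39156) (PT.lf (nat_lit 12312) (nat_lit 6) (nat_lit 162) (nat_lit 1) (nat_lit 145) (nat_lit 118) (nat_lit 127)) (PT.lf (nat_lit 12236) (nat_lit 6) (nat_lit 161) (nat_lit 3) (nat_lit 126) (nat_lit 119) (nat_lit 145))))) (PT.nd (nat_lit 234) (PT.nd (nat_lit 78) (PT.lf (nat_lit 13452) (nat_lit 6) (nat_lit 177) (nat_lit 3) (nat_lit 127) (nat_lit 119) (nat_lit 144)) (PT.nd (nat_lit 78) (PT.lf (nat_lit 14592) (nat_lit 6) (nat_lit 192) (nat_lit 3) (nat_lit 128) (nat_lit 119) (nat_lit 143)) (PT.lf (nat_lit 15656) (nat_lit 6) (nat_lit 206) (nat_lit 3) (nat_lit 129) (nat_lit 119) (nat_lit 142)))) (PT.nd (nat_lit 156) (PT.nd (nat_lit 78)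 (PT.lf (nat_lit 16644) (nat_lit 6) (nat_lit 219) (nat_lit 3) (nat_lit 130) (nat_lit 119) (nat_lit 141)) (PT.lf (nat_lit 16720) (nat_lit 6) (nat_lit 220) (nat_lit 3) (nat_lit 131) (nat_lit 119) (nat_lit 140))) (PT.nd (nat_lit 78) (PT.lf (nat_lit 16796) (nat_lit 6) (nat_lit 221) (nat_lit 3) (nat_lit 132) (nat_lit 119) (nat_lit 139)) (PT.lf (nat_lit 16872) (nat_lit 6) (nat_lit 222) (nat_lit 3) (nat_lit 133) (nat_lit 119) (nat_lit 138))))))) (PT.nd (nat_lit 39936) (PT.nd (nat_lit 468) (PT.nd (nat_lit 234) (PT.nd (nat_lit 78) (PT.lf (nat_lit 16948) (nat_lit 6) (nat_lit 223) (nat_lit 3) (nat_lit 134) (nat_lit 119) (nat_lit 137)) (PT.nd (nat_lit 78) (PT.lf (nat_lit 17024) (nat_lit 6) (nat_lit 224) (nat_lit 3) (nat_lit 135) (nat_lit 119) (nat_lit 136)) (PT.lf (nat_lit 17024) (nat_lit 6) (nat_lit 224) (nat_lit 1) (nat_lit 136) (nat_lit 119) (nat_lit 135)))) (PT.nd (nat_lit 78) (PT.lf (nat_lit 16948) (nat_lit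 6) (nat_lit 223) (nat_lit 1) (nat_lit 137) (nat_lit 119) (nat_lit 134)) (PT.nd (nat_lit 78) (PT.lf (nat_lit 16872) (nat_lit 6) (nat_lit 222) (nat_lit 1) (nat_lit 138) (nat_lit 119) (nat_lit 133)) (PT.lf (nat_lit 16796) (nat_lit 6) (nat_lit 221) (nat_lit 1) (nat_lit 139) (nat_lit 119) (nat_lit 132))))) (PT.nd (nat_lit 234) (PT.nd (nat_lit 78) (PT.lf (nat_lit 16720) (nat_lit 6) (nat_lit 220) (nat_lit 1) (nat_lit 140) (nat_lit 119) (nat_lit 131)) (PT.nd (nat_lit 78) (PT.lf (nat_lit 16644) (nat_lit 6) (nat_lit 219) (nat_lit 1) (nat_lit 141) (nat_lit 119) (nat_lit 130)) (PT.lf (nat_lit 15656) (nat_lit 6) (nat_lit 206) (nat_lit 1) (nat_lit 142) (nat_lit 119) (nat_lit 129)))) (PT.nd (nat_lit 78) (PT.lf (nat_lit 14592) (nat_lit 6) (nat_lit 192) (nat_lit 1) (nat_lit 143) (nat_lit 119) (nat_lit 128)) (PT.nd (nat_lit 78) (PT.lf (nat_lit 13452) (nat_lit 6) (nat_lit 177) (nat_lit 1) (nat_lit 144) (nat_lit 119)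 (nat_lit 127)) (PT.lf (nat_lit 12236) (nat_lit 6) (nat_lit 161) (nat_lit 1) (nat_lit 145) (nat_lit 119) (nat_lit 126)))))) (PT.nd (nat_lit 468) (PT.nd (nat_lit 234) (PT.nd (nat_lit 78) (PT.lf (nat_lit 12160) (nat_lit 6) (nat_lit 160) (nat_lit 3) (nat_lit 125) (nat_lit 120) (nat_lit 145)) (PT.nd (nat_lit 78) (PT.lf (nat_lit 13376) (nat_lit 6) (nat_lit 176) (nat_lit 3) (nat_lit 126) (nat_lit 120) (nat_lit 144)) (PT.lf (nat_lit 14516) (nat_lit 6) (nat_lit 191) (nat_lit 3) (nat_lit 127) (nat_lit 120) (nat_lit 143)))) (PT.nd (nat_lit 78) (PT.lf (nat_lit 15580) (nat_lit 6) (nat_lit 205) (nat_lit 3) (nat_lit 128) (nat_lit 120) (nat_lit 142)) (PT.nd (nat_lit 78) (PT.lf (nat_lit 16568) (nat_lit 6) (nat_lit 218) (nat_lit 3) (nat_lit 129) (nat_lit 120) (nat_lit 141)) (PT.lf (nat_lit 17480) (nat_lit 6) (nat_lit 230) (nat_lit 3) (nat_lit 130) (nat_lit 120) (nat_lit 140))))) (PT.nd (nat_lit 234) (PT.nd (nat_lit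 78) (PT.lf (nat_lit 17556) (nat_lit 6) (nat_lit 231) (nat_lit 3) (nat_lit 131) (nat_lit 120) (nat_lit 139)) (PT.nd (nat_lit 78) (PT.lf (nat_lit 17632) (nat_lit 6) (nat_lit 232) (nat_lit 3) (nat_lit 132) (nat_lit 120) (nat_lit 138)) (PT.lf (nat_lit 17708) (nat_lit 6) (nat_lit 233) (nat_lit 3) (nat_lit 133) (nat_lit 120) (nat_lit 137)))) (PT.nd (nat_lit 156) (PT.nd (nat_lit 78) (PT.lf (nat_lit 17784) (nat_lit 6) (nat_lit 234) (nat_lit 3) (nat_lit 134) (nat_lit 120) (nat_lit 136)) (PT.lf (nat_lit 17860) (nat_lit 3) (nat_lit 235) (nat_lit 1) (nat_lit 135) (nat_lit 120) (nat_lit 135))) (PT.nd (nat_lit 78) (PT.lf (nat_lit 17784) (nat_lit 6) (nat_lit 234) (nat_lit 1) (nat_lit 136) (nat_lit 120) (nat_lit 134)) (PT.lf (nat_lit 17708) (nat_lit 6) (nat_lit 233) (nat_lit 1) (nat_lit 137) (nat_lit 120) (nat_lit 133))))))))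
noncomputable def pc8 : PT := (PT.nd (nat_lit 40872) (PT.nd (nat_lit 39936) (PT.nd (nat_lit 468) (PT.nd (nat_lit 234) (PT.nd (nat_lit 78) (PT.lf (nat_lit 17632) (nat_lit 6) (nat_lit 232) (nat_lit 1) (nat_lit 138) (nat_lit 120) (nat_lit 132)) (PT.nd (nat_lit 78) (PT.lf (nat_lit 17556) (nat_lit 6) (nat_lit 231) (nat_lit 1) (nat_lit 139) (nat_lit 120) (nat_lit 131)) (PT.lf (nat_lit 17480) (nat_lit 6) (nat_lit 230) (nat_lit 1) (nat_lit 140) (nat_lit 120) (nat_lit 130)))) (PT.nd (nat_lit 78) (PT.lf (nat_lit 16568) (nat_lit 6) (nat_lit 218) (nat_lit 1) (nat_lit 141) (nat_lit 120) (nat_lit 129)) (PT.nd (nat_lit 78) (PT.lf (nat_lit 15580) (nat_lit 6) (nat_lit 205) (nat_lit 1) (nat_lit 142) (nat_lit 120) (nat_lit 128)) (PT.lf (nat_lit 14516) (nat_lit 6) (nat_lit 191) (nat_lit 1) (nat_lit 143) (nat_lit 120) (nat_lit 127))))) (PT.nd (nat_lit 39234) (PT.nd (nat_lit 78) (PT.lf (nat_lit 13376) (nat_lit 6) (nat_lit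 176) (nat_lit 1) (nat_lit 144) (nat_lit 120) (nat_lit 126)) (PT.nd (nat_lit 39078) (PT.lf (nat_lit 12160) (nat_lit 6) (nat_lit 160) (nat_lit 1) (nat_lit 145) (nat_lit 120) (nat_lit 125)) (PT.lf (nat_lit 13300) (nat_lit 6) (nat_lit 175) (nat_lit 3) (nat_lit 125) (nat_lit 121) (nat_lit 144)))) (PT.nd (nat_lit 78) (PT.lf (nat_lit 14440) (nat_lit 6) (nat_lit 190) (nat_lit 3) (nat_lit 126) (nat_lit 121) (nat_lit 143)) (PT.nd (nat_lit 78) (PT.lf (nat_lit 15504) (nat_lit 6) (nat_lit 204) (nat_lit 3) (nat_lit 127) (nat_lit 121) (nat_lit 142)) (PT.lf (nat_lit 16492) (nat_lit 6) (nat_lit 217) (nat_lit 3) (nat_lit 128) (nat_lit 121) (nat_lit 141)))))) (PT.nd (nat_lit 468) (PT.nd (nat_lit 234) (PT.nd (nat_lit 78) (PT.lf (nat_lit 17404) (nat_lit 6) (nat_lit 229) (nat_lit 3) (nat_lit 129) (nat_lit 121) (nat_lit 140)) (PT.nd (nat_lit 78) (PT.lf (nat_lit 18240) (nat_lit 6) (nat_lit 240) (nat_lit 3) (nat_lit 130)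 (nat_lit 121) (nat_lit 139)) (PT.lf (nat_lit 18316) (nat_lit 6) (nat_lit 241) (nat_lit 3) (nat_lit 131) (nat_lit 121) (nat_lit 138)))) (PT.nd (nat_lit 78) (PT.lf (nat_lit 18392) (nat_lit 6) (nat_lit 242) (nat_lit 3) (nat_lit 132) (nat_lit 121) (nat_lit 137)) (PT.nd (nat_lit 78) (PT.lf (nat_lit 18468) (nat_lit 6) (nat_lit 243) (nat_lit 3) (nat_lit 133) (nat_lit 121) (nat_lit 136)) (PT.lf (nat_lit 18544) (nat_lit 6) (nat_lit 244) (nat_lit 3) (nat_lit 134) (nat_lit 121) (nat_lit 135))))) (PT.nd (nat_lit 234) (PT.nd (nat_lit 78) (PT.lf (nat_lit 18544) (nat_lit 6) (nat_lit 244) (nat_lit 1) (nat_lit 135) (nat_lit 121) (nat_lit 134)) (PT.nd (nat_lit 78) (PT.lf (nat_lit 18468) (nat_lit 6) (nat_lit 243) (nat_lit 1) (nat_lit 136) (nat_lit 121) (nat_lit 133)) (PT.lf (nat_lit 18392) (nat_lit 6) (nat_lit 242) (nat_lit 1) (nat_lit 137) (nat_lit 121) (nat_lit 132)))) (PT.nd (nat_lit 78) (PT.lf (nat_lit 18316)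 (nat_lit 6) (nat_lit 241) (nat_lit 1) (nat_lit 138) (nat_lit 121) (nat_lit 131)) (PT.nd (nat_lit 78) (PT.lf (nat_lit 18240) (nat_lit 6) (nat_lit 240) (nat_lit 1) (nat_lit 139) (nat_lit 121) (nat_lit 130)) (PT.lf (nat_lit 17404) (nat_lit 6) (nat_lit 229) (nat_lit 1) (nat_lit 140) (nat_lit 121) (nat_lit 129))))))) (PT.nd (nat_lit 39936) (PT.nd (nat_lit 39468) (PT.nd (nat_lit 234) (PT.nd (nat_lit 78) (PT.lf (nat_lit 16492) (nat_lit 6) (nat_lit 217) (nat_lit 1) (nat_lit 141) (nat_lit 121) (nat_lit 128)) (PT.nd (nat_lit 78) (PT.lf (nat_lit 15504) (nat_lit 6) (nat_lit 204) (nat_lit 1) (nat_lit 142) (nat_lit 121) (nat_lit 127)) (PT.lf (nat_lit 14440) (nat_lit 6) (nat_lit 190) (nat_lit 1) (nat_lit 143) (nat_lit 121) (nat_lit 126)))) (PT.nd (nat_lit 39078) (PT.lf (nat_lit 13300) (nat_lit 6) (nat_lit 175) (nat_lit 1) (nat_lit 144) (nat_lit 121) (nat_lit 125)) (PT.nd (nat_lit 78) (PT.lf (nat_lit 13224) (nat_lit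 6) (nat_lit 174) (nat_lit 3) (nat_lit 124) (nat_lit 122) (nat_lit 144)) (PT.lf (nat_lit 14364) (nat_lit 6) (nat_lit 189) (nat_lit 3) (nat_lit 125) (nat_lit 122) (nat_lit 143))))) (PT.nd (nat_lit 234) (PT.nd (nat_lit 78) (PT.lf (nat_lit 15428) (nat_lit 6) (nat_lit 203) (nat_lit 3) (nat_lit 126) (nat_lit 122) (nat_lit 142)) (PT.nd (nat_lit 78) (PT.lf (nat_lit 16416) (nat_lit 6) (nat_lit 216) (nat_lit 3) (nat_lit 127) (nat_lit 122) (nat_lit 141)) (PT.lf (nat_lit 17328) (nat_lit 6) (nat_lit 228) (nat_lit 3) (nat_lit 128) (nat_lit 122) (nat_lit 140)))) (PT.nd (nat_lit 78) (PT.lf (nat_lit 18164) (nat_lit 6) (nat_lit 239) (nat_lit 3) (nat_lit 129) (nat_lit 122) (nat_lit 139)) (PT.nd (nat_lit 78) (PT.lf (nat_lit 18924) (nat_lit 6) (nat_lit 249) (nat_lit 3) (nat_lit 130) (nat_lit 122) (nat_lit 138)) (PT.lf (nat_lit 19000) (nat_lit 6) (nat_lit 250) (nat_lit 3) (nat_lit 131) (nat_lit 122) (nat_lit 137))))))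 (PT.nd (nat_lit 468) (PT.nd (nat_lit 234) (PT.nd (nat_lit 78) (PT.lf (nat_lit 19076) (nat_lit 6) (nat_lit 251) (nat_lit 3) (nat_lit 132) (nat_lit 122) (nat_lit 136)) (PT.nd (nat_lit 78) (PT.lf (nat_lit 19152) (nat_lit 6) (nat_lit 252) (nat_lit 3) (nat_lit 133) (nat_lit 122) (nat_lit 135)) (PT.lf (nat_lit 19228) (nat_lit 3) (nat_lit 253) (nat_lit 1) (nat_lit 134) (nat_lit 122) (nat_lit 134)))) (PT.nd (nat_lit 78) (PT.lf (nat_lit 19152) (nat_lit 6) (nat_lit 252) (nat_lit 1) (nat_lit 135) (nat_lit 122) (nat_lit 133)) (PT.nd (nat_lit 78) (PT.lf (nat_lit 19076) (nat_lit 6) (nat_lit 251) (nat_lit 1) (nat_lit 136) (nat_lit 122) (nat_lit 132)) (PT.lf (nat_lit 19000) (nat_lit 6) (nat_lit 250) (nat_lit 1) (nat_lit 137) (nat_lit 122) (nat_lit 131))))) (PT.nd (nat_lit 234) (PT.nd (nat_lit 78) (PT.lf (nat_lit 18924) (nat_lit 6) (nat_lit 249) (nat_lit 1) (nat_lit 138) (nat_lit 122) (nat_lit 130)) (PT.nd (nat_lit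 78) (PT.lf (nat_lit 18164) (nat_lit 6) (nat_lit 239) (nat_lit 1) (nat_lit 139) (nat_lit 122) (nat_lit 129)) (PT.lf (nat_lit 17328) (nat_lit 6) (nat_lit 228) (nat_lit 1) (nat_lit 140) (nat_lit 122) (nat_lit 128)))) (PT.nd (nat_lit 156) (PT.nd (nat_lit 78) (PT.lf (nat_lit 16416) (nat_lit 6) (nat_lit 216) (nat_lit 1) (nat_lit 141) (nat_lit 122) (nat_lit 127)) (PT.lf (nat_lit 15428) (nat_lit 6) (nat_lit 203) (nat_lit 1) (nat_lit 142) (nat_lit 122) (nat_lit 126))) (PT.nd (nat_lit 78) (PT.lf (nat_lit 14364) (nat_lit 6) (nat_lit 189) (nat_lit 1) (nat_lit 143) (nat_lit 122) (nat_lit 125)) (PT.lf (nat_lit 13224) (nat_lit 6) (nat_lit 174) (nat_lit 1) (nat_lit 144) (nat_lit 122) (nat_lit 124))))))))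
noncomputable def pc9 : PT := (PT.nd (nat_lit 40794) (PT.nd (nat_lit 936) (PT.nd (nat_lit 468) (PT.nd (nat_lit 234) (PT.nd (nat_lit 78) (PT.lf (nat_lit 13148) (nat_lit 3) (nat_lit 173) (nat_lit 3) (nat_lit 123) (nat_lit 123) (nat_lit 144)) (PT.nd (nat_lit 78) (PT.lf (nat_lit 14288) (nat_lit 6) (nat_lit 188) (nat_lit 3) (nat_lit 124) (nat_lit 123) (nat_lit 143)) (PT.lf (nat_lit 15352) (nat_lit 6) (nat_lit 202) (nat_lit 3) (nat_lit 125) (nat_lit 123) (nat_lit 142)))) (PT.nd (nat_lit 78) (PT.lf (nat_lit 16340) (nat_lit 6) (nat_lit 215) (nat_lit 3) (nat_lit 126) (nat_lit 123) (nat_lit 141)) (PT.nd (nat_lit 78) (PT.lf (nat_lit 17252) (nat_lit 6) (nat_lit 227) (nat_lit 3) (nat_lit 127) (nat_lit 123) (nat_lit 140)) (PT.lf (nat_lit 18088) (nat_lit 6) (nat_lit 238) (nat_lit 3) (nat_lit 128) (nat_lit 123) (nat_lit 139))))) (PT.nd (nat_lit 234) (PT.nd (nat_lit 78) (PT.lf (nat_lit 18848) (nat_lit 6) (nat_lit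 248) (nat_lit 3) (nat_lit 129) (nat_lit 123) (nat_lit 138)) (PT.nd (nat_lit 78) (PT.lf (nat_lit 19532) (nat_lit 6) (nat_lit 257) (nat_lit 3) (nat_lit 130) (nat_lit 123) (nat_lit 137)) (PT.lf (nat_lit 19608) (nat_lit 6) (nat_lit 258) (nat_lit 3) (nat_lit 131) (nat_lit 123) (nat_lit 136)))) (PT.nd (nat_lit 78) (PT.lf (nat_lit 19684) (nat_lit 6) (nat_lit 259) (nat_lit 3) (nat_lit 132) (nat_lit 123) (nat_lit 135)) (PT.nd (nat_lit 78) (PT.lf (nat_lit 19760) (nat_lit 6) (nat_lit 260) (nat_lit 3) (nat_lit 133) (nat_lit 123) (nat_lit 134)) (PT.lf (nat_lit 19760) (nat_lit 6) (nat_lit 260) (nat_lit 1) (nat_lit 134) (nat_lit 123) (nat_lit 133)))))) (PT.nd (nat_lit 468) (PT.nd (nat_lit 234) (PT.nd (nat_lit 78) (PT.lf (nat_lit 19684) (nat_lit 6) (nat_lit 259) (nat_lit 1) (nat_lit 135) (nat_lit 123) (nat_lit 132)) (PT.nd (nat_lit 78) (PT.lf (nat_lit 19608) (nat_lit 6) (nat_lit 258) (nat_lit 1) (nat_lit 136)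 (nat_lit 123) (nat_lit 131)) (PT.lf (nat_lit 19532) (nat_lit 6) (nat_lit 257) (nat_lit 1) (nat_lit 137) (nat_lit 123) (nat_lit 130)))) (PT.nd (nat_lit 78) (PT.lf (nat_lit 18848) (nat_lit 6) (nat_lit 248) (nat_lit 1) (nat_lit 138) (nat_lit 123) (nat_lit 129)) (PT.nd (nat_lit 78) (PT.lf (nat_lit 18088) (nat_lit 6) (nat_lit 238) (nat_lit 1) (nat_lit 139) (nat_lit 123) (nat_lit 128)) (PT.lf (nat_lit 17252) (nat_lit 6) (nat_lit 227) (nat_lit 1) (nat_lit 140) (nat_lit 123) (nat_lit 127))))) (PT.nd (nat_lit 234) (PT.nd (nat_lit 78) (PT.lf (nat_lit 16340) (nat_lit 6) (nat_lit 215) (nat_lit 1) (nat_lit 141) (nat_lit 123) (nat_lit 126)) (PT.nd (nat_lit 78) (PT.lf (nat_lit 15352) (nat_lit 6) (nat_lit 202) (nat_lit 1) (nat_lit 142) (nat_lit 123) (nat_lit 125)) (PT.lf (nat_lit 14288) (nat_lit 6) (nat_lit 188) (nat_lit 1) (nat_lit 143) (nat_lit 123) (nat_lit 124)))) (PT.nd (nat_lit 39000) (PT.nd (nat_lit 38922)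 (PT.lf (nat_lit 13148) (nat_lit 3) (nat_lit 173) (nat_lit 0) (nat_lit 144) (nat_lit 123) (nat_lit 123)) (PT.lf (nat_lit 13224) (nat_lit 6) (nat_lit 174) (nat_lit 5) (nat_lit 122) (nat_lit 124) (nat_lit 144))) (PT.nd (nat_lit 78) (PT.lf (nat_lit 14288) (nat_lit 6) (nat_lit 188) (nat_lit 5) (nat_lit 123) (nat_lit 124) (nat_lit 143)) (PT.lf (nat_lit 15276) (nat_lit 3) (nat_lit 201) (nat_lit 3) (nat_lit 124) (nat_lit 124) (nat_lit 142))))))) (PT.nd (nat_lit 936) (PT.nd (nat_lit 468) (PT.nd (nat_lit 234) (PT.nd (nat_lit 78) (PT.lf (nat_lit 16264) (nat_lit 6) (nat_lit 214) (nat_lit 3) (nat_lit 125) (nat_lit 124) (nat_lit 141)) (PT.nd (nat_lit 78) (PT.lf (nat_lit 17176) (nat_lit 6) (nat_lit 226) (nat_lit 3) (nat_lit 126) (nat_lit 124) (nat_lit 140)) (PT.lf (nat_lit 18012) (nat_lit 6) (nat_lit 237) (nat_lit 3) (nat_lit 127) (nat_lit 124) (nat_lit 139)))) (PT.nd (nat_lit 78) (PT.lf (nat_lit 18772) (nat_lit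 6) (nat_lit 247) (nat_lit 3) (nat_lit 128) (nat_lit 124) (nat_lit 138)) (PT.nd (nat_lit 78) (PT.lf (nat_lit 19456) (nat_lit 6) (nat_lit 256) (nat_lit 3) (nat_lit 129) (nat_lit 124) (nat_lit 137)) (PT.lf (nat_lit 20064) (nat_lit 6) (nat_lit 264) (nat_lit 3) (nat_lit 130) (nat_lit 124) (nat_lit 136))))) (PT.nd (nat_lit 234) (PT.nd (nat_lit 78) (PT.lf (nat_lit 20140) (nat_lit 6) (nat_lit 265) (nat_lit 3) (nat_lit 131) (nat_lit 124) (nat_lit 135)) (PT.nd (nat_lit 78) (PT.lf (nat_lit 20216) (nat_lit 6) (nat_lit 266) (nat_lit 3) (nat_lit 132) (nat_lit 124) (nat_lit 134)) (PT.lf (nat_lit 20292) (nat_lit 3) (nat_lit 267) (nat_lit 1) (nat_lit 133) (nat_lit 124) (nat_lit 133)))) (PT.nd (nat_lit 78) (PT.lf (nat_lit 20216) (nat_lit 6) (nat_lit 266) (nat_lit 1) (nat_lit 134) (nat_lit 124) (nat_lit 132)) (PT.nd (nat_lit 78) (PT.lf (nat_lit 20140) (nat_lit 6) (nat_lit 265) (nat_lit 1) (nat_lit 135) (nat_lit 124)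 (nat_lit 131)) (PT.lf (nat_lit 20064) (nat_lit 6) (nat_lit 264) (nat_lit 1) (nat_lit 136) (nat_lit 124) (nat_lit 130)))))) (PT.nd (nat_lit 468) (PT.nd (nat_lit 234) (PT.nd (nat_lit 78) (PT.lf (nat_lit 19456) (nat_lit 6) (nat_lit 256) (nat_lit 1) (nat_lit 137) (nat_lit 124) (nat_lit 129)) (PT.nd (nat_lit 78) (PT.lf (nat_lit 18772) (nat_lit 6) (nat_lit 247) (nat_lit 1) (nat_lit 138) (nat_lit 124) (nat_lit 128)) (PT.lf (nat_lit 18012) (nat_lit 6) (nat_lit 237) (nat_lit 1) (nat_lit 139) (nat_lit 124) (nat_lit 127)))) (PT.nd (nat_lit 78) (PT.lf (nat_lit 17176) (nat_lit 6) (nat_lit 226) (nat_lit 1) (nat_lit 140) (nat_lit 124) (nat_lit 126)) (PT.nd (nat_lit 78) (PT.lf (nat_lit 16264) (nat_lit 6) (nat_lit 214) (nat_lit 1) (nat_lit 141) (nat_lit 124) (nat_lit 125)) (PT.lf (nat_lit 15276) (nat_lit 3) (nat_lit 201) (nat_lit 0) (nat_lit 142) (nat_lit 124) (nat_lit 124))))) (PT.nd (nat_lit 38922) (PT.nd (nat_lit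 78) (PT.lf (nat_lit 14288) (nat_lit 6) (nat_lit 188) (nat_lit 0) (nat_lit 143) (nat_lit 124) (nat_lit 123)) (PT.nd (nat_lit 38766) (PT.lf (nat_lit 13224) (nat_lit 6) (nat_lit 174) (nat_lit 0) (nat_lit 144) (nat_lit 124) (nat_lit 122)) (PT.lf (nat_lit 12160) (nat_lit 6) (nat_lit 160) (nat_lit 5) (nat_lit 120) (nat_lit 125) (nat_lit 145)))) (PT.nd (nat_lit 156) (PT.nd (nat_lit 78) (PT.lf (nat_lit 13300) (nat_lit 6) (nat_lit 175) (nat_lit 5) (nat_lit 121) (nat_lit 125) (nat_lit 144)) (PT.lf (nat_lit 14364) (nat_lit 6) (nat_lit 189) (nat_lit 5) (nat_lit 122) (nat_lit 125) (nat_lit 143))) (PT.nd (nat_lit 78) (PT.lf (nat_lit 15352) (nat_lit 6) (nat_lit 202) (nat_lit 5) (nat_lit 123) (nat_lit 125) (nat_lit 142)) (PT.lf (nat_lit 16264) (nat_lit 6) (nat_lit 214) (nat_lit 5) (nat_lit 124) (nat_lit 125) (nat_lit 141))))))))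
noncomputable def pc10 : PT := (PT.nd (nat_lit 40482) (PT.nd (nat_lit 936) (PT.nd (nat_lit 468) (PT.nd (nat_lit 234) (PT.nd (nat_lit 78) (PT.lf (nat_lit 17100) (nat_lit 3) (nat_lit 225) (nat_lit 3) (nat_lit 125) (nat_lit 125) (nat_lit 140)) (PT.nd (nat_lit 78) (PT.lf (nat_lit 17936) (nat_lit 6) (nat_lit 236) (nat_lit 3) (nat_lit 126) (nat_lit 125) (nat_lit 139)) (PT.lf (nat_lit 18696) (nat_lit 6) (nat_lit 246) (nat_lit 3) (nat_lit 127) (nat_lit 125) (nat_lit 138)))) (PT.nd (nat_lit 78) (PT.lf (nat_lit 19380) (nat_lit 6) (nat_lit 255) (nat_lit 3) (nat_lit 128) (nat_lit 125) (nat_lit 137)) (PT.nd (nat_lit 78) (PT.lf (nat_lit 19988) (nat_lit 6) (nat_lit 263) (nat_lit 3) (nat_lit 129) (nat_lit 125) (nat_lit 136)) (PT.lf (nat_lit 20520) (nat_lit 6) (nat_lit 270) (nat_lit 3) (nat_lit 130) (nat_lit 125) (nat_lit 135))))) (PT.nd (nat_lit 234) (PT.nd (nat_lit 78) (PT.lf (nat_lit 20596) (nat_lit 6) (nat_lit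 271) (nat_lit 3) (nat_lit 131) (nat_lit 125) (nat_lit 134)) (PT.nd (nat_lit 78) (PT.lf (nat_lit 20672) (nat_lit 6) (nat_lit 272) (nat_lit 3) (nat_lit 132) (nat_lit 125) (nat_lit 133)) (PT.lf (nat_lit 20672) (nat_lit 6) (nat_lit 272) (nat_lit 1) (nat_lit 133) (nat_lit 125) (nat_lit 132)))) (PT.nd (nat_lit 78) (PT.lf (nat_lit 20596) (nat_lit 6) (nat_lit 271) (nat_lit 1) (nat_lit 134) (nat_lit 125) (nat_lit 131)) (PT.nd (nat_lit 78) (PT.lf (nat_lit 20520) (nat_lit 6) (nat_lit 270) (nat_lit 1) (nat_lit 135) (nat_lit 125) (nat_lit 130)) (PT.lf (nat_lit 19988) (nat_lit 6) (nat_lit 263) (nat_lit 1) (nat_lit 136) (nat_lit 125) (nat_lit 129)))))) (PT.nd (nat_lit 468) (PT.nd (nat_lit 234) (PT.nd (nat_lit 78) (PT.lf (nat_lit 19380) (nat_lit 6) (nat_lit 255) (nat_lit 1) (nat_lit 137) (nat_lit 125) (nat_lit 128)) (PT.nd (nat_lit 78) (PT.lf (nat_lit 18696) (nat_lit 6) (nat_lit 246) (nat_lit 1) (nat_lit 138)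 (nat_lit 125) (nat_lit 127)) (PT.lf (nat_lit 17936) (nat_lit 6) (nat_lit 236) (nat_lit 1) (nat_lit 139) (nat_lit 125) (nat_lit 126)))) (PT.nd (nat_lit 78) (PT.lf (nat_lit 17100) (nat_lit 3) (nat_lit 225) (nat_lit 0) (nat_lit 140) (nat_lit 125) (nat_lit 125)) (PT.nd (nat_lit 78) (PT.lf (nat_lit 16264) (nat_lit 6) (nat_lit 214) (nat_lit 0) (nat_lit 141) (nat_lit 125) (nat_lit 124)) (PT.lf (nat_lit 15352) (nat_lit 6) (nat_lit 202) (nat_lit 0) (nat_lit 142) (nat_lit 125) (nat_lit 123))))) (PT.nd (nat_lit 38766) (PT.nd (nat_lit 78) (PT.lf (nat_lit 14364) (nat_lit 6) (nat_lit 189) (nat_lit 0) (nat_lit 143) (nat_lit 125) (nat_lit 122)) (PT.nd (nat_lit 78) (PT.lf (nat_lit 13300) (nat_lit 6) (nat_lit 175) (nat_lit 0) (nat_lit 144) (nat_lit 125) (nat_lit 121)) (PT.lf (nat_lit 12160) (nat_lit 6) (nat_lit 160) (nat_lit 0) (nat_lit 145) (nat_lit 125) (nat_lit 120)))) (PT.nd (nat_lit 156) (PT.nd (nat_lit 78)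 (PT.lf (nat_lit 12236) (nat_lit 6) (nat_lit 161) (nat_lit 5) (nat_lit 119) (nat_lit 126) (nat_lit 145)) (PT.lf (nat_lit 13376) (nat_lit 6) (nat_lit 176) (nat_lit 5) (nat_lit 120) (nat_lit 126) (nat_lit 144))) (PT.nd (nat_lit 78) (PT.lf (nat_lit 14440) (nat_lit 6) (nat_lit 190) (nat_lit 5) (nat_lit 121) (nat_lit 126) (nat_lit 143)) (PT.lf (nat_lit 15428) (nat_lit 6) (nat_lit 203) (nat_lit 5) (nat_lit 122) (nat_lit 126) (nat_lit 142))))))) (PT.nd (nat_lit 936) (PT.nd (nat_lit 468) (PT.nd (nat_lit 234) (PT.nd (nat_lit 78) (PT.lf (nat_lit 16340) (nat_lit 6) (nat_lit 215) (nat_lit 5) (nat_lit 123) (nat_lit 126) (nat_lit 141)) (PT.nd (nat_lit 78) (PT.lf (nat_lit 17176) (nat_lit 6) (nat_lit 226) (nat_lit 5) (nat_lit 124) (nat_lit 126) (nat_lit 140)) (PT.lf (nat_lit 17936) (nat_lit 6) (nat_lit 236) (nat_lit 5) (nat_lit 125) (nat_lit 126) (nat_lit 139)))) (PT.nd (nat_lit 78) (PT.lf (nat_lit 18620) (nat_lit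 3) (nat_lit 245) (nat_lit 3) (nat_lit 126) (nat_lit 126) (nat_lit 138)) (PT.nd (nat_lit 78) (PT.lf (nat_lit 19304) (nat_lit 6) (nat_lit 254) (nat_lit 3) (nat_lit 127) (nat_lit 126) (nat_lit 137)) (PT.lf (nat_lit 19912) (nat_lit 6) (nat_lit 262) (nat_lit 3) (nat_lit 128) (nat_lit 126) (nat_lit 136))))) (PT.nd (nat_lit 234) (PT.nd (nat_lit 78) (PT.lf (nat_lit 20444) (nat_lit 6) (nat_lit 269) (nat_lit 3) (nat_lit 129) (nat_lit 126) (nat_lit 135)) (PT.nd (nat_lit 78) (PT.lf (nat_lit 20900) (nat_lit 6) (nat_lit 275) (nat_lit 3) (nat_lit 130) (nat_lit 126) (nat_lit 134)) (PT.lf (nat_lit 20976) (nat_lit 6) (nat_lit 276) (nat_lit 3) (nat_lit 131) (nat_lit 126) (nat_lit 133)))) (PT.nd (nat_lit 78) (PT.lf (nat_lit 21052) (nat_lit 3) (nat_lit 277) (nat_lit 1) (nat_lit 132) (nat_lit 126) (nat_lit 132)) (PT.nd (nat_lit 78) (PT.lf (nat_lit 20976) (nat_lit 6) (nat_lit 276) (nat_lit 1) (nat_lit 133) (nat_lit 126)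 (nat_lit 131)) (PT.lf (nat_lit 20900) (nat_lit 6) (nat_lit 275) (nat_lit 1) (nat_lit 134) (nat_lit 126) (nat_lit 130)))))) (PT.nd (nat_lit 468) (PT.nd (nat_lit 234) (PT.nd (nat_lit 78) (PT.lf (nat_lit 20444) (nat_lit 6) (nat_lit 269) (nat_lit 1) (nat_lit 135) (nat_lit 126) (nat_lit 129)) (PT.nd (nat_lit 78) (PT.lf (nat_lit 19912) (nat_lit 6) (nat_lit 262) (nat_lit 1) (nat_lit 136) (nat_lit 126) (nat_lit 128)) (PT.lf (nat_lit 19304) (nat_lit 6) (nat_lit 254) (nat_lit 1) (nat_lit 137) (nat_lit 126) (nat_lit 127)))) (PT.nd (nat_lit 78) (PT.lf (nat_lit 18620) (nat_lit 3) (nat_lit 245) (nat_lit 0) (nat_lit 138) (nat_lit 126) (nat_lit 126)) (PT.nd (nat_lit 78) (PT.lf (nat_lit 17936) (nat_lit 6) (nat_lit 236) (nat_lit 0) (nat_lit 139) (nat_lit 126) (nat_lit 125)) (PT.lf (nat_lit 17176) (nat_lit 6) (nat_lit 226) (nat_lit 0) (nat_lit 140) (nat_lit 126) (nat_lit 124))))) (PT.nd (nat_lit 234) (PT.nd (nat_lit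 78) (PT.lf (nat_lit 16340) (nat_lit 6) (nat_lit 215) (nat_lit 0) (nat_lit 141) (nat_lit 126) (nat_lit 123)) (PT.nd (nat_lit 78) (PT.lf (nat_lit 15428) (nat_lit 6) (nat_lit 203) (nat_lit 0) (nat_lit 142) (nat_lit 126) (nat_lit 122)) (PT.lf (nat_lit 14440) (nat_lit 6) (nat_lit 190) (nat_lit 0) (nat_lit 143) (nat_lit 126) (nat_lit 121)))) (PT.nd (nat_lit 38610) (PT.nd (nat_lit 78) (PT.lf (nat_lit 13376) (nat_lit 6) (nat_lit 176) (nat_lit 0) (nat_lit 144) (nat_lit 126) (nat_lit 120)) (PT.lf (nat_lit 12236) (nat_lit 6) (nat_lit 161) (nat_lit 0) (nat_lit 145) (nat_lit 126) (nat_lit 119))) (PT.nd (nat_lit 78) (PT.lf (nat_lit 12312) (nat_lit 6) (nat_lit 162) (nat_lit 5) (nat_lit 118) (nat_lit 127) (nat_lit 145)) (PT.lf (nat_lit 13452) (nat_lit 6) (nat_lit 177) (nat_lit 5) (nat_lit 119) (nat_lit 127) (nat_lit 144))))))))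
noncomputable def pc11 : PT := (PT.nd (nat_lit 1950) (PT.nd (nat_lit 936) (PT.nd (nat_lit 468) (PT.nd (nat_lit 234) (PT.nd (nat_lit 78) (PT.lf (nat_lit 14516) (nat_lit 6) (nat_lit 191) (nat_lit 5) (nat_lit 120) (nat_lit 127) (nat_lit 143)) (PT.nd (nat_lit 78) (PT.lf (nat_lit 15504) (nat_lit 6) (nat_lit 204) (nat_lit 5) (nat_lit 121) (nat_lit 127) (nat_lit 142)) (PT.lf (nat_lit 16416) (nat_lit 6) (nat_lit 216) (nat_lit 5) (nat_lit 122) (nat_lit 127) (nat_lit 141)))) (PT.nd (nat_lit 78) (PT.lf (nat_lit 17252) (nat_lit 6) (nat_lit 227) (nat_lit 5) (nat_lit 123) (nat_lit 127) (nat_lit 140)) (PT.nd (nat_lit 78) (PT.lf (nat_lit 18012) (nat_lit 6) (nat_lit 237) (nat_lit 5) (nat_lit 124) (nat_lit 127) (nat_lit 139)) (PT.lf (nat_lit 18696) (nat_lit 6) (nat_lit 246) (nat_lit 5) (nat_lit 125) (nat_lit 127) (nat_lit 138))))) (PT.nd (nat_lit 234) (PT.nd (nat_lit 78) (PT.lf (nat_lit 19304) (nat_lit 6) (nat_lit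 254) (nat_lit 5) (nat_lit 126) (nat_lit 127) (nat_lit 137)) (PT.nd (nat_lit 78) (PT.lf (nat_lit 19836) (nat_lit 3) (nat_lit 261) (nat_lit 3) (nat_lit 127) (nat_lit 127) (nat_lit 136)) (PT.lf (nat_lit 20368) (nat_lit 6) (nat_lit 268) (nat_lit 3) (nat_lit 128) (nat_lit 127) (nat_lit 135)))) (PT.nd (nat_lit 78) (PT.lf (nat_lit 20824) (nat_lit 6) (nat_lit 274) (nat_lit 3) (nat_lit 129) (nat_lit 127) (nat_lit 134)) (PT.nd (nat_lit 78) (PT.lf (nat_lit 21204) (nat_lit 6) (nat_lit 279) (nat_lit 3) (nat_lit 130) (nat_lit 127) (nat_lit 133)) (PT.lf (nat_lit 21280) (nat_lit 6) (nat_lit 280) (nat_lit 3) (nat_lit 131) (nat_lit 127) (nat_lit 132)))))) (PT.nd (nat_lit 468) (PT.nd (nat_lit 234) (PT.nd (nat_lit 78) (PT.lf (nat_lit 21280) (nat_lit 6) (nat_lit 280) (nat_lit 1) (nat_lit 132) (nat_lit 127) (nat_lit 131)) (PT.nd (nat_lit 78) (PT.lf (nat_lit 21204) (nat_lit 6) (nat_lit 279) (nat_lit 1) (nat_lit 133)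 (nat_lit 127) (nat_lit 130)) (PT.lf (nat_lit 20824) (nat_lit 6) (nat_lit 274) (nat_lit 1) (nat_lit 134) (nat_lit 127) (nat_lit 129)))) (PT.nd (nat_lit 78) (PT.lf (nat_lit 20368) (nat_lit 6) (nat_lit 268) (nat_lit 1) (nat_lit 135) (nat_lit 127) (nat_lit 128)) (PT.nd (nat_lit 78) (PT.lf (nat_lit 19836) (nat_lit 3) (nat_lit 261) (nat_lit 0) (nat_lit 136) (nat_lit 127) (nat_lit 127)) (PT.lf (nat_lit 19304) (nat_lit 6) (nat_lit 254) (nat_lit 0) (nat_lit 137) (nat_lit 127) (nat_lit 126))))) (PT.nd (nat_lit 234) (PT.nd (nat_lit 78) (PT.lf (nat_lit 18696) (nat_lit 6) (nat_lit 246) (nat_lit 0) (nat_lit 138) (nat_lit 127) (nat_lit 125)) (PT.nd (nat_lit 78) (PT.lf (nat_lit 18012) (nat_lit 6) (nat_lit 237) (nat_lit 0) (nat_lit 139) (nat_lit 127) (nat_lit 124)) (PT.lf (nat_lit 17252) (nat_lit 6) (nat_lit 227) (nat_lit 0) (nat_lit 140) (nat_lit 127) (nat_lit 123)))) (PT.nd (nat_lit 156) (PT.nd (nat_lit 78) (PT.lf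 (nat_lit 16416) (nat_lit 6) (nat_lit 216) (nat_lit 0) (nat_lit 141) (nat_lit 127) (nat_lit 122)) (PT.lf (nat_lit 15504) (nat_lit 6) (nat_lit 204) (nat_lit 0) (nat_lit 142) (nat_lit 127) (nat_lit 121))) (PT.nd (nat_lit 78) (PT.lf (nat_lit 14516) (nat_lit 6) (nat_lit 191) (nat_lit 0) (nat_lit 143) (nat_lit 127) (nat_lit 120)) (PT.lf (nat_lit 13452) (nat_lit 6) (nat_lit 177) (nat_lit 0) (nat_lit 144) (nat_lit 127) (nat_lit 119))))))) (PT.nd (nat_lit 39312) (PT.nd (nat_lit 38844) (PT.nd (nat_lit 38610) (PT.nd (nat_lit 38454) (PT.lf (nat_lit 12312) (nat_lit 6) (nat_lit 162) (nat_lit 0) (nat_lit 145) (nat_lit 127) (nat_lit 118)) (PT.nd (nat_lit 78) (PT.lf (nat_lit 12388) (nat_lit 6) (nat_lit 163) (nat_lit 5) (nat_lit 117) (nat_lit 128) (nat_lit 145)) (PT.lf (nat_lit 13528) (nat_lit 6) (nat_lit 178) (nat_lit 5) (nat_lit 118) (nat_lit 128) (nat_lit 144)))) (PT.nd (nat_lit 78) (PT.lf (nat_lit 14592) (nat_lit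 6) (nat_lit 192) (nat_lit 5) (nat_lit 119) (nat_lit 128) (nat_lit 143)) (PT.nd (nat_lit 78) (PT.lf (nat_lit 15580) (nat_lit 6) (nat_lit 205) (nat_lit 5) (nat_lit 120) (nat_lit 128) (nat_lit 142)) (PT.lf (nat_lit 16492) (nat_lit 6) (nat_lit 217) (nat_lit 5) (nat_lit 121) (nat_lit 128) (nat_lit 141))))) (PT.nd (nat_lit 234) (PT.nd (nat_lit 78) (PT.lf (nat_lit 17328) (nat_lit 6) (nat_lit 228) (nat_lit 5) (nat_lit 122) (nat_lit 128) (nat_lit 140)) (PT.nd (nat_lit 78) (PT.lf (nat_lit 18088) (nat_lit 6) (nat_lit 238) (nat_lit 5) (nat_lit 123) (nat_lit 128) (nat_lit 139)) (PT.lf (nat_lit 18772) (nat_lit 6) (nat_lit 247) (nat_lit 5) (nat_lit 124) (nat_lit 128) (nat_lit 138)))) (PT.nd (nat_lit 78) (PT.lf (nat_lit 19380) (nat_lit 6) (nat_lit 255) (nat_lit 5) (nat_lit 125) (nat_lit 128) (nat_lit 137)) (PT.nd (nat_lit 78) (PT.lf (nat_lit 19912) (nat_lit 6) (nat_lit 262) (nat_lit 5) (nat_lit 126) (nat_lit 128)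 (nat_lit 136)) (PT.lf (nat_lit 20368) (nat_lit 6) (nat_lit 268) (nat_lit 5) (nat_lit 127) (nat_lit 128) (nat_lit 135)))))) (PT.nd (nat_lit 468) (PT.nd (nat_lit 234) (PT.nd (nat_lit 78) (PT.lf (nat_lit 20748) (nat_lit 3) (nat_lit 273) (nat_lit 3) (nat_lit 128) (nat_lit 128) (nat_lit 134)) (PT.nd (nat_lit 78) (PT.lf (nat_lit 21128) (nat_lit 6) (nat_lit 278) (nat_lit 3) (nat_lit 129) (nat_lit 128) (nat_lit 133)) (PT.lf (nat_lit 21432) (nat_lit 6) (nat_lit 282) (nat_lit 3) (nat_lit 130) (nat_lit 128) (nat_lit 132)))) (PT.nd (nat_lit 78) (PT.lf (nat_lit 21508) (nat_lit 3) (nat_lit 283) (nat_lit 1) (nat_lit 131) (nat_lit 128) (nat_lit 131)) (PT.nd (nat_lit 78) (PT.lf (nat_lit 21432) (nat_lit 6) (nat_lit 282) (nat_lit 1) (nat_lit 132) (nat_lit 128) (nat_lit 130)) (PT.lf (nat_lit 21128) (nat_lit 6) (nat_lit 278) (nat_lit 1) (nat_lit 133) (nat_lit 128) (nat_lit 129))))) (PT.nd (nat_lit 234) (PT.nd (nat_lit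 78) (PT.lf (nat_lit 20748) (nat_lit 3) (nat_lit 273) (nat_lit 0) (nat_lit 134) (nat_lit 128) (nat_lit 128)) (PT.nd (nat_lit 78) (PT.lf (nat_lit 20368) (nat_lit 6) (nat_lit 268) (nat_lit 0) (nat_lit 135) (nat_lit 128) (nat_lit 127)) (PT.lf (nat_lit 19912) (nat_lit 6) (nat_lit 262) (nat_lit 0) (nat_lit 136) (nat_lit 128) (nat_lit 126)))) (PT.nd (nat_lit 156) (PT.nd (nat_lit 78) (PT.lf (nat_lit 19380) (nat_lit 6) (nat_lit 255) (nat_lit 0) (nat_lit 137) (nat_lit 128) (nat_lit 125)) (PT.lf (nat_lit 18772) (nat_lit 6) (nat_lit 247) (nat_lit 0) (nat_lit 138) (nat_lit 128) (nat_lit 124))) (PT.nd (nat_lit 78) (PT.lf (nat_lit 18088) (nat_lit 6) (nat_lit 238) (nat_lit 0) (nat_lit 139) (nat_lit 128) (nat_lit 123)) (PT.lf (nat_lit 17328) (nat_lit 6) (nat_lit 228) (nat_lit 0) (nat_lit 140) (nat_lit 128) (nat_lit 122))))))))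
noncomputable def pc12 : PT := (PT.nd (nat_lit 40170) (PT.nd (nat_lit 39234) (PT.nd (nat_lit 38766) (PT.nd (nat_lit 234) (PT.nd (nat_lit 78) (PT.lf (nat_lit 16492) (nat_lit 6) (nat_lit 217) (nat_lit 0) (nat_lit 141) (nat_lit 128) (nat_lit 121)) (PT.nd (nat_lit 78) (PT.lf (nat_lit 15580) (nat_lit 6) (nat_lit 205) (nat_lit 0) (nat_lit 142) (nat_lit 128) (nat_lit 120)) (PT.lf (nat_lit 14592) (nat_lit 6) (nat_lit 192) (nat_lit 0) (nat_lit 143) (nat_lit 128) (nat_lit 119)))) (PT.nd (nat_lit 78) (PT.lf (nat_lit 13528) (nat_lit 6) (nat_lit 178) (nat_lit 0) (nat_lit 144) (nat_lit 128) (nat_lit 118)) (PT.nd (nat_lit 38376) (PT.lf (nat_lit 12388) (nat_lit 6) (nat_lit 163) (nat_lit 0) (nat_lit 145) (nat_lit 128) (nat_lit 117)) (PT.lf (nat_lit 12464) (nat_lit 6) (nat_lit 164) (nat_lit 5) (nat_lit 116) (nat_lit 129) (nat_lit 145))))) (PT.nd (nat_lit 234) (PT.nd (nat_lit 78) (PT.lf (nat_lit 13604) (nat_lit 6)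 (nat_lit 179) (nat_lit 5) (nat_lit 117) (nat_lit 129) (nat_lit 144)) (PT.nd (nat_lit 78) (PT.lf (nat_lit 14668) (nat_lit 6) (nat_lit 193) (nat_lit 5) (nat_lit 118) (nat_lit 129) (nat_lit 143)) (PT.lf (nat_lit 15656) (nat_lit 6) (nat_lit 206) (nat_lit 5) (nat_lit 119) (nat_lit 129) (nat_lit 142)))) (PT.nd (nat_lit 78) (PT.lf (nat_lit 16568) (nat_lit 6) (nat_lit 218) (nat_lit 5) (nat_lit 120) (nat_lit 129) (nat_lit 141)) (PT.nd (nat_lit 78) (PT.lf (nat_lit 17404) (nat_lit 6) (nat_lit 229) (nat_lit 5) (nat_lit 121) (nat_lit 129) (nat_lit 140)) (PT.lf (nat_lit 18164) (nat_lit 6) (nat_lit 239) (nat_lit 5) (nat_lit 122) (nat_lit 129) (nat_lit 139)))))) (PT.nd (nat_lit 468) (PT.nd (nat_lit 234) (PT.nd (nat_lit 78) (PT.lf (nat_lit 18848) (nat_lit 6) (nat_lit 248) (nat_lit 5) (nat_lit 123) (nat_lit 129) (nat_lit 138)) (PT.nd (nat_lit 78) (PT.lf (nat_lit 19456) (nat_lit 6) (nat_lit 256) (nat_lit 5) (nat_lit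 124) (nat_lit 129) (nat_lit 137)) (PT.lf (nat_lit 19988) (nat_lit 6) (nat_lit 263) (nat_lit 5) (nat_lit 125) (nat_lit 129) (nat_lit 136)))) (PT.nd (nat_lit 78) (PT.lf (nat_lit 20444) (nat_lit 6) (nat_lit 269) (nat_lit 5) (nat_lit 126) (nat_lit 129) (nat_lit 135)) (PT.nd (nat_lit 78) (PT.lf (nat_lit 20824) (nat_lit 6) (nat_lit 274) (nat_lit 5) (nat_lit 127) (nat_lit 129) (nat_lit 134)) (PT.lf (nat_lit 21128) (nat_lit 6) (nat_lit 278) (nat_lit 5) (nat_lit 128) (nat_lit 129) (nat_lit 133))))) (PT.nd (nat_lit 234) (PT.nd (nat_lit 78) (PT.lf (nat_lit 21356) (nat_lit 3) (nat_lit 281) (nat_lit 3) (nat_lit 129) (nat_lit 129) (nat_lit 132)) (PT.nd (nat_lit 78) (PT.lf (nat_lit 21584) (nat_lit 6) (nat_lit 284) (nat_lit 3) (nat_lit 130) (nat_lit 129) (nat_lit 131)) (PT.lf (nat_lit 21584) (nat_lit 6) (nat_lit 284) (nat_lit 1) (nat_lit 131) (nat_lit 129) (nat_lit 130)))) (PT.nd (nat_lit 78) (PT.lf (nat_lit 21356)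 (nat_lit 3) (nat_lit 281) (nat_lit 0) (nat_lit 132) (nat_lit 129) (nat_lit 129)) (PT.nd (nat_lit 78) (PT.lf (nat_lit 21128) (nat_lit 6) (nat_lit 278) (nat_lit 0) (nat_lit 133) (nat_lit 129) (nat_lit 128)) (PT.lf (nat_lit 20824) (nat_lit 6) (nat_lit 274) (nat_lit 0) (nat_lit 134) (nat_lit 129) (nat_lit 127))))))) (PT.nd (nat_lit 39156) (PT.nd (nat_lit 468) (PT.nd (nat_lit 234) (PT.nd (nat_lit 78) (PT.lf (nat_lit 20444) (nat_lit 6) (nat_lit 269) (nat_lit 0) (nat_lit 135) (nat_lit 129) (nat_lit 126)) (PT.nd (nat_lit 78) (PT.lf (nat_lit 19988) (nat_lit 6) (nat_lit 263) (nat_lit 0) (nat_lit 136) (nat_lit 129) (nat_lit 125)) (PT.lf (nat_lit 19456) (nat_lit 6) (nat_lit 256) (nat_lit 0) (nat_lit 137) (nat_lit 129) (nat_lit 124)))) (PT.nd (nat_lit 78) (PT.lf (nat_lit 18848) (nat_lit 6) (nat_lit 248) (nat_lit 0) (nat_lit 138) (nat_lit 129) (nat_lit 123)) (PT.nd (nat_lit 78) (PT.lf (nat_lit 18164) (nat_lit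 6) (nat_lit 239) (nat_lit 0) (nat_lit 139) (nat_lit 129) (nat_lit 122)) (PT.lf (nat_lit 17404) (nat_lit 6) (nat_lit 229) (nat_lit 0) (nat_lit 140) (nat_lit 129) (nat_lit 121))))) (PT.nd (nat_lit 234) (PT.nd (nat_lit 78) (PT.lf (nat_lit 16568) (nat_lit 6) (nat_lit 218) (nat_lit 0) (nat_lit 141) (nat_lit 129) (nat_lit 120)) (PT.nd (nat_lit 78) (PT.lf (nat_lit 15656) (nat_lit 6) (nat_lit 206) (nat_lit 0) (nat_lit 142) (nat_lit 129) (nat_lit 119)) (PT.lf (nat_lit 14668) (nat_lit 6) (nat_lit 193) (nat_lit 0) (nat_lit 143) (nat_lit 129) (nat_lit 118)))) (PT.nd (nat_lit 78) (PT.lf (nat_lit 13604) (nat_lit 6) (nat_lit 179) (nat_lit 0) (nat_lit 144) (nat_lit 129) (nat_lit 117)) (PT.nd (nat_lit 38298) (PT.lf (nat_lit 12464) (nat_lit 6) (nat_lit 164) (nat_lit 0) (nat_lit 145) (nat_lit 129) (nat_lit 116)) (PT.lf (nat_lit 12540) (nat_lit 6) (nat_lit 165) (nat_lit 5) (nat_lit 115) (nat_lit 130) (nat_lit 145))))))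 (PT.nd (nat_lit 468) (PT.nd (nat_lit 234) (PT.nd (nat_lit 78) (PT.lf (nat_lit 13680) (nat_lit 6) (nat_lit 180) (nat_lit 5) (nat_lit 116) (nat_lit 130) (nat_lit 144)) (PT.nd (nat_lit 78) (PT.lf (nat_lit 14744) (nat_lit 6) (nat_lit 194) (nat_lit 5) (nat_lit 117) (nat_lit 130) (nat_lit 143)) (PT.lf (nat_lit 15732) (nat_lit 6) (nat_lit 207) (nat_lit 5) (nat_lit 118) (nat_lit 130) (nat_lit 142)))) (PT.nd (nat_lit 78) (PT.lf (nat_lit 16644) (nat_lit 6) (nat_lit 219) (nat_lit 5) (nat_lit 119) (nat_lit 130) (nat_lit 141)) (PT.nd (nat_lit 78) (PT.lf (nat_lit 17480) (nat_lit 6) (nat_lit 230) (nat_lit 5) (nat_lit 120) (nat_lit 130) (nat_lit 140)) (PT.lf (nat_lit 18240) (nat_lit 6) (nat_lit 240) (nat_lit 5) (nat_lit 121) (nat_lit 130) (nat_lit 139))))) (PT.nd (nat_lit 234) (PT.nd (nat_lit 78) (PT.lf (nat_lit 18924) (nat_lit 6) (nat_lit 249) (nat_lit 5) (nat_lit 122) (nat_lit 130) (nat_lit 138)) (PT.nd (nat_lit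 78) (PT.lf (nat_lit 19532) (nat_lit 6) (nat_lit 257) (nat_lit 5) (nat_lit 123) (nat_lit 130) (nat_lit 137)) (PT.lf (nat_lit 20064) (nat_lit 6) (nat_lit 264) (nat_lit 5) (nat_lit 124) (nat_lit 130) (nat_lit 136)))) (PT.nd (nat_lit 156) (PT.nd (nat_lit 78) (PT.lf (nat_lit 20520) (nat_lit 6) (nat_lit 270) (nat_lit 5) (nat_lit 125) (nat_lit 130) (nat_lit 135)) (PT.lf (nat_lit 20900) (nat_lit 6) (nat_lit 275) (nat_lit 5) (nat_lit 126) (nat_lit 130) (nat_lit 134))) (PT.nd (nat_lit 78) (PT.lf (nat_lit 21204) (nat_lit 6) (nat_lit 279) (nat_lit 5) (nat_lit 127) (nat_lit 130) (nat_lit 133)) (PT.lf (nat_lit 21432) (nat_lit 6) (nat_lit 282) (nat_lit 5) (nat_lit 128) (nat_lit 130) (nat_lit 132))))))))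
noncomputable def pc13 : PT := (PT.nd (nat_lit 40092) (PT.nd (nat_lit 936) (PT.nd (nat_lit 468) (PT.nd (nat_lit 234) (PT.nd (nat_lit 78) (PT.lf (nat_lit 21584) (nat_lit 6) (nat_lit 284) (nat_lit 5) (nat_lit 129) (nat_lit 130) (nat_lit 131)) (PT.nd (nat_lit 78) (PT.lf (nat_lit 21660) (nat_lit 1) (nat_lit 285) (nat_lit 0) (nat_lit 130) (nat_lit 130) (nat_lit 130)) (PT.lf (nat_lit 21584) (nat_lit 6) (nat_lit 284) (nat_lit 0) (nat_lit 131) (nat_lit 130) (nat_lit 129)))) (PT.nd (nat_lit 78) (PT.lf (nat_lit 21432) (nat_lit 6) (nat_lit 282) (nat_lit 0) (nat_lit 132) (nat_lit 130) (nat_lit 128)) (PT.nd (nat_lit 78) (PT.lf (nat_lit 21204) (nat_lit 6) (nat_lit 279) (nat_lit 0) (nat_lit 133) (nat_lit 130) (nat_lit 127)) (PT.lf (nat_lit 20900) (nat_lit 6) (nat_lit 275) (nat_lit 0) (nat_lit 134) (nat_lit 130) (nat_lit 126))))) (PT.nd (nat_lit 234) (PT.nd (nat_lit 78) (PT.lf (nat_lit 20520) (nat_lit 6) (nat_lit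 270) (nat_lit 0) (nat_lit 135) (nat_lit 130) (nat_lit 125)) (PT.nd (nat_lit 78) (PT.lf (nat_lit 20064) (nat_lit 6) (nat_lit 264) (nat_lit 0) (nat_lit 136) (nat_lit 130) (nat_lit 124)) (PT.lf (nat_lit 19532) (nat_lit 6) (nat_lit 257) (nat_lit 0) (nat_lit 137) (nat_lit 130) (nat_lit 123)))) (PT.nd (nat_lit 78) (PT.lf (nat_lit 18924) (nat_lit 6) (nat_lit 249) (nat_lit 0) (nat_lit 138) (nat_lit 130) (nat_lit 122)) (PT.nd (nat_lit 78) (PT.lf (nat_lit 18240) (nat_lit 6) (nat_lit 240) (nat_lit 0) (nat_lit 139) (nat_lit 130) (nat_lit 121)) (PT.lf (nat_lit 17480) (nat_lit 6) (nat_lit 230) (nat_lit 0) (nat_lit 140) (nat_lit 130) (nat_lit 120)))))) (PT.nd (nat_lit 38610) (PT.nd (nat_lit 234) (PT.nd (nat_lit 78) (PT.lf (nat_lit 16644) (nat_lit 6) (nat_lit 219) (nat_lit 0) (nat_lit 141) (nat_lit 130) (nat_lit 119)) (PT.nd (nat_lit 78) (PT.lf (nat_lit 15732) (nat_lit 6) (nat_lit 207) (nat_lit 0) (nat_lit 142)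 (nat_lit 130) (nat_lit 118)) (PT.lf (nat_lit 14744) (nat_lit 6) (nat_lit 194) (nat_lit 0) (nat_lit 143) (nat_lit 130) (nat_lit 117)))) (PT.nd (nat_lit 78) (PT.lf (nat_lit 13680) (nat_lit 6) (nat_lit 180) (nat_lit 0) (nat_lit 144) (nat_lit 130) (nat_lit 116)) (PT.nd (nat_lit 38220) (PT.lf (nat_lit 12540) (nat_lit 6) (nat_lit 165) (nat_lit 0) (nat_lit 145) (nat_lit 130) (nat_lit 115)) (PT.lf (nat_lit 11476) (nat_lit 6) (nat_lit 151) (nat_lit 5) (nat_lit 114) (nat_lit 131) (nat_lit 145))))) (PT.nd (nat_lit 234) (PT.nd (nat_lit 78) (PT.lf (nat_lit 12616) (nat_lit 6) (nat_lit 166) (nat_lit 5) (nat_lit 115) (nat_lit 131) (nat_lit 144)) (PT.nd (nat_lit 78) (PT.lf (nat_lit 13756) (nat_lit 6) (nat_lit 181) (nat_lit 5) (nat_lit 116) (nat_lit 131) (nat_lit 143)) (PT.lf (nat_lit 14820) (nat_lit 6) (nat_lit 195) (nat_lit 5) (nat_lit 117) (nat_lit 131) (nat_lit 142)))) (PT.nd (nat_lit 156) (PT.nd (nat_lit 78)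 (PT.lf (nat_lit 15808) (nat_lit 6) (nat_lit 208) (nat_lit 5) (nat_lit 118) (nat_lit 131) (nat_lit 141)) (PT.lf (nat_lit 16720) (nat_lit 6) (nat_lit 220) (nat_lit 5) (nat_lit 119) (nat_lit 131) (nat_lit 140))) (PT.nd (nat_lit 78) (PT.lf (nat_lit 17556) (nat_lit 6) (nat_lit 231) (nat_lit 5) (nat_lit 120) (nat_lit 131) (nat_lit 139)) (PT.lf (nat_lit 18316) (nat_lit 6) (nat_lit 241) (nat_lit 5) (nat_lit 121) (nat_lit 131) (nat_lit 138))))))) (PT.nd (nat_lit 936) (PT.nd (nat_lit 468) (PT.nd (nat_lit 234) (PT.nd (nat_lit 78) (PT.lf (nat_lit 19000) (nat_lit 6) (nat_lit 250) (nat_lit 5) (nat_lit 122) (nat_lit 131) (nat_lit 137)) (PT.nd (nat_lit 78) (PT.lf (nat_lit 19608) (nat_lit 6) (nat_lit 258) (nat_lit 5) (nat_lit 123) (nat_lit 131) (nat_lit 136)) (PT.lf (nat_lit 20140) (nat_lit 6) (nat_lit 265) (nat_lit 5) (nat_lit 124) (nat_lit 131) (nat_lit 135)))) (PT.nd (nat_lit 78) (PT.lf (nat_lit 20596) (nat_lit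 6) (nat_lit 271) (nat_lit 5) (nat_lit 125) (nat_lit 131) (nat_lit 134)) (PT.nd (nat_lit 78) (PT.lf (nat_lit 20976) (nat_lit 6) (nat_lit 276) (nat_lit 5) (nat_lit 126) (nat_lit 131) (nat_lit 133)) (PT.lf (nat_lit 21280) (nat_lit 6) (nat_lit 280) (nat_lit 5) (nat_lit 127) (nat_lit 131) (nat_lit 132))))) (PT.nd (nat_lit 234) (PT.nd (nat_lit 78) (PT.lf (nat_lit 21508) (nat_lit 3) (nat_lit 283) (nat_lit 4) (nat_lit 128) (nat_lit 131) (nat_lit 131)) (PT.nd (nat_lit 78) (PT.lf (nat_lit 21584) (nat_lit 6) (nat_lit 284) (nat_lit 4) (nat_lit 129) (nat_lit 131) (nat_lit 130)) (PT.lf (nat_lit 21584) (nat_lit 6) (nat_lit 284) (nat_lit 2) (nat_lit 130) (nat_lit 131) (nat_lit 129)))) (PT.nd (nat_lit 78) (PT.lf (nat_lit 21508) (nat_lit 3) (nat_lit 283) (nat_lit 0) (nat_lit 131) (nat_lit 131) (nat_lit 128)) (PT.nd (nat_lit 78) (PT.lf (nat_lit 21280) (nat_lit 6) (nat_lit 280) (nat_lit 0) (nat_lit 132) (nat_lit 131)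 (nat_lit 127)) (PT.lf (nat_lit 20976) (nat_lit 6) (nat_lit 276) (nat_lit 0) (nat_lit 133) (nat_lit 131) (nat_lit 126)))))) (PT.nd (nat_lit 468) (PT.nd (nat_lit 234) (PT.nd (nat_lit 78) (PT.lf (nat_lit 20596) (nat_lit 6) (nat_lit 271) (nat_lit 0) (nat_lit 134) (nat_lit 131) (nat_lit 125)) (PT.nd (nat_lit 78) (PT.lf (nat_lit 20140) (nat_lit 6) (nat_lit 265) (nat_lit 0) (nat_lit 135) (nat_lit 131) (nat_lit 124)) (PT.lf (nat_lit 19608) (nat_lit 6) (nat_lit 258) (nat_lit 0) (nat_lit 136) (nat_lit 131) (nat_lit 123)))) (PT.nd (nat_lit 78) (PT.lf (nat_lit 19000) (nat_lit 6) (nat_lit 250) (nat_lit 0) (nat_lit 137) (nat_lit 131) (nat_lit 122)) (PT.nd (nat_lit 78) (PT.lf (nat_lit 18316) (nat_lit 6) (nat_lit 241) (nat_lit 0) (nat_lit 138) (nat_lit 131) (nat_lit 121)) (PT.lf (nat_lit 17556) (nat_lit 6) (nat_lit 231) (nat_lit 0) (nat_lit 139) (nat_lit 131) (nat_lit 120))))) (PT.nd (nat_lit 234) (PT.nd (nat_lit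 78) (PT.lf (nat_lit 16720) (nat_lit 6) (nat_lit 220) (nat_lit 0) (nat_lit 140) (nat_lit 131) (nat_lit 119)) (PT.nd (nat_lit 78) (PT.lf (nat_lit 15808) (nat_lit 6) (nat_lit 208) (nat_lit 0) (nat_lit 141) (nat_lit 131) (nat_lit 118)) (PT.lf (nat_lit 14820) (nat_lit 6) (nat_lit 195) (nat_lit 0) (nat_lit 142) (nat_lit 131) (nat_lit 117)))) (PT.nd (nat_lit 156) (PT.nd (nat_lit 78) (PT.lf (nat_lit 13756) (nat_lit 6) (nat_lit 181) (nat_lit 0) (nat_lit 143) (nat_lit 131) (nat_lit 116)) (PT.lf (nat_lit 12616) (nat_lit 6) (nat_lit 166) (nat_lit 0) (nat_lit 144) (nat_lit 131) (nat_lit 115))) (PT.nd (nat_lit 38064) (PT.lf (nat_lit 11476) (nat_lit 6) (nat_lit 151) (nat_lit 0) (nat_lit 145) (nat_lit 131) (nat_lit 114)) (PT.lf (nat_lit 10336) (nat_lit 6) (nat_lit 136) (nat_lit 5) (nat_lit 112) (nat_lit 132) (nat_lit 146))))))))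
noncomputable def pc14 : PT := (PT.nd (nat_lit 1950) (PT.nd (nat_lit 936) (PT.nd (nat_lit 468) (PT.nd (nat_lit 234) (PT.nd (nat_lit 78) (PT.lf (nat_lit 10944) (nat_lit 6) (nat_lit 144) (nat_lit 5) (nat_lit 113) (nat_lit 132) (nat_lit 145)) (PT.nd (nat_lit 78) (PT.lf (nat_lit 11552) (nat_lit 6) (nat_lit 152) (nat_lit 5) (nat_lit 114) (nat_lit 132) (nat_lit 144)) (PT.lf (nat_lit 12692) (nat_lit 6) (nat_lit 167) (nat_lit 5) (nat_lit 115) (nat_lit 132) (nat_lit 143)))) (PT.nd (nat_lit 78) (PT.lf (nat_lit 13832) (nat_lit 6) (nat_lit 182) (nat_lit 5) (nat_lit 116) (nat_lit 132) (nat_lit 142)) (PT.nd (nat_lit 78) (PT.lf (nat_lit 14896) (nat_lit 6) (nat_lit 196) (nat_lit 5) (nat_lit 117) (nat_lit 132) (nat_lit 141)) (PT.lf (nat_lit 15884) (nat_lit 6) (nat_lit 209) (nat_lit 5) (nat_lit 118) (nat_lit 132) (nat_lit 140))))) (PT.nd (nat_lit 234) (PT.nd (nat_lit 78) (PT.lf (nat_lit 16796) (nat_lit 6) (nat_lit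 221) (nat_lit 5) (nat_lit 119) (nat_lit 132) (nat_lit 139)) (PT.nd (nat_lit 78) (PT.lf (nat_lit 17632) (nat_lit 6) (nat_lit 232) (nat_lit 5) (nat_lit 120) (nat_lit 132) (nat_lit 138)) (PT.lf (nat_lit 18392) (nat_lit 6) (nat_lit 242) (nat_lit 5) (nat_lit 121) (nat_lit 132) (nat_lit 137)))) (PT.nd (nat_lit 78) (PT.lf (nat_lit 19076) (nat_lit 6) (nat_lit 251) (nat_lit 5) (nat_lit 122) (nat_lit 132) (nat_lit 136)) (PT.nd (nat_lit 78) (PT.lf (nat_lit 19684) (nat_lit 6) (nat_lit 259) (nat_lit 5) (nat_lit 123) (nat_lit 132) (nat_lit 135)) (PT.lf (nat_lit 20216) (nat_lit 6) (nat_lit 266) (nat_lit 5) (nat_lit 124) (nat_lit 132) (nat_lit 134)))))) (PT.nd (nat_lit 468) (PT.nd (nat_lit 234) (PT.nd (nat_lit 78) (PT.lf (nat_lit 20672) (nat_lit 6) (nat_lit 272) (nat_lit 5) (nat_lit 125) (nat_lit 132) (nat_lit 133)) (PT.nd (nat_lit 78) (PT.lf (nat_lit 21052) (nat_lit 3) (nat_lit 277) (nat_lit 4) (nat_lit 126)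 (nat_lit 132) (nat_lit 132)) (PT.lf (nat_lit 21280) (nat_lit 6) (nat_lit 280) (nat_lit 4) (nat_lit 127) (nat_lit 132) (nat_lit 131)))) (PT.nd (nat_lit 78) (PT.lf (nat_lit 21432) (nat_lit 6) (nat_lit 282) (nat_lit 4) (nat_lit 128) (nat_lit 132) (nat_lit 130)) (PT.nd (nat_lit 78) (PT.lf (nat_lit 21356) (nat_lit 3) (nat_lit 281) (nat_lit 2) (nat_lit 129) (nat_lit 132) (nat_lit 129)) (PT.lf (nat_lit 21432) (nat_lit 6) (nat_lit 282) (nat_lit 2) (nat_lit 130) (nat_lit 132) (nat_lit 128))))) (PT.nd (nat_lit 234) (PT.nd (nat_lit 78) (PT.lf (nat_lit 21280) (nat_lit 6) (nat_lit 280) (nat_lit 2) (nat_lit 131) (nat_lit 132) (nat_lit 127)) (PT.nd (nat_lit 78) (PT.lf (nat_lit 21052) (nat_lit 3) (nat_lit 277) (nat_lit 0) (nat_lit 132) (nat_lit 132) (nat_lit 126)) (PT.lf (nat_lit 20672) (nat_lit 6) (nat_lit 272) (nat_lit 0) (nat_lit 133) (nat_lit 132) (nat_lit 125)))) (PT.nd (nat_lit 156) (PT.nd (nat_lit 78) (PT.lf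 (nat_lit 20216) (nat_lit 6) (nat_lit 266) (nat_lit 0) (nat_lit 134) (nat_lit 132) (nat_lit 124)) (PT.lf (nat_lit 19684) (nat_lit 6) (nat_lit 259) (nat_lit 0) (nat_lit 135) (nat_lit 132) (nat_lit 123))) (PT.nd (nat_lit 78) (PT.lf (nat_lit 19076) (nat_lit 6) (nat_lit 251) (nat_lit 0) (nat_lit 136) (nat_lit 132) (nat_lit 122)) (PT.lf (nat_lit 18392) (nat_lit 6) (nat_lit 242) (nat_lit 0) (nat_lit 137) (nat_lit 132) (nat_lit 121))))))) (PT.nd (nat_lit 38766) (PT.nd (nat_lit 468) (PT.nd (nat_lit 234) (PT.nd (nat_lit 78) (PT.lf (nat_lit 17632) (nat_lit 6) (nat_lit 232) (nat_lit 0) (nat_lit 138) (nat_lit 132) (nat_lit 120)) (PT.nd (nat_lit 78) (PT.lf (nat_lit 16796) (nat_lit 6) (nat_lit 221) (nat_lit 0) (nat_lit 139) (nat_lit 132) (nat_lit 119)) (PT.lf (nat_lit 15884) (nat_lit 6) (nat_lit 209) (nat_lit 0) (nat_lit 140) (nat_lit 132) (nat_lit 118)))) (PT.nd (nat_lit 78) (PT.lf (nat_lit 14896) (nat_lit 6)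 (nat_lit 196) (nat_lit 0) (nat_lit 141) (nat_lit 132) (nat_lit 117)) (PT.nd (nat_lit 78) (PT.lf (nat_lit 13832) (nat_lit 6) (nat_lit 182) (nat_lit 0) (nat_lit 142) (nat_lit 132) (nat_lit 116)) (PT.lf (nat_lit 12692) (nat_lit 6) (nat_lit 167) (nat_lit 0) (nat_lit 143) (nat_lit 132) (nat_lit 115))))) (PT.nd (nat_lit 38064) (PT.nd (nat_lit 78) (PT.lf (nat_lit 11552) (nat_lit 6) (nat_lit 152) (nat_lit 0) (nat_lit 144) (nat_lit 132) (nat_lit 114)) (PT.nd (nat_lit 78) (PT.lf (nat_lit 10944) (nat_lit 6) (nat_lit 144) (nat_lit 0) (nat_lit 145) (nat_lit 132) (nat_lit 113)) (PT.lf (nat_lit 10336) (nat_lit 6) (nat_lit 136) (nat_lit 0) (nat_lit 146) (nat_lit 132) (nat_lit 112)))) (PT.nd (nat_lit 78) (PT.lf (nat_lit 9804) (nat_lit 6) (nat_lit 129) (nat_lit 5) (nat_lit 111) (nat_lit 133) (nat_lit 146)) (PT.nd (nat_lit 78) (PT.lf (nat_lit 10412) (nat_lit 6) (nat_lit 137) (nat_lit 5) (nat_lit 112) (nat_lit 133)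 (nat_lit 145)) (PT.lf (nat_lit 11020) (nat_lit 6) (nat_lit 145) (nat_lit 5) (nat_lit 113) (nat_lit 133) (nat_lit 144)))))) (PT.nd (nat_lit 468) (PT.nd (nat_lit 234) (PT.nd (nat_lit 78) (PT.lf (nat_lit 11628) (nat_lit 6) (nat_lit 153) (nat_lit 5) (nat_lit 114) (nat_lit 133) (nat_lit 143)) (PT.nd (nat_lit 78) (PT.lf (nat_lit 12768) (nat_lit 6) (nat_lit 168) (nat_lit 5) (nat_lit 115) (nat_lit 133) (nat_lit 142)) (PT.lf (nat_lit 13908) (nat_lit 6) (nat_lit 183) (nat_lit 5) (nat_lit 116) (nat_lit 133) (nat_lit 141)))) (PT.nd (nat_lit 78) (PT.lf (nat_lit 14972) (nat_lit 6) (nat_lit 197) (nat_lit 5) (nat_lit 117) (nat_lit 133) (nat_lit 140)) (PT.nd (nat_lit 78) (PT.lf (nat_lit 15960) (nat_lit 6) (nat_lit 210) (nat_lit 5) (nat_lit 118) (nat_lit 133) (nat_lit 139)) (PT.lf (nat_lit 16872) (nat_lit 6) (nat_lit 222) (nat_lit 5) (nat_lit 119) (nat_lit 133) (nat_lit 138))))) (PT.nd (nat_lit 234) (PT.nd (nat_lit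 78) (PT.lf (nat_lit 17708) (nat_lit 6) (nat_lit 233) (nat_lit 5) (nat_lit 120) (nat_lit 133) (nat_lit 137)) (PT.nd (nat_lit 78) (PT.lf (nat_lit 18468) (nat_lit 6) (nat_lit 243) (nat_lit 5) (nat_lit 121) (nat_lit 133) (nat_lit 136)) (PT.lf (nat_lit 19152) (nat_lit 6) (nat_lit 252) (nat_lit 5) (nat_lit 122) (nat_lit 133) (nat_lit 135)))) (PT.nd (nat_lit 156) (PT.nd (nat_lit 78) (PT.lf (nat_lit 19760) (nat_lit 6) (nat_lit 260) (nat_lit 5) (nat_lit 123) (nat_lit 133) (nat_lit 134)) (PT.lf (nat_lit 20292) (nat_lit 3) (nat_lit 267) (nat_lit 4) (nat_lit 124) (nat_lit 133) (nat_lit 133))) (PT.nd (nat_lit 78) (PT.lf (nat_lit 20672) (nat_lit 6) (nat_lit 272) (nat_lit 4) (nat_lit 125) (nat_lit 133) (nat_lit 132)) (PT.lf (nat_lit 20976) (nat_lit 6) (nat_lit 276) (nat_lit 4) (nat_lit 126) (nat_lit 133) (nat_lit 131))))))))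
noncomputable def pc15 : PT := (PT.nd (nat_lit 39702) (PT.nd (nat_lit 936) (PT.nd (nat_lit 468) (PT.nd (nat_lit 234) (PT.nd (nat_lit 78) (PT.lf (nat_lit 21204) (nat_lit 6) (nat_lit 279) (nat_lit 4) (nat_lit 127) (nat_lit 133) (nat_lit 130)) (PT.nd (nat_lit 78) (PT.lf (nat_lit 21128) (nat_lit 6) (nat_lit 278) (nat_lit 4) (nat_lit 128) (nat_lit 133) (nat_lit 129)) (PT.lf (nat_lit 21128) (nat_lit 6) (nat_lit 278) (nat_lit 2) (nat_lit 129) (nat_lit 133) (nat_lit 128)))) (PT.nd (nat_lit 78) (PT.lf (nat_lit 21204) (nat_lit 6) (nat_lit 279) (nat_lit 2) (nat_lit 130) (nat_lit 133) (nat_lit 127)) (PT.nd (nat_lit 78) (PT.lf (nat_lit 20976) (nat_lit 6) (nat_lit 276) (nat_lit 2) (nat_lit 131) (nat_lit 133) (nat_lit 126)) (PT.lf (nat_lit 20672) (nat_lit 6) (nat_lit 272) (nat_lit 2) (nat_lit 132) (nat_lit 133) (nat_lit 125))))) (PT.nd (nat_lit 234) (PT.nd (nat_lit 78) (PT.lf (nat_lit 20292) (nat_lit 3) (nat_lit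 267) (nat_lit 0) (nat_lit 133) (nat_lit 133) (nat_lit 124)) (PT.nd (nat_lit 78) (PT.lf (nat_lit 19760) (nat_lit 6) (nat_lit 260) (nat_lit 0) (nat_lit 134) (nat_lit 133) (nat_lit 123)) (PT.lf (nat_lit 19152) (nat_lit 6) (nat_lit 252) (nat_lit 0) (nat_lit 135) (nat_lit 133) (nat_lit 122)))) (PT.nd (nat_lit 78) (PT.lf (nat_lit 18468) (nat_lit 6) (nat_lit 243) (nat_lit 0) (nat_lit 136) (nat_lit 133) (nat_lit 121)) (PT.nd (nat_lit 78) (PT.lf (nat_lit 17708) (nat_lit 6) (nat_lit 233) (nat_lit 0) (nat_lit 137) (nat_lit 133) (nat_lit 120)) (PT.lf (nat_lit 16872) (nat_lit 6) (nat_lit 222) (nat_lit 0) (nat_lit 138) (nat_lit 133) (nat_lit 119)))))) (PT.nd (nat_lit 468) (PT.nd (nat_lit 234) (PT.nd (nat_lit 78) (PT.lf (nat_lit 15960) (nat_lit 6) (nat_lit 210) (nat_lit 0) (nat_lit 139) (nat_lit 133) (nat_lit 118)) (PT.nd (nat_lit 78) (PT.lf (nat_lit 14972) (nat_lit 6) (nat_lit 197) (nat_lit 0) (nat_lit 140)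 (nat_lit 133) (nat_lit 117)) (PT.lf (nat_lit 13908) (nat_lit 6) (nat_lit 183) (nat_lit 0) (nat_lit 141) (nat_lit 133) (nat_lit 116)))) (PT.nd (nat_lit 78) (PT.lf (nat_lit 12768) (nat_lit 6) (nat_lit 168) (nat_lit 0) (nat_lit 142) (nat_lit 133) (nat_lit 115)) (PT.nd (nat_lit 78) (PT.lf (nat_lit 11628) (nat_lit 6) (nat_lit 153) (nat_lit 0) (nat_lit 143) (nat_lit 133) (nat_lit 114)) (PT.lf (nat_lit 11020) (nat_lit 6) (nat_lit 145) (nat_lit 0) (nat_lit 144) (nat_lit 133) (nat_lit 113))))) (PT.nd (nat_lit 37986) (PT.nd (nat_lit 78) (PT.lf (nat_lit 10412) (nat_lit 6) (nat_lit 137) (nat_lit 0) (nat_lit 145) (nat_lit 133) (nat_lit 112)) (PT.nd (nat_lit 37830) (PT.lf (nat_lit 9804) (nat_lit 6) (nat_lit 129) (nat_lit 0) (nat_lit 146) (nat_lit 133) (nat_lit 111)) (PT.lf (nat_lit 9272) (nat_lit 6) (nat_lit 122) (nat_lit 5) (nat_lit 110) (nat_lit 134) (nat_lit 146)))) (PT.nd (nat_lit 156) (PT.nd (nat_lit 78)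 (PT.lf (nat_lit 9880) (nat_lit 6) (nat_lit 130) (nat_lit 5) (nat_lit 111) (nat_lit 134) (nat_lit 145)) (PT.lf (nat_lit 10488) (nat_lit 6) (nat_lit 138) (nat_lit 5) (nat_lit 112) (nat_lit 134) (nat_lit 144))) (PT.nd (nat_lit 78) (PT.lf (nat_lit 11096) (nat_lit 6) (nat_lit 146) (nat_lit 5) (nat_lit 113) (nat_lit 134) (nat_lit 143)) (PT.lf (nat_lit 11704) (nat_lit 6) (nat_lit 154) (nat_lit 5) (nat_lit 114) (nat_lit 134) (nat_lit 142))))))) (PT.nd (nat_lit 936) (PT.nd (nat_lit 468) (PT.nd (nat_lit 234) (PT.nd (nat_lit 78) (PT.lf (nat_lit 12844) (nat_lit 6) (nat_lit 169) (nat_lit 5) (nat_lit 115) (nat_lit 134) (nat_lit 141)) (PT.nd (nat_lit 78) (PT.lf (nat_lit 13984) (nat_lit 6) (nat_lit 184) (nat_lit 5) (nat_lit 116) (nat_lit 134) (nat_lit 140)) (PT.lf (nat_lit 15048) (nat_lit 6) (nat_lit 198) (nat_lit 5) (nat_lit 117) (nat_lit 134) (nat_lit 139)))) (PT.nd (nat_lit 78) (PT.lf (nat_lit 16036) (nat_lit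 6) (nat_lit 211) (nat_lit 5) (nat_lit 118) (nat_lit 134) (nat_lit 138)) (PT.nd (nat_lit 78) (PT.lf (nat_lit 16948) (nat_lit 6) (nat_lit 223) (nat_lit 5) (nat_lit 119) (nat_lit 134) (nat_lit 137)) (PT.lf (nat_lit 17784) (nat_lit 6) (nat_lit 234) (nat_lit 5) (nat_lit 120) (nat_lit 134) (nat_lit 136))))) (PT.nd (nat_lit 234) (PT.nd (nat_lit 78) (PT.lf (nat_lit 18544) (nat_lit 6) (nat_lit 244) (nat_lit 5) (nat_lit 121) (nat_lit 134) (nat_lit 135)) (PT.nd (nat_lit 78) (PT.lf (nat_lit 19228) (nat_lit 3) (nat_lit 253) (nat_lit 4) (nat_lit 122) (nat_lit 134) (nat_lit 134)) (PT.lf (nat_lit 19760) (nat_lit 6) (nat_lit 260) (nat_lit 4) (nat_lit 123) (nat_lit 134) (nat_lit 133)))) (PT.nd (nat_lit 78) (PT.lf (nat_lit 20216) (nat_lit 6) (nat_lit 266) (nat_lit 4) (nat_lit 124) (nat_lit 134) (nat_lit 132)) (PT.nd (nat_lit 78) (PT.lf (nat_lit 20596) (nat_lit 6) (nat_lit 271) (nat_lit 4) (nat_lit 125) (nat_lit 134)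 (nat_lit 131)) (PT.lf (nat_lit 20900) (nat_lit 6) (nat_lit 275) (nat_lit 4) (nat_lit 126) (nat_lit 134) (nat_lit 130)))))) (PT.nd (nat_lit 468) (PT.nd (nat_lit 234) (PT.nd (nat_lit 78) (PT.lf (nat_lit 20824) (nat_lit 6) (nat_lit 274) (nat_lit 4) (nat_lit 127) (nat_lit 134) (nat_lit 129)) (PT.nd (nat_lit 78) (PT.lf (nat_lit 20748) (nat_lit 3) (nat_lit 273) (nat_lit 2) (nat_lit 128) (nat_lit 134) (nat_lit 128)) (PT.lf (nat_lit 20824) (nat_lit 6) (nat_lit 274) (nat_lit 2) (nat_lit 129) (nat_lit 134) (nat_lit 127)))) (PT.nd (nat_lit 78) (PT.lf (nat_lit 20900) (nat_lit 6) (nat_lit 275) (nat_lit 2) (nat_lit 130) (nat_lit 134) (nat_lit 126)) (PT.nd (nat_lit 78) (PT.lf (nat_lit 20596) (nat_lit 6) (nat_lit 271) (nat_lit 2) (nat_lit 131) (nat_lit 134) (nat_lit 125)) (PT.lf (nat_lit 20216) (nat_lit 6) (nat_lit 266) (nat_lit 2) (nat_lit 132) (nat_lit 134) (nat_lit 124))))) (PT.nd (nat_lit 234) (PT.nd (nat_lit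 78) (PT.lf (nat_lit 19760) (nat_lit 6) (nat_lit 260) (nat_lit 2) (nat_lit 133) (nat_lit 134) (nat_lit 123)) (PT.nd (nat_lit 78) (PT.lf (nat_lit 19228) (nat_lit 3) (nat_lit 253) (nat_lit 0) (nat_lit 134) (nat_lit 134) (nat_lit 122)) (PT.lf (nat_lit 18544) (nat_lit 6) (nat_lit 244) (nat_lit 0) (nat_lit 135) (nat_lit 134) (nat_lit 121)))) (PT.nd (nat_lit 156) (PT.nd (nat_lit 78) (PT.lf (nat_lit 17784) (nat_lit 6) (nat_lit 234) (nat_lit 0) (nat_lit 136) (nat_lit 134) (nat_lit 120)) (PT.lf (nat_lit 16948) (nat_lit 6) (nat_lit 223) (nat_lit 0) (nat_lit 137) (nat_lit 134) (nat_lit 119))) (PT.nd (nat_lit 78) (PT.lf (nat_lit 16036) (nat_lit 6) (nat_lit 211) (nat_lit 0) (nat_lit 138) (nat_lit 134) (nat_lit 118)) (PT.lf (nat_lit 15048) (nat_lit 6) (nat_lit 198) (nat_lit 0) (nat_lit 139) (nat_lit 134) (nat_lit 117))))))))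
noncomputable def pc16 : PT := (PT.nd (nat_lit 39546) (PT.nd (nat_lit 38610) (PT.nd (nat_lit 468) (PT.nd (nat_lit 234) (PT.nd (nat_lit 78) (PT.lf (nat_lit 13984) (nat_lit 6) (nat_lit 184) (nat_lit 0) (nat_lit 140) (nat_lit 134) (nat_lit 116)) (PT.nd (nat_lit 78) (PT.lf (nat_lit 12844) (nat_lit 6) (nat_lit 169) (nat_lit 0) (nat_lit 141) (nat_lit 134) (nat_lit 115)) (PT.lf (nat_lit 11704) (nat_lit 6) (nat_lit 154) (nat_lit 0) (nat_lit 142) (nat_lit 134) (nat_lit 114)))) (PT.nd (nat_lit 78) (PT.lf (nat_lit 11096) (nat_lit 6) (nat_lit 146) (nat_lit 0) (nat_lit 143) (nat_lit 134) (nat_lit 113)) (PT.nd (nat_lit 78) (PT.lf (nat_lit 10488) (nat_lit 6) (nat_lit 138) (nat_lit 0) (nat_lit 144) (nat_lit 134) (nat_lit 112)) (PT.lf (nat_lit 9880) (nat_lit 6) (nat_lit 130) (nat_lit 0) (nat_lit 145) (nat_lit 134) (nat_lit 111))))) (PT.nd (nat_lit 37908) (PT.nd (nat_lit 37752) (PT.lf (nat_lit 9272) (nat_lit 6)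 (nat_lit 122) (nat_lit 0) (nat_lit 146) (nat_lit 134) (nat_lit 110)) (PT.nd (nat_lit 78) (PT.lf (nat_lit 8816) (nat_lit 6) (nat_lit 116) (nat_lit 5) (nat_lit 109) (nat_lit 135) (nat_lit 146)) (PT.lf (nat_lit 9348) (nat_lit 6) (nat_lit 123) (nat_lit 5) (nat_lit 110) (nat_lit 135) (nat_lit 145)))) (PT.nd (nat_lit 78) (PT.lf (nat_lit 9956) (nat_lit 6) (nat_lit 131) (nat_lit 5) (nat_lit 111) (nat_lit 135) (nat_lit 144)) (PT.nd (nat_lit 78) (PT.lf (nat_lit 10564) (nat_lit 6) (nat_lit 139) (nat_lit 5) (nat_lit 112) (nat_lit 135) (nat_lit 143)) (PT.lf (nat_lit 11172) (nat_lit 6) (nat_lit 147) (nat_lit 5) (nat_lit 113) (nat_lit 135) (nat_lit 142)))))) (PT.nd (nat_lit 468) (PT.nd (nat_lit 234) (PT.nd (nat_lit 78) (PT.lf (nat_lit 11780) (nat_lit 6) (nat_lit 155) (nat_lit 5) (nat_lit 114) (nat_lit 135) (nat_lit 141)) (PT.nd (nat_lit 78) (PT.lf (nat_lit 12920) (nat_lit 6) (nat_lit 170) (nat_lit 5) (nat_lit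 115) (nat_lit 135) (nat_lit 140)) (PT.lf (nat_lit 14060) (nat_lit 6) (nat_lit 185) (nat_lit 5) (nat_lit 116) (nat_lit 135) (nat_lit 139)))) (PT.nd (nat_lit 78) (PT.lf (nat_lit 15124) (nat_lit 6) (nat_lit 199) (nat_lit 5) (nat_lit 117) (nat_lit 135) (nat_lit 138)) (PT.nd (nat_lit 78) (PT.lf (nat_lit 16112) (nat_lit 6) (nat_lit 212) (nat_lit 5) (nat_lit 118) (nat_lit 135) (nat_lit 137)) (PT.lf (nat_lit 17024) (nat_lit 6) (nat_lit 224) (nat_lit 5) (nat_lit 119) (nat_lit 135) (nat_lit 136))))) (PT.nd (nat_lit 234) (PT.nd (nat_lit 78) (PT.lf (nat_lit 17860) (nat_lit 3) (nat_lit 235) (nat_lit 4) (nat_lit 120) (nat_lit 135) (nat_lit 135)) (PT.nd (nat_lit 78) (PT.lf (nat_lit 18544) (nat_lit 6) (nat_lit 244) (nat_lit 4) (nat_lit 121) (nat_lit 135) (nat_lit 134)) (PT.lf (nat_lit 19152) (nat_lit 6) (nat_lit 252) (nat_lit 4) (nat_lit 122) (nat_lit 135) (nat_lit 133)))) (PT.nd (nat_lit 78) (PT.lf (nat_lit 19684)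 (nat_lit 6) (nat_lit 259) (nat_lit 4) (nat_lit 123) (nat_lit 135) (nat_lit 132)) (PT.nd (nat_lit 78) (PT.lf (nat_lit 20140) (nat_lit 6) (nat_lit 265) (nat_lit 4) (nat_lit 124) (nat_lit 135) (nat_lit 131)) (PT.lf (nat_lit 20520) (nat_lit 6) (nat_lit 270) (nat_lit 4) (nat_lit 125) (nat_lit 135) (nat_lit 130))))))) (PT.nd (nat_lit 936) (PT.nd (nat_lit 468) (PT.nd (nat_lit 234) (PT.nd (nat_lit 78) (PT.lf (nat_lit 20444) (nat_lit 6) (nat_lit 269) (nat_lit 4) (nat_lit 126) (nat_lit 135) (nat_lit 129)) (PT.nd (nat_lit 78) (PT.lf (nat_lit 20368) (nat_lit 6) (nat_lit 268) (nat_lit 4) (nat_lit 127) (nat_lit 135) (nat_lit 128)) (PT.lf (nat_lit 20368) (nat_lit 6) (nat_lit 268) (nat_lit 2) (nat_lit 128) (nat_lit 135) (nat_lit 127)))) (PT.nd (nat_lit 78) (PT.lf (nat_lit 20444) (nat_lit 6) (nat_lit 269) (nat_lit 2) (nat_lit 129) (nat_lit 135) (nat_lit 126)) (PT.nd (nat_lit 78) (PT.lf (nat_lit 20520) (nat_lit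 6) (nat_lit 270) (nat_lit 2) (nat_lit 130) (nat_lit 135) (nat_lit 125)) (PT.lf (nat_lit 20140) (nat_lit 6) (nat_lit 265) (nat_lit 2) (nat_lit 131) (nat_lit 135) (nat_lit 124))))) (PT.nd (nat_lit 234) (PT.nd (nat_lit 78) (PT.lf (nat_lit 19684) (nat_lit 6) (nat_lit 259) (nat_lit 2) (nat_lit 132) (nat_lit 135) (nat_lit 123)) (PT.nd (nat_lit 78) (PT.lf (nat_lit 19152) (nat_lit 6) (nat_lit 252) (nat_lit 2) (nat_lit 133) (nat_lit 135) (nat_lit 122)) (PT.lf (nat_lit 18544) (nat_lit 6) (nat_lit 244) (nat_lit 2) (nat_lit 134) (nat_lit 135) (nat_lit 121)))) (PT.nd (nat_lit 78) (PT.lf (nat_lit 17860) (nat_lit 3) (nat_lit 235) (nat_lit 0) (nat_lit 135) (nat_lit 135) (nat_lit 120)) (PT.nd (nat_lit 78) (PT.lf (nat_lit 17024) (nat_lit 6) (nat_lit 224) (nat_lit 0) (nat_lit 136) (nat_lit 135) (nat_lit 119)) (PT.lf (nat_lit 16112) (nat_lit 6) (nat_lit 212) (nat_lit 0) (nat_lit 137) (nat_lit 135) (nat_lit 118))))))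 (PT.nd (nat_lit 468) (PT.nd (nat_lit 234) (PT.nd (nat_lit 78) (PT.lf (nat_lit 15124) (nat_lit 6) (nat_lit 199) (nat_lit 0) (nat_lit 138) (nat_lit 135) (nat_lit 117)) (PT.nd (nat_lit 78) (PT.lf (nat_lit 14060) (nat_lit 6) (nat_lit 185) (nat_lit 0) (nat_lit 139) (nat_lit 135) (nat_lit 116)) (PT.lf (nat_lit 12920) (nat_lit 6) (nat_lit 170) (nat_lit 0) (nat_lit 140) (nat_lit 135) (nat_lit 115)))) (PT.nd (nat_lit 78) (PT.lf (nat_lit 11780) (nat_lit 6) (nat_lit 155) (nat_lit 0) (nat_lit 141) (nat_lit 135) (nat_lit 114)) (PT.nd (nat_lit 78) (PT.lf (nat_lit 11172) (nat_lit 6) (nat_lit 147) (nat_lit 0) (nat_lit 142) (nat_lit 135) (nat_lit 113)) (PT.lf (nat_lit 10564) (nat_lit 6) (nat_lit 139) (nat_lit 0) (nat_lit 143) (nat_lit 135) (nat_lit 112))))) (PT.nd (nat_lit 37752) (PT.nd (nat_lit 78) (PT.lf (nat_lit 9956) (nat_lit 6) (nat_lit 131) (nat_lit 0) (nat_lit 144) (nat_lit 135) (nat_lit 111)) (PT.nd (nat_lit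 78) (PT.lf (nat_lit 9348) (nat_lit 6) (nat_lit 123) (nat_lit 0) (nat_lit 145) (nat_lit 135) (nat_lit 110)) (PT.lf (nat_lit 8816) (nat_lit 6) (nat_lit 116) (nat_lit 0) (nat_lit 146) (nat_lit 135) (nat_lit 109)))) (PT.nd (nat_lit 156) (PT.nd (nat_lit 78) (PT.lf (nat_lit 7904) (nat_lit 6) (nat_lit 104) (nat_lit 5) (nat_lit 107) (nat_lit 136) (nat_lit 147)) (PT.lf (nat_lit 8360) (nat_lit 6) (nat_lit 110) (nat_lit 5) (nat_lit 108) (nat_lit 136) (nat_lit 146))) (PT.nd (nat_lit 78) (PT.lf (nat_lit 8892) (nat_lit 6) (nat_lit 117) (nat_lit 5) (nat_lit 109) (nat_lit 136) (nat_lit 145)) (PT.lf (nat_lit 9424) (nat_lit 6) (nat_lit 124) (nat_lit 5) (nat_lit 110) (nat_lit 136) (nat_lit 144))))))))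
noncomputable def pc17 : PT := (PT.nd (nat_lit 1950) (PT.nd (nat_lit 936) (PT.nd (nat_lit 468) (PT.nd (nat_lit 234) (PT.nd (nat_lit 78) (PT.lf (nat_lit 10032) (nat_lit 6) (nat_lit 132) (nat_lit 5) (nat_lit 111) (nat_lit 136) (nat_lit 143)) (PT.nd (nat_lit 78) (PT.lf (nat_lit 10640) (nat_lit 6) (nat_lit 140) (nat_lit 5) (nat_lit 112) (nat_lit 136) (nat_lit 142)) (PT.lf (nat_lit 11248) (nat_lit 6) (nat_lit 148) (nat_lit 5) (nat_lit 113) (nat_lit 136) (nat_lit 141)))) (PT.nd (nat_lit 78) (PT.lf (nat_lit 11856) (nat_lit 6) (nat_lit 156) (nat_lit 5) (nat_lit 114) (nat_lit 136) (nat_lit 140)) (PT.nd (nat_lit 78) (PT.lf (nat_lit 12996) (nat_lit 6) (nat_lit 171) (nat_lit 5) (nat_lit 115) (nat_lit 136) (nat_lit 139)) (PT.lf (nat_lit 14136) (nat_lit 6) (nat_lit 186) (nat_lit 5) (nat_lit 116) (nat_lit 136) (nat_lit 138))))) (PT.nd (nat_lit 234) (PT.nd (nat_lit 78) (PT.lf (nat_lit 15200) (nat_lit 6) (nat_lit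 200) (nat_lit 5) (nat_lit 117) (nat_lit 136) (nat_lit 137)) (PT.nd (nat_lit 78) (PT.lf (nat_lit 16188) (nat_lit 3) (nat_lit 213) (nat_lit 4) (nat_lit 118) (nat_lit 136) (nat_lit 136)) (PT.lf (nat_lit 17024) (nat_lit 6) (nat_lit 224) (nat_lit 4) (nat_lit 119) (nat_lit 136) (nat_lit 135)))) (PT.nd (nat_lit 78) (PT.lf (nat_lit 17784) (nat_lit 6) (nat_lit 234) (nat_lit 4) (nat_lit 120) (nat_lit 136) (nat_lit 134)) (PT.nd (nat_lit 78) (PT.lf (nat_lit 18468) (nat_lit 6) (nat_lit 243) (nat_lit 4) (nat_lit 121) (nat_lit 136) (nat_lit 133)) (PT.lf (nat_lit 19076) (nat_lit 6) (nat_lit 251) (nat_lit 4) (nat_lit 122) (nat_lit 136) (nat_lit 132)))))) (PT.nd (nat_lit 468) (PT.nd (nat_lit 234) (PT.nd (nat_lit 78) (PT.lf (nat_lit 19608) (nat_lit 6) (nat_lit 258) (nat_lit 4) (nat_lit 123) (nat_lit 136) (nat_lit 131)) (PT.nd (nat_lit 78) (PT.lf (nat_lit 20064) (nat_lit 6) (nat_lit 264) (nat_lit 4) (nat_lit 124)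 (nat_lit 136) (nat_lit 130)) (PT.lf (nat_lit 19988) (nat_lit 6) (nat_lit 263) (nat_lit 4) (nat_lit 125) (nat_lit 136) (nat_lit 129)))) (PT.nd (nat_lit 78) (PT.lf (nat_lit 19912) (nat_lit 6) (nat_lit 262) (nat_lit 4) (nat_lit 126) (nat_lit 136) (nat_lit 128)) (PT.nd (nat_lit 78) (PT.lf (nat_lit 19836) (nat_lit 3) (nat_lit 261) (nat_lit 2) (nat_lit 127) (nat_lit 136) (nat_lit 127)) (PT.lf (nat_lit 19912) (nat_lit 6) (nat_lit 262) (nat_lit 2) (nat_lit 128) (nat_lit 136) (nat_lit 126))))) (PT.nd (nat_lit 234) (PT.nd (nat_lit 78) (PT.lf (nat_lit 19988) (nat_lit 6) (nat_lit 263) (nat_lit 2) (nat_lit 129) (nat_lit 136) (nat_lit 125)) (PT.nd (nat_lit 78) (PT.lf (nat_lit 20064) (nat_lit 6) (nat_lit 264) (nat_lit 2) (nat_lit 130) (nat_lit 136) (nat_lit 124)) (PT.lf (nat_lit 19608) (nat_lit 6) (nat_lit 258) (nat_lit 2) (nat_lit 131) (nat_lit 136) (nat_lit 123)))) (PT.nd (nat_lit 156) (PT.nd (nat_lit 78) (PT.lf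 (nat_lit 19076) (nat_lit 6) (nat_lit 251) (nat_lit 2) (nat_lit 132) (nat_lit 136) (nat_lit 122)) (PT.lf (nat_lit 18468) (nat_lit 6) (nat_lit 243) (nat_lit 2) (nat_lit 133) (nat_lit 136) (nat_lit 121))) (PT.nd (nat_lit 78) (PT.lf (nat_lit 17784) (nat_lit 6) (nat_lit 234) (nat_lit 2) (nat_lit 134) (nat_lit 136) (nat_lit 120)) (PT.lf (nat_lit 17024) (nat_lit 6) (nat_lit 224) (nat_lit 2) (nat_lit 135) (nat_lit 136) (nat_lit 119))))))) (PT.nd (nat_lit 38298) (PT.nd (nat_lit 468) (PT.nd (nat_lit 234) (PT.nd (nat_lit 78) (PT.lf (nat_lit 16188) (nat_lit 3) (nat_lit 213) (nat_lit 0) (nat_lit 136) (nat_lit 136) (nat_lit 118)) (PT.nd (nat_lit 78) (PT.lf (nat_lit 15200) (nat_lit 6) (nat_lit 200) (nat_lit 0) (nat_lit 137) (nat_lit 136) (nat_lit 117)) (PT.lf (nat_lit 14136) (nat_lit 6) (nat_lit 186) (nat_lit 0) (nat_lit 138) (nat_lit 136) (nat_lit 116)))) (PT.nd (nat_lit 78) (PT.lf (nat_lit 12996) (nat_lit 6)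 (nat_lit 171) (nat_lit 0) (nat_lit 139) (nat_lit 136) (nat_lit 115)) (PT.nd (nat_lit 78) (PT.lf (nat_lit 11856) (nat_lit 6) (nat_lit 156) (nat_lit 0) (nat_lit 140) (nat_lit 136) (nat_lit 114)) (PT.lf (nat_lit 11248) (nat_lit 6) (nat_lit 148) (nat_lit 0) (nat_lit 141) (nat_lit 136) (nat_lit 113))))) (PT.nd (nat_lit 234) (PT.nd (nat_lit 78) (PT.lf (nat_lit 10640) (nat_lit 6) (nat_lit 140) (nat_lit 0) (nat_lit 142) (nat_lit 136) (nat_lit 112)) (PT.nd (nat_lit 78) (PT.lf (nat_lit 10032) (nat_lit 6) (nat_lit 132) (nat_lit 0) (nat_lit 143) (nat_lit 136) (nat_lit 111)) (PT.lf (nat_lit 9424) (nat_lit 6) (nat_lit 124) (nat_lit 0) (nat_lit 144) (nat_lit 136) (nat_lit 110)))) (PT.nd (nat_lit 78) (PT.lf (nat_lit 8892) (nat_lit 6) (nat_lit 117) (nat_lit 0) (nat_lit 145) (nat_lit 136) (nat_lit 109)) (PT.nd (nat_lit 78) (PT.lf (nat_lit 8360) (nat_lit 6) (nat_lit 110) (nat_lit 0) (nat_lit 146) (nat_lit 136) (nat_lit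 108)) (PT.lf (nat_lit 7904) (nat_lit 6) (nat_lit 104) (nat_lit 0) (nat_lit 147) (nat_lit 136) (nat_lit 107)))))) (PT.nd (nat_lit 468) (PT.nd (nat_lit 234) (PT.nd (nat_lit 78) (PT.lf (nat_lit 7448) (nat_lit 6) (nat_lit 98) (nat_lit 5) (nat_lit 106) (nat_lit 137) (nat_lit 147)) (PT.nd (nat_lit 78) (PT.lf (nat_lit 7980) (nat_lit 6) (nat_lit 105) (nat_lit 5) (nat_lit 107) (nat_lit 137) (nat_lit 146)) (PT.lf (nat_lit 8436) (nat_lit 6) (nat_lit 111) (nat_lit 5) (nat_lit 108) (nat_lit 137) (nat_lit 145)))) (PT.nd (nat_lit 78) (PT.lf (nat_lit 8968) (nat_lit 6) (nat_lit 118) (nat_lit 5) (nat_lit 109) (nat_lit 137) (nat_lit 144)) (PT.nd (nat_lit 78) (PT.lf (nat_lit 9500) (nat_lit 6) (nat_lit 125) (nat_lit 5) (nat_lit 110) (nat_lit 137) (nat_lit 143)) (PT.lf (nat_lit 10108) (nat_lit 6) (nat_lit 133) (nat_lit 5) (nat_lit 111) (nat_lit 137) (nat_lit 142))))) (PT.nd (nat_lit 234) (PT.nd (nat_lit 78) (PT.lf (nat_lit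 10716) (nat_lit 6) (nat_lit 141) (nat_lit 5) (nat_lit 112) (nat_lit 137) (nat_lit 141)) (PT.nd (nat_lit 78) (PT.lf (nat_lit 11324) (nat_lit 6) (nat_lit 149) (nat_lit 5) (nat_lit 113) (nat_lit 137) (nat_lit 140)) (PT.lf (nat_lit 11932) (nat_lit 6) (nat_lit 157) (nat_lit 5) (nat_lit 114) (nat_lit 137) (nat_lit 139)))) (PT.nd (nat_lit 156) (PT.nd (nat_lit 78) (PT.lf (nat_lit 13072) (nat_lit 6) (nat_lit 172) (nat_lit 5) (nat_lit 115) (nat_lit 137) (nat_lit 138)) (PT.lf (nat_lit 14212) (nat_lit 3) (nat_lit 187) (nat_lit 4) (nat_lit 116) (nat_lit 137) (nat_lit 137))) (PT.nd (nat_lit 78) (PT.lf (nat_lit 15200) (nat_lit 6) (nat_lit 200) (nat_lit 4) (nat_lit 117) (nat_lit 137) (nat_lit 136)) (PT.lf (nat_lit 16112) (nat_lit 6) (nat_lit 212) (nat_lit 4) (nat_lit 118) (nat_lit 137) (nat_lit 135))))))))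
noncomputable def pc18 : PT := (PT.nd (nat_lit 1950) (PT.nd (nat_lit 936) (PT.nd (nat_lit 468) (PT.nd (nat_lit 234) (PT.nd (nat_lit 78) (PT.lf (nat_lit 16948) (nat_lit 6) (nat_lit 223) (nat_lit 4) (nat_lit 119) (nat_lit 137) (nat_lit 134)) (PT.nd (nat_lit 78) (PT.lf (nat_lit 17708) (nat_lit 6) (nat_lit 233) (nat_lit 4) (nat_lit 120) (nat_lit 137) (nat_lit 133)) (PT.lf (nat_lit 18392) (nat_lit 6) (nat_lit 242) (nat_lit 4) (nat_lit 121) (nat_lit 137) (nat_lit 132)))) (PT.nd (nat_lit 78) (PT.lf (nat_lit 19000) (nat_lit 6) (nat_lit 250) (nat_lit 4) (nat_lit 122) (nat_lit 137) (nat_lit 131)) (PT.nd (nat_lit 78) (PT.lf (nat_lit 19532) (nat_lit 6) (nat_lit 257) (nat_lit 4) (nat_lit 123) (nat_lit 137) (nat_lit 130)) (PT.lf (nat_lit 19456) (nat_lit 6) (nat_lit 256) (nat_lit 4) (nat_lit 124) (nat_lit 137) (nat_lit 129))))) (PT.nd (nat_lit 234) (PT.nd (nat_lit 78) (PT.lf (nat_lit 19380) (nat_lit 6) (nat_lit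 255) (nat_lit 4) (nat_lit 125) (nat_lit 137) (nat_lit 128)) (PT.nd (nat_lit 78) (PT.lf (nat_lit 19304) (nat_lit 6) (nat_lit 254) (nat_lit 4) (nat_lit 126) (nat_lit 137) (nat_lit 127)) (PT.lf (nat_lit 19304) (nat_lit 6) (nat_lit 254) (nat_lit 2) (nat_lit 127) (nat_lit 137) (nat_lit 126)))) (PT.nd (nat_lit 78) (PT.lf (nat_lit 19380) (nat_lit 6) (nat_lit 255) (nat_lit 2) (nat_lit 128) (nat_lit 137) (nat_lit 125)) (PT.nd (nat_lit 78) (PT.lf (nat_lit 19456) (nat_lit 6) (nat_lit 256) (nat_lit 2) (nat_lit 129) (nat_lit 137) (nat_lit 124)) (PT.lf (nat_lit 19532) (nat_lit 6) (nat_lit 257) (nat_lit 2) (nat_lit 130) (nat_lit 137) (nat_lit 123)))))) (PT.nd (nat_lit 468) (PT.nd (nat_lit 234) (PT.nd (nat_lit 78) (PT.lf (nat_lit 19000) (nat_lit 6) (nat_lit 250) (nat_lit 2) (nat_lit 131) (nat_lit 137) (nat_lit 122)) (PT.nd (nat_lit 78) (PT.lf (nat_lit 18392) (nat_lit 6) (nat_lit 242) (nat_lit 2) (nat_lit 132)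 (nat_lit 137) (nat_lit 121)) (PT.lf (nat_lit 17708) (nat_lit 6) (nat_lit 233) (nat_lit 2) (nat_lit 133) (nat_lit 137) (nat_lit 120)))) (PT.nd (nat_lit 78) (PT.lf (nat_lit 16948) (nat_lit 6) (nat_lit 223) (nat_lit 2) (nat_lit 134) (nat_lit 137) (nat_lit 119)) (PT.nd (nat_lit 78) (PT.lf (nat_lit 16112) (nat_lit 6) (nat_lit 212) (nat_lit 2) (nat_lit 135) (nat_lit 137) (nat_lit 118)) (PT.lf (nat_lit 15200) (nat_lit 6) (nat_lit 200) (nat_lit 2) (nat_lit 136) (nat_lit 137) (nat_lit 117))))) (PT.nd (nat_lit 234) (PT.nd (nat_lit 78) (PT.lf (nat_lit 14212) (nat_lit 3) (nat_lit 187) (nat_lit 0) (nat_lit 137) (nat_lit 137) (nat_lit 116)) (PT.nd (nat_lit 78) (PT.lf (nat_lit 13072) (nat_lit 6) (nat_lit 172) (nat_lit 0) (nat_lit 138) (nat_lit 137) (nat_lit 115)) (PT.lf (nat_lit 11932) (nat_lit 6) (nat_lit 157) (nat_lit 0) (nat_lit 139) (nat_lit 137) (nat_lit 114)))) (PT.nd (nat_lit 156) (PT.nd (nat_lit 78) (PT.lf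 (nat_lit 11324) (nat_lit 6) (nat_lit 149) (nat_lit 0) (nat_lit 140) (nat_lit 137) (nat_lit 113)) (PT.lf (nat_lit 10716) (nat_lit 6) (nat_lit 141) (nat_lit 0) (nat_lit 141) (nat_lit 137) (nat_lit 112))) (PT.nd (nat_lit 78) (PT.lf (nat_lit 10108) (nat_lit 6) (nat_lit 133) (nat_lit 0) (nat_lit 142) (nat_lit 137) (nat_lit 111)) (PT.lf (nat_lit 9500) (nat_lit 6) (nat_lit 125) (nat_lit 0) (nat_lit 143) (nat_lit 137) (nat_lit 110))))))) (PT.nd (nat_lit 38220) (PT.nd (nat_lit 37752) (PT.nd (nat_lit 234) (PT.nd (nat_lit 78) (PT.lf (nat_lit 8968) (nat_lit 6) (nat_lit 118) (nat_lit 0) (nat_lit 144) (nat_lit 137) (nat_lit 109)) (PT.nd (nat_lit 78) (PT.lf (nat_lit 8436) (nat_lit 6) (nat_lit 111) (nat_lit 0) (nat_lit 145) (nat_lit 137) (nat_lit 108)) (PT.lf (nat_lit 7980) (nat_lit 6) (nat_lit 105) (nat_lit 0) (nat_lit 146) (nat_lit 137) (nat_lit 107)))) (PT.nd (nat_lit 37362) (PT.lf (nat_lit 7448) (nat_lit 6)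 (nat_lit 98) (nat_lit 0) (nat_lit 147) (nat_lit 137) (nat_lit 106)) (PT.nd (nat_lit 78) (PT.lf (nat_lit 7068) (nat_lit 6) (nat_lit 93) (nat_lit 5) (nat_lit 105) (nat_lit 138) (nat_lit 147)) (PT.lf (nat_lit 7524) (nat_lit 6) (nat_lit 99) (nat_lit 5) (nat_lit 106) (nat_lit 138) (nat_lit 146))))) (PT.nd (nat_lit 234) (PT.nd (nat_lit 78) (PT.lf (nat_lit 8056) (nat_lit 6) (nat_lit 106) (nat_lit 5) (nat_lit 107) (nat_lit 138) (nat_lit 145)) (PT.nd (nat_lit 78) (PT.lf (nat_lit 8512) (nat_lit 6) (nat_lit 112) (nat_lit 5) (nat_lit 108) (nat_lit 138) (nat_lit 144)) (PT.lf (nat_lit 9044) (nat_lit 6) (nat_lit 119) (nat_lit 5) (nat_lit 109) (nat_lit 138) (nat_lit 143)))) (PT.nd (nat_lit 78) (PT.lf (nat_lit 9576) (nat_lit 6) (nat_lit 126) (nat_lit 5) (nat_lit 110) (nat_lit 138) (nat_lit 142)) (PT.nd (nat_lit 78) (PT.lf (nat_lit 10184) (nat_lit 6) (nat_lit 134) (nat_lit 5) (nat_lit 111) (nat_lit 138) (nat_lit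 141)) (PT.lf (nat_lit 10792) (nat_lit 6) (nat_lit 142) (nat_lit 5) (nat_lit 112) (nat_lit 138) (nat_lit 140)))))) (PT.nd (nat_lit 468) (PT.nd (nat_lit 234) (PT.nd (nat_lit 78) (PT.lf (nat_lit 11400) (nat_lit 6) (nat_lit 150) (nat_lit 5) (nat_lit 113) (nat_lit 138) (nat_lit 139)) (PT.nd (nat_lit 78) (PT.lf (nat_lit 12008) (nat_lit 3) (nat_lit 158) (nat_lit 4) (nat_lit 114) (nat_lit 138) (nat_lit 138)) (PT.lf (nat_lit 13072) (nat_lit 6) (nat_lit 172) (nat_lit 4) (nat_lit 115) (nat_lit 138) (nat_lit 137)))) (PT.nd (nat_lit 78) (PT.lf (nat_lit 14136) (nat_lit 6) (nat_lit 186) (nat_lit 4) (nat_lit 116) (nat_lit 138) (nat_lit 136)) (PT.nd (nat_lit 78) (PT.lf (nat_lit 15124) (nat_lit 6) (nat_lit 199) (nat_lit 4) (nat_lit 117) (nat_lit 138) (nat_lit 135)) (PT.lf (nat_lit 16036) (nat_lit 6) (nat_lit 211) (nat_lit 4) (nat_lit 118) (nat_lit 138) (nat_lit 134))))) (PT.nd (nat_lit 234) (PT.nd (nat_lit 78) (PT.lf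 (nat_lit 16872) (nat_lit 6) (nat_lit 222) (nat_lit 4) (nat_lit 119) (nat_lit 138) (nat_lit 133)) (PT.nd (nat_lit 78) (PT.lf (nat_lit 17632) (nat_lit 6) (nat_lit 232) (nat_lit 4) (nat_lit 120) (nat_lit 138) (nat_lit 132)) (PT.lf (nat_lit 18316) (nat_lit 6) (nat_lit 241) (nat_lit 4) (nat_lit 121) (nat_lit 138) (nat_lit 131)))) (PT.nd (nat_lit 156) (PT.nd (nat_lit 78) (PT.lf (nat_lit 18924) (nat_lit 6) (nat_lit 249) (nat_lit 4) (nat_lit 122) (nat_lit 138) (nat_lit 130)) (PT.lf (nat_lit 18848) (nat_lit 6) (nat_lit 248) (nat_lit 4) (nat_lit 123) (nat_lit 138) (nat_lit 129))) (PT.nd (nat_lit 78) (PT.lf (nat_lit 18772) (nat_lit 6) (nat_lit 247) (nat_lit 4) (nat_lit 124) (nat_lit 138) (nat_lit 128)) (PT.lf (nat_lit 18696) (nat_lit 6) (nat_lit 246) (nat_lit 4) (nat_lit 125) (nat_lit 138) (nat_lit 127))))))))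
noncomputable def pc19 : PT := (PT.nd (nat_lit 39078) (PT.nd (nat_lit 936) (PT.nd (nat_lit 468) (PT.nd (nat_lit 234) (PT.nd (nat_lit 78) (PT.lf (nat_lit 18620) (nat_lit 3) (nat_lit 245) (nat_lit 2) (nat_lit 126) (nat_lit 138) (nat_lit 126)) (PT.nd (nat_lit 78) (PT.lf (nat_lit 18696) (nat_lit 6) (nat_lit 246) (nat_lit 2) (nat_lit 127) (nat_lit 138) (nat_lit 125)) (PT.lf (nat_lit 18772) (nat_lit 6) (nat_lit 247) (nat_lit 2) (nat_lit 128) (nat_lit 138) (nat_lit 124)))) (PT.nd (nat_lit 78) (PT.lf (nat_lit 18848) (nat_lit 6) (nat_lit 248) (nat_lit 2) (nat_lit 129) (nat_lit 138) (nat_lit 123)) (PT.nd (nat_lit 78) (PT.lf (nat_lit 18924) (nat_lit 6) (nat_lit 249) (nat_lit 2) (nat_lit 130) (nat_lit 138) (nat_lit 122)) (PT.lf (nat_lit 18316) (nat_lit 6) (nat_lit 241) (nat_lit 2) (nat_lit 131) (nat_lit 138) (nat_lit 121))))) (PT.nd (nat_lit 234) (PT.nd (nat_lit 78) (PT.lf (nat_lit 17632) (nat_lit 6) (nat_lit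 232) (nat_lit 2) (nat_lit 132) (nat_lit 138) (nat_lit 120)) (PT.nd (nat_lit 78) (PT.lf (nat_lit 16872) (nat_lit 6) (nat_lit 222) (nat_lit 2) (nat_lit 133) (nat_lit 138) (nat_lit 119)) (PT.lf (nat_lit 16036) (nat_lit 6) (nat_lit 211) (nat_lit 2) (nat_lit 134) (nat_lit 138) (nat_lit 118)))) (PT.nd (nat_lit 78) (PT.lf (nat_lit 15124) (nat_lit 6) (nat_lit 199) (nat_lit 2) (nat_lit 135) (nat_lit 138) (nat_lit 117)) (PT.nd (nat_lit 78) (PT.lf (nat_lit 14136) (nat_lit 6) (nat_lit 186) (nat_lit 2) (nat_lit 136) (nat_lit 138) (nat_lit 116)) (PT.lf (nat_lit 13072) (nat_lit 6) (nat_lit 172) (nat_lit 2) (nat_lit 137) (nat_lit 138) (nat_lit 115)))))) (PT.nd (nat_lit 468) (PT.nd (nat_lit 234) (PT.nd (nat_lit 78) (PT.lf (nat_lit 12008) (nat_lit 3) (nat_lit 158) (nat_lit 0) (nat_lit 138) (nat_lit 138) (nat_lit 114)) (PT.nd (nat_lit 78) (PT.lf (nat_lit 11400) (nat_lit 6) (nat_lit 150) (nat_lit 0) (nat_lit 139)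 (nat_lit 138) (nat_lit 113)) (PT.lf (nat_lit 10792) (nat_lit 6) (nat_lit 142) (nat_lit 0) (nat_lit 140) (nat_lit 138) (nat_lit 112)))) (PT.nd (nat_lit 78) (PT.lf (nat_lit 10184) (nat_lit 6) (nat_lit 134) (nat_lit 0) (nat_lit 141) (nat_lit 138) (nat_lit 111)) (PT.nd (nat_lit 78) (PT.lf (nat_lit 9576) (nat_lit 6) (nat_lit 126) (nat_lit 0) (nat_lit 142) (nat_lit 138) (nat_lit 110)) (PT.lf (nat_lit 9044) (nat_lit 6) (nat_lit 119) (nat_lit 0) (nat_lit 143) (nat_lit 138) (nat_lit 109))))) (PT.nd (nat_lit 234) (PT.nd (nat_lit 78) (PT.lf (nat_lit 8512) (nat_lit 6) (nat_lit 112) (nat_lit 0) (nat_lit 144) (nat_lit 138) (nat_lit 108)) (PT.nd (nat_lit 78) (PT.lf (nat_lit 8056) (nat_lit 6) (nat_lit 106) (nat_lit 0) (nat_lit 145) (nat_lit 138) (nat_lit 107)) (PT.lf (nat_lit 7524) (nat_lit 6) (nat_lit 99) (nat_lit 0) (nat_lit 146) (nat_lit 138) (nat_lit 106)))) (PT.nd (nat_lit 37284) (PT.nd (nat_lit 37206) (PT.lf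 (nat_lit 7068) (nat_lit 6) (nat_lit 93) (nat_lit 0) (nat_lit 147) (nat_lit 138) (nat_lit 105)) (PT.lf (nat_lit 6308) (nat_lit 6) (nat_lit 83) (nat_lit 5) (nat_lit 103) (nat_lit 139) (nat_lit 148))) (PT.nd (nat_lit 78) (PT.lf (nat_lit 6688) (nat_lit 6) (nat_lit 88) (nat_lit 5) (nat_lit 104) (nat_lit 139) (nat_lit 147)) (PT.lf (nat_lit 7144) (nat_lit 6) (nat_lit 94) (nat_lit 5) (nat_lit 105) (nat_lit 139) (nat_lit 146))))))) (PT.nd (nat_lit 936) (PT.nd (nat_lit 468) (PT.nd (nat_lit 234) (PT.nd (nat_lit 78) (PT.lf (nat_lit 7600) (nat_lit 6) (nat_lit 100) (nat_lit 5) (nat_lit 106) (nat_lit 139) (nat_lit 145)) (PT.nd (nat_lit 78) (PT.lf (nat_lit 8132) (nat_lit 6) (nat_lit 107) (nat_lit 5) (nat_lit 107) (nat_lit 139) (nat_lit 144)) (PT.lf (nat_lit 8588) (nat_lit 6) (nat_lit 113) (nat_lit 5) (nat_lit 108) (nat_lit 139) (nat_lit 143)))) (PT.nd (nat_lit 78) (PT.lf (nat_lit 9120) (nat_lit 6) (nat_lit 120)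 (nat_lit 5) (nat_lit 109) (nat_lit 139) (nat_lit 142)) (PT.nd (nat_lit 78) (PT.lf (nat_lit 9652) (nat_lit 6) (nat_lit 127) (nat_lit 5) (nat_lit 110) (nat_lit 139) (nat_lit 141)) (PT.lf (nat_lit 10260) (nat_lit 6) (nat_lit 135) (nat_lit 5) (nat_lit 111) (nat_lit 139) (nat_lit 140))))) (PT.nd (nat_lit 234) (PT.nd (nat_lit 78) (PT.lf (nat_lit 10868) (nat_lit 3) (nat_lit 143) (nat_lit 4) (nat_lit 112) (nat_lit 139) (nat_lit 139)) (PT.nd (nat_lit 78) (PT.lf (nat_lit 11400) (nat_lit 6) (nat_lit 150) (nat_lit 4) (nat_lit 113) (nat_lit 139) (nat_lit 138)) (PT.lf (nat_lit 11932) (nat_lit 6) (nat_lit 157) (nat_lit 4) (nat_lit 114) (nat_lit 139) (nat_lit 137)))) (PT.nd (nat_lit 78) (PT.lf (nat_lit 12996) (nat_lit 6) (nat_lit 171) (nat_lit 4) (nat_lit 115) (nat_lit 139) (nat_lit 136)) (PT.nd (nat_lit 78) (PT.lf (nat_lit 14060) (nat_lit 6) (nat_lit 185) (nat_lit 4) (nat_lit 116) (nat_lit 139) (nat_lit 135))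 (PT.lf (nat_lit 15048) (nat_lit 6) (nat_lit 198) (nat_lit 4) (nat_lit 117) (nat_lit 139) (nat_lit 134)))))) (PT.nd (nat_lit 468) (PT.nd (nat_lit 234) (PT.nd (nat_lit 78) (PT.lf (nat_lit 15960) (nat_lit 6) (nat_lit 210) (nat_lit 4) (nat_lit 118) (nat_lit 139) (nat_lit 133)) (PT.nd (nat_lit 78) (PT.lf (nat_lit 16796) (nat_lit 6) (nat_lit 221) (nat_lit 4) (nat_lit 119) (nat_lit 139) (nat_lit 132)) (PT.lf (nat_lit 17556) (nat_lit 6) (nat_lit 231) (nat_lit 4) (nat_lit 120) (nat_lit 139) (nat_lit 131)))) (PT.nd (nat_lit 78) (PT.lf (nat_lit 18240) (nat_lit 6) (nat_lit 240) (nat_lit 4) (nat_lit 121) (nat_lit 139) (nat_lit 130)) (PT.nd (nat_lit 78) (PT.lf (nat_lit 18164) (nat_lit 6) (nat_lit 239) (nat_lit 4) (nat_lit 122) (nat_lit 139) (nat_lit 129)) (PT.lf (nat_lit 18088) (nat_lit 6) (nat_lit 238) (nat_lit 4) (nat_lit 123) (nat_lit 139) (nat_lit 128))))) (PT.nd (nat_lit 234) (PT.nd (nat_lit 78) (PT.lf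 (nat_lit 18012) (nat_lit 6) (nat_lit 237) (nat_lit 4) (nat_lit 124) (nat_lit 139) (nat_lit 127)) (PT.nd (nat_lit 78) (PT.lf (nat_lit 17936) (nat_lit 6) (nat_lit 236) (nat_lit 4) (nat_lit 125) (nat_lit 139) (nat_lit 126)) (PT.lf (nat_lit 17936) (nat_lit 6) (nat_lit 236) (nat_lit 2) (nat_lit 126) (nat_lit 139) (nat_lit 125)))) (PT.nd (nat_lit 156) (PT.nd (nat_lit 78) (PT.lf (nat_lit 18012) (nat_lit 6) (nat_lit 237) (nat_lit 2) (nat_lit 127) (nat_lit 139) (nat_lit 124)) (PT.lf (nat_lit 18088) (nat_lit 6) (nat_lit 238) (nat_lit 2) (nat_lit 128) (nat_lit 139) (nat_lit 123))) (PT.nd (nat_lit 78) (PT.lf (nat_lit 18164) (nat_lit 6) (nat_lit 239) (nat_lit 2) (nat_lit 129) (nat_lit 139) (nat_lit 122)) (PT.lf (nat_lit 18240) (nat_lit 6) (nat_lit 240) (nat_lit 2) (nat_lit 130) (nat_lit 139) (nat_lit 121))))))))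
noncomputable def pc20 : PT := (PT.nd (nat_lit 38844) (PT.nd (nat_lit 936) (PT.nd (nat_lit 468) (PT.nd (nat_lit 234) (PT.nd (nat_lit 78) (PT.lf (nat_lit 17556) (nat_lit 6) (nat_lit 231) (nat_lit 2) (nat_lit 131) (nat_lit 139) (nat_lit 120)) (PT.nd (nat_lit 78) (PT.lf (nat_lit 16796) (nat_lit 6) (nat_lit 221) (nat_lit 2) (nat_lit 132) (nat_lit 139) (nat_lit 119)) (PT.lf (nat_lit 15960) (nat_lit 6) (nat_lit 210) (nat_lit 2) (nat_lit 133) (nat_lit 139) (nat_lit 118)))) (PT.nd (nat_lit 78) (PT.lf (nat_lit 15048) (nat_lit 6) (nat_lit 198) (nat_lit 2) (nat_lit 134) (nat_lit 139) (nat_lit 117)) (PT.nd (nat_lit 78) (PT.lf (nat_lit 14060) (nat_lit 6) (nat_lit 185) (nat_lit 2) (nat_lit 135) (nat_lit 139) (nat_lit 116)) (PT.lf (nat_lit 12996) (nat_lit 6) (nat_lit 171) (nat_lit 2) (nat_lit 136) (nat_lit 139) (nat_lit 115))))) (PT.nd (nat_lit 234) (PT.nd (nat_lit 78) (PT.lf (nat_lit 11932) (nat_lit 6) (nat_lit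 157) (nat_lit 2) (nat_lit 137) (nat_lit 139) (nat_lit 114)) (PT.nd (nat_lit 78) (PT.lf (nat_lit 11400) (nat_lit 6) (nat_lit 150) (nat_lit 2) (nat_lit 138) (nat_lit 139) (nat_lit 113)) (PT.lf (nat_lit 10868) (nat_lit 3) (nat_lit 143) (nat_lit 0) (nat_lit 139) (nat_lit 139) (nat_lit 112)))) (PT.nd (nat_lit 78) (PT.lf (nat_lit 10260) (nat_lit 6) (nat_lit 135) (nat_lit 0) (nat_lit 140) (nat_lit 139) (nat_lit 111)) (PT.nd (nat_lit 78) (PT.lf (nat_lit 9652) (nat_lit 6) (nat_lit 127) (nat_lit 0) (nat_lit 141) (nat_lit 139) (nat_lit 110)) (PT.lf (nat_lit 9120) (nat_lit 6) (nat_lit 120) (nat_lit 0) (nat_lit 142) (nat_lit 139) (nat_lit 109)))))) (PT.nd (nat_lit 37440) (PT.nd (nat_lit 234) (PT.nd (nat_lit 78) (PT.lf (nat_lit 8588) (nat_lit 6) (nat_lit 113) (nat_lit 0) (nat_lit 143) (nat_lit 139) (nat_lit 108)) (PT.nd (nat_lit 78) (PT.lf (nat_lit 8132) (nat_lit 6) (nat_lit 107) (nat_lit 0) (nat_lit 144) (nat_lit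 139) (nat_lit 107)) (PT.lf (nat_lit 7600) (nat_lit 6) (nat_lit 100) (nat_lit 0) (nat_lit 145) (nat_lit 139) (nat_lit 106)))) (PT.nd (nat_lit 78) (PT.lf (nat_lit 7144) (nat_lit 6) (nat_lit 94) (nat_lit 0) (nat_lit 146) (nat_lit 139) (nat_lit 105)) (PT.nd (nat_lit 78) (PT.lf (nat_lit 6688) (nat_lit 6) (nat_lit 88) (nat_lit 0) (nat_lit 147) (nat_lit 139) (nat_lit 104)) (PT.lf (nat_lit 6308) (nat_lit 6) (nat_lit 83) (nat_lit 0) (nat_lit 148) (nat_lit 139) (nat_lit 103))))) (PT.nd (nat_lit 234) (PT.nd (nat_lit 78) (PT.lf (nat_lit 5928) (nat_lit 6) (nat_lit 78) (nat_lit 5) (nat_lit 102) (nat_lit 140) (nat_lit 148)) (PT.nd (nat_lit 78) (PT.lf (nat_lit 6384) (nat_lit 6) (nat_lit 84) (nat_lit 5) (nat_lit 103) (nat_lit 140) (nat_lit 147)) (PT.lf (nat_lit 6764) (nat_lit 6) (nat_lit 89) (nat_lit 5) (nat_lit 104) (nat_lit 140) (nat_lit 146)))) (PT.nd (nat_lit 78) (PT.lf (nat_lit 7220) (nat_lit 6) (nat_lit 95)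 (nat_lit 5) (nat_lit 105) (nat_lit 140) (nat_lit 145)) (PT.nd (nat_lit 78) (PT.lf (nat_lit 7676) (nat_lit 6) (nat_lit 101) (nat_lit 5) (nat_lit 106) (nat_lit 140) (nat_lit 144)) (PT.lf (nat_lit 8208) (nat_lit 6) (nat_lit 108) (nat_lit 5) (nat_lit 107) (nat_lit 140) (nat_lit 143))))))) (PT.nd (nat_lit 936) (PT.nd (nat_lit 468) (PT.nd (nat_lit 234) (PT.nd (nat_lit 78) (PT.lf (nat_lit 8664) (nat_lit 6) (nat_lit 114) (nat_lit 5) (nat_lit 108) (nat_lit 140) (nat_lit 142)) (PT.nd (nat_lit 78) (PT.lf (nat_lit 9196) (nat_lit 6) (nat_lit 121) (nat_lit 5) (nat_lit 109) (nat_lit 140) (nat_lit 141)) (PT.lf (nat_lit 9728) (nat_lit 3) (nat_lit 128) (nat_lit 4) (nat_lit 110) (nat_lit 140) (nat_lit 140)))) (PT.nd (nat_lit 78) (PT.lf (nat_lit 10260) (nat_lit 6) (nat_lit 135) (nat_lit 4) (nat_lit 111) (nat_lit 140) (nat_lit 139)) (PT.nd (nat_lit 78) (PT.lf (nat_lit 10792) (nat_lit 6) (nat_lit 142) (nat_lit 4) (nat_lit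 112) (nat_lit 140) (nat_lit 138)) (PT.lf (nat_lit 11324) (nat_lit 6) (nat_lit 149) (nat_lit 4) (nat_lit 113) (nat_lit 140) (nat_lit 137))))) (PT.nd (nat_lit 234) (PT.nd (nat_lit 78) (PT.lf (nat_lit 11856) (nat_lit 6) (nat_lit 156) (nat_lit 4) (nat_lit 114) (nat_lit 140) (nat_lit 136)) (PT.nd (nat_lit 78) (PT.lf (nat_lit 12920) (nat_lit 6) (nat_lit 170) (nat_lit 4) (nat_lit 115) (nat_lit 140) (nat_lit 135)) (PT.lf (nat_lit 13984) (nat_lit 6) (nat_lit 184) (nat_lit 4) (nat_lit 116) (nat_lit 140) (nat_lit 134)))) (PT.nd (nat_lit 78) (PT.lf (nat_lit 14972) (nat_lit 6) (nat_lit 197) (nat_lit 4) (nat_lit 117) (nat_lit 140) (nat_lit 133)) (PT.nd (nat_lit 78) (PT.lf (nat_lit 15884) (nat_lit 6) (nat_lit 209) (nat_lit 4) (nat_lit 118) (nat_lit 140) (nat_lit 132)) (PT.lf (nat_lit 16720) (nat_lit 6) (nat_lit 220) (nat_lit 4) (nat_lit 119) (nat_lit 140) (nat_lit 131)))))) (PT.nd (nat_lit 468) (PT.nd (nat_lit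 234) (PT.nd (nat_lit 78) (PT.lf (nat_lit 17480) (nat_lit 6) (nat_lit 230) (nat_lit 4) (nat_lit 120) (nat_lit 140) (nat_lit 130)) (PT.nd (nat_lit 78) (PT.lf (nat_lit 17404) (nat_lit 6) (nat_lit 229) (nat_lit 4) (nat_lit 121) (nat_lit 140) (nat_lit 129)) (PT.lf (nat_lit 17328) (nat_lit 6) (nat_lit 228) (nat_lit 4) (nat_lit 122) (nat_lit 140) (nat_lit 128)))) (PT.nd (nat_lit 78) (PT.lf (nat_lit 17252) (nat_lit 6) (nat_lit 227) (nat_lit 4) (nat_lit 123) (nat_lit 140) (nat_lit 127)) (PT.nd (nat_lit 78) (PT.lf (nat_lit 17176) (nat_lit 6) (nat_lit 226) (nat_lit 4) (nat_lit 124) (nat_lit 140) (nat_lit 126)) (PT.lf (nat_lit 17100) (nat_lit 3) (nat_lit 225) (nat_lit 2) (nat_lit 125) (nat_lit 140) (nat_lit 125))))) (PT.nd (nat_lit 234) (PT.nd (nat_lit 78) (PT.lf (nat_lit 17176) (nat_lit 6) (nat_lit 226) (nat_lit 2) (nat_lit 126) (nat_lit 140) (nat_lit 124)) (PT.nd (nat_lit 78) (PT.lf (nat_lit 17252) (nat_lit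 6) (nat_lit 227) (nat_lit 2) (nat_lit 127) (nat_lit 140) (nat_lit 123)) (PT.lf (nat_lit 17328) (nat_lit 6) (nat_lit 228) (nat_lit 2) (nat_lit 128) (nat_lit 140) (nat_lit 122)))) (PT.nd (nat_lit 156) (PT.nd (nat_lit 78) (PT.lf (nat_lit 17404) (nat_lit 6) (nat_lit 229) (nat_lit 2) (nat_lit 129) (nat_lit 140) (nat_lit 121)) (PT.lf (nat_lit 17480) (nat_lit 6) (nat_lit 230) (nat_lit 2) (nat_lit 130) (nat_lit 140) (nat_lit 120))) (PT.nd (nat_lit 78) (PT.lf (nat_lit 16720) (nat_lit 6) (nat_lit 220) (nat_lit 2) (nat_lit 131) (nat_lit 140) (nat_lit 119)) (PT.lf (nat_lit 15884) (nat_lit 6) (nat_lit 209) (nat_lit 2) (nat_lit 132) (nat_lit 140) (nat_lit 118))))))))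
noncomputable def pc21 : PT := (PT.nd (nat_lit 38766) (PT.nd (nat_lit 936) (PT.nd (nat_lit 468) (PT.nd (nat_lit 234) (PT.nd (nat_lit 78) (PT.lf (nat_lit 14972) (nat_lit 6) (nat_lit 197) (nat_lit 2) (nat_lit 133) (nat_lit 140) (nat_lit 117)) (PT.nd (nat_lit 78) (PT.lf (nat_lit 13984) (nat_lit 6) (nat_lit 184) (nat_lit 2) (nat_lit 134) (nat_lit 140) (nat_lit 116)) (PT.lf (nat_lit 12920) (nat_lit 6) (nat_lit 170) (nat_lit 2) (nat_lit 135) (nat_lit 140) (nat_lit 115)))) (PT.nd (nat_lit 78) (PT.lf (nat_lit 11856) (nat_lit 6) (nat_lit 156) (nat_lit 2) (nat_lit 136) (nat_lit 140) (nat_lit 114)) (PT.nd (nat_lit 78) (PT.lf (nat_lit 11324) (nat_lit 6) (nat_lit 149) (nat_lit 2) (nat_lit 137) (nat_lit 140) (nat_lit 113)) (PT.lf (nat_lit 10792) (nat_lit 6) (nat_lit 142) (nat_lit 2) (nat_lit 138) (nat_lit 140) (nat_lit 112))))) (PT.nd (nat_lit 234) (PT.nd (nat_lit 78) (PT.lf (nat_lit 10260) (nat_lit 6) (nat_lit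 135) (nat_lit 2) (nat_lit 139) (nat_lit 140) (nat_lit 111)) (PT.nd (nat_lit 78) (PT.lf (nat_lit 9728) (nat_lit 3) (nat_lit 128) (nat_lit 0) (nat_lit 140) (nat_lit 140) (nat_lit 110)) (PT.lf (nat_lit 9196) (nat_lit 6) (nat_lit 121) (nat_lit 0) (nat_lit 141) (nat_lit 140) (nat_lit 109)))) (PT.nd (nat_lit 78) (PT.lf (nat_lit 8664) (nat_lit 6) (nat_lit 114) (nat_lit 0) (nat_lit 142) (nat_lit 140) (nat_lit 108)) (PT.nd (nat_lit 78) (PT.lf (nat_lit 8208) (nat_lit 6) (nat_lit 108) (nat_lit 0) (nat_lit 143) (nat_lit 140) (nat_lit 107)) (PT.lf (nat_lit 7676) (nat_lit 6) (nat_lit 101) (nat_lit 0) (nat_lit 144) (nat_lit 140) (nat_lit 106)))))) (PT.nd (nat_lit 37284) (PT.nd (nat_lit 234) (PT.nd (nat_lit 78) (PT.lf (nat_lit 7220) (nat_lit 6) (nat_lit 95) (nat_lit 0) (nat_lit 145) (nat_lit 140) (nat_lit 105)) (PT.nd (nat_lit 78) (PT.lf (nat_lit 6764) (nat_lit 6) (nat_lit 89) (nat_lit 0) (nat_lit 146) (nat_lit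 140) (nat_lit 104)) (PT.lf (nat_lit 6384) (nat_lit 6) (nat_lit 84) (nat_lit 0) (nat_lit 147) (nat_lit 140) (nat_lit 103)))) (PT.nd (nat_lit 36894) (PT.lf (nat_lit 5928) (nat_lit 6) (nat_lit 78) (nat_lit 0) (nat_lit 148) (nat_lit 140) (nat_lit 102)) (PT.nd (nat_lit 78) (PT.lf (nat_lit 5244) (nat_lit 6) (nat_lit 69) (nat_lit 5) (nat_lit 100) (nat_lit 141) (nat_lit 149)) (PT.lf (nat_lit 5624) (nat_lit 6) (nat_lit 74) (nat_lit 5) (nat_lit 101) (nat_lit 141) (nat_lit 148))))) (PT.nd (nat_lit 234) (PT.nd (nat_lit 78) (PT.lf (nat_lit 6004) (nat_lit 6) (nat_lit 79) (nat_lit 5) (nat_lit 102) (nat_lit 141) (nat_lit 147)) (PT.nd (nat_lit 78) (PT.lf (nat_lit 6460) (nat_lit 6) (nat_lit 85) (nat_lit 5) (nat_lit 103) (nat_lit 141) (nat_lit 146)) (PT.lf (nat_lit 6840) (nat_lit 6) (nat_lit 90) (nat_lit 5) (nat_lit 104) (nat_lit 141) (nat_lit 145)))) (PT.nd (nat_lit 156) (PT.nd (nat_lit 78) (PT.lf (nat_lit 7296)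 (nat_lit 6) (nat_lit 96) (nat_lit 5) (nat_lit 105) (nat_lit 141) (nat_lit 144)) (PT.lf (nat_lit 7752) (nat_lit 6) (nat_lit 102) (nat_lit 5) (nat_lit 106) (nat_lit 141) (nat_lit 143))) (PT.nd (nat_lit 78) (PT.lf (nat_lit 8284) (nat_lit 6) (nat_lit 109) (nat_lit 5) (nat_lit 107) (nat_lit 141) (nat_lit 142)) (PT.lf (nat_lit 8740) (nat_lit 3) (nat_lit 115) (nat_lit 4) (nat_lit 108) (nat_lit 141) (nat_lit 141))))))) (PT.nd (nat_lit 936) (PT.nd (nat_lit 468) (PT.nd (nat_lit 234) (PT.nd (nat_lit 78) (PT.lf (nat_lit 9196) (nat_lit 6) (nat_lit 121) (nat_lit 4) (nat_lit 109) (nat_lit 141) (nat_lit 140)) (PT.nd (nat_lit 78) (PT.lf (nat_lit 9652) (nat_lit 6) (nat_lit 127) (nat_lit 4) (nat_lit 110) (nat_lit 141) (nat_lit 139)) (PT.lf (nat_lit 10184) (nat_lit 6) (nat_lit 134) (nat_lit 4) (nat_lit 111) (nat_lit 141) (nat_lit 138)))) (PT.nd (nat_lit 78) (PT.lf (nat_lit 10716) (nat_lit 6) (nat_lit 141) (nat_lit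 4) (nat_lit 112) (nat_lit 141) (nat_lit 137)) (PT.nd (nat_lit 78) (PT.lf (nat_lit 11248) (nat_lit 6) (nat_lit 148) (nat_lit 4) (nat_lit 113) (nat_lit 141) (nat_lit 136)) (PT.lf (nat_lit 11780) (nat_lit 6) (nat_lit 155) (nat_lit 4) (nat_lit 114) (nat_lit 141) (nat_lit 135))))) (PT.nd (nat_lit 234) (PT.nd (nat_lit 78) (PT.lf (nat_lit 12844) (nat_lit 6) (nat_lit 169) (nat_lit 4) (nat_lit 115) (nat_lit 141) (nat_lit 134)) (PT.nd (nat_lit 78) (PT.lf (nat_lit 13908) (nat_lit 6) (nat_lit 183) (nat_lit 4) (nat_lit 116) (nat_lit 141) (nat_lit 133)) (PT.lf (nat_lit 14896) (nat_lit 6) (nat_lit 196) (nat_lit 4) (nat_lit 117) (nat_lit 141) (nat_lit 132)))) (PT.nd (nat_lit 78) (PT.lf (nat_lit 15808) (nat_lit 6) (nat_lit 208) (nat_lit 4) (nat_lit 118) (nat_lit 141) (nat_lit 131)) (PT.nd (nat_lit 78) (PT.lf (nat_lit 16644) (nat_lit 6) (nat_lit 219) (nat_lit 4) (nat_lit 119) (nat_lit 141) (nat_lit 130)) (PT.lf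 (nat_lit 16568) (nat_lit 6) (nat_lit 218) (nat_lit 4) (nat_lit 120) (nat_lit 141) (nat_lit 129)))))) (PT.nd (nat_lit 468) (PT.nd (nat_lit 234) (PT.nd (nat_lit 78) (PT.lf (nat_lit 16492) (nat_lit 6) (nat_lit 217) (nat_lit 4) (nat_lit 121) (nat_lit 141) (nat_lit 128)) (PT.nd (nat_lit 78) (PT.lf (nat_lit 16416) (nat_lit 6) (nat_lit 216) (nat_lit 4) (nat_lit 122) (nat_lit 141) (nat_lit 127)) (PT.lf (nat_lit 16340) (nat_lit 6) (nat_lit 215) (nat_lit 4) (nat_lit 123) (nat_lit 141) (nat_lit 126)))) (PT.nd (nat_lit 78) (PT.lf (nat_lit 16264) (nat_lit 6) (nat_lit 214) (nat_lit 4) (nat_lit 124) (nat_lit 141) (nat_lit 125)) (PT.nd (nat_lit 78) (PT.lf (nat_lit 16264) (nat_lit 6) (nat_lit 214) (nat_lit 2) (nat_lit 125) (nat_lit 141) (nat_lit 124)) (PT.lf (nat_lit 16340) (nat_lit 6) (nat_lit 215) (nat_lit 2) (nat_lit 126) (nat_lit 141) (nat_lit 123))))) (PT.nd (nat_lit 234) (PT.nd (nat_lit 78) (PT.lf (nat_lit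 16416) (nat_lit 6) (nat_lit 216) (nat_lit 2) (nat_lit 127) (nat_lit 141) (nat_lit 122)) (PT.nd (nat_lit 78) (PT.lf (nat_lit 16492) (nat_lit 6) (nat_lit 217) (nat_lit 2) (nat_lit 128) (nat_lit 141) (nat_lit 121)) (PT.lf (nat_lit 16568) (nat_lit 6) (nat_lit 218) (nat_lit 2) (nat_lit 129) (nat_lit 141) (nat_lit 120)))) (PT.nd (nat_lit 156) (PT.nd (nat_lit 78) (PT.lf (nat_lit 16644) (nat_lit 6) (nat_lit 219) (nat_lit 2) (nat_lit 130) (nat_lit 141) (nat_lit 119)) (PT.lf (nat_lit 15808) (nat_lit 6) (nat_lit 208) (nat_lit 2) (nat_lit 131) (nat_lit 141) (nat_lit 118))) (PT.nd (nat_lit 78) (PT.lf (nat_lit 14896) (nat_lit 6) (nat_lit 196) (nat_lit 2) (nat_lit 132) (nat_lit 141) (nat_lit 117)) (PT.lf (nat_lit 13908) (nat_lit 6) (nat_lit 183) (nat_lit 2) (nat_lit 133) (nat_lit 141) (nat_lit 116))))))))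
noncomputable def pc22 : PT := (PT.nd (nat_lit 38610) (PT.nd (nat_lit 936) (PT.nd (nat_lit 468) (PT.nd (nat_lit 234) (PT.nd (nat_lit 78) (PT.lf (nat_lit 12844) (nat_lit 6) (nat_lit 169) (nat_lit 2) (nat_lit 134) (nat_lit 141) (nat_lit 115)) (PT.nd (nat_lit 78) (PT.lf (nat_lit 11780) (nat_lit 6) (nat_lit 155) (nat_lit 2) (nat_lit 135) (nat_lit 141) (nat_lit 114)) (PT.lf (nat_lit 11248) (nat_lit 6) (nat_lit 148) (nat_lit 2) (nat_lit 136) (nat_lit 141) (nat_lit 113)))) (PT.nd (nat_lit 78) (PT.lf (nat_lit 10716) (nat_lit 6) (nat_lit 141) (nat_lit 2) (nat_lit 137) (nat_lit 141) (nat_lit 112)) (PT.nd (nat_lit 78) (PT.lf (nat_lit 10184) (nat_lit 6) (nat_lit 134) (nat_lit 2) (nat_lit 138) (nat_lit 141) (nat_lit 111)) (PT.lf (nat_lit 9652) (nat_lit 6) (nat_lit 127) (nat_lit 2) (nat_lit 139) (nat_lit 141) (nat_lit 110))))) (PT.nd (nat_lit 234) (PT.nd (nat_lit 78) (PT.lf (nat_lit 9196) (nat_lit 6) (nat_lit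 121) (nat_lit 2) (nat_lit 140) (nat_lit 141) (nat_lit 109)) (PT.nd (nat_lit 78) (PT.lf (nat_lit 8740) (nat_lit 3) (nat_lit 115) (nat_lit 0) (nat_lit 141) (nat_lit 141) (nat_lit 108)) (PT.lf (nat_lit 8284) (nat_lit 6) (nat_lit 109) (nat_lit 0) (nat_lit 142) (nat_lit 141) (nat_lit 107)))) (PT.nd (nat_lit 78) (PT.lf (nat_lit 7752) (nat_lit 6) (nat_lit 102) (nat_lit 0) (nat_lit 143) (nat_lit 141) (nat_lit 106)) (PT.nd (nat_lit 78) (PT.lf (nat_lit 7296) (nat_lit 6) (nat_lit 96) (nat_lit 0) (nat_lit 144) (nat_lit 141) (nat_lit 105)) (PT.lf (nat_lit 6840) (nat_lit 6) (nat_lit 90) (nat_lit 0) (nat_lit 145) (nat_lit 141) (nat_lit 104)))))) (PT.nd (nat_lit 37128) (PT.nd (nat_lit 234) (PT.nd (nat_lit 78) (PT.lf (nat_lit 6460) (nat_lit 6) (nat_lit 85) (nat_lit 0) (nat_lit 146) (nat_lit 141) (nat_lit 103)) (PT.nd (nat_lit 78) (PT.lf (nat_lit 6004) (nat_lit 6) (nat_lit 79) (nat_lit 0) (nat_lit 147) (nat_lit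 141) (nat_lit 102)) (PT.lf (nat_lit 5624) (nat_lit 6) (nat_lit 74) (nat_lit 0) (nat_lit 148) (nat_lit 141) (nat_lit 101)))) (PT.nd (nat_lit 36738) (PT.lf (nat_lit 5244) (nat_lit 6) (nat_lit 69) (nat_lit 0) (nat_lit 149) (nat_lit 141) (nat_lit 100)) (PT.nd (nat_lit 78) (PT.lf (nat_lit 4940) (nat_lit 6) (nat_lit 65) (nat_lit 5) (nat_lit 99) (nat_lit 142) (nat_lit 149)) (PT.lf (nat_lit 5320) (nat_lit 6) (nat_lit 70) (nat_lit 5) (nat_lit 100) (nat_lit 142) (nat_lit 148))))) (PT.nd (nat_lit 234) (PT.nd (nat_lit 78) (PT.lf (nat_lit 5700) (nat_lit 6) (nat_lit 75) (nat_lit 5) (nat_lit 101) (nat_lit 142) (nat_lit 147)) (PT.nd (nat_lit 78) (PT.lf (nat_lit 6080) (nat_lit 6) (nat_lit 80) (nat_lit 5) (nat_lit 102) (nat_lit 142) (nat_lit 146)) (PT.lf (nat_lit 6536) (nat_lit 6) (nat_lit 86) (nat_lit 5) (nat_lit 103) (nat_lit 142) (nat_lit 145)))) (PT.nd (nat_lit 156) (PT.nd (nat_lit 78) (PT.lf (nat_lit 6916)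 (nat_lit 6) (nat_lit 91) (nat_lit 5) (nat_lit 104) (nat_lit 142) (nat_lit 144)) (PT.lf (nat_lit 7372) (nat_lit 6) (nat_lit 97) (nat_lit 5) (nat_lit 105) (nat_lit 142) (nat_lit 143))) (PT.nd (nat_lit 78) (PT.lf (nat_lit 7828) (nat_lit 3) (nat_lit 103) (nat_lit 4) (nat_lit 106) (nat_lit 142) (nat_lit 142)) (PT.lf (nat_lit 8284) (nat_lit 6) (nat_lit 109) (nat_lit 4) (nat_lit 107) (nat_lit 142) (nat_lit 141))))))) (PT.nd (nat_lit 936) (PT.nd (nat_lit 468) (PT.nd (nat_lit 234) (PT.nd (nat_lit 78) (PT.lf (nat_lit 8664) (nat_lit 6) (nat_lit 114) (nat_lit 4) (nat_lit 108) (nat_lit 142) (nat_lit 140)) (PT.nd (nat_lit 78) (PT.lf (nat_lit 9120) (nat_lit 6) (nat_lit 120) (nat_lit 4) (nat_lit 109) (nat_lit 142) (nat_lit 139)) (PT.lf (nat_lit 9576) (nat_lit 6) (nat_lit 126) (nat_lit 4) (nat_lit 110) (nat_lit 142) (nat_lit 138)))) (PT.nd (nat_lit 78) (PT.lf (nat_lit 10108) (nat_lit 6) (nat_lit 133) (nat_lit 4)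 (nat_lit 111) (nat_lit 142) (nat_lit 137)) (PT.nd (nat_lit 78) (PT.lf (nat_lit 10640) (nat_lit 6) (nat_lit 140) (nat_lit 4) (nat_lit 112) (nat_lit 142) (nat_lit 136)) (PT.lf (nat_lit 11172) (nat_lit 6) (nat_lit 147) (nat_lit 4) (nat_lit 113) (nat_lit 142) (nat_lit 135))))) (PT.nd (nat_lit 234) (PT.nd (nat_lit 78) (PT.lf (nat_lit 11704) (nat_lit 6) (nat_lit 154) (nat_lit 4) (nat_lit 114) (nat_lit 142) (nat_lit 134)) (PT.nd (nat_lit 78) (PT.lf (nat_lit 12768) (nat_lit 6) (nat_lit 168) (nat_lit 4) (nat_lit 115) (nat_lit 142) (nat_lit 133)) (PT.lf (nat_lit 13832) (nat_lit 6) (nat_lit 182) (nat_lit 4) (nat_lit 116) (nat_lit 142) (nat_lit 132)))) (PT.nd (nat_lit 78) (PT.lf (nat_lit 14820) (nat_lit 6) (nat_lit 195) (nat_lit 4) (nat_lit 117) (nat_lit 142) (nat_lit 131)) (PT.nd (nat_lit 78) (PT.lf (nat_lit 15732) (nat_lit 6) (nat_lit 207) (nat_lit 4) (nat_lit 118) (nat_lit 142) (nat_lit 130)) (PT.lf (nat_lit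 15656) (nat_lit 6) (nat_lit 206) (nat_lit 4) (nat_lit 119) (nat_lit 142) (nat_lit 129)))))) (PT.nd (nat_lit 468) (PT.nd (nat_lit 234) (PT.nd (nat_lit 78) (PT.lf (nat_lit 15580) (nat_lit 6) (nat_lit 205) (nat_lit 4) (nat_lit 120) (nat_lit 142) (nat_lit 128)) (PT.nd (nat_lit 78) (PT.lf (nat_lit 15504) (nat_lit 6) (nat_lit 204) (nat_lit 4) (nat_lit 121) (nat_lit 142) (nat_lit 127)) (PT.lf (nat_lit 15428) (nat_lit 6) (nat_lit 203) (nat_lit 4) (nat_lit 122) (nat_lit 142) (nat_lit 126)))) (PT.nd (nat_lit 78) (PT.lf (nat_lit 15352) (nat_lit 6) (nat_lit 202) (nat_lit 4) (nat_lit 123) (nat_lit 142) (nat_lit 125)) (PT.nd (nat_lit 78) (PT.lf (nat_lit 15276) (nat_lit 3) (nat_lit 201) (nat_lit 2) (nat_lit 124) (nat_lit 142) (nat_lit 124)) (PT.lf (nat_lit 15352) (nat_lit 6) (nat_lit 202) (nat_lit 2) (nat_lit 125) (nat_lit 142) (nat_lit 123))))) (PT.nd (nat_lit 234) (PT.nd (nat_lit 78) (PT.lf (nat_lit 15428)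 (nat_lit 6) (nat_lit 203) (nat_lit 2) (nat_lit 126) (nat_lit 142) (nat_lit 122)) (PT.nd (nat_lit 78) (PT.lf (nat_lit 15504) (nat_lit 6) (nat_lit 204) (nat_lit 2) (nat_lit 127) (nat_lit 142) (nat_lit 121)) (PT.lf (nat_lit 15580) (nat_lit 6) (nat_lit 205) (nat_lit 2) (nat_lit 128) (nat_lit 142) (nat_lit 120)))) (PT.nd (nat_lit 156) (PT.nd (nat_lit 78) (PT.lf (nat_lit 15656) (nat_lit 6) (nat_lit 206) (nat_lit 2) (nat_lit 129) (nat_lit 142) (nat_lit 119)) (PT.lf (nat_lit 15732) (nat_lit 6) (nat_lit 207) (nat_lit 2) (nat_lit 130) (nat_lit 142) (nat_lit 118))) (PT.nd (nat_lit 78) (PT.lf (nat_lit 14820) (nat_lit 6) (nat_lit 195) (nat_lit 2) (nat_lit 131) (nat_lit 142) (nat_lit 117)) (PT.lf (nat_lit 13832) (nat_lit 6) (nat_lit 182) (nat_lit 2) (nat_lit 132) (nat_lit 142) (nat_lit 116))))))))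
noncomputable def pc23 : PT := (PT.nd (nat_lit 38532) (PT.nd (nat_lit 936) (PT.nd (nat_lit 468) (PT.nd (nat_lit 234) (PT.nd (nat_lit 78) (PT.lf (nat_lit 12768) (nat_lit 6) (nat_lit 168) (nat_lit 2) (nat_lit 133) (nat_lit 142) (nat_lit 115)) (PT.nd (nat_lit 78) (PT.lf (nat_lit 11704) (nat_lit 6) (nat_lit 154) (nat_lit 2) (nat_lit 134) (nat_lit 142) (nat_lit 114)) (PT.lf (nat_lit 11172) (nat_lit 6) (nat_lit 147) (nat_lit 2) (nat_lit 135) (nat_lit 142) (nat_lit 113)))) (PT.nd (nat_lit 78) (PT.lf (nat_lit 10640) (nat_lit 6) (nat_lit 140) (nat_lit 2) (nat_lit 136) (nat_lit 142) (nat_lit 112)) (PT.nd (nat_lit 78) (PT.lf (nat_lit 10108) (nat_lit 6) (nat_lit 133) (nat_lit 2) (nat_lit 137) (nat_lit 142) (nat_lit 111)) (PT.lf (nat_lit 9576) (nat_lit 6) (nat_lit 126) (nat_lit 2) (nat_lit 138) (nat_lit 142) (nat_lit 110))))) (PT.nd (nat_lit 234) (PT.nd (nat_lit 78) (PT.lf (nat_lit 9120) (nat_lit 6) (nat_lit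 120) (nat_lit 2) (nat_lit 139) (nat_lit 142) (nat_lit 109)) (PT.nd (nat_lit 78) (PT.lf (nat_lit 8664) (nat_lit 6) (nat_lit 114) (nat_lit 2) (nat_lit 140) (nat_lit 142) (nat_lit 108)) (PT.lf (nat_lit 8284) (nat_lit 6) (nat_lit 109) (nat_lit 2) (nat_lit 141) (nat_lit 142) (nat_lit 107)))) (PT.nd (nat_lit 78) (PT.lf (nat_lit 7828) (nat_lit 3) (nat_lit 103) (nat_lit 0) (nat_lit 142) (nat_lit 142) (nat_lit 106)) (PT.nd (nat_lit 78) (PT.lf (nat_lit 7372) (nat_lit 6) (nat_lit 97) (nat_lit 0) (nat_lit 143) (nat_lit 142) (nat_lit 105)) (PT.lf (nat_lit 6916) (nat_lit 6) (nat_lit 91) (nat_lit 0) (nat_lit 144) (nat_lit 142) (nat_lit 104)))))) (PT.nd (nat_lit 37050) (PT.nd (nat_lit 234) (PT.nd (nat_lit 78) (PT.lf (nat_lit 6536) (nat_lit 6) (nat_lit 86) (nat_lit 0) (nat_lit 145) (nat_lit 142) (nat_lit 103)) (PT.nd (nat_lit 78) (PT.lf (nat_lit 6080) (nat_lit 6) (nat_lit 80) (nat_lit 0) (nat_lit 146) (nat_lit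 142) (nat_lit 102)) (PT.lf (nat_lit 5700) (nat_lit 6) (nat_lit 75) (nat_lit 0) (nat_lit 147) (nat_lit 142) (nat_lit 101)))) (PT.nd (nat_lit 78) (PT.lf (nat_lit 5320) (nat_lit 6) (nat_lit 70) (nat_lit 0) (nat_lit 148) (nat_lit 142) (nat_lit 100)) (PT.nd (nat_lit 36660) (PT.lf (nat_lit 4940) (nat_lit 6) (nat_lit 65) (nat_lit 0) (nat_lit 149) (nat_lit 142) (nat_lit 99)) (PT.lf (nat_lit 4636) (nat_lit 6) (nat_lit 61) (nat_lit 5) (nat_lit 98) (nat_lit 143) (nat_lit 149))))) (PT.nd (nat_lit 234) (PT.nd (nat_lit 78) (PT.lf (nat_lit 5016) (nat_lit 6) (nat_lit 66) (nat_lit 5) (nat_lit 99) (nat_lit 143) (nat_lit 148)) (PT.nd (nat_lit 78) (PT.lf (nat_lit 5396) (nat_lit 6) (nat_lit 71) (nat_lit 5) (nat_lit 100) (nat_lit 143) (nat_lit 147)) (PT.lf (nat_lit 5776) (nat_lit 6) (nat_lit 76) (nat_lit 5) (nat_lit 101) (nat_lit 143) (nat_lit 146)))) (PT.nd (nat_lit 156) (PT.nd (nat_lit 78) (PT.lf (nat_lit 6156) (nat_lit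 6) (nat_lit 81) (nat_lit 5) (nat_lit 102) (nat_lit 143) (nat_lit 145)) (PT.lf (nat_lit 6612) (nat_lit 6) (nat_lit 87) (nat_lit 5) (nat_lit 103) (nat_lit 143) (nat_lit 144))) (PT.nd (nat_lit 78) (PT.lf (nat_lit 6992) (nat_lit 3) (nat_lit 92) (nat_lit 4) (nat_lit 104) (nat_lit 143) (nat_lit 143)) (PT.lf (nat_lit 7372) (nat_lit 6) (nat_lit 97) (nat_lit 4) (nat_lit 105) (nat_lit 143) (nat_lit 142))))))) (PT.nd (nat_lit 936) (PT.nd (nat_lit 468) (PT.nd (nat_lit 234) (PT.nd (nat_lit 78) (PT.lf (nat_lit 7752) (nat_lit 6) (nat_lit 102) (nat_lit 4) (nat_lit 106) (nat_lit 143) (nat_lit 141)) (PT.nd (nat_lit 78) (PT.lf (nat_lit 8208) (nat_lit 6) (nat_lit 108) (nat_lit 4) (nat_lit 107) (nat_lit 143) (nat_lit 140)) (PT.lf (nat_lit 8588) (nat_lit 6) (nat_lit 113) (nat_lit 4) (nat_lit 108) (nat_lit 143) (nat_lit 139)))) (PT.nd (nat_lit 78) (PT.lf (nat_lit 9044) (nat_lit 6) (nat_lit 119) (nat_lit 4) (nat_lit 109)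 (nat_lit 143) (nat_lit 138)) (PT.nd (nat_lit 78) (PT.lf (nat_lit 9500) (nat_lit 6) (nat_lit 125) (nat_lit 4) (nat_lit 110) (nat_lit 143) (nat_lit 137)) (PT.lf (nat_lit 10032) (nat_lit 6) (nat_lit 132) (nat_lit 4) (nat_lit 111) (nat_lit 143) (nat_lit 136))))) (PT.nd (nat_lit 234) (PT.nd (nat_lit 78) (PT.lf (nat_lit 10564) (nat_lit 6) (nat_lit 139) (nat_lit 4) (nat_lit 112) (nat_lit 143) (nat_lit 135)) (PT.nd (nat_lit 78) (PT.lf (nat_lit 11096) (nat_lit 6) (nat_lit 146) (nat_lit 4) (nat_lit 113) (nat_lit 143) (nat_lit 134)) (PT.lf (nat_lit 11628) (nat_lit 6) (nat_lit 153) (nat_lit 4) (nat_lit 114) (nat_lit 143) (nat_lit 133)))) (PT.nd (nat_lit 78) (PT.lf (nat_lit 12692) (nat_lit 6) (nat_lit 167) (nat_lit 4) (nat_lit 115) (nat_lit 143) (nat_lit 132)) (PT.nd (nat_lit 78) (PT.lf (nat_lit 13756) (nat_lit 6) (nat_lit 181) (nat_lit 4) (nat_lit 116) (nat_lit 143) (nat_lit 131)) (PT.lf (nat_lit 14744) (nat_lit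 6) (nat_lit 194) (nat_lit 4) (nat_lit 117) (nat_lit 143) (nat_lit 130)))))) (PT.nd (nat_lit 468) (PT.nd (nat_lit 234) (PT.nd (nat_lit 78) (PT.lf (nat_lit 14668) (nat_lit 6) (nat_lit 193) (nat_lit 4) (nat_lit 118) (nat_lit 143) (nat_lit 129)) (PT.nd (nat_lit 78) (PT.lf (nat_lit 14592) (nat_lit 6) (nat_lit 192) (nat_lit 4) (nat_lit 119) (nat_lit 143) (nat_lit 128)) (PT.lf (nat_lit 14516) (nat_lit 6) (nat_lit 191) (nat_lit 4) (nat_lit 120) (nat_lit 143) (nat_lit 127)))) (PT.nd (nat_lit 78) (PT.lf (nat_lit 14440) (nat_lit 6) (nat_lit 190) (nat_lit 4) (nat_lit 121) (nat_lit 143) (nat_lit 126)) (PT.nd (nat_lit 78) (PT.lf (nat_lit 14364) (nat_lit 6) (nat_lit 189) (nat_lit 4) (nat_lit 122) (nat_lit 143) (nat_lit 125)) (PT.lf (nat_lit 14288) (nat_lit 6) (nat_lit 188) (nat_lit 4) (nat_lit 123) (nat_lit 143) (nat_lit 124))))) (PT.nd (nat_lit 234) (PT.nd (nat_lit 78) (PT.lf (nat_lit 14288) (nat_lit 6) (nat_lit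 188) (nat_lit 2) (nat_lit 124) (nat_lit 143) (nat_lit 123)) (PT.nd (nat_lit 78) (PT.lf (nat_lit 14364) (nat_lit 6) (nat_lit 189) (nat_lit 2) (nat_lit 125) (nat_lit 143) (nat_lit 122)) (PT.lf (nat_lit 14440) (nat_lit 6) (nat_lit 190) (nat_lit 2) (nat_lit 126) (nat_lit 143) (nat_lit 121)))) (PT.nd (nat_lit 156) (PT.nd (nat_lit 78) (PT.lf (nat_lit 14516) (nat_lit 6) (nat_lit 191) (nat_lit 2) (nat_lit 127) (nat_lit 143) (nat_lit 120)) (PT.lf (nat_lit 14592) (nat_lit 6) (nat_lit 192) (nat_lit 2) (nat_lit 128) (nat_lit 143) (nat_lit 119))) (PT.nd (nat_lit 78) (PT.lf (nat_lit 14668) (nat_lit 6) (nat_lit 193) (nat_lit 2) (nat_lit 129) (nat_lit 143) (nat_lit 118)) (PT.lf (nat_lit 14744) (nat_lit 6) (nat_lit 194) (nat_lit 2) (nat_lit 130) (nat_lit 143) (nat_lit 117))))))))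
noncomputable def pc24 : PT := (PT.nd (nat_lit 38298) (PT.nd (nat_lit 936) (PT.nd (nat_lit 468) (PT.nd (nat_lit 234) (PT.nd (nat_lit 78) (PT.lf (nat_lit 13756) (nat_lit 6) (nat_lit 181) (nat_lit 2) (nat_lit 131) (nat_lit 143) (nat_lit 116)) (PT.nd (nat_lit 78) (PT.lf (nat_lit 12692) (nat_lit 6) (nat_lit 167) (nat_lit 2) (nat_lit 132) (nat_lit 143) (nat_lit 115)) (PT.lf (nat_lit 11628) (nat_lit 6) (nat_lit 153) (nat_lit 2) (nat_lit 133) (nat_lit 143) (nat_lit 114)))) (PT.nd (nat_lit 78) (PT.lf (nat_lit 11096) (nat_lit 6) (nat_lit 146) (nat_lit 2) (nat_lit 134) (nat_lit 143) (nat_lit 113)) (PT.nd (nat_lit 78) (PT.lf (nat_lit 10564) (nat_lit 6) (nat_lit 139) (nat_lit 2) (nat_lit 135) (nat_lit 143) (nat_lit 112)) (PT.lf (nat_lit 10032) (nat_lit 6) (nat_lit 132) (nat_lit 2) (nat_lit 136) (nat_lit 143) (nat_lit 111))))) (PT.nd (nat_lit 234) (PT.nd (nat_lit 78) (PT.lf (nat_lit 9500) (nat_lit 6) (nat_lit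 125) (nat_lit 2) (nat_lit 137) (nat_lit 143) (nat_lit 110)) (PT.nd (nat_lit 78) (PT.lf (nat_lit 9044) (nat_lit 6) (nat_lit 119) (nat_lit 2) (nat_lit 138) (nat_lit 143) (nat_lit 109)) (PT.lf (nat_lit 8588) (nat_lit 6) (nat_lit 113) (nat_lit 2) (nat_lit 139) (nat_lit 143) (nat_lit 108)))) (PT.nd (nat_lit 78) (PT.lf (nat_lit 8208) (nat_lit 6) (nat_lit 108) (nat_lit 2) (nat_lit 140) (nat_lit 143) (nat_lit 107)) (PT.nd (nat_lit 78) (PT.lf (nat_lit 7752) (nat_lit 6) (nat_lit 102) (nat_lit 2) (nat_lit 141) (nat_lit 143) (nat_lit 106)) (PT.lf (nat_lit 7372) (nat_lit 6) (nat_lit 97) (nat_lit 2) (nat_lit 142) (nat_lit 143) (nat_lit 105)))))) (PT.nd (nat_lit 468) (PT.nd (nat_lit 234) (PT.nd (nat_lit 78) (PT.lf (nat_lit 6992) (nat_lit 3) (nat_lit 92) (nat_lit 0) (nat_lit 143) (nat_lit 143) (nat_lit 104)) (PT.nd (nat_lit 78) (PT.lf (nat_lit 6612) (nat_lit 6) (nat_lit 87) (nat_lit 0) (nat_lit 144) (nat_lit 143)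 (nat_lit 103)) (PT.lf (nat_lit 6156) (nat_lit 6) (nat_lit 81) (nat_lit 0) (nat_lit 145) (nat_lit 143) (nat_lit 102)))) (PT.nd (nat_lit 78) (PT.lf (nat_lit 5776) (nat_lit 6) (nat_lit 76) (nat_lit 0) (nat_lit 146) (nat_lit 143) (nat_lit 101)) (PT.nd (nat_lit 78) (PT.lf (nat_lit 5396) (nat_lit 6) (nat_lit 71) (nat_lit 0) (nat_lit 147) (nat_lit 143) (nat_lit 100)) (PT.lf (nat_lit 5016) (nat_lit 6) (nat_lit 66) (nat_lit 0) (nat_lit 148) (nat_lit 143) (nat_lit 99))))) (PT.nd (nat_lit 36660) (PT.nd (nat_lit 36504) (PT.lf (nat_lit 4636) (nat_lit 6) (nat_lit 61) (nat_lit 0) (nat_lit 149) (nat_lit 143) (nat_lit 98)) (PT.nd (nat_lit 78) (PT.lf (nat_lit 4104) (nat_lit 6) (nat_lit 54) (nat_lit 5) (nat_lit 96) (nat_lit 144) (nat_lit 150)) (PT.lf (nat_lit 4408) (nat_lit 6) (nat_lit 58) (nat_lit 5) (nat_lit 97) (nat_lit 144) (nat_lit 149)))) (PT.nd (nat_lit 78) (PT.lf (nat_lit 4712) (nat_lit 6) (nat_lit 62) (nat_lit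 5) (nat_lit 98) (nat_lit 144) (nat_lit 148)) (PT.nd (nat_lit 78) (PT.lf (nat_lit 5092) (nat_lit 6) (nat_lit 67) (nat_lit 5) (nat_lit 99) (nat_lit 144) (nat_lit 147)) (PT.lf (nat_lit 5472) (nat_lit 6) (nat_lit 72) (nat_lit 5) (nat_lit 100) (nat_lit 144) (nat_lit 146))))))) (PT.nd (nat_lit 936) (PT.nd (nat_lit 468) (PT.nd (nat_lit 234) (PT.nd (nat_lit 78) (PT.lf (nat_lit 5852) (nat_lit 6) (nat_lit 77) (nat_lit 5) (nat_lit 101) (nat_lit 144) (nat_lit 145)) (PT.nd (nat_lit 78) (PT.lf (nat_lit 6232) (nat_lit 3) (nat_lit 82) (nat_lit 4) (nat_lit 102) (nat_lit 144) (nat_lit 144)) (PT.lf (nat_lit 6612) (nat_lit 6) (nat_lit 87) (nat_lit 4) (nat_lit 103) (nat_lit 144) (nat_lit 143)))) (PT.nd (nat_lit 78) (PT.lf (nat_lit 6916) (nat_lit 6) (nat_lit 91) (nat_lit 4) (nat_lit 104) (nat_lit 144) (nat_lit 142)) (PT.nd (nat_lit 78) (PT.lf (nat_lit 7296) (nat_lit 6) (nat_lit 96) (nat_lit 4) (nat_lit 105) (nat_lit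 144) (nat_lit 141)) (PT.lf (nat_lit 7676) (nat_lit 6) (nat_lit 101) (nat_lit 4) (nat_lit 106) (nat_lit 144) (nat_lit 140))))) (PT.nd (nat_lit 234) (PT.nd (nat_lit 78) (PT.lf (nat_lit 8132) (nat_lit 6) (nat_lit 107) (nat_lit 4) (nat_lit 107) (nat_lit 144) (nat_lit 139)) (PT.nd (nat_lit 78) (PT.lf (nat_lit 8512) (nat_lit 6) (nat_lit 112) (nat_lit 4) (nat_lit 108) (nat_lit 144) (nat_lit 138)) (PT.lf (nat_lit 8968) (nat_lit 6) (nat_lit 118) (nat_lit 4) (nat_lit 109) (nat_lit 144) (nat_lit 137)))) (PT.nd (nat_lit 78) (PT.lf (nat_lit 9424) (nat_lit 6) (nat_lit 124) (nat_lit 4) (nat_lit 110) (nat_lit 144) (nat_lit 136)) (PT.nd (nat_lit 78) (PT.lf (nat_lit 9956) (nat_lit 6) (nat_lit 131) (nat_lit 4) (nat_lit 111) (nat_lit 144) (nat_lit 135)) (PT.lf (nat_lit 10488) (nat_lit 6) (nat_lit 138) (nat_lit 4) (nat_lit 112) (nat_lit 144) (nat_lit 134)))))) (PT.nd (nat_lit 468) (PT.nd (nat_lit 234) (PT.nd (nat_lit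 78) (PT.lf (nat_lit 11020) (nat_lit 6) (nat_lit 145) (nat_lit 4) (nat_lit 113) (nat_lit 144) (nat_lit 133)) (PT.nd (nat_lit 78) (PT.lf (nat_lit 11552) (nat_lit 6) (nat_lit 152) (nat_lit 4) (nat_lit 114) (nat_lit 144) (nat_lit 132)) (PT.lf (nat_lit 12616) (nat_lit 6) (nat_lit 166) (nat_lit 4) (nat_lit 115) (nat_lit 144) (nat_lit 131)))) (PT.nd (nat_lit 78) (PT.lf (nat_lit 13680) (nat_lit 6) (nat_lit 180) (nat_lit 4) (nat_lit 116) (nat_lit 144) (nat_lit 130)) (PT.nd (nat_lit 78) (PT.lf (nat_lit 13604) (nat_lit 6) (nat_lit 179) (nat_lit 4) (nat_lit 117) (nat_lit 144) (nat_lit 129)) (PT.lf (nat_lit 13528) (nat_lit 6) (nat_lit 178) (nat_lit 4) (nat_lit 118) (nat_lit 144) (nat_lit 128))))) (PT.nd (nat_lit 234) (PT.nd (nat_lit 78) (PT.lf (nat_lit 13452) (nat_lit 6) (nat_lit 177) (nat_lit 4) (nat_lit 119) (nat_lit 144) (nat_lit 127)) (PT.nd (nat_lit 78) (PT.lf (nat_lit 13376) (nat_lit 6) (nat_lit 176)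 (nat_lit 4) (nat_lit 120) (nat_lit 144) (nat_lit 126)) (PT.lf (nat_lit 13300) (nat_lit 6) (nat_lit 175) (nat_lit 4) (nat_lit 121) (nat_lit 144) (nat_lit 125)))) (PT.nd (nat_lit 156) (PT.nd (nat_lit 78) (PT.lf (nat_lit 13224) (nat_lit 6) (nat_lit 174) (nat_lit 4) (nat_lit 122) (nat_lit 144) (nat_lit 124)) (PT.lf (nat_lit 13148) (nat_lit 3) (nat_lit 173) (nat_lit 2) (nat_lit 123) (nat_lit 144) (nat_lit 123))) (PT.nd (nat_lit 78) (PT.lf (nat_lit 13224) (nat_lit 6) (nat_lit 174) (nat_lit 2) (nat_lit 124) (nat_lit 144) (nat_lit 122)) (PT.lf (nat_lit 13300) (nat_lit 6) (nat_lit 175) (nat_lit 2) (nat_lit 125) (nat_lit 144) (nat_lit 121))))))))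
noncomputable def pc25 : PT := (PT.nd (nat_lit 38142) (PT.nd (nat_lit 936) (PT.nd (nat_lit 468) (PT.nd (nat_lit 234) (PT.nd (nat_lit 78) (PT.lf (nat_lit 13376) (nat_lit 6) (nat_lit 176) (nat_lit 2) (nat_lit 126) (nat_lit 144) (nat_lit 120)) (PT.nd (nat_lit 78) (PT.lf (nat_lit 13452) (nat_lit 6) (nat_lit 177) (nat_lit 2) (nat_lit 127) (nat_lit 144) (nat_lit 119)) (PT.lf (nat_lit 13528) (nat_lit 6) (nat_lit 178) (nat_lit 2) (nat_lit 128) (nat_lit 144) (nat_lit 118)))) (PT.nd (nat_lit 78) (PT.lf (nat_lit 13604) (nat_lit 6) (nat_lit 179) (nat_lit 2) (nat_lit 129) (nat_lit 144) (nat_lit 117)) (PT.nd (nat_lit 78) (PT.lf (nat_lit 13680) (nat_lit 6) (nat_lit 180) (nat_lit 2) (nat_lit 130) (nat_lit 144) (nat_lit 116)) (PT.lf (nat_lit 12616) (nat_lit 6) (nat_lit 166) (nat_lit 2) (nat_lit 131) (nat_lit 144) (nat_lit 115))))) (PT.nd (nat_lit 234) (PT.nd (nat_lit 78) (PT.lf (nat_lit 11552) (nat_lit 6) (nat_lit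 152) (nat_lit 2) (nat_lit 132) (nat_lit 144) (nat_lit 114)) (PT.nd (nat_lit 78) (PT.lf (nat_lit 11020) (nat_lit 6) (nat_lit 145) (nat_lit 2) (nat_lit 133) (nat_lit 144) (nat_lit 113)) (PT.lf (nat_lit 10488) (nat_lit 6) (nat_lit 138) (nat_lit 2) (nat_lit 134) (nat_lit 144) (nat_lit 112)))) (PT.nd (nat_lit 78) (PT.lf (nat_lit 9956) (nat_lit 6) (nat_lit 131) (nat_lit 2) (nat_lit 135) (nat_lit 144) (nat_lit 111)) (PT.nd (nat_lit 78) (PT.lf (nat_lit 9424) (nat_lit 6) (nat_lit 124) (nat_lit 2) (nat_lit 136) (nat_lit 144) (nat_lit 110)) (PT.lf (nat_lit 8968) (nat_lit 6) (nat_lit 118) (nat_lit 2) (nat_lit 137) (nat_lit 144) (nat_lit 109)))))) (PT.nd (nat_lit 468) (PT.nd (nat_lit 234) (PT.nd (nat_lit 78) (PT.lf (nat_lit 8512) (nat_lit 6) (nat_lit 112) (nat_lit 2) (nat_lit 138) (nat_lit 144) (nat_lit 108)) (PT.nd (nat_lit 78) (PT.lf (nat_lit 8132) (nat_lit 6) (nat_lit 107) (nat_lit 2) (nat_lit 139) (nat_lit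 144) (nat_lit 107)) (PT.lf (nat_lit 7676) (nat_lit 6) (nat_lit 101) (nat_lit 2) (nat_lit 140) (nat_lit 144) (nat_lit 106)))) (PT.nd (nat_lit 78) (PT.lf (nat_lit 7296) (nat_lit 6) (nat_lit 96) (nat_lit 2) (nat_lit 141) (nat_lit 144) (nat_lit 105)) (PT.nd (nat_lit 78) (PT.lf (nat_lit 6916) (nat_lit 6) (nat_lit 91) (nat_lit 2) (nat_lit 142) (nat_lit 144) (nat_lit 104)) (PT.lf (nat_lit 6612) (nat_lit 6) (nat_lit 87) (nat_lit 2) (nat_lit 143) (nat_lit 144) (nat_lit 103))))) (PT.nd (nat_lit 234) (PT.nd (nat_lit 78) (PT.lf (nat_lit 6232) (nat_lit 3) (nat_lit 82) (nat_lit 0) (nat_lit 144) (nat_lit 144) (nat_lit 102)) (PT.nd (nat_lit 78) (PT.lf (nat_lit 5852) (nat_lit 6) (nat_lit 77) (nat_lit 0) (nat_lit 145) (nat_lit 144) (nat_lit 101)) (PT.lf (nat_lit 5472) (nat_lit 6) (nat_lit 72) (nat_lit 0) (nat_lit 146) (nat_lit 144) (nat_lit 100)))) (PT.nd (nat_lit 156) (PT.nd (nat_lit 78) (PT.lf (nat_lit 5092) (nat_lit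 6) (nat_lit 67) (nat_lit 0) (nat_lit 147) (nat_lit 144) (nat_lit 99)) (PT.lf (nat_lit 4712) (nat_lit 6) (nat_lit 62) (nat_lit 0) (nat_lit 148) (nat_lit 144) (nat_lit 98))) (PT.nd (nat_lit 78) (PT.lf (nat_lit 4408) (nat_lit 6) (nat_lit 58) (nat_lit 0) (nat_lit 149) (nat_lit 144) (nat_lit 97)) (PT.lf (nat_lit 4104) (nat_lit 6) (nat_lit 54) (nat_lit 0) (nat_lit 150) (nat_lit 144) (nat_lit 96))))))) (PT.nd (nat_lit 936) (PT.nd (nat_lit 468) (PT.nd (nat_lit 234) (PT.nd (nat_lit 78) (PT.lf (nat_lit 3572) (nat_lit 6) (nat_lit 47) (nat_lit 5) (nat_lit 94) (nat_lit 145) (nat_lit 151)) (PT.nd (nat_lit 78) (PT.lf (nat_lit 3876) (nat_lit 6) (nat_lit 51) (nat_lit 5) (nat_lit 95) (nat_lit 145) (nat_lit 150)) (PT.lf (nat_lit 4180) (nat_lit 6) (nat_lit 55) (nat_lit 5) (nat_lit 96) (nat_lit 145) (nat_lit 149)))) (PT.nd (nat_lit 78) (PT.lf (nat_lit 4484) (nat_lit 6) (nat_lit 59) (nat_lit 5) (nat_lit 97) (nat_lit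 145) (nat_lit 148)) (PT.nd (nat_lit 78) (PT.lf (nat_lit 4788) (nat_lit 6) (nat_lit 63) (nat_lit 5) (nat_lit 98) (nat_lit 145) (nat_lit 147)) (PT.lf (nat_lit 5168) (nat_lit 6) (nat_lit 68) (nat_lit 5) (nat_lit 99) (nat_lit 145) (nat_lit 146))))) (PT.nd (nat_lit 234) (PT.nd (nat_lit 78) (PT.lf (nat_lit 5548) (nat_lit 3) (nat_lit 73) (nat_lit 4) (nat_lit 100) (nat_lit 145) (nat_lit 145)) (PT.nd (nat_lit 78) (PT.lf (nat_lit 5852) (nat_lit 6) (nat_lit 77) (nat_lit 4) (nat_lit 101) (nat_lit 145) (nat_lit 144)) (PT.lf (nat_lit 6156) (nat_lit 6) (nat_lit 81) (nat_lit 4) (nat_lit 102) (nat_lit 145) (nat_lit 143)))) (PT.nd (nat_lit 78) (PT.lf (nat_lit 6536) (nat_lit 6) (nat_lit 86) (nat_lit 4) (nat_lit 103) (nat_lit 145) (nat_lit 142)) (PT.nd (nat_lit 78) (PT.lf (nat_lit 6840) (nat_lit 6) (nat_lit 90) (nat_lit 4) (nat_lit 104) (nat_lit 145) (nat_lit 141)) (PT.lf (nat_lit 7220) (nat_lit 6) (nat_lit 95) (nat_lit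 4) (nat_lit 105) (nat_lit 145) (nat_lit 140)))))) (PT.nd (nat_lit 468) (PT.nd (nat_lit 234) (PT.nd (nat_lit 78) (PT.lf (nat_lit 7600) (nat_lit 6) (nat_lit 100) (nat_lit 4) (nat_lit 106) (nat_lit 145) (nat_lit 139)) (PT.nd (nat_lit 78) (PT.lf (nat_lit 8056) (nat_lit 6) (nat_lit 106) (nat_lit 4) (nat_lit 107) (nat_lit 145) (nat_lit 138)) (PT.lf (nat_lit 8436) (nat_lit 6) (nat_lit 111) (nat_lit 4) (nat_lit 108) (nat_lit 145) (nat_lit 137)))) (PT.nd (nat_lit 78) (PT.lf (nat_lit 8892) (nat_lit 6) (nat_lit 117) (nat_lit 4) (nat_lit 109) (nat_lit 145) (nat_lit 136)) (PT.nd (nat_lit 78) (PT.lf (nat_lit 9348) (nat_lit 6) (nat_lit 123) (nat_lit 4) (nat_lit 110) (nat_lit 145) (nat_lit 135)) (PT.lf (nat_lit 9880) (nat_lit 6) (nat_lit 130) (nat_lit 4) (nat_lit 111) (nat_lit 145) (nat_lit 134))))) (PT.nd (nat_lit 234) (PT.nd (nat_lit 78) (PT.lf (nat_lit 10412) (nat_lit 6) (nat_lit 137) (nat_lit 4) (nat_lit 112)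 (nat_lit 145) (nat_lit 133)) (PT.nd (nat_lit 78) (PT.lf (nat_lit 10944) (nat_lit 6) (nat_lit 144) (nat_lit 4) (nat_lit 113) (nat_lit 145) (nat_lit 132)) (PT.lf (nat_lit 11476) (nat_lit 6) (nat_lit 151) (nat_lit 4) (nat_lit 114) (nat_lit 145) (nat_lit 131)))) (PT.nd (nat_lit 156) (PT.nd (nat_lit 78) (PT.lf (nat_lit 12540) (nat_lit 6) (nat_lit 165) (nat_lit 4) (nat_lit 115) (nat_lit 145) (nat_lit 130)) (PT.lf (nat_lit 12464) (nat_lit 6) (nat_lit 164) (nat_lit 4) (nat_lit 116) (nat_lit 145) (nat_lit 129))) (PT.nd (nat_lit 78) (PT.lf (nat_lit 12388) (nat_lit 6) (nat_lit 163) (nat_lit 4) (nat_lit 117) (nat_lit 145) (nat_lit 128)) (PT.lf (nat_lit 12312) (nat_lit 6) (nat_lit 162) (nat_lit 4) (nat_lit 118) (nat_lit 145) (nat_lit 127))))))))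
noncomputable def pc26 : PT := (PT.nd (nat_lit 2262) (PT.nd (nat_lit 1248) (PT.nd (nat_lit 780) (PT.nd (nat_lit 546) (PT.nd (nat_lit 78) (PT.lf (nat_lit 12236) (nat_lit 6) (nat_lit 161) (nat_lit 4) (nat_lit 119) (nat_lit 145) (nat_lit 126)) (PT.nd (nat_lit 390) (PT.lf (nat_lit 12160) (nat_lit 6) (nat_lit 160) (nat_lit 4) (nat_lit 120) (nat_lit 145) (nat_lit 125)) (PT.lf (nat_lit 12160) (nat_lit 6) (nat_lit 160) (nat_lit 2) (nat_lit 125) (nat_lit 145) (nat_lit 120)))) (PT.nd (nat_lit 78) (PT.lf (nat_lit 12236) (nat_lit 6) (nat_lit 161) (nat_lit 2) (nat_lit 126) (nat_lit 145) (nat_lit 119)) (PT.nd (nat_lit 78) (PT.lf (nat_lit 12312) (nat_lit 6) (nat_lit 162) (nat_lit 2) (nat_lit 127) (nat_lit 145) (nat_lit 118)) (PT.lf (nat_lit 12388) (nat_lit 6) (nat_lit 163) (nat_lit 2) (nat_lit 128) (nat_lit 145) (nat_lit 117))))) (PT.nd (nat_lit 234) (PT.nd (nat_lit 78) (PT.lf (nat_lit 12464) (nat_lit 6) (nat_lit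 164) (nat_lit 2) (nat_lit 129) (nat_lit 145) (nat_lit 116)) (PT.nd (nat_lit 78) (PT.lf (nat_lit 12540) (nat_lit 6) (nat_lit 165) (nat_lit 2) (nat_lit 130) (nat_lit 145) (nat_lit 115)) (PT.lf (nat_lit 11476) (nat_lit 6) (nat_lit 151) (nat_lit 2) (nat_lit 131) (nat_lit 145) (nat_lit 114)))) (PT.nd (nat_lit 78) (PT.lf (nat_lit 10944) (nat_lit 6) (nat_lit 144) (nat_lit 2) (nat_lit 132) (nat_lit 145) (nat_lit 113)) (PT.nd (nat_lit 78) (PT.lf (nat_lit 10412) (nat_lit 6) (nat_lit 137) (nat_lit 2) (nat_lit 133) (nat_lit 145) (nat_lit 112)) (PT.lf (nat_lit 9880) (nat_lit 6) (nat_lit 130) (nat_lit 2) (nat_lit 134) (nat_lit 145) (nat_lit 111)))))) (PT.nd (nat_lit 468) (PT.nd (nat_lit 234) (PT.nd (nat_lit 78) (PT.lf (nat_lit 9348) (nat_lit 6) (nat_lit 123) (nat_lit 2) (nat_lit 135) (nat_lit 145) (nat_lit 110)) (PT.nd (nat_lit 78) (PT.lf (nat_lit 8892) (nat_lit 6) (nat_lit 117) (nat_lit 2) (nat_lit 136) (nat_lit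 145) (nat_lit 109)) (PT.lf (nat_lit 8436) (nat_lit 6) (nat_lit 111) (nat_lit 2) (nat_lit 137) (nat_lit 145) (nat_lit 108)))) (PT.nd (nat_lit 78) (PT.lf (nat_lit 8056) (nat_lit 6) (nat_lit 106) (nat_lit 2) (nat_lit 138) (nat_lit 145) (nat_lit 107)) (PT.nd (nat_lit 78) (PT.lf (nat_lit 7600) (nat_lit 6) (nat_lit 100) (nat_lit 2) (nat_lit 139) (nat_lit 145) (nat_lit 106)) (PT.lf (nat_lit 7220) (nat_lit 6) (nat_lit 95) (nat_lit 2) (nat_lit 140) (nat_lit 145) (nat_lit 105))))) (PT.nd (nat_lit 234) (PT.nd (nat_lit 78) (PT.lf (nat_lit 6840) (nat_lit 6) (nat_lit 90) (nat_lit 2) (nat_lit 141) (nat_lit 145) (nat_lit 104)) (PT.nd (nat_lit 78) (PT.lf (nat_lit 6536) (nat_lit 6) (nat_lit 86) (nat_lit 2) (nat_lit 142) (nat_lit 145) (nat_lit 103)) (PT.lf (nat_lit 6156) (nat_lit 6) (nat_lit 81) (nat_lit 2) (nat_lit 143) (nat_lit 145) (nat_lit 102)))) (PT.nd (nat_lit 156) (PT.nd (nat_lit 78) (PT.lf (nat_lit 5852)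 (nat_lit 6) (nat_lit 77) (nat_lit 2) (nat_lit 144) (nat_lit 145) (nat_lit 101)) (PT.lf (nat_lit 5548) (nat_lit 3) (nat_lit 73) (nat_lit 0) (nat_lit 145) (nat_lit 145) (nat_lit 100))) (PT.nd (nat_lit 78) (PT.lf (nat_lit 5168) (nat_lit 6) (nat_lit 68) (nat_lit 0) (nat_lit 146) (nat_lit 145) (nat_lit 99)) (PT.lf (nat_lit 4788) (nat_lit 6) (nat_lit 63) (nat_lit 0) (nat_lit 147) (nat_lit 145) (nat_lit 98))))))) (PT.nd (nat_lit 36972) (PT.nd (nat_lit 36504) (PT.nd (nat_lit 234) (PT.nd (nat_lit 78) (PT.lf (nat_lit 4484) (nat_lit 6) (nat_lit 59) (nat_lit 0) (nat_lit 148) (nat_lit 145) (nat_lit 97)) (PT.nd (nat_lit 78) (PT.lf (nat_lit 4180) (nat_lit 6) (nat_lit 55) (nat_lit 0) (nat_lit 149) (nat_lit 145) (nat_lit 96)) (PT.lf (nat_lit 3876) (nat_lit 6) (nat_lit 51) (nat_lit 0) (nat_lit 150) (nat_lit 145) (nat_lit 95)))) (PT.nd (nat_lit 36114) (PT.lf (nat_lit 3572) (nat_lit 6) (nat_lit 47) (nat_lit 0) (nat_lit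 151) (nat_lit 145) (nat_lit 94)) (PT.nd (nat_lit 78) (PT.lf (nat_lit 3344) (nat_lit 6) (nat_lit 44) (nat_lit 5) (nat_lit 93) (nat_lit 146) (nat_lit 151)) (PT.lf (nat_lit 3648) (nat_lit 6) (nat_lit 48) (nat_lit 5) (nat_lit 94) (nat_lit 146) (nat_lit 150))))) (PT.nd (nat_lit 234) (PT.nd (nat_lit 78) (PT.lf (nat_lit 3952) (nat_lit 6) (nat_lit 52) (nat_lit 5) (nat_lit 95) (nat_lit 146) (nat_lit 149)) (PT.nd (nat_lit 78) (PT.lf (nat_lit 4256) (nat_lit 6) (nat_lit 56) (nat_lit 5) (nat_lit 96) (nat_lit 146) (nat_lit 148)) (PT.lf (nat_lit 4560) (nat_lit 6) (nat_lit 60) (nat_lit 5) (nat_lit 97) (nat_lit 146) (nat_lit 147)))) (PT.nd (nat_lit 78) (PT.lf (nat_lit 4864) (nat_lit 3) (nat_lit 64) (nat_lit 4) (nat_lit 98) (nat_lit 146) (nat_lit 146)) (PT.nd (nat_lit 78) (PT.lf (nat_lit 5168) (nat_lit 6) (nat_lit 68) (nat_lit 4) (nat_lit 99) (nat_lit 146) (nat_lit 145)) (PT.lf (nat_lit 5472) (nat_lit 6) (nat_lit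 72) (nat_lit 4) (nat_lit 100) (nat_lit 146) (nat_lit 144)))))) (PT.nd (nat_lit 468) (PT.nd (nat_lit 234) (PT.nd (nat_lit 78) (PT.lf (nat_lit 5776) (nat_lit 6) (nat_lit 76) (nat_lit 4) (nat_lit 101) (nat_lit 146) (nat_lit 143)) (PT.nd (nat_lit 78) (PT.lf (nat_lit 6080) (nat_lit 6) (nat_lit 80) (nat_lit 4) (nat_lit 102) (nat_lit 146) (nat_lit 142)) (PT.lf (nat_lit 6460) (nat_lit 6) (nat_lit 85) (nat_lit 4) (nat_lit 103) (nat_lit 146) (nat_lit 141)))) (PT.nd (nat_lit 78) (PT.lf (nat_lit 6764) (nat_lit 6) (nat_lit 89) (nat_lit 4) (nat_lit 104) (nat_lit 146) (nat_lit 140)) (PT.nd (nat_lit 78) (PT.lf (nat_lit 7144) (nat_lit 6) (nat_lit 94) (nat_lit 4) (nat_lit 105) (nat_lit 146) (nat_lit 139)) (PT.lf (nat_lit 7524) (nat_lit 6) (nat_lit 99) (nat_lit 4) (nat_lit 106) (nat_lit 146) (nat_lit 138))))) (PT.nd (nat_lit 234) (PT.nd (nat_lit 78) (PT.lf (nat_lit 7980) (nat_lit 6) (nat_lit 105) (nat_lit 4) (nat_lit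 107) (nat_lit 146) (nat_lit 137)) (PT.nd (nat_lit 78) (PT.lf (nat_lit 8360) (nat_lit 6) (nat_lit 110) (nat_lit 4) (nat_lit 108) (nat_lit 146) (nat_lit 136)) (PT.lf (nat_lit 8816) (nat_lit 6) (nat_lit 116) (nat_lit 4) (nat_lit 109) (nat_lit 146) (nat_lit 135)))) (PT.nd (nat_lit 156) (PT.nd (nat_lit 78) (PT.lf (nat_lit 9272) (nat_lit 6) (nat_lit 122) (nat_lit 4) (nat_lit 110) (nat_lit 146) (nat_lit 134)) (PT.lf (nat_lit 9804) (nat_lit 6) (nat_lit 129) (nat_lit 4) (nat_lit 111) (nat_lit 146) (nat_lit 133))) (PT.nd (nat_lit 1560) (PT.lf (nat_lit 10336) (nat_lit 6) (nat_lit 136) (nat_lit 4) (nat_lit 112) (nat_lit 146) (nat_lit 132)) (PT.lf (nat_lit 10336) (nat_lit 6) (nat_lit 136) (nat_lit 2) (nat_lit 132) (nat_lit 146) (nat_lit 112))))))))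
noncomputable def pc27 : PT := (PT.nd (nat_lit 37830) (PT.nd (nat_lit 936) (PT.nd (nat_lit 468) (PT.nd (nat_lit 234) (PT.nd (nat_lit 78) (PT.lf (nat_lit 9804) (nat_lit 6) (nat_lit 129) (nat_lit 2) (nat_lit 133) (nat_lit 146) (nat_lit 111)) (PT.nd (nat_lit 78) (PT.lf (nat_lit 9272) (nat_lit 6) (nat_lit 122) (nat_lit 2) (nat_lit 134) (nat_lit 146) (nat_lit 110)) (PT.lf (nat_lit 8816) (nat_lit 6) (nat_lit 116) (nat_lit 2) (nat_lit 135) (nat_lit 146) (nat_lit 109)))) (PT.nd (nat_lit 78) (PT.lf (nat_lit 8360) (nat_lit 6) (nat_lit 110) (nat_lit 2) (nat_lit 136) (nat_lit 146) (nat_lit 108)) (PT.nd (nat_lit 78) (PT.lf (nat_lit 7980) (nat_lit 6) (nat_lit 105) (nat_lit 2) (nat_lit 137) (nat_lit 146) (nat_lit 107)) (PT.lf (nat_lit 7524) (nat_lit 6) (nat_lit 99) (nat_lit 2) (nat_lit 138) (nat_lit 146) (nat_lit 106))))) (PT.nd (nat_lit 234) (PT.nd (nat_lit 78) (PT.lf (nat_lit 7144) (nat_lit 6) (nat_lit 94)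 (nat_lit 2) (nat_lit 139) (nat_lit 146) (nat_lit 105)) (PT.nd (nat_lit 78) (PT.lf (nat_lit 6764) (nat_lit 6) (nat_lit 89) (nat_lit 2) (nat_lit 140) (nat_lit 146) (nat_lit 104)) (PT.lf (nat_lit 6460) (nat_lit 6) (nat_lit 85) (nat_lit 2) (nat_lit 141) (nat_lit 146) (nat_lit 103)))) (PT.nd (nat_lit 78) (PT.lf (nat_lit 6080) (nat_lit 6) (nat_lit 80) (nat_lit 2) (nat_lit 142) (nat_lit 146) (nat_lit 102)) (PT.nd (nat_lit 78) (PT.lf (nat_lit 5776) (nat_lit 6) (nat_lit 76) (nat_lit 2) (nat_lit 143) (nat_lit 146) (nat_lit 101)) (PT.lf (nat_lit 5472) (nat_lit 6) (nat_lit 72) (nat_lit 2) (nat_lit 144) (nat_lit 146) (nat_lit 100)))))) (PT.nd (nat_lit 468) (PT.nd (nat_lit 234) (PT.nd (nat_lit 78) (PT.lf (nat_lit 5168) (nat_lit 6) (nat_lit 68) (nat_lit 2) (nat_lit 145) (nat_lit 146) (nat_lit 99)) (PT.nd (nat_lit 78) (PT.lf (nat_lit 4864) (nat_lit 3) (nat_lit 64) (nat_lit 0) (nat_lit 146) (nat_lit 146) (nat_lit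 98)) (PT.lf (nat_lit 4560) (nat_lit 6) (nat_lit 60) (nat_lit 0) (nat_lit 147) (nat_lit 146) (nat_lit 97)))) (PT.nd (nat_lit 78) (PT.lf (nat_lit 4256) (nat_lit 6) (nat_lit 56) (nat_lit 0) (nat_lit 148) (nat_lit 146) (nat_lit 96)) (PT.nd (nat_lit 78) (PT.lf (nat_lit 3952) (nat_lit 6) (nat_lit 52) (nat_lit 0) (nat_lit 149) (nat_lit 146) (nat_lit 95)) (PT.lf (nat_lit 3648) (nat_lit 6) (nat_lit 48) (nat_lit 0) (nat_lit 150) (nat_lit 146) (nat_lit 94))))) (PT.nd (nat_lit 36114) (PT.nd (nat_lit 35958) (PT.lf (nat_lit 3344) (nat_lit 6) (nat_lit 44) (nat_lit 0) (nat_lit 151) (nat_lit 146) (nat_lit 93)) (PT.nd (nat_lit 78) (PT.lf (nat_lit 2888) (nat_lit 6) (nat_lit 38) (nat_lit 5) (nat_lit 91) (nat_lit 147) (nat_lit 152)) (PT.lf (nat_lit 3116) (nat_lit 6) (nat_lit 41) (nat_lit 5) (nat_lit 92) (nat_lit 147) (nat_lit 151)))) (PT.nd (nat_lit 156) (PT.nd (nat_lit 78) (PT.lf (nat_lit 3420) (nat_lit 6) (nat_lit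 45) (nat_lit 5) (nat_lit 93) (nat_lit 147) (nat_lit 150)) (PT.lf (nat_lit 3724) (nat_lit 6) (nat_lit 49) (nat_lit 5) (nat_lit 94) (nat_lit 147) (nat_lit 149))) (PT.nd (nat_lit 78) (PT.lf (nat_lit 4028) (nat_lit 6) (nat_lit 53) (nat_lit 5) (nat_lit 95) (nat_lit 147) (nat_lit 148)) (PT.lf (nat_lit 4332) (nat_lit 3) (nat_lit 57) (nat_lit 4) (nat_lit 96) (nat_lit 147) (nat_lit 147))))))) (PT.nd (nat_lit 3120) (PT.nd (nat_lit 468) (PT.nd (nat_lit 234) (PT.nd (nat_lit 78) (PT.lf (nat_lit 4560) (nat_lit 6) (nat_lit 60) (nat_lit 4) (nat_lit 97) (nat_lit 147) (nat_lit 146)) (PT.nd (nat_lit 78) (PT.lf (nat_lit 4788) (nat_lit 6) (nat_lit 63) (nat_lit 4) (nat_lit 98) (nat_lit 147) (nat_lit 145)) (PT.lf (nat_lit 5092) (nat_lit 6) (nat_lit 67) (nat_lit 4) (nat_lit 99) (nat_lit 147) (nat_lit 144)))) (PT.nd (nat_lit 78) (PT.lf (nat_lit 5396) (nat_lit 6) (nat_lit 71) (nat_lit 4) (nat_lit 100) (nat_lit 147) (nat_lit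 143)) (PT.nd (nat_lit 78) (PT.lf (nat_lit 5700) (nat_lit 6) (nat_lit 75) (nat_lit 4) (nat_lit 101) (nat_lit 147) (nat_lit 142)) (PT.lf (nat_lit 6004) (nat_lit 6) (nat_lit 79) (nat_lit 4) (nat_lit 102) (nat_lit 147) (nat_lit 141))))) (PT.nd (nat_lit 234) (PT.nd (nat_lit 78) (PT.lf (nat_lit 6384) (nat_lit 6) (nat_lit 84) (nat_lit 4) (nat_lit 103) (nat_lit 147) (nat_lit 140)) (PT.nd (nat_lit 78) (PT.lf (nat_lit 6688) (nat_lit 6) (nat_lit 88) (nat_lit 4) (nat_lit 104) (nat_lit 147) (nat_lit 139)) (PT.lf (nat_lit 7068) (nat_lit 6) (nat_lit 93) (nat_lit 4) (nat_lit 105) (nat_lit 147) (nat_lit 138)))) (PT.nd (nat_lit 78) (PT.lf (nat_lit 7448) (nat_lit 6) (nat_lit 98) (nat_lit 4) (nat_lit 106) (nat_lit 147) (nat_lit 137)) (PT.nd (nat_lit 2262) (PT.lf (nat_lit 7904) (nat_lit 6) (nat_lit 104) (nat_lit 4) (nat_lit 107) (nat_lit 147) (nat_lit 136)) (PT.lf (nat_lit 7904) (nat_lit 6) (nat_lit 104) (nat_lit 2)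 (nat_lit 136) (nat_lit 147) (nat_lit 107)))))) (PT.nd (nat_lit 468) (PT.nd (nat_lit 234) (PT.nd (nat_lit 78) (PT.lf (nat_lit 7448) (nat_lit 6) (nat_lit 98) (nat_lit 2) (nat_lit 137) (nat_lit 147) (nat_lit 106)) (PT.nd (nat_lit 78) (PT.lf (nat_lit 7068) (nat_lit 6) (nat_lit 93) (nat_lit 2) (nat_lit 138) (nat_lit 147) (nat_lit 105)) (PT.lf (nat_lit 6688) (nat_lit 6) (nat_lit 88) (nat_lit 2) (nat_lit 139) (nat_lit 147) (nat_lit 104)))) (PT.nd (nat_lit 78) (PT.lf (nat_lit 6384) (nat_lit 6) (nat_lit 84) (nat_lit 2) (nat_lit 140) (nat_lit 147) (nat_lit 103)) (PT.nd (nat_lit 78) (PT.lf (nat_lit 6004) (nat_lit 6) (nat_lit 79) (nat_lit 2) (nat_lit 141) (nat_lit 147) (nat_lit 102)) (PT.lf (nat_lit 5700) (nat_lit 6) (nat_lit 75) (nat_lit 2) (nat_lit 142) (nat_lit 147) (nat_lit 101))))) (PT.nd (nat_lit 234) (PT.nd (nat_lit 78) (PT.lf (nat_lit 5396) (nat_lit 6) (nat_lit 71) (nat_lit 2) (nat_lit 143) (nat_lit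 147) (nat_lit 100)) (PT.nd (nat_lit 78) (PT.lf (nat_lit 5092) (nat_lit 6) (nat_lit 67) (nat_lit 2) (nat_lit 144) (nat_lit 147) (nat_lit 99)) (PT.lf (nat_lit 4788) (nat_lit 6) (nat_lit 63) (nat_lit 2) (nat_lit 145) (nat_lit 147) (nat_lit 98)))) (PT.nd (nat_lit 156) (PT.nd (nat_lit 78) (PT.lf (nat_lit 4560) (nat_lit 6) (nat_lit 60) (nat_lit 2) (nat_lit 146) (nat_lit 147) (nat_lit 97)) (PT.lf (nat_lit 4332) (nat_lit 3) (nat_lit 57) (nat_lit 0) (nat_lit 147) (nat_lit 147) (nat_lit 96))) (PT.nd (nat_lit 78) (PT.lf (nat_lit 4028) (nat_lit 6) (nat_lit 53) (nat_lit 0) (nat_lit 148) (nat_lit 147) (nat_lit 95)) (PT.lf (nat_lit 3724) (nat_lit 6) (nat_lit 49) (nat_lit 0) (nat_lit 149) (nat_lit 147) (nat_lit 94))))))))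
noncomputable def pc28 : PT := (PT.nd (nat_lit 40326) (PT.nd (nat_lit 36660) (PT.nd (nat_lit 36192) (PT.nd (nat_lit 35958) (PT.nd (nat_lit 78) (PT.lf (nat_lit 3420) (nat_lit 6) (nat_lit 45) (nat_lit 0) (nat_lit 150) (nat_lit 147) (nat_lit 93)) (PT.nd (nat_lit 78) (PT.lf (nat_lit 3116) (nat_lit 6) (nat_lit 41) (nat_lit 0) (nat_lit 151) (nat_lit 147) (nat_lit 92)) (PT.lf (nat_lit 2888) (nat_lit 6) (nat_lit 38) (nat_lit 0) (nat_lit 152) (nat_lit 147) (nat_lit 91)))) (PT.nd (nat_lit 78) (PT.lf (nat_lit 2660) (nat_lit 6) (nat_lit 35) (nat_lit 5) (nat_lit 90) (nat_lit 148) (nat_lit 152)) (PT.nd (nat_lit 78) (PT.lf (nat_lit 2964) (nat_lit 6) (nat_lit 39) (nat_lit 5) (nat_lit 91) (nat_lit 148) (nat_lit 151)) (PT.lf (nat_lit 3192) (nat_lit 6) (nat_lit 42) (nat_lit 5) (nat_lit 92) (nat_lit 148) (nat_lit 150))))) (PT.nd (nat_lit 234) (PT.nd (nat_lit 78) (PT.lf (nat_lit 3496) (nat_lit 6) (nat_lit 46) (nat_lit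 5) (nat_lit 93) (nat_lit 148) (nat_lit 149)) (PT.nd (nat_lit 78) (PT.lf (nat_lit 3800) (nat_lit 3) (nat_lit 50) (nat_lit 4) (nat_lit 94) (nat_lit 148) (nat_lit 148)) (PT.lf (nat_lit 4028) (nat_lit 6) (nat_lit 53) (nat_lit 4) (nat_lit 95) (nat_lit 148) (nat_lit 147)))) (PT.nd (nat_lit 78) (PT.lf (nat_lit 4256) (nat_lit 6) (nat_lit 56) (nat_lit 4) (nat_lit 96) (nat_lit 148) (nat_lit 146)) (PT.nd (nat_lit 78) (PT.lf (nat_lit 4484) (nat_lit 6) (nat_lit 59) (nat_lit 4) (nat_lit 97) (nat_lit 148) (nat_lit 145)) (PT.lf (nat_lit 4712) (nat_lit 6) (nat_lit 62) (nat_lit 4) (nat_lit 98) (nat_lit 148) (nat_lit 144)))))) (PT.nd (nat_lit 3198) (PT.nd (nat_lit 234) (PT.nd (nat_lit 78) (PT.lf (nat_lit 5016) (nat_lit 6) (nat_lit 66) (nat_lit 4) (nat_lit 99) (nat_lit 148) (nat_lit 143)) (PT.nd (nat_lit 78) (PT.lf (nat_lit 5320) (nat_lit 6) (nat_lit 70) (nat_lit 4) (nat_lit 100) (nat_lit 148) (nat_lit 142)) (PT.lf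 (nat_lit 5624) (nat_lit 6) (nat_lit 74) (nat_lit 4) (nat_lit 101) (nat_lit 148) (nat_lit 141)))) (PT.nd (nat_lit 78) (PT.lf (nat_lit 5928) (nat_lit 6) (nat_lit 78) (nat_lit 4) (nat_lit 102) (nat_lit 148) (nat_lit 140)) (PT.nd (nat_lit 2808) (PT.lf (nat_lit 6308) (nat_lit 6) (nat_lit 83) (nat_lit 4) (nat_lit 103) (nat_lit 148) (nat_lit 139)) (PT.lf (nat_lit 6308) (nat_lit 6) (nat_lit 83) (nat_lit 2) (nat_lit 139) (nat_lit 148) (nat_lit 103))))) (PT.nd (nat_lit 234) (PT.nd (nat_lit 78) (PT.lf (nat_lit 5928) (nat_lit 6) (nat_lit 78) (nat_lit 2) (nat_lit 140) (nat_lit 148) (nat_lit 102)) (PT.nd (nat_lit 78) (PT.lf (nat_lit 5624) (nat_lit 6) (nat_lit 74) (nat_lit 2) (nat_lit 141) (nat_lit 148) (nat_lit 101)) (PT.lf (nat_lit 5320) (nat_lit 6) (nat_lit 70) (nat_lit 2) (nat_lit 142) (nat_lit 148) (nat_lit 100)))) (PT.nd (nat_lit 78) (PT.lf (nat_lit 5016) (nat_lit 6) (nat_lit 66) (nat_lit 2) (nat_lit 143)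 (nat_lit 148) (nat_lit 99)) (PT.nd (nat_lit 78) (PT.lf (nat_lit 4712) (nat_lit 6) (nat_lit 62) (nat_lit 2) (nat_lit 144) (nat_lit 148) (nat_lit 98)) (PT.lf (nat_lit 4484) (nat_lit 6) (nat_lit 59) (nat_lit 2) (nat_lit 145) (nat_lit 148) (nat_lit 97))))))) (PT.nd (nat_lit 36504) (PT.nd (nat_lit 468) (PT.nd (nat_lit 234) (PT.nd (nat_lit 78) (PT.lf (nat_lit 4256) (nat_lit 6) (nat_lit 56) (nat_lit 2) (nat_lit 146) (nat_lit 148) (nat_lit 96)) (PT.nd (nat_lit 78) (PT.lf (nat_lit 4028) (nat_lit 6) (nat_lit 53) (nat_lit 2) (nat_lit 147) (nat_lit 148) (nat_lit 95)) (PT.lf (nat_lit 3800) (nat_lit 3) (nat_lit 50) (nat_lit 0) (nat_lit 148) (nat_lit 148) (nat_lit 94)))) (PT.nd (nat_lit 78) (PT.lf (nat_lit 3496) (nat_lit 6) (nat_lit 46) (nat_lit 0) (nat_lit 149) (nat_lit 148) (nat_lit 93)) (PT.nd (nat_lit 78) (PT.lf (nat_lit 3192) (nat_lit 6) (nat_lit 42) (nat_lit 0) (nat_lit 150) (nat_lit 148) (nat_lit 92))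 (PT.lf (nat_lit 2964) (nat_lit 6) (nat_lit 39) (nat_lit 0) (nat_lit 151) (nat_lit 148) (nat_lit 91))))) (PT.nd (nat_lit 35802) (PT.nd (nat_lit 35646) (PT.lf (nat_lit 2660) (nat_lit 6) (nat_lit 35) (nat_lit 0) (nat_lit 152) (nat_lit 148) (nat_lit 90)) (PT.nd (nat_lit 78) (PT.lf (nat_lit 2280) (nat_lit 6) (nat_lit 30) (nat_lit 5) (nat_lit 88) (nat_lit 149) (nat_lit 153)) (PT.lf (nat_lit 2508) (nat_lit 6) (nat_lit 33) (nat_lit 5) (nat_lit 89) (nat_lit 149) (nat_lit 152)))) (PT.nd (nat_lit 78) (PT.lf (nat_lit 2736) (nat_lit 6) (nat_lit 36) (nat_lit 5) (nat_lit 90) (nat_lit 149) (nat_lit 151)) (PT.nd (nat_lit 78) (PT.lf (nat_lit 3040) (nat_lit 6) (nat_lit 40) (nat_lit 5) (nat_lit 91) (nat_lit 149) (nat_lit 150)) (PT.lf (nat_lit 3268) (nat_lit 3) (nat_lit 43) (nat_lit 4) (nat_lit 92) (nat_lit 149) (nat_lit 149)))))) (PT.nd (nat_lit 468) (PT.nd (nat_lit 234) (PT.nd (nat_lit 78) (PT.lf (nat_lit 3496) (nat_lit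 6) (nat_lit 46) (nat_lit 4) (nat_lit 93) (nat_lit 149) (nat_lit 148)) (PT.nd (nat_lit 78) (PT.lf (nat_lit 3724) (nat_lit 6) (nat_lit 49) (nat_lit 4) (nat_lit 94) (nat_lit 149) (nat_lit 147)) (PT.lf (nat_lit 3952) (nat_lit 6) (nat_lit 52) (nat_lit 4) (nat_lit 95) (nat_lit 149) (nat_lit 146)))) (PT.nd (nat_lit 78) (PT.lf (nat_lit 4180) (nat_lit 6) (nat_lit 55) (nat_lit 4) (nat_lit 96) (nat_lit 149) (nat_lit 145)) (PT.nd (nat_lit 78) (PT.lf (nat_lit 4408) (nat_lit 6) (nat_lit 58) (nat_lit 4) (nat_lit 97) (nat_lit 149) (nat_lit 144)) (PT.lf (nat_lit 4636) (nat_lit 6) (nat_lit 61) (nat_lit 4) (nat_lit 98) (nat_lit 149) (nat_lit 143))))) (PT.nd (nat_lit 3354) (PT.nd (nat_lit 78) (PT.lf (nat_lit 4940) (nat_lit 6) (nat_lit 65) (nat_lit 4) (nat_lit 99) (nat_lit 149) (nat_lit 142)) (PT.nd (nat_lit 3198) (PT.lf (nat_lit 5244) (nat_lit 6) (nat_lit 69) (nat_lit 4) (nat_lit 100) (nat_lit 149) (nat_lit 141))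 (PT.lf (nat_lit 5244) (nat_lit 6) (nat_lit 69) (nat_lit 2) (nat_lit 141) (nat_lit 149) (nat_lit 100)))) (PT.nd (nat_lit 156) (PT.nd (nat_lit 78) (PT.lf (nat_lit 4940) (nat_lit 6) (nat_lit 65) (nat_lit 2) (nat_lit 142) (nat_lit 149) (nat_lit 99)) (PT.lf (nat_lit 4636) (nat_lit 6) (nat_lit 61) (nat_lit 2) (nat_lit 143) (nat_lit 149) (nat_lit 98))) (PT.nd (nat_lit 78) (PT.lf (nat_lit 4408) (nat_lit 6) (nat_lit 58) (nat_lit 2) (nat_lit 144) (nat_lit 149) (nat_lit 97)) (PT.lf (nat_lit 4180) (nat_lit 6) (nat_lit 55) (nat_lit 2) (nat_lit 145) (nat_lit 149) (nat_lit 96))))))))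
noncomputable def pc29 : PT := (PT.nd (nat_lit 40950) (PT.nd (nat_lit 36270) (PT.nd (nat_lit 468) (PT.nd (nat_lit 234) (PT.nd (nat_lit 78) (PT.lf (nat_lit 3952) (nat_lit 6) (nat_lit 52) (nat_lit 2) (nat_lit 146) (nat_lit 149) (nat_lit 95)) (PT.nd (nat_lit 78) (PT.lf (nat_lit 3724) (nat_lit 6) (nat_lit 49) (nat_lit 2) (nat_lit 147) (nat_lit 149) (nat_lit 94)) (PT.lf (nat_lit 3496) (nat_lit 6) (nat_lit 46) (nat_lit 2) (nat_lit 148) (nat_lit 149) (nat_lit 93)))) (PT.nd (nat_lit 78) (PT.lf (nat_lit 3268) (nat_lit 3) (nat_lit 43) (nat_lit 0) (nat_lit 149) (nat_lit 149) (nat_lit 92)) (PT.nd (nat_lit 78) (PT.lf (nat_lit 3040) (nat_lit 6) (nat_lit 40) (nat_lit 0) (nat_lit 150) (nat_lit 149) (nat_lit 91)) (PT.lf (nat_lit 2736) (nat_lit 6) (nat_lit 36) (nat_lit 0) (nat_lit 151) (nat_lit 149) (nat_lit 90))))) (PT.nd (nat_lit 35568) (PT.nd (nat_lit 78) (PT.lf (nat_lit 2508) (nat_lit 6) (nat_lit 33) (nat_lit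 0) (nat_lit 152) (nat_lit 149) (nat_lit 89)) (PT.nd (nat_lit 35412) (PT.lf (nat_lit 2280) (nat_lit 6) (nat_lit 30) (nat_lit 0) (nat_lit 153) (nat_lit 149) (nat_lit 88)) (PT.lf (nat_lit 1900) (nat_lit 6) (nat_lit 25) (nat_lit 5) (nat_lit 86) (nat_lit 150) (nat_lit 154)))) (PT.nd (nat_lit 78) (PT.lf (nat_lit 2128) (nat_lit 6) (nat_lit 28) (nat_lit 5) (nat_lit 87) (nat_lit 150) (nat_lit 153)) (PT.nd (nat_lit 78) (PT.lf (nat_lit 2356) (nat_lit 6) (nat_lit 31) (nat_lit 5) (nat_lit 88) (nat_lit 150) (nat_lit 152)) (PT.lf (nat_lit 2584) (nat_lit 6) (nat_lit 34) (nat_lit 5) (nat_lit 89) (nat_lit 150) (nat_lit 151)))))) (PT.nd (nat_lit 468) (PT.nd (nat_lit 234) (PT.nd (nat_lit 78) (PT.lf (nat_lit 2812) (nat_lit 3) (nat_lit 37) (nat_lit 4) (nat_lit 90) (nat_lit 150) (nat_lit 150)) (PT.nd (nat_lit 78) (PT.lf (nat_lit 3040) (nat_lit 6) (nat_lit 40) (nat_lit 4) (nat_lit 91) (nat_lit 150) (nat_lit 149)) (PT.lf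 (nat_lit 3192) (nat_lit 6) (nat_lit 42) (nat_lit 4) (nat_lit 92) (nat_lit 150) (nat_lit 148)))) (PT.nd (nat_lit 78) (PT.lf (nat_lit 3420) (nat_lit 6) (nat_lit 45) (nat_lit 4) (nat_lit 93) (nat_lit 150) (nat_lit 147)) (PT.nd (nat_lit 78) (PT.lf (nat_lit 3648) (nat_lit 6) (nat_lit 48) (nat_lit 4) (nat_lit 94) (nat_lit 150) (nat_lit 146)) (PT.lf (nat_lit 3876) (nat_lit 6) (nat_lit 51) (nat_lit 4) (nat_lit 95) (nat_lit 150) (nat_lit 145))))) (PT.nd (nat_lit 3900) (PT.nd (nat_lit 3744) (PT.lf (nat_lit 4104) (nat_lit 6) (nat_lit 54) (nat_lit 4) (nat_lit 96) (nat_lit 150) (nat_lit 144)) (PT.nd (nat_lit 78) (PT.lf (nat_lit 4104) (nat_lit 6) (nat_lit 54) (nat_lit 2) (nat_lit 144) (nat_lit 150) (nat_lit 96)) (PT.lf (nat_lit 3876) (nat_lit 6) (nat_lit 51) (nat_lit 2) (nat_lit 145) (nat_lit 150) (nat_lit 95)))) (PT.nd (nat_lit 156) (PT.nd (nat_lit 78) (PT.lf (nat_lit 3648) (nat_lit 6) (nat_lit 48) (nat_lit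 2) (nat_lit 146) (nat_lit 150) (nat_lit 94)) (PT.lf (nat_lit 3420) (nat_lit 6) (nat_lit 45) (nat_lit 2) (nat_lit 147) (nat_lit 150) (nat_lit 93))) (PT.nd (nat_lit 78) (PT.lf (nat_lit 3192) (nat_lit 6) (nat_lit 42) (nat_lit 2) (nat_lit 148) (nat_lit 150) (nat_lit 92)) (PT.lf (nat_lit 3040) (nat_lit 6) (nat_lit 40) (nat_lit 2) (nat_lit 149) (nat_lit 150) (nat_lit 91))))))) (PT.nd (nat_lit 36114) (PT.nd (nat_lit 35646) (PT.nd (nat_lit 234) (PT.nd (nat_lit 78) (PT.lf (nat_lit 2812) (nat_lit 3) (nat_lit 37) (nat_lit 0) (nat_lit 150) (nat_lit 150) (nat_lit 90)) (PT.nd (nat_lit 78) (PT.lf (nat_lit 2584) (nat_lit 6) (nat_lit 34) (nat_lit 0) (nat_lit 151) (nat_lit 150) (nat_lit 89)) (PT.lf (nat_lit 2356) (nat_lit 6) (nat_lit 31) (nat_lit 0) (nat_lit 152) (nat_lit 150) (nat_lit 88)))) (PT.nd (nat_lit 78) (PT.lf (nat_lit 2128) (nat_lit 6) (nat_lit 28) (nat_lit 0) (nat_lit 153) (nat_lit 150) (nat_lit 87))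 (PT.nd (nat_lit 35256) (PT.lf (nat_lit 1900) (nat_lit 6) (nat_lit 25) (nat_lit 0) (nat_lit 154) (nat_lit 150) (nat_lit 86)) (PT.lf (nat_lit 1748) (nat_lit 6) (nat_lit 23) (nat_lit 5) (nat_lit 85) (nat_lit 151) (nat_lit 154))))) (PT.nd (nat_lit 234) (PT.nd (nat_lit 78) (PT.lf (nat_lit 1976) (nat_lit 6) (nat_lit 26) (nat_lit 5) (nat_lit 86) (nat_lit 151) (nat_lit 153)) (PT.nd (nat_lit 78) (PT.lf (nat_lit 2204) (nat_lit 6) (nat_lit 29) (nat_lit 5) (nat_lit 87) (nat_lit 151) (nat_lit 152)) (PT.lf (nat_lit 2432) (nat_lit 3) (nat_lit 32) (nat_lit 4) (nat_lit 88) (nat_lit 151) (nat_lit 151)))) (PT.nd (nat_lit 78) (PT.lf (nat_lit 2584) (nat_lit 6) (nat_lit 34) (nat_lit 4) (nat_lit 89) (nat_lit 151) (nat_lit 150)) (PT.nd (nat_lit 78) (PT.lf (nat_lit 2736) (nat_lit 6) (nat_lit 36) (nat_lit 4) (nat_lit 90) (nat_lit 151) (nat_lit 149)) (PT.lf (nat_lit 2964) (nat_lit 6) (nat_lit 39) (nat_lit 4) (nat_lit 91)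 (nat_lit 151) (nat_lit 148)))))) (PT.nd (nat_lit 4368) (PT.nd (nat_lit 4134) (PT.nd (nat_lit 78) (PT.lf (nat_lit 3116) (nat_lit 6) (nat_lit 41) (nat_lit 4) (nat_lit 92) (nat_lit 151) (nat_lit 147)) (PT.nd (nat_lit 78) (PT.lf (nat_lit 3344) (nat_lit 6) (nat_lit 44) (nat_lit 4) (nat_lit 93) (nat_lit 151) (nat_lit 146)) (PT.lf (nat_lit 3572) (nat_lit 6) (nat_lit 47) (nat_lit 4) (nat_lit 94) (nat_lit 151) (nat_lit 145)))) (PT.nd (nat_lit 78) (PT.lf (nat_lit 3572) (nat_lit 6) (nat_lit 47) (nat_lit 2) (nat_lit 145) (nat_lit 151) (nat_lit 94)) (PT.nd (nat_lit 78) (PT.lf (nat_lit 3344) (nat_lit 6) (nat_lit 44) (nat_lit 2) (nat_lit 146) (nat_lit 151) (nat_lit 93)) (PT.lf (nat_lit 3116) (nat_lit 6) (nat_lit 41) (nat_lit 2) (nat_lit 147) (nat_lit 151) (nat_lit 92))))) (PT.nd (nat_lit 234) (PT.nd (nat_lit 78) (PT.lf (nat_lit 2964) (nat_lit 6) (nat_lit 39) (nat_lit 2) (nat_lit 148) (nat_lit 151) (nat_lit 91))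 (PT.nd (nat_lit 78) (PT.lf (nat_lit 2736) (nat_lit 6) (nat_lit 36) (nat_lit 2) (nat_lit 149) (nat_lit 151) (nat_lit 90)) (PT.lf (nat_lit 2584) (nat_lit 6) (nat_lit 34) (nat_lit 2) (nat_lit 150) (nat_lit 151) (nat_lit 89)))) (PT.nd (nat_lit 156) (PT.nd (nat_lit 78) (PT.lf (nat_lit 2432) (nat_lit 3) (nat_lit 32) (nat_lit 0) (nat_lit 151) (nat_lit 151) (nat_lit 88)) (PT.lf (nat_lit 2204) (nat_lit 6) (nat_lit 29) (nat_lit 0) (nat_lit 152) (nat_lit 151) (nat_lit 87))) (PT.nd (nat_lit 78) (PT.lf (nat_lit 1976) (nat_lit 6) (nat_lit 26) (nat_lit 0) (nat_lit 153) (nat_lit 151) (nat_lit 86)) (PT.lf (nat_lit 1748) (nat_lit 6) (nat_lit 23) (nat_lit 0) (nat_lit 154) (nat_lit 151) (nat_lit 85))))))))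
noncomputable def pc30 : PT := (PT.nd (nat_lit 41028) (PT.nd (nat_lit 5226) (PT.nd (nat_lit 468) (PT.nd (nat_lit 234) (PT.nd (nat_lit 78) (PT.lf (nat_lit 1444) (nat_lit 6) (nat_lit 19) (nat_lit 5) (nat_lit 83) (nat_lit 152) (nat_lit 155)) (PT.nd (nat_lit 78) (PT.lf (nat_lit 1596) (nat_lit 6) (nat_lit 21) (nat_lit 5) (nat_lit 84) (nat_lit 152) (nat_lit 154)) (PT.lf (nat_lit 1824) (nat_lit 6) (nat_lit 24) (nat_lit 5) (nat_lit 85) (nat_lit 152) (nat_lit 153)))) (PT.nd (nat_lit 78) (PT.lf (nat_lit 2052) (nat_lit 3) (nat_lit 27) (nat_lit 4) (nat_lit 86) (nat_lit 152) (nat_lit 152)) (PT.nd (nat_lit 78) (PT.lf (nat_lit 2204) (nat_lit 6) (nat_lit 29) (nat_lit 4) (nat_lit 87) (nat_lit 152) (nat_lit 151)) (PT.lf (nat_lit 2356) (nat_lit 6) (nat_lit 31) (nat_lit 4) (nat_lit 88) (nat_lit 152) (nat_lit 150))))) (PT.nd (nat_lit 4524) (PT.nd (nat_lit 78) (PT.lf (nat_lit 2508) (nat_lit 6) (nat_lit 33) (nat_lit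 4) (nat_lit 89) (nat_lit 152) (nat_lit 149)) (PT.nd (nat_lit 78) (PT.lf (nat_lit 2660) (nat_lit 6) (nat_lit 35) (nat_lit 4) (nat_lit 90) (nat_lit 152) (nat_lit 148)) (PT.lf (nat_lit 2888) (nat_lit 6) (nat_lit 38) (nat_lit 4) (nat_lit 91) (nat_lit 152) (nat_lit 147)))) (PT.nd (nat_lit 78) (PT.lf (nat_lit 2888) (nat_lit 6) (nat_lit 38) (nat_lit 2) (nat_lit 147) (nat_lit 152) (nat_lit 91)) (PT.nd (nat_lit 78) (PT.lf (nat_lit 2660) (nat_lit 6) (nat_lit 35) (nat_lit 2) (nat_lit 148) (nat_lit 152) (nat_lit 90)) (PT.lf (nat_lit 2508) (nat_lit 6) (nat_lit 33) (nat_lit 2) (nat_lit 149) (nat_lit 152) (nat_lit 89)))))) (PT.nd (nat_lit 35256) (PT.nd (nat_lit 234) (PT.nd (nat_lit 78) (PT.lf (nat_lit 2356) (nat_lit 6) (nat_lit 31) (nat_lit 2) (nat_lit 150) (nat_lit 152) (nat_lit 88)) (PT.nd (nat_lit 78) (PT.lf (nat_lit 2204) (nat_lit 6) (nat_lit 29) (nat_lit 2) (nat_lit 151) (nat_lit 152) (nat_lit 87)) (PT.lf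 (nat_lit 2052) (nat_lit 3) (nat_lit 27) (nat_lit 0) (nat_lit 152) (nat_lit 152) (nat_lit 86)))) (PT.nd (nat_lit 78) (PT.lf (nat_lit 1824) (nat_lit 6) (nat_lit 24) (nat_lit 0) (nat_lit 153) (nat_lit 152) (nat_lit 85)) (PT.nd (nat_lit 78) (PT.lf (nat_lit 1596) (nat_lit 6) (nat_lit 21) (nat_lit 0) (nat_lit 154) (nat_lit 152) (nat_lit 84)) (PT.lf (nat_lit 1444) (nat_lit 6) (nat_lit 19) (nat_lit 0) (nat_lit 155) (nat_lit 152) (nat_lit 83))))) (PT.nd (nat_lit 234) (PT.nd (nat_lit 78) (PT.lf (nat_lit 1140) (nat_lit 6) (nat_lit 15) (nat_lit 5) (nat_lit 81) (nat_lit 153) (nat_lit 156)) (PT.nd (nat_lit 78) (PT.lf (nat_lit 1292) (nat_lit 6) (nat_lit 17) (nat_lit 5) (nat_lit 82) (nat_lit 153) (nat_lit 155)) (PT.lf (nat_lit 1520) (nat_lit 6) (nat_lit 20) (nat_lit 5) (nat_lit 83) (nat_lit 153) (nat_lit 154)))) (PT.nd (nat_lit 156) (PT.nd (nat_lit 78) (PT.lf (nat_lit 1672) (nat_lit 3) (nat_lit 22) (nat_lit 4)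 (nat_lit 84) (nat_lit 153) (nat_lit 153)) (PT.lf (nat_lit 1824) (nat_lit 6) (nat_lit 24) (nat_lit 4) (nat_lit 85) (nat_lit 153) (nat_lit 152))) (PT.nd (nat_lit 78) (PT.lf (nat_lit 1976) (nat_lit 6) (nat_lit 26) (nat_lit 4) (nat_lit 86) (nat_lit 153) (nat_lit 151)) (PT.lf (nat_lit 2128) (nat_lit 6) (nat_lit 28) (nat_lit 4) (nat_lit 87) (nat_lit 153) (nat_lit 150))))))) (PT.nd (nat_lit 40248) (PT.nd (nat_lit 5148) (PT.nd (nat_lit 4914) (PT.nd (nat_lit 4758) (PT.lf (nat_lit 2280) (nat_lit 6) (nat_lit 30) (nat_lit 4) (nat_lit 88) (nat_lit 153) (nat_lit 149)) (PT.nd (nat_lit 78) (PT.lf (nat_lit 2280) (nat_lit 6) (nat_lit 30) (nat_lit 2) (nat_lit 149) (nat_lit 153) (nat_lit 88)) (PT.lf (nat_lit 2128) (nat_lit 6) (nat_lit 28) (nat_lit 2) (nat_lit 150) (nat_lit 153) (nat_lit 87)))) (PT.nd (nat_lit 78) (PT.lf (nat_lit 1976) (nat_lit 6) (nat_lit 26) (nat_lit 2) (nat_lit 151) (nat_lit 153) (nat_lit 86)) (PT.nd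 (nat_lit 78) (PT.lf (nat_lit 1824) (nat_lit 6) (nat_lit 24) (nat_lit 2) (nat_lit 152) (nat_lit 153) (nat_lit 85)) (PT.lf (nat_lit 1672) (nat_lit 3) (nat_lit 22) (nat_lit 0) (nat_lit 153) (nat_lit 153) (nat_lit 84))))) (PT.nd (nat_lit 34866) (PT.nd (nat_lit 78) (PT.lf (nat_lit 1520) (nat_lit 6) (nat_lit 20) (nat_lit 0) (nat_lit 154) (nat_lit 153) (nat_lit 83)) (PT.nd (nat_lit 78) (PT.lf (nat_lit 1292) (nat_lit 6) (nat_lit 17) (nat_lit 0) (nat_lit 155) (nat_lit 153) (nat_lit 82)) (PT.lf (nat_lit 1140) (nat_lit 6) (nat_lit 15) (nat_lit 0) (nat_lit 156) (nat_lit 153) (nat_lit 81)))) (PT.nd (nat_lit 78) (PT.lf (nat_lit 988) (nat_lit 6) (nat_lit 13) (nat_lit 5) (nat_lit 80) (nat_lit 154) (nat_lit 156)) (PT.nd (nat_lit 78) (PT.lf (nat_lit 1216) (nat_lit 6) (nat_lit 16) (nat_lit 5) (nat_lit 81) (nat_lit 154) (nat_lit 155)) (PT.lf (nat_lit 1368) (nat_lit 3) (nat_lit 18) (nat_lit 4) (nat_lit 82) (nat_lit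 154) (nat_lit 154)))))) (PT.nd (nat_lit 5382) (PT.nd (nat_lit 234) (PT.nd (nat_lit 78) (PT.lf (nat_lit 1520) (nat_lit 6) (nat_lit 20) (nat_lit 4) (nat_lit 83) (nat_lit 154) (nat_lit 153)) (PT.nd (nat_lit 78) (PT.lf (nat_lit 1596) (nat_lit 6) (nat_lit 21) (nat_lit 4) (nat_lit 84) (nat_lit 154) (nat_lit 152)) (PT.lf (nat_lit 1748) (nat_lit 6) (nat_lit 23) (nat_lit 4) (nat_lit 85) (nat_lit 154) (nat_lit 151)))) (PT.nd (nat_lit 4992) (PT.lf (nat_lit 1900) (nat_lit 6) (nat_lit 25) (nat_lit 4) (nat_lit 86) (nat_lit 154) (nat_lit 150)) (PT.nd (nat_lit 78) (PT.lf (nat_lit 1900) (nat_lit 6) (nat_lit 25) (nat_lit 2) (nat_lit 150) (nat_lit 154) (nat_lit 86)) (PT.lf (nat_lit 1748) (nat_lit 6) (nat_lit 23) (nat_lit 2) (nat_lit 151) (nat_lit 154) (nat_lit 85))))) (PT.nd (nat_lit 234) (PT.nd (nat_lit 78) (PT.lf (nat_lit 1596) (nat_lit 6) (nat_lit 21) (nat_lit 2) (nat_lit 152) (nat_lit 154) (nat_lit 84)) (PT.nd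 (nat_lit 78) (PT.lf (nat_lit 1520) (nat_lit 6) (nat_lit 20) (nat_lit 2) (nat_lit 153) (nat_lit 154) (nat_lit 83)) (PT.lf (nat_lit 1368) (nat_lit 3) (nat_lit 18) (nat_lit 0) (nat_lit 154) (nat_lit 154) (nat_lit 82)))) (PT.nd (nat_lit 34632) (PT.nd (nat_lit 78) (PT.lf (nat_lit 1216) (nat_lit 6) (nat_lit 16) (nat_lit 0) (nat_lit 155) (nat_lit 154) (nat_lit 81)) (PT.lf (nat_lit 988) (nat_lit 6) (nat_lit 13) (nat_lit 0) (nat_lit 156) (nat_lit 154) (nat_lit 80))) (PT.nd (nat_lit 78) (PT.lf (nat_lit 760) (nat_lit 6) (nat_lit 10) (nat_lit 5) (nat_lit 78) (nat_lit 155) (nat_lit 157)) (PT.lf (nat_lit 912) (nat_lit 6) (nat_lit 12) (nat_lit 5) (nat_lit 79) (nat_lit 155) (nat_lit 156))))))))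
noncomputable def pc31 : PT := (PT.nd (nat_lit 81042) (PT.nd (nat_lit 40482) (PT.nd (nat_lit 5772) (PT.nd (nat_lit 234) (PT.nd (nat_lit 78) (PT.lf (nat_lit 1064) (nat_lit 3) (nat_lit 14) (nat_lit 4) (nat_lit 80) (nat_lit 155) (nat_lit 155)) (PT.nd (nat_lit 78) (PT.lf (nat_lit 1216) (nat_lit 6) (nat_lit 16) (nat_lit 4) (nat_lit 81) (nat_lit 155) (nat_lit 154)) (PT.lf (nat_lit 1292) (nat_lit 6) (nat_lit 17) (nat_lit 4) (nat_lit 82) (nat_lit 155) (nat_lit 153)))) (PT.nd (nat_lit 5382) (PT.lf (nat_lit 1444) (nat_lit 6) (nat_lit 19) (nat_lit 4) (nat_lit 83) (nat_lit 155) (nat_lit 152)) (PT.nd (nat_lit 78) (PT.lf (nat_lit 1444) (nat_lit 6) (nat_lit 19) (nat_lit 2) (nat_lit 152) (nat_lit 155) (nat_lit 83)) (PT.lf (nat_lit 1292) (nat_lit 6) (nat_lit 17) (nat_lit 2) (nat_lit 153) (nat_lit 155) (nat_lit 82))))) (PT.nd (nat_lit 234) (PT.nd (nat_lit 78) (PT.lf (nat_lit 1216) (nat_lit 6) (nat_lit 16) (nat_lit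 2) (nat_lit 154) (nat_lit 155) (nat_lit 81)) (PT.nd (nat_lit 78) (PT.lf (nat_lit 1064) (nat_lit 3) (nat_lit 14) (nat_lit 0) (nat_lit 155) (nat_lit 155) (nat_lit 80)) (PT.lf (nat_lit 912) (nat_lit 6) (nat_lit 12) (nat_lit 0) (nat_lit 156) (nat_lit 155) (nat_lit 79)))) (PT.nd (nat_lit 34320) (PT.lf (nat_lit 760) (nat_lit 6) (nat_lit 10) (nat_lit 0) (nat_lit 157) (nat_lit 155) (nat_lit 78)) (PT.nd (nat_lit 78) (PT.lf (nat_lit 532) (nat_lit 6) (nat_lit 7) (nat_lit 5) (nat_lit 76) (nat_lit 156) (nat_lit 158)) (PT.lf (nat_lit 684) (nat_lit 6) (nat_lit 9) (nat_lit 5) (nat_lit 77) (nat_lit 156) (nat_lit 157)))))) (PT.nd (nat_lit 6006) (PT.nd (nat_lit 234) (PT.nd (nat_lit 78) (PT.lf (nat_lit 836) (nat_lit 3) (nat_lit 11) (nat_lit 4) (nat_lit 78) (nat_lit 156) (nat_lit 156)) (PT.nd (nat_lit 78) (PT.lf (nat_lit 912) (nat_lit 6) (nat_lit 12) (nat_lit 4) (nat_lit 79) (nat_lit 156) (nat_lit 155)) (PT.lf (nat_lit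 988) (nat_lit 6) (nat_lit 13) (nat_lit 4) (nat_lit 80) (nat_lit 156) (nat_lit 154)))) (PT.nd (nat_lit 5616) (PT.lf (nat_lit 1140) (nat_lit 6) (nat_lit 15) (nat_lit 4) (nat_lit 81) (nat_lit 156) (nat_lit 153)) (PT.nd (nat_lit 78) (PT.lf (nat_lit 1140) (nat_lit 6) (nat_lit 15) (nat_lit 2) (nat_lit 153) (nat_lit 156) (nat_lit 81)) (PT.lf (nat_lit 988) (nat_lit 6) (nat_lit 13) (nat_lit 2) (nat_lit 154) (nat_lit 156) (nat_lit 80))))) (PT.nd (nat_lit 234) (PT.nd (nat_lit 78) (PT.lf (nat_lit 912) (nat_lit 6) (nat_lit 12) (nat_lit 2) (nat_lit 155) (nat_lit 156) (nat_lit 79)) (PT.nd (nat_lit 78) (PT.lf (nat_lit 836) (nat_lit 3) (nat_lit 11) (nat_lit 0) (nat_lit 156) (nat_lit 156) (nat_lit 78)) (PT.lf (nat_lit 684) (nat_lit 6) (nat_lit 9) (nat_lit 0) (nat_lit 157) (nat_lit 156) (nat_lit 77)))) (PT.nd (nat_lit 34164) (PT.nd (nat_lit 34086) (PT.lf (nat_lit 532) (nat_lit 6) (nat_lit 7) (nat_lit 0) (nat_lit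 158) (nat_lit 156) (nat_lit 76)) (PT.lf (nat_lit 304) (nat_lit 6) (nat_lit 4) (nat_lit 5) (nat_lit 74) (nat_lit 157) (nat_lit 159))) (PT.nd (nat_lit 78) (PT.lf (nat_lit 456) (nat_lit 6) (nat_lit 6) (nat_lit 5) (nat_lit 75) (nat_lit 157) (nat_lit 158)) (PT.lf (nat_lit 608) (nat_lit 3) (nat_lit 8) (nat_lit 4) (nat_lit 76) (nat_lit 157) (nat_lit 157))))))) (PT.nd (nat_lit 46878) (PT.nd (nat_lit 6396) (PT.nd (nat_lit 6162) (PT.nd (nat_lit 78) (PT.lf (nat_lit 684) (nat_lit 6) (nat_lit 9) (nat_lit 4) (nat_lit 77) (nat_lit 157) (nat_lit 156)) (PT.nd (nat_lit 6006) (PT.lf (nat_lit 760) (nat_lit 6) (nat_lit 10) (nat_lit 4) (nat_lit 78) (nat_lit 157) (nat_lit 155)) (PT.lf (nat_lit 760) (nat_lit 6) (nat_lit 10) (nat_lit 2) (nat_lit 155) (nat_lit 157) (nat_lit 78)))) (PT.nd (nat_lit 78) (PT.lf (nat_lit 684) (nat_lit 6) (nat_lit 9) (nat_lit 2) (nat_lit 156) (nat_lit 157) (nat_lit 77)) (PT.nd (nat_lit 78) (PT.lf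 (nat_lit 608) (nat_lit 3) (nat_lit 8) (nat_lit 0) (nat_lit 157) (nat_lit 157) (nat_lit 76)) (PT.lf (nat_lit 456) (nat_lit 6) (nat_lit 6) (nat_lit 0) (nat_lit 158) (nat_lit 157) (nat_lit 75))))) (PT.nd (nat_lit 34086) (PT.nd (nat_lit 33930) (PT.lf (nat_lit 304) (nat_lit 6) (nat_lit 4) (nat_lit 0) (nat_lit 159) (nat_lit 157) (nat_lit 74)) (PT.nd (nat_lit 78) (PT.lf (nat_lit 228) (nat_lit 6) (nat_lit 3) (nat_lit 5) (nat_lit 73) (nat_lit 158) (nat_lit 159)) (PT.lf (nat_lit 380) (nat_lit 3) (nat_lit 5) (nat_lit 4) (nat_lit 74) (nat_lit 158) (nat_lit 158)))) (PT.nd (nat_lit 78) (PT.lf (nat_lit 456) (nat_lit 6) (nat_lit 6) (nat_lit 4) (nat_lit 75) (nat_lit 158) (nat_lit 157)) (PT.nd (nat_lit 6240) (PT.lf (nat_lit 532) (nat_lit 6) (nat_lit 7) (nat_lit 4) (nat_lit 76) (nat_lit 158) (nat_lit 156)) (PT.lf (nat_lit 532) (nat_lit 6) (nat_lit 7) (nat_lit 2) (nat_lit 156) (nat_lit 158) (nat_lit 76)))))) (PT.nd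 (nat_lit 34164) (PT.nd (nat_lit 33930) (PT.nd (nat_lit 78) (PT.lf (nat_lit 456) (nat_lit 6) (nat_lit 6) (nat_lit 2) (nat_lit 157) (nat_lit 158) (nat_lit 75)) (PT.nd (nat_lit 78) (PT.lf (nat_lit 380) (nat_lit 3) (nat_lit 5) (nat_lit 0) (nat_lit 158) (nat_lit 158) (nat_lit 74)) (PT.lf (nat_lit 228) (nat_lit 6) (nat_lit 3) (nat_lit 0) (nat_lit 159) (nat_lit 158) (nat_lit 73)))) (PT.nd (nat_lit 78) (PT.lf (nat_lit 76) (nat_lit 6) (nat_lit 1) (nat_lit 5) (nat_lit 71) (nat_lit 159) (nat_lit 160)) (PT.nd (nat_lit 78) (PT.lf (nat_lit 152) (nat_lit 3) (nat_lit 2) (nat_lit 4) (nat_lit 72) (nat_lit 159) (nat_lit 159)) (PT.lf (nat_lit 228) (nat_lit 6) (nat_lit 3) (nat_lit 4) (nat_lit 73) (nat_lit 159) (nat_lit 158))))) (PT.nd (nat_lit 6630) (PT.nd (nat_lit 6474) (PT.lf (nat_lit 304) (nat_lit 6) (nat_lit 4) (nat_lit 4) (nat_lit 74) (nat_lit 159) (nat_lit 157)) (PT.nd (nat_lit 78) (PT.lf (nat_lit 304) (nat_lit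 6) (nat_lit 4) (nat_lit 2) (nat_lit 157) (nat_lit 159) (nat_lit 74)) (PT.lf (nat_lit 228) (nat_lit 6) (nat_lit 3) (nat_lit 2) (nat_lit 158) (nat_lit 159) (nat_lit 73)))) (PT.nd (nat_lit 33774) (PT.nd (nat_lit 78) (PT.lf (nat_lit 152) (nat_lit 3) (nat_lit 2) (nat_lit 0) (nat_lit 159) (nat_lit 159) (nat_lit 72)) (PT.lf (nat_lit 76) (nat_lit 6) (nat_lit 1) (nat_lit 0) (nat_lit 160) (nat_lit 159) (nat_lit 71))) (PT.nd (nat_lit 6864) (PT.lf (nat_lit 76) (nat_lit 6) (nat_lit 1) (nat_lit 4) (nat_lit 71) (nat_lit 160) (nat_lit 159)) (PT.lf (nat_lit 76) (nat_lit 6) (nat_lit 1) (nat_lit 2) (nat_lit 159) (nat_lit 160) (nat_lit 71))))))))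
noncomputable def xc0 : XT := (XT.nd (nat_lit 161850) (nat_lit 0) (nat_lit 0) (XT.nd (nat_lit 81198) (nat_lit 0) (nat_lit 0) (XT.nd (nat_lit 40638) (nat_lit 0) (nat_lit 0) (XT.nd (nat_lit 40404) (nat_lit 0) (nat_lit 0) (XT.nd (nat_lit 78) (nat_lit 0) (nat_lit 0) (XT.lf (nat_lit 0) (nat_lit 9574990307) (nat_lit 76) (nat_lit 41073386497) (nat_lit 76) (nat_lit 40924214034) (nat_lit 2) (nat_lit 4) (nat_lit 3) (nat_lit 5) (nat_lit 3) (nat_lit 4) (nat_lit 403) (nat_lit 189) (nat_lit 188)) (XT.lf (nat_lit 0) (nat_lit 13770854132) (nat_lit 76) (nat_lit 40388723041) (nat_lit 76) (nat_lit 40094722944) (nat_lit 2) (nat_lit 4) (nat_lit 3) (nat_lit 5) (nat_lit 3) (nat_lit 4) (nat_lit 404) (nat_lit 189) (nat_lit 187))) (XT.nd (nat_lit 78) (nat_lit 76) (nat_lit 0) (XT.lf (nat_lit 0) (nat_lit 20335926272) (nat_lit 152) (nat_lit 1324719327) (nat_lit 0) (nat_lit 20335926272) (nat_lit 3) (nat_lit 5) (nat_lit 5) (nat_lit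 4) (nat_lit 3) (nat_lit 4) (nat_lit 400) (nat_lit 190) (nat_lit 190)) (XT.nd (nat_lit 78) (nat_lit 0) (nat_lit 0) (XT.lf (nat_lit 0) (nat_lit 1321961592) (nat_lit 76) (nat_lit 42638332801) (nat_lit 76) (nat_lit 42484685164) (nat_lit 2) (nat_lit 4) (nat_lit 3) (nat_lit 5) (nat_lit 3) (nat_lit 4) (nat_lit 401) (nat_lit 190) (nat_lit 189)) (XT.lf (nat_lit 0) (nat_lit 5387492979) (nat_lit 76) (nat_lit 41943111783) (nat_lit 76) (nat_lit 41640291683) (nat_lit 2) (nat_lit 4) (nat_lit 3) (nat_lit 5) (nat_lit 3) (nat_lit 4) (nat_lit 402) (nat_lit 190) (nat_lit 188))))) (XT.nd (nat_lit 40326) (nat_lit 0) (nat_lit 0) (XT.nd (nat_lit 78) (nat_lit 0) (nat_lit 0) (XT.lf (nat_lit 0) (nat_lit 9497978887) (nat_lit 76) (nat_lit 41261774805) (nat_lit 76) (nat_lit 40814127071) (nat_lit 2) (nat_lit 4) (nat_lit 3) (nat_lit 5) (nat_lit 3) (nat_lit 4) (nat_lit 403) (nat_lit 190) (nat_lit 187)) (XT.nd (nat_lit 40170) (nat_lit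 0) (nat_lit 76) (XT.lf (nat_lit 0) (nat_lit 13657011002) (nat_lit 76) (nat_lit 40593726525) (nat_lit 76) (nat_lit 40005469438) (nat_lit 2) (nat_lit 4) (nat_lit 3) (nat_lit 5) (nat_lit 3) (nat_lit 4) (nat_lit 404) (nat_lit 190) (nat_lit 186)) (XT.lf (nat_lit 0) (nat_lit 17228040042) (nat_lit 152) (nat_lit 5195988283) (nat_lit 0) (nat_lit 17228040042) (nat_lit 3) (nat_lit 5) (nat_lit 5) (nat_lit 4) (nat_lit 3) (nat_lit 4) (nat_lit 398) (nat_lit 191) (nat_lit 191)))) (XT.nd (nat_lit 78) (nat_lit 76) (nat_lit 0) (XT.lf (nat_lit 0) (nat_lit 37607008620) (nat_lit 152) (nat_lit 6557896074) (nat_lit 0) (nat_lit 37448751554) (nat_lit 3) (nat_lit 5) (nat_lit 5) (nat_lit 4) (nat_lit 3) (nat_lit 4) (nat_lit 399) (nat_lit 191) (nat_lit 190)) (XT.nd (nat_lit 78) (nat_lit 76) (nat_lit 0) (XT.lf (nat_lit 0) (nat_lit 40808405338) (nat_lit 152) (nat_lit 2688900293) (nat_lit 0) (nat_lit 40496500634) (nat_lit 3) (nat_lit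 5) (nat_lit 5) (nat_lit 4) (nat_lit 3) (nat_lit 4) (nat_lit 400) (nat_lit 191) (nat_lit 189)) (XT.lf (nat_lit 0) (nat_lit 1242639829) (nat_lit 76) (nat_lit 42832372758) (nat_lit 76) (nat_lit 42371295592) (nat_lit 2) (nat_lit 4) (nat_lit 3) (nat_lit 5) (nat_lit 3) (nat_lit 4) (nat_lit 401) (nat_lit 191) (nat_lit 188)))))) (XT.nd (nat_lit 40404) (nat_lit 0) (nat_lit 0) (XT.nd (nat_lit 40170) (nat_lit 0) (nat_lit 76) (XT.nd (nat_lit 78) (nat_lit 0) (nat_lit 0) (XT.lf (nat_lit 0) (nat_lit 5270234556) (nat_lit 76) (nat_lit 42154265371) (nat_lit 76) (nat_lit 41548360571) (nat_lit 2) (nat_lit 4) (nat_lit 3) (nat_lit 5) (nat_lit 3) (nat_lit 4) (nat_lit 402) (nat_lit 191) (nat_lit 187)) (XT.nd (nat_lit 78) (nat_lit 0) (nat_lit 0) (XT.lf (nat_lit 0) (nat_lit 9343888754) (nat_lit 76) (nat_lit 41489543570) (nat_lit 76) (nat_lit 40743029416) (nat_lit 2) (nat_lit 4) (nat_lit 3) (nat_lit 5) (nat_lit 3) (nat_lit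 4) (nat_lit 403) (nat_lit 191) (nat_lit 186)) (XT.lf (nat_lit 0) (nat_lit 13467161929) (nat_lit 76) (nat_lit 40837626529) (nat_lit 76) (nat_lit 39954598439) (nat_lit 2) (nat_lit 4) (nat_lit 3) (nat_lit 5) (nat_lit 3) (nat_lit 4) (nat_lit 404) (nat_lit 191) (nat_lit 185)))) (XT.nd (nat_lit 78) (nat_lit 0) (nat_lit 0) (XT.lf (nat_lit 0) (nat_lit 14240343570) (nat_lit 152) (nat_lit 8963449962) (nat_lit 0) (nat_lit 14240343570) (nat_lit 3) (nat_lit 5) (nat_lit 5) (nat_lit 4) (nat_lit 3) (nat_lit 4) (nat_lit 396) (nat_lit 192) (nat_lit 192)) (XT.nd (nat_lit 78) (nat_lit 0) (nat_lit 0) (XT.lf (nat_lit 0) (nat_lit 31515871272) (nat_lit 152) (nat_lit 14194491939) (nat_lit 0) (nat_lit 31352866493) (nat_lit 3) (nat_lit 5) (nat_lit 5) (nat_lit 4) (nat_lit 3) (nat_lit 4) (nat_lit 397) (nat_lit 192) (nat_lit 191)) (XT.lf (nat_lit 0) (nat_lit 34596729462) (nat_lit 152) (nat_lit 10432622055) (nat_lit 0) (nat_lit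 34275467618) (nat_lit 3) (nat_lit 5) (nat_lit 5) (nat_lit 4) (nat_lit 3) (nat_lit 4) (nat_lit 398) (nat_lit 192) (nat_lit 190))))) (XT.nd (nat_lit 234) (nat_lit 0) (nat_lit 0) (XT.nd (nat_lit 78) (nat_lit 76) (nat_lit 0) (XT.lf (nat_lit 0) (nat_lit 37725953724) (nat_lit 152) (nat_lit 6638003201) (nat_lit 0) (nat_lit 37251044243) (nat_lit 3) (nat_lit 5) (nat_lit 5) (nat_lit 4) (nat_lit 3) (nat_lit 4) (nat_lit 399) (nat_lit 192) (nat_lit 189)) (XT.nd (nat_lit 78) (nat_lit 76) (nat_lit 0) (XT.lf (nat_lit 0) (nat_lit 40906278332) (nat_lit 152) (nat_lit 2807319691) (nat_lit 0) (nat_lit 40282196388) (nat_lit 3) (nat_lit 5) (nat_lit 5) (nat_lit 4) (nat_lit 3) (nat_lit 4) (nat_lit 400) (nat_lit 192) (nat_lit 188)) (XT.lf (nat_lit 0) (nat_lit 1083926993) (nat_lit 76) (nat_lit 43066974585) (nat_lit 76) (nat_lit 42298065007) (nat_lit 2) (nat_lit 4) (nat_lit 3) (nat_lit 5) (nat_lit 3) (nat_lit 4) (nat_lit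 401) (nat_lit 192) (nat_lit 187)))) (XT.nd (nat_lit 78) (nat_lit 0) (nat_lit 0) (XT.lf (nat_lit 0) (nat_lit 5074690010) (nat_lit 76) (nat_lit 42405482374) (nat_lit 76) (nat_lit 41495963443) (nat_lit 2) (nat_lit 4) (nat_lit 3) (nat_lit 5) (nat_lit 3) (nat_lit 4) (nat_lit 402) (nat_lit 192) (nat_lit 186)) (XT.nd (nat_lit 78) (nat_lit 0) (nat_lit 0) (XT.lf (nat_lit 0) (nat_lit 9112585268) (nat_lit 76) (nat_lit 41756891811) (nat_lit 76) (nat_lit 40710858944) (nat_lit 2) (nat_lit 4) (nat_lit 3) (nat_lit 5) (nat_lit 3) (nat_lit 4) (nat_lit 403) (nat_lit 192) (nat_lit 185)) (XT.lf (nat_lit 0) (nat_lit 13201141024) (nat_lit 76) (nat_lit 41120636167) (nat_lit 76) (nat_lit 39942065498) (nat_lit 2) (nat_lit 4) (nat_lit 3) (nat_lit 5) (nat_lit 3) (nat_lit 4) (nat_lit 404) (nat_lit 192) (nat_lit 184))))))) (XT.nd (nat_lit 40560) (nat_lit 0) (nat_lit 0) (XT.nd (nat_lit 468) (nat_lit 76) (nat_lit 0) (XT.nd (nat_lit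 234) (nat_lit 0) (nat_lit 0) (XT.nd (nat_lit 78) (nat_lit 0) (nat_lit 0) (XT.lf (nat_lit 0) (nat_lit 11364191003) (nat_lit 152) (nat_lit 12636615909) (nat_lit 0) (nat_lit 11364191003) (nat_lit 3) (nat_lit 5) (nat_lit 5) (nat_lit 4) (nat_lit 3) (nat_lit 4) (nat_lit 394) (nat_lit 193) (nat_lit 193)) (XT.nd (nat_lit 78) (nat_lit 0) (nat_lit 0) (XT.lf (nat_lit 0) (nat_lit 25656419888) (nat_lit 152) (nat_lit 21633107340) (nat_lit 0) (nat_lit 25488524967) (nat_lit 3) (nat_lit 5) (nat_lit 5) (nat_lit 4) (nat_lit 3) (nat_lit 4) (nat_lit 395) (nat_lit 193) (nat_lit 192)) (XT.lf (nat_lit 0) (nat_lit 28625555999) (nat_lit 152) (nat_lit 17968764778) (nat_lit 0) (nat_lit 28294656299) (nat_lit 3) (nat_lit 5) (nat_lit 5) (nat_lit 4) (nat_lit 3) (nat_lit 4) (nat_lit 396) (nat_lit 193) (nat_lit 191)))) (XT.nd (nat_lit 78) (nat_lit 0) (nat_lit 0) (XT.lf (nat_lit 0) (nat_lit 31638384729) (nat_lit 152) (nat_lit 14277002280)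 (nat_lit 0) (nat_lit 31149227963) (nat_lit 3) (nat_lit 5) (nat_lit 5) (nat_lit 4) (nat_lit 3) (nat_lit 4) (nat_lit 397) (nat_lit 193) (nat_lit 190)) (XT.nd (nat_lit 78) (nat_lit 0) (nat_lit 0) (XT.lf (nat_lit 0) (nat_lit 34697538646) (nat_lit 152) (nat_lit 10554594035) (nat_lit 0) (nat_lit 34054734244) (nat_lit 3) (nat_lit 5) (nat_lit 5) (nat_lit 4) (nat_lit 3) (nat_lit 4) (nat_lit 398) (nat_lit 193) (nat_lit 189)) (XT.lf (nat_lit 0) (nat_lit 37805690799) (nat_lit 152) (nat_lit 6798287451) (nat_lit 0) (nat_lit 37013713933) (nat_lit 3) (nat_lit 5) (nat_lit 5) (nat_lit 4) (nat_lit 3) (nat_lit 4) (nat_lit 399) (nat_lit 193) (nat_lit 188))))) (XT.nd (nat_lit 234) (nat_lit 0) (nat_lit 0) (XT.nd (nat_lit 78) (nat_lit 76) (nat_lit 0) (XT.lf (nat_lit 0) (nat_lit 40965557048) (nat_lit 152) (nat_lit 3004800321) (nat_lit 0) (nat_lit 40028752548) (nat_lit 3) (nat_lit 5) (nat_lit 5) (nat_lit 4) (nat_lit 3)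 (nat_lit 4) (nat_lit 400) (nat_lit 193) (nat_lit 187)) (XT.nd (nat_lit 78) (nat_lit 0) (nat_lit 0) (XT.lf (nat_lit 0) (nat_lit 845684402) (nat_lit 76) (nat_lit 43342343275) (nat_lit 76) (nat_lit 42264929421) (nat_lit 2) (nat_lit 4) (nat_lit 3) (nat_lit 5) (nat_lit 3) (nat_lit 4) (nat_lit 401) (nat_lit 193) (nat_lit 186)) (XT.lf (nat_lit 0) (nat_lit 4800688478) (nat_lit 76) (nat_lit 42696982302) (nat_lit 76) (nat_lit 41483054513) (nat_lit 2) (nat_lit 4) (nat_lit 3) (nat_lit 5) (nat_lit 3) (nat_lit 4) (nat_lit 402) (nat_lit 193) (nat_lit 185)))) (XT.nd (nat_lit 78) (nat_lit 0) (nat_lit 0) (XT.lf (nat_lit 0) (nat_lit 8803866318) (nat_lit 76) (nat_lit 42064053136) (nat_lit 76) (nat_lit 40717587546) (nat_lit 2) (nat_lit 4) (nat_lit 3) (nat_lit 5) (nat_lit 3) (nat_lit 4) (nat_lit 403) (nat_lit 193) (nat_lit 184)) (XT.nd (nat_lit 39702) (nat_lit 0) (nat_lit 76) (XT.lf (nat_lit 0) (nat_lit 12858715843)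 (nat_lit 76) (nat_lit 41443002731) (nat_lit 76) (nat_lit 39967859664) (nat_lit 2) (nat_lit 4) (nat_lit 3) (nat_lit 5) (nat_lit 3) (nat_lit 4) (nat_lit 404) (nat_lit 193) (nat_lit 183)) (XT.lf (nat_lit 0) (nat_lit 8591380401) (nat_lit 152) (nat_lit 16224558243) (nat_lit 0) (nat_lit 8591380401) (nat_lit 3) (nat_lit 5) (nat_lit 5) (nat_lit 4) (nat_lit 3) (nat_lit 4) (nat_lit 392) (nat_lit 194) (nat_lit 194)))))) (XT.nd (nat_lit 468) (nat_lit 76) (nat_lit 0) (XT.nd (nat_lit 234) (nat_lit 0) (nat_lit 0) (XT.nd (nat_lit 78) (nat_lit 0) (nat_lit 0) (XT.lf (nat_lit 0) (nat_lit 20011815641) (nat_lit 152) (nat_lit 28892318905) (nat_lit 0) (nat_lit 19838883872) (nat_lit 3) (nat_lit 5) (nat_lit 5) (nat_lit 4) (nat_lit 3) (nat_lit 4) (nat_lit 393) (nat_lit 194) (nat_lit 193)) (XT.nd (nat_lit 78) (nat_lit 0) (nat_lit 0) (XT.lf (nat_lit 0) (nat_lit 22877596930) (nat_lit 152) (nat_lit 25316352617) (nat_lit 0)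 (nat_lit 22536770240) (nat_lit 3) (nat_lit 5) (nat_lit 5) (nat_lit 4) (nat_lit 3) (nat_lit 4) (nat_lit 394) (nat_lit 194) (nat_lit 192)) (XT.lf (nat_lit 0) (nat_lit 25782608749) (nat_lit 152) (nat_lit 21718092991) (nat_lit 0) (nat_lit 25278777281) (nat_lit 3) (nat_lit 5) (nat_lit 5) (nat_lit 4) (nat_lit 3) (nat_lit 4) (nat_lit 395) (nat_lit 194) (nat_lit 191)))) (XT.nd (nat_lit 78) (nat_lit 0) (nat_lit 0) (XT.lf (nat_lit 0) (nat_lit 28729389459) (nat_lit 152) (nat_lit 18094395917) (nat_lit 0) (nat_lit 28067300924) (nat_lit 3) (nat_lit 5) (nat_lit 5) (nat_lit 4) (nat_lit 3) (nat_lit 4) (nat_lit 396) (nat_lit 194) (nat_lit 190)) (XT.nd (nat_lit 78) (nat_lit 0) (nat_lit 0) (XT.lf (nat_lit 0) (nat_lit 31720513916) (nat_lit 152) (nat_lit 14442095058) (nat_lit 0) (nat_lit 30904777744) (nat_lit 3) (nat_lit 5) (nat_lit 5) (nat_lit 4) (nat_lit 3) (nat_lit 4) (nat_lit 397) (nat_lit 194) (nat_lit 189)) (XT.lf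 (nat_lit 0) (nat_lit 34758595724) (nat_lit 152) (nat_lit 10757999084) (nat_lit 0) (nat_lit 33793687089) (nat_lit 3) (nat_lit 5) (nat_lit 5) (nat_lit 4) (nat_lit 3) (nat_lit 4) (nat_lit 398) (nat_lit 194) (nat_lit 188))))) (XT.nd (nat_lit 234) (nat_lit 0) (nat_lit 0) (XT.nd (nat_lit 78) (nat_lit 76) (nat_lit 0) (XT.lf (nat_lit 0) (nat_lit 37846289518) (nat_lit 152) (nat_lit 7038888880) (nat_lit 0) (nat_lit 36736553249) (nat_lit 3) (nat_lit 5) (nat_lit 5) (nat_lit 4) (nat_lit 3) (nat_lit 4) (nat_lit 399) (nat_lit 194) (nat_lit 187)) (XT.nd (nat_lit 78) (nat_lit 76) (nat_lit 0) (XT.lf (nat_lit 0) (nat_lit 40986293282) (nat_lit 152) (nat_lit 3281514739) (nat_lit 0) (nat_lit 39735947660) (nat_lit 3) (nat_lit 5) (nat_lit 5) (nat_lit 4) (nat_lit 3) (nat_lit 4) (nat_lit 400) (nat_lit 194) (nat_lit 186)) (XT.lf (nat_lit 0) (nat_lit 527703883) (nat_lit 76) (nat_lit 43658719439) (nat_lit 76) (nat_lit 42271859881)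 (nat_lit 2) (nat_lit 4) (nat_lit 3) (nat_lit 5) (nat_lit 3) (nat_lit 4) (nat_lit 401) (nat_lit 194) (nat_lit 185)))) (XT.nd (nat_lit 78) (nat_lit 0) (nat_lit 0) (XT.lf (nat_lit 0) (nat_lit 4447990541) (nat_lit 76) (nat_lit 43029019863) (nat_lit 76) (nat_lit 41509622504) (nat_lit 2) (nat_lit 4) (nat_lit 3) (nat_lit 5) (nat_lit 3) (nat_lit 4) (nat_lit 402) (nat_lit 194) (nat_lit 184)) (XT.nd (nat_lit 78) (nat_lit 0) (nat_lit 0) (XT.lf (nat_lit 0) (nat_lit 8417462149) (nat_lit 76) (nat_lit 42411295937) (nat_lit 76) (nat_lit 40763221100) (nat_lit 2) (nat_lit 4) (nat_lit 3) (nat_lit 5) (nat_lit 3) (nat_lit 4) (nat_lit 403) (nat_lit 194) (nat_lit 183)) (XT.lf (nat_lit 0) (nat_lit 12439587178) (nat_lit 76) (nat_lit 41805007900) (nat_lit 76) (nat_lit 40032003475) (nat_lit 2) (nat_lit 4) (nat_lit 3) (nat_lit 5) (nat_lit 3) (nat_lit 4) (nat_lit 404) (nat_lit 194) (nat_lit 182))))))))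
noncomputable def xc1 : XT := (XT.nd (nat_lit 41106) (nat_lit 0) (nat_lit 0) (XT.nd (nat_lit 858) (nat_lit 76) (nat_lit 0) (XT.nd (nat_lit 390) (nat_lit 0) (nat_lit 0) (XT.nd (nat_lit 156) (nat_lit 0) (nat_lit 0) (XT.nd (nat_lit 78) (nat_lit 0) (nat_lit 0) (XT.lf (nat_lit 0) (nat_lit 5914126685) (nat_lit 152) (nat_lit 19735938083) (nat_lit 0) (nat_lit 5914126685) (nat_lit 3) (nat_lit 5) (nat_lit 5) (nat_lit 4) (nat_lit 3) (nat_lit 4) (nat_lit 390) (nat_lit 195) (nat_lit 195)) (XT.lf (nat_lit 0) (nat_lit 14566080146) (nat_lit 152) (nat_lit 35989853243) (nat_lit 0) (nat_lit 14387960424) (nat_lit 3) (nat_lit 5) (nat_lit 5) (nat_lit 4) (nat_lit 3) (nat_lit 4) (nat_lit 391) (nat_lit 195) (nat_lit 194))) (XT.nd (nat_lit 78) (nat_lit 0) (nat_lit 0) (XT.lf (nat_lit 0) (nat_lit 17336452174) (nat_lit 152) (nat_lit 32493530909) (nat_lit 0) (nat_lit 16985400683) (nat_lit 3) (nat_lit 5) (nat_lit 5) (nat_lit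 4) (nat_lit 3) (nat_lit 4) (nat_lit 392) (nat_lit 195) (nat_lit 193)) (XT.nd (nat_lit 78) (nat_lit 0) (nat_lit 0) (XT.lf (nat_lit 0) (nat_lit 20141790168) (nat_lit 152) (nat_lit 28979854126) (nat_lit 0) (nat_lit 19622843756) (nat_lit 3) (nat_lit 5) (nat_lit 5) (nat_lit 4) (nat_lit 3) (nat_lit 4) (nat_lit 393) (nat_lit 195) (nat_lit 192)) (XT.lf (nat_lit 0) (nat_lit 22984545394) (nat_lit 152) (nat_lit 25445752690) (nat_lit 0) (nat_lit 22302594203) (nat_lit 3) (nat_lit 5) (nat_lit 5) (nat_lit 4) (nat_lit 3) (nat_lit 4) (nat_lit 394) (nat_lit 195) (nat_lit 191))))) (XT.nd (nat_lit 234) (nat_lit 0) (nat_lit 0) (XT.nd (nat_lit 78) (nat_lit 0) (nat_lit 0) (XT.lf (nat_lit 0) (nat_lit 25867201812) (nat_lit 152) (nat_lit 21888138553) (nat_lit 0) (nat_lit 25026993555) (nat_lit 3) (nat_lit 5) (nat_lit 5) (nat_lit 4) (nat_lit 3) (nat_lit 4) (nat_lit 395) (nat_lit 195) (nat_lit 190)) (XT.nd (nat_lit 78) (nat_lit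 0) (nat_lit 0) (XT.lf (nat_lit 0) (nat_lit 28792278249) (nat_lit 152) (nat_lit 18303903118) (nat_lit 0) (nat_lit 27798422355) (nat_lit 3) (nat_lit 5) (nat_lit 5) (nat_lit 4) (nat_lit 3) (nat_lit 4) (nat_lit 396) (nat_lit 195) (nat_lit 189)) (XT.lf (nat_lit 0) (nat_lit 31762330596) (nat_lit 152) (nat_lit 14689914530) (nat_lit 0) (nat_lit 30619302239) (nat_lit 3) (nat_lit 5) (nat_lit 5) (nat_lit 4) (nat_lit 3) (nat_lit 4) (nat_lit 397) (nat_lit 195) (nat_lit 188)))) (XT.nd (nat_lit 78) (nat_lit 0) (nat_lit 0) (XT.lf (nat_lit 0) (nat_lit 34779954045) (nat_lit 152) (nat_lit 11043014935) (nat_lit 0) (nat_lit 33492098054) (nat_lit 3) (nat_lit 5) (nat_lit 5) (nat_lit 4) (nat_lit 3) (nat_lit 4) (nat_lit 398) (nat_lit 195) (nat_lit 187)) (XT.nd (nat_lit 78) (nat_lit 0) (nat_lit 0) (XT.lf (nat_lit 0) (nat_lit 37847785354) (nat_lit 152) (nat_lit 7360017721) (nat_lit 0) (nat_lit 36419320010) (nat_lit 3) (nat_lit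 5) (nat_lit 5) (nat_lit 4) (nat_lit 3) (nat_lit 4) (nat_lit 399) (nat_lit 195) (nat_lit 186)) (XT.lf (nat_lit 0) (nat_lit 40968505154) (nat_lit 152) (nat_lit 3637704735) (nat_lit 0) (nat_lit 39403525874) (nat_lit 3) (nat_lit 5) (nat_lit 5) (nat_lit 4) (nat_lit 3) (nat_lit 4) (nat_lit 400) (nat_lit 195) (nat_lit 185)))))) (XT.nd (nat_lit 39780) (nat_lit 0) (nat_lit 76) (XT.nd (nat_lit 234) (nat_lit 0) (nat_lit 0) (XT.nd (nat_lit 78) (nat_lit 0) (nat_lit 0) (XT.lf (nat_lit 0) (nat_lit 129707590) (nat_lit 76) (nat_lit 44016379523) (nat_lit 76) (nat_lit 42318862442) (nat_lit 2) (nat_lit 4) (nat_lit 3) (nat_lit 5) (nat_lit 3) (nat_lit 4) (nat_lit 401) (nat_lit 195) (nat_lit 184)) (XT.nd (nat_lit 78) (nat_lit 0) (nat_lit 0) (XT.lf (nat_lit 0) (nat_lit 4016288016) (nat_lit 76) (nat_lit 43401885187) (nat_lit 76) (nat_lit 41575690629) (nat_lit 2) (nat_lit 4) (nat_lit 3) (nat_lit 5) (nat_lit 3) (nat_lit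 4) (nat_lit 402) (nat_lit 195) (nat_lit 183)) (XT.lf (nat_lit 0) (nat_lit 7953035128) (nat_lit 76) (nat_lit 42798923629) (nat_lit 76) (nat_lit 40847799482) (nat_lit 2) (nat_lit 4) (nat_lit 3) (nat_lit 5) (nat_lit 3) (nat_lit 4) (nat_lit 403) (nat_lit 195) (nat_lit 182)))) (XT.nd (nat_lit 39390) (nat_lit 0) (nat_lit 76) (XT.lf (nat_lit 0) (nat_lit 11943388801) (nat_lit 76) (nat_lit 42206967990) (nat_lit 76) (nat_lit 40134552978) (nat_lit 2) (nat_lit 4) (nat_lit 3) (nat_lit 5) (nat_lit 3) (nat_lit 4) (nat_lit 404) (nat_lit 195) (nat_lit 181)) (XT.nd (nat_lit 78) (nat_lit 0) (nat_lit 0) (XT.lf (nat_lit 0) (nat_lit 3325036084) (nat_lit 152) (nat_lit 23179032431) (nat_lit 0) (nat_lit 3325036084) (nat_lit 3) (nat_lit 5) (nat_lit 5) (nat_lit 4) (nat_lit 3) (nat_lit 4) (nat_lit 388) (nat_lit 196) (nat_lit 196)) (XT.lf (nat_lit 0) (nat_lit 9304042883) (nat_lit 152) (nat_lit 42942642224) (nat_lit 0) (nat_lit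 9120579570) (nat_lit 3) (nat_lit 5) (nat_lit 5) (nat_lit 4) (nat_lit 3) (nat_lit 4) (nat_lit 389) (nat_lit 196) (nat_lit 195))))) (XT.nd (nat_lit 234) (nat_lit 0) (nat_lit 0) (XT.nd (nat_lit 78) (nat_lit 0) (nat_lit 0) (XT.lf (nat_lit 0) (nat_lit 11986555483) (nat_lit 152) (nat_lit 39517623022) (nat_lit 0) (nat_lit 11624972447) (nat_lit 3) (nat_lit 5) (nat_lit 5) (nat_lit 4) (nat_lit 3) (nat_lit 4) (nat_lit 390) (nat_lit 196) (nat_lit 194)) (XT.nd (nat_lit 78) (nat_lit 0) (nat_lit 0) (XT.lf (nat_lit 0) (nat_lit 14699953909) (nat_lit 152) (nat_lit 36080014520) (nat_lit 0) (nat_lit 14165439104) (nat_lit 3) (nat_lit 5) (nat_lit 5) (nat_lit 4) (nat_lit 3) (nat_lit 4) (nat_lit 391) (nat_lit 196) (nat_lit 193)) (XT.lf (nat_lit 0) (nat_lit 17446609092) (nat_lit 152) (nat_lit 32626812985) (nat_lit 0) (nat_lit 16744199365) (nat_lit 3) (nat_lit 5) (nat_lit 5) (nat_lit 4) (nat_lit 3) (nat_lit 4) (nat_lit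 392) (nat_lit 196) (nat_lit 192)))) (XT.nd (nat_lit 78) (nat_lit 0) (nat_lit 0) (XT.lf (nat_lit 0) (nat_lit 20228921023) (nat_lit 152) (nat_lit 29155001054) (nat_lit 0) (nat_lit 19363506518) (nat_lit 3) (nat_lit 5) (nat_lit 5) (nat_lit 4) (nat_lit 3) (nat_lit 4) (nat_lit 393) (nat_lit 196) (nat_lit 191)) (XT.nd (nat_lit 78) (nat_lit 0) (nat_lit 0) (XT.lf (nat_lit 0) (nat_lit 23049320847) (nat_lit 152) (nat_lit 25661545107) (nat_lit 0) (nat_lit 22025649276) (nat_lit 3) (nat_lit 5) (nat_lit 5) (nat_lit 4) (nat_lit 3) (nat_lit 4) (nat_lit 394) (nat_lit 196) (nat_lit 190)) (XT.lf (nat_lit 0) (nat_lit 25910272992) (nat_lit 152) (nat_lit 22143392608) (nat_lit 0) (nat_lit 24732953785) (nat_lit 3) (nat_lit 5) (nat_lit 5) (nat_lit 4) (nat_lit 3) (nat_lit 4) (nat_lit 395) (nat_lit 196) (nat_lit 189))))))) (XT.nd (nat_lit 40092) (nat_lit 0) (nat_lit 76) (XT.nd (nat_lit 468) (nat_lit 76) (nat_lit 0) (XT.nd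 (nat_lit 234) (nat_lit 0) (nat_lit 0) (XT.nd (nat_lit 78) (nat_lit 0) (nat_lit 0) (XT.lf (nat_lit 0) (nat_lit 28814277319) (nat_lit 152) (nat_lit 18597469444) (nat_lit 0) (nat_lit 27487785649) (nat_lit 3) (nat_lit 5) (nat_lit 5) (nat_lit 4) (nat_lit 3) (nat_lit 4) (nat_lit 396) (nat_lit 196) (nat_lit 188)) (XT.nd (nat_lit 78) (nat_lit 0) (nat_lit 0) (XT.lf (nat_lit 0) (nat_lit 31763871308) (nat_lit 152) (nat_lit 15020677236) (nat_lit 0) (nat_lit 30292552003) (nat_lit 3) (nat_lit 5) (nat_lit 5) (nat_lit 4) (nat_lit 3) (nat_lit 4) (nat_lit 397) (nat_lit 196) (nat_lit 187)) (XT.lf (nat_lit 0) (nat_lit 34761632273) (nat_lit 152) (nat_lit 11409890630) (nat_lit 0) (nat_lit 33149703614) (nat_lit 3) (nat_lit 5) (nat_lit 5) (nat_lit 4) (nat_lit 3) (nat_lit 4) (nat_lit 398) (nat_lit 196) (nat_lit 186)))) (XT.nd (nat_lit 78) (nat_lit 0) (nat_lit 0) (XT.lf (nat_lit 0) (nat_lit 37810179617) (nat_lit 152) (nat_lit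 7761954571) (nat_lit 0) (nat_lit 36061737023) (nat_lit 3) (nat_lit 5) (nat_lit 5) (nat_lit 4) (nat_lit 3) (nat_lit 4) (nat_lit 399) (nat_lit 196) (nat_lit 185)) (XT.nd (nat_lit 78) (nat_lit 0) (nat_lit 0) (XT.lf (nat_lit 0) (nat_lit 40912177120) (nat_lit 152) (nat_lit 4073681542) (nat_lit 0) (nat_lit 39031196724) (nat_lit 3) (nat_lit 5) (nat_lit 5) (nat_lit 4) (nat_lit 3) (nat_lit 4) (nat_lit 400) (nat_lit 196) (nat_lit 184)) (XT.lf (nat_lit 0) (nat_lit 44070335264) (nat_lit 152) (nat_lit 341848780) (nat_lit 0) (nat_lit 42060677392) (nat_lit 3) (nat_lit 5) (nat_lit 5) (nat_lit 4) (nat_lit 3) (nat_lit 4) (nat_lit 401) (nat_lit 196) (nat_lit 183))))) (XT.nd (nat_lit 39390) (nat_lit 0) (nat_lit 76) (XT.nd (nat_lit 78) (nat_lit 0) (nat_lit 0) (XT.lf (nat_lit 0) (nat_lit 3505203688) (nat_lit 76) (nat_lit 43815904079) (nat_lit 76) (nat_lit 41681316618) (nat_lit 2) (nat_lit 4) (nat_lit 3) (nat_lit 5)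 (nat_lit 3) (nat_lit 4) (nat_lit 402) (nat_lit 196) (nat_lit 182)) (XT.nd (nat_lit 78) (nat_lit 0) (nat_lit 0) (XT.lf (nat_lit 0) (nat_lit 7410179444) (nat_lit 76) (nat_lit 43227274918) (nat_lit 76) (nat_lit 40971396593) (nat_lit 2) (nat_lit 4) (nat_lit 3) (nat_lit 5) (nat_lit 3) (nat_lit 4) (nat_lit 403) (nat_lit 196) (nat_lit 181)) (XT.lf (nat_lit 0) (nat_lit 11369687140) (nat_lit 76) (nat_lit 42649234227) (nat_lit 76) (nat_lit 40275597782) (nat_lit 2) (nat_lit 4) (nat_lit 3) (nat_lit 5) (nat_lit 3) (nat_lit 4) (nat_lit 404) (nat_lit 196) (nat_lit 180)))) (XT.nd (nat_lit 78) (nat_lit 0) (nat_lit 0) (XT.lf (nat_lit 0) (nat_lit 817082009) (nat_lit 152) (nat_lit 26561759616) (nat_lit 0) (nat_lit 817082009) (nat_lit 3) (nat_lit 5) (nat_lit 5) (nat_lit 4) (nat_lit 3) (nat_lit 4) (nat_lit 386) (nat_lit 197) (nat_lit 197)) (XT.nd (nat_lit 78) (nat_lit 0) (nat_lit 0) (XT.lf (nat_lit 0) (nat_lit 4211291546)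 (nat_lit 152) (nat_lit 49766875288) (nat_lit 0) (nat_lit 4022324333) (nat_lit 3) (nat_lit 5) (nat_lit 5) (nat_lit 4) (nat_lit 3) (nat_lit 4) (nat_lit 387) (nat_lit 197) (nat_lit 196)) (XT.lf (nat_lit 0) (nat_lit 6813123344) (nat_lit 152) (nat_lit 46405184124) (nat_lit 0) (nat_lit 6440692817) (nat_lit 3) (nat_lit 5) (nat_lit 5) (nat_lit 4) (nat_lit 3) (nat_lit 4) (nat_lit 388) (nat_lit 197) (nat_lit 195)))))) (XT.nd (nat_lit 468) (nat_lit 0) (nat_lit 0) (XT.nd (nat_lit 234) (nat_lit 0) (nat_lit 0) (XT.nd (nat_lit 78) (nat_lit 0) (nat_lit 0) (XT.lf (nat_lit 0) (nat_lit 9441932859) (nat_lit 152) (nat_lit 43035508340) (nat_lit 0) (nat_lit 8891382610) (nat_lit 3) (nat_lit 5) (nat_lit 5) (nat_lit 4) (nat_lit 3) (nat_lit 4) (nat_lit 389) (nat_lit 197) (nat_lit 194)) (XT.nd (nat_lit 78) (nat_lit 0) (nat_lit 0) (XT.lf (nat_lit 0) (nat_lit 12100017108) (nat_lit 152) (nat_lit 39654903560) (nat_lit 0) (nat_lit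 11376535089) (nat_lit 3) (nat_lit 5) (nat_lit 5) (nat_lit 4) (nat_lit 3) (nat_lit 4) (nat_lit 390) (nat_lit 197) (nat_lit 193)) (XT.lf (nat_lit 0) (nat_lit 14789698689) (nat_lit 152) (nat_lit 36260415857) (nat_lit 0) (nat_lit 13898321749) (nat_lit 3) (nat_lit 5) (nat_lit 5) (nat_lit 4) (nat_lit 3) (nat_lit 4) (nat_lit 391) (nat_lit 197) (nat_lit 192)))) (XT.nd (nat_lit 78) (nat_lit 0) (nat_lit 0) (XT.lf (nat_lit 0) (nat_lit 17513327809) (nat_lit 152) (nat_lit 32849079174) (nat_lit 0) (nat_lit 16458946091) (nat_lit 3) (nat_lit 5) (nat_lit 5) (nat_lit 4) (nat_lit 3) (nat_lit 4) (nat_lit 392) (nat_lit 197) (nat_lit 191)) (XT.nd (nat_lit 78) (nat_lit 0) (nat_lit 0) (XT.lf (nat_lit 0) (nat_lit 20273284339) (nat_lit 152) (nat_lit 29417912732) (nat_lit 0) (nat_lit 19060645555) (nat_lit 3) (nat_lit 5) (nat_lit 5) (nat_lit 4) (nat_lit 3) (nat_lit 4) (nat_lit 393) (nat_lit 197) (nat_lit 190)) (XT.lf (nat_lit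 0) (nat_lit 23071979890) (nat_lit 152) (nat_lit 25963918423) (nat_lit 0) (nat_lit 21705693469) (nat_lit 3) (nat_lit 5) (nat_lit 5) (nat_lit 4) (nat_lit 3) (nat_lit 4) (nat_lit 394) (nat_lit 197) (nat_lit 189))))) (XT.nd (nat_lit 234) (nat_lit 0) (nat_lit 0) (XT.nd (nat_lit 78) (nat_lit 0) (nat_lit 0) (XT.lf (nat_lit 0) (nat_lit 25911859926) (nat_lit 152) (nat_lit 22484078195) (nat_lit 0) (nat_lit 24396401042) (nat_lit 3) (nat_lit 5) (nat_lit 5) (nat_lit 4) (nat_lit 3) (nat_lit 4) (nat_lit 395) (nat_lit 197) (nat_lit 188)) (XT.nd (nat_lit 78) (nat_lit 0) (nat_lit 0) (XT.lf (nat_lit 0) (nat_lit 28795405894) (nat_lit 152) (nat_lit 18975351411) (nat_lit 0) (nat_lit 27135119376) (nat_lit 3) (nat_lit 5) (nat_lit 5) (nat_lit 4) (nat_lit 3) (nat_lit 4) (nat_lit 396) (nat_lit 197) (nat_lit 187)) (XT.lf (nat_lit 0) (nat_lit 31725137398) (nat_lit 152) (nat_lit 15434672192) (nat_lit 0) (nat_lit 29924241526)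 (nat_lit 3) (nat_lit 5) (nat_lit 5) (nat_lit 4) (nat_lit 3) (nat_lit 4) (nat_lit 397) (nat_lit 197) (nat_lit 186)))) (XT.nd (nat_lit 78) (nat_lit 0) (nat_lit 0) (XT.lf (nat_lit 0) (nat_lit 34703614398) (nat_lit 152) (nat_lit 11858946742) (nat_lit 0) (nat_lit 32766204591) (nat_lit 3) (nat_lit 5) (nat_lit 5) (nat_lit 4) (nat_lit 3) (nat_lit 4) (nat_lit 398) (nat_lit 197) (nat_lit 185)) (XT.nd (nat_lit 78) (nat_lit 0) (nat_lit 0) (XT.lf (nat_lit 0) (nat_lit 37733439445) (nat_lit 152) (nat_lit 8245050639) (nat_lit 0) (nat_lit 35663491837) (nat_lit 3) (nat_lit 5) (nat_lit 5) (nat_lit 4) (nat_lit 3) (nat_lit 4) (nat_lit 399) (nat_lit 197) (nat_lit 184)) (XT.lf (nat_lit 0) (nat_lit 40817259961) (nat_lit 152) (nat_lit 4589826111) (nat_lit 0) (nat_lit 38618634876) (nat_lit 3) (nat_lit 5) (nat_lit 5) (nat_lit 4) (nat_lit 3) (nat_lit 4) (nat_lit 400) (nat_lit 197) (nat_lit 183))))))))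
noncomputable def xc2 : XT := (XT.nd (nat_lit 40794) (nat_lit 0) (nat_lit 0) (XT.nd (nat_lit 39858) (nat_lit 0) (nat_lit 0) (XT.nd (nat_lit 39390) (nat_lit 0) (nat_lit 76) (XT.nd (nat_lit 156) (nat_lit 0) (nat_lit 0) (XT.nd (nat_lit 78) (nat_lit 76) (nat_lit 0) (XT.lf (nat_lit 0) (nat_lit 43957770545) (nat_lit 152) (nat_lit 890079273) (nat_lit 0) (nat_lit 41634215871) (nat_lit 3) (nat_lit 5) (nat_lit 5) (nat_lit 4) (nat_lit 3) (nat_lit 4) (nat_lit 401) (nat_lit 197) (nat_lit 182)) (XT.lf (nat_lit 0) (nat_lit 2914290978) (nat_lit 76) (nat_lit 44271438303) (nat_lit 76) (nat_lit 41826592765) (nat_lit 2) (nat_lit 4) (nat_lit 3) (nat_lit 5) (nat_lit 3) (nat_lit 4) (nat_lit 402) (nat_lit 197) (nat_lit 181))) (XT.nd (nat_lit 78) (nat_lit 0) (nat_lit 0) (XT.lf (nat_lit 0) (nat_lit 6788420757) (nat_lit 76) (nat_lit 43696724090) (nat_lit 76) (nat_lit 41134120432) (nat_lit 2) (nat_lit 4) (nat_lit 3) (nat_lit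 5) (nat_lit 3) (nat_lit 4) (nat_lit 403) (nat_lit 197) (nat_lit 180)) (XT.nd (nat_lit 39078) (nat_lit 0) (nat_lit 228) (XT.lf (nat_lit 0) (nat_lit 10717980903) (nat_lit 76) (nat_lit 43132193057) (nat_lit 76) (nat_lit 40455261127) (nat_lit 2) (nat_lit 4) (nat_lit 3) (nat_lit 5) (nat_lit 3) (nat_lit 4) (nat_lit 404) (nat_lit 197) (nat_lit 179)) (XT.lf (nat_lit 0) (nat_lit 23455852893) (nat_lit 76) (nat_lit 1600570511) (nat_lit 76) (nat_lit 1600570511) (nat_lit 5) (nat_lit 4) (nat_lit 6) (nat_lit 5) (nat_lit 6) (nat_lit 4) (nat_lit 384) (nat_lit 198) (nat_lit 198))))) (XT.nd (nat_lit 234) (nat_lit 0) (nat_lit 0) (XT.nd (nat_lit 78) (nat_lit 152) (nat_lit 0) (XT.lf (nat_lit 0) (nat_lit 53200463701) (nat_lit 76) (nat_lit 915360120) (nat_lit 76) (nat_lit 714884804) (nat_lit 5) (nat_lit 4) (nat_lit 6) (nat_lit 5) (nat_lit 6) (nat_lit 4) (nat_lit 385) (nat_lit 198) (nat_lit 197)) (XT.nd (nat_lit 78) (nat_lit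 0) (nat_lit 0) (XT.lf (nat_lit 0) (nat_lit 1802106730) (nat_lit 152) (nat_lit 53172052072) (nat_lit 0) (nat_lit 1418503287) (nat_lit 3) (nat_lit 5) (nat_lit 5) (nat_lit 4) (nat_lit 3) (nat_lit 4) (nat_lit 386) (nat_lit 198) (nat_lit 196)) (XT.lf (nat_lit 0) (nat_lit 4353318221) (nat_lit 152) (nat_lit 49862527387) (nat_lit 0) (nat_lit 3786251464) (nat_lit 3) (nat_lit 5) (nat_lit 5) (nat_lit 4) (nat_lit 3) (nat_lit 4) (nat_lit 387) (nat_lit 198) (nat_lit 195)))) (XT.nd (nat_lit 78) (nat_lit 0) (nat_lit 0) (XT.lf (nat_lit 0) (nat_lit 6929988818) (nat_lit 152) (nat_lit 46546583078) (nat_lit 0) (nat_lit 6184802339) (nat_lit 3) (nat_lit 5) (nat_lit 5) (nat_lit 4) (nat_lit 3) (nat_lit 4) (nat_lit 388) (nat_lit 198) (nat_lit 194)) (XT.nd (nat_lit 78) (nat_lit 0) (nat_lit 0) (XT.lf (nat_lit 0) (nat_lit 9534369982) (nat_lit 152) (nat_lit 43221321716) (nat_lit 0) (nat_lit 8616251734) (nat_lit 3) (nat_lit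 5) (nat_lit 5) (nat_lit 4) (nat_lit 3) (nat_lit 4) (nat_lit 389) (nat_lit 198) (nat_lit 193)) (XT.lf (nat_lit 0) (nat_lit 12168737386) (nat_lit 152) (nat_lit 39883837734) (nat_lit 0) (nat_lit 11082724217) (nat_lit 3) (nat_lit 5) (nat_lit 5) (nat_lit 4) (nat_lit 3) (nat_lit 4) (nat_lit 390) (nat_lit 198) (nat_lit 192)))))) (XT.nd (nat_lit 468) (nat_lit 76) (nat_lit 0) (XT.nd (nat_lit 234) (nat_lit 0) (nat_lit 0) (XT.nd (nat_lit 78) (nat_lit 0) (nat_lit 0) (XT.lf (nat_lit 0) (nat_lit 14835392904) (nat_lit 152) (nat_lit 36531214884) (nat_lit 0) (nat_lit 13586374957) (nat_lit 3) (nat_lit 5) (nat_lit 5) (nat_lit 4) (nat_lit 3) (nat_lit 4) (nat_lit 391) (nat_lit 198) (nat_lit 191)) (XT.nd (nat_lit 78) (nat_lit 0) (nat_lit 0) (XT.lf (nat_lit 0) (nat_lit 17536666623) (nat_lit 152) (nat_lit 33160523690) (nat_lit 0) (nat_lit 16129391610) (nat_lit 3) (nat_lit 5) (nat_lit 5) (nat_lit 4) (nat_lit 3) (nat_lit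 4) (nat_lit 392) (nat_lit 198) (nat_lit 190)) (XT.lf (nat_lit 0) (nat_lit 20274918880) (nat_lit 152) (nat_lit 29768818886) (nat_lit 0) (nat_lit 18713996229) (nat_lit 3) (nat_lit 5) (nat_lit 5) (nat_lit 4) (nat_lit 3) (nat_lit 4) (nat_lit 393) (nat_lit 198) (nat_lit 189)))) (XT.nd (nat_lit 78) (nat_lit 0) (nat_lit 0) (XT.lf (nat_lit 0) (nat_lit 23052542322) (nat_lit 152) (nat_lit 26353136849) (nat_lit 0) (nat_lit 21342447208) (nat_lit 3) (nat_lit 5) (nat_lit 5) (nat_lit 4) (nat_lit 3) (nat_lit 4) (nat_lit 394) (nat_lit 198) (nat_lit 188)) (XT.nd (nat_lit 78) (nat_lit 0) (nat_lit 0) (XT.lf (nat_lit 0) (nat_lit 25871963999) (nat_lit 152) (nat_lit 22910493000) (nat_lit 0) (nat_lit 24017041251) (nat_lit 3) (nat_lit 5) (nat_lit 5) (nat_lit 4) (nat_lit 3) (nat_lit 4) (nat_lit 395) (nat_lit 198) (nat_lit 187)) (XT.lf (nat_lit 0) (nat_lit 28735647482) (nat_lit 152) (nat_lit 19437879205) (nat_lit 0) (nat_lit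 26740115381) (nat_lit 3) (nat_lit 5) (nat_lit 5) (nat_lit 4) (nat_lit 3) (nat_lit 4) (nat_lit 396) (nat_lit 198) (nat_lit 186))))) (XT.nd (nat_lit 234) (nat_lit 76) (nat_lit 0) (XT.nd (nat_lit 78) (nat_lit 0) (nat_lit 0) (XT.lf (nat_lit 0) (nat_lit 31646095021) (nat_lit 152) (nat_lit 15932261142) (nat_lit 0) (nat_lit 29514048985) (nat_lit 3) (nat_lit 5) (nat_lit 5) (nat_lit 4) (nat_lit 3) (nat_lit 4) (nat_lit 397) (nat_lit 198) (nat_lit 185)) (XT.nd (nat_lit 78) (nat_lit 0) (nat_lit 0) (XT.lf (nat_lit 0) (nat_lit 34605849724) (nat_lit 152) (nat_lit 12390575648) (nat_lit 0) (nat_lit 32341265886) (nat_lit 3) (nat_lit 5) (nat_lit 5) (nat_lit 4) (nat_lit 3) (nat_lit 4) (nat_lit 398) (nat_lit 198) (nat_lit 184)) (XT.lf (nat_lit 0) (nat_lit 37617497785) (nat_lit 152) (nat_lit 8809728047) (nat_lit 0) (nat_lit 35224236470) (nat_lit 3) (nat_lit 5) (nat_lit 5) (nat_lit 4) (nat_lit 3) (nat_lit 4) (nat_lit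 399) (nat_lit 198) (nat_lit 183)))) (XT.nd (nat_lit 78) (nat_lit 76) (nat_lit 0) (XT.lf (nat_lit 0) (nat_lit 40683670741) (nat_lit 152) (nat_lit 5186589443) (nat_lit 0) (nat_lit 38165479837) (nat_lit 3) (nat_lit 5) (nat_lit 5) (nat_lit 4) (nat_lit 3) (nat_lit 4) (nat_lit 400) (nat_lit 198) (nat_lit 182)) (XT.nd (nat_lit 78) (nat_lit 76) (nat_lit 0) (XT.lf (nat_lit 0) (nat_lit 43807047772) (nat_lit 152) (nat_lit 1517993986) (nat_lit 0) (nat_lit 41167566004) (nat_lit 3) (nat_lit 5) (nat_lit 5) (nat_lit 4) (nat_lit 3) (nat_lit 4) (nat_lit 401) (nat_lit 198) (nat_lit 181)) (XT.lf (nat_lit 0) (nat_lit 2243033554) (nat_lit 76) (nat_lit 44768885899) (nat_lit 76) (nat_lit 42011646011) (nat_lit 2) (nat_lit 4) (nat_lit 3) (nat_lit 5) (nat_lit 3) (nat_lit 4) (nat_lit 402) (nat_lit 198) (nat_lit 180))))))) (XT.nd (nat_lit 39780) (nat_lit 0) (nat_lit 0) (XT.nd (nat_lit 39312) (nat_lit 0) (nat_lit 76) (XT.nd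 (nat_lit 39078) (nat_lit 0) (nat_lit 228) (XT.nd (nat_lit 78) (nat_lit 0) (nat_lit 0) (XT.lf (nat_lit 0) (nat_lit 6087215783) (nat_lit 76) (nat_lit 44207681344) (nat_lit 76) (nat_lit 41336113185) (nat_lit 2) (nat_lit 4) (nat_lit 3) (nat_lit 5) (nat_lit 3) (nat_lit 4) (nat_lit 403) (nat_lit 198) (nat_lit 179)) (XT.nd (nat_lit 38922) (nat_lit 0) (nat_lit 228) (XT.lf (nat_lit 0) (nat_lit 9987700638) (nat_lit 76) (nat_lit 43656266484) (nat_lit 76) (nat_lit 40673700003) (nat_lit 2) (nat_lit 4) (nat_lit 3) (nat_lit 5) (nat_lit 3) (nat_lit 4) (nat_lit 404) (nat_lit 198) (nat_lit 178)) (XT.lf (nat_lit 0) (nat_lit 17322304208) (nat_lit 76) (nat_lit 3942785057) (nat_lit 76) (nat_lit 3942785057) (nat_lit 5) (nat_lit 4) (nat_lit 6) (nat_lit 5) (nat_lit 6) (nat_lit 4) (nat_lit 382) (nat_lit 199) (nat_lit 199)))) (XT.nd (nat_lit 78) (nat_lit 0) (nat_lit 0) (XT.lf (nat_lit 0) (nat_lit 40711795612) (nat_lit 76)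 (nat_lit 5668867632) (nat_lit 76) (nat_lit 5462378056) (nat_lit 5) (nat_lit 4) (nat_lit 6) (nat_lit 5) (nat_lit 6) (nat_lit 4) (nat_lit 383) (nat_lit 199) (nat_lit 198)) (XT.nd (nat_lit 78) (nat_lit 0) (nat_lit 0) (XT.lf (nat_lit 0) (nat_lit 46863848858) (nat_lit 76) (nat_lit 3428957319) (nat_lit 76) (nat_lit 3021992426) (nat_lit 5) (nat_lit 4) (nat_lit 6) (nat_lit 5) (nat_lit 6) (nat_lit 4) (nat_lit 384) (nat_lit 199) (nat_lit 197)) (XT.lf (nat_lit 0) (nat_lit 53106143735) (nat_lit 76) (nat_lit 1163881972) (nat_lit 76) (nat_lit 562280850) (nat_lit 5) (nat_lit 4) (nat_lit 6) (nat_lit 5) (nat_lit 6) (nat_lit 4) (nat_lit 385) (nat_lit 199) (nat_lit 196))))) (XT.nd (nat_lit 234) (nat_lit 0) (nat_lit 0) (XT.nd (nat_lit 78) (nat_lit 0) (nat_lit 0) (XT.lf (nat_lit 0) (nat_lit 1922478168) (nat_lit 152) (nat_lit 53317692995) (nat_lit 0) (nat_lit 1154936095) (nat_lit 3) (nat_lit 5) (nat_lit 5) (nat_lit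 4) (nat_lit 3) (nat_lit 4) (nat_lit 386) (nat_lit 199) (nat_lit 195)) (XT.nd (nat_lit 78) (nat_lit 0) (nat_lit 0) (XT.lf (nat_lit 0) (nat_lit 4448528458) (nat_lit 152) (nat_lit 50053915165) (nat_lit 0) (nat_lit 3502866662) (nat_lit 3) (nat_lit 5) (nat_lit 5) (nat_lit 4) (nat_lit 3) (nat_lit 4) (nat_lit 387) (nat_lit 199) (nat_lit 194)) (XT.lf (nat_lit 0) (nat_lit 7000770705) (nat_lit 152) (nat_lit 46782385278) (nat_lit 0) (nat_lit 5882177141) (nat_lit 3) (nat_lit 5) (nat_lit 5) (nat_lit 4) (nat_lit 3) (nat_lit 4) (nat_lit 388) (nat_lit 199) (nat_lit 193)))) (XT.nd (nat_lit 78) (nat_lit 0) (nat_lit 0) (XT.lf (nat_lit 0) (nat_lit 9581435024) (nat_lit 152) (nat_lit 43500244714) (nat_lit 0) (nat_lit 8294946538) (nat_lit 3) (nat_lit 5) (nat_lit 5) (nat_lit 4) (nat_lit 3) (nat_lit 4) (nat_lit 389) (nat_lit 199) (nat_lit 192)) (XT.nd (nat_lit 78) (nat_lit 0) (nat_lit 0) (XT.lf (nat_lit 0) (nat_lit 12192776365)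 (nat_lit 152) (nat_lit 40204625585) (nat_lit 0) (nat_lit 10743283101) (nat_lit 3) (nat_lit 5) (nat_lit 5) (nat_lit 4) (nat_lit 3) (nat_lit 4) (nat_lit 390) (nat_lit 199) (nat_lit 191)) (XT.lf (nat_lit 0) (nat_lit 14837076482) (nat_lit 152) (nat_lit 36892648224) (nat_lit 0) (nat_lit 13229326152) (nat_lit 3) (nat_lit 5) (nat_lit 5) (nat_lit 4) (nat_lit 3) (nat_lit 4) (nat_lit 391) (nat_lit 199) (nat_lit 190)))))) (XT.nd (nat_lit 468) (nat_lit 76) (nat_lit 0) (XT.nd (nat_lit 234) (nat_lit 0) (nat_lit 0) (XT.nd (nat_lit 78) (nat_lit 0) (nat_lit 0) (XT.lf (nat_lit 0) (nat_lit 17516645928) (nat_lit 152) (nat_lit 33561418668) (nat_lit 0) (nat_lit 15755247961) (nat_lit 3) (nat_lit 5) (nat_lit 5) (nat_lit 4) (nat_lit 3) (nat_lit 4) (nat_lit 392) (nat_lit 199) (nat_lit 189)) (XT.nd (nat_lit 78) (nat_lit 0) (nat_lit 0) (XT.lf (nat_lit 0) (nat_lit 20233826075) (nat_lit 152) (nat_lit 30208026135) (nat_lit 0)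 (nat_lit 18323255645) (nat_lit 3) (nat_lit 5) (nat_lit 5) (nat_lit 4) (nat_lit 3) (nat_lit 4) (nat_lit 393) (nat_lit 199) (nat_lit 188)) (XT.lf (nat_lit 0) (nat_lit 22990991158) (nat_lit 152) (nat_lit 26829540477) (nat_lit 0) (nat_lit 20935593094) (nat_lit 3) (nat_lit 5) (nat_lit 5) (nat_lit 4) (nat_lit 3) (nat_lit 4) (nat_lit 394) (nat_lit 199) (nat_lit 187)))) (XT.nd (nat_lit 78) (nat_lit 0) (nat_lit 0) (XT.lf (nat_lit 0) (nat_lit 25790550351) (nat_lit 152) (nat_lit 23423009619) (nat_lit 0) (nat_lit 23594542933) (nat_lit 3) (nat_lit 5) (nat_lit 5) (nat_lit 4) (nat_lit 3) (nat_lit 4) (nat_lit 395) (nat_lit 199) (nat_lit 186)) (XT.nd (nat_lit 78) (nat_lit 0) (nat_lit 0) (XT.lf (nat_lit 0) (nat_lit 28634949869) (nat_lit 152) (nat_lit 19985456979) (nat_lit 0) (nat_lit 26302428516) (nat_lit 3) (nat_lit 5) (nat_lit 5) (nat_lit 4) (nat_lit 3) (nat_lit 4) (nat_lit 396) (nat_lit 199) (nat_lit 185)) (XT.lf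 (nat_lit 0) (nat_lit 31526675111) (nat_lit 152) (nat_lit 16513878872) (nat_lit 0) (nat_lit 29061615957) (nat_lit 3) (nat_lit 5) (nat_lit 5) (nat_lit 4) (nat_lit 3) (nat_lit 4) (nat_lit 397) (nat_lit 199) (nat_lit 184))))) (XT.nd (nat_lit 234) (nat_lit 76) (nat_lit 0) (XT.nd (nat_lit 78) (nat_lit 0) (nat_lit 0) (XT.lf (nat_lit 0) (nat_lit 34468252828) (nat_lit 152) (nat_lit 13005241879) (nat_lit 0) (nat_lit 31874516196) (nat_lit 3) (nat_lit 5) (nat_lit 5) (nat_lit 4) (nat_lit 3) (nat_lit 4) (nat_lit 398) (nat_lit 199) (nat_lit 183)) (XT.nd (nat_lit 78) (nat_lit 0) (nat_lit 0) (XT.lf (nat_lit 0) (nat_lit 37462253328) (nat_lit 152) (nat_lit 9456480202) (nat_lit 0) (nat_lit 34743587107) (nat_lit 3) (nat_lit 5) (nat_lit 5) (nat_lit 4) (nat_lit 3) (nat_lit 4) (nat_lit 399) (nat_lit 199) (nat_lit 182)) (XT.lf (nat_lit 0) (nat_lit 40511292731) (nat_lit 152) (nat_lit 5864492980) (nat_lit 0) (nat_lit 37671335646)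 (nat_lit 3) (nat_lit 5) (nat_lit 5) (nat_lit 4) (nat_lit 3) (nat_lit 4) (nat_lit 400) (nat_lit 199) (nat_lit 181)))) (XT.nd (nat_lit 78) (nat_lit 76) (nat_lit 0) (XT.lf (nat_lit 0) (nat_lit 43618035244) (nat_lit 152) (nat_lit 2226141584) (nat_lit 0) (nat_lit 40660320039) (nat_lit 3) (nat_lit 5) (nat_lit 5) (nat_lit 4) (nat_lit 3) (nat_lit 4) (nat_lit 401) (nat_lit 199) (nat_lit 180)) (XT.nd (nat_lit 78) (nat_lit 0) (nat_lit 0) (XT.lf (nat_lit 0) (nat_lit 1490844881) (nat_lit 76) (nat_lit 45308681529) (nat_lit 76) (nat_lit 42236638053) (nat_lit 2) (nat_lit 4) (nat_lit 3) (nat_lit 5) (nat_lit 3) (nat_lit 4) (nat_lit 402) (nat_lit 199) (nat_lit 179)) (XT.lf (nat_lit 0) (nat_lit 5305951819) (nat_lit 76) (nat_lit 44760593147) (nat_lit 76) (nat_lit 41577551349) (nat_lit 2) (nat_lit 4) (nat_lit 3) (nat_lit 5) (nat_lit 3) (nat_lit 4) (nat_lit 403) (nat_lit 199) (nat_lit 178))))))))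
noncomputable def xc3 : XT := (XT.nd (nat_lit 40482) (nat_lit 0) (nat_lit 0) (XT.nd (nat_lit 39546) (nat_lit 0) (nat_lit 76) (XT.nd (nat_lit 39078) (nat_lit 0) (nat_lit 76) (XT.nd (nat_lit 38844) (nat_lit 0) (nat_lit 228) (XT.nd (nat_lit 38766) (nat_lit 0) (nat_lit 228) (XT.lf (nat_lit 0) (nat_lit 9178208235) (nat_lit 76) (nat_lit 44221912436) (nat_lit 76) (nat_lit 40931105277) (nat_lit 2) (nat_lit 4) (nat_lit 3) (nat_lit 5) (nat_lit 3) (nat_lit 4) (nat_lit 404) (nat_lit 199) (nat_lit 177)) (XT.lf (nat_lit 0) (nat_lit 11397233706) (nat_lit 76) (nat_lit 6223569722) (nat_lit 76) (nat_lit 6223569722) (nat_lit 5) (nat_lit 4) (nat_lit 6) (nat_lit 5) (nat_lit 6) (nat_lit 4) (nat_lit 380) (nat_lit 200) (nat_lit 200))) (XT.nd (nat_lit 78) (nat_lit 0) (nat_lit 0) (XT.lf (nat_lit 0) (nat_lit 28656985846) (nat_lit 76) (nat_lit 10293685954) (nat_lit 76) (nat_lit 10081001691) (nat_lit 5) (nat_lit 4) (nat_lit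 6) (nat_lit 5) (nat_lit 6) (nat_lit 4) (nat_lit 381) (nat_lit 200) (nat_lit 199)) (XT.nd (nat_lit 78) (nat_lit 0) (nat_lit 0) (XT.lf (nat_lit 0) (nat_lit 34595315780) (nat_lit 76) (nat_lit 8120220901) (nat_lit 76) (nat_lit 7701047061) (nat_lit 5) (nat_lit 4) (nat_lit 6) (nat_lit 5) (nat_lit 6) (nat_lit 4) (nat_lit 382) (nat_lit 200) (nat_lit 198)) (XT.lf (nat_lit 0) (nat_lit 40614646047) (nat_lit 76) (nat_lit 5924845139) (nat_lit 76) (nat_lit 5305195983) (nat_lit 5) (nat_lit 4) (nat_lit 6) (nat_lit 5) (nat_lit 6) (nat_lit 4) (nat_lit 383) (nat_lit 200) (nat_lit 197))))) (XT.nd (nat_lit 234) (nat_lit 0) (nat_lit 0) (XT.nd (nat_lit 78) (nat_lit 152) (nat_lit 0) (XT.lf (nat_lit 0) (nat_lit 46720236255) (nat_lit 76) (nat_lit 3705640381) (nat_lit 76) (nat_lit 2891354995) (nat_lit 5) (nat_lit 4) (nat_lit 6) (nat_lit 5) (nat_lit 6) (nat_lit 4) (nat_lit 384) (nat_lit 200) (nat_lit 196)) (XT.nd (nat_lit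 78) (nat_lit 152) (nat_lit 0) (XT.lf (nat_lit 0) (nat_lit 52917421386) (nat_lit 76) (nat_lit 1460667514) (nat_lit 76) (nat_lit 457414915) (nat_lit 5) (nat_lit 4) (nat_lit 6) (nat_lit 5) (nat_lit 6) (nat_lit 4) (nat_lit 385) (nat_lit 200) (nat_lit 195)) (XT.lf (nat_lit 0) (nat_lit 1995383511) (nat_lit 152) (nat_lit 53560569261) (nat_lit 0) (nat_lit 843232140) (nat_lit 3) (nat_lit 5) (nat_lit 5) (nat_lit 4) (nat_lit 3) (nat_lit 4) (nat_lit 386) (nat_lit 200) (nat_lit 194)))) (XT.nd (nat_lit 78) (nat_lit 0) (nat_lit 0) (XT.lf (nat_lit 0) (nat_lit 4497005451) (nat_lit 152) (nat_lit 50341205853) (nat_lit 0) (nat_lit 3171922310) (nat_lit 3) (nat_lit 5) (nat_lit 5) (nat_lit 4) (nat_lit 3) (nat_lit 4) (nat_lit 387) (nat_lit 200) (nat_lit 193)) (XT.nd (nat_lit 78) (nat_lit 0) (nat_lit 0) (XT.lf (nat_lit 0) (nat_lit 7025530853) (nat_lit 152) (nat_lit 47112796764) (nat_lit 0) (nat_lit 5532552791) (nat_lit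 3) (nat_lit 5) (nat_lit 5) (nat_lit 4) (nat_lit 3) (nat_lit 4) (nat_lit 388) (nat_lit 200) (nat_lit 192)) (XT.lf (nat_lit 0) (nat_lit 9583169109) (nat_lit 152) (nat_lit 43872521054) (nat_lit 0) (nat_lit 7927186269) (nat_lit 3) (nat_lit 5) (nat_lit 5) (nat_lit 4) (nat_lit 3) (nat_lit 4) (nat_lit 389) (nat_lit 200) (nat_lit 191)))))) (XT.nd (nat_lit 468) (nat_lit 0) (nat_lit 0) (XT.nd (nat_lit 234) (nat_lit 0) (nat_lit 0) (XT.nd (nat_lit 78) (nat_lit 0) (nat_lit 0) (XT.lf (nat_lit 0) (nat_lit 12172155049) (nat_lit 152) (nat_lit 40617547413) (nat_lit 0) (nat_lit 10357915143) (nat_lit 3) (nat_lit 5) (nat_lit 5) (nat_lit 4) (nat_lit 3) (nat_lit 4) (nat_lit 390) (nat_lit 200) (nat_lit 190)) (XT.nd (nat_lit 78) (nat_lit 0) (nat_lit 0) (XT.lf (nat_lit 0) (nat_lit 14794750893) (nat_lit 152) (nat_lit 37345031690) (nat_lit 0) (nat_lit 12826863350) (nat_lit 3) (nat_lit 5) (nat_lit 5) (nat_lit 4) (nat_lit 3)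 (nat_lit 4) (nat_lit 391) (nat_lit 200) (nat_lit 189)) (XT.lf (nat_lit 0) (nat_lit 17453248229) (nat_lit 152) (nat_lit 34052114405) (nat_lit 0) (nat_lit 15336188223) (nat_lit 3) (nat_lit 5) (nat_lit 5) (nat_lit 4) (nat_lit 3) (nat_lit 4) (nat_lit 392) (nat_lit 200) (nat_lit 188)))) (XT.nd (nat_lit 78) (nat_lit 0) (nat_lit 0) (XT.lf (nat_lit 0) (nat_lit 20149970018) (nat_lit 152) (nat_lit 30735918252) (nat_lit 0) (nat_lit 17888082377) (nat_lit 3) (nat_lit 5) (nat_lit 5) (nat_lit 4) (nat_lit 3) (nat_lit 4) (nat_lit 393) (nat_lit 200) (nat_lit 187)) (XT.nd (nat_lit 78) (nat_lit 0) (nat_lit 0) (XT.lf (nat_lit 0) (nat_lit 22887272616) (nat_lit 152) (nat_lit 27393545584) (nat_lit 0) (nat_lit 20484775623) (nat_lit 3) (nat_lit 5) (nat_lit 5) (nat_lit 4) (nat_lit 3) (nat_lit 4) (nat_lit 394) (nat_lit 200) (nat_lit 186)) (XT.lf (nat_lit 0) (nat_lit 25667547843) (nat_lit 152) (nat_lit 24022075880) (nat_lit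 0) (nat_lit 23128536914) (nat_lit 3) (nat_lit 5) (nat_lit 5) (nat_lit 4) (nat_lit 3) (nat_lit 4) (nat_lit 395) (nat_lit 200) (nat_lit 185))))) (XT.nd (nat_lit 234) (nat_lit 0) (nat_lit 0) (XT.nd (nat_lit 78) (nat_lit 0) (nat_lit 0) (XT.lf (nat_lit 0) (nat_lit 28493225065) (nat_lit 152) (nat_lit 20618563197) (nat_lit 0) (nat_lit 25821676335) (nat_lit 3) (nat_lit 5) (nat_lit 5) (nat_lit 4) (nat_lit 3) (nat_lit 4) (nat_lit 396) (nat_lit 200) (nat_lit 184)) (XT.nd (nat_lit 78) (nat_lit 0) (nat_lit 0) (XT.lf (nat_lit 0) (nat_lit 31366773321) (nat_lit 152) (nat_lit 17180033591) (nat_lit 0) (nat_lit 28566547113) (nat_lit 3) (nat_lit 5) (nat_lit 5) (nat_lit 4) (nat_lit 3) (nat_lit 4) (nat_lit 397) (nat_lit 200) (nat_lit 183)) (XT.lf (nat_lit 0) (nat_lit 34290703477) (nat_lit 152) (nat_lit 13703482522) (nat_lit 0) (nat_lit 31365547680) (nat_lit 3) (nat_lit 5) (nat_lit 5) (nat_lit 4) (nat_lit 3) (nat_lit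 4) (nat_lit 398) (nat_lit 200) (nat_lit 182)))) (XT.nd (nat_lit 78) (nat_lit 0) (nat_lit 0) (XT.lf (nat_lit 0) (nat_lit 37267570424) (nat_lit 152) (nat_lit 10185872227) (nat_lit 0) (nat_lit 34221123764) (nat_lit 3) (nat_lit 5) (nat_lit 5) (nat_lit 4) (nat_lit 3) (nat_lit 4) (nat_lit 399) (nat_lit 200) (nat_lit 181)) (XT.nd (nat_lit 78) (nat_lit 0) (nat_lit 0) (XT.lf (nat_lit 0) (nat_lit 40299975309) (nat_lit 152) (nat_lit 6624129066) (nat_lit 0) (nat_lit 37135770529) (nat_lit 3) (nat_lit 5) (nat_lit 5) (nat_lit 4) (nat_lit 3) (nat_lit 4) (nat_lit 400) (nat_lit 200) (nat_lit 180)) (XT.lf (nat_lit 0) (nat_lit 43390567804) (nat_lit 152) (nat_lit 3015140835) (nat_lit 0) (nat_lit 40112034752) (nat_lit 3) (nat_lit 5) (nat_lit 5) (nat_lit 4) (nat_lit 3) (nat_lit 4) (nat_lit 401) (nat_lit 200) (nat_lit 179))))))) (XT.nd (nat_lit 39468) (nat_lit 0) (nat_lit 76) (XT.nd (nat_lit 39000) (nat_lit 0) (nat_lit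 76) (XT.nd (nat_lit 38766) (nat_lit 0) (nat_lit 228) (XT.nd (nat_lit 78) (nat_lit 0) (nat_lit 0) (XT.lf (nat_lit 0) (nat_lit 657067706) (nat_lit 76) (nat_lit 45891296859) (nat_lit 76) (nat_lit 42501765485) (nat_lit 2) (nat_lit 4) (nat_lit 3) (nat_lit 5) (nat_lit 3) (nat_lit 4) (nat_lit 402) (nat_lit 200) (nat_lit 178)) (XT.nd (nat_lit 78) (nat_lit 0) (nat_lit 0) (XT.lf (nat_lit 0) (nat_lit 4443946206) (nat_lit 76) (nat_lit 45355942627) (nat_lit 76) (nat_lit 41858645891) (nat_lit 2) (nat_lit 4) (nat_lit 3) (nat_lit 5) (nat_lit 3) (nat_lit 4) (nat_lit 403) (nat_lit 200) (nat_lit 177)) (XT.lf (nat_lit 0) (nat_lit 8288796372) (nat_lit 76) (nat_lit 44829625167) (nat_lit 76) (nat_lit 41227701867) (nat_lit 2) (nat_lit 4) (nat_lit 3) (nat_lit 5) (nat_lit 3) (nat_lit 4) (nat_lit 404) (nat_lit 200) (nat_lit 176)))) (XT.nd (nat_lit 78) (nat_lit 0) (nat_lit 0) (XT.lf (nat_lit 0) (nat_lit 5664365508) (nat_lit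 76) (nat_lit 8448641517) (nat_lit 76) (nat_lit 8448641517) (nat_lit 5) (nat_lit 4) (nat_lit 6) (nat_lit 5) (nat_lit 6) (nat_lit 4) (nat_lit 378) (nat_lit 201) (nat_lit 201)) (XT.nd (nat_lit 78) (nat_lit 0) (nat_lit 0) (XT.lf (nat_lit 0) (nat_lit 17002637891) (nat_lit 76) (nat_lit 14801527821) (nat_lit 76) (nat_lit 14582463030) (nat_lit 5) (nat_lit 4) (nat_lit 6) (nat_lit 5) (nat_lit 6) (nat_lit 4) (nat_lit 379) (nat_lit 201) (nat_lit 200)) (XT.lf (nat_lit 0) (nat_lit 22743695997) (nat_lit 76) (nat_lit 12688829754) (nat_lit 76) (nat_lit 12257080700) (nat_lit 5) (nat_lit 4) (nat_lit 6) (nat_lit 5) (nat_lit 6) (nat_lit 4) (nat_lit 380) (nat_lit 201) (nat_lit 199))))) (XT.nd (nat_lit 234) (nat_lit 152) (nat_lit 0) (XT.nd (nat_lit 78) (nat_lit 0) (nat_lit 0) (XT.lf (nat_lit 0) (nat_lit 28556921794) (nat_lit 76) (nat_lit 10557342787) (nat_lit 76) (nat_lit 9919104156) (nat_lit 5) (nat_lit 4) (nat_lit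 6) (nat_lit 5) (nat_lit 6) (nat_lit 4) (nat_lit 381) (nat_lit 201) (nat_lit 198)) (XT.nd (nat_lit 78) (nat_lit 0) (nat_lit 0) (XT.lf (nat_lit 0) (nat_lit 34447394799) (nat_lit 76) (nat_lit 8405204454) (nat_lit 76) (nat_lit 7566490507) (nat_lit 5) (nat_lit 4) (nat_lit 6) (nat_lit 5) (nat_lit 6) (nat_lit 4) (nat_lit 382) (nat_lit 201) (nat_lit 197)) (XT.lf (nat_lit 0) (nat_lit 40420262028) (nat_lit 76) (nat_lit 6230534247) (nat_lit 76) (nat_lit 5197184071) (nat_lit 5) (nat_lit 4) (nat_lit 6) (nat_lit 5) (nat_lit 6) (nat_lit 4) (nat_lit 383) (nat_lit 201) (nat_lit 196)))) (XT.nd (nat_lit 78) (nat_lit 152) (nat_lit 0) (XT.lf (nat_lit 0) (nat_lit 46480742491) (nat_lit 76) (nat_lit 4031431969) (nat_lit 76) (nat_lit 2809114579) (nat_lit 5) (nat_lit 4) (nat_lit 6) (nat_lit 5) (nat_lit 6) (nat_lit 4) (nat_lit 384) (nat_lit 201) (nat_lit 195)) (XT.nd (nat_lit 78) (nat_lit 152) (nat_lit 0) (XT.lf (nat_lit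 0) (nat_lit 52634131753) (nat_lit 76) (nat_lit 1805976073) (nat_lit 76) (nat_lit 400195369) (nat_lit 5) (nat_lit 4) (nat_lit 6) (nat_lit 5) (nat_lit 6) (nat_lit 4) (nat_lit 385) (nat_lit 201) (nat_lit 194)) (XT.lf (nat_lit 0) (nat_lit 2020886464) (nat_lit 152) (nat_lit 53900893092) (nat_lit 0) (nat_lit 483119060) (nat_lit 3) (nat_lit 5) (nat_lit 5) (nat_lit 4) (nat_lit 3) (nat_lit 4) (nat_lit 386) (nat_lit 201) (nat_lit 193)))))) (XT.nd (nat_lit 468) (nat_lit 0) (nat_lit 0) (XT.nd (nat_lit 234) (nat_lit 0) (nat_lit 0) (XT.nd (nat_lit 78) (nat_lit 0) (nat_lit 0) (XT.lf (nat_lit 0) (nat_lit 4498791558) (nat_lit 152) (nat_lit 50724650483) (nat_lit 0) (nat_lit 2793129233) (nat_lit 3) (nat_lit 5) (nat_lit 5) (nat_lit 4) (nat_lit 3) (nat_lit 4) (nat_lit 387) (nat_lit 201) (nat_lit 192)) (XT.nd (nat_lit 78) (nat_lit 0) (nat_lit 0) (XT.lf (nat_lit 0) (nat_lit 7004290897) (nat_lit 152) (nat_lit 47538106247)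 (nat_lit 0) (nat_lit 5135623794) (nat_lit 3) (nat_lit 5) (nat_lit 5) (nat_lit 4) (nat_lit 3) (nat_lit 4) (nat_lit 388) (nat_lit 201) (nat_lit 191)) (XT.lf (nat_lit 0) (nat_lit 9539573752) (nat_lit 152) (nat_lit 44338476024) (nat_lit 0) (nat_lit 7512649583) (nat_lit 3) (nat_lit 5) (nat_lit 5) (nat_lit 4) (nat_lit 3) (nat_lit 4) (nat_lit 389) (nat_lit 201) (nat_lit 190)))) (XT.nd (nat_lit 78) (nat_lit 0) (nat_lit 0) (XT.lf (nat_lit 0) (nat_lit 12106855419) (nat_lit 152) (nat_lit 41122964023) (nat_lit 0) (nat_lit 9926283613) (nat_lit 3) (nat_lit 5) (nat_lit 5) (nat_lit 4) (nat_lit 3) (nat_lit 4) (nat_lit 390) (nat_lit 201) (nat_lit 189)) (XT.nd (nat_lit 78) (nat_lit 0) (nat_lit 0) (XT.lf (nat_lit 0) (nat_lit 14708379153) (nat_lit 152) (nat_lit 37888760571) (nat_lit 0) (nat_lit 12378634884) (nat_lit 3) (nat_lit 5) (nat_lit 5) (nat_lit 4) (nat_lit 3) (nat_lit 4) (nat_lit 391) (nat_lit 201) (nat_lit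 188)) (XT.lf (nat_lit 0) (nat_lit 17346418131) (nat_lit 152) (nat_lit 34633039665) (nat_lit 0) (nat_lit 14871846228) (nat_lit 3) (nat_lit 5) (nat_lit 5) (nat_lit 4) (nat_lit 3) (nat_lit 4) (nat_lit 392) (nat_lit 201) (nat_lit 187))))) (XT.nd (nat_lit 234) (nat_lit 0) (nat_lit 0) (XT.nd (nat_lit 78) (nat_lit 0) (nat_lit 0) (XT.lf (nat_lit 0) (nat_lit 20023277435) (nat_lit 152) (nat_lit 31352956502) (nat_lit 0) (nat_lit 17408096178) (nat_lit 3) (nat_lit 5) (nat_lit 5) (nat_lit 4) (nat_lit 3) (nat_lit 4) (nat_lit 393) (nat_lit 201) (nat_lit 186)) (XT.nd (nat_lit 78) (nat_lit 0) (nat_lit 0) (XT.lf (nat_lit 0) (nat_lit 22741296069) (nat_lit 152) (nat_lit 28045644989) (nat_lit 0) (nat_lit 19989600876) (nat_lit 3) (nat_lit 5) (nat_lit 5) (nat_lit 4) (nat_lit 3) (nat_lit 4) (nat_lit 394) (nat_lit 201) (nat_lit 185)) (XT.lf (nat_lit 0) (nat_lit 25502848999) (nat_lit 152) (nat_lit 24708215241) (nat_lit 0)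 (nat_lit 22618616005) (nat_lit 3) (nat_lit 5) (nat_lit 5) (nat_lit 4) (nat_lit 3) (nat_lit 4) (nat_lit 395) (nat_lit 201) (nat_lit 184)))) (XT.nd (nat_lit 78) (nat_lit 0) (nat_lit 0) (XT.lf (nat_lit 0) (nat_lit 28310349234) (nat_lit 152) (nat_lit 21337751060) (nat_lit 0) (nat_lit 25297438764) (nat_lit 3) (nat_lit 5) (nat_lit 5) (nat_lit 4) (nat_lit 3) (nat_lit 4) (nat_lit 396) (nat_lit 201) (nat_lit 183)) (XT.nd (nat_lit 78) (nat_lit 0) (nat_lit 0) (XT.lf (nat_lit 0) (nat_lit 31166249930) (nat_lit 152) (nat_lit 17931307377) (nat_lit 0) (nat_lit 28028409870) (nat_lit 3) (nat_lit 5) (nat_lit 5) (nat_lit 4) (nat_lit 3) (nat_lit 4) (nat_lit 397) (nat_lit 201) (nat_lit 182)) (XT.lf (nat_lit 0) (nat_lit 34073046532) (nat_lit 152) (nat_lit 14485907691) (nat_lit 0) (nat_lit 30813915609) (nat_lit 3) (nat_lit 5) (nat_lit 5) (nat_lit 4) (nat_lit 3) (nat_lit 4) (nat_lit 398) (nat_lit 201) (nat_lit 181))))))))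
noncomputable def xc4 : XT := (XT.nd (nat_lit 40170) (nat_lit 0) (nat_lit 0) (XT.nd (nat_lit 39234) (nat_lit 0) (nat_lit 76) (XT.nd (nat_lit 390) (nat_lit 0) (nat_lit 0) (XT.nd (nat_lit 156) (nat_lit 76) (nat_lit 0) (XT.nd (nat_lit 78) (nat_lit 0) (nat_lit 0) (XT.lf (nat_lit 0) (nat_lit 37033278962) (nat_lit 152) (nat_lit 10998541456) (nat_lit 0) (nat_lit 33656389918) (nat_lit 3) (nat_lit 5) (nat_lit 5) (nat_lit 4) (nat_lit 3) (nat_lit 4) (nat_lit 399) (nat_lit 201) (nat_lit 180)) (XT.lf (nat_lit 0) (nat_lit 40049533829) (nat_lit 152) (nat_lit 7466161460) (nat_lit 0) (nat_lit 36558316514) (nat_lit 3) (nat_lit 5) (nat_lit 5) (nat_lit 4) (nat_lit 3) (nat_lit 4) (nat_lit 400) (nat_lit 201) (nat_lit 179))) (XT.nd (nat_lit 78) (nat_lit 76) (nat_lit 0) (XT.lf (nat_lit 0) (nat_lit 43124446696) (nat_lit 152) (nat_lit 3885681157) (nat_lit 0) (nat_lit 39522231059) (nat_lit 3) (nat_lit 5) (nat_lit 5) (nat_lit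 4) (nat_lit 3) (nat_lit 4) (nat_lit 401) (nat_lit 201) (nat_lit 178)) (XT.nd (nat_lit 78) (nat_lit 76) (nat_lit 0) (XT.lf (nat_lit 0) (nat_lit 46260704380) (nat_lit 152) (nat_lit 253971972) (nat_lit 0) (nat_lit 42550723382) (nat_lit 3) (nat_lit 5) (nat_lit 5) (nat_lit 4) (nat_lit 3) (nat_lit 4) (nat_lit 402) (nat_lit 201) (nat_lit 177)) (XT.lf (nat_lit 0) (nat_lit 3500445736) (nat_lit 76) (nat_lit 45994249990) (nat_lit 76) (nat_lit 42179642427) (nat_lit 2) (nat_lit 4) (nat_lit 3) (nat_lit 5) (nat_lit 3) (nat_lit 4) (nat_lit 403) (nat_lit 201) (nat_lit 176))))) (XT.nd (nat_lit 38610) (nat_lit 0) (nat_lit 228) (XT.nd (nat_lit 38454) (nat_lit 0) (nat_lit 228) (XT.lf (nat_lit 0) (nat_lit 7318687892) (nat_lit 76) (nat_lit 45479935687) (nat_lit 76) (nat_lit 41563748936) (nat_lit 2) (nat_lit 4) (nat_lit 3) (nat_lit 5) (nat_lit 3) (nat_lit 4) (nat_lit 404) (nat_lit 201) (nat_lit 175)) (XT.nd (nat_lit 78)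 (nat_lit 0) (nat_lit 0) (XT.lf (nat_lit 0) (nat_lit 108228786) (nat_lit 76) (nat_lit 10623454992) (nat_lit 76) (nat_lit 10623454992) (nat_lit 5) (nat_lit 4) (nat_lit 6) (nat_lit 5) (nat_lit 6) (nat_lit 4) (nat_lit 376) (nat_lit 202) (nat_lit 202)) (XT.lf (nat_lit 0) (nat_lit 5717017592) (nat_lit 76) (nat_lit 19203563370) (nat_lit 76) (nat_lit 18977926635) (nat_lit 5) (nat_lit 4) (nat_lit 6) (nat_lit 5) (nat_lit 6) (nat_lit 4) (nat_lit 377) (nat_lit 202) (nat_lit 201)))) (XT.nd (nat_lit 78) (nat_lit 0) (nat_lit 0) (XT.lf (nat_lit 0) (nat_lit 11276436458) (nat_lit 76) (nat_lit 17146224052) (nat_lit 76) (nat_lit 16701522526) (nat_lit 5) (nat_lit 4) (nat_lit 6) (nat_lit 5) (nat_lit 6) (nat_lit 4) (nat_lit 378) (nat_lit 202) (nat_lit 200)) (XT.nd (nat_lit 78) (nat_lit 0) (nat_lit 0) (XT.lf (nat_lit 0) (nat_lit 16899571917) (nat_lit 76) (nat_lit 15073094358) (nat_lit 76) (nat_lit 14415708569) (nat_lit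 5) (nat_lit 4) (nat_lit 6) (nat_lit 5) (nat_lit 6) (nat_lit 4) (nat_lit 379) (nat_lit 202) (nat_lit 199)) (XT.lf (nat_lit 0) (nat_lit 22591337386) (nat_lit 76) (nat_lit 12982362814) (nat_lit 76) (nat_lit 12118487449) (nat_lit 5) (nat_lit 4) (nat_lit 6) (nat_lit 5) (nat_lit 6) (nat_lit 4) (nat_lit 380) (nat_lit 202) (nat_lit 198)))))) (XT.nd (nat_lit 468) (nat_lit 0) (nat_lit 0) (XT.nd (nat_lit 234) (nat_lit 152) (nat_lit 0) (XT.nd (nat_lit 78) (nat_lit 0) (nat_lit 0) (XT.lf (nat_lit 0) (nat_lit 28356706254) (nat_lit 76) (nat_lit 10872202568) (nat_lit 76) (nat_lit 9807851886) (nat_lit 5) (nat_lit 4) (nat_lit 6) (nat_lit 5) (nat_lit 6) (nat_lit 4) (nat_lit 381) (nat_lit 202) (nat_lit 197)) (XT.nd (nat_lit 78) (nat_lit 0) (nat_lit 0) (XT.lf (nat_lit 0) (nat_lit 34200716222) (nat_lit 76) (nat_lit 8740769790) (nat_lit 76) (nat_lit 7481782878) (nat_lit 5) (nat_lit 4) (nat_lit 6) (nat_lit 5) (nat_lit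 6) (nat_lit 4) (nat_lit 382) (nat_lit 202) (nat_lit 196)) (XT.lf (nat_lit 0) (nat_lit 40128473705) (nat_lit 76) (nat_lit 6586202063) (nat_lit 76) (nat_lit 5138247938) (nat_lit 5) (nat_lit 4) (nat_lit 6) (nat_lit 5) (nat_lit 6) (nat_lit 4) (nat_lit 383) (nat_lit 202) (nat_lit 195)))) (XT.nd (nat_lit 78) (nat_lit 152) (nat_lit 0) (XT.lf (nat_lit 0) (nat_lit 46145158299) (nat_lit 76) (nat_lit 4406616756) (nat_lit 76) (nat_lit 2775199317) (nat_lit 5) (nat_lit 4) (nat_lit 6) (nat_lit 5) (nat_lit 6) (nat_lit 4) (nat_lit 384) (nat_lit 202) (nat_lit 194)) (XT.nd (nat_lit 78) (nat_lit 152) (nat_lit 0) (XT.lf (nat_lit 0) (nat_lit 52256027299) (nat_lit 76) (nat_lit 2200109375) (nat_lit 76) (nat_lit 390572215) (nat_lit 5) (nat_lit 4) (nat_lit 6) (nat_lit 5) (nat_lit 6) (nat_lit 4) (nat_lit 385) (nat_lit 202) (nat_lit 193)) (XT.lf (nat_lit 0) (nat_lit 1999009310) (nat_lit 152) (nat_lit 54338961859) (nat_lit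 0) (nat_lit 74282193) (nat_lit 3) (nat_lit 5) (nat_lit 5) (nat_lit 4) (nat_lit 3) (nat_lit 4) (nat_lit 386) (nat_lit 202) (nat_lit 192))))) (XT.nd (nat_lit 234) (nat_lit 0) (nat_lit 0) (XT.nd (nat_lit 78) (nat_lit 0) (nat_lit 0) (XT.lf (nat_lit 0) (nat_lit 4453888341) (nat_lit 152) (nat_lit 51204584103) (nat_lit 0) (nat_lit 2366156446) (nat_lit 3) (nat_lit 5) (nat_lit 5) (nat_lit 4) (nat_lit 3) (nat_lit 4) (nat_lit 387) (nat_lit 202) (nat_lit 191)) (XT.nd (nat_lit 78) (nat_lit 0) (nat_lit 0) (XT.lf (nat_lit 0) (nat_lit 6937032279) (nat_lit 152) (nat_lit 48058685355) (nat_lit 0) (nat_lit 4691043318) (nat_lit 3) (nat_lit 5) (nat_lit 5) (nat_lit 4) (nat_lit 3) (nat_lit 4) (nat_lit 388) (nat_lit 202) (nat_lit 190)) (XT.lf (nat_lit 0) (nat_lit 9450610861) (nat_lit 152) (nat_lit 44898516771) (nat_lit 0) (nat_lit 7050974264) (nat_lit 3) (nat_lit 5) (nat_lit 5) (nat_lit 4) (nat_lit 3) (nat_lit 4) (nat_lit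 389) (nat_lit 202) (nat_lit 189)))) (XT.nd (nat_lit 78) (nat_lit 0) (nat_lit 0) (XT.lf (nat_lit 0) (nat_lit 11996820418) (nat_lit 152) (nat_lit 41721317040) (nat_lit 0) (nat_lit 9448011358) (nat_lit 3) (nat_lit 5) (nat_lit 5) (nat_lit 4) (nat_lit 3) (nat_lit 4) (nat_lit 390) (nat_lit 202) (nat_lit 188)) (XT.nd (nat_lit 78) (nat_lit 0) (nat_lit 0) (XT.lf (nat_lit 0) (nat_lit 14577885794) (nat_lit 152) (nat_lit 38524309968) (nat_lit 0) (nat_lit 11884249099) (nat_lit 3) (nat_lit 5) (nat_lit 5) (nat_lit 4) (nat_lit 3) (nat_lit 4) (nat_lit 391) (nat_lit 202) (nat_lit 187)) (XT.lf (nat_lit 0) (nat_lit 17196062287) (nat_lit 152) (nat_lit 35304702052) (nat_lit 0) (nat_lit 14361816239) (nat_lit 3) (nat_lit 5) (nat_lit 5) (nat_lit 4) (nat_lit 3) (nat_lit 4) (nat_lit 392) (nat_lit 202) (nat_lit 186))))))) (XT.nd (nat_lit 39156) (nat_lit 0) (nat_lit 228) (XT.nd (nat_lit 468) (nat_lit 76) (nat_lit 0) (XT.nd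 (nat_lit 234) (nat_lit 0) (nat_lit 0) (XT.nd (nat_lit 78) (nat_lit 0) (nat_lit 0) (XT.lf (nat_lit 0) (nat_lit 19853637626) (nat_lit 152) (nat_lit 32059680044) (nat_lit 0) (nat_lit 16882877642) (nat_lit 3) (nat_lit 5) (nat_lit 5) (nat_lit 4) (nat_lit 3) (nat_lit 4) (nat_lit 393) (nat_lit 202) (nat_lit 185)) (XT.nd (nat_lit 78) (nat_lit 0) (nat_lit 0) (XT.lf (nat_lit 0) (nat_lit 22552933963) (nat_lit 152) (nat_lit 28786408487) (nat_lit 0) (nat_lit 19449636178) (nat_lit 3) (nat_lit 5) (nat_lit 5) (nat_lit 4) (nat_lit 3) (nat_lit 4) (nat_lit 394) (nat_lit 202) (nat_lit 184)) (XT.lf (nat_lit 0) (nat_lit 25296309906) (nat_lit 152) (nat_lit 25482027241) (nat_lit 0) (nat_lit 22064334644) (nat_lit 3) (nat_lit 5) (nat_lit 5) (nat_lit 4) (nat_lit 3) (nat_lit 4) (nat_lit 395) (nat_lit 202) (nat_lit 183)))) (XT.nd (nat_lit 78) (nat_lit 0) (nat_lit 0) (XT.lf (nat_lit 0) (nat_lit 28086162581) (nat_lit 152) (nat_lit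 22143648983) (nat_lit 0) (nat_lit 24729257730) (nat_lit 3) (nat_lit 5) (nat_lit 5) (nat_lit 4) (nat_lit 3) (nat_lit 4) (nat_lit 396) (nat_lit 202) (nat_lit 182)) (XT.nd (nat_lit 78) (nat_lit 0) (nat_lit 0) (XT.lf (nat_lit 0) (nat_lit 30924929723) (nat_lit 152) (nat_lit 18768356683) (nat_lit 0) (nat_lit 27446734009) (nat_lit 3) (nat_lit 5) (nat_lit 5) (nat_lit 4) (nat_lit 3) (nat_lit 4) (nat_lit 397) (nat_lit 202) (nat_lit 181)) (XT.lf (nat_lit 0) (nat_lit 33815091808) (nat_lit 152) (nat_lit 15353201057) (nat_lit 0) (nat_lit 30219137973) (nat_lit 3) (nat_lit 5) (nat_lit 5) (nat_lit 4) (nat_lit 3) (nat_lit 4) (nat_lit 398) (nat_lit 202) (nat_lit 180))))) (XT.nd (nat_lit 234) (nat_lit 76) (nat_lit 0) (XT.nd (nat_lit 78) (nat_lit 0) (nat_lit 0) (XT.lf (nat_lit 0) (nat_lit 36759174220) (nat_lit 152) (nat_lit 11895197987) (nat_lit 0) (nat_lit 33048892114) (nat_lit 3) (nat_lit 5) (nat_lit 5) (nat_lit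 4) (nat_lit 3) (nat_lit 4) (nat_lit 399) (nat_lit 202) (nat_lit 179)) (XT.nd (nat_lit 78) (nat_lit 0) (nat_lit 0) (XT.lf (nat_lit 0) (nat_lit 39759749459) (nat_lit 152) (nat_lit 8391325919) (nat_lit 0) (nat_lit 35938469030) (nat_lit 3) (nat_lit 5) (nat_lit 5) (nat_lit 4) (nat_lit 3) (nat_lit 4) (nat_lit 400) (nat_lit 202) (nat_lit 178)) (XT.lf (nat_lit 0) (nat_lit 42819439386) (nat_lit 152) (nat_lit 4838523216) (nat_lit 0) (nat_lit 38890393596) (nat_lit 3) (nat_lit 5) (nat_lit 5) (nat_lit 4) (nat_lit 3) (nat_lit 4) (nat_lit 401) (nat_lit 202) (nat_lit 177)))) (XT.nd (nat_lit 78) (nat_lit 76) (nat_lit 0) (XT.lf (nat_lit 0) (nat_lit 45940917516) (nat_lit 152) (nat_lit 1233685487) (nat_lit 0) (nat_lit 41907245162) (nat_lit 3) (nat_lit 5) (nat_lit 5) (nat_lit 4) (nat_lit 3) (nat_lit 4) (nat_lit 402) (nat_lit 202) (nat_lit 176)) (XT.nd (nat_lit 78) (nat_lit 0) (nat_lit 0) (XT.lf (nat_lit 0) (nat_lit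 2474625991) (nat_lit 76) (nat_lit 46676072983) (nat_lit 76) (nat_lit 42540821440) (nat_lit 2) (nat_lit 4) (nat_lit 3) (nat_lit 5) (nat_lit 3) (nat_lit 4) (nat_lit 403) (nat_lit 202) (nat_lit 175)) (XT.lf (nat_lit 0) (nat_lit 6267035127) (nat_lit 76) (nat_lit 46173412230) (nat_lit 76) (nat_lit 41939540115) (nat_lit 2) (nat_lit 4) (nat_lit 3) (nat_lit 5) (nat_lit 3) (nat_lit 4) (nat_lit 404) (nat_lit 202) (nat_lit 174)))))) (XT.nd (nat_lit 468) (nat_lit 0) (nat_lit 0) (XT.nd (nat_lit 234) (nat_lit 0) (nat_lit 0) (XT.nd (nat_lit 78) (nat_lit 76) (nat_lit 0) (XT.lf (nat_lit 0) (nat_lit 7518138183) (nat_lit 152) (nat_lit 5182745528) (nat_lit 0) (nat_lit 7518138183) (nat_lit 6) (nat_lit 5) (nat_lit 8) (nat_lit 4) (nat_lit 6) (nat_lit 4) (nat_lit 374) (nat_lit 203) (nat_lit 203)) (XT.nd (nat_lit 78) (nat_lit 76) (nat_lit 0) (XT.lf (nat_lit 0) (nat_lit 18330679710) (nat_lit 152) (nat_lit 5127992801) (nat_lit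 0) (nat_lit 18098273873) (nat_lit 6) (nat_lit 5) (nat_lit 8) (nat_lit 4) (nat_lit 6) (nat_lit 4) (nat_lit 375) (nat_lit 203) (nat_lit 202)) (XT.lf (nat_lit 0) (nat_lit 162594178) (nat_lit 76) (nat_lit 21503319234) (nat_lit 76) (nat_lit 21045276663) (nat_lit 5) (nat_lit 4) (nat_lit 6) (nat_lit 5) (nat_lit 6) (nat_lit 4) (nat_lit 376) (nat_lit 203) (nat_lit 201)))) (XT.nd (nat_lit 78) (nat_lit 0) (nat_lit 0) (XT.lf (nat_lit 0) (nat_lit 5610859639) (nat_lit 76) (nat_lit 19483276903) (nat_lit 76) (nat_lit 18806169540) (nat_lit 5) (nat_lit 4) (nat_lit 6) (nat_lit 5) (nat_lit 6) (nat_lit 4) (nat_lit 377) (nat_lit 203) (nat_lit 200)) (XT.nd (nat_lit 78) (nat_lit 0) (nat_lit 0) (XT.lf (nat_lit 0) (nat_lit 11119507089) (nat_lit 76) (nat_lit 17448563104) (nat_lit 76) (nat_lit 16558771478) (nat_lit 5) (nat_lit 4) (nat_lit 6) (nat_lit 5) (nat_lit 6) (nat_lit 4) (nat_lit 378) (nat_lit 203) (nat_lit 199)) (XT.lf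 (nat_lit 0) (nat_lit 16693349911) (nat_lit 76) (nat_lit 15397399933) (nat_lit 76) (nat_lit 14301118731) (nat_lit 5) (nat_lit 4) (nat_lit 6) (nat_lit 5) (nat_lit 6) (nat_lit 4) (nat_lit 379) (nat_lit 203) (nat_lit 198))))) (XT.nd (nat_lit 234) (nat_lit 0) (nat_lit 0) (XT.nd (nat_lit 78) (nat_lit 0) (nat_lit 0) (XT.lf (nat_lit 0) (nat_lit 22337258451) (nat_lit 76) (nat_lit 13327995110) (nat_lit 76) (nat_lit 12031238591) (nat_lit 5) (nat_lit 4) (nat_lit 6) (nat_lit 5) (nat_lit 6) (nat_lit 4) (nat_lit 380) (nat_lit 203) (nat_lit 197)) (XT.nd (nat_lit 78) (nat_lit 0) (nat_lit 0) (XT.lf (nat_lit 0) (nat_lit 28056164282) (nat_lit 76) (nat_lit 11238540418) (nat_lit 76) (nat_lit 9747147670) (nat_lit 5) (nat_lit 4) (nat_lit 6) (nat_lit 5) (nat_lit 6) (nat_lit 4) (nat_lit 381) (nat_lit 203) (nat_lit 196)) (XT.lf (nat_lit 0) (nat_lit 33855064504) (nat_lit 76) (nat_lit 9127210120) (nat_lit 76) (nat_lit 7446850159)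 (nat_lit 5) (nat_lit 4) (nat_lit 6) (nat_lit 5) (nat_lit 6) (nat_lit 4) (nat_lit 382) (nat_lit 203) (nat_lit 195)))) (XT.nd (nat_lit 78) (nat_lit 0) (nat_lit 0) (XT.lf (nat_lit 0) (nat_lit 39739026118) (nat_lit 76) (nat_lit 6992159365) (nat_lit 76) (nat_lit 5128336089) (nat_lit 5) (nat_lit 4) (nat_lit 6) (nat_lit 5) (nat_lit 6) (nat_lit 4) (nat_lit 383) (nat_lit 203) (nat_lit 194)) (XT.nd (nat_lit 78) (nat_lit 0) (nat_lit 0) (XT.lf (nat_lit 0) (nat_lit 45713190450) (nat_lit 76) (nat_lit 4831522573) (nat_lit 76) (nat_lit 2789579575) (nat_lit 5) (nat_lit 4) (nat_lit 6) (nat_lit 5) (nat_lit 6) (nat_lit 4) (nat_lit 384) (nat_lit 203) (nat_lit 193)) (XT.lf (nat_lit 0) (nat_lit 51782777644) (nat_lit 76) (nat_lit 2643411809) (nat_lit 76) (nat_lit 428537043) (nat_lit 5) (nat_lit 4) (nat_lit 6) (nat_lit 5) (nat_lit 6) (nat_lit 4) (nat_lit 385) (nat_lit 203) (nat_lit 192))))))))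
noncomputable def xc5 : XT := (XT.nd (nat_lit 39858) (nat_lit 0) (nat_lit 76) (XT.nd (nat_lit 858) (nat_lit 76) (nat_lit 0) (XT.nd (nat_lit 390) (nat_lit 0) (nat_lit 0) (XT.nd (nat_lit 156) (nat_lit 0) (nat_lit 0) (XT.nd (nat_lit 78) (nat_lit 0) (nat_lit 0) (XT.lf (nat_lit 0) (nat_lit 1542223268) (nat_lit 76) (nat_lit 391270798) (nat_lit 152) (nat_lit 54487648675) (nat_lit 3) (nat_lit 5) (nat_lit 4) (nat_lit 5) (nat_lit 5) (nat_lit 4) (nat_lit 386) (nat_lit 203) (nat_lit 191)) (XT.lf (nat_lit 0) (nat_lit 4362256563) (nat_lit 152) (nat_lit 51781426072) (nat_lit 0) (nat_lit 1890630867) (nat_lit 3) (nat_lit 5) (nat_lit 5) (nat_lit 4) (nat_lit 3) (nat_lit 4) (nat_lit 387) (nat_lit 203) (nat_lit 190))) (XT.nd (nat_lit 78) (nat_lit 0) (nat_lit 0) (XT.lf (nat_lit 0) (nat_lit 6823696228) (nat_lit 152) (nat_lit 48674988963) (nat_lit 0) (nat_lit 4198422895) (nat_lit 3) (nat_lit 5) (nat_lit 5) (nat_lit 4)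 (nat_lit 3) (nat_lit 4) (nat_lit 388) (nat_lit 203) (nat_lit 189)) (XT.nd (nat_lit 78) (nat_lit 0) (nat_lit 0) (XT.lf (nat_lit 0) (nat_lit 9316202700) (nat_lit 152) (nat_lit 45553132650) (nat_lit 0) (nat_lit 6541756905) (nat_lit 3) (nat_lit 5) (nat_lit 5) (nat_lit 4) (nat_lit 3) (nat_lit 4) (nat_lit 389) (nat_lit 203) (nat_lit 188)) (XT.lf (nat_lit 0) (nat_lit 11841953899) (nat_lit 152) (nat_lit 42413129299) (nat_lit 0) (nat_lit 8922680469) (nat_lit 3) (nat_lit 5) (nat_lit 5) (nat_lit 4) (nat_lit 3) (nat_lit 4) (nat_lit 390) (nat_lit 203) (nat_lit 187))))) (XT.nd (nat_lit 234) (nat_lit 0) (nat_lit 0) (XT.nd (nat_lit 78) (nat_lit 0) (nat_lit 0) (XT.lf (nat_lit 0) (nat_lit 14403156790) (nat_lit 152) (nat_lit 39252235216) (nat_lit 0) (nat_lit 11343274007) (nat_lit 3) (nat_lit 5) (nat_lit 5) (nat_lit 4) (nat_lit 3) (nat_lit 4) (nat_lit 391) (nat_lit 203) (nat_lit 186)) (XT.nd (nat_lit 78) (nat_lit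 0) (nat_lit 0) (XT.lf (nat_lit 0) (nat_lit 17002049318) (nat_lit 152) (nat_lit 36067688455) (nat_lit 0) (nat_lit 13805652599) (nat_lit 3) (nat_lit 5) (nat_lit 5) (nat_lit 4) (nat_lit 3) (nat_lit 4) (nat_lit 392) (nat_lit 203) (nat_lit 185)) (XT.lf (nat_lit 0) (nat_lit 19640902360) (nat_lit 152) (nat_lit 32856706404) (nat_lit 0) (nat_lit 16311967840) (nat_lit 3) (nat_lit 5) (nat_lit 5) (nat_lit 4) (nat_lit 3) (nat_lit 4) (nat_lit 393) (nat_lit 203) (nat_lit 184)))) (XT.nd (nat_lit 78) (nat_lit 0) (nat_lit 0) (XT.lf (nat_lit 0) (nat_lit 22322021710) (nat_lit 152) (nat_lit 29616483348) (nat_lit 0) (nat_lit 18864409713) (nat_lit 3) (nat_lit 5) (nat_lit 5) (nat_lit 4) (nat_lit 3) (nat_lit 4) (nat_lit 394) (nat_lit 203) (nat_lit 183)) (XT.nd (nat_lit 78) (nat_lit 0) (nat_lit 0) (XT.lf (nat_lit 0) (nat_lit 25047750094) (nat_lit 152) (nat_lit 26344188026) (nat_lit 0) (nat_lit 21465208507) (nat_lit 3) (nat_lit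 5) (nat_lit 5) (nat_lit 4) (nat_lit 3) (nat_lit 4) (nat_lit 395) (nat_lit 203) (nat_lit 182)) (XT.lf (nat_lit 0) (nat_lit 27820469216) (nat_lit 152) (nat_lit 23036961150) (nat_lit 0) (nat_lit 24116636766) (nat_lit 3) (nat_lit 5) (nat_lit 5) (nat_lit 4) (nat_lit 3) (nat_lit 4) (nat_lit 396) (nat_lit 203) (nat_lit 181)))))) (XT.nd (nat_lit 468) (nat_lit 76) (nat_lit 0) (XT.nd (nat_lit 234) (nat_lit 0) (nat_lit 0) (XT.nd (nat_lit 78) (nat_lit 0) (nat_lit 0) (XT.lf (nat_lit 0) (nat_lit 30642601840) (nat_lit 152) (nat_lit 19691912910) (nat_lit 0) (nat_lit 26821011270) (nat_lit 3) (nat_lit 5) (nat_lit 5) (nat_lit 4) (nat_lit 3) (nat_lit 4) (nat_lit 397) (nat_lit 203) (nat_lit 180)) (XT.nd (nat_lit 78) (nat_lit 0) (nat_lit 0) (XT.lf (nat_lit 0) (nat_lit 33516613907) (nat_lit 152) (nat_lit 16306120449) (nat_lit 0) (nat_lit 29580695066) (nat_lit 3) (nat_lit 5) (nat_lit 5) (nat_lit 4) (nat_lit 3) (nat_lit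 4) (nat_lit 398) (nat_lit 203) (nat_lit 179)) (XT.lf (nat_lit 0) (nat_lit 36445016690) (nat_lit 152) (nat_lit 12876625308) (nat_lit 0) (nat_lit 32398099527) (nat_lit 3) (nat_lit 5) (nat_lit 5) (nat_lit 4) (nat_lit 3) (nat_lit 4) (nat_lit 399) (nat_lit 203) (nat_lit 178)))) (XT.nd (nat_lit 78) (nat_lit 0) (nat_lit 0) (XT.lf (nat_lit 0) (nat_lit 39430368989) (nat_lit 152) (nat_lit 9400430839) (nat_lit 0) (nat_lit 35275686464) (nat_lit 3) (nat_lit 5) (nat_lit 5) (nat_lit 4) (nat_lit 3) (nat_lit 4) (nat_lit 400) (nat_lit 203) (nat_lit 177)) (XT.nd (nat_lit 78) (nat_lit 0) (nat_lit 0) (XT.lf (nat_lit 0) (nat_lit 42475279362) (nat_lit 152) (nat_lit 5874499592) (nat_lit 0) (nat_lit 38215970273) (nat_lit 3) (nat_lit 5) (nat_lit 5) (nat_lit 4) (nat_lit 3) (nat_lit 4) (nat_lit 401) (nat_lit 203) (nat_lit 176)) (XT.lf (nat_lit 0) (nat_lit 45582408411) (nat_lit 152) (nat_lit 2295750655) (nat_lit 0) (nat_lit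 41221520133) (nat_lit 3) (nat_lit 5) (nat_lit 5) (nat_lit 4) (nat_lit 3) (nat_lit 4) (nat_lit 402) (nat_lit 203) (nat_lit 175))))) (XT.nd (nat_lit 38298) (nat_lit 0) (nat_lit 304) (XT.nd (nat_lit 78) (nat_lit 0) (nat_lit 0) (XT.lf (nat_lit 0) (nat_lit 1365590624) (nat_lit 76) (nat_lit 47402007372) (nat_lit 76) (nat_lit 42942498522) (nat_lit 2) (nat_lit 4) (nat_lit 3) (nat_lit 5) (nat_lit 3) (nat_lit 4) (nat_lit 403) (nat_lit 203) (nat_lit 174)) (XT.nd (nat_lit 38142) (nat_lit 0) (nat_lit 304) (XT.lf (nat_lit 0) (nat_lit 5132919159) (nat_lit 76) (nat_lit 46910660745) (nat_lit 76) (nat_lit 42355403768) (nat_lit 2) (nat_lit 4) (nat_lit 3) (nat_lit 5) (nat_lit 3) (nat_lit 4) (nat_lit 404) (nat_lit 203) (nat_lit 173)) (XT.lf (nat_lit 0) (nat_lit 4412148219) (nat_lit 152) (nat_lit 10326488699) (nat_lit 0) (nat_lit 4412148219) (nat_lit 6) (nat_lit 5) (nat_lit 8) (nat_lit 4) (nat_lit 6) (nat_lit 4) (nat_lit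 372) (nat_lit 204) (nat_lit 204)))) (XT.nd (nat_lit 78) (nat_lit 0) (nat_lit 0) (XT.lf (nat_lit 0) (nat_lit 12017639835) (nat_lit 152) (nat_lit 15557649842) (nat_lit 0) (nat_lit 11778261823) (nat_lit 6) (nat_lit 5) (nat_lit 8) (nat_lit 4) (nat_lit 6) (nat_lit 4) (nat_lit 373) (nat_lit 204) (nat_lit 203)) (XT.nd (nat_lit 78) (nat_lit 0) (nat_lit 0) (XT.lf (nat_lit 0) (nat_lit 15245431898) (nat_lit 152) (nat_lit 10419887753) (nat_lit 0) (nat_lit 14773648049) (nat_lit 6) (nat_lit 5) (nat_lit 8) (nat_lit 4) (nat_lit 6) (nat_lit 4) (nat_lit 374) (nat_lit 204) (nat_lit 202)) (XT.lf (nat_lit 0) (nat_lit 18510493027) (nat_lit 152) (nat_lit 5235201823) (nat_lit 0) (nat_lit 17813072443) (nat_lit 6) (nat_lit 5) (nat_lit 8) (nat_lit 4) (nat_lit 6) (nat_lit 4) (nat_lit 375) (nat_lit 204) (nat_lit 201))))))) (XT.nd (nat_lit 936) (nat_lit 0) (nat_lit 0) (XT.nd (nat_lit 468) (nat_lit 152) (nat_lit 0) (XT.nd (nat_lit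 234) (nat_lit 0) (nat_lit 0) (XT.nd (nat_lit 78) (nat_lit 0) (nat_lit 0) (XT.lf (nat_lit 0) (nat_lit 956928) (nat_lit 76) (nat_lit 21814728458) (nat_lit 76) (nat_lit 20898243083) (nat_lit 5) (nat_lit 4) (nat_lit 6) (nat_lit 5) (nat_lit 6) (nat_lit 4) (nat_lit 376) (nat_lit 204) (nat_lit 200)) (XT.nd (nat_lit 78) (nat_lit 0) (nat_lit 0) (XT.lf (nat_lit 0) (nat_lit 5398450973) (nat_lit 76) (nat_lit 19817311645) (nat_lit 76) (nat_lit 18688142007) (nat_lit 5) (nat_lit 4) (nat_lit 6) (nat_lit 5) (nat_lit 6) (nat_lit 4) (nat_lit 377) (nat_lit 204) (nat_lit 199)) (XT.lf (nat_lit 0) (nat_lit 10857805787) (nat_lit 76) (nat_lit 17804564369) (nat_lit 76) (nat_lit 16468905155) (nat_lit 5) (nat_lit 4) (nat_lit 6) (nat_lit 5) (nat_lit 6) (nat_lit 4) (nat_lit 378) (nat_lit 204) (nat_lit 198)))) (XT.nd (nat_lit 78) (nat_lit 0) (nat_lit 0) (XT.lf (nat_lit 0) (nat_lit 16383791679) (nat_lit 76) (nat_lit 15774727919)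 (nat_lit 76) (nat_lit 14238593388) (nat_lit 5) (nat_lit 4) (nat_lit 6) (nat_lit 5) (nat_lit 6) (nat_lit 4) (nat_lit 379) (nat_lit 204) (nat_lit 197)) (XT.nd (nat_lit 78) (nat_lit 0) (nat_lit 0) (XT.lf (nat_lit 0) (nat_lit 21981237182) (nat_lit 76) (nat_lit 13726028651) (nat_lit 76) (nat_lit 11995257890) (nat_lit 5) (nat_lit 4) (nat_lit 6) (nat_lit 5) (nat_lit 6) (nat_lit 4) (nat_lit 380) (nat_lit 204) (nat_lit 196)) (XT.lf (nat_lit 0) (nat_lit 27655033267) (nat_lit 76) (nat_lit 11656676439) (nat_lit 76) (nat_lit 9736938465) (nat_lit 5) (nat_lit 4) (nat_lit 6) (nat_lit 5) (nat_lit 6) (nat_lit 4) (nat_lit 381) (nat_lit 204) (nat_lit 195))))) (XT.nd (nat_lit 234) (nat_lit 152) (nat_lit 0) (XT.nd (nat_lit 78) (nat_lit 0) (nat_lit 0) (XT.lf (nat_lit 0) (nat_lit 33410137620) (nat_lit 76) (nat_lit 9564863112) (nat_lit 76) (nat_lit 7461661824) (nat_lit 5) (nat_lit 4) (nat_lit 6) (nat_lit 5) (nat_lit 6)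 (nat_lit 4) (nat_lit 382) (nat_lit 204) (nat_lit 194)) (XT.nd (nat_lit 78) (nat_lit 0) (nat_lit 0) (XT.lf (nat_lit 0) (nat_lit 39251578973) (nat_lit 76) (nat_lit 7448760872) (nat_lit 76) (nat_lit 5167439862) (nat_lit 5) (nat_lit 4) (nat_lit 6) (nat_lit 5) (nat_lit 6) (nat_lit 4) (nat_lit 383) (nat_lit 204) (nat_lit 193)) (XT.lf (nat_lit 0) (nat_lit 45184461498) (nat_lit 76) (nat_lit 5306520696) (nat_lit 76) (nat_lit 2852267918) (nat_lit 5) (nat_lit 4) (nat_lit 6) (nat_lit 5) (nat_lit 6) (nat_lit 4) (nat_lit 384) (nat_lit 204) (nat_lit 192)))) (XT.nd (nat_lit 78) (nat_lit 152) (nat_lit 0) (XT.lf (nat_lit 0) (nat_lit 51213969267) (nat_lit 76) (nat_lit 3136270726) (nat_lit 76) (nat_lit 514123026) (nat_lit 5) (nat_lit 4) (nat_lit 6) (nat_lit 5) (nat_lit 6) (nat_lit 4) (nat_lit 385) (nat_lit 204) (nat_lit 191)) (XT.nd (nat_lit 78) (nat_lit 0) (nat_lit 0) (XT.lf (nat_lit 0) (nat_lit 912964364) (nat_lit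 76) (nat_lit 908768070) (nat_lit 152) (nat_lit 54609918621) (nat_lit 3) (nat_lit 5) (nat_lit 4) (nat_lit 5) (nat_lit 5) (nat_lit 4) (nat_lit 386) (nat_lit 204) (nat_lit 190)) (XT.lf (nat_lit 0) (nat_lit 4223816157) (nat_lit 152) (nat_lit 52455680427) (nat_lit 0) (nat_lit 1366136988) (nat_lit 3) (nat_lit 5) (nat_lit 5) (nat_lit 4) (nat_lit 3) (nat_lit 4) (nat_lit 387) (nat_lit 204) (nat_lit 189)))))) (XT.nd (nat_lit 468) (nat_lit 0) (nat_lit 0) (XT.nd (nat_lit 234) (nat_lit 0) (nat_lit 0) (XT.nd (nat_lit 78) (nat_lit 0) (nat_lit 0) (XT.lf (nat_lit 0) (nat_lit 6664183713) (nat_lit 152) (nat_lit 49387555589) (nat_lit 0) (nat_lit 3657332080) (nat_lit 3) (nat_lit 5) (nat_lit 5) (nat_lit 4) (nat_lit 3) (nat_lit 4) (nat_lit 388) (nat_lit 204) (nat_lit 188)) (XT.nd (nat_lit 78) (nat_lit 0) (nat_lit 0) (XT.lf (nat_lit 0) (nat_lit 9136231826) (nat_lit 152) (nat_lit 46302895656) (nat_lit 0) (nat_lit 5984552560)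 (nat_lit 3) (nat_lit 5) (nat_lit 5) (nat_lit 4) (nat_lit 3) (nat_lit 4) (nat_lit 389) (nat_lit 204) (nat_lit 187)) (XT.lf (nat_lit 0) (nat_lit 11642120540) (nat_lit 152) (nat_lit 43199005294) (nat_lit 0) (nat_lit 8349831920) (nat_lit 3) (nat_lit 5) (nat_lit 5) (nat_lit 4) (nat_lit 3) (nat_lit 4) (nat_lit 390) (nat_lit 204) (nat_lit 186)))) (XT.nd (nat_lit 78) (nat_lit 0) (nat_lit 0) (XT.lf (nat_lit 0) (nat_lit 14184039466) (nat_lit 152) (nat_lit 40073172366) (nat_lit 0) (nat_lit 10755236911) (nat_lit 3) (nat_lit 5) (nat_lit 5) (nat_lit 4) (nat_lit 3) (nat_lit 4) (nat_lit 391) (nat_lit 204) (nat_lit 185)) (XT.nd (nat_lit 78) (nat_lit 0) (nat_lit 0) (XT.lf (nat_lit 0) (nat_lit 16764209698) (nat_lit 152) (nat_lit 36922665562) (nat_lit 0) (nat_lit 13202869341) (nat_lit 3) (nat_lit 5) (nat_lit 5) (nat_lit 4) (nat_lit 3) (nat_lit 4) (nat_lit 392) (nat_lit 204) (nat_lit 184)) (XT.lf (nat_lit 0) (nat_lit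 19384885753) (nat_lit 152) (nat_lit 33744732012) (nat_lit 0) (nat_lit 15694867919) (nat_lit 3) (nat_lit 5) (nat_lit 5) (nat_lit 4) (nat_lit 3) (nat_lit 4) (nat_lit 393) (nat_lit 204) (nat_lit 183))))) (XT.nd (nat_lit 234) (nat_lit 0) (nat_lit 0) (XT.nd (nat_lit 78) (nat_lit 0) (nat_lit 0) (XT.lf (nat_lit 0) (nat_lit 22048357543) (nat_lit 152) (nat_lit 30536594880) (nat_lit 0) (nat_lit 18233410120) (nat_lit 3) (nat_lit 5) (nat_lit 5) (nat_lit 4) (nat_lit 3) (nat_lit 4) (nat_lit 394) (nat_lit 204) (nat_lit 182)) (XT.nd (nat_lit 78) (nat_lit 0) (nat_lit 0) (XT.lf (nat_lit 0) (nat_lit 24756952373) (nat_lit 152) (nat_lit 27295450940) (nat_lit 0) (nat_lit 20820714087) (nat_lit 3) (nat_lit 5) (nat_lit 5) (nat_lit 4) (nat_lit 3) (nat_lit 4) (nat_lit 395) (nat_lit 204) (nat_lit 181)) (XT.lf (nat_lit 0) (nat_lit 27513036977) (nat_lit 152) (nat_lit 24018468125) (nat_lit 0) (nat_lit 23459040571) (nat_lit 3)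 (nat_lit 5) (nat_lit 5) (nat_lit 4) (nat_lit 3) (nat_lit 4) (nat_lit 396) (nat_lit 204) (nat_lit 180)))) (XT.nd (nat_lit 78) (nat_lit 0) (nat_lit 0) (XT.lf (nat_lit 0) (nat_lit 30319019584) (nat_lit 152) (nat_lit 20702783050) (nat_lit 0) (nat_lit 26150694905) (nat_lit 3) (nat_lit 5) (nat_lit 5) (nat_lit 4) (nat_lit 3) (nat_lit 4) (nat_lit 397) (nat_lit 204) (nat_lit 179)) (XT.nd (nat_lit 78) (nat_lit 0) (nat_lit 0) (XT.lf (nat_lit 0) (nat_lit 33177352023) (nat_lit 152) (nat_lit 17345498517) (nat_lit 0) (nat_lit 28898029022) (nat_lit 3) (nat_lit 5) (nat_lit 5) (nat_lit 4) (nat_lit 3) (nat_lit 4) (nat_lit 398) (nat_lit 204) (nat_lit 178)) (XT.lf (nat_lit 0) (nat_lit 36090531866) (nat_lit 152) (nat_lit 13943680975) (nat_lit 0) (nat_lit 31703443504) (nat_lit 3) (nat_lit 5) (nat_lit 5) (nat_lit 4) (nat_lit 3) (nat_lit 4) (nat_lit 399) (nat_lit 204) (nat_lit 177))))))))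
noncomputable def xc6 : XT := (XT.nd (nat_lit 39702) (nat_lit 0) (nat_lit 0) (XT.nd (nat_lit 38766) (nat_lit 0) (nat_lit 76) (XT.nd (nat_lit 38298) (nat_lit 0) (nat_lit 304) (XT.nd (nat_lit 156) (nat_lit 76) (nat_lit 0) (XT.nd (nat_lit 78) (nat_lit 0) (nat_lit 0) (XT.lf (nat_lit 0) (nat_lit 39061104610) (nat_lit 152) (nat_lit 10494357962) (nat_lit 0) (nat_lit 34569389684) (nat_lit 3) (nat_lit 5) (nat_lit 5) (nat_lit 4) (nat_lit 3) (nat_lit 4) (nat_lit 400) (nat_lit 204) (nat_lit 176)) (XT.lf (nat_lit 0) (nat_lit 42091665902) (nat_lit 152) (nat_lit 6994515507) (nat_lit 0) (nat_lit 37498371787) (nat_lit 3) (nat_lit 5) (nat_lit 5) (nat_lit 4) (nat_lit 3) (nat_lit 4) (nat_lit 401) (nat_lit 204) (nat_lit 175))) (XT.nd (nat_lit 78) (nat_lit 76) (nat_lit 0) (XT.lf (nat_lit 0) (nat_lit 45184863804) (nat_lit 152) (nat_lit 3441095495) (nat_lit 0) (nat_lit 40492949118) (nat_lit 3) (nat_lit 5) (nat_lit 5)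 (nat_lit 4) (nat_lit 3) (nat_lit 4) (nat_lit 402) (nat_lit 204) (nat_lit 174)) (XT.nd (nat_lit 78) (nat_lit 0) (nat_lit 0) (XT.lf (nat_lit 0) (nat_lit 172370574) (nat_lit 76) (nat_lit 48172687468) (nat_lit 76) (nat_lit 43385024654) (nat_lit 2) (nat_lit 4) (nat_lit 3) (nat_lit 5) (nat_lit 3) (nat_lit 4) (nat_lit 403) (nat_lit 204) (nat_lit 173)) (XT.lf (nat_lit 0) (nat_lit 3915349010) (nat_lit 76) (nat_lit 47692325430) (nat_lit 76) (nat_lit 42811703269) (nat_lit 2) (nat_lit 4) (nat_lit 3) (nat_lit 5) (nat_lit 3) (nat_lit 4) (nat_lit 404) (nat_lit 204) (nat_lit 172))))) (XT.nd (nat_lit 234) (nat_lit 0) (nat_lit 0) (XT.nd (nat_lit 78) (nat_lit 0) (nat_lit 0) (XT.lf (nat_lit 0) (nat_lit 1404222242) (nat_lit 152) (nat_lit 15338197588) (nat_lit 0) (nat_lit 1404222242) (nat_lit 6) (nat_lit 5) (nat_lit 8) (nat_lit 4) (nat_lit 6) (nat_lit 4) (nat_lit 370) (nat_lit 205) (nat_lit 205)) (XT.nd (nat_lit 78)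 (nat_lit 0) (nat_lit 0) (XT.lf (nat_lit 0) (nat_lit 5909170759) (nat_lit 152) (nat_lit 25710322647) (nat_lit 0) (nat_lit 5662611407) (nat_lit 6) (nat_lit 5) (nat_lit 8) (nat_lit 4) (nat_lit 6) (nat_lit 4) (nat_lit 371) (nat_lit 205) (nat_lit 204)) (XT.lf (nat_lit 0) (nat_lit 9039726635) (nat_lit 152) (nat_lit 20709005995) (nat_lit 0) (nat_lit 8553789271) (nat_lit 6) (nat_lit 5) (nat_lit 8) (nat_lit 4) (nat_lit 6) (nat_lit 4) (nat_lit 372) (nat_lit 205) (nat_lit 203)))) (XT.nd (nat_lit 78) (nat_lit 0) (nat_lit 0) (XT.lf (nat_lit 0) (nat_lit 12202847551) (nat_lit 152) (nat_lit 15668075135) (nat_lit 0) (nat_lit 11484504350) (nat_lit 6) (nat_lit 5) (nat_lit 8) (nat_lit 4) (nat_lit 6) (nat_lit 4) (nat_lit 373) (nat_lit 205) (nat_lit 202)) (XT.nd (nat_lit 78) (nat_lit 0) (nat_lit 0) (XT.lf (nat_lit 0) (nat_lit 15401297399) (nat_lit 152) (nat_lit 10583125372) (nat_lit 0) (nat_lit 14457317463) (nat_lit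 6) (nat_lit 5) (nat_lit 8) (nat_lit 4) (nat_lit 6) (nat_lit 4) (nat_lit 374) (nat_lit 205) (nat_lit 201)) (XT.lf (nat_lit 0) (nat_lit 18637870941) (nat_lit 152) (nat_lit 5449713545) (nat_lit 0) (nat_lit 17474826213) (nat_lit 6) (nat_lit 5) (nat_lit 8) (nat_lit 4) (nat_lit 6) (nat_lit 4) (nat_lit 375) (nat_lit 205) (nat_lit 200)))))) (XT.nd (nat_lit 468) (nat_lit 152) (nat_lit 0) (XT.nd (nat_lit 234) (nat_lit 0) (nat_lit 0) (XT.nd (nat_lit 78) (nat_lit 76) (nat_lit 0) (XT.lf (nat_lit 0) (nat_lit 21915396251) (nat_lit 152) (nat_lit 263354149) (nat_lit 0) (nat_lit 20539667260) (nat_lit 6) (nat_lit 5) (nat_lit 8) (nat_lit 4) (nat_lit 6) (nat_lit 4) (nat_lit 376) (nat_lit 205) (nat_lit 199)) (XT.nd (nat_lit 78) (nat_lit 0) (nat_lit 0) (XT.lf (nat_lit 0) (nat_lit 5079605994) (nat_lit 76) (nat_lit 20205959471) (nat_lit 76) (nat_lit 18623740904) (nat_lit 5) (nat_lit 4) (nat_lit 6) (nat_lit 5) (nat_lit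 6) (nat_lit 4) (nat_lit 377) (nat_lit 205) (nat_lit 198)) (XT.lf (nat_lit 0) (nat_lit 10491103879) (nat_lit 76) (nat_lit 18214538916) (nat_lit 76) (nat_lit 16431845032) (nat_lit 5) (nat_lit 4) (nat_lit 6) (nat_lit 5) (nat_lit 6) (nat_lit 4) (nat_lit 378) (nat_lit 205) (nat_lit 197)))) (XT.nd (nat_lit 78) (nat_lit 0) (nat_lit 0) (XT.lf (nat_lit 0) (nat_lit 15970626734) (nat_lit 76) (nat_lit 16205408020) (nat_lit 76) (nat_lit 14228077907) (nat_lit 5) (nat_lit 4) (nat_lit 6) (nat_lit 5) (nat_lit 6) (nat_lit 4) (nat_lit 379) (nat_lit 205) (nat_lit 196)) (XT.nd (nat_lit 78) (nat_lit 0) (nat_lit 0) (XT.lf (nat_lit 0) (nat_lit 21522962492) (nat_lit 76) (nat_lit 14176811232) (nat_lit 76) (nat_lit 12010513905) (nat_lit 5) (nat_lit 4) (nat_lit 6) (nat_lit 5) (nat_lit 6) (nat_lit 4) (nat_lit 380) (nat_lit 205) (nat_lit 195)) (XT.lf (nat_lit 0) (nat_lit 27152962708) (nat_lit 76) (nat_lit 12126975991) (nat_lit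 76) (nat_lit 9777215351) (nat_lit 5) (nat_lit 4) (nat_lit 6) (nat_lit 5) (nat_lit 6) (nat_lit 4) (nat_lit 381) (nat_lit 205) (nat_lit 194))))) (XT.nd (nat_lit 234) (nat_lit 152) (nat_lit 0) (XT.nd (nat_lit 78) (nat_lit 0) (nat_lit 0) (XT.lf (nat_lit 0) (nat_lit 32865546799) (nat_lit 76) (nat_lit 10054111180) (nat_lit 76) (nat_lit 7526230817) (nat_lit 5) (nat_lit 4) (nat_lit 6) (nat_lit 5) (nat_lit 6) (nat_lit 4) (nat_lit 382) (nat_lit 205) (nat_lit 193)) (XT.nd (nat_lit 78) (nat_lit 0) (nat_lit 0) (XT.lf (nat_lit 0) (nat_lit 38665706345) (nat_lit 76) (nat_lit 7956405556) (nat_lit 76) (nat_lit 5255593425) (nat_lit 5) (nat_lit 4) (nat_lit 6) (nat_lit 5) (nat_lit 6) (nat_lit 4) (nat_lit 383) (nat_lit 205) (nat_lit 192)) (XT.lf (nat_lit 0) (nat_lit 44558509445) (nat_lit 76) (nat_lit 5832026174) (nat_lit 76) (nat_lit 2963319122) (nat_lit 5) (nat_lit 4) (nat_lit 6) (nat_lit 5) (nat_lit 6) (nat_lit 4)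 (nat_lit 384) (nat_lit 205) (nat_lit 191)))) (XT.nd (nat_lit 78) (nat_lit 152) (nat_lit 0) (XT.lf (nat_lit 0) (nat_lit 50549105152) (nat_lit 76) (nat_lit 3679116780) (nat_lit 76) (nat_lit 647404949) (nat_lit 5) (nat_lit 4) (nat_lit 6) (nat_lit 5) (nat_lit 6) (nat_lit 4) (nat_lit 385) (nat_lit 205) (nat_lit 190)) (XT.nd (nat_lit 78) (nat_lit 0) (nat_lit 0) (XT.lf (nat_lit 0) (nat_lit 185715059) (nat_lit 76) (nat_lit 1477183441) (nat_lit 152) (nat_lit 54780910831) (nat_lit 3) (nat_lit 5) (nat_lit 4) (nat_lit 5) (nat_lit 5) (nat_lit 4) (nat_lit 386) (nat_lit 205) (nat_lit 189)) (XT.lf (nat_lit 0) (nat_lit 4038446157) (nat_lit 152) (nat_lit 53227936323) (nat_lit 0) (nat_lit 792216513) (nat_lit 3) (nat_lit 5) (nat_lit 5) (nat_lit 4) (nat_lit 3) (nat_lit 4) (nat_lit 387) (nat_lit 205) (nat_lit 188))))))) (XT.nd (nat_lit 936) (nat_lit 76) (nat_lit 0) (XT.nd (nat_lit 468) (nat_lit 0) (nat_lit 0) (XT.nd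 (nat_lit 234) (nat_lit 0) (nat_lit 0) (XT.nd (nat_lit 78) (nat_lit 0) (nat_lit 0) (XT.lf (nat_lit 0) (nat_lit 6458355354) (nat_lit 152) (nat_lit 50197007864) (nat_lit 0) (nat_lit 3067298075) (nat_lit 3) (nat_lit 5) (nat_lit 5) (nat_lit 4) (nat_lit 3) (nat_lit 4) (nat_lit 388) (nat_lit 205) (nat_lit 187)) (XT.nd (nat_lit 78) (nat_lit 0) (nat_lit 0) (XT.lf (nat_lit 0) (nat_lit 8910540983) (nat_lit 152) (nat_lit 47148460921) (nat_lit 0) (nat_lit 5378874351) (nat_lit 3) (nat_lit 5) (nat_lit 5) (nat_lit 4) (nat_lit 3) (nat_lit 4) (nat_lit 389) (nat_lit 205) (nat_lit 186)) (XT.lf (nat_lit 0) (nat_lit 11397145732) (nat_lit 152) (nat_lit 44079631714) (nat_lit 0) (nat_lit 7728965164) (nat_lit 3) (nat_lit 5) (nat_lit 5) (nat_lit 4) (nat_lit 3) (nat_lit 4) (nat_lit 390) (nat_lit 205) (nat_lit 185)))) (XT.nd (nat_lit 78) (nat_lit 0) (nat_lit 0) (XT.lf (nat_lit 0) (nat_lit 13920342361) (nat_lit 152) (nat_lit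 40987838743) (nat_lit 0) (nat_lit 10119623992) (nat_lit 3) (nat_lit 5) (nat_lit 5) (nat_lit 4) (nat_lit 3) (nat_lit 4) (nat_lit 391) (nat_lit 205) (nat_lit 184)) (XT.nd (nat_lit 78) (nat_lit 0) (nat_lit 0) (XT.lf (nat_lit 0) (nat_lit 16482335606) (nat_lit 152) (nat_lit 37870380440) (nat_lit 0) (nat_lit 12552939760) (nat_lit 3) (nat_lit 5) (nat_lit 5) (nat_lit 4) (nat_lit 3) (nat_lit 4) (nat_lit 392) (nat_lit 205) (nat_lit 183)) (XT.lf (nat_lit 0) (nat_lit 19085364101) (nat_lit 152) (nat_lit 34724532814) (nat_lit 0) (nat_lit 15031038666) (nat_lit 3) (nat_lit 5) (nat_lit 5) (nat_lit 4) (nat_lit 3) (nat_lit 4) (nat_lit 393) (nat_lit 205) (nat_lit 182))))) (XT.nd (nat_lit 234) (nat_lit 0) (nat_lit 0) (XT.nd (nat_lit 78) (nat_lit 0) (nat_lit 0) (XT.lf (nat_lit 0) (nat_lit 21731702338) (nat_lit 152) (nat_lit 31547547064) (nat_lit 0) (nat_lit 17556086039) (nat_lit 3) (nat_lit 5) (nat_lit 5) (nat_lit 4)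 (nat_lit 3) (nat_lit 4) (nat_lit 394) (nat_lit 205) (nat_lit 181)) (XT.nd (nat_lit 78) (nat_lit 0) (nat_lit 0) (XT.lf (nat_lit 0) (nat_lit 24423662650) (nat_lit 152) (nat_lit 28336647184) (nat_lit 0) (nat_lit 20130288231) (nat_lit 3) (nat_lit 5) (nat_lit 5) (nat_lit 4) (nat_lit 3) (nat_lit 4) (nat_lit 395) (nat_lit 205) (nat_lit 180)) (XT.lf (nat_lit 0) (nat_lit 27163597236) (nat_lit 152) (nat_lit 25089027534) (nat_lit 0) (nat_lit 22755894546) (nat_lit 3) (nat_lit 5) (nat_lit 5) (nat_lit 4) (nat_lit 3) (nat_lit 4) (nat_lit 396) (nat_lit 205) (nat_lit 179)))) (XT.nd (nat_lit 78) (nat_lit 0) (nat_lit 0) (XT.lf (nat_lit 0) (nat_lit 29953900214) (nat_lit 152) (nat_lit 21801850388) (nat_lit 0) (nat_lit 25435199202) (nat_lit 3) (nat_lit 5) (nat_lit 5) (nat_lit 4) (nat_lit 3) (nat_lit 4) (nat_lit 397) (nat_lit 205) (nat_lit 178)) (XT.nd (nat_lit 78) (nat_lit 0) (nat_lit 0) (XT.lf (nat_lit 0) (nat_lit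 32797009713) (nat_lit 152) (nat_lit 18472243454) (nat_lit 0) (nat_lit 28170543339) (nat_lit 3) (nat_lit 5) (nat_lit 5) (nat_lit 4) (nat_lit 3) (nat_lit 4) (nat_lit 398) (nat_lit 205) (nat_lit 177)) (XT.lf (nat_lit 0) (nat_lit 35695410002) (nat_lit 152) (nat_lit 15097297368) (nat_lit 0) (nat_lit 30964317064) (nat_lit 3) (nat_lit 5) (nat_lit 5) (nat_lit 4) (nat_lit 3) (nat_lit 4) (nat_lit 399) (nat_lit 205) (nat_lit 176)))))) (XT.nd (nat_lit 38220) (nat_lit 0) (nat_lit 304) (XT.nd (nat_lit 234) (nat_lit 76) (nat_lit 0) (XT.nd (nat_lit 78) (nat_lit 0) (nat_lit 0) (XT.lf (nat_lit 0) (nat_lit 38651633666) (nat_lit 152) (nat_lit 11674063147) (nat_lit 0) (nat_lit 33818961539) (nat_lit 3) (nat_lit 5) (nat_lit 5) (nat_lit 4) (nat_lit 3) (nat_lit 4) (nat_lit 400) (nat_lit 205) (nat_lit 175)) (XT.nd (nat_lit 78) (nat_lit 0) (nat_lit 0) (XT.lf (nat_lit 0) (nat_lit 41668263811) (nat_lit 152) (nat_lit 8199549616)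 (nat_lit 0) (nat_lit 36736971112) (nat_lit 3) (nat_lit 5) (nat_lit 5) (nat_lit 4) (nat_lit 3) (nat_lit 4) (nat_lit 401) (nat_lit 205) (nat_lit 174)) (XT.lf (nat_lit 0) (nat_lit 44747936328) (nat_lit 152) (nat_lit 4670720793) (nat_lit 0) (nat_lit 39720895502) (nat_lit 3) (nat_lit 5) (nat_lit 5) (nat_lit 4) (nat_lit 3) (nat_lit 4) (nat_lit 402) (nat_lit 205) (nat_lit 173)))) (XT.nd (nat_lit 78) (nat_lit 76) (nat_lit 0) (XT.lf (nat_lit 0) (nat_lit 47893342193) (nat_lit 152) (nat_lit 1084493234) (nat_lit 0) (nat_lit 42773342020) (nat_lit 3) (nat_lit 5) (nat_lit 5) (nat_lit 4) (nat_lit 3) (nat_lit 4) (nat_lit 403) (nat_lit 205) (nat_lit 172)) (XT.nd (nat_lit 37830) (nat_lit 0) (nat_lit 456) (XT.lf (nat_lit 0) (nat_lit 2613260787) (nat_lit 76) (nat_lit 48519089293) (nat_lit 76) (nat_lit 43308837327) (nat_lit 2) (nat_lit 4) (nat_lit 3) (nat_lit 5) (nat_lit 3) (nat_lit 4) (nat_lit 404) (nat_lit 205) (nat_lit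 171)) (XT.lf (nat_lit 0) (nat_lit 14203569708) (nat_lit 76) (nat_lit 1498836035) (nat_lit 76) (nat_lit 1498836035) (nat_lit 8) (nat_lit 4) (nat_lit 9) (nat_lit 5) (nat_lit 9) (nat_lit 4) (nat_lit 368) (nat_lit 206) (nat_lit 206))))) (XT.nd (nat_lit 234) (nat_lit 0) (nat_lit 0) (XT.nd (nat_lit 78) (nat_lit 152) (nat_lit 0) (XT.lf (nat_lit 0) (nat_lit 35061378182) (nat_lit 76) (nat_lit 267616159) (nat_lit 76) (nat_lit 6041342) (nat_lit 8) (nat_lit 4) (nat_lit 9) (nat_lit 5) (nat_lit 9) (nat_lit 4) (nat_lit 369) (nat_lit 206) (nat_lit 205)) (XT.nd (nat_lit 78) (nat_lit 0) (nat_lit 0) (XT.lf (nat_lit 0) (nat_lit 3030337588) (nat_lit 152) (nat_lit 30734104631) (nat_lit 0) (nat_lit 2529822103) (nat_lit 6) (nat_lit 5) (nat_lit 8) (nat_lit 4) (nat_lit 6) (nat_lit 4) (nat_lit 370) (nat_lit 206) (nat_lit 204)) (XT.lf (nat_lit 0) (nat_lit 6099934706) (nat_lit 152) (nat_lit 25824060699) (nat_lit 0) (nat_lit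 5360041209) (nat_lit 6) (nat_lit 5) (nat_lit 8) (nat_lit 4) (nat_lit 6) (nat_lit 4) (nat_lit 371) (nat_lit 206) (nat_lit 203)))) (XT.nd (nat_lit 78) (nat_lit 0) (nat_lit 0) (XT.lf (nat_lit 0) (nat_lit 9200268102) (nat_lit 152) (nat_lit 20877140742) (nat_lit 0) (nat_lit 8227968767) (nat_lit 6) (nat_lit 5) (nat_lit 8) (nat_lit 4) (nat_lit 6) (nat_lit 4) (nat_lit 372) (nat_lit 206) (nat_lit 202)) (XT.nd (nat_lit 78) (nat_lit 0) (nat_lit 0) (XT.lf (nat_lit 0) (nat_lit 12334046803) (nat_lit 152) (nat_lit 15889022209) (nat_lit 0) (nat_lit 11136110734) (nat_lit 6) (nat_lit 5) (nat_lit 8) (nat_lit 4) (nat_lit 6) (nat_lit 4) (nat_lit 373) (nat_lit 206) (nat_lit 201)) (XT.lf (nat_lit 0) (nat_lit 15504009064) (nat_lit 152) (nat_lit 10855346549) (nat_lit 0) (nat_lit 14087008203) (nat_lit 6) (nat_lit 5) (nat_lit 8) (nat_lit 4) (nat_lit 6) (nat_lit 4) (nat_lit 374) (nat_lit 206) (nat_lit 200))))))))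
noncomputable def xc7 : XT := (XT.nd (nat_lit 1794) (nat_lit 76) (nat_lit 0) (XT.nd (nat_lit 858) (nat_lit 152) (nat_lit 0) (XT.nd (nat_lit 390) (nat_lit 0) (nat_lit 0) (XT.nd (nat_lit 156) (nat_lit 76) (nat_lit 0) (XT.nd (nat_lit 78) (nat_lit 0) (nat_lit 0) (XT.lf (nat_lit 0) (nat_lit 18712924754) (nat_lit 152) (nat_lit 5771715404) (nat_lit 0) (nat_lit 17083239631) (nat_lit 6) (nat_lit 5) (nat_lit 8) (nat_lit 4) (nat_lit 6) (nat_lit 4) (nat_lit 375) (nat_lit 206) (nat_lit 199)) (XT.lf (nat_lit 0) (nat_lit 21963597781) (nat_lit 152) (nat_lit 633686768) (nat_lit 0) (nat_lit 20127423081) (nat_lit 6) (nat_lit 5) (nat_lit 8) (nat_lit 4) (nat_lit 6) (nat_lit 4) (nat_lit 376) (nat_lit 206) (nat_lit 198))) (XT.nd (nat_lit 78) (nat_lit 0) (nat_lit 0) (XT.lf (nat_lit 0) (nat_lit 4654046101) (nat_lit 76) (nat_lit 20649559975) (nat_lit 76) (nat_lit 18612909958) (nat_lit 5) (nat_lit 4) (nat_lit 6) (nat_lit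 5) (nat_lit 6) (nat_lit 4) (nat_lit 377) (nat_lit 206) (nat_lit 197)) (XT.nd (nat_lit 78) (nat_lit 0) (nat_lit 0) (XT.lf (nat_lit 0) (nat_lit 10019080948) (nat_lit 76) (nat_lit 18678844974) (nat_lit 76) (nat_lit 16447558728) (nat_lit 5) (nat_lit 4) (nat_lit 6) (nat_lit 5) (nat_lit 6) (nat_lit 4) (nat_lit 378) (nat_lit 206) (nat_lit 196)) (XT.lf (nat_lit 0) (nat_lit 15453494058) (nat_lit 76) (nat_lit 16689816559) (nat_lit 76) (nat_lit 14269563099) (nat_lit 5) (nat_lit 4) (nat_lit 6) (nat_lit 5) (nat_lit 6) (nat_lit 4) (nat_lit 379) (nat_lit 206) (nat_lit 195))))) (XT.nd (nat_lit 234) (nat_lit 0) (nat_lit 0) (XT.nd (nat_lit 78) (nat_lit 0) (nat_lit 0) (XT.lf (nat_lit 0) (nat_lit 20962033946) (nat_lit 76) (nat_lit 14680736741) (nat_lit 76) (nat_lit 12077019968) (nat_lit 5) (nat_lit 4) (nat_lit 6) (nat_lit 5) (nat_lit 6) (nat_lit 4) (nat_lit 380) (nat_lit 206) (nat_lit 194)) (XT.nd (nat_lit 78) (nat_lit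 0) (nat_lit 0) (XT.lf (nat_lit 0) (nat_lit 26549513901) (nat_lit 76) (nat_lit 12649850016) (nat_lit 76) (nat_lit 9868013521) (nat_lit 5) (nat_lit 4) (nat_lit 6) (nat_lit 5) (nat_lit 6) (nat_lit 4) (nat_lit 381) (nat_lit 206) (nat_lit 193)) (XT.lf (nat_lit 0) (nat_lit 32220816185) (nat_lit 76) (nat_lit 10595381822) (nat_lit 76) (nat_lit 7640613557) (nat_lit 5) (nat_lit 4) (nat_lit 6) (nat_lit 5) (nat_lit 6) (nat_lit 4) (nat_lit 382) (nat_lit 206) (nat_lit 192)))) (XT.nd (nat_lit 78) (nat_lit 0) (nat_lit 0) (XT.lf (nat_lit 0) (nat_lit 37980896306) (nat_lit 76) (nat_lit 8515536992) (nat_lit 76) (nat_lit 5392873806) (nat_lit 5) (nat_lit 4) (nat_lit 6) (nat_lit 5) (nat_lit 6) (nat_lit 4) (nat_lit 383) (nat_lit 206) (nat_lit 191)) (XT.nd (nat_lit 78) (nat_lit 0) (nat_lit 0) (XT.lf (nat_lit 0) (nat_lit 43834787344) (nat_lit 76) (nat_lit 6408498186) (nat_lit 76) (nat_lit 3122830222) (nat_lit 5) (nat_lit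 4) (nat_lit 6) (nat_lit 5) (nat_lit 6) (nat_lit 4) (nat_lit 384) (nat_lit 206) (nat_lit 190)) (XT.lf (nat_lit 0) (nat_lit 49787604349) (nat_lit 76) (nat_lit 4272424302) (nat_lit 76) (nat_lit 828499272) (nat_lit 5) (nat_lit 4) (nat_lit 6) (nat_lit 5) (nat_lit 6) (nat_lit 4) (nat_lit 385) (nat_lit 206) (nat_lit 189)))))) (XT.nd (nat_lit 468) (nat_lit 0) (nat_lit 0) (XT.nd (nat_lit 234) (nat_lit 0) (nat_lit 0) (XT.nd (nat_lit 78) (nat_lit 76) (nat_lit 0) (XT.lf (nat_lit 0) (nat_lit 1463007088) (nat_lit 152) (nat_lit 627668278) (nat_lit 76) (nat_lit 54366768220) (nat_lit 4) (nat_lit 5) (nat_lit 6) (nat_lit 5) (nat_lit 5) (nat_lit 4) (nat_lit 386) (nat_lit 206) (nat_lit 188)) (XT.nd (nat_lit 78) (nat_lit 0) (nat_lit 0) (XT.lf (nat_lit 0) (nat_lit 3805984588) (nat_lit 152) (nat_lit 54098868546) (nat_lit 0) (nat_lit 168367957) (nat_lit 3) (nat_lit 5) (nat_lit 5) (nat_lit 4) (nat_lit 3) (nat_lit 4) (nat_lit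 387) (nat_lit 206) (nat_lit 187)) (XT.lf (nat_lit 0) (nat_lit 6206031301) (nat_lit 152) (nat_lit 51104053077) (nat_lit 0) (nat_lit 2427805316) (nat_lit 3) (nat_lit 5) (nat_lit 5) (nat_lit 4) (nat_lit 3) (nat_lit 4) (nat_lit 388) (nat_lit 206) (nat_lit 186)))) (XT.nd (nat_lit 78) (nat_lit 0) (nat_lit 0) (XT.lf (nat_lit 0) (nat_lit 8638932965) (nat_lit 152) (nat_lit 48090567289) (nat_lit 0) (nat_lit 4724193045) (nat_lit 3) (nat_lit 5) (nat_lit 5) (nat_lit 4) (nat_lit 3) (nat_lit 4) (nat_lit 389) (nat_lit 206) (nat_lit 185)) (XT.nd (nat_lit 78) (nat_lit 0) (nat_lit 0) (XT.lf (nat_lit 0) (nat_lit 11106815417) (nat_lit 152) (nat_lit 45055778039) (nat_lit 0) (nat_lit 7059537696) (nat_lit 3) (nat_lit 5) (nat_lit 5) (nat_lit 4) (nat_lit 3) (nat_lit 4) (nat_lit 390) (nat_lit 206) (nat_lit 184)) (XT.lf (nat_lit 0) (nat_lit 13611835059) (nat_lit 152) (nat_lit 41997033569) (nat_lit 0) (nat_lit 9435879861)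 (nat_lit 3) (nat_lit 5) (nat_lit 5) (nat_lit 4) (nat_lit 3) (nat_lit 4) (nat_lit 391) (nat_lit 206) (nat_lit 183))))) (XT.nd (nat_lit 234) (nat_lit 0) (nat_lit 0) (XT.nd (nat_lit 78) (nat_lit 0) (nat_lit 0) (XT.lf (nat_lit 0) (nat_lit 16156180744) (nat_lit 152) (nat_lit 38911661190) (nat_lit 0) (nat_lit 11855295956) (nat_lit 3) (nat_lit 5) (nat_lit 5) (nat_lit 4) (nat_lit 3) (nat_lit 4) (nat_lit 392) (nat_lit 206) (nat_lit 182)) (XT.nd (nat_lit 78) (nat_lit 0) (nat_lit 0) (XT.lf (nat_lit 0) (nat_lit 18742075686) (nat_lit 152) (nat_lit 35796964945) (nat_lit 0) (nat_lit 14319900035) (nat_lit 3) (nat_lit 5) (nat_lit 5) (nat_lit 4) (nat_lit 3) (nat_lit 4) (nat_lit 393) (nat_lit 206) (nat_lit 181)) (XT.lf (nat_lit 0) (nat_lit 21371779405) (nat_lit 152) (nat_lit 32650223256) (nat_lit 0) (nat_lit 16831845634) (nat_lit 3) (nat_lit 5) (nat_lit 5) (nat_lit 4) (nat_lit 3) (nat_lit 4) (nat_lit 394) (nat_lit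 206) (nat_lit 180)))) (XT.nd (nat_lit 78) (nat_lit 0) (nat_lit 0) (XT.lf (nat_lit 0) (nat_lit 24047589700) (nat_lit 152) (nat_lit 29468686542) (nat_lit 0) (nat_lit 19393327657) (nat_lit 3) (nat_lit 5) (nat_lit 5) (nat_lit 4) (nat_lit 3) (nat_lit 4) (nat_lit 395) (nat_lit 206) (nat_lit 179)) (XT.nd (nat_lit 78) (nat_lit 0) (nat_lit 0) (XT.lf (nat_lit 0) (nat_lit 26771844657) (nat_lit 152) (nat_lit 26249574819) (nat_lit 0) (nat_lit 22006584293) (nat_lit 3) (nat_lit 5) (nat_lit 5) (nat_lit 4) (nat_lit 3) (nat_lit 4) (nat_lit 396) (nat_lit 206) (nat_lit 178)) (XT.lf (nat_lit 0) (nat_lit 29546924695) (nat_lit 152) (nat_lit 22990075272) (nat_lit 0) (nat_lit 24673898969) (nat_lit 3) (nat_lit 5) (nat_lit 5) (nat_lit 4) (nat_lit 3) (nat_lit 4) (nat_lit 397) (nat_lit 206) (nat_lit 177))))))) (XT.nd (nat_lit 38532) (nat_lit 0) (nat_lit 228) (XT.nd (nat_lit 468) (nat_lit 76) (nat_lit 0) (XT.nd (nat_lit 234)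 (nat_lit 0) (nat_lit 0) (XT.nd (nat_lit 78) (nat_lit 0) (nat_lit 0) (XT.lf (nat_lit 0) (nat_lit 32375254640) (nat_lit 152) (nat_lit 19687339795) (nat_lit 0) (nat_lit 27397602350) (nat_lit 3) (nat_lit 5) (nat_lit 5) (nat_lit 4) (nat_lit 3) (nat_lit 4) (nat_lit 398) (nat_lit 206) (nat_lit 176)) (XT.nd (nat_lit 78) (nat_lit 0) (nat_lit 0) (XT.lf (nat_lit 0) (nat_lit 35259305848) (nat_lit 152) (nat_lit 16338482500) (nat_lit 0) (nat_lit 30180074369) (nat_lit 3) (nat_lit 5) (nat_lit 5) (nat_lit 4) (nat_lit 3) (nat_lit 4) (nat_lit 399) (nat_lit 206) (nat_lit 175)) (XT.lf (nat_lit 0) (nat_lit 38201598365) (nat_lit 152) (nat_lit 12940577204) (nat_lit 0) (nat_lit 33023746314) (nat_lit 3) (nat_lit 5) (nat_lit 5) (nat_lit 4) (nat_lit 3) (nat_lit 4) (nat_lit 400) (nat_lit 206) (nat_lit 174)))) (XT.nd (nat_lit 78) (nat_lit 0) (nat_lit 0) (XT.lf (nat_lit 0) (nat_lit 41204703124) (nat_lit 152) (nat_lit 9490654862)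 (nat_lit 0) (nat_lit 35931102946) (nat_lit 3) (nat_lit 5) (nat_lit 5) (nat_lit 4) (nat_lit 3) (nat_lit 4) (nat_lit 401) (nat_lit 206) (nat_lit 173)) (XT.nd (nat_lit 78) (nat_lit 0) (nat_lit 0) (XT.lf (nat_lit 0) (nat_lit 44271244199) (nat_lit 152) (nat_lit 5985700979) (nat_lit 0) (nat_lit 38904684674) (nat_lit 3) (nat_lit 5) (nat_lit 5) (nat_lit 4) (nat_lit 3) (nat_lit 4) (nat_lit 402) (nat_lit 206) (nat_lit 172)) (XT.lf (nat_lit 0) (nat_lit 47403901092) (nat_lit 152) (nat_lit 2422652974) (nat_lit 0) (nat_lit 41947089773) (nat_lit 3) (nat_lit 5) (nat_lit 5) (nat_lit 4) (nat_lit 3) (nat_lit 4) (nat_lit 403) (nat_lit 206) (nat_lit 171))))) (XT.nd (nat_lit 37830) (nat_lit 0) (nat_lit 304) (XT.nd (nat_lit 37674) (nat_lit 0) (nat_lit 456) (XT.lf (nat_lit 0) (nat_lit 1225516740) (nat_lit 76) (nat_lit 49391674750) (nat_lit 76) (nat_lit 43847240331) (nat_lit 2) (nat_lit 4) (nat_lit 3) (nat_lit 5) (nat_lit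 3) (nat_lit 4) (nat_lit 404) (nat_lit 206) (nat_lit 170)) (XT.nd (nat_lit 78) (nat_lit 0) (nat_lit 0) (XT.lf (nat_lit 0) (nat_lit 7698310533) (nat_lit 76) (nat_lit 4306554489) (nat_lit 76) (nat_lit 4306554489) (nat_lit 8) (nat_lit 4) (nat_lit 9) (nat_lit 5) (nat_lit 9) (nat_lit 4) (nat_lit 366) (nat_lit 207) (nat_lit 207)) (XT.lf (nat_lit 0) (nat_lit 21834605018) (nat_lit 76) (nat_lit 5966916594) (nat_lit 76) (nat_lit 5697494532) (nat_lit 8) (nat_lit 4) (nat_lit 9) (nat_lit 5) (nat_lit 9) (nat_lit 4) (nat_lit 367) (nat_lit 207) (nat_lit 206)))) (XT.nd (nat_lit 78) (nat_lit 152) (nat_lit 0) (XT.lf (nat_lit 0) (nat_lit 28350256823) (nat_lit 76) (nat_lit 3292099661) (nat_lit 76) (nat_lit 2761102782) (nat_lit 8) (nat_lit 4) (nat_lit 9) (nat_lit 5) (nat_lit 9) (nat_lit 4) (nat_lit 368) (nat_lit 207) (nat_lit 205)) (XT.nd (nat_lit 78) (nat_lit 76) (nat_lit 0) (XT.lf (nat_lit 0) (nat_lit 194756021) (nat_lit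 152) (nat_lit 389598288) (nat_lit 76) (nat_lit 34752547093) (nat_lit 7) (nat_lit 5) (nat_lit 9) (nat_lit 5) (nat_lit 8) (nat_lit 4) (nat_lit 369) (nat_lit 207) (nat_lit 204)) (XT.lf (nat_lit 0) (nat_lit 3195695299) (nat_lit 152) (nat_lit 30907283421) (nat_lit 0) (nat_lit 2194226984) (nat_lit 6) (nat_lit 5) (nat_lit 8) (nat_lit 4) (nat_lit 6) (nat_lit 4) (nat_lit 370) (nat_lit 207) (nat_lit 203)))))) (XT.nd (nat_lit 468) (nat_lit 76) (nat_lit 0) (XT.nd (nat_lit 234) (nat_lit 0) (nat_lit 0) (XT.nd (nat_lit 78) (nat_lit 0) (nat_lit 0) (XT.lf (nat_lit 0) (nat_lit 6235069936) (nat_lit 152) (nat_lit 26051636185) (nat_lit 0) (nat_lit 5001195784) (nat_lit 6) (nat_lit 5) (nat_lit 8) (nat_lit 4) (nat_lit 6) (nat_lit 4) (nat_lit 371) (nat_lit 207) (nat_lit 202)) (XT.nd (nat_lit 78) (nat_lit 0) (nat_lit 0) (XT.lf (nat_lit 0) (nat_lit 9306061116) (nat_lit 152) (nat_lit 21157528554) (nat_lit 0) (nat_lit 7846550230)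 (nat_lit 6) (nat_lit 5) (nat_lit 8) (nat_lit 4) (nat_lit 6) (nat_lit 4) (nat_lit 372) (nat_lit 207) (nat_lit 201)) (XT.lf (nat_lit 0) (nat_lit 12411352231) (nat_lit 152) (nat_lit 16220684124) (nat_lit 0) (nat_lit 10732776553) (nat_lit 6) (nat_lit 5) (nat_lit 8) (nat_lit 4) (nat_lit 6) (nat_lit 4) (nat_lit 373) (nat_lit 207) (nat_lit 200)))) (XT.nd (nat_lit 78) (nat_lit 0) (nat_lit 0) (XT.lf (nat_lit 0) (nat_lit 15553656640) (nat_lit 152) (nat_lit 11236789146) (nat_lit 0) (nat_lit 13662396700) (nat_lit 6) (nat_lit 5) (nat_lit 8) (nat_lit 4) (nat_lit 6) (nat_lit 4) (nat_lit 374) (nat_lit 207) (nat_lit 199)) (XT.nd (nat_lit 78) (nat_lit 0) (nat_lit 0) (XT.lf (nat_lit 0) (nat_lit 18735720048) (nat_lit 152) (nat_lit 6201488762) (nat_lit 0) (nat_lit 16637970531) (nat_lit 6) (nat_lit 5) (nat_lit 8) (nat_lit 4) (nat_lit 6) (nat_lit 4) (nat_lit 375) (nat_lit 207) (nat_lit 198)) (XT.lf (nat_lit 0) (nat_lit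 21960322897) (nat_lit 152) (nat_lit 1110383194) (nat_lit 0) (nat_lit 19662098063) (nat_lit 6) (nat_lit 5) (nat_lit 8) (nat_lit 4) (nat_lit 6) (nat_lit 4) (nat_lit 376) (nat_lit 207) (nat_lit 197))))) (XT.nd (nat_lit 234) (nat_lit 0) (nat_lit 0) (XT.nd (nat_lit 78) (nat_lit 0) (nat_lit 0) (XT.lf (nat_lit 0) (nat_lit 4121399444) (nat_lit 76) (nat_lit 21148500770) (nat_lit 76) (nat_lit 18655639707) (nat_lit 5) (nat_lit 4) (nat_lit 6) (nat_lit 5) (nat_lit 6) (nat_lit 4) (nat_lit 377) (nat_lit 207) (nat_lit 196)) (XT.nd (nat_lit 78) (nat_lit 0) (nat_lit 0) (XT.lf (nat_lit 0) (nat_lit 9441324546) (nat_lit 76) (nat_lit 19197888249) (nat_lit 76) (nat_lit 16516059973) (nat_lit 5) (nat_lit 4) (nat_lit 6) (nat_lit 5) (nat_lit 6) (nat_lit 4) (nat_lit 378) (nat_lit 207) (nat_lit 195)) (XT.lf (nat_lit 0) (nat_lit 14831941787) (nat_lit 76) (nat_lit 17228376805) (nat_lit 76) (nat_lit 14363085214) (nat_lit 5) (nat_lit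 4) (nat_lit 6) (nat_lit 5) (nat_lit 6) (nat_lit 4) (nat_lit 379) (nat_lit 207) (nat_lit 194)))) (XT.nd (nat_lit 78) (nat_lit 0) (nat_lit 0) (XT.lf (nat_lit 0) (nat_lit 20297961414) (nat_lit 76) (nat_lit 15238245503) (nat_lit 76) (nat_lit 12194834191) (nat_lit 5) (nat_lit 4) (nat_lit 6) (nat_lit 5) (nat_lit 6) (nat_lit 4) (nat_lit 380) (nat_lit 207) (nat_lit 193)) (XT.nd (nat_lit 78) (nat_lit 0) (nat_lit 0) (XT.lf (nat_lit 0) (nat_lit 25844159561) (nat_lit 76) (nat_lit 13225755395) (nat_lit 76) (nat_lit 10009412313) (nat_lit 5) (nat_lit 4) (nat_lit 6) (nat_lit 5) (nat_lit 6) (nat_lit 4) (nat_lit 381) (nat_lit 207) (nat_lit 192)) (XT.lf (nat_lit 0) (nat_lit 31475382421) (nat_lit 76) (nat_lit 11189147993) (nat_lit 76) (nat_lit 7804909991) (nat_lit 5) (nat_lit 4) (nat_lit 6) (nat_lit 5) (nat_lit 6) (nat_lit 4) (nat_lit 382) (nat_lit 207) (nat_lit 191))))))))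
noncomputable def xc8 : XT := (XT.nd (nat_lit 39234) (nat_lit 0) (nat_lit 0) (XT.nd (nat_lit 858) (nat_lit 0) (nat_lit 0) (XT.nd (nat_lit 390) (nat_lit 0) (nat_lit 0) (XT.nd (nat_lit 156) (nat_lit 152) (nat_lit 0) (XT.nd (nat_lit 78) (nat_lit 0) (nat_lit 0) (XT.lf (nat_lit 0) (nat_lit 37196550479) (nat_lit 76) (nat_lit 9126643739) (nat_lit 76) (nat_lit 5579400958) (nat_lit 5) (nat_lit 4) (nat_lit 6) (nat_lit 5) (nat_lit 6) (nat_lit 4) (nat_lit 383) (nat_lit 207) (nat_lit 190)) (XT.lf (nat_lit 0) (nat_lit 43012662816) (nat_lit 76) (nat_lit 7036440444) (nat_lit 76) (nat_lit 3330940597) (nat_lit 5) (nat_lit 4) (nat_lit 6) (nat_lit 5) (nat_lit 6) (nat_lit 4) (nat_lit 384) (nat_lit 207) (nat_lit 189))) (XT.nd (nat_lit 78) (nat_lit 152) (nat_lit 0) (XT.lf (nat_lit 0) (nat_lit 48928801469) (nat_lit 76) (nat_lit 4916711716) (nat_lit 76) (nat_lit 1057564232) (nat_lit 5) (nat_lit 4) (nat_lit 6) (nat_lit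 5) (nat_lit 6) (nat_lit 4) (nat_lit 385) (nat_lit 207) (nat_lit 188)) (XT.nd (nat_lit 78) (nat_lit 76) (nat_lit 0) (XT.lf (nat_lit 0) (nat_lit 1218464742) (nat_lit 152) (nat_lit 1534836519) (nat_lit 76) (nat_lit 53719367035) (nat_lit 4) (nat_lit 5) (nat_lit 6) (nat_lit 5) (nat_lit 5) (nat_lit 4) (nat_lit 386) (nat_lit 207) (nat_lit 187)) (XT.lf (nat_lit 0) (nat_lit 3015165401) (nat_lit 76) (nat_lit 516023259) (nat_lit 152) (nat_lit 54558175176) (nat_lit 3) (nat_lit 5) (nat_lit 4) (nat_lit 5) (nat_lit 5) (nat_lit 4) (nat_lit 387) (nat_lit 207) (nat_lit 186))))) (XT.nd (nat_lit 234) (nat_lit 0) (nat_lit 0) (XT.nd (nat_lit 78) (nat_lit 0) (nat_lit 0) (XT.lf (nat_lit 0) (nat_lit 5906991077) (nat_lit 152) (nat_lit 52109483791) (nat_lit 0) (nat_lit 1738295024) (nat_lit 3) (nat_lit 5) (nat_lit 5) (nat_lit 4) (nat_lit 3) (nat_lit 4) (nat_lit 388) (nat_lit 207) (nat_lit 185)) (XT.nd (nat_lit 78) (nat_lit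 0) (nat_lit 0) (XT.lf (nat_lit 0) (nat_lit 8321170444) (nat_lit 152) (nat_lit 49130037959) (nat_lit 0) (nat_lit 4019936590) (nat_lit 3) (nat_lit 5) (nat_lit 5) (nat_lit 4) (nat_lit 3) (nat_lit 4) (nat_lit 389) (nat_lit 207) (nat_lit 184)) (XT.lf (nat_lit 0) (nat_lit 10770875910) (nat_lit 152) (nat_lit 46128297211) (nat_lit 0) (nat_lit 6340964578) (nat_lit 3) (nat_lit 5) (nat_lit 5) (nat_lit 4) (nat_lit 3) (nat_lit 4) (nat_lit 390) (nat_lit 207) (nat_lit 183)))) (XT.nd (nat_lit 78) (nat_lit 0) (nat_lit 0) (XT.lf (nat_lit 0) (nat_lit 13258247992) (nat_lit 152) (nat_lit 43101638664) (nat_lit 0) (nat_lit 8703407071) (nat_lit 3) (nat_lit 5) (nat_lit 5) (nat_lit 4) (nat_lit 3) (nat_lit 4) (nat_lit 391) (nat_lit 207) (nat_lit 182)) (XT.nd (nat_lit 78) (nat_lit 0) (nat_lit 0) (XT.lf (nat_lit 0) (nat_lit 15785460123) (nat_lit 152) (nat_lit 40047417667) (nat_lit 0) (nat_lit 11109328339) (nat_lit 3) (nat_lit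 5) (nat_lit 5) (nat_lit 4) (nat_lit 3) (nat_lit 4) (nat_lit 392) (nat_lit 207) (nat_lit 181)) (XT.lf (nat_lit 0) (nat_lit 18354720547) (nat_lit 152) (nat_lit 36962965483) (nat_lit 0) (nat_lit 13560830643) (nat_lit 3) (nat_lit 5) (nat_lit 5) (nat_lit 4) (nat_lit 3) (nat_lit 4) (nat_lit 393) (nat_lit 207) (nat_lit 180)))))) (XT.nd (nat_lit 468) (nat_lit 0) (nat_lit 0) (XT.nd (nat_lit 234) (nat_lit 0) (nat_lit 0) (XT.nd (nat_lit 78) (nat_lit 0) (nat_lit 0) (XT.lf (nat_lit 0) (nat_lit 20968274248) (nat_lit 152) (nat_lit 33845586959) (nat_lit 0) (nat_lit 16060056072) (nat_lit 3) (nat_lit 5) (nat_lit 5) (nat_lit 4) (nat_lit 3) (nat_lit 4) (nat_lit 394) (nat_lit 207) (nat_lit 179)) (XT.nd (nat_lit 78) (nat_lit 0) (nat_lit 0) (XT.lf (nat_lit 0) (nat_lit 23628404915) (nat_lit 152) (nat_lit 30692558173) (nat_lit 0) (nat_lit 18609188417) (nat_lit 3) (nat_lit 5) (nat_lit 5) (nat_lit 4) (nat_lit 3) (nat_lit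 4) (nat_lit 395) (nat_lit 207) (nat_lit 178)) (XT.lf (nat_lit 0) (nat_lit 26337436932) (nat_lit 152) (nat_lit 27501124050) (nat_lit 0) (nat_lit 21210455073) (nat_lit 3) (nat_lit 5) (nat_lit 5) (nat_lit 4) (nat_lit 3) (nat_lit 4) (nat_lit 396) (nat_lit 207) (nat_lit 177)))) (XT.nd (nat_lit 78) (nat_lit 0) (nat_lit 0) (XT.lf (nat_lit 0) (nat_lit 29097737416) (nat_lit 152) (nat_lit 24268495959) (nat_lit 0) (nat_lit 23866128993) (nat_lit 3) (nat_lit 5) (nat_lit 5) (nat_lit 4) (nat_lit 3) (nat_lit 4) (nat_lit 397) (nat_lit 207) (nat_lit 176)) (XT.nd (nat_lit 78) (nat_lit 0) (nat_lit 0) (XT.lf (nat_lit 0) (nat_lit 31911718280) (nat_lit 152) (nat_lit 20991849273) (nat_lit 0) (nat_lit 26578530668) (nat_lit 3) (nat_lit 5) (nat_lit 5) (nat_lit 4) (nat_lit 3) (nat_lit 4) (nat_lit 398) (nat_lit 207) (nat_lit 175)) (XT.lf (nat_lit 0) (nat_lit 34781838341) (nat_lit 152) (nat_lit 17668320904) (nat_lit 0) (nat_lit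 29350030158) (nat_lit 3) (nat_lit 5) (nat_lit 5) (nat_lit 4) (nat_lit 3) (nat_lit 4) (nat_lit 399) (nat_lit 207) (nat_lit 174))))) (XT.nd (nat_lit 234) (nat_lit 0) (nat_lit 0) (XT.nd (nat_lit 78) (nat_lit 0) (nat_lit 0) (XT.lf (nat_lit 0) (nat_lit 37710605472) (nat_lit 152) (nat_lit 14295006796) (nat_lit 0) (nat_lit 32183049161) (nat_lit 3) (nat_lit 5) (nat_lit 5) (nat_lit 4) (nat_lit 3) (nat_lit 4) (nat_lit 400) (nat_lit 207) (nat_lit 173)) (XT.nd (nat_lit 78) (nat_lit 0) (nat_lit 0) (XT.lf (nat_lit 0) (nat_lit 40700578790) (nat_lit 152) (nat_lit 10868959395) (nat_lit 0) (nat_lit 35080063131) (nat_lit 3) (nat_lit 5) (nat_lit 5) (nat_lit 4) (nat_lit 3) (nat_lit 4) (nat_lit 401) (nat_lit 207) (nat_lit 172)) (XT.lf (nat_lit 0) (nat_lit 43754370892) (nat_lit 152) (nat_lit 7387185066) (nat_lit 0) (nat_lit 38043603440) (nat_lit 3) (nat_lit 5) (nat_lit 5) (nat_lit 4) (nat_lit 3) (nat_lit 4) (nat_lit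 402) (nat_lit 207) (nat_lit 171)))) (XT.nd (nat_lit 78) (nat_lit 0) (nat_lit 0) (XT.lf (nat_lit 0) (nat_lit 46874650141) (nat_lit 152) (nat_lit 3846641482) (nat_lit 0) (nat_lit 41076259588) (nat_lit 3) (nat_lit 5) (nat_lit 5) (nat_lit 4) (nat_lit 3) (nat_lit 4) (nat_lit 403) (nat_lit 207) (nat_lit 170)) (XT.nd (nat_lit 37518) (nat_lit 0) (nat_lit 380) (XT.lf (nat_lit 0) (nat_lit 50064142994) (nat_lit 152) (nat_lit 244234965) (nat_lit 0) (nat_lit 44180681470) (nat_lit 3) (nat_lit 5) (nat_lit 5) (nat_lit 4) (nat_lit 3) (nat_lit 4) (nat_lit 404) (nat_lit 207) (nat_lit 169)) (XT.lf (nat_lit 0) (nat_lit 1395782361) (nat_lit 76) (nat_lit 7039911152) (nat_lit 76) (nat_lit 7039911152) (nat_lit 8) (nat_lit 4) (nat_lit 9) (nat_lit 5) (nat_lit 9) (nat_lit 4) (nat_lit 364) (nat_lit 208) (nat_lit 208))))))) (XT.nd (nat_lit 936) (nat_lit 228) (nat_lit 0) (XT.nd (nat_lit 468) (nat_lit 0) (nat_lit 0) (XT.nd (nat_lit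 234) (nat_lit 152) (nat_lit 0) (XT.nd (nat_lit 78) (nat_lit 0) (nat_lit 0) (XT.lf (nat_lit 0) (nat_lit 9030679544) (nat_lit 76) (nat_lit 11510493749) (nat_lit 76) (nat_lit 11232989026) (nat_lit 8) (nat_lit 4) (nat_lit 9) (nat_lit 5) (nat_lit 9) (nat_lit 4) (nat_lit 365) (nat_lit 208) (nat_lit 207)) (XT.nd (nat_lit 78) (nat_lit 0) (nat_lit 0) (XT.lf (nat_lit 0) (nat_lit 15338031994) (nat_lit 76) (nat_lit 8916369398) (nat_lit 76) (nat_lit 8369442613) (nat_lit 8) (nat_lit 4) (nat_lit 9) (nat_lit 5) (nat_lit 9) (nat_lit 4) (nat_lit 366) (nat_lit 208) (nat_lit 206)) (XT.lf (nat_lit 0) (nat_lit 21719133352) (nat_lit 76) (nat_lit 6295182542) (nat_lit 76) (nat_lit 5486680940) (nat_lit 8) (nat_lit 4) (nat_lit 9) (nat_lit 5) (nat_lit 9) (nat_lit 4) (nat_lit 367) (nat_lit 208) (nat_lit 205)))) (XT.nd (nat_lit 78) (nat_lit 152) (nat_lit 0) (XT.lf (nat_lit 0) (nat_lit 28179559338) (nat_lit 76) (nat_lit 3644642822)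 (nat_lit 76) (nat_lit 2582185088) (nat_lit 8) (nat_lit 4) (nat_lit 9) (nat_lit 5) (nat_lit 9) (nat_lit 4) (nat_lit 368) (nat_lit 208) (nat_lit 204)) (XT.nd (nat_lit 78) (nat_lit 76) (nat_lit 0) (XT.lf (nat_lit 0) (nat_lit 339819772) (nat_lit 152) (nat_lit 619182948) (nat_lit 76) (nat_lit 34381703697) (nat_lit 7) (nat_lit 5) (nat_lit 9) (nat_lit 5) (nat_lit 8) (nat_lit 4) (nat_lit 369) (nat_lit 208) (nat_lit 203)) (XT.lf (nat_lit 0) (nat_lit 3304662104) (nat_lit 152) (nat_lit 31196082867) (nat_lit 0) (nat_lit 1801365891) (nat_lit 6) (nat_lit 5) (nat_lit 8) (nat_lit 4) (nat_lit 6) (nat_lit 4) (nat_lit 370) (nat_lit 208) (nat_lit 202))))) (XT.nd (nat_lit 234) (nat_lit 0) (nat_lit 0) (XT.nd (nat_lit 78) (nat_lit 0) (nat_lit 0) (XT.lf (nat_lit 0) (nat_lit 6314694527) (nat_lit 152) (nat_lit 26393247957) (nat_lit 0) (nat_lit 4585761579) (nat_lit 6) (nat_lit 5) (nat_lit 8) (nat_lit 4) (nat_lit 6) (nat_lit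 4) (nat_lit 371) (nat_lit 208) (nat_lit 201)) (XT.nd (nat_lit 78) (nat_lit 0) (nat_lit 0) (XT.lf (nat_lit 0) (nat_lit 9357198120) (nat_lit 152) (nat_lit 21550414430) (nat_lit 0) (nat_lit 7409200381) (nat_lit 6) (nat_lit 5) (nat_lit 8) (nat_lit 4) (nat_lit 6) (nat_lit 4) (nat_lit 372) (nat_lit 208) (nat_lit 200)) (XT.lf (nat_lit 0) (nat_lit 12434831383) (nat_lit 152) (nat_lit 16663350682) (nat_lit 0) (nat_lit 10274149381) (nat_lit 6) (nat_lit 5) (nat_lit 8) (nat_lit 4) (nat_lit 6) (nat_lit 4) (nat_lit 373) (nat_lit 208) (nat_lit 199)))) (XT.nd (nat_lit 78) (nat_lit 0) (nat_lit 0) (XT.lf (nat_lit 0) (nat_lit 15550283510) (nat_lit 152) (nat_lit 11727786465) (nat_lit 0) (nat_lit 13183111931) (nat_lit 6) (nat_lit 5) (nat_lit 8) (nat_lit 4) (nat_lit 6) (nat_lit 4) (nat_lit 374) (nat_lit 208) (nat_lit 198)) (XT.nd (nat_lit 78) (nat_lit 0) (nat_lit 0) (XT.lf (nat_lit 0) (nat_lit 18706276740) (nat_lit 152)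 (nat_lit 6739409148) (nat_lit 0) (nat_lit 16138629845) (nat_lit 6) (nat_lit 5) (nat_lit 8) (nat_lit 4) (nat_lit 6) (nat_lit 4) (nat_lit 375) (nat_lit 208) (nat_lit 197)) (XT.lf (nat_lit 0) (nat_lit 21905568737) (nat_lit 152) (nat_lit 1693859956) (nat_lit 0) (nat_lit 19143285612) (nat_lit 6) (nat_lit 5) (nat_lit 8) (nat_lit 4) (nat_lit 6) (nat_lit 4) (nat_lit 376) (nat_lit 208) (nat_lit 196)))))) (XT.nd (nat_lit 468) (nat_lit 152) (nat_lit 0) (XT.nd (nat_lit 234) (nat_lit 0) (nat_lit 0) (XT.nd (nat_lit 78) (nat_lit 0) (nat_lit 0) (XT.lf (nat_lit 0) (nat_lit 3481200605) (nat_lit 76) (nat_lit 21703217823) (nat_lit 76) (nat_lit 18751967485) (nat_lit 5) (nat_lit 4) (nat_lit 6) (nat_lit 5) (nat_lit 6) (nat_lit 4) (nat_lit 377) (nat_lit 208) (nat_lit 195)) (XT.nd (nat_lit 78) (nat_lit 0) (nat_lit 0) (XT.lf (nat_lit 0) (nat_lit 8757329838) (nat_lit 76) (nat_lit 19772122274) (nat_lit 76) (nat_lit 16637408622)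 (nat_lit 5) (nat_lit 4) (nat_lit 6) (nat_lit 5) (nat_lit 6) (nat_lit 4) (nat_lit 378) (nat_lit 208) (nat_lit 194)) (XT.lf (nat_lit 0) (nat_lit 14105426817) (nat_lit 76) (nat_lit 17821559344) (nat_lit 76) (nat_lit 14508725971) (nat_lit 5) (nat_lit 4) (nat_lit 6) (nat_lit 5) (nat_lit 6) (nat_lit 4) (nat_lit 379) (nat_lit 208) (nat_lit 193)))) (XT.nd (nat_lit 78) (nat_lit 0) (nat_lit 0) (XT.lf (nat_lit 0) (nat_lit 19530164636) (nat_lit 76) (nat_lit 15849824660) (nat_lit 76) (nat_lit 12364059517) (nat_lit 5) (nat_lit 4) (nat_lit 6) (nat_lit 5) (nat_lit 6) (nat_lit 4) (nat_lit 380) (nat_lit 208) (nat_lit 192)) (XT.nd (nat_lit 78) (nat_lit 0) (nat_lit 0) (XT.lf (nat_lit 0) (nat_lit 25036283359) (nat_lit 76) (nat_lit 13855195345) (nat_lit 76) (nat_lit 10201535280) (nat_lit 5) (nat_lit 4) (nat_lit 6) (nat_lit 5) (nat_lit 6) (nat_lit 4) (nat_lit 381) (nat_lit 208) (nat_lit 191)) (XT.lf (nat_lit 0) (nat_lit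 30628594156) (nat_lit 76) (nat_lit 11835928519) (nat_lit 76) (nat_lit 8019263677) (nat_lit 5) (nat_lit 4) (nat_lit 6) (nat_lit 5) (nat_lit 6) (nat_lit 4) (nat_lit 382) (nat_lit 208) (nat_lit 190))))) (XT.nd (nat_lit 234) (nat_lit 152) (nat_lit 0) (XT.nd (nat_lit 78) (nat_lit 0) (nat_lit 0) (XT.lf (nat_lit 0) (nat_lit 36311983514) (nat_lit 76) (nat_lit 9790259776) (nat_lit 76) (nat_lit 5815337867) (nat_lit 5) (nat_lit 4) (nat_lit 6) (nat_lit 5) (nat_lit 6) (nat_lit 4) (nat_lit 383) (nat_lit 208) (nat_lit 189)) (XT.nd (nat_lit 78) (nat_lit 0) (nat_lit 0) (XT.lf (nat_lit 0) (nat_lit 42091417499) (nat_lit 76) (nat_lit 7716401636) (nat_lit 76) (nat_lit 3587832091) (nat_lit 5) (nat_lit 4) (nat_lit 6) (nat_lit 5) (nat_lit 6) (nat_lit 4) (nat_lit 384) (nat_lit 208) (nat_lit 188)) (XT.lf (nat_lit 0) (nat_lit 47971946103) (nat_lit 76) (nat_lit 5612541992) (nat_lit 76) (nat_lit 1334799984) (nat_lit 5) (nat_lit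 4) (nat_lit 6) (nat_lit 5) (nat_lit 6) (nat_lit 4) (nat_lit 385) (nat_lit 208) (nat_lit 187)))) (XT.nd (nat_lit 78) (nat_lit 76) (nat_lit 0) (XT.lf (nat_lit 0) (nat_lit 927272580) (nat_lit 152) (nat_lit 2540206304) (nat_lit 76) (nat_lit 53022071437) (nat_lit 4) (nat_lit 5) (nat_lit 6) (nat_lit 5) (nat_lit 5) (nat_lit 4) (nat_lit 386) (nat_lit 208) (nat_lit 186)) (XT.nd (nat_lit 78) (nat_lit 0) (nat_lit 0) (XT.lf (nat_lit 0) (nat_lit 1955160899) (nat_lit 76) (nat_lit 1255843975) (nat_lit 152) (nat_lit 54896120861) (nat_lit 3) (nat_lit 5) (nat_lit 4) (nat_lit 5) (nat_lit 5) (nat_lit 4) (nat_lit 387) (nat_lit 208) (nat_lit 185)) (XT.lf (nat_lit 0) (nat_lit 5560973384) (nat_lit 152) (nat_lit 53214178538) (nat_lit 0) (nat_lit 998164713) (nat_lit 3) (nat_lit 5) (nat_lit 5) (nat_lit 4) (nat_lit 3) (nat_lit 4) (nat_lit 388) (nat_lit 208) (nat_lit 184))))))))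
noncomputable def xc9 : XT := (XT.nd (nat_lit 39078) (nat_lit 0) (nat_lit 0) (XT.nd (nat_lit 858) (nat_lit 0) (nat_lit 0) (XT.nd (nat_lit 390) (nat_lit 0) (nat_lit 0) (XT.nd (nat_lit 156) (nat_lit 0) (nat_lit 0) (XT.nd (nat_lit 78) (nat_lit 0) (nat_lit 0) (XT.lf (nat_lit 0) (nat_lit 7956975765) (nat_lit 152) (nat_lit 50267781208) (nat_lit 0) (nat_lit 3265489616) (nat_lit 3) (nat_lit 5) (nat_lit 5) (nat_lit 4) (nat_lit 3) (nat_lit 4) (nat_lit 389) (nat_lit 208) (nat_lit 183)) (XT.lf (nat_lit 0) (nat_lit 10389033670) (nat_lit 152) (nat_lit 47298126383) (nat_lit 0) (nat_lit 5572617932) (nat_lit 3) (nat_lit 5) (nat_lit 5) (nat_lit 4) (nat_lit 3) (nat_lit 4) (nat_lit 390) (nat_lit 208) (nat_lit 182))) (XT.nd (nat_lit 78) (nat_lit 0) (nat_lit 0) (XT.lf (nat_lit 0) (nat_lit 12859272199) (nat_lit 152) (nat_lit 44302619218) (nat_lit 0) (nat_lit 7921565597) (nat_lit 3) (nat_lit 5) (nat_lit 5) (nat_lit 4)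 (nat_lit 3) (nat_lit 4) (nat_lit 391) (nat_lit 208) (nat_lit 181)) (XT.nd (nat_lit 78) (nat_lit 0) (nat_lit 0) (XT.lf (nat_lit 0) (nat_lit 15369849812) (nat_lit 152) (nat_lit 41278642282) (nat_lit 0) (nat_lit 10314385091) (nat_lit 3) (nat_lit 5) (nat_lit 5) (nat_lit 4) (nat_lit 3) (nat_lit 4) (nat_lit 392) (nat_lit 208) (nat_lit 180)) (XT.lf (nat_lit 0) (nat_lit 17922960219) (nat_lit 152) (nat_lit 38223553263) (nat_lit 0) (nat_lit 12753167226) (nat_lit 3) (nat_lit 5) (nat_lit 5) (nat_lit 4) (nat_lit 3) (nat_lit 4) (nat_lit 393) (nat_lit 208) (nat_lit 179))))) (XT.nd (nat_lit 234) (nat_lit 0) (nat_lit 0) (XT.nd (nat_lit 78) (nat_lit 0) (nat_lit 0) (XT.lf (nat_lit 0) (nat_lit 20520834291) (nat_lit 152) (nat_lit 35134682667) (nat_lit 0) (nat_lit 15240042976) (nat_lit 3) (nat_lit 5) (nat_lit 5) (nat_lit 4) (nat_lit 3) (nat_lit 4) (nat_lit 394) (nat_lit 208) (nat_lit 178)) (XT.nd (nat_lit 78) (nat_lit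 0) (nat_lit 0) (XT.lf (nat_lit 0) (nat_lit 23165742018) (nat_lit 152) (nat_lit 32009331480) (nat_lit 0) (nat_lit 17777185341) (nat_lit 3) (nat_lit 5) (nat_lit 5) (nat_lit 4) (nat_lit 3) (nat_lit 4) (nat_lit 395) (nat_lit 208) (nat_lit 177)) (XT.lf (nat_lit 0) (nat_lit 25859994481) (nat_lit 152) (nat_lit 28844768813) (nat_lit 0) (nat_lit 20366811241) (nat_lit 3) (nat_lit 5) (nat_lit 5) (nat_lit 4) (nat_lit 3) (nat_lit 4) (nat_lit 396) (nat_lit 208) (nat_lit 176)))) (XT.nd (nat_lit 78) (nat_lit 0) (nat_lit 0) (XT.lf (nat_lit 0) (nat_lit 28605945884) (nat_lit 152) (nat_lit 25638229514) (nat_lit 0) (nat_lit 23011183455) (nat_lit 3) (nat_lit 5) (nat_lit 5) (nat_lit 4) (nat_lit 3) (nat_lit 4) (nat_lit 397) (nat_lit 208) (nat_lit 175)) (XT.nd (nat_lit 78) (nat_lit 0) (nat_lit 0) (XT.lf (nat_lit 0) (nat_lit 31405995601) (nat_lit 152) (nat_lit 22386911753) (nat_lit 0) (nat_lit 25712612600) (nat_lit 3) (nat_lit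 5) (nat_lit 5) (nat_lit 4) (nat_lit 3) (nat_lit 4) (nat_lit 398) (nat_lit 208) (nat_lit 174)) (XT.lf (nat_lit 0) (nat_lit 34262590277) (nat_lit 152) (nat_lit 19087974572) (nat_lit 0) (nat_lit 28473459149) (nat_lit 3) (nat_lit 5) (nat_lit 5) (nat_lit 4) (nat_lit 3) (nat_lit 4) (nat_lit 399) (nat_lit 208) (nat_lit 173)))))) (XT.nd (nat_lit 37752) (nat_lit 0) (nat_lit 380) (XT.nd (nat_lit 234) (nat_lit 0) (nat_lit 0) (XT.nd (nat_lit 78) (nat_lit 0) (nat_lit 0) (XT.lf (nat_lit 0) (nat_lit 37178225966) (nat_lit 152) (nat_lit 15738535405) (nat_lit 0) (nat_lit 31296135490) (nat_lit 3) (nat_lit 5) (nat_lit 5) (nat_lit 4) (nat_lit 3) (nat_lit 4) (nat_lit 400) (nat_lit 208) (nat_lit 172)) (XT.nd (nat_lit 78) (nat_lit 0) (nat_lit 0) (XT.lf (nat_lit 0) (nat_lit 40155450310) (nat_lit 152) (nat_lit 12335667558) (nat_lit 0) (nat_lit 34183108041) (nat_lit 3) (nat_lit 5) (nat_lit 5) (nat_lit 4) (nat_lit 3) (nat_lit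 4) (nat_lit 401) (nat_lit 208) (nat_lit 171)) (XT.lf (nat_lit 0) (nat_lit 43196864769) (nat_lit 152) (nat_lit 8876397650) (nat_lit 0) (nat_lit 37136899400) (nat_lit 3) (nat_lit 5) (nat_lit 5) (nat_lit 4) (nat_lit 3) (nat_lit 4) (nat_lit 402) (nat_lit 208) (nat_lit 170)))) (XT.nd (nat_lit 78) (nat_lit 0) (nat_lit 0) (XT.lf (nat_lit 0) (nat_lit 46305126888) (nat_lit 152) (nat_lit 5357703019) (nat_lit 0) (nat_lit 40160090548) (nat_lit 3) (nat_lit 5) (nat_lit 5) (nat_lit 4) (nat_lit 3) (nat_lit 4) (nat_lit 403) (nat_lit 208) (nat_lit 169)) (XT.nd (nat_lit 37362) (nat_lit 0) (nat_lit 456) (XT.lf (nat_lit 0) (nat_lit 49482952625) (nat_lit 152) (nat_lit 1776509078) (nat_lit 0) (nat_lit 43255323108) (nat_lit 3) (nat_lit 5) (nat_lit 5) (nat_lit 4) (nat_lit 3) (nat_lit 4) (nat_lit 404) (nat_lit 208) (nat_lit 168)) (XT.lf (nat_lit 0) (nat_lit 5030384717) (nat_lit 152) (nat_lit 4628654028) (nat_lit 0) (nat_lit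 5030384717) (nat_lit 9) (nat_lit 5) (nat_lit 11) (nat_lit 4) (nat_lit 9) (nat_lit 4) (nat_lit 362) (nat_lit 209) (nat_lit 209))))) (XT.nd (nat_lit 234) (nat_lit 0) (nat_lit 0) (XT.nd (nat_lit 78) (nat_lit 76) (nat_lit 0) (XT.lf (nat_lit 0) (nat_lit 13560202276) (nat_lit 152) (nat_lit 3318715183) (nat_lit 0) (nat_lit 13274372411) (nat_lit 9) (nat_lit 5) (nat_lit 11) (nat_lit 4) (nat_lit 9) (nat_lit 4) (nat_lit 363) (nat_lit 209) (nat_lit 208)) (XT.nd (nat_lit 78) (nat_lit 0) (nat_lit 0) (XT.lf (nat_lit 0) (nat_lit 2731217979) (nat_lit 76) (nat_lit 14392180536) (nat_lit 76) (nat_lit 13828845948) (nat_lit 8) (nat_lit 4) (nat_lit 9) (nat_lit 5) (nat_lit 9) (nat_lit 4) (nat_lit 364) (nat_lit 209) (nat_lit 207)) (XT.lf (nat_lit 0) (nat_lit 8911743728) (nat_lit 76) (nat_lit 11848607676) (nat_lit 76) (nat_lit 11015851026) (nat_lit 8) (nat_lit 4) (nat_lit 9) (nat_lit 5) (nat_lit 9) (nat_lit 4) (nat_lit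 365) (nat_lit 209) (nat_lit 206)))) (XT.nd (nat_lit 78) (nat_lit 0) (nat_lit 0) (XT.lf (nat_lit 0) (nat_lit 15162213585) (nat_lit 76) (nat_lit 9279488855) (nat_lit 76) (nat_lit 8185157388) (nat_lit 8) (nat_lit 4) (nat_lit 9) (nat_lit 5) (nat_lit 9) (nat_lit 4) (nat_lit 366) (nat_lit 209) (nat_lit 205)) (XT.nd (nat_lit 78) (nat_lit 0) (nat_lit 0) (XT.lf (nat_lit 0) (nat_lit 21488089123) (nat_lit 76) (nat_lit 6682579211) (nat_lit 76) (nat_lit 5334291611) (nat_lit 8) (nat_lit 4) (nat_lit 9) (nat_lit 5) (nat_lit 9) (nat_lit 4) (nat_lit 367) (nat_lit 209) (nat_lit 204)) (XT.lf (nat_lit 0) (nat_lit 27894897808) (nat_lit 76) (nat_lit 4055609602) (nat_lit 76) (nat_lit 2460762649) (nat_lit 8) (nat_lit 4) (nat_lit 9) (nat_lit 5) (nat_lit 9) (nat_lit 4) (nat_lit 368) (nat_lit 209) (nat_lit 203))))))) (XT.nd (nat_lit 936) (nat_lit 152) (nat_lit 0) (XT.nd (nat_lit 468) (nat_lit 76) (nat_lit 0) (XT.nd (nat_lit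 234) (nat_lit 0) (nat_lit 0) (XT.nd (nat_lit 78) (nat_lit 76) (nat_lit 0) (XT.lf (nat_lit 0) (nat_lit 429394555) (nat_lit 152) (nat_lit 962554017) (nat_lit 76) (nat_lit 33954507224) (nat_lit 7) (nat_lit 5) (nat_lit 9) (nat_lit 5) (nat_lit 8) (nat_lit 4) (nat_lit 369) (nat_lit 209) (nat_lit 202)) (XT.nd (nat_lit 78) (nat_lit 0) (nat_lit 0) (XT.lf (nat_lit 0) (nat_lit 3357333218) (nat_lit 152) (nat_lit 31600755319) (nat_lit 0) (nat_lit 1350895546) (nat_lit 6) (nat_lit 5) (nat_lit 8) (nat_lit 4) (nat_lit 6) (nat_lit 4) (nat_lit 370) (nat_lit 209) (nat_lit 201)) (XT.lf (nat_lit 0) (nat_lit 6338878053) (nat_lit 152) (nat_lit 26849194513) (nat_lit 0) (nat_lit 4113375591) (nat_lit 6) (nat_lit 5) (nat_lit 8) (nat_lit 4) (nat_lit 6) (nat_lit 4) (nat_lit 371) (nat_lit 209) (nat_lit 200)))) (XT.nd (nat_lit 78) (nat_lit 0) (nat_lit 0) (XT.lf (nat_lit 0) (nat_lit 9353723796) (nat_lit 152) (nat_lit 22056141668)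 (nat_lit 0) (nat_lit 6915537070) (nat_lit 6) (nat_lit 5) (nat_lit 8) (nat_lit 4) (nat_lit 6) (nat_lit 4) (nat_lit 372) (nat_lit 209) (nat_lit 199)) (XT.nd (nat_lit 78) (nat_lit 0) (nat_lit 0) (XT.lf (nat_lit 0) (nat_lit 12404504776) (nat_lit 152) (nat_lit 17217408680) (nat_lit 0) (nat_lit 9759828474) (nat_lit 6) (nat_lit 5) (nat_lit 8) (nat_lit 4) (nat_lit 6) (nat_lit 4) (nat_lit 373) (nat_lit 209) (nat_lit 198)) (XT.lf (nat_lit 0) (nat_lit 15493886725) (nat_lit 152) (nat_lit 12328767530) (nat_lit 0) (nat_lit 12648735106) (nat_lit 6) (nat_lit 5) (nat_lit 8) (nat_lit 4) (nat_lit 6) (nat_lit 4) (nat_lit 374) (nat_lit 209) (nat_lit 197))))) (XT.nd (nat_lit 234) (nat_lit 0) (nat_lit 0) (XT.nd (nat_lit 78) (nat_lit 76) (nat_lit 0) (XT.lf (nat_lit 0) (nat_lit 18624569102) (nat_lit 152) (nat_lit 7385946590) (nat_lit 0) (nat_lit 15584781254) (nat_lit 6) (nat_lit 5) (nat_lit 8) (nat_lit 4) (nat_lit 6) (nat_lit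 4) (nat_lit 375) (nat_lit 209) (nat_lit 196)) (XT.nd (nat_lit 78) (nat_lit 76) (nat_lit 0) (XT.lf (nat_lit 0) (nat_lit 21799287457) (nat_lit 152) (nat_lit 2384626889) (nat_lit 0) (nat_lit 18570532395) (nat_lit 6) (nat_lit 5) (nat_lit 8) (nat_lit 4) (nat_lit 6) (nat_lit 4) (nat_lit 376) (nat_lit 209) (nat_lit 195)) (XT.lf (nat_lit 0) (nat_lit 2732890186) (nat_lit 76) (nat_lit 22314195839) (nat_lit 76) (nat_lit 18901977464) (nat_lit 5) (nat_lit 4) (nat_lit 6) (nat_lit 5) (nat_lit 6) (nat_lit 4) (nat_lit 377) (nat_lit 209) (nat_lit 194)))) (XT.nd (nat_lit 78) (nat_lit 0) (nat_lit 0) (XT.lf (nat_lit 0) (nat_lit 7966499157) (nat_lit 76) (nat_lit 20402048805) (nat_lit 76) (nat_lit 16811710708) (nat_lit 5) (nat_lit 4) (nat_lit 6) (nat_lit 5) (nat_lit 6) (nat_lit 4) (nat_lit 378) (nat_lit 209) (nat_lit 193)) (XT.nd (nat_lit 78) (nat_lit 0) (nat_lit 0) (XT.lf (nat_lit 0) (nat_lit 13273314329) (nat_lit 76)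 (nat_lit 18469882493) (nat_lit 76) (nat_lit 14706612627) (nat_lit 5) (nat_lit 4) (nat_lit 6) (nat_lit 5) (nat_lit 6) (nat_lit 4) (nat_lit 379) (nat_lit 209) (nat_lit 192)) (XT.lf (nat_lit 0) (nat_lit 18657972724) (nat_lit 76) (nat_lit 16516008601) (nat_lit 76) (nat_lit 12584843814) (nat_lit 5) (nat_lit 4) (nat_lit 6) (nat_lit 5) (nat_lit 6) (nat_lit 4) (nat_lit 380) (nat_lit 209) (nat_lit 191)))))) (XT.nd (nat_lit 468) (nat_lit 76) (nat_lit 0) (XT.nd (nat_lit 234) (nat_lit 76) (nat_lit 0) (XT.nd (nat_lit 78) (nat_lit 0) (nat_lit 0) (XT.lf (nat_lit 0) (nat_lit 24125179384) (nat_lit 76) (nat_lit 14538719862) (nat_lit 76) (nat_lit 10444550297) (nat_lit 5) (nat_lit 4) (nat_lit 6) (nat_lit 5) (nat_lit 6) (nat_lit 4) (nat_lit 381) (nat_lit 209) (nat_lit 190)) (XT.nd (nat_lit 78) (nat_lit 0) (nat_lit 0) (XT.lf (nat_lit 0) (nat_lit 29679711480) (nat_lit 76) (nat_lit 12536288548) (nat_lit 76) (nat_lit 8283861916)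 (nat_lit 5) (nat_lit 4) (nat_lit 6) (nat_lit 5) (nat_lit 6) (nat_lit 4) (nat_lit 382) (nat_lit 209) (nat_lit 189)) (XT.lf (nat_lit 0) (nat_lit 35326422486) (nat_lit 76) (nat_lit 10506964960) (nat_lit 76) (nat_lit 6100890691) (nat_lit 5) (nat_lit 4) (nat_lit 6) (nat_lit 5) (nat_lit 6) (nat_lit 4) (nat_lit 383) (nat_lit 209) (nat_lit 188)))) (XT.nd (nat_lit 78) (nat_lit 76) (nat_lit 0) (XT.lf (nat_lit 0) (nat_lit 41070246422) (nat_lit 76) (nat_lit 8448975904) (nat_lit 76) (nat_lit 3893729172) (nat_lit 5) (nat_lit 4) (nat_lit 6) (nat_lit 5) (nat_lit 6) (nat_lit 4) (nat_lit 384) (nat_lit 209) (nat_lit 187)) (XT.nd (nat_lit 78) (nat_lit 76) (nat_lit 0) (XT.lf (nat_lit 0) (nat_lit 46916202163) (nat_lit 76) (nat_lit 6360523137) (nat_lit 76) (nat_lit 1660448771) (nat_lit 5) (nat_lit 4) (nat_lit 6) (nat_lit 5) (nat_lit 6) (nat_lit 4) (nat_lit 385) (nat_lit 209) (nat_lit 186)) (XT.lf (nat_lit 0) (nat_lit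 589176161) (nat_lit 152) (nat_lit 3644656112) (nat_lit 76) (nat_lit 52274272140) (nat_lit 4) (nat_lit 5) (nat_lit 6) (nat_lit 5) (nat_lit 5) (nat_lit 4) (nat_lit 386) (nat_lit 209) (nat_lit 185))))) (XT.nd (nat_lit 234) (nat_lit 0) (nat_lit 0) (XT.nd (nat_lit 78) (nat_lit 0) (nat_lit 0) (XT.lf (nat_lit 0) (nat_lit 795113008) (nat_lit 76) (nat_lit 2048389781) (nat_lit 152) (nat_lit 55283069035) (nat_lit 3) (nat_lit 5) (nat_lit 4) (nat_lit 5) (nat_lit 5) (nat_lit 4) (nat_lit 387) (nat_lit 209) (nat_lit 184)) (XT.nd (nat_lit 78) (nat_lit 0) (nat_lit 0) (XT.lf (nat_lit 0) (nat_lit 5167675877) (nat_lit 152) (nat_lit 54419102585) (nat_lit 0) (nat_lit 206767667) (nat_lit 3) (nat_lit 5) (nat_lit 5) (nat_lit 4) (nat_lit 3) (nat_lit 4) (nat_lit 388) (nat_lit 209) (nat_lit 183)) (XT.lf (nat_lit 0) (nat_lit 7546030698) (nat_lit 152) (nat_lit 51504791179) (nat_lit 0) (nat_lit 2460192898) (nat_lit 3) (nat_lit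 5) (nat_lit 5) (nat_lit 4) (nat_lit 3) (nat_lit 4) (nat_lit 389) (nat_lit 209) (nat_lit 182)))) (XT.nd (nat_lit 78) (nat_lit 0) (nat_lit 0) (XT.lf (nat_lit 0) (nat_lit 9960955050) (nat_lit 152) (nat_lit 48566287736) (nat_lit 0) (nat_lit 4753826387) (nat_lit 3) (nat_lit 5) (nat_lit 5) (nat_lit 4) (nat_lit 3) (nat_lit 4) (nat_lit 390) (nat_lit 209) (nat_lit 181)) (XT.nd (nat_lit 78) (nat_lit 0) (nat_lit 0) (XT.lf (nat_lit 0) (nat_lit 12414559061) (nat_lit 152) (nat_lit 45601024632) (nat_lit 0) (nat_lit 7089672278) (nat_lit 3) (nat_lit 5) (nat_lit 5) (nat_lit 4) (nat_lit 3) (nat_lit 4) (nat_lit 391) (nat_lit 209) (nat_lit 180)) (XT.lf (nat_lit 0) (nat_lit 14908986657) (nat_lit 152) (nat_lit 42606410861) (nat_lit 0) (nat_lit 9469771602) (nat_lit 3) (nat_lit 5) (nat_lit 5) (nat_lit 4) (nat_lit 3) (nat_lit 4) (nat_lit 392) (nat_lit 209) (nat_lit 179))))))))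
noncomputable def xc10 : XT := (XT.nd (nat_lit 38922) (nat_lit 0) (nat_lit 0) (XT.nd (nat_lit 858) (nat_lit 0) (nat_lit 0) (XT.nd (nat_lit 390) (nat_lit 0) (nat_lit 0) (XT.nd (nat_lit 156) (nat_lit 0) (nat_lit 0) (XT.nd (nat_lit 78) (nat_lit 0) (nat_lit 0) (XT.lf (nat_lit 0) (nat_lit 17446417435) (nat_lit 152) (nat_lit 39579829770) (nat_lit 0) (nat_lit 11896204058) (nat_lit 3) (nat_lit 5) (nat_lit 5) (nat_lit 4) (nat_lit 3) (nat_lit 4) (nat_lit 393) (nat_lit 209) (nat_lit 178)) (XT.lf (nat_lit 0) (nat_lit 20029068567) (nat_lit 152) (nat_lit 36518636773) (nat_lit 0) (nat_lit 14371089829) (nat_lit 3) (nat_lit 5) (nat_lit 5) (nat_lit 4) (nat_lit 3) (nat_lit 4) (nat_lit 394) (nat_lit 209) (nat_lit 177))) (XT.nd (nat_lit 78) (nat_lit 0) (nat_lit 0) (XT.lf (nat_lit 0) (nat_lit 22659196739) (nat_lit 152) (nat_lit 33420157042) (nat_lit 0) (nat_lit 16896591437) (nat_lit 3) (nat_lit 5) (nat_lit 5) (nat_lit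 4) (nat_lit 3) (nat_lit 4) (nat_lit 395) (nat_lit 209) (nat_lit 176)) (XT.nd (nat_lit 78) (nat_lit 0) (nat_lit 0) (XT.lf (nat_lit 0) (nat_lit 25339100122) (nat_lit 152) (nat_lit 30281683168) (nat_lit 0) (nat_lit 19474915631) (nat_lit 3) (nat_lit 5) (nat_lit 5) (nat_lit 4) (nat_lit 3) (nat_lit 4) (nat_lit 396) (nat_lit 209) (nat_lit 175)) (XT.lf (nat_lit 0) (nat_lit 28071120378) (nat_lit 152) (nat_lit 27100472793) (nat_lit 0) (nat_lit 22108315316) (nat_lit 3) (nat_lit 5) (nat_lit 5) (nat_lit 4) (nat_lit 3) (nat_lit 4) (nat_lit 397) (nat_lit 209) (nat_lit 174))))) (XT.nd (nat_lit 234) (nat_lit 0) (nat_lit 0) (XT.nd (nat_lit 78) (nat_lit 0) (nat_lit 0) (XT.lf (nat_lit 0) (nat_lit 30857644709) (nat_lit 152) (nat_lit 23873746221) (nat_lit 0) (nat_lit 24799091519) (nat_lit 3) (nat_lit 5) (nat_lit 5) (nat_lit 4) (nat_lit 3) (nat_lit 4) (nat_lit 398) (nat_lit 209) (nat_lit 173)) (XT.nd (nat_lit 78) (nat_lit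 0) (nat_lit 0) (XT.lf (nat_lit 0) (nat_lit 33701107943) (nat_lit 152) (nat_lit 20598683980) (nat_lit 0) (nat_lit 27549595406) (nat_lit 3) (nat_lit 5) (nat_lit 5) (nat_lit 4) (nat_lit 3) (nat_lit 4) (nat_lit 399) (nat_lit 209) (nat_lit 172)) (XT.lf (nat_lit 0) (nat_lit 36603994659) (nat_lit 152) (nat_lit 17272424367) (nat_lit 0) (nat_lit 30362230329) (nat_lit 3) (nat_lit 5) (nat_lit 5) (nat_lit 4) (nat_lit 3) (nat_lit 4) (nat_lit 400) (nat_lit 209) (nat_lit 171)))) (XT.nd (nat_lit 78) (nat_lit 0) (nat_lit 0) (XT.lf (nat_lit 0) (nat_lit 39568841360) (nat_lit 152) (nat_lit 13892060941) (nat_lit 0) (nat_lit 33239453929) (nat_lit 3) (nat_lit 5) (nat_lit 5) (nat_lit 4) (nat_lit 3) (nat_lit 4) (nat_lit 401) (nat_lit 209) (nat_lit 170)) (XT.nd (nat_lit 78) (nat_lit 0) (nat_lit 0) (XT.lf (nat_lit 0) (nat_lit 42598238689) (nat_lit 152) (nat_lit 10454639986) (nat_lit 0) (nat_lit 36183780287) (nat_lit 3) (nat_lit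 5) (nat_lit 5) (nat_lit 4) (nat_lit 3) (nat_lit 4) (nat_lit 402) (nat_lit 209) (nat_lit 169)) (XT.lf (nat_lit 0) (nat_lit 45694833692) (nat_lit 152) (nat_lit 6957157931) (nat_lit 0) (nat_lit 39197782114) (nat_lit 3) (nat_lit 5) (nat_lit 5) (nat_lit 4) (nat_lit 3) (nat_lit 4) (nat_lit 403) (nat_lit 209) (nat_lit 168)))))) (XT.nd (nat_lit 37596) (nat_lit 0) (nat_lit 228) (XT.nd (nat_lit 37362) (nat_lit 0) (nat_lit 380) (XT.nd (nat_lit 37206) (nat_lit 0) (nat_lit 456) (XT.lf (nat_lit 0) (nat_lit 48861332132) (nat_lit 152) (nat_lit 3396558723) (nat_lit 0) (nat_lit 42284093004) (nat_lit 3) (nat_lit 5) (nat_lit 5) (nat_lit 4) (nat_lit 3) (nat_lit 4) (nat_lit 404) (nat_lit 209) (nat_lit 167)) (XT.nd (nat_lit 78) (nat_lit 0) (nat_lit 0) (XT.lf (nat_lit 0) (nat_lit 1745948936) (nat_lit 152) (nat_lit 10459149070) (nat_lit 0) (nat_lit 1745948936) (nat_lit 9) (nat_lit 5) (nat_lit 11) (nat_lit 4) (nat_lit 9)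 (nat_lit 4) (nat_lit 360) (nat_lit 210) (nat_lit 210)) (XT.lf (nat_lit 0) (nat_lit 6890192859) (nat_lit 152) (nat_lit 15143045605) (nat_lit 0) (nat_lit 6595788098) (nat_lit 9) (nat_lit 5) (nat_lit 11) (nat_lit 4) (nat_lit 9) (nat_lit 4) (nat_lit 361) (nat_lit 210) (nat_lit 209)))) (XT.nd (nat_lit 78) (nat_lit 76) (nat_lit 0) (XT.lf (nat_lit 0) (nat_lit 10320938759) (nat_lit 152) (nat_lit 9318252294) (nat_lit 0) (nat_lit 9740704133) (nat_lit 9) (nat_lit 5) (nat_lit 11) (nat_lit 4) (nat_lit 9) (nat_lit 4) (nat_lit 362) (nat_lit 210) (nat_lit 208)) (XT.nd (nat_lit 78) (nat_lit 76) (nat_lit 0) (XT.lf (nat_lit 0) (nat_lit 13787133312) (nat_lit 152) (nat_lit 3438828581) (nat_lit 0) (nat_lit 12929393963) (nat_lit 9) (nat_lit 5) (nat_lit 11) (nat_lit 4) (nat_lit 9) (nat_lit 4) (nat_lit 363) (nat_lit 210) (nat_lit 207)) (XT.lf (nat_lit 0) (nat_lit 2550125017) (nat_lit 76) (nat_lit 14766193576) (nat_lit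 76) (nat_lit 13639032165) (nat_lit 8) (nat_lit 4) (nat_lit 9) (nat_lit 5) (nat_lit 9) (nat_lit 4) (nat_lit 364) (nat_lit 210) (nat_lit 206))))) (XT.nd (nat_lit 234) (nat_lit 152) (nat_lit 0) (XT.nd (nat_lit 78) (nat_lit 0) (nat_lit 0) (XT.lf (nat_lit 0) (nat_lit 8673768172) (nat_lit 76) (nat_lit 12247626245) (nat_lit 76) (nat_lit 10858890017) (nat_lit 8) (nat_lit 4) (nat_lit 9) (nat_lit 5) (nat_lit 9) (nat_lit 4) (nat_lit 365) (nat_lit 210) (nat_lit 205)) (XT.nd (nat_lit 78) (nat_lit 0) (nat_lit 0) (XT.lf (nat_lit 0) (nat_lit 14869012209) (nat_lit 76) (nat_lit 9702784637) (nat_lit 76) (nat_lit 8060092276) (nat_lit 8) (nat_lit 4) (nat_lit 9) (nat_lit 5) (nat_lit 9) (nat_lit 4) (nat_lit 366) (nat_lit 210) (nat_lit 204)) (XT.lf (nat_lit 0) (nat_lit 21141270448) (nat_lit 76) (nat_lit 7129445104) (nat_lit 76) (nat_lit 5240193390) (nat_lit 8) (nat_lit 4) (nat_lit 9) (nat_lit 5) (nat_lit 9) (nat_lit 4)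 (nat_lit 367) (nat_lit 210) (nat_lit 203)))) (XT.nd (nat_lit 78) (nat_lit 152) (nat_lit 0) (XT.lf (nat_lit 0) (nat_lit 27496023501) (nat_lit 76) (nat_lit 4525359096) (nat_lit 76) (nat_lit 2396729370) (nat_lit 8) (nat_lit 4) (nat_lit 9) (nat_lit 5) (nat_lit 9) (nat_lit 4) (nat_lit 368) (nat_lit 210) (nat_lit 202)) (XT.nd (nat_lit 78) (nat_lit 76) (nat_lit 0) (XT.lf (nat_lit 0) (nat_lit 463558637) (nat_lit 152) (nat_lit 1420011528) (nat_lit 76) (nat_lit 33470584396) (nat_lit 7) (nat_lit 5) (nat_lit 9) (nat_lit 5) (nat_lit 8) (nat_lit 4) (nat_lit 369) (nat_lit 210) (nat_lit 201)) (XT.lf (nat_lit 0) (nat_lit 3353754663) (nat_lit 152) (nat_lit 32121654374) (nat_lit 0) (nat_lit 842422336) (nat_lit 6) (nat_lit 5) (nat_lit 8) (nat_lit 4) (nat_lit 6) (nat_lit 4) (nat_lit 370) (nat_lit 210) (nat_lit 200))))))) (XT.nd (nat_lit 936) (nat_lit 152) (nat_lit 0) (XT.nd (nat_lit 468) (nat_lit 76) (nat_lit 0) (XT.nd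 (nat_lit 234) (nat_lit 0) (nat_lit 0) (XT.nd (nat_lit 78) (nat_lit 0) (nat_lit 0) (XT.lf (nat_lit 0) (nat_lit 6307641648) (nat_lit 152) (nat_lit 27419874250) (nat_lit 0) (nat_lit 3583625057) (nat_lit 6) (nat_lit 5) (nat_lit 8) (nat_lit 4) (nat_lit 6) (nat_lit 4) (nat_lit 371) (nat_lit 210) (nat_lit 199)) (XT.nd (nat_lit 78) (nat_lit 0) (nat_lit 0) (XT.lf (nat_lit 0) (nat_lit 9295635107) (nat_lit 152) (nat_lit 22675152165) (nat_lit 0) (nat_lit 6365128940) (nat_lit 6) (nat_lit 5) (nat_lit 8) (nat_lit 4) (nat_lit 6) (nat_lit 4) (nat_lit 372) (nat_lit 210) (nat_lit 198)) (XT.lf (nat_lit 0) (nat_lit 12320345909) (nat_lit 152) (nat_lit 17883342245) (nat_lit 0) (nat_lit 9189364426) (nat_lit 6) (nat_lit 5) (nat_lit 8) (nat_lit 4) (nat_lit 6) (nat_lit 4) (nat_lit 373) (nat_lit 210) (nat_lit 197)))) (XT.nd (nat_lit 78) (nat_lit 0) (nat_lit 0) (XT.lf (nat_lit 0) (nat_lit 15384417006) (nat_lit 152) (nat_lit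 13040257471) (nat_lit 0) (nat_lit 12058799293) (nat_lit 6) (nat_lit 5) (nat_lit 8) (nat_lit 4) (nat_lit 6) (nat_lit 4) (nat_lit 374) (nat_lit 210) (nat_lit 196)) (XT.nd (nat_lit 78) (nat_lit 0) (nat_lit 0) (XT.lf (nat_lit 0) (nat_lit 18490525741) (nat_lit 152) (nat_lit 8141666023) (nat_lit 0) (nat_lit 14975940815) (nat_lit 6) (nat_lit 5) (nat_lit 8) (nat_lit 4) (nat_lit 6) (nat_lit 4) (nat_lit 375) (nat_lit 210) (nat_lit 195)) (XT.lf (nat_lit 0) (nat_lit 21641386190) (nat_lit 152) (nat_lit 3183287577) (nat_lit 0) (nat_lit 17943337950) (nat_lit 6) (nat_lit 5) (nat_lit 8) (nat_lit 4) (nat_lit 6) (nat_lit 4) (nat_lit 376) (nat_lit 210) (nat_lit 194))))) (XT.nd (nat_lit 234) (nat_lit 0) (nat_lit 0) (XT.nd (nat_lit 78) (nat_lit 0) (nat_lit 0) (XT.lf (nat_lit 0) (nat_lit 1875814323) (nat_lit 76) (nat_lit 22981968682) (nat_lit 76) (nat_lit 19105800720) (nat_lit 5) (nat_lit 4) (nat_lit 6) (nat_lit 5) (nat_lit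 6) (nat_lit 4) (nat_lit 377) (nat_lit 210) (nat_lit 193)) (XT.nd (nat_lit 78) (nat_lit 0) (nat_lit 0) (XT.lf (nat_lit 0) (nat_lit 7068141488) (nat_lit 76) (nat_lit 21088218265) (nat_lit 76) (nat_lit 17039118534) (nat_lit 5) (nat_lit 4) (nat_lit 6) (nat_lit 5) (nat_lit 6) (nat_lit 4) (nat_lit 378) (nat_lit 210) (nat_lit 192)) (XT.lf (nat_lit 0) (nat_lit 12334877235) (nat_lit 76) (nat_lit 19173912746) (nat_lit 76) (nat_lit 14956918093) (nat_lit 5) (nat_lit 4) (nat_lit 6) (nat_lit 5) (nat_lit 6) (nat_lit 4) (nat_lit 379) (nat_lit 210) (nat_lit 191)))) (XT.nd (nat_lit 78) (nat_lit 0) (nat_lit 0) (XT.lf (nat_lit 0) (nat_lit 17680623568) (nat_lit 76) (nat_lit 17237379430) (nat_lit 76) (nat_lit 12857380000) (nat_lit 5) (nat_lit 4) (nat_lit 6) (nat_lit 5) (nat_lit 6) (nat_lit 4) (nat_lit 380) (nat_lit 210) (nat_lit 190)) (XT.nd (nat_lit 78) (nat_lit 0) (nat_lit 0) (XT.lf (nat_lit 0) (nat_lit 23110051526)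 (nat_lit 76) (nat_lit 15276926202) (nat_lit 76) (nat_lit 10738669705) (nat_lit 5) (nat_lit 4) (nat_lit 6) (nat_lit 5) (nat_lit 6) (nat_lit 4) (nat_lit 381) (nat_lit 210) (nat_lit 189)) (XT.lf (nat_lit 0) (nat_lit 28627905271) (nat_lit 76) (nat_lit 13290840043) (nat_lit 76) (nat_lit 8598935909) (nat_lit 5) (nat_lit 4) (nat_lit 6) (nat_lit 5) (nat_lit 6) (nat_lit 4) (nat_lit 382) (nat_lit 210) (nat_lit 188)))))) (XT.nd (nat_lit 468) (nat_lit 0) (nat_lit 0) (XT.nd (nat_lit 234) (nat_lit 152) (nat_lit 0) (XT.nd (nat_lit 78) (nat_lit 0) (nat_lit 0) (XT.lf (nat_lit 0) (nat_lit 34239006227) (nat_lit 76) (nat_lit 11277385539) (nat_lit 76) (nat_lit 6436308942) (nat_lit 5) (nat_lit 4) (nat_lit 6) (nat_lit 5) (nat_lit 6) (nat_lit 4) (nat_lit 383) (nat_lit 210) (nat_lit 187)) (XT.nd (nat_lit 78) (nat_lit 0) (nat_lit 0) (XT.lf (nat_lit 0) (nat_lit 39948257300) (nat_lit 76) (nat_lit 9234803360) (nat_lit 76)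 (nat_lit 4248899129) (nat_lit 5) (nat_lit 4) (nat_lit 6) (nat_lit 5) (nat_lit 6) (nat_lit 4) (nat_lit 384) (nat_lit 210) (nat_lit 186)) (XT.lf (nat_lit 0) (nat_lit 45760647153) (nat_lit 76) (nat_lit 7161308726) (nat_lit 76) (nat_lit 2034795142) (nat_lit 5) (nat_lit 4) (nat_lit 6) (nat_lit 5) (nat_lit 6) (nat_lit 4) (nat_lit 385) (nat_lit 210) (nat_lit 185)))) (XT.nd (nat_lit 78) (nat_lit 76) (nat_lit 0) (XT.lf (nat_lit 0) (nat_lit 203880060) (nat_lit 152) (nat_lit 4849150996) (nat_lit 76) (nat_lit 51475315726) (nat_lit 4) (nat_lit 5) (nat_lit 6) (nat_lit 5) (nat_lit 5) (nat_lit 4) (nat_lit 386) (nat_lit 210) (nat_lit 184)) (XT.nd (nat_lit 78) (nat_lit 76) (nat_lit 0) (XT.lf (nat_lit 0) (nat_lit 2432840687) (nat_lit 152) (nat_lit 456898725) (nat_lit 76) (nat_lit 55257845305) (nat_lit 4) (nat_lit 5) (nat_lit 6) (nat_lit 5) (nat_lit 5) (nat_lit 4) (nat_lit 387) (nat_lit 210) (nat_lit 183)) (XT.lf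 (nat_lit 0) (nat_lit 4083738987) (nat_lit 76) (nat_lit 649256965) (nat_lit 152) (nat_lit 55082292868) (nat_lit 3) (nat_lit 5) (nat_lit 4) (nat_lit 5) (nat_lit 5) (nat_lit 4) (nat_lit 388) (nat_lit 210) (nat_lit 182))))) (XT.nd (nat_lit 234) (nat_lit 0) (nat_lit 0) (XT.nd (nat_lit 78) (nat_lit 0) (nat_lit 0) (XT.lf (nat_lit 0) (nat_lit 7087976165) (nat_lit 152) (nat_lit 52842148755) (nat_lit 0) (nat_lit 1603342779) (nat_lit 3) (nat_lit 5) (nat_lit 5) (nat_lit 4) (nat_lit 3) (nat_lit 4) (nat_lit 389) (nat_lit 210) (nat_lit 181)) (XT.nd (nat_lit 78) (nat_lit 0) (nat_lit 0) (XT.lf (nat_lit 0) (nat_lit 9486265999) (nat_lit 152) (nat_lit 49933889372) (nat_lit 0) (nat_lit 3883874493) (nat_lit 3) (nat_lit 5) (nat_lit 5) (nat_lit 4) (nat_lit 3) (nat_lit 4) (nat_lit 390) (nat_lit 210) (nat_lit 180)) (XT.lf (nat_lit 0) (nat_lit 11923719993) (nat_lit 152) (nat_lit 46997989434) (nat_lit 0) (nat_lit 6207000215)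 (nat_lit 3) (nat_lit 5) (nat_lit 5) (nat_lit 4) (nat_lit 3) (nat_lit 4) (nat_lit 391) (nat_lit 210) (nat_lit 179)))) (XT.nd (nat_lit 78) (nat_lit 0) (nat_lit 0) (XT.lf (nat_lit 0) (nat_lit 14402467960) (nat_lit 152) (nat_lit 44031883590) (nat_lit 0) (nat_lit 8574749861) (nat_lit 3) (nat_lit 5) (nat_lit 5) (nat_lit 4) (nat_lit 3) (nat_lit 4) (nat_lit 392) (nat_lit 210) (nat_lit 178)) (XT.nd (nat_lit 78) (nat_lit 0) (nat_lit 0) (XT.lf (nat_lit 0) (nat_lit 16924675798) (nat_lit 152) (nat_lit 41032980099) (nat_lit 0) (nat_lit 10989192337) (nat_lit 3) (nat_lit 5) (nat_lit 5) (nat_lit 4) (nat_lit 3) (nat_lit 4) (nat_lit 393) (nat_lit 210) (nat_lit 177)) (XT.lf (nat_lit 0) (nat_lit 19492547377) (nat_lit 152) (nat_lit 37998658558) (nat_lit 0) (nat_lit 13452437351) (nat_lit 3) (nat_lit 5) (nat_lit 5) (nat_lit 4) (nat_lit 3) (nat_lit 4) (nat_lit 394) (nat_lit 210) (nat_lit 176))))))))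
noncomputable def xc11 : XT := (XT.nd (nat_lit 38766) (nat_lit 0) (nat_lit 0) (XT.nd (nat_lit 37830) (nat_lit 0) (nat_lit 228) (XT.nd (nat_lit 390) (nat_lit 0) (nat_lit 0) (XT.nd (nat_lit 156) (nat_lit 0) (nat_lit 0) (XT.nd (nat_lit 78) (nat_lit 0) (nat_lit 0) (XT.lf (nat_lit 0) (nat_lit 22108326468) (nat_lit 152) (nat_lit 34926267619) (nat_lit 0) (nat_lit 15966637254) (nat_lit 3) (nat_lit 5) (nat_lit 5) (nat_lit 4) (nat_lit 3) (nat_lit 4) (nat_lit 395) (nat_lit 210) (nat_lit 175)) (XT.lf (nat_lit 0) (nat_lit 24774298703) (nat_lit 152) (nat_lit 31813122669) (nat_lit 0) (nat_lit 18533988918) (nat_lit 3) (nat_lit 5) (nat_lit 5) (nat_lit 4) (nat_lit 3) (nat_lit 4) (nat_lit 396) (nat_lit 210) (nat_lit 174))) (XT.nd (nat_lit 78) (nat_lit 0) (nat_lit 0) (XT.lf (nat_lit 0) (nat_lit 27492793574) (nat_lit 152) (nat_lit 28656503483) (nat_lit 0) (nat_lit 21156735661) (nat_lit 3) (nat_lit 5) (nat_lit 5) (nat_lit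 4) (nat_lit 3) (nat_lit 4) (nat_lit 397) (nat_lit 210) (nat_lit 173)) (XT.nd (nat_lit 78) (nat_lit 0) (nat_lit 0) (XT.lf (nat_lit 0) (nat_lit 30266186463) (nat_lit 152) (nat_lit 25453651851) (nat_lit 0) (nat_lit 23837169203) (nat_lit 3) (nat_lit 5) (nat_lit 5) (nat_lit 4) (nat_lit 3) (nat_lit 4) (nat_lit 398) (nat_lit 210) (nat_lit 172)) (XT.lf (nat_lit 0) (nat_lit 33096900724) (nat_lit 152) (nat_lit 22201769165) (nat_lit 0) (nat_lit 26577631671) (nat_lit 3) (nat_lit 5) (nat_lit 5) (nat_lit 4) (nat_lit 3) (nat_lit 4) (nat_lit 399) (nat_lit 210) (nat_lit 171))))) (XT.nd (nat_lit 234) (nat_lit 0) (nat_lit 0) (XT.nd (nat_lit 78) (nat_lit 0) (nat_lit 0) (XT.lf (nat_lit 0) (nat_lit 35987409797) (nat_lit 152) (nat_lit 18898013973) (nat_lit 0) (nat_lit 29380517643) (nat_lit 3) (nat_lit 5) (nat_lit 5) (nat_lit 4) (nat_lit 3) (nat_lit 4) (nat_lit 400) (nat_lit 210) (nat_lit 170)) (XT.nd (nat_lit 78) (nat_lit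 0) (nat_lit 0) (XT.lf (nat_lit 0) (nat_lit 38940239368) (nat_lit 152) (nat_lit 15539499500) (nat_lit 0) (nat_lit 32248276243) (nat_lit 3) (nat_lit 5) (nat_lit 5) (nat_lit 4) (nat_lit 3) (nat_lit 4) (nat_lit 401) (nat_lit 210) (nat_lit 169)) (XT.lf (nat_lit 0) (nat_lit 41957969581) (nat_lit 152) (nat_lit 12123291120) (nat_lit 0) (nat_lit 35183413280) (nat_lit 3) (nat_lit 5) (nat_lit 5) (nat_lit 4) (nat_lit 3) (nat_lit 4) (nat_lit 402) (nat_lit 210) (nat_lit 168)))) (XT.nd (nat_lit 78) (nat_lit 0) (nat_lit 0) (XT.lf (nat_lit 0) (nat_lit 45043237287) (nat_lit 152) (nat_lit 8646403799) (nat_lit 0) (nat_lit 38188493436) (nat_lit 3) (nat_lit 5) (nat_lit 5) (nat_lit 4) (nat_lit 3) (nat_lit 4) (nat_lit 403) (nat_lit 210) (nat_lit 167)) (XT.nd (nat_lit 37050) (nat_lit 0) (nat_lit 608) (XT.lf (nat_lit 0) (nat_lit 48198738351) (nat_lit 152) (nat_lit 5105799477) (nat_lit 0) (nat_lit 41266142510) (nat_lit 3)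 (nat_lit 5) (nat_lit 5) (nat_lit 4) (nat_lit 3) (nat_lit 4) (nat_lit 404) (nat_lit 210) (nat_lit 166)) (XT.lf (nat_lit 0) (nat_lit 10405130563) (nat_lit 76) (nat_lit 1425701076) (nat_lit 76) (nat_lit 1425701076) (nat_lit 11) (nat_lit 4) (nat_lit 12) (nat_lit 5) (nat_lit 12) (nat_lit 4) (nat_lit 358) (nat_lit 211) (nat_lit 211)))))) (XT.nd (nat_lit 468) (nat_lit 152) (nat_lit 0) (XT.nd (nat_lit 234) (nat_lit 76) (nat_lit 0) (XT.nd (nat_lit 78) (nat_lit 0) (nat_lit 0) (XT.lf (nat_lit 0) (nat_lit 426321319) (nat_lit 152) (nat_lit 26649056237) (nat_lit 0) (nat_lit 123084415) (nat_lit 9) (nat_lit 5) (nat_lit 11) (nat_lit 4) (nat_lit 9) (nat_lit 4) (nat_lit 359) (nat_lit 211) (nat_lit 210)) (XT.nd (nat_lit 78) (nat_lit 0) (nat_lit 0) (XT.lf (nat_lit 0) (nat_lit 3759872277) (nat_lit 152) (nat_lit 20981070704) (nat_lit 0) (nat_lit 3162230612) (nat_lit 9) (nat_lit 5) (nat_lit 11) (nat_lit 4) (nat_lit 9)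 (nat_lit 4) (nat_lit 360) (nat_lit 211) (nat_lit 209)) (XT.lf (nat_lit 0) (nat_lit 7123931827) (nat_lit 152) (nat_lit 15266762405) (nat_lit 0) (nat_lit 6240460297) (nat_lit 9) (nat_lit 5) (nat_lit 11) (nat_lit 4) (nat_lit 9) (nat_lit 4) (nat_lit 361) (nat_lit 211) (nat_lit 208)))) (XT.nd (nat_lit 78) (nat_lit 76) (nat_lit 0) (XT.lf (nat_lit 0) (nat_lit 10521439439) (nat_lit 152) (nat_lit 9501138255) (nat_lit 0) (nat_lit 9360463186) (nat_lit 9) (nat_lit 5) (nat_lit 11) (nat_lit 4) (nat_lit 9) (nat_lit 4) (nat_lit 362) (nat_lit 211) (nat_lit 207)) (XT.nd (nat_lit 78) (nat_lit 76) (nat_lit 0) (XT.lf (nat_lit 0) (nat_lit 13955363810) (nat_lit 152) (nat_lit 3679160330) (nat_lit 0) (nat_lit 12524965495) (nat_lit 9) (nat_lit 5) (nat_lit 11) (nat_lit 4) (nat_lit 9) (nat_lit 4) (nat_lit 363) (nat_lit 211) (nat_lit 206)) (XT.lf (nat_lit 0) (nat_lit 2248127600) (nat_lit 76) (nat_lit 15202188232) (nat_lit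 76) (nat_lit 13510215101) (nat_lit 8) (nat_lit 4) (nat_lit 9) (nat_lit 5) (nat_lit 9) (nat_lit 4) (nat_lit 364) (nat_lit 211) (nat_lit 205))))) (XT.nd (nat_lit 234) (nat_lit 152) (nat_lit 0) (XT.nd (nat_lit 78) (nat_lit 0) (nat_lit 0) (XT.lf (nat_lit 0) (nat_lit 8316544937) (nat_lit 76) (nat_lit 12707898115) (nat_lit 76) (nat_lit 10761968850) (nat_lit 8) (nat_lit 4) (nat_lit 9) (nat_lit 5) (nat_lit 9) (nat_lit 4) (nat_lit 365) (nat_lit 211) (nat_lit 204)) (XT.nd (nat_lit 78) (nat_lit 0) (nat_lit 0) (XT.lf (nat_lit 0) (nat_lit 14458171673) (nat_lit 76) (nat_lit 10186626616) (nat_lit 76) (nat_lit 7994137999) (nat_lit 8) (nat_lit 4) (nat_lit 9) (nat_lit 5) (nat_lit 9) (nat_lit 4) (nat_lit 366) (nat_lit 211) (nat_lit 203)) (XT.lf (nat_lit 0) (nat_lit 20678374280) (nat_lit 76) (nat_lit 7636170685) (nat_lit 76) (nat_lit 5204304055) (nat_lit 8) (nat_lit 4) (nat_lit 9) (nat_lit 5) (nat_lit 9) (nat_lit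 4) (nat_lit 367) (nat_lit 211) (nat_lit 202)))) (XT.nd (nat_lit 78) (nat_lit 152) (nat_lit 0) (XT.lf (nat_lit 0) (nat_lit 26982587886) (nat_lit 76) (nat_lit 5054301766) (nat_lit 76) (nat_lit 2390029300) (nat_lit 8) (nat_lit 4) (nat_lit 9) (nat_lit 5) (nat_lit 9) (nat_lit 4) (nat_lit 368) (nat_lit 211) (nat_lit 201)) (XT.nd (nat_lit 78) (nat_lit 76) (nat_lit 0) (XT.lf (nat_lit 0) (nat_lit 442341872) (nat_lit 152) (nat_lit 1991955200) (nat_lit 76) (nat_lit 32929512369) (nat_lit 7) (nat_lit 5) (nat_lit 9) (nat_lit 5) (nat_lit 8) (nat_lit 4) (nat_lit 369) (nat_lit 211) (nat_lit 200)) (XT.lf (nat_lit 0) (nat_lit 3293923314) (nat_lit 152) (nat_lit 32759235186) (nat_lit 0) (nat_lit 275501962) (nat_lit 6) (nat_lit 5) (nat_lit 8) (nat_lit 4) (nat_lit 6) (nat_lit 4) (nat_lit 370) (nat_lit 211) (nat_lit 199))))))) (XT.nd (nat_lit 936) (nat_lit 152) (nat_lit 0) (XT.nd (nat_lit 468) (nat_lit 76) (nat_lit 0)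 (XT.nd (nat_lit 234) (nat_lit 0) (nat_lit 0) (XT.nd (nat_lit 78) (nat_lit 0) (nat_lit 0) (XT.lf (nat_lit 0) (nat_lit 6220958015) (nat_lit 152) (nat_lit 28105785822) (nat_lit 0) (nat_lit 2996047087) (nat_lit 6) (nat_lit 5) (nat_lit 8) (nat_lit 4) (nat_lit 6) (nat_lit 4) (nat_lit 371) (nat_lit 211) (nat_lit 198)) (XT.nd (nat_lit 78) (nat_lit 0) (nat_lit 0) (XT.lf (nat_lit 0) (nat_lit 9182881297) (nat_lit 152) (nat_lit 23407986805) (nat_lit 0) (nat_lit 5757495052) (nat_lit 6) (nat_lit 5) (nat_lit 8) (nat_lit 4) (nat_lit 6) (nat_lit 4) (nat_lit 372) (nat_lit 211) (nat_lit 197)) (XT.lf (nat_lit 0) (nat_lit 12182281247) (nat_lit 152) (nat_lit 18661733261) (nat_lit 0) (nat_lit 8562258773) (nat_lit 6) (nat_lit 5) (nat_lit 8) (nat_lit 4) (nat_lit 6) (nat_lit 4) (nat_lit 373) (nat_lit 211) (nat_lit 196)))) (XT.nd (nat_lit 78) (nat_lit 0) (nat_lit 0) (XT.lf (nat_lit 0) (nat_lit 15221778701) (nat_lit 152)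 (nat_lit 13862877979) (nat_lit 0) (nat_lit 11412789014) (nat_lit 6) (nat_lit 5) (nat_lit 8) (nat_lit 4) (nat_lit 6) (nat_lit 4) (nat_lit 374) (nat_lit 211) (nat_lit 195)) (XT.nd (nat_lit 78) (nat_lit 0) (nat_lit 0) (XT.lf (nat_lit 0) (nat_lit 18304029531) (nat_lit 152) (nat_lit 9007227785) (nat_lit 0) (nat_lit 14311576530) (nat_lit 6) (nat_lit 5) (nat_lit 8) (nat_lit 4) (nat_lit 6) (nat_lit 4) (nat_lit 375) (nat_lit 211) (nat_lit 194)) (XT.lf (nat_lit 0) (nat_lit 21431726964) (nat_lit 152) (nat_lit 4090539877) (nat_lit 0) (nat_lit 17261154241) (nat_lit 6) (nat_lit 5) (nat_lit 8) (nat_lit 4) (nat_lit 6) (nat_lit 4) (nat_lit 376) (nat_lit 211) (nat_lit 193))))) (XT.nd (nat_lit 234) (nat_lit 0) (nat_lit 0) (XT.nd (nat_lit 78) (nat_lit 0) (nat_lit 0) (XT.lf (nat_lit 0) (nat_lit 909224117) (nat_lit 76) (nat_lit 23707119843) (nat_lit 76) (nat_lit 19363615350) (nat_lit 5) (nat_lit 4) (nat_lit 6) (nat_lit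 5) (nat_lit 6) (nat_lit 4) (nat_lit 377) (nat_lit 211) (nat_lit 192)) (XT.nd (nat_lit 78) (nat_lit 0) (nat_lit 0) (XT.lf (nat_lit 0) (nat_lit 6061471856) (nat_lit 76) (nat_lit 21831230219) (nat_lit 76) (nat_lit 17319830805) (nat_lit 5) (nat_lit 4) (nat_lit 6) (nat_lit 5) (nat_lit 6) (nat_lit 4) (nat_lit 378) (nat_lit 211) (nat_lit 191)) (XT.lf (nat_lit 0) (nat_lit 11289295541) (nat_lit 76) (nat_lit 19934265276) (nat_lit 76) (nat_lit 15259861084) (nat_lit 5) (nat_lit 4) (nat_lit 6) (nat_lit 5) (nat_lit 6) (nat_lit 4) (nat_lit 379) (nat_lit 211) (nat_lit 190)))) (XT.nd (nat_lit 78) (nat_lit 0) (nat_lit 0) (XT.lf (nat_lit 0) (nat_lit 16597263172) (nat_lit 76) (nat_lit 18014567471) (nat_lit 76) (nat_lit 13181906213) (nat_lit 5) (nat_lit 4) (nat_lit 6) (nat_lit 5) (nat_lit 6) (nat_lit 4) (nat_lit 380) (nat_lit 211) (nat_lit 189)) (XT.nd (nat_lit 78) (nat_lit 0) (nat_lit 0) (XT.lf (nat_lit 0) (nat_lit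 21990012780) (nat_lit 76) (nat_lit 16070459398) (nat_lit 76) (nat_lit 11084150504) (nat_lit 5) (nat_lit 4) (nat_lit 6) (nat_lit 5) (nat_lit 6) (nat_lit 4) (nat_lit 381) (nat_lit 211) (nat_lit 188)) (XT.lf (nat_lit 0) (nat_lit 27472256475) (nat_lit 76) (nat_lit 14100242323) (nat_lit 76) (nat_lit 8964760965) (nat_lit 5) (nat_lit 4) (nat_lit 6) (nat_lit 5) (nat_lit 6) (nat_lit 4) (nat_lit 382) (nat_lit 211) (nat_lit 187)))))) (XT.nd (nat_lit 468) (nat_lit 0) (nat_lit 0) (XT.nd (nat_lit 234) (nat_lit 152) (nat_lit 0) (XT.nd (nat_lit 78) (nat_lit 0) (nat_lit 0) (XT.lf (nat_lit 0) (nat_lit 33048784568) (nat_lit 76) (nat_lit 12102194696) (nat_lit 76) (nat_lit 6821885704) (nat_lit 5) (nat_lit 4) (nat_lit 6) (nat_lit 5) (nat_lit 6) (nat_lit 4) (nat_lit 383) (nat_lit 211) (nat_lit 186)) (XT.nd (nat_lit 78) (nat_lit 0) (nat_lit 0) (XT.lf (nat_lit 0) (nat_lit 38724469753) (nat_lit 76) (nat_lit 10074570650)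 (nat_lit 76) (nat_lit 4653652305) (nat_lit 5) (nat_lit 4) (nat_lit 6) (nat_lit 5) (nat_lit 6) (nat_lit 4) (nat_lit 384) (nat_lit 211) (nat_lit 185)) (XT.lf (nat_lit 0) (nat_lit 44504271367) (nat_lit 76) (nat_lit 8015598475) (nat_lit 76) (nat_lit 2458166195) (nat_lit 5) (nat_lit 4) (nat_lit 6) (nat_lit 5) (nat_lit 6) (nat_lit 4) (nat_lit 385) (nat_lit 211) (nat_lit 184)))) (XT.nd (nat_lit 78) (nat_lit 152) (nat_lit 0) (XT.lf (nat_lit 0) (nat_lit 50393239721) (nat_lit 76) (nat_lit 5923479070) (nat_lit 76) (nat_lit 233508988) (nat_lit 5) (nat_lit 4) (nat_lit 6) (nat_lit 5) (nat_lit 6) (nat_lit 4) (nat_lit 386) (nat_lit 211) (nat_lit 183)) (XT.nd (nat_lit 78) (nat_lit 76) (nat_lit 0) (XT.lf (nat_lit 0) (nat_lit 1982801551) (nat_lit 152) (nat_lit 1793560409) (nat_lit 76) (nat_lit 54393696558) (nat_lit 4) (nat_lit 5) (nat_lit 6) (nat_lit 5) (nat_lit 5) (nat_lit 4) (nat_lit 387) (nat_lit 211) (nat_lit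 182)) (XT.lf (nat_lit 0) (nat_lit 2689710463) (nat_lit 76) (nat_lit 1563140577) (nat_lit 152) (nat_lit 55585823751) (nat_lit 3) (nat_lit 5) (nat_lit 4) (nat_lit 5) (nat_lit 5) (nat_lit 4) (nat_lit 388) (nat_lit 211) (nat_lit 181))))) (XT.nd (nat_lit 234) (nat_lit 0) (nat_lit 0) (XT.nd (nat_lit 78) (nat_lit 0) (nat_lit 0) (XT.lf (nat_lit 0) (nat_lit 6582411926) (nat_lit 152) (nat_lit 54281022500) (nat_lit 0) (nat_lit 694190555) (nat_lit 3) (nat_lit 5) (nat_lit 5) (nat_lit 4) (nat_lit 3) (nat_lit 4) (nat_lit 389) (nat_lit 211) (nat_lit 180)) (XT.nd (nat_lit 78) (nat_lit 0) (nat_lit 0) (XT.lf (nat_lit 0) (nat_lit 8964551742) (nat_lit 152) (nat_lit 51402126283) (nat_lit 0) (nat_lit 2962002099) (nat_lit 3) (nat_lit 5) (nat_lit 5) (nat_lit 4) (nat_lit 3) (nat_lit 4) (nat_lit 390) (nat_lit 211) (nat_lit 179)) (XT.lf (nat_lit 0) (nat_lit 11386326107) (nat_lit 152) (nat_lit 48494734272) (nat_lit 0) (nat_lit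 5272778142) (nat_lit 3) (nat_lit 5) (nat_lit 5) (nat_lit 4) (nat_lit 3) (nat_lit 4) (nat_lit 391) (nat_lit 211) (nat_lit 178)))) (XT.nd (nat_lit 78) (nat_lit 0) (nat_lit 0) (XT.lf (nat_lit 0) (nat_lit 13849851134) (nat_lit 152) (nat_lit 45556306029) (nat_lit 0) (nat_lit 7628537808) (nat_lit 3) (nat_lit 5) (nat_lit 5) (nat_lit 4) (nat_lit 3) (nat_lit 4) (nat_lit 392) (nat_lit 211) (nat_lit 177)) (XT.nd (nat_lit 78) (nat_lit 0) (nat_lit 0) (XT.lf (nat_lit 0) (nat_lit 16357279418) (nat_lit 152) (nat_lit 42584273993) (nat_lit 0) (nat_lit 10031339528) (nat_lit 3) (nat_lit 5) (nat_lit 5) (nat_lit 4) (nat_lit 3) (nat_lit 4) (nat_lit 393) (nat_lit 211) (nat_lit 176)) (XT.lf (nat_lit 0) (nat_lit 18910801916) (nat_lit 152) (nat_lit 39576041245) (nat_lit 0) (nat_lit 12483282837) (nat_lit 3) (nat_lit 5) (nat_lit 5) (nat_lit 4) (nat_lit 3) (nat_lit 4) (nat_lit 394) (nat_lit 211) (nat_lit 175))))))))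
noncomputable def xc12 : XT := (XT.nd (nat_lit 38610) (nat_lit 0) (nat_lit 0) (XT.nd (nat_lit 37674) (nat_lit 0) (nat_lit 380) (XT.nd (nat_lit 390) (nat_lit 0) (nat_lit 0) (XT.nd (nat_lit 156) (nat_lit 0) (nat_lit 0) (XT.nd (nat_lit 78) (nat_lit 0) (nat_lit 0) (XT.lf (nat_lit 0) (nat_lit 21512649860) (nat_lit 152) (nat_lit 36528979230) (nat_lit 0) (nat_lit 14986510209) (nat_lit 3) (nat_lit 5) (nat_lit 5) (nat_lit 4) (nat_lit 3) (nat_lit 4) (nat_lit 395) (nat_lit 211) (nat_lit 174)) (XT.lf (nat_lit 0) (nat_lit 24165096710) (nat_lit 152) (nat_lit 33440425469) (nat_lit 0) (nat_lit 17543208932) (nat_lit 3) (nat_lit 5) (nat_lit 5) (nat_lit 4) (nat_lit 3) (nat_lit 4) (nat_lit 396) (nat_lit 211) (nat_lit 173))) (XT.nd (nat_lit 78) (nat_lit 0) (nat_lit 0) (XT.lf (nat_lit 0) (nat_lit 26870460139) (nat_lit 152) (nat_lit 30307681224) (nat_lit 0) (nat_lit 20155613013) (nat_lit 3) (nat_lit 5) (nat_lit 5) (nat_lit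 4) (nat_lit 3) (nat_lit 4) (nat_lit 397) (nat_lit 211) (nat_lit 172)) (XT.nd (nat_lit 78) (nat_lit 0) (nat_lit 0) (XT.lf (nat_lit 0) (nat_lit 29631104055) (nat_lit 152) (nat_lit 27128009146) (nat_lit 0) (nat_lit 22826005136) (nat_lit 3) (nat_lit 5) (nat_lit 5) (nat_lit 4) (nat_lit 3) (nat_lit 4) (nat_lit 398) (nat_lit 211) (nat_lit 171)) (XT.lf (nat_lit 0) (nat_lit 32449440673) (nat_lit 152) (nat_lit 23898630881) (nat_lit 0) (nat_lit 25556718654) (nat_lit 3) (nat_lit 5) (nat_lit 5) (nat_lit 4) (nat_lit 3) (nat_lit 4) (nat_lit 399) (nat_lit 211) (nat_lit 170))))) (XT.nd (nat_lit 234) (nat_lit 0) (nat_lit 0) (XT.nd (nat_lit 78) (nat_lit 0) (nat_lit 0) (XT.lf (nat_lit 0) (nat_lit 35327932616) (nat_lit 152) (nat_lit 20616724642) (nat_lit 0) (nat_lit 28350139625) (nat_lit 3) (nat_lit 5) (nat_lit 5) (nat_lit 4) (nat_lit 3) (nat_lit 4) (nat_lit 400) (nat_lit 211) (nat_lit 169)) (XT.nd (nat_lit 78) (nat_lit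 0) (nat_lit 0) (XT.lf (nat_lit 0) (nat_lit 38269095071) (nat_lit 152) (nat_lit 17279422744) (nat_lit 0) (nat_lit 31208708904) (nat_lit 3) (nat_lit 5) (nat_lit 5) (nat_lit 4) (nat_lit 3) (nat_lit 4) (nat_lit 401) (nat_lit 211) (nat_lit 168)) (XT.lf (nat_lit 0) (nat_lit 41275497987) (nat_lit 152) (nat_lit 13883809098) (nat_lit 0) (nat_lit 34134924270) (nat_lit 3) (nat_lit 5) (nat_lit 5) (nat_lit 4) (nat_lit 3) (nat_lit 4) (nat_lit 402) (nat_lit 211) (nat_lit 167)))) (XT.nd (nat_lit 78) (nat_lit 0) (nat_lit 0) (XT.lf (nat_lit 0) (nat_lit 44349768316) (nat_lit 152) (nat_lit 10426916662) (nat_lit 0) (nat_lit 37131342610) (nat_lit 3) (nat_lit 5) (nat_lit 5) (nat_lit 4) (nat_lit 3) (nat_lit 4) (nat_lit 403) (nat_lit 211) (nat_lit 166)) (XT.nd (nat_lit 36894) (nat_lit 0) (nat_lit 608) (XT.lf (nat_lit 0) (nat_lit 47494592316) (nat_lit 152) (nat_lit 6905724853) (nat_lit 0) (nat_lit 40200582154) (nat_lit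 3) (nat_lit 5) (nat_lit 5) (nat_lit 4) (nat_lit 3) (nat_lit 4) (nat_lit 404) (nat_lit 211) (nat_lit 165)) (XT.lf (nat_lit 0) (nat_lit 3621492093) (nat_lit 76) (nat_lit 4490809576) (nat_lit 76) (nat_lit 4490809576) (nat_lit 11) (nat_lit 4) (nat_lit 12) (nat_lit 5) (nat_lit 12) (nat_lit 4) (nat_lit 356) (nat_lit 212) (nat_lit 212)))))) (XT.nd (nat_lit 468) (nat_lit 76) (nat_lit 0) (XT.nd (nat_lit 234) (nat_lit 0) (nat_lit 0) (XT.nd (nat_lit 78) (nat_lit 152) (nat_lit 0) (XT.lf (nat_lit 0) (nat_lit 13957751528) (nat_lit 76) (nat_lit 6106697206) (nat_lit 76) (nat_lit 5784993175) (nat_lit 11) (nat_lit 4) (nat_lit 12) (nat_lit 5) (nat_lit 12) (nat_lit 4) (nat_lit 357) (nat_lit 212) (nat_lit 211)) (XT.nd (nat_lit 78) (nat_lit 152) (nat_lit 0) (XT.lf (nat_lit 0) (nat_lit 20748415726) (nat_lit 76) (nat_lit 3199881505) (nat_lit 76) (nat_lit 2565843463) (nat_lit 11) (nat_lit 4) (nat_lit 12) (nat_lit 5) (nat_lit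 12) (nat_lit 4) (nat_lit 358) (nat_lit 212) (nat_lit 210)) (XT.lf (nat_lit 0) (nat_lit 421716390) (nat_lit 76) (nat_lit 247737469) (nat_lit 152) (nat_lit 26531128475) (nat_lit 9) (nat_lit 5) (nat_lit 10) (nat_lit 5) (nat_lit 11) (nat_lit 4) (nat_lit 359) (nat_lit 212) (nat_lit 209)))) (XT.nd (nat_lit 78) (nat_lit 0) (nat_lit 0) (XT.lf (nat_lit 0) (nat_lit 3966387977) (nat_lit 152) (nat_lit 21169443244) (nat_lit 0) (nat_lit 2770582436) (nat_lit 9) (nat_lit 5) (nat_lit 11) (nat_lit 4) (nat_lit 9) (nat_lit 4) (nat_lit 360) (nat_lit 212) (nat_lit 208)) (XT.nd (nat_lit 78) (nat_lit 0) (nat_lit 0) (XT.lf (nat_lit 0) (nat_lit 7297209240) (nat_lit 152) (nat_lit 15514304107) (nat_lit 0) (nat_lit 5823898975) (nat_lit 9) (nat_lit 5) (nat_lit 11) (nat_lit 4) (nat_lit 9) (nat_lit 4) (nat_lit 361) (nat_lit 212) (nat_lit 207)) (XT.lf (nat_lit 0) (nat_lit 10662446670) (nat_lit 152) (nat_lit 9806125745) (nat_lit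 0) (nat_lit 8919714344) (nat_lit 9) (nat_lit 5) (nat_lit 11) (nat_lit 4) (nat_lit 9) (nat_lit 4) (nat_lit 362) (nat_lit 212) (nat_lit 206))))) (XT.nd (nat_lit 234) (nat_lit 0) (nat_lit 0) (XT.nd (nat_lit 78) (nat_lit 76) (nat_lit 0) (XT.lf (nat_lit 0) (nat_lit 14065040766) (nat_lit 152) (nat_lit 4039920430) (nat_lit 0) (nat_lit 12060733623) (nat_lit 9) (nat_lit 5) (nat_lit 11) (nat_lit 4) (nat_lit 9) (nat_lit 4) (nat_lit 363) (nat_lit 212) (nat_lit 205)) (XT.nd (nat_lit 78) (nat_lit 0) (nat_lit 0) (XT.lf (nat_lit 0) (nat_lit 1824961848) (nat_lit 76) (nat_lit 15700545471) (nat_lit 76) (nat_lit 13442282195) (nat_lit 8) (nat_lit 4) (nat_lit 9) (nat_lit 5) (nat_lit 9) (nat_lit 4) (nat_lit 364) (nat_lit 212) (nat_lit 204)) (XT.lf (nat_lit 0) (nat_lit 7839761884) (nat_lit 76) (nat_lit 13229825463) (nat_lit 76) (nat_lit 10725002835) (nat_lit 8) (nat_lit 4) (nat_lit 9) (nat_lit 5) (nat_lit 9) (nat_lit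 4) (nat_lit 365) (nat_lit 212) (nat_lit 203)))) (XT.nd (nat_lit 78) (nat_lit 0) (nat_lit 0) (XT.lf (nat_lit 0) (nat_lit 13929332989) (nat_lit 76) (nat_lit 10731437566) (nat_lit 76) (nat_lit 7987236926) (nat_lit 8) (nat_lit 4) (nat_lit 9) (nat_lit 5) (nat_lit 9) (nat_lit 4) (nat_lit 366) (nat_lit 212) (nat_lit 202)) (XT.nd (nat_lit 78) (nat_lit 0) (nat_lit 0) (XT.lf (nat_lit 0) (nat_lit 20098996148) (nat_lit 76) (nat_lit 8203198724) (nat_lit 76) (nat_lit 5226592246) (nat_lit 8) (nat_lit 4) (nat_lit 9) (nat_lit 5) (nat_lit 9) (nat_lit 4) (nat_lit 367) (nat_lit 212) (nat_lit 201)) (XT.lf (nat_lit 0) (nat_lit 26354142328) (nat_lit 76) (nat_lit 5642899794) (nat_lit 76) (nat_lit 2440656582) (nat_lit 8) (nat_lit 4) (nat_lit 9) (nat_lit 5) (nat_lit 9) (nat_lit 4) (nat_lit 368) (nat_lit 212) (nat_lit 200))))))) (XT.nd (nat_lit 936) (nat_lit 152) (nat_lit 0) (XT.nd (nat_lit 468) (nat_lit 76) (nat_lit 0)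 (XT.nd (nat_lit 234) (nat_lit 0) (nat_lit 0) (XT.nd (nat_lit 78) (nat_lit 76) (nat_lit 0) (XT.lf (nat_lit 0) (nat_lit 365725719) (nat_lit 152) (nat_lit 2678884791) (nat_lit 76) (nat_lit 32330818360) (nat_lit 7) (nat_lit 5) (nat_lit 9) (nat_lit 5) (nat_lit 8) (nat_lit 4) (nat_lit 369) (nat_lit 212) (nat_lit 199)) (XT.nd (nat_lit 78) (nat_lit 0) (nat_lit 0) (XT.lf (nat_lit 0) (nat_lit 2823887990) (nat_lit 76) (nat_lit 357333811) (nat_lit 152) (nat_lit 33160155965) (nat_lit 6) (nat_lit 5) (nat_lit 7) (nat_lit 5) (nat_lit 8) (nat_lit 4) (nat_lit 370) (nat_lit 212) (nat_lit 198)) (XT.lf (nat_lit 0) (nat_lit 6078751413) (nat_lit 152) (nat_lit 28907528569) (nat_lit 0) (nat_lit 2350128265) (nat_lit 6) (nat_lit 5) (nat_lit 8) (nat_lit 4) (nat_lit 6) (nat_lit 4) (nat_lit 371) (nat_lit 212) (nat_lit 197)))) (XT.nd (nat_lit 78) (nat_lit 0) (nat_lit 0) (XT.lf (nat_lit 0) (nat_lit 9015363843) (nat_lit 152) (nat_lit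 24255285928) (nat_lit 0) (nat_lit 5092104465) (nat_lit 6) (nat_lit 5) (nat_lit 8) (nat_lit 4) (nat_lit 6) (nat_lit 4) (nat_lit 372) (nat_lit 212) (nat_lit 196)) (XT.nd (nat_lit 78) (nat_lit 0) (nat_lit 0) (XT.lf (nat_lit 0) (nat_lit 11990190151) (nat_lit 152) (nat_lit 19553261876) (nat_lit 0) (nat_lit 7877963560) (nat_lit 6) (nat_lit 5) (nat_lit 8) (nat_lit 4) (nat_lit 6) (nat_lit 4) (nat_lit 373) (nat_lit 212) (nat_lit 195)) (XT.lf (nat_lit 0) (nat_lit 15005829699) (nat_lit 152) (nat_lit 14797347848) (nat_lit 0) (nat_lit 10710139794) (nat_lit 6) (nat_lit 5) (nat_lit 8) (nat_lit 4) (nat_lit 6) (nat_lit 4) (nat_lit 374) (nat_lit 212) (nat_lit 194))))) (XT.nd (nat_lit 234) (nat_lit 76) (nat_lit 0) (XT.nd (nat_lit 78) (nat_lit 0) (nat_lit 0) (XT.lf (nat_lit 0) (nat_lit 18064917513) (nat_lit 152) (nat_lit 9983388192) (nat_lit 0) (nat_lit 13591107886) (nat_lit 6) (nat_lit 5) (nat_lit 8) (nat_lit 4)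 (nat_lit 6) (nat_lit 4) (nat_lit 375) (nat_lit 212) (nat_lit 193)) (XT.nd (nat_lit 78) (nat_lit 0) (nat_lit 0) (XT.lf (nat_lit 0) (nat_lit 21170126583) (nat_lit 152) (nat_lit 5107176534) (nat_lit 0) (nat_lit 16523385186) (nat_lit 6) (nat_lit 5) (nat_lit 8) (nat_lit 4) (nat_lit 6) (nat_lit 4) (nat_lit 376) (nat_lit 212) (nat_lit 192)) (XT.lf (nat_lit 0) (nat_lit 24324170196) (nat_lit 152) (nat_lit 164452108) (nat_lit 0) (nat_lit 19509533879) (nat_lit 6) (nat_lit 5) (nat_lit 8) (nat_lit 4) (nat_lit 6) (nat_lit 4) (nat_lit 377) (nat_lit 212) (nat_lit 191)))) (XT.nd (nat_lit 78) (nat_lit 0) (nat_lit 0) (XT.lf (nat_lit 0) (nat_lit 4945610649) (nat_lit 76) (nat_lit 22631733901) (nat_lit 76) (nat_lit 17654092805) (nat_lit 5) (nat_lit 4) (nat_lit 6) (nat_lit 5) (nat_lit 6) (nat_lit 4) (nat_lit 378) (nat_lit 212) (nat_lit 190)) (XT.nd (nat_lit 78) (nat_lit 0) (nat_lit 0) (XT.lf (nat_lit 0) (nat_lit 10135655632)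 (nat_lit 76) (nat_lit 20751604468) (nat_lit 76) (nat_lit 15615706307) (nat_lit 5) (nat_lit 4) (nat_lit 6) (nat_lit 5) (nat_lit 6) (nat_lit 4) (nat_lit 379) (nat_lit 212) (nat_lit 189)) (XT.lf (nat_lit 0) (nat_lit 15406944912) (nat_lit 76) (nat_lit 18848251819) (nat_lit 76) (nat_lit 13558706021) (nat_lit 5) (nat_lit 4) (nat_lit 6) (nat_lit 5) (nat_lit 6) (nat_lit 4) (nat_lit 380) (nat_lit 212) (nat_lit 188)))))) (XT.nd (nat_lit 468) (nat_lit 152) (nat_lit 0) (XT.nd (nat_lit 234) (nat_lit 0) (nat_lit 0) (XT.nd (nat_lit 78) (nat_lit 0) (nat_lit 0) (XT.lf (nat_lit 0) (nat_lit 20764084470) (nat_lit 76) (nat_lit 16920012830) (nat_lit 76) (nat_lit 11481294568) (nat_lit 5) (nat_lit 4) (nat_lit 6) (nat_lit 5) (nat_lit 6) (nat_lit 4) (nat_lit 381) (nat_lit 212) (nat_lit 187)) (XT.nd (nat_lit 78) (nat_lit 0) (nat_lit 0) (XT.lf (nat_lit 0) (nat_lit 26211755302) (nat_lit 76) (nat_lit 14965202632) (nat_lit 76)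 (nat_lit 9381656736) (nat_lit 5) (nat_lit 4) (nat_lit 6) (nat_lit 5) (nat_lit 6) (nat_lit 4) (nat_lit 382) (nat_lit 212) (nat_lit 186)) (XT.lf (nat_lit 0) (nat_lit 31754717508) (nat_lit 76) (nat_lit 12982113138) (nat_lit 76) (nat_lit 7257957888) (nat_lit 5) (nat_lit 4) (nat_lit 6) (nat_lit 5) (nat_lit 6) (nat_lit 4) (nat_lit 383) (nat_lit 212) (nat_lit 185)))) (XT.nd (nat_lit 78) (nat_lit 0) (nat_lit 0) (XT.lf (nat_lit 0) (nat_lit 37397814453) (nat_lit 76) (nat_lit 10969011551) (nat_lit 76) (nat_lit 5108342367) (nat_lit 5) (nat_lit 4) (nat_lit 6) (nat_lit 5) (nat_lit 6) (nat_lit 4) (nat_lit 384) (nat_lit 212) (nat_lit 184)) (XT.nd (nat_lit 78) (nat_lit 0) (nat_lit 0) (XT.lf (nat_lit 0) (nat_lit 43145976999) (nat_lit 76) (nat_lit 8924138852) (nat_lit 76) (nat_lit 2930931866) (nat_lit 5) (nat_lit 4) (nat_lit 6) (nat_lit 5) (nat_lit 6) (nat_lit 4) (nat_lit 385) (nat_lit 212) (nat_lit 183)) (XT.lf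 (nat_lit 0) (nat_lit 49004227812) (nat_lit 76) (nat_lit 6845708257) (nat_lit 76) (nat_lit 723823794) (nat_lit 5) (nat_lit 4) (nat_lit 6) (nat_lit 5) (nat_lit 6) (nat_lit 4) (nat_lit 386) (nat_lit 212) (nat_lit 182))))) (XT.nd (nat_lit 234) (nat_lit 0) (nat_lit 0) (XT.nd (nat_lit 78) (nat_lit 76) (nat_lit 0) (XT.lf (nat_lit 0) (nat_lit 1485349031) (nat_lit 152) (nat_lit 3231555519) (nat_lit 76) (nat_lit 53477337608) (nat_lit 4) (nat_lit 5) (nat_lit 6) (nat_lit 5) (nat_lit 5) (nat_lit 4) (nat_lit 387) (nat_lit 212) (nat_lit 181)) (XT.nd (nat_lit 78) (nat_lit 0) (nat_lit 0) (XT.lf (nat_lit 0) (nat_lit 1193227835) (nat_lit 76) (nat_lit 2531566623) (nat_lit 152) (nat_lit 56138990827) (nat_lit 3) (nat_lit 5) (nat_lit 4) (nat_lit 5) (nat_lit 5) (nat_lit 4) (nat_lit 388) (nat_lit 212) (nat_lit 180)) (XT.lf (nat_lit 0) (nat_lit 5758131182) (nat_lit 76) (nat_lit 273393063) (nat_lit 152) (nat_lit 55551904642)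 (nat_lit 3) (nat_lit 5) (nat_lit 4) (nat_lit 5) (nat_lit 5) (nat_lit 4) (nat_lit 389) (nat_lit 212) (nat_lit 179)))) (XT.nd (nat_lit 78) (nat_lit 0) (nat_lit 0) (XT.lf (nat_lit 0) (nat_lit 8395356411) (nat_lit 152) (nat_lit 52972281395) (nat_lit 0) (nat_lit 1987403686) (nat_lit 3) (nat_lit 5) (nat_lit 5) (nat_lit 4) (nat_lit 3) (nat_lit 4) (nat_lit 390) (nat_lit 212) (nat_lit 178)) (XT.nd (nat_lit 78) (nat_lit 0) (nat_lit 0) (XT.lf (nat_lit 0) (nat_lit 10801907836) (nat_lit 152) (nat_lit 50092566984) (nat_lit 0) (nat_lit 4286189749) (nat_lit 3) (nat_lit 5) (nat_lit 5) (nat_lit 4) (nat_lit 3) (nat_lit 4) (nat_lit 391) (nat_lit 212) (nat_lit 177)) (XT.lf (nat_lit 0) (nat_lit 13250653310) (nat_lit 152) (nat_lit 47181010196) (nat_lit 0) (nat_lit 6630308658) (nat_lit 3) (nat_lit 5) (nat_lit 5) (nat_lit 4) (nat_lit 3) (nat_lit 4) (nat_lit 392) (nat_lit 212) (nat_lit 176))))))))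
noncomputable def xc13 : XT := (XT.nd (nat_lit 38454) (nat_lit 0) (nat_lit 76) (XT.nd (nat_lit 858) (nat_lit 0) (nat_lit 0) (XT.nd (nat_lit 390) (nat_lit 0) (nat_lit 0) (XT.nd (nat_lit 156) (nat_lit 0) (nat_lit 0) (XT.nd (nat_lit 78) (nat_lit 0) (nat_lit 0) (XT.lf (nat_lit 0) (nat_lit 15743732512) (nat_lit 152) (nat_lit 44235066952) (nat_lit 0) (nat_lit 9021808672) (nat_lit 3) (nat_lit 5) (nat_lit 5) (nat_lit 4) (nat_lit 3) (nat_lit 4) (nat_lit 393) (nat_lit 212) (nat_lit 175)) (XT.lf (nat_lit 0) (nat_lit 18283323863) (nat_lit 152) (nat_lit 41252163128) (nat_lit 0) (nat_lit 11462779451) (nat_lit 3) (nat_lit 5) (nat_lit 5) (nat_lit 4) (nat_lit 3) (nat_lit 4) (nat_lit 394) (nat_lit 212) (nat_lit 174))) (XT.nd (nat_lit 78) (nat_lit 0) (nat_lit 0) (XT.lf (nat_lit 0) (nat_lit 20871646422) (nat_lit 152) (nat_lit 38229692303) (nat_lit 0) (nat_lit 13955353883) (nat_lit 3) (nat_lit 5) (nat_lit 5) (nat_lit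 4) (nat_lit 3) (nat_lit 4) (nat_lit 395) (nat_lit 212) (nat_lit 173)) (XT.nd (nat_lit 78) (nat_lit 0) (nat_lit 0) (XT.lf (nat_lit 0) (nat_lit 23510961830) (nat_lit 152) (nat_lit 35165013482) (nat_lit 0) (nat_lit 16501709944) (nat_lit 3) (nat_lit 5) (nat_lit 5) (nat_lit 4) (nat_lit 3) (nat_lit 4) (nat_lit 396) (nat_lit 212) (nat_lit 172)) (XT.lf (nat_lit 0) (nat_lit 26203576286) (nat_lit 152) (nat_lit 32055448791) (nat_lit 0) (nat_lit 19104072606) (nat_lit 3) (nat_lit 5) (nat_lit 5) (nat_lit 4) (nat_lit 3) (nat_lit 4) (nat_lit 397) (nat_lit 212) (nat_lit 171))))) (XT.nd (nat_lit 234) (nat_lit 0) (nat_lit 0) (XT.nd (nat_lit 78) (nat_lit 0) (nat_lit 0) (XT.lf (nat_lit 0) (nat_lit 28951842559) (nat_lit 152) (nat_lit 28898281134) (nat_lit 0) (nat_lit 21764715778) (nat_lit 3) (nat_lit 5) (nat_lit 5) (nat_lit 4) (nat_lit 3) (nat_lit 4) (nat_lit 398) (nat_lit 212) (nat_lit 170)) (XT.nd (nat_lit 78) (nat_lit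 0) (nat_lit 0) (XT.lf (nat_lit 0) (nat_lit 31758162047) (nat_lit 152) (nat_lit 25690751822) (nat_lit 0) (nat_lit 24485964295) (nat_lit 3) (nat_lit 5) (nat_lit 5) (nat_lit 4) (nat_lit 3) (nat_lit 4) (nat_lit 399) (nat_lit 212) (nat_lit 169)) (XT.lf (nat_lit 0) (nat_lit 34624986873) (nat_lit 152) (nat_lit 22430058158) (nat_lit 0) (nat_lit 27270195946) (nat_lit 3) (nat_lit 5) (nat_lit 5) (nat_lit 4) (nat_lit 3) (nat_lit 4) (nat_lit 400) (nat_lit 212) (nat_lit 168)))) (XT.nd (nat_lit 78) (nat_lit 0) (nat_lit 0) (XT.lf (nat_lit 0) (nat_lit 37554822031) (nat_lit 152) (nat_lit 19113350993) (nat_lit 0) (nat_lit 30119843554) (nat_lit 3) (nat_lit 5) (nat_lit 5) (nat_lit 4) (nat_lit 3) (nat_lit 4) (nat_lit 401) (nat_lit 212) (nat_lit 167)) (XT.nd (nat_lit 78) (nat_lit 0) (nat_lit 0) (XT.lf (nat_lit 0) (nat_lit 40550227571) (nat_lit 152) (nat_lit 15737732234) (nat_lit 0) (nat_lit 33037397104) (nat_lit 3) (nat_lit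 5) (nat_lit 5) (nat_lit 4) (nat_lit 3) (nat_lit 4) (nat_lit 402) (nat_lit 212) (nat_lit 166)) (XT.lf (nat_lit 0) (nat_lit 43613820836) (nat_lit 152) (nat_lit 12300252311) (nat_lit 0) (nat_lit 36025405913) (nat_lit 3) (nat_lit 5) (nat_lit 5) (nat_lit 4) (nat_lit 3) (nat_lit 4) (nat_lit 403) (nat_lit 212) (nat_lit 165)))))) (XT.nd (nat_lit 37128) (nat_lit 0) (nat_lit 380) (XT.nd (nat_lit 36894) (nat_lit 0) (nat_lit 608) (XT.nd (nat_lit 36738) (nat_lit 0) (nat_lit 608) (XT.lf (nat_lit 0) (nat_lit 46748278754) (nat_lit 152) (nat_lit 8797907599) (nat_lit 0) (nat_lit 39086480864) (nat_lit 3) (nat_lit 5) (nat_lit 5) (nat_lit 4) (nat_lit 3) (nat_lit 4) (nat_lit 404) (nat_lit 212) (nat_lit 164)) (XT.nd (nat_lit 78) (nat_lit 76) (nat_lit 0) (XT.lf (nat_lit 0) (nat_lit 4544486035) (nat_lit 152) (nat_lit 2900600385) (nat_lit 0) (nat_lit 4544486035) (nat_lit 12) (nat_lit 5) (nat_lit 14) (nat_lit 4) (nat_lit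 12) (nat_lit 4) (nat_lit 354) (nat_lit 213) (nat_lit 213)) (XT.lf (nat_lit 0) (nat_lit 598246428) (nat_lit 76) (nat_lit 12158514565) (nat_lit 76) (nat_lit 11827159413) (nat_lit 11) (nat_lit 4) (nat_lit 12) (nat_lit 5) (nat_lit 12) (nat_lit 4) (nat_lit 355) (nat_lit 213) (nat_lit 212)))) (XT.nd (nat_lit 78) (nat_lit 0) (nat_lit 0) (XT.lf (nat_lit 0) (nat_lit 7179283423) (nat_lit 76) (nat_lit 9340552887) (nat_lit 76) (nat_lit 8687493703) (nat_lit 11) (nat_lit 4) (nat_lit 12) (nat_lit 5) (nat_lit 12) (nat_lit 4) (nat_lit 356) (nat_lit 213) (nat_lit 211)) (XT.nd (nat_lit 78) (nat_lit 0) (nat_lit 0) (XT.lf (nat_lit 0) (nat_lit 13832205364) (nat_lit 76) (nat_lit 6492406262) (nat_lit 76) (nat_lit 5527013068) (nat_lit 11) (nat_lit 4) (nat_lit 12) (nat_lit 5) (nat_lit 12) (nat_lit 4) (nat_lit 357) (nat_lit 213) (nat_lit 210)) (XT.lf (nat_lit 0) (nat_lit 20562825484) (nat_lit 76) (nat_lit 3611586021) (nat_lit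 76) (nat_lit 2342955922) (nat_lit 11) (nat_lit 4) (nat_lit 12) (nat_lit 5) (nat_lit 12) (nat_lit 4) (nat_lit 358) (nat_lit 213) (nat_lit 209))))) (XT.nd (nat_lit 234) (nat_lit 76) (nat_lit 0) (XT.nd (nat_lit 78) (nat_lit 0) (nat_lit 0) (XT.lf (nat_lit 0) (nat_lit 166801318) (nat_lit 76) (nat_lit 685334729) (nat_lit 152) (nat_lit 26352705621) (nat_lit 9) (nat_lit 5) (nat_lit 10) (nat_lit 5) (nat_lit 11) (nat_lit 4) (nat_lit 359) (nat_lit 213) (nat_lit 208)) (XT.nd (nat_lit 78) (nat_lit 0) (nat_lit 0) (XT.lf (nat_lit 0) (nat_lit 4111625424) (nat_lit 152) (nat_lit 21483580359) (nat_lit 0) (nat_lit 2316611129) (nat_lit 9) (nat_lit 5) (nat_lit 11) (nat_lit 4) (nat_lit 9) (nat_lit 4) (nat_lit 360) (nat_lit 213) (nat_lit 207)) (XT.lf (nat_lit 0) (nat_lit 7410176504) (nat_lit 152) (nat_lit 15885887010) (nat_lit 0) (nat_lit 5345740147) (nat_lit 9) (nat_lit 5) (nat_lit 11) (nat_lit 4) (nat_lit 9) (nat_lit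 4) (nat_lit 361) (nat_lit 213) (nat_lit 206)))) (XT.nd (nat_lit 78) (nat_lit 76) (nat_lit 0) (XT.lf (nat_lit 0) (nat_lit 10744083660) (nat_lit 152) (nat_lit 10233481257) (nat_lit 0) (nat_lit 8418072486) (nat_lit 9) (nat_lit 5) (nat_lit 11) (nat_lit 4) (nat_lit 9) (nat_lit 4) (nat_lit 362) (nat_lit 213) (nat_lit 205)) (XT.nd (nat_lit 78) (nat_lit 76) (nat_lit 0) (XT.lf (nat_lit 0) (nat_lit 14116260015) (nat_lit 152) (nat_lit 4521424107) (nat_lit 0) (nat_lit 11536292708) (nat_lit 9) (nat_lit 5) (nat_lit 11) (nat_lit 4) (nat_lit 9) (nat_lit 4) (nat_lit 363) (nat_lit 213) (nat_lit 204)) (XT.lf (nat_lit 0) (nat_lit 1280258003) (nat_lit 76) (nat_lit 16261700749) (nat_lit 76) (nat_lit 13435174090) (nat_lit 8) (nat_lit 4) (nat_lit 9) (nat_lit 5) (nat_lit 9) (nat_lit 4) (nat_lit 364) (nat_lit 213) (nat_lit 203))))))) (XT.nd (nat_lit 936) (nat_lit 152) (nat_lit 0) (XT.nd (nat_lit 468) (nat_lit 0) (nat_lit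 0) (XT.nd (nat_lit 234) (nat_lit 152) (nat_lit 0) (XT.nd (nat_lit 78) (nat_lit 0) (nat_lit 0) (XT.lf (nat_lit 0) (nat_lit 7243002408) (nat_lit 76) (nat_lit 13813864343) (nat_lit 76) (nat_lit 10747959672) (nat_lit 8) (nat_lit 4) (nat_lit 9) (nat_lit 5) (nat_lit 9) (nat_lit 4) (nat_lit 365) (nat_lit 213) (nat_lit 202)) (XT.nd (nat_lit 78) (nat_lit 0) (nat_lit 0) (XT.lf (nat_lit 0) (nat_lit 13282034065) (nat_lit 76) (nat_lit 11337693536) (nat_lit 76) (nat_lit 8039383027) (nat_lit 8) (nat_lit 4) (nat_lit 9) (nat_lit 5) (nat_lit 9) (nat_lit 4) (nat_lit 366) (nat_lit 213) (nat_lit 201)) (XT.lf (nat_lit 0) (nat_lit 19402629799) (nat_lit 76) (nat_lit 8831024683) (nat_lit 76) (nat_lit 5307077439) (nat_lit 8) (nat_lit 4) (nat_lit 9) (nat_lit 5) (nat_lit 9) (nat_lit 4) (nat_lit 367) (nat_lit 213) (nat_lit 200)))) (XT.nd (nat_lit 78) (nat_lit 152) (nat_lit 0) (XT.lf (nat_lit 0) (nat_lit 25610137702) (nat_lit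 76) (nat_lit 6291667491) (nat_lit 76) (nat_lit 2548655456) (nat_lit 8) (nat_lit 4) (nat_lit 9) (nat_lit 5) (nat_lit 9) (nat_lit 4) (nat_lit 368) (nat_lit 213) (nat_lit 199)) (XT.nd (nat_lit 78) (nat_lit 76) (nat_lit 0) (XT.lf (nat_lit 0) (nat_lit 233643234) (nat_lit 152) (nat_lit 3481400530) (nat_lit 76) (nat_lit 31673979238) (nat_lit 7) (nat_lit 5) (nat_lit 9) (nat_lit 5) (nat_lit 8) (nat_lit 4) (nat_lit 369) (nat_lit 213) (nat_lit 198)) (XT.lf (nat_lit 0) (nat_lit 1959071993) (nat_lit 76) (nat_lit 1056325970) (nat_lit 152) (nat_lit 33340601042) (nat_lit 6) (nat_lit 5) (nat_lit 7) (nat_lit 5) (nat_lit 8) (nat_lit 4) (nat_lit 370) (nat_lit 213) (nat_lit 197))))) (XT.nd (nat_lit 234) (nat_lit 0) (nat_lit 0) (XT.nd (nat_lit 78) (nat_lit 0) (nat_lit 0) (XT.lf (nat_lit 0) (nat_lit 5880897584) (nat_lit 152) (nat_lit 29825803042) (nat_lit 0) (nat_lit 1645304195) (nat_lit 6) (nat_lit 5) (nat_lit 8) (nat_lit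 4) (nat_lit 6) (nat_lit 4) (nat_lit 371) (nat_lit 213) (nat_lit 196)) (XT.nd (nat_lit 78) (nat_lit 0) (nat_lit 0) (XT.lf (nat_lit 0) (nat_lit 8792936371) (nat_lit 152) (nat_lit 25217789893) (nat_lit 0) (nat_lit 4368375769) (nat_lit 6) (nat_lit 5) (nat_lit 8) (nat_lit 4) (nat_lit 6) (nat_lit 4) (nat_lit 372) (nat_lit 213) (nat_lit 195)) (XT.lf (nat_lit 0) (nat_lit 11743904773) (nat_lit 152) (nat_lit 20558707095) (nat_lit 0) (nat_lit 7135880857) (nat_lit 6) (nat_lit 5) (nat_lit 8) (nat_lit 4) (nat_lit 6) (nat_lit 4) (nat_lit 373) (nat_lit 213) (nat_lit 194)))) (XT.nd (nat_lit 78) (nat_lit 0) (nat_lit 0) (XT.lf (nat_lit 0) (nat_lit 14736381306) (nat_lit 152) (nat_lit 15844483605) (nat_lit 0) (nat_lit 9950237668) (nat_lit 6) (nat_lit 5) (nat_lit 8) (nat_lit 4) (nat_lit 6) (nat_lit 4) (nat_lit 374) (nat_lit 213) (nat_lit 193)) (XT.nd (nat_lit 78) (nat_lit 0) (nat_lit 0) (XT.lf (nat_lit 0) (nat_lit 17772980756)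 (nat_lit 152) (nat_lit 11071000199) (nat_lit 0) (nat_lit 12813905349) (nat_lit 6) (nat_lit 5) (nat_lit 8) (nat_lit 4) (nat_lit 6) (nat_lit 4) (nat_lit 375) (nat_lit 213) (nat_lit 192)) (XT.lf (nat_lit 0) (nat_lit 20856356462) (nat_lit 152) (nat_lit 6234085872) (nat_lit 0) (nat_lit 15729386133) (nat_lit 6) (nat_lit 5) (nat_lit 8) (nat_lit 4) (nat_lit 6) (nat_lit 4) (nat_lit 376) (nat_lit 213) (nat_lit 191)))))) (XT.nd (nat_lit 468) (nat_lit 76) (nat_lit 0) (XT.nd (nat_lit 234) (nat_lit 0) (nat_lit 0) (XT.nd (nat_lit 78) (nat_lit 76) (nat_lit 0) (XT.lf (nat_lit 0) (nat_lit 23989202636) (nat_lit 152) (nat_lit 1329514194) (nat_lit 0) (nat_lit 18699227529) (nat_lit 6) (nat_lit 5) (nat_lit 8) (nat_lit 4) (nat_lit 6) (nat_lit 4) (nat_lit 377) (nat_lit 213) (nat_lit 190)) (XT.nd (nat_lit 78) (nat_lit 0) (nat_lit 0) (XT.lf (nat_lit 0) (nat_lit 3719582841) (nat_lit 76) (nat_lit 23490428779) (nat_lit 76)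 (nat_lit 18042196607) (nat_lit 5) (nat_lit 4) (nat_lit 6) (nat_lit 5) (nat_lit 6) (nat_lit 4) (nat_lit 378) (nat_lit 213) (nat_lit 189)) (XT.lf (nat_lit 0) (nat_lit 8872949473) (nat_lit 76) (nat_lit 21626644503) (nat_lit 76) (nat_lit 16024764693) (nat_lit 5) (nat_lit 4) (nat_lit 6) (nat_lit 5) (nat_lit 6) (nat_lit 4) (nat_lit 379) (nat_lit 213) (nat_lit 188)))) (XT.nd (nat_lit 78) (nat_lit 0) (nat_lit 0) (XT.lf (nat_lit 0) (nat_lit 14108628704) (nat_lit 76) (nat_lit 19739160937) (nat_lit 76) (nat_lit 13988108664) (nat_lit 5) (nat_lit 4) (nat_lit 6) (nat_lit 5) (nat_lit 6) (nat_lit 4) (nat_lit 380) (nat_lit 213) (nat_lit 187)) (XT.nd (nat_lit 78) (nat_lit 0) (nat_lit 0) (XT.lf (nat_lit 0) (nat_lit 19431195398) (nat_lit 76) (nat_lit 17826328825) (nat_lit 76) (nat_lit 11930448918) (nat_lit 5) (nat_lit 4) (nat_lit 6) (nat_lit 5) (nat_lit 6) (nat_lit 4) (nat_lit 381) (nat_lit 213) (nat_lit 186)) (XT.lf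 (nat_lit 0) (nat_lit 24845300343) (nat_lit 76) (nat_lit 15886476760) (nat_lit 76) (nat_lit 9849987500) (nat_lit 5) (nat_lit 4) (nat_lit 6) (nat_lit 5) (nat_lit 6) (nat_lit 4) (nat_lit 382) (nat_lit 213) (nat_lit 185))))) (XT.nd (nat_lit 234) (nat_lit 76) (nat_lit 0) (XT.nd (nat_lit 78) (nat_lit 0) (nat_lit 0) (XT.lf (nat_lit 0) (nat_lit 30355674309) (nat_lit 76) (nat_lit 13917909725) (nat_lit 76) (nat_lit 7744906530) (nat_lit 5) (nat_lit 4) (nat_lit 6) (nat_lit 5) (nat_lit 6) (nat_lit 4) (nat_lit 383) (nat_lit 213) (nat_lit 184)) (XT.nd (nat_lit 78) (nat_lit 0) (nat_lit 0) (XT.lf (nat_lit 0) (nat_lit 35967132186) (nat_lit 76) (nat_lit 11918907614) (nat_lit 76) (nat_lit 5613366617) (nat_lit 5) (nat_lit 4) (nat_lit 6) (nat_lit 5) (nat_lit 6) (nat_lit 4) (nat_lit 384) (nat_lit 213) (nat_lit 183)) (XT.lf (nat_lit 0) (nat_lit 41684577191) (nat_lit 76) (nat_lit 9887723725) (nat_lit 76) (nat_lit 3453505251)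 (nat_lit 5) (nat_lit 4) (nat_lit 6) (nat_lit 5) (nat_lit 6) (nat_lit 4) (nat_lit 385) (nat_lit 213) (nat_lit 182)))) (XT.nd (nat_lit 78) (nat_lit 76) (nat_lit 0) (XT.lf (nat_lit 0) (nat_lit 47513005148) (nat_lit 76) (nat_lit 7822583238) (nat_lit 76) (nat_lit 1263435175) (nat_lit 5) (nat_lit 4) (nat_lit 6) (nat_lit 5) (nat_lit 6) (nat_lit 4) (nat_lit 386) (nat_lit 213) (nat_lit 181)) (XT.nd (nat_lit 78) (nat_lit 0) (nat_lit 0) (XT.lf (nat_lit 0) (nat_lit 940048458) (nat_lit 152) (nat_lit 4772140556) (nat_lit 76) (nat_lit 52507967755) (nat_lit 4) (nat_lit 5) (nat_lit 6) (nat_lit 5) (nat_lit 5) (nat_lit 4) (nat_lit 387) (nat_lit 213) (nat_lit 180)) (XT.lf (nat_lit 0) (nat_lit 3152277293) (nat_lit 152) (nat_lit 399074142) (nat_lit 76) (nat_lit 56339173438) (nat_lit 4) (nat_lit 5) (nat_lit 6) (nat_lit 5) (nat_lit 5) (nat_lit 4) (nat_lit 388) (nat_lit 213) (nat_lit 179))))))))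
noncomputable def xc14 : XT := (XT.nd (nat_lit 38298) (nat_lit 0) (nat_lit 152) (XT.nd (nat_lit 858) (nat_lit 0) (nat_lit 0) (XT.nd (nat_lit 390) (nat_lit 0) (nat_lit 0) (XT.nd (nat_lit 156) (nat_lit 0) (nat_lit 0) (XT.nd (nat_lit 78) (nat_lit 0) (nat_lit 0) (XT.lf (nat_lit 0) (nat_lit 4129732831) (nat_lit 76) (nat_lit 1309803203) (nat_lit 152) (nat_lit 56171224803) (nat_lit 3) (nat_lit 5) (nat_lit 4) (nat_lit 5) (nat_lit 5) (nat_lit 4) (nat_lit 389) (nat_lit 213) (nat_lit 178)) (XT.lf (nat_lit 0) (nat_lit 7778182652) (nat_lit 152) (nat_lit 54645726687) (nat_lit 0) (nat_lit 959227661) (nat_lit 3) (nat_lit 5) (nat_lit 5) (nat_lit 4) (nat_lit 3) (nat_lit 4) (nat_lit 390) (nat_lit 213) (nat_lit 177))) (XT.nd (nat_lit 78) (nat_lit 0) (nat_lit 0) (XT.lf (nat_lit 0) (nat_lit 10169954523) (nat_lit 152) (nat_lit 51792883732) (nat_lit 0) (nat_lit 3246372968) (nat_lit 3) (nat_lit 5) (nat_lit 5) (nat_lit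 4) (nat_lit 3) (nat_lit 4) (nat_lit 391) (nat_lit 213) (nat_lit 176)) (XT.nd (nat_lit 78) (nat_lit 0) (nat_lit 0) (XT.lf (nat_lit 0) (nat_lit 12604350915) (nat_lit 152) (nat_lit 48907415736) (nat_lit 0) (nat_lit 5579190171) (nat_lit 3) (nat_lit 5) (nat_lit 5) (nat_lit 4) (nat_lit 3) (nat_lit 4) (nat_lit 392) (nat_lit 213) (nat_lit 175)) (XT.lf (nat_lit 0) (nat_lit 15083498971) (nat_lit 152) (nat_lit 45986801417) (nat_lit 0) (nat_lit 7959717655) (nat_lit 3) (nat_lit 5) (nat_lit 5) (nat_lit 4) (nat_lit 3) (nat_lit 4) (nat_lit 393) (nat_lit 213) (nat_lit 174))))) (XT.nd (nat_lit 234) (nat_lit 0) (nat_lit 0) (XT.nd (nat_lit 78) (nat_lit 0) (nat_lit 0) (XT.lf (nat_lit 0) (nat_lit 17609564936) (nat_lit 152) (nat_lit 43028488782) (nat_lit 0) (nat_lit 10390035493) (nat_lit 3) (nat_lit 5) (nat_lit 5) (nat_lit 4) (nat_lit 3) (nat_lit 4) (nat_lit 394) (nat_lit 213) (nat_lit 173)) (XT.nd (nat_lit 78) (nat_lit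 0) (nat_lit 0) (XT.lf (nat_lit 0) (nat_lit 20184756053) (nat_lit 152) (nat_lit 40029892897) (nat_lit 0) (nat_lit 12872267263) (nat_lit 3) (nat_lit 5) (nat_lit 5) (nat_lit 4) (nat_lit 3) (nat_lit 4) (nat_lit 395) (nat_lit 213) (nat_lit 172)) (XT.lf (nat_lit 0) (nat_lit 22811322488) (nat_lit 152) (nat_lit 36988393630) (nat_lit 0) (nat_lit 15408581905) (nat_lit 3) (nat_lit 5) (nat_lit 5) (nat_lit 4) (nat_lit 3) (nat_lit 4) (nat_lit 396) (nat_lit 213) (nat_lit 171)))) (XT.nd (nat_lit 78) (nat_lit 0) (nat_lit 0) (XT.lf (nat_lit 0) (nat_lit 25491559301) (nat_lit 152) (nat_lit 33901333360) (nat_lit 0) (nat_lit 18001195616) (nat_lit 3) (nat_lit 5) (nat_lit 5) (nat_lit 4) (nat_lit 3) (nat_lit 4) (nat_lit 397) (nat_lit 213) (nat_lit 170)) (XT.nd (nat_lit 78) (nat_lit 0) (nat_lit 0) (XT.lf (nat_lit 0) (nat_lit 28227808444) (nat_lit 152) (nat_lit 30766014656) (nat_lit 0) (nat_lit 20652373788) (nat_lit 3) (nat_lit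 5) (nat_lit 5) (nat_lit 4) (nat_lit 3) (nat_lit 4) (nat_lit 398) (nat_lit 213) (nat_lit 169)) (XT.lf (nat_lit 0) (nat_lit 31022460816) (nat_lit 152) (nat_lit 27579697919) (nat_lit 0) (nat_lit 23364432984) (nat_lit 3) (nat_lit 5) (nat_lit 5) (nat_lit 4) (nat_lit 3) (nat_lit 4) (nat_lit 399) (nat_lit 213) (nat_lit 168)))))) (XT.nd (nat_lit 36972) (nat_lit 0) (nat_lit 608) (XT.nd (nat_lit 234) (nat_lit 0) (nat_lit 0) (XT.nd (nat_lit 78) (nat_lit 0) (nat_lit 0) (XT.lf (nat_lit 0) (nat_lit 33877958345) (nat_lit 152) (nat_lit 24339598989) (nat_lit 0) (nat_lit 26139742964) (nat_lit 3) (nat_lit 5) (nat_lit 5) (nat_lit 4) (nat_lit 3) (nat_lit 4) (nat_lit 400) (nat_lit 213) (nat_lit 167)) (XT.nd (nat_lit 78) (nat_lit 0) (nat_lit 0) (XT.lf (nat_lit 0) (nat_lit 36796796127) (nat_lit 152) (nat_lit 21042886711) (nat_lit 0) (nat_lit 28980728756) (nat_lit 3) (nat_lit 5) (nat_lit 5) (nat_lit 4) (nat_lit 3) (nat_lit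 4) (nat_lit 401) (nat_lit 213) (nat_lit 166)) (XT.lf (nat_lit 0) (nat_lit 39781524602) (nat_lit 152) (nat_lit 17686680463) (nat_lit 0) (nat_lit 31889872775) (nat_lit 3) (nat_lit 5) (nat_lit 5) (nat_lit 4) (nat_lit 3) (nat_lit 4) (nat_lit 402) (nat_lit 213) (nat_lit 165)))) (XT.nd (nat_lit 78) (nat_lit 0) (nat_lit 0) (XT.lf (nat_lit 0) (nat_lit 42834751786) (nat_lit 152) (nat_lit 14268047638) (nat_lit 0) (nat_lit 34869716992) (nat_lit 3) (nat_lit 5) (nat_lit 5) (nat_lit 4) (nat_lit 3) (nat_lit 4) (nat_lit 403) (nat_lit 213) (nat_lit 164)) (XT.nd (nat_lit 36582) (nat_lit 0) (nat_lit 684) (XT.lf (nat_lit 0) (nat_lit 45959145548) (nat_lit 152) (nat_lit 10784001081) (nat_lit 0) (nat_lit 37922865154) (nat_lit 3) (nat_lit 5) (nat_lit 5) (nat_lit 4) (nat_lit 3) (nat_lit 4) (nat_lit 404) (nat_lit 213) (nat_lit 163)) (XT.lf (nat_lit 0) (nat_lit 1122211579) (nat_lit 152) (nat_lit 9169114141) (nat_lit 0) (nat_lit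 1122211579) (nat_lit 12) (nat_lit 5) (nat_lit 14) (nat_lit 4) (nat_lit 12) (nat_lit 4) (nat_lit 352) (nat_lit 214) (nat_lit 214))))) (XT.nd (nat_lit 234) (nat_lit 0) (nat_lit 0) (XT.nd (nat_lit 78) (nat_lit 76) (nat_lit 0) (XT.lf (nat_lit 0) (nat_lit 5802805976) (nat_lit 152) (nat_lit 12129711574) (nat_lit 0) (nat_lit 5461510169) (nat_lit 12) (nat_lit 5) (nat_lit 14) (nat_lit 4) (nat_lit 12) (nat_lit 4) (nat_lit 353) (nat_lit 214) (nat_lit 213)) (XT.nd (nat_lit 78) (nat_lit 76) (nat_lit 0) (XT.lf (nat_lit 0) (nat_lit 9393692731) (nat_lit 152) (nat_lit 5865532234) (nat_lit 0) (nat_lit 8721041772) (nat_lit 12) (nat_lit 5) (nat_lit 14) (nat_lit 4) (nat_lit 12) (nat_lit 4) (nat_lit 354) (nat_lit 214) (nat_lit 212)) (XT.lf (nat_lit 0) (nat_lit 468933879) (nat_lit 76) (nat_lit 12555794893) (nat_lit 76) (nat_lit 11561439903) (nat_lit 11) (nat_lit 4) (nat_lit 12) (nat_lit 5) (nat_lit 12) (nat_lit 4) (nat_lit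 355) (nat_lit 214) (nat_lit 211)))) (XT.nd (nat_lit 78) (nat_lit 0) (nat_lit 0) (XT.lf (nat_lit 0) (nat_lit 6988125473) (nat_lit 76) (nat_lit 9764608537) (nat_lit 76) (nat_lit 8457919536) (nat_lit 11) (nat_lit 4) (nat_lit 12) (nat_lit 5) (nat_lit 12) (nat_lit 4) (nat_lit 356) (nat_lit 214) (nat_lit 210)) (XT.nd (nat_lit 78) (nat_lit 0) (nat_lit 0) (XT.lf (nat_lit 0) (nat_lit 13581003336) (nat_lit 76) (nat_lit 6942457372) (nat_lit 76) (nat_lit 5332531467) (nat_lit 11) (nat_lit 4) (nat_lit 12) (nat_lit 5) (nat_lit 12) (nat_lit 4) (nat_lit 357) (nat_lit 214) (nat_lit 209)) (XT.lf (nat_lit 0) (nat_lit 20253328234) (nat_lit 76) (nat_lit 4086875439) (nat_lit 76) (nat_lit 2182544773) (nat_lit 11) (nat_lit 4) (nat_lit 12) (nat_lit 5) (nat_lit 12) (nat_lit 4) (nat_lit 358) (nat_lit 214) (nat_lit 208))))))) (XT.nd (nat_lit 936) (nat_lit 76) (nat_lit 0) (XT.nd (nat_lit 468) (nat_lit 152) (nat_lit 0) (XT.nd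 (nat_lit 234) (nat_lit 76) (nat_lit 0) (XT.nd (nat_lit 78) (nat_lit 76) (nat_lit 0) (XT.lf (nat_lit 0) (nat_lit 975380965) (nat_lit 152) (nat_lit 210137170) (nat_lit 76) (nat_lit 26025699953) (nat_lit 10) (nat_lit 5) (nat_lit 12) (nat_lit 5) (nat_lit 11) (nat_lit 4) (nat_lit 359) (nat_lit 214) (nat_lit 207)) (XT.nd (nat_lit 78) (nat_lit 0) (nat_lit 0) (XT.lf (nat_lit 0) (nat_lit 4195711525) (nat_lit 152) (nat_lit 21923756536) (nat_lit 0) (nat_lit 1799920015) (nat_lit 9) (nat_lit 5) (nat_lit 11) (nat_lit 4) (nat_lit 9) (nat_lit 4) (nat_lit 360) (nat_lit 214) (nat_lit 206)) (XT.lf (nat_lit 0) (nat_lit 7462932331) (nat_lit 152) (nat_lit 16381835797) (nat_lit 0) (nat_lit 4805566004) (nat_lit 9) (nat_lit 5) (nat_lit 11) (nat_lit 4) (nat_lit 9) (nat_lit 4) (nat_lit 361) (nat_lit 214) (nat_lit 205)))) (XT.nd (nat_lit 78) (nat_lit 76) (nat_lit 0) (XT.lf (nat_lit 0) (nat_lit 10766421745) (nat_lit 152) (nat_lit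 10783578209) (nat_lit 0) (nat_lit 7855099285) (nat_lit 9) (nat_lit 5) (nat_lit 11) (nat_lit 4) (nat_lit 9) (nat_lit 4) (nat_lit 362) (nat_lit 214) (nat_lit 204)) (XT.nd (nat_lit 78) (nat_lit 76) (nat_lit 0) (XT.lf (nat_lit 0) (nat_lit 14109066311) (nat_lit 152) (nat_lit 5124092093) (nat_lit 0) (nat_lit 10951184499) (nat_lit 9) (nat_lit 5) (nat_lit 11) (nat_lit 4) (nat_lit 9) (nat_lit 4) (nat_lit 363) (nat_lit 214) (nat_lit 203)) (XT.lf (nat_lit 0) (nat_lit 613540112) (nat_lit 76) (nat_lit 16886144398) (nat_lit 76) (nat_lit 13488884574) (nat_lit 8) (nat_lit 4) (nat_lit 9) (nat_lit 5) (nat_lit 9) (nat_lit 4) (nat_lit 364) (nat_lit 214) (nat_lit 202))))) (XT.nd (nat_lit 234) (nat_lit 152) (nat_lit 0) (XT.nd (nat_lit 78) (nat_lit 0) (nat_lit 0) (XT.lf (nat_lit 0) (nat_lit 6525745068) (nat_lit 76) (nat_lit 14460525081) (nat_lit 76) (nat_lit 10830859420) (nat_lit 8) (nat_lit 4) (nat_lit 9) (nat_lit 5)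 (nat_lit 9) (nat_lit 4) (nat_lit 365) (nat_lit 214) (nat_lit 201)) (XT.nd (nat_lit 78) (nat_lit 0) (nat_lit 0) (XT.lf (nat_lit 0) (nat_lit 12515709300) (nat_lit 76) (nat_lit 12005924263) (nat_lit 76) (nat_lit 8150621867) (nat_lit 8) (nat_lit 4) (nat_lit 9) (nat_lit 5) (nat_lit 9) (nat_lit 4) (nat_lit 366) (nat_lit 214) (nat_lit 200)) (XT.lf (nat_lit 0) (nat_lit 18588666757) (nat_lit 76) (nat_lit 9520197147) (nat_lit 76) (nat_lit 5445829960) (nat_lit 8) (nat_lit 4) (nat_lit 9) (nat_lit 5) (nat_lit 9) (nat_lit 4) (nat_lit 367) (nat_lit 214) (nat_lit 199)))) (XT.nd (nat_lit 78) (nat_lit 152) (nat_lit 0) (XT.lf (nat_lit 0) (nat_lit 24749923906) (nat_lit 76) (nat_lit 7001171739) (nat_lit 76) (nat_lit 2714120289) (nat_lit 8) (nat_lit 4) (nat_lit 9) (nat_lit 5) (nat_lit 9) (nat_lit 4) (nat_lit 368) (nat_lit 214) (nat_lit 198)) (XT.nd (nat_lit 78) (nat_lit 76) (nat_lit 0) (XT.lf (nat_lit 0) (nat_lit 45979005)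 (nat_lit 152) (nat_lit 4400203645) (nat_lit 76) (nat_lit 30958421068) (nat_lit 7) (nat_lit 5) (nat_lit 9) (nat_lit 5) (nat_lit 8) (nat_lit 4) (nat_lit 369) (nat_lit 214) (nat_lit 197)) (XT.lf (nat_lit 0) (nat_lit 977003651) (nat_lit 76) (nat_lit 1816602257) (nat_lit 152) (nat_lit 33579012081) (nat_lit 6) (nat_lit 5) (nat_lit 7) (nat_lit 5) (nat_lit 8) (nat_lit 4) (nat_lit 370) (nat_lit 214) (nat_lit 196)))))) (XT.nd (nat_lit 468) (nat_lit 76) (nat_lit 0) (XT.nd (nat_lit 234) (nat_lit 0) (nat_lit 0) (XT.nd (nat_lit 78) (nat_lit 0) (nat_lit 0) (XT.lf (nat_lit 0) (nat_lit 5627223644) (nat_lit 152) (nat_lit 30861411618) (nat_lit 0) (nat_lit 880959011) (nat_lit 6) (nat_lit 5) (nat_lit 8) (nat_lit 4) (nat_lit 6) (nat_lit 4) (nat_lit 371) (nat_lit 214) (nat_lit 195)) (XT.nd (nat_lit 78) (nat_lit 0) (nat_lit 0) (XT.lf (nat_lit 0) (nat_lit 8515404526) (nat_lit 152) (nat_lit 26296339723) (nat_lit 0) (nat_lit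 3585676579) (nat_lit 6) (nat_lit 5) (nat_lit 8) (nat_lit 4) (nat_lit 6) (nat_lit 4) (nat_lit 372) (nat_lit 214) (nat_lit 194)) (XT.lf (nat_lit 0) (nat_lit 11443209912) (nat_lit 152) (nat_lit 21678947463) (nat_lit 0) (nat_lit 6335362243) (nat_lit 6) (nat_lit 5) (nat_lit 8) (nat_lit 4) (nat_lit 6) (nat_lit 4) (nat_lit 373) (nat_lit 214) (nat_lit 193)))) (XT.nd (nat_lit 78) (nat_lit 0) (nat_lit 0) (XT.lf (nat_lit 0) (nat_lit 14413198082) (nat_lit 152) (nat_lit 17005200224) (nat_lit 0) (nat_lit 9132418643) (nat_lit 6) (nat_lit 5) (nat_lit 8) (nat_lit 4) (nat_lit 6) (nat_lit 4) (nat_lit 374) (nat_lit 214) (nat_lit 192)) (XT.nd (nat_lit 78) (nat_lit 0) (nat_lit 0) (XT.lf (nat_lit 0) (nat_lit 17427964168) (nat_lit 152) (nat_lit 12271014148) (nat_lit 0) (nat_lit 11979289809) (nat_lit 6) (nat_lit 5) (nat_lit 8) (nat_lit 4) (nat_lit 6) (nat_lit 4) (nat_lit 375) (nat_lit 214) (nat_lit 191)) (XT.lf (nat_lit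 0) (nat_lit 20490142434) (nat_lit 152) (nat_lit 7472252569) (nat_lit 0) (nat_lit 14878463296) (nat_lit 6) (nat_lit 5) (nat_lit 8) (nat_lit 4) (nat_lit 6) (nat_lit 4) (nat_lit 376) (nat_lit 214) (nat_lit 190))))) (XT.nd (nat_lit 234) (nat_lit 0) (nat_lit 0) (XT.nd (nat_lit 78) (nat_lit 76) (nat_lit 0) (XT.lf (nat_lit 0) (nat_lit 23602408569) (nat_lit 152) (nat_lit 2604722394) (nat_lit 0) (nat_lit 17832472365) (nat_lit 6) (nat_lit 5) (nat_lit 8) (nat_lit 4) (nat_lit 6) (nat_lit 4) (nat_lit 377) (nat_lit 214) (nat_lit 189)) (XT.nd (nat_lit 78) (nat_lit 0) (nat_lit 0) (XT.lf (nat_lit 0) (nat_lit 2382317147) (nat_lit 76) (nat_lit 24408065171) (nat_lit 76) (nat_lit 18484481330) (nat_lit 5) (nat_lit 4) (nat_lit 6) (nat_lit 5) (nat_lit 6) (nat_lit 4) (nat_lit 378) (nat_lit 214) (nat_lit 188)) (XT.lf (nat_lit 0) (nat_lit 7500073729) (nat_lit 76) (nat_lit 22560149978) (nat_lit 76) (nat_lit 16487393674) (nat_lit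 5) (nat_lit 4) (nat_lit 6) (nat_lit 5) (nat_lit 6) (nat_lit 4) (nat_lit 379) (nat_lit 214) (nat_lit 187)))) (XT.nd (nat_lit 78) (nat_lit 0) (nat_lit 0) (XT.lf (nat_lit 0) (nat_lit 12701180096) (nat_lit 76) (nat_lit 20688073289) (nat_lit 76) (nat_lit 14470489351) (nat_lit 5) (nat_lit 4) (nat_lit 6) (nat_lit 5) (nat_lit 6) (nat_lit 4) (nat_lit 380) (nat_lit 214) (nat_lit 186)) (XT.nd (nat_lit 78) (nat_lit 0) (nat_lit 0) (XT.lf (nat_lit 0) (nat_lit 17990180904) (nat_lit 76) (nat_lit 18790199310) (nat_lit 76) (nat_lit 12432006019) (nat_lit 5) (nat_lit 4) (nat_lit 6) (nat_lit 5) (nat_lit 6) (nat_lit 4) (nat_lit 381) (nat_lit 214) (nat_lit 185)) (XT.lf (nat_lit 0) (nat_lit 23371697608) (nat_lit 76) (nat_lit 16864869705) (nat_lit 76) (nat_lit 10370162478) (nat_lit 5) (nat_lit 4) (nat_lit 6) (nat_lit 5) (nat_lit 6) (nat_lit 4) (nat_lit 382) (nat_lit 214) (nat_lit 184))))))))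
noncomputable def xc15 : XT := (XT.nd (nat_lit 38220) (nat_lit 0) (nat_lit 228) (XT.nd (nat_lit 936) (nat_lit 0) (nat_lit 0) (XT.nd (nat_lit 468) (nat_lit 76) (nat_lit 0) (XT.nd (nat_lit 234) (nat_lit 76) (nat_lit 0) (XT.nd (nat_lit 78) (nat_lit 0) (nat_lit 0) (XT.lf (nat_lit 0) (nat_lit 28850432507) (nat_lit 76) (nat_lit 14910402145) (nat_lit 76) (nat_lit 8283157117) (nat_lit 5) (nat_lit 4) (nat_lit 6) (nat_lit 5) (nat_lit 6) (nat_lit 4) (nat_lit 383) (nat_lit 214) (nat_lit 183)) (XT.nd (nat_lit 78) (nat_lit 0) (nat_lit 0) (XT.lf (nat_lit 0) (nat_lit 34431172843) (nat_lit 76) (nat_lit 12925088844) (nat_lit 76) (nat_lit 6169166339) (nat_lit 5) (nat_lit 4) (nat_lit 6) (nat_lit 5) (nat_lit 6) (nat_lit 4) (nat_lit 384) (nat_lit 214) (nat_lit 182)) (XT.lf (nat_lit 0) (nat_lit 40118794991) (nat_lit 76) (nat_lit 10907195063) (nat_lit 76) (nat_lit 4026342968) (nat_lit 5) (nat_lit 4) (nat_lit 6) (nat_lit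 5) (nat_lit 6) (nat_lit 4) (nat_lit 385) (nat_lit 214) (nat_lit 181)))) (XT.nd (nat_lit 78) (nat_lit 76) (nat_lit 0) (XT.lf (nat_lit 0) (nat_lit 45918268720) (nat_lit 76) (nat_lit 8854957593) (nat_lit 76) (nat_lit 1852814635) (nat_lit 5) (nat_lit 4) (nat_lit 6) (nat_lit 5) (nat_lit 6) (nat_lit 4) (nat_lit 386) (nat_lit 214) (nat_lit 180)) (XT.nd (nat_lit 78) (nat_lit 0) (nat_lit 0) (XT.lf (nat_lit 0) (nat_lit 346423356) (nat_lit 152) (nat_lit 6416661663) (nat_lit 76) (nat_lit 51484739975) (nat_lit 4) (nat_lit 5) (nat_lit 6) (nat_lit 5) (nat_lit 5) (nat_lit 4) (nat_lit 387) (nat_lit 214) (nat_lit 179)) (XT.lf (nat_lit 0) (nat_lit 2543364272) (nat_lit 152) (nat_lit 2071199877) (nat_lit 76) (nat_lit 55304095818) (nat_lit 4) (nat_lit 5) (nat_lit 6) (nat_lit 5) (nat_lit 5) (nat_lit 4) (nat_lit 388) (nat_lit 214) (nat_lit 178))))) (XT.nd (nat_lit 234) (nat_lit 0) (nat_lit 0) (XT.nd (nat_lit 78) (nat_lit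 0) (nat_lit 0) (XT.lf (nat_lit 0) (nat_lit 2396994519) (nat_lit 76) (nat_lit 2402129712) (nat_lit 152) (nat_lit 56840724655) (nat_lit 3) (nat_lit 5) (nat_lit 4) (nat_lit 5) (nat_lit 5) (nat_lit 4) (nat_lit 389) (nat_lit 214) (nat_lit 177)) (XT.nd (nat_lit 78) (nat_lit 0) (nat_lit 0) (XT.lf (nat_lit 0) (nat_lit 6987820461) (nat_lit 76) (nat_lit 125880767) (nat_lit 152) (nat_lit 56299253669) (nat_lit 3) (nat_lit 5) (nat_lit 4) (nat_lit 5) (nat_lit 5) (nat_lit 4) (nat_lit 390) (nat_lit 214) (nat_lit 176)) (XT.lf (nat_lit 0) (nat_lit 9489913975) (nat_lit 152) (nat_lit 53597170230) (nat_lit 0) (nat_lit 2152419220) (nat_lit 3) (nat_lit 5) (nat_lit 5) (nat_lit 4) (nat_lit 3) (nat_lit 4) (nat_lit 391) (nat_lit 214) (nat_lit 175)))) (XT.nd (nat_lit 78) (nat_lit 0) (nat_lit 0) (XT.lf (nat_lit 0) (nat_lit 11910379221) (nat_lit 152) (nat_lit 50737031159) (nat_lit 0) (nat_lit 4474263894) (nat_lit 3) (nat_lit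 5) (nat_lit 5) (nat_lit 4) (nat_lit 3) (nat_lit 4) (nat_lit 392) (nat_lit 214) (nat_lit 174)) (XT.nd (nat_lit 78) (nat_lit 0) (nat_lit 0) (XT.lf (nat_lit 0) (nat_lit 14376001891) (nat_lit 152) (nat_lit 47841008029) (nat_lit 0) (nat_lit 6844138437) (nat_lit 3) (nat_lit 5) (nat_lit 5) (nat_lit 4) (nat_lit 3) (nat_lit 4) (nat_lit 393) (nat_lit 214) (nat_lit 173)) (XT.lf (nat_lit 0) (nat_lit 16888936414) (nat_lit 152) (nat_lit 44906570334) (nat_lit 0) (nat_lit 9264113613) (nat_lit 3) (nat_lit 5) (nat_lit 5) (nat_lit 4) (nat_lit 3) (nat_lit 4) (nat_lit 394) (nat_lit 214) (nat_lit 172)))))) (XT.nd (nat_lit 468) (nat_lit 0) (nat_lit 0) (XT.nd (nat_lit 234) (nat_lit 0) (nat_lit 0) (XT.nd (nat_lit 78) (nat_lit 0) (nat_lit 0) (XT.lf (nat_lit 0) (nat_lit 19451378558) (nat_lit 152) (nat_lit 41931154003) (nat_lit 0) (nat_lit 11736303964) (nat_lit 3) (nat_lit 5) (nat_lit 5) (nat_lit 4) (nat_lit 3) (nat_lit 4)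 (nat_lit 395) (nat_lit 214) (nat_lit 171)) (XT.nd (nat_lit 78) (nat_lit 0) (nat_lit 0) (XT.lf (nat_lit 0) (nat_lit 22065567350) (nat_lit 152) (nat_lit 38912159157) (nat_lit 0) (nat_lit 14262869655) (nat_lit 3) (nat_lit 5) (nat_lit 5) (nat_lit 4) (nat_lit 3) (nat_lit 4) (nat_lit 396) (nat_lit 214) (nat_lit 170)) (XT.lf (nat_lit 0) (nat_lit 24733787033) (nat_lit 152) (nat_lit 35846947840) (nat_lit 0) (nat_lit 16846018366) (nat_lit 3) (nat_lit 5) (nat_lit 5) (nat_lit 4) (nat_lit 3) (nat_lit 4) (nat_lit 397) (nat_lit 214) (nat_lit 169)))) (XT.nd (nat_lit 78) (nat_lit 0) (nat_lit 0) (XT.lf (nat_lit 0) (nat_lit 27458369060) (nat_lit 152) (nat_lit 32732841712) (nat_lit 0) (nat_lit 19488007217) (nat_lit 3) (nat_lit 5) (nat_lit 5) (nat_lit 4) (nat_lit 3) (nat_lit 4) (nat_lit 398) (nat_lit 214) (nat_lit 168)) (XT.nd (nat_lit 78) (nat_lit 0) (nat_lit 0) (XT.lf (nat_lit 0) (nat_lit 30241694134) (nat_lit 152)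 (nat_lit 29567119708) (nat_lit 0) (nat_lit 22191144742) (nat_lit 3) (nat_lit 5) (nat_lit 5) (nat_lit 4) (nat_lit 3) (nat_lit 4) (nat_lit 399) (nat_lit 214) (nat_lit 167)) (XT.lf (nat_lit 0) (nat_lit 33086194288) (nat_lit 152) (nat_lit 26347015665) (nat_lit 0) (nat_lit 24957792906) (nat_lit 3) (nat_lit 5) (nat_lit 5) (nat_lit 4) (nat_lit 3) (nat_lit 4) (nat_lit 400) (nat_lit 214) (nat_lit 166))))) (XT.nd (nat_lit 234) (nat_lit 0) (nat_lit 0) (XT.nd (nat_lit 78) (nat_lit 0) (nat_lit 0) (XT.lf (nat_lit 0) (nat_lit 35994355006) (nat_lit 152) (nat_lit 23069715899) (nat_lit 0) (nat_lit 27790369168) (nat_lit 3) (nat_lit 5) (nat_lit 5) (nat_lit 4) (nat_lit 3) (nat_lit 4) (nat_lit 401) (nat_lit 214) (nat_lit 165)) (XT.nd (nat_lit 78) (nat_lit 0) (nat_lit 0) (XT.lf (nat_lit 0) (nat_lit 38968717399) (nat_lit 152) (nat_lit 19732356750) (nat_lit 0) (nat_lit 30691348594) (nat_lit 3) (nat_lit 5) (nat_lit 5) (nat_lit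 4) (nat_lit 3) (nat_lit 4) (nat_lit 402) (nat_lit 214) (nat_lit 164)) (XT.lf (nat_lit 0) (nat_lit 42011880427) (nat_lit 152) (nat_lit 16332022078) (nat_lit 0) (nat_lit 33663266022) (nat_lit 3) (nat_lit 5) (nat_lit 5) (nat_lit 4) (nat_lit 3) (nat_lit 4) (nat_lit 403) (nat_lit 214) (nat_lit 163)))) (XT.nd (nat_lit 36426) (nat_lit 0) (nat_lit 836) (XT.lf (nat_lit 0) (nat_lit 45126503161) (nat_lit 152) (nat_lit 12865740719) (nat_lit 0) (nat_lit 36708718273) (nat_lit 3) (nat_lit 5) (nat_lit 5) (nat_lit 4) (nat_lit 3) (nat_lit 4) (nat_lit 404) (nat_lit 214) (nat_lit 162)) (XT.nd (nat_lit 78) (nat_lit 0) (nat_lit 0) (XT.lf (nat_lit 0) (nat_lit 6517588756) (nat_lit 152) (nat_lit 2176898938) (nat_lit 152) (nat_lit 2176898938) (nat_lit 14) (nat_lit 4) (nat_lit 16) (nat_lit 5) (nat_lit 16) (nat_lit 4) (nat_lit 350) (nat_lit 215) (nat_lit 215)) (XT.lf (nat_lit 0) (nat_lit 20081772361) (nat_lit 152) (nat_lit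 1278967440) (nat_lit 152) (nat_lit 916886718) (nat_lit 14) (nat_lit 4) (nat_lit 16) (nat_lit 5) (nat_lit 16) (nat_lit 4) (nat_lit 351) (nat_lit 215) (nat_lit 214))))))) (XT.nd (nat_lit 936) (nat_lit 228) (nat_lit 0) (XT.nd (nat_lit 468) (nat_lit 152) (nat_lit 0) (XT.nd (nat_lit 234) (nat_lit 76) (nat_lit 0) (XT.nd (nat_lit 78) (nat_lit 0) (nat_lit 0) (XT.lf (nat_lit 0) (nat_lit 2558285440) (nat_lit 152) (nat_lit 18404489691) (nat_lit 0) (nat_lit 1865454952) (nat_lit 12) (nat_lit 5) (nat_lit 14) (nat_lit 4) (nat_lit 12) (nat_lit 4) (nat_lit 352) (nat_lit 215) (nat_lit 213)) (XT.nd (nat_lit 78) (nat_lit 0) (nat_lit 0) (XT.lf (nat_lit 0) (nat_lit 6080093111) (nat_lit 152) (nat_lit 12260304445) (nat_lit 0) (nat_lit 5055907471) (nat_lit 12) (nat_lit 5) (nat_lit 14) (nat_lit 4) (nat_lit 12) (nat_lit 4) (nat_lit 353) (nat_lit 215) (nat_lit 212)) (XT.lf (nat_lit 0) (nat_lit 9635470016) (nat_lit 152) (nat_lit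 6058582836) (nat_lit 0) (nat_lit 8289580345) (nat_lit 12) (nat_lit 5) (nat_lit 14) (nat_lit 4) (nat_lit 12) (nat_lit 4) (nat_lit 354) (nat_lit 215) (nat_lit 211)))) (XT.nd (nat_lit 78) (nat_lit 0) (nat_lit 0) (XT.lf (nat_lit 0) (nat_lit 210195790) (nat_lit 76) (nat_lit 13019347536) (nat_lit 76) (nat_lit 11361123853) (nat_lit 11) (nat_lit 4) (nat_lit 12) (nat_lit 5) (nat_lit 12) (nat_lit 4) (nat_lit 355) (nat_lit 215) (nat_lit 210)) (XT.nd (nat_lit 78) (nat_lit 0) (nat_lit 0) (XT.lf (nat_lit 0) (nat_lit 6669343306) (nat_lit 76) (nat_lit 10254156639) (nat_lit 76) (nat_lit 8292696052) (nat_lit 11) (nat_lit 4) (nat_lit 12) (nat_lit 5) (nat_lit 12) (nat_lit 4) (nat_lit 356) (nat_lit 215) (nat_lit 209)) (XT.lf (nat_lit 0) (nat_lit 13203925946) (nat_lit 76) (nat_lit 7457243782) (nat_lit 76) (nat_lit 5201378435) (nat_lit 11) (nat_lit 4) (nat_lit 12) (nat_lit 5) (nat_lit 12) (nat_lit 4) (nat_lit 357) (nat_lit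 215) (nat_lit 208))))) (XT.nd (nat_lit 234) (nat_lit 0) (nat_lit 0) (XT.nd (nat_lit 78) (nat_lit 152) (nat_lit 0) (XT.lf (nat_lit 0) (nat_lit 19819653542) (nat_lit 76) (nat_lit 4626165063) (nat_lit 76) (nat_lit 2084469851) (nat_lit 11) (nat_lit 4) (nat_lit 12) (nat_lit 5) (nat_lit 12) (nat_lit 4) (nat_lit 358) (nat_lit 215) (nat_lit 207)) (XT.nd (nat_lit 78) (nat_lit 76) (nat_lit 0) (XT.lf (nat_lit 0) (nat_lit 1040054097) (nat_lit 152) (nat_lit 707890117) (nat_lit 76) (nat_lit 25471750220) (nat_lit 10) (nat_lit 5) (nat_lit 12) (nat_lit 5) (nat_lit 11) (nat_lit 4) (nat_lit 359) (nat_lit 215) (nat_lit 206)) (XT.lf (nat_lit 0) (nat_lit 4218719751) (nat_lit 152) (nat_lit 22490356397) (nat_lit 0) (nat_lit 1220057618) (nat_lit 9) (nat_lit 5) (nat_lit 11) (nat_lit 4) (nat_lit 9) (nat_lit 4) (nat_lit 360) (nat_lit 215) (nat_lit 205)))) (XT.nd (nat_lit 78) (nat_lit 0) (nat_lit 0) (XT.lf (nat_lit 0) (nat_lit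 7455522816) (nat_lit 152) (nat_lit 17002583822) (nat_lit 0) (nat_lit 4202904549) (nat_lit 9) (nat_lit 5) (nat_lit 11) (nat_lit 4) (nat_lit 9) (nat_lit 4) (nat_lit 361) (nat_lit 215) (nat_lit 204)) (XT.nd (nat_lit 78) (nat_lit 0) (nat_lit 0) (XT.lf (nat_lit 0) (nat_lit 10729480441) (nat_lit 152) (nat_lit 11456897268) (nat_lit 0) (nat_lit 7230302823) (nat_lit 9) (nat_lit 5) (nat_lit 11) (nat_lit 4) (nat_lit 9) (nat_lit 4) (nat_lit 362) (nat_lit 215) (nat_lit 203)) (XT.lf (nat_lit 0) (nat_lit 14043453369) (nat_lit 152) (nat_lit 5848450990) (nat_lit 0) (nat_lit 10304897738) (nat_lit 9) (nat_lit 5) (nat_lit 11) (nat_lit 4) (nat_lit 9) (nat_lit 4) (nat_lit 363) (nat_lit 215) (nat_lit 202)))))) (XT.nd (nat_lit 468) (nat_lit 152) (nat_lit 0) (XT.nd (nat_lit 234) (nat_lit 0) (nat_lit 0) (XT.nd (nat_lit 78) (nat_lit 76) (nat_lit 0) (XT.lf (nat_lit 0) (nat_lit 17400337302) (nat_lit 152) (nat_lit 172344403)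 (nat_lit 0) (nat_lit 13429375835) (nat_lit 9) (nat_lit 5) (nat_lit 11) (nat_lit 4) (nat_lit 9) (nat_lit 4) (nat_lit 364) (nat_lit 215) (nat_lit 201)) (XT.nd (nat_lit 78) (nat_lit 0) (nat_lit 0) (XT.lf (nat_lit 0) (nat_lit 5687363135) (nat_lit 76) (nat_lit 15170372719) (nat_lit 76) (nat_lit 10973774517) (nat_lit 8) (nat_lit 4) (nat_lit 9) (nat_lit 5) (nat_lit 9) (nat_lit 4) (nat_lit 365) (nat_lit 215) (nat_lit 200)) (XT.lf (nat_lit 0) (nat_lit 11629689090) (nat_lit 76) (nat_lit 12736713638) (nat_lit 76) (nat_lit 8321050645) (nat_lit 8) (nat_lit 4) (nat_lit 9) (nat_lit 5) (nat_lit 9) (nat_lit 4) (nat_lit 366) (nat_lit 215) (nat_lit 199)))) (XT.nd (nat_lit 78) (nat_lit 0) (nat_lit 0) (XT.lf (nat_lit 0) (nat_lit 17656395793) (nat_lit 76) (nat_lit 10271318306) (nat_lit 76) (nat_lit 5642971049) (nat_lit 8) (nat_lit 4) (nat_lit 9) (nat_lit 5) (nat_lit 9) (nat_lit 4) (nat_lit 367) (nat_lit 215) (nat_lit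 198)) (XT.nd (nat_lit 78) (nat_lit 0) (nat_lit 0) (XT.lf (nat_lit 0) (nat_lit 23772749297) (nat_lit 76) (nat_lit 7772032494) (nat_lit 76) (nat_lit 2937195661) (nat_lit 8) (nat_lit 4) (nat_lit 9) (nat_lit 5) (nat_lit 9) (nat_lit 4) (nat_lit 368) (nat_lit 215) (nat_lit 197)) (XT.lf (nat_lit 0) (nat_lit 29984093990) (nat_lit 76) (nat_lit 5236672360) (nat_lit 76) (nat_lit 201360210) (nat_lit 8) (nat_lit 4) (nat_lit 9) (nat_lit 5) (nat_lit 9) (nat_lit 4) (nat_lit 369) (nat_lit 215) (nat_lit 196))))) (XT.nd (nat_lit 234) (nat_lit 0) (nat_lit 0) (XT.nd (nat_lit 78) (nat_lit 76) (nat_lit 0) (XT.lf (nat_lit 0) (nat_lit 2516835870) (nat_lit 152) (nat_lit 120771562) (nat_lit 76) (nat_lit 33753606282) (nat_lit 7) (nat_lit 5) (nat_lit 9) (nat_lit 5) (nat_lit 8) (nat_lit 4) (nat_lit 370) (nat_lit 215) (nat_lit 195)) (XT.nd (nat_lit 78) (nat_lit 0) (nat_lit 0) (XT.lf (nat_lit 0) (nat_lit 5317507939) (nat_lit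 152) (nat_lit 32015259197) (nat_lit 0) (nat_lit 56424839) (nat_lit 6) (nat_lit 5) (nat_lit 8) (nat_lit 4) (nat_lit 6) (nat_lit 4) (nat_lit 371) (nat_lit 215) (nat_lit 194)) (XT.lf (nat_lit 0) (nat_lit 8182525805) (nat_lit 152) (nat_lit 27491877839) (nat_lit 0) (nat_lit 2743322983) (nat_lit 6) (nat_lit 5) (nat_lit 8) (nat_lit 4) (nat_lit 6) (nat_lit 4) (nat_lit 372) (nat_lit 215) (nat_lit 193)))) (XT.nd (nat_lit 78) (nat_lit 0) (nat_lit 0) (XT.lf (nat_lit 0) (nat_lit 11087842827) (nat_lit 152) (nat_lit 22914961830) (nat_lit 0) (nat_lit 5475708237) (nat_lit 6) (nat_lit 5) (nat_lit 8) (nat_lit 4) (nat_lit 6) (nat_lit 4) (nat_lit 373) (nat_lit 215) (nat_lit 192)) (XT.nd (nat_lit 78) (nat_lit 0) (nat_lit 0) (XT.lf (nat_lit 0) (nat_lit 14035997633) (nat_lit 152) (nat_lit 18280511921) (nat_lit 0) (nat_lit 8255968121) (nat_lit 6) (nat_lit 5) (nat_lit 8) (nat_lit 4) (nat_lit 6) (nat_lit 4) (nat_lit 374)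 (nat_lit 215) (nat_lit 191)) (XT.lf (nat_lit 0) (nat_lit 17029566280) (nat_lit 152) (nat_lit 13584478594) (nat_lit 0) (nat_lit 11086531990) (nat_lit 6) (nat_lit 5) (nat_lit 8) (nat_lit 4) (nat_lit 6) (nat_lit 4) (nat_lit 375) (nat_lit 215) (nat_lit 190))))))))
noncomputable def xc16 : XT := (XT.nd (nat_lit 1794) (nat_lit 0) (nat_lit 0) (XT.nd (nat_lit 858) (nat_lit 152) (nat_lit 0) (XT.nd (nat_lit 390) (nat_lit 0) (nat_lit 0) (XT.nd (nat_lit 156) (nat_lit 76) (nat_lit 0) (XT.nd (nat_lit 78) (nat_lit 0) (nat_lit 0) (XT.lf (nat_lit 0) (nat_lit 20071164506) (nat_lit 152) (nat_lit 8822758518) (nat_lit 0) (nat_lit 13969873150) (nat_lit 6) (nat_lit 5) (nat_lit 8) (nat_lit 4) (nat_lit 6) (nat_lit 4) (nat_lit 376) (nat_lit 215) (nat_lit 189)) (XT.lf (nat_lit 0) (nat_lit 23163450021) (nat_lit 152) (nat_lit 3991190967) (nat_lit 0) (nat_lit 16908511028) (nat_lit 6) (nat_lit 5) (nat_lit 8) (nat_lit 4) (nat_lit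 6) (nat_lit 4) (nat_lit 377) (nat_lit 215) (nat_lit 188))) (XT.nd (nat_lit 78) (nat_lit 0) (nat_lit 0) (XT.lf (nat_lit 0) (nat_lit 932645081) (nat_lit 76) (nat_lit 25385444894) (nat_lit 76) (nat_lit 18981333437) (nat_lit 5) (nat_lit 4) (nat_lit 6) (nat_lit 5) (nat_lit 6) (nat_lit 4) (nat_lit 378) (nat_lit 215) (nat_lit 187)) (XT.nd (nat_lit 78) (nat_lit 0) (nat_lit 0) (XT.lf (nat_lit 0) (nat_lit 6015828800) (nat_lit 76) (nat_lit 23552936578) (nat_lit 76) (nat_lit 17003997487) (nat_lit 5) (nat_lit 4) (nat_lit 6) (nat_lit 5) (nat_lit 6) (nat_lit 4) (nat_lit 379) (nat_lit 215) (nat_lit 186)) (XT.lf (nat_lit 0) (nat_lit 11183369280) (nat_lit 76) (nat_lit 21695818022) (nat_lit 76) (nat_lit 15006269578) (nat_lit 5) (nat_lit 4) (nat_lit 6) (nat_lit 5) (nat_lit 6) (nat_lit 4) (nat_lit 380) (nat_lit 215) (nat_lit 185))))) (XT.nd (nat_lit 234) (nat_lit 0) (nat_lit 0) (XT.nd (nat_lit 78) (nat_lit 0) (nat_lit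 0) (XT.lf (nat_lit 0) (nat_lit 16439781847) (nat_lit 76) (nat_lit 19812466503) (nat_lit 76) (nat_lit 12986404123) (nat_lit 5) (nat_lit 4) (nat_lit 6) (nat_lit 5) (nat_lit 6) (nat_lit 4) (nat_lit 381) (nat_lit 215) (nat_lit 184)) (XT.nd (nat_lit 78) (nat_lit 0) (nat_lit 0) (XT.lf (nat_lit 0) (nat_lit 21789659484) (nat_lit 76) (nat_lit 17901236372) (nat_lit 76) (nat_lit 10942636191) (nat_lit 5) (nat_lit 4) (nat_lit 6) (nat_lit 5) (nat_lit 6) (nat_lit 4) (nat_lit 382) (nat_lit 215) (nat_lit 183)) (XT.lf (nat_lit 0) (nat_lit 27237676841) (nat_lit 76) (nat_lit 15960457623) (nat_lit 76) (nat_lit 8873179965) (nat_lit 5) (nat_lit 4) (nat_lit 6) (nat_lit 5) (nat_lit 6) (nat_lit 4) (nat_lit 383) (nat_lit 215) (nat_lit 182)))) (XT.nd (nat_lit 78) (nat_lit 0) (nat_lit 0) (XT.lf (nat_lit 0) (nat_lit 32788594321) (nat_lit 76) (nat_lit 13988434430) (nat_lit 76) (nat_lit 6776227183) (nat_lit 5) (nat_lit 4) (nat_lit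 6) (nat_lit 5) (nat_lit 6) (nat_lit 4) (nat_lit 384) (nat_lit 215) (nat_lit 181)) (XT.nd (nat_lit 78) (nat_lit 0) (nat_lit 0) (XT.lf (nat_lit 0) (nat_lit 38447262241) (nat_lit 76) (nat_lit 11983443666) (nat_lit 76) (nat_lit 4649945555) (nat_lit 5) (nat_lit 4) (nat_lit 6) (nat_lit 5) (nat_lit 6) (nat_lit 4) (nat_lit 385) (nat_lit 215) (nat_lit 180)) (XT.lf (nat_lit 0) (nat_lit 44218625067) (nat_lit 76) (nat_lit 9943733397) (nat_lit 76) (nat_lit 2492477166) (nat_lit 5) (nat_lit 4) (nat_lit 6) (nat_lit 5) (nat_lit 6) (nat_lit 4) (nat_lit 386) (nat_lit 215) (nat_lit 179)))))) (XT.nd (nat_lit 468) (nat_lit 0) (nat_lit 0) (XT.nd (nat_lit 234) (nat_lit 0) (nat_lit 0) (XT.nd (nat_lit 78) (nat_lit 152) (nat_lit 0) (XT.lf (nat_lit 0) (nat_lit 50107725738) (nat_lit 76) (nat_lit 7867521351) (nat_lit 76) (nat_lit 301936849) (nat_lit 5) (nat_lit 4) (nat_lit 6) (nat_lit 5) (nat_lit 6) (nat_lit 4) (nat_lit 387)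 (nat_lit 215) (nat_lit 178)) (XT.nd (nat_lit 78) (nat_lit 76) (nat_lit 0) (XT.lf (nat_lit 0) (nat_lit 1886053300) (nat_lit 152) (nat_lit 3847894624) (nat_lit 76) (nat_lit 54214611330) (nat_lit 4) (nat_lit 5) (nat_lit 6) (nat_lit 5) (nat_lit 5) (nat_lit 4) (nat_lit 388) (nat_lit 215) (nat_lit 177)) (XT.lf (nat_lit 0) (nat_lit 558402204) (nat_lit 76) (nat_lit 3551327051) (nat_lit 152) (nat_lit 57560989197) (nat_lit 3) (nat_lit 5) (nat_lit 4) (nat_lit 5) (nat_lit 5) (nat_lit 4) (nat_lit 389) (nat_lit 215) (nat_lit 176)))) (XT.nd (nat_lit 78) (nat_lit 0) (nat_lit 0) (XT.lf (nat_lit 0) (nat_lit 5123463234) (nat_lit 76) (nat_lit 1286604738) (nat_lit 152) (nat_lit 57034191173) (nat_lit 3) (nat_lit 5) (nat_lit 4) (nat_lit 5) (nat_lit 5) (nat_lit 4) (nat_lit 390) (nat_lit 215) (nat_lit 175)) (XT.nd (nat_lit 78) (nat_lit 0) (nat_lit 0) (XT.lf (nat_lit 0) (nat_lit 8761191983) (nat_lit 152) (nat_lit 55507003040)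 (nat_lit 0) (nat_lit 1003372625) (nat_lit 3) (nat_lit 5) (nat_lit 5) (nat_lit 4) (nat_lit 3) (nat_lit 4) (nat_lit 391) (nat_lit 215) (nat_lit 174)) (XT.lf (nat_lit 0) (nat_lit 11168131843) (nat_lit 152) (nat_lit 52671455158) (nat_lit 0) (nat_lit 3314564358) (nat_lit 3) (nat_lit 5) (nat_lit 5) (nat_lit 4) (nat_lit 3) (nat_lit 4) (nat_lit 392) (nat_lit 215) (nat_lit 173))))) (XT.nd (nat_lit 234) (nat_lit 0) (nat_lit 0) (XT.nd (nat_lit 78) (nat_lit 0) (nat_lit 0) (XT.lf (nat_lit 0) (nat_lit 13620623071) (nat_lit 152) (nat_lit 49799306968) (nat_lit 0) (nat_lit 5674096239) (nat_lit 3) (nat_lit 5) (nat_lit 5) (nat_lit 4) (nat_lit 3) (nat_lit 4) (nat_lit 393) (nat_lit 215) (nat_lit 172)) (XT.nd (nat_lit 78) (nat_lit 0) (nat_lit 0) (XT.lf (nat_lit 0) (nat_lit 16120808622) (nat_lit 152) (nat_lit 46888048828) (nat_lit 0) (nat_lit 8084029996) (nat_lit 3) (nat_lit 5) (nat_lit 5) (nat_lit 4) (nat_lit 3) (nat_lit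 4) (nat_lit 394) (nat_lit 215) (nat_lit 171)) (XT.lf (nat_lit 0) (nat_lit 18670873122) (nat_lit 152) (nat_lit 43935136918) (nat_lit 0) (nat_lit 10546471396) (nat_lit 3) (nat_lit 5) (nat_lit 5) (nat_lit 4) (nat_lit 3) (nat_lit 4) (nat_lit 395) (nat_lit 215) (nat_lit 170)))) (XT.nd (nat_lit 78) (nat_lit 0) (nat_lit 0) (XT.lf (nat_lit 0) (nat_lit 21273044785) (nat_lit 152) (nat_lit 40937991025) (nat_lit 0) (nat_lit 13063572087) (nat_lit 3) (nat_lit 5) (nat_lit 5) (nat_lit 4) (nat_lit 3) (nat_lit 4) (nat_lit 396) (nat_lit 215) (nat_lit 169)) (XT.nd (nat_lit 78) (nat_lit 0) (nat_lit 0) (XT.lf (nat_lit 0) (nat_lit 23929597351) (nat_lit 152) (nat_lit 37893992283) (nat_lit 0) (nat_lit 15637531477) (nat_lit 3) (nat_lit 5) (nat_lit 5) (nat_lit 4) (nat_lit 3) (nat_lit 4) (nat_lit 397) (nat_lit 215) (nat_lit 168)) (XT.lf (nat_lit 0) (nat_lit 26642852081) (nat_lit 152) (nat_lit 34800480888) (nat_lit 0) (nat_lit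 18270598657) (nat_lit 3) (nat_lit 5) (nat_lit 5) (nat_lit 4) (nat_lit 3) (nat_lit 4) (nat_lit 398) (nat_lit 215) (nat_lit 167))))))) (XT.nd (nat_lit 37128) (nat_lit 0) (nat_lit 380) (XT.nd (nat_lit 36660) (nat_lit 0) (nat_lit 684) (XT.nd (nat_lit 234) (nat_lit 0) (nat_lit 0) (XT.nd (nat_lit 78) (nat_lit 0) (nat_lit 0) (XT.lf (nat_lit 0) (nat_lit 29415179779) (nat_lit 152) (nat_lit 31654753771) (nat_lit 0) (nat_lit 20965074366) (nat_lit 3) (nat_lit 5) (nat_lit 5) (nat_lit 4) (nat_lit 3) (nat_lit 4) (nat_lit 399) (nat_lit 215) (nat_lit 166)) (XT.nd (nat_lit 78) (nat_lit 0) (nat_lit 0) (XT.lf (nat_lit 0) (nat_lit 32249002868) (nat_lit 152) (nat_lit 28454062240) (nat_lit 0) (nat_lit 23723312999) (nat_lit 3) (nat_lit 5) (nat_lit 5) (nat_lit 4) (nat_lit 3) (nat_lit 4) (nat_lit 400) (nat_lit 215) (nat_lit 165)) (XT.lf (nat_lit 0) (nat_lit 35146797505) (nat_lit 152) (nat_lit 25195609572) (nat_lit 0) (nat_lit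 26547724668) (nat_lit 3) (nat_lit 5) (nat_lit 5) (nat_lit 4) (nat_lit 3) (nat_lit 4) (nat_lit 401) (nat_lit 215) (nat_lit 164)))) (XT.nd (nat_lit 78) (nat_lit 0) (nat_lit 0) (XT.lf (nat_lit 0) (nat_lit 38111095742) (nat_lit 152) (nat_lit 21876548577) (nat_lit 0) (nat_lit 29440777306) (nat_lit 3) (nat_lit 5) (nat_lit 5) (nat_lit 4) (nat_lit 3) (nat_lit 4) (nat_lit 402) (nat_lit 215) (nat_lit 163)) (XT.nd (nat_lit 78) (nat_lit 0) (nat_lit 0) (XT.lf (nat_lit 0) (nat_lit 41144487743) (nat_lit 152) (nat_lit 18493979104) (nat_lit 0) (nat_lit 32404998823) (nat_lit 3) (nat_lit 5) (nat_lit 5) (nat_lit 4) (nat_lit 3) (nat_lit 4) (nat_lit 403) (nat_lit 215) (nat_lit 162)) (XT.lf (nat_lit 0) (nat_lit 44249624045) (nat_lit 152) (nat_lit 15044945509) (nat_lit 0) (nat_lit 35442979314) (nat_lit 3) (nat_lit 5) (nat_lit 5) (nat_lit 4) (nat_lit 3) (nat_lit 4) (nat_lit 404) (nat_lit 215) (nat_lit 161))))) (XT.nd (nat_lit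 234) (nat_lit 152) (nat_lit 0) (XT.nd (nat_lit 78) (nat_lit 152) (nat_lit 0) (XT.lf (nat_lit 0) (nat_lit 4993185683) (nat_lit 152) (nat_lit 376003538) (nat_lit 0) (nat_lit 4993185683) (nat_lit 16) (nat_lit 5) (nat_lit 18) (nat_lit 4) (nat_lit 16) (nat_lit 4) (nat_lit 348) (nat_lit 216) (nat_lit 216)) (XT.nd (nat_lit 78) (nat_lit 0) (nat_lit 0) (XT.lf (nat_lit 0) (nat_lit 6065223012) (nat_lit 152) (nat_lit 7766743703) (nat_lit 152) (nat_lit 7393800560) (nat_lit 14) (nat_lit 4) (nat_lit 16) (nat_lit 5) (nat_lit 16) (nat_lit 4) (nat_lit 349) (nat_lit 216) (nat_lit 215)) (XT.lf (nat_lit 0) (nat_lit 12969927125) (nat_lit 152) (nat_lit 4754510639) (nat_lit 152) (nat_lit 4019486775) (nat_lit 14) (nat_lit 4) (nat_lit 16) (nat_lit 5) (nat_lit 16) (nat_lit 4) (nat_lit 350) (nat_lit 216) (nat_lit 214)))) (XT.nd (nat_lit 78) (nat_lit 152) (nat_lit 0) (XT.lf (nat_lit 0) (nat_lit 19953172082) (nat_lit 152) (nat_lit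 1706640999) (nat_lit 152) (nat_lit 620082453) (nat_lit 14) (nat_lit 4) (nat_lit 16) (nat_lit 5) (nat_lit 16) (nat_lit 4) (nat_lit 351) (nat_lit 216) (nat_lit 213)) (XT.nd (nat_lit 78) (nat_lit 0) (nat_lit 0) (XT.lf (nat_lit 0) (nat_lit 2807316043) (nat_lit 152) (nat_lit 18603331811) (nat_lit 0) (nat_lit 1421049682) (nat_lit 12) (nat_lit 5) (nat_lit 14) (nat_lit 4) (nat_lit 12) (nat_lit 4) (nat_lit 352) (nat_lit 216) (nat_lit 212)) (XT.lf (nat_lit 0) (nat_lit 6293613864) (nat_lit 152) (nat_lit 12521604297) (nat_lit 0) (nat_lit 4585643472) (nat_lit 12) (nat_lit 5) (nat_lit 14) (nat_lit 4) (nat_lit 12) (nat_lit 4) (nat_lit 353) (nat_lit 216) (nat_lit 211)))))) (XT.nd (nat_lit 468) (nat_lit 152) (nat_lit 0) (XT.nd (nat_lit 234) (nat_lit 76) (nat_lit 0) (XT.nd (nat_lit 78) (nat_lit 76) (nat_lit 0) (XT.lf (nat_lit 0) (nat_lit 9814515187) (nat_lit 152) (nat_lit 6380521263) (nat_lit 0) (nat_lit 7794210784)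 (nat_lit 12) (nat_lit 5) (nat_lit 14) (nat_lit 4) (nat_lit 12) (nat_lit 4) (nat_lit 354) (nat_lit 216) (nat_lit 210)) (XT.nd (nat_lit 78) (nat_lit 76) (nat_lit 0) (XT.lf (nat_lit 0) (nat_lit 13373096527) (nat_lit 152) (nat_lit 174716714) (nat_lit 0) (nat_lit 11049555220) (nat_lit 12) (nat_lit 5) (nat_lit 14) (nat_lit 4) (nat_lit 12) (nat_lit 4) (nat_lit 355) (nat_lit 216) (nat_lit 209)) (XT.lf (nat_lit 0) (nat_lit 6222658373) (nat_lit 76) (nat_lit 10809624951) (nat_lit 76) (nat_lit 8191678882) (nat_lit 11) (nat_lit 4) (nat_lit 12) (nat_lit 5) (nat_lit 12) (nat_lit 4) (nat_lit 356) (nat_lit 216) (nat_lit 208)))) (XT.nd (nat_lit 78) (nat_lit 76) (nat_lit 0) (XT.lf (nat_lit 0) (nat_lit 12700643711) (nat_lit 76) (nat_lit 8037215308) (nat_lit 76) (nat_lit 5133439374) (nat_lit 11) (nat_lit 4) (nat_lit 12) (nat_lit 5) (nat_lit 12) (nat_lit 4) (nat_lit 357) (nat_lit 216) (nat_lit 207)) (XT.nd (nat_lit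 78) (nat_lit 76) (nat_lit 0) (XT.lf (nat_lit 0) (nat_lit 19261422468) (nat_lit 76) (nat_lit 5229926115) (nat_lit 76) (nat_lit 2048645458) (nat_lit 11) (nat_lit 4) (nat_lit 12) (nat_lit 5) (nat_lit 12) (nat_lit 4) (nat_lit 358) (nat_lit 216) (nat_lit 206)) (XT.lf (nat_lit 0) (nat_lit 1044608557) (nat_lit 152) (nat_lit 1330147347) (nat_lit 76) (nat_lit 24855570310) (nat_lit 10) (nat_lit 5) (nat_lit 12) (nat_lit 5) (nat_lit 11) (nat_lit 4) (nat_lit 359) (nat_lit 216) (nat_lit 205))))) (XT.nd (nat_lit 234) (nat_lit 76) (nat_lit 0) (XT.nd (nat_lit 78) (nat_lit 0) (nat_lit 0) (XT.lf (nat_lit 0) (nat_lit 4180670209) (nat_lit 152) (nat_lit 23183875028) (nat_lit 0) (nat_lit 576517262) (nat_lit 9) (nat_lit 5) (nat_lit 11) (nat_lit 4) (nat_lit 9) (nat_lit 4) (nat_lit 360) (nat_lit 216) (nat_lit 204)) (XT.nd (nat_lit 78) (nat_lit 0) (nat_lit 0) (XT.lf (nat_lit 0) (nat_lit 7387941485) (nat_lit 152) (nat_lit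 17748673486) (nat_lit 0) (nat_lit 3537229186) (nat_lit 9) (nat_lit 5) (nat_lit 11) (nat_lit 4) (nat_lit 9) (nat_lit 4) (nat_lit 361) (nat_lit 216) (nat_lit 203)) (XT.lf (nat_lit 0) (nat_lit 10633227472) (nat_lit 152) (nat_lit 12254026771) (nat_lit 0) (nat_lit 6543137160) (nat_lit 9) (nat_lit 5) (nat_lit 11) (nat_lit 4) (nat_lit 9) (nat_lit 4) (nat_lit 362) (nat_lit 216) (nat_lit 202)))) (XT.nd (nat_lit 78) (nat_lit 76) (nat_lit 0) (XT.lf (nat_lit 0) (nat_lit 13919363856) (nat_lit 152) (nat_lit 6695133734) (nat_lit 0) (nat_lit 9596867708) (nat_lit 9) (nat_lit 5) (nat_lit 11) (nat_lit 4) (nat_lit 9) (nat_lit 4) (nat_lit 363) (nat_lit 216) (nat_lit 201)) (XT.nd (nat_lit 78) (nat_lit 76) (nat_lit 0) (XT.lf (nat_lit 0) (nat_lit 17249222020) (nat_lit 152) (nat_lit 1067137091) (nat_lit 0) (nat_lit 12701089137) (nat_lit 9) (nat_lit 5) (nat_lit 11) (nat_lit 4) (nat_lit 9) (nat_lit 4) (nat_lit 364) (nat_lit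 216) (nat_lit 200)) (XT.lf (nat_lit 0) (nat_lit 4727124042) (nat_lit 76) (nat_lit 15944027513) (nat_lit 76) (nat_lit 11176829839) (nat_lit 8) (nat_lit 4) (nat_lit 9) (nat_lit 5) (nat_lit 9) (nat_lit 4) (nat_lit 365) (nat_lit 216) (nat_lit 199))))))))
noncomputable def xc17 : XT := (XT.nd (nat_lit 1794) (nat_lit 76) (nat_lit 0) (XT.nd (nat_lit 858) (nat_lit 152) (nat_lit 0) (XT.nd (nat_lit 390) (nat_lit 76) (nat_lit 0) (XT.nd (nat_lit 156) (nat_lit 76) (nat_lit 0) (XT.nd (nat_lit 78) (nat_lit 0) (nat_lit 0) (XT.lf (nat_lit 0) (nat_lit 10623199243) (nat_lit 76) (nat_lit 13530700216) (nat_lit 76) (nat_lit 8550818278) (nat_lit 8) (nat_lit 4) (nat_lit 9) (nat_lit 5) (nat_lit 9) (nat_lit 4) (nat_lit 366) (nat_lit 216) (nat_lit 198)) (XT.lf (nat_lit 0) (nat_lit 16605002300) (nat_lit 76) (nat_lit 11085044480) (nat_lit 76) (nat_lit 5898672966) (nat_lit 8) (nat_lit 4) (nat_lit 9) (nat_lit 5) (nat_lit 9)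 (nat_lit 4) (nat_lit 367) (nat_lit 216) (nat_lit 197))) (XT.nd (nat_lit 78) (nat_lit 76) (nat_lit 0) (XT.lf (nat_lit 0) (nat_lit 22677760033) (nat_lit 76) (nat_lit 8604923324) (nat_lit 76) (nat_lit 3218076494) (nat_lit 8) (nat_lit 4) (nat_lit 9) (nat_lit 5) (nat_lit 9) (nat_lit 4) (nat_lit 368) (nat_lit 216) (nat_lit 196)) (XT.nd (nat_lit 78) (nat_lit 76) (nat_lit 0) (XT.lf (nat_lit 0) (nat_lit 28846778734) (nat_lit 76) (nat_lit 6088169652) (nat_lit 76) (nat_lit 506686592) (nat_lit 8) (nat_lit 4) (nat_lit 9) (nat_lit 5) (nat_lit 9) (nat_lit 4) (nat_lit 369) (nat_lit 216) (nat_lit 195)) (XT.lf (nat_lit 0) (nat_lit 2194197089) (nat_lit 152) (nat_lit 1316230181) (nat_lit 76) (nat_lit 32901094629) (nat_lit 7) (nat_lit 5) (nat_lit 9) (nat_lit 5) (nat_lit 8) (nat_lit 4) (nat_lit 370) (nat_lit 216) (nat_lit 194))))) (XT.nd (nat_lit 234) (nat_lit 0) (nat_lit 0) (XT.nd (nat_lit 78) (nat_lit 0) (nat_lit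 0) (XT.lf (nat_lit 0) (nat_lit 4114089589) (nat_lit 76) (nat_lit 845517886) (nat_lit 152) (nat_lit 32450963744) (nat_lit 6) (nat_lit 5) (nat_lit 7) (nat_lit 5) (nat_lit 8) (nat_lit 4) (nat_lit 371) (nat_lit 216) (nat_lit 193)) (XT.nd (nat_lit 78) (nat_lit 0) (nat_lit 0) (XT.lf (nat_lit 0) (nat_lit 7794009343) (nat_lit 152) (nat_lit 28805448888) (nat_lit 0) (nat_lit 1840578945) (nat_lit 6) (nat_lit 5) (nat_lit 8) (nat_lit 4) (nat_lit 6) (nat_lit 4) (nat_lit 372) (nat_lit 216) (nat_lit 192)) (XT.lf (nat_lit 0) (nat_lit 10677493002) (nat_lit 152) (nat_lit 24267830209) (nat_lit 0) (nat_lit 4556167683) (nat_lit 6) (nat_lit 5) (nat_lit 8) (nat_lit 4) (nat_lit 6) (nat_lit 4) (nat_lit 373) (nat_lit 216) (nat_lit 191)))) (XT.nd (nat_lit 78) (nat_lit 0) (nat_lit 0) (XT.lf (nat_lit 0) (nat_lit 13604450368) (nat_lit 152) (nat_lit 19671533049) (nat_lit 0) (nat_lit 7320120271) (nat_lit 6) (nat_lit 5) (nat_lit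 8) (nat_lit 4) (nat_lit 6) (nat_lit 4) (nat_lit 374) (nat_lit 216) (nat_lit 190)) (XT.nd (nat_lit 78) (nat_lit 0) (nat_lit 0) (XT.lf (nat_lit 0) (nat_lit 16577438975) (nat_lit 152) (nat_lit 15012541225) (nat_lit 0) (nat_lit 10134851812) (nat_lit 6) (nat_lit 5) (nat_lit 8) (nat_lit 4) (nat_lit 6) (nat_lit 4) (nat_lit 375) (nat_lit 216) (nat_lit 189)) (XT.lf (nat_lit 0) (nat_lit 19599056582) (nat_lit 152) (nat_lit 10286783773) (nat_lit 0) (nat_lit 13002821782) (nat_lit 6) (nat_lit 5) (nat_lit 8) (nat_lit 4) (nat_lit 6) (nat_lit 4) (nat_lit 376) (nat_lit 216) (nat_lit 188)))))) (XT.nd (nat_lit 468) (nat_lit 76) (nat_lit 0) (XT.nd (nat_lit 234) (nat_lit 0) (nat_lit 0) (XT.nd (nat_lit 78) (nat_lit 76) (nat_lit 0) (XT.lf (nat_lit 0) (nat_lit 22671943436) (nat_lit 152) (nat_lit 5490131391) (nat_lit 0) (nat_lit 15926536172) (nat_lit 6) (nat_lit 5) (nat_lit 8) (nat_lit 4) (nat_lit 6) (nat_lit 4) (nat_lit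 377) (nat_lit 216) (nat_lit 187)) (XT.nd (nat_lit 78) (nat_lit 76) (nat_lit 0) (XT.lf (nat_lit 0) (nat_lit 25798784584) (nat_lit 152) (nat_lit 618392830) (nat_lit 0) (nat_lit 18908549686) (nat_lit 6) (nat_lit 5) (nat_lit 8) (nat_lit 4) (nat_lit 6) (nat_lit 4) (nat_lit 378) (nat_lit 216) (nat_lit 186)) (XT.lf (nat_lit 0) (nat_lit 4418917772) (nat_lit 76) (nat_lit 24605871786) (nat_lit 76) (nat_lit 17575027535) (nat_lit 5) (nat_lit 4) (nat_lit 6) (nat_lit 5) (nat_lit 6) (nat_lit 4) (nat_lit 379) (nat_lit 216) (nat_lit 185)))) (XT.nd (nat_lit 78) (nat_lit 0) (nat_lit 0) (XT.lf (nat_lit 0) (nat_lit 9553870012) (nat_lit 76) (nat_lit 22763275690) (nat_lit 76) (nat_lit 15595917503) (nat_lit 5) (nat_lit 4) (nat_lit 6) (nat_lit 5) (nat_lit 6) (nat_lit 4) (nat_lit 380) (nat_lit 216) (nat_lit 184)) (XT.nd (nat_lit 78) (nat_lit 0) (nat_lit 0) (XT.lf (nat_lit 0) (nat_lit 14778643512) (nat_lit 76) (nat_lit 20894023645)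 (nat_lit 76) (nat_lit 13594127658) (nat_lit 5) (nat_lit 4) (nat_lit 6) (nat_lit 5) (nat_lit 6) (nat_lit 4) (nat_lit 381) (nat_lit 216) (nat_lit 183)) (XT.lf (nat_lit 0) (nat_lit 20097803607) (nat_lit 76) (nat_lit 18996482325) (nat_lit 76) (nat_lit 11567908861) (nat_lit 5) (nat_lit 4) (nat_lit 6) (nat_lit 5) (nat_lit 6) (nat_lit 4) (nat_lit 382) (nat_lit 216) (nat_lit 182))))) (XT.nd (nat_lit 234) (nat_lit 76) (nat_lit 0) (XT.nd (nat_lit 78) (nat_lit 0) (nat_lit 0) (XT.lf (nat_lit 0) (nat_lit 25515998108) (nat_lit 76) (nat_lit 17068993684) (nat_lit 76) (nat_lit 9515490630) (nat_lit 5) (nat_lit 4) (nat_lit 6) (nat_lit 5) (nat_lit 6) (nat_lit 4) (nat_lit 383) (nat_lit 216) (nat_lit 181)) (XT.nd (nat_lit 78) (nat_lit 0) (nat_lit 0) (XT.lf (nat_lit 0) (nat_lit 31037961359) (nat_lit 76) (nat_lit 15109873508) (nat_lit 76) (nat_lit 7435079590) (nat_lit 5) (nat_lit 4) (nat_lit 6) (nat_lit 5) (nat_lit 6)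 (nat_lit 4) (nat_lit 384) (nat_lit 216) (nat_lit 180)) (XT.lf (nat_lit 0) (nat_lit 36668518377) (nat_lit 76) (nat_lit 13117409944) (nat_lit 76) (nat_lit 5324857907) (nat_lit 5) (nat_lit 4) (nat_lit 6) (nat_lit 5) (nat_lit 6) (nat_lit 4) (nat_lit 385) (nat_lit 216) (nat_lit 179)))) (XT.nd (nat_lit 78) (nat_lit 76) (nat_lit 0) (XT.lf (nat_lit 0) (nat_lit 42412589065) (nat_lit 76) (nat_lit 11089862006) (nat_lit 76) (nat_lit 3182981697) (nat_lit 5) (nat_lit 4) (nat_lit 6) (nat_lit 5) (nat_lit 6) (nat_lit 4) (nat_lit 386) (nat_lit 216) (nat_lit 178)) (XT.nd (nat_lit 78) (nat_lit 76) (nat_lit 0) (XT.lf (nat_lit 0) (nat_lit 48275192516) (nat_lit 76) (nat_lit 9025458050) (nat_lit 76) (nat_lit 1007579419) (nat_lit 5) (nat_lit 4) (nat_lit 6) (nat_lit 5) (nat_lit 6) (nat_lit 4) (nat_lit 387) (nat_lit 216) (nat_lit 177)) (XT.lf (nat_lit 0) (nat_lit 1179770028) (nat_lit 152) (nat_lit 5730710833) (nat_lit 76)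 (nat_lit 53069767998) (nat_lit 4) (nat_lit 5) (nat_lit 6) (nat_lit 5) (nat_lit 5) (nat_lit 4) (nat_lit 388) (nat_lit 216) (nat_lit 176))))))) (XT.nd (nat_lit 936) (nat_lit 0) (nat_lit 0) (XT.nd (nat_lit 468) (nat_lit 0) (nat_lit 0) (XT.nd (nat_lit 234) (nat_lit 0) (nat_lit 0) (XT.nd (nat_lit 78) (nat_lit 76) (nat_lit 0) (XT.lf (nat_lit 0) (nat_lit 3384087668) (nat_lit 152) (nat_lit 1360572588) (nat_lit 76) (nat_lit 56958336084) (nat_lit 4) (nat_lit 5) (nat_lit 6) (nat_lit 5) (nat_lit 5) (nat_lit 4) (nat_lit 389) (nat_lit 216) (nat_lit 175)) (XT.nd (nat_lit 78) (nat_lit 0) (nat_lit 0) (XT.lf (nat_lit 0) (nat_lit 3152395900) (nat_lit 76) (nat_lit 2504867964) (nat_lit 152) (nat_lit 57820095357) (nat_lit 3) (nat_lit 5) (nat_lit 4) (nat_lit 5) (nat_lit 5) (nat_lit 4) (nat_lit 390) (nat_lit 216) (nat_lit 174)) (XT.lf (nat_lit 0) (nat_lit 7779343471) (nat_lit 76) (nat_lit 205786473) (nat_lit 152) (nat_lit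 57320242620) (nat_lit 3) (nat_lit 5) (nat_lit 4) (nat_lit 5) (nat_lit 5) (nat_lit 4) (nat_lit 391) (nat_lit 216) (nat_lit 173)))) (XT.nd (nat_lit 78) (nat_lit 0) (nat_lit 0) (XT.lf (nat_lit 0) (nat_lit 10376960217) (nat_lit 152) (nat_lit 54712378006) (nat_lit 0) (nat_lit 2099078232) (nat_lit 3) (nat_lit 5) (nat_lit 5) (nat_lit 4) (nat_lit 3) (nat_lit 4) (nat_lit 392) (nat_lit 216) (nat_lit 172)) (XT.nd (nat_lit 78) (nat_lit 0) (nat_lit 0) (XT.lf (nat_lit 0) (nat_lit 12816702472) (nat_lit 152) (nat_lit 51863409370) (nat_lit 0) (nat_lit 4448568694) (nat_lit 3) (nat_lit 5) (nat_lit 5) (nat_lit 4) (nat_lit 3) (nat_lit 4) (nat_lit 393) (nat_lit 216) (nat_lit 171)) (XT.lf (nat_lit 0) (nat_lit 15304510379) (nat_lit 152) (nat_lit 48974655651) (nat_lit 0) (nat_lit 6848753501) (nat_lit 3) (nat_lit 5) (nat_lit 5) (nat_lit 4) (nat_lit 3) (nat_lit 4) (nat_lit 394) (nat_lit 216) (nat_lit 170))))) (XT.nd (nat_lit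 234) (nat_lit 0) (nat_lit 0) (XT.nd (nat_lit 78) (nat_lit 0) (nat_lit 0) (XT.lf (nat_lit 0) (nat_lit 17842557750) (nat_lit 152) (nat_lit 46043592694) (nat_lit 0) (nat_lit 9301729900) (nat_lit 3) (nat_lit 5) (nat_lit 5) (nat_lit 4) (nat_lit 3) (nat_lit 4) (nat_lit 395) (nat_lit 216) (nat_lit 169)) (XT.nd (nat_lit 78) (nat_lit 0) (nat_lit 0) (XT.lf (nat_lit 0) (nat_lit 20433062296) (nat_lit 152) (nat_lit 43067659376) (nat_lit 0) (nat_lit 11809641270) (nat_lit 3) (nat_lit 5) (nat_lit 5) (nat_lit 4) (nat_lit 3) (nat_lit 4) (nat_lit 396) (nat_lit 216) (nat_lit 168)) (XT.lf (nat_lit 0) (nat_lit 23078287565) (nat_lit 152) (nat_lit 40044255368) (nat_lit 0) (nat_lit 14374678990) (nat_lit 3) (nat_lit 5) (nat_lit 5) (nat_lit 4) (nat_lit 3) (nat_lit 4) (nat_lit 397) (nat_lit 216) (nat_lit 167)))) (XT.nd (nat_lit 78) (nat_lit 0) (nat_lit 0) (XT.lf (nat_lit 0) (nat_lit 25780544919) (nat_lit 152) (nat_lit 36970738860)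 (nat_lit 0) (nat_lit 16999084354) (nat_lit 3) (nat_lit 5) (nat_lit 5) (nat_lit 4) (nat_lit 3) (nat_lit 4) (nat_lit 398) (nat_lit 216) (nat_lit 166)) (XT.nd (nat_lit 78) (nat_lit 0) (nat_lit 0) (XT.lf (nat_lit 0) (nat_lit 28542195553) (nat_lit 152) (nat_lit 33844424255) (nat_lit 0) (nat_lit 19685150532) (nat_lit 3) (nat_lit 5) (nat_lit 5) (nat_lit 4) (nat_lit 3) (nat_lit 4) (nat_lit 399) (nat_lit 216) (nat_lit 165)) (XT.lf (nat_lit 0) (nat_lit 31365652561) (nat_lit 152) (nat_lit 30662579822) (nat_lit 0) (nat_lit 22435224572) (nat_lit 3) (nat_lit 5) (nat_lit 5) (nat_lit 4) (nat_lit 3) (nat_lit 4) (nat_lit 400) (nat_lit 216) (nat_lit 164)))))) (XT.nd (nat_lit 36504) (nat_lit 0) (nat_lit 684) (XT.nd (nat_lit 234) (nat_lit 0) (nat_lit 0) (XT.nd (nat_lit 78) (nat_lit 0) (nat_lit 0) (XT.lf (nat_lit 0) (nat_lit 34253383040) (nat_lit 152) (nat_lit 27422425308) (nat_lit 0) (nat_lit 25251709453) (nat_lit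 3) (nat_lit 5) (nat_lit 5) (nat_lit 4) (nat_lit 3) (nat_lit 4) (nat_lit 401) (nat_lit 216) (nat_lit 163)) (XT.nd (nat_lit 78) (nat_lit 0) (nat_lit 0) (XT.lf (nat_lit 0) (nat_lit 37207910251) (nat_lit 152) (nat_lit 24121129511) (nat_lit 0) (nat_lit 28137066179) (nat_lit 3) (nat_lit 5) (nat_lit 5) (nat_lit 4) (nat_lit 3) (nat_lit 4) (nat_lit 402) (nat_lit 216) (nat_lit 162)) (XT.lf (nat_lit 0) (nat_lit 40231815819) (nat_lit 152) (nat_lit 20755807802) (nat_lit 0) (nat_lit 31093815937) (nat_lit 3) (nat_lit 5) (nat_lit 5) (nat_lit 4) (nat_lit 3) (nat_lit 4) (nat_lit 403) (nat_lit 216) (nat_lit 161)))) (XT.nd (nat_lit 36114) (nat_lit 0) (nat_lit 988) (XT.lf (nat_lit 0) (nat_lit 43327741992) (nat_lit 152) (nat_lit 17323519611) (nat_lit 0) (nat_lit 34124542293) (nat_lit 3) (nat_lit 5) (nat_lit 5) (nat_lit 4) (nat_lit 3) (nat_lit 4) (nat_lit 404) (nat_lit 216) (nat_lit 160)) (XT.nd (nat_lit 78) (nat_lit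 0) (nat_lit 0) (XT.lf (nat_lit 0) (nat_lit 1469113726) (nat_lit 152) (nat_lit 6945981802) (nat_lit 0) (nat_lit 1469113726) (nat_lit 16) (nat_lit 5) (nat_lit 18) (nat_lit 4) (nat_lit 16) (nat_lit 4) (nat_lit 346) (nat_lit 217) (nat_lit 217)) (XT.lf (nat_lit 0) (nat_lit 6618706898) (nat_lit 152) (nat_lit 7385643480) (nat_lit 0) (nat_lit 6234575461) (nat_lit 16) (nat_lit 5) (nat_lit 18) (nat_lit 4) (nat_lit 16) (nat_lit 4) (nat_lit 347) (nat_lit 217) (nat_lit 216))))) (XT.nd (nat_lit 234) (nat_lit 152) (nat_lit 0) (XT.nd (nat_lit 78) (nat_lit 152) (nat_lit 0) (XT.lf (nat_lit 0) (nat_lit 10332543657) (nat_lit 152) (nat_lit 817903506) (nat_lit 0) (nat_lit 9575469077) (nat_lit 16) (nat_lit 5) (nat_lit 18) (nat_lit 4) (nat_lit 16) (nat_lit 4) (nat_lit 348) (nat_lit 217) (nat_lit 215)) (XT.nd (nat_lit 78) (nat_lit 0) (nat_lit 0) (XT.lf (nat_lit 0) (nat_lit 5932764726) (nat_lit 152) (nat_lit 8207247469)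 (nat_lit 152) (nat_lit 7088092167) (nat_lit 14) (nat_lit 4) (nat_lit 16) (nat_lit 5) (nat_lit 16) (nat_lit 4) (nat_lit 349) (nat_lit 217) (nat_lit 214)) (XT.lf (nat_lit 0) (nat_lit 12774118947) (nat_lit 152) (nat_lit 5221975201) (nat_lit 152) (nat_lit 3751285218) (nat_lit 14) (nat_lit 4) (nat_lit 16) (nat_lit 5) (nat_lit 16) (nat_lit 4) (nat_lit 350) (nat_lit 217) (nat_lit 213)))) (XT.nd (nat_lit 78) (nat_lit 152) (nat_lit 0) (XT.lf (nat_lit 0) (nat_lit 19695859157) (nat_lit 152) (nat_lit 2200281091) (nat_lit 152) (nat_lit 388295301) (nat_lit 14) (nat_lit 4) (nat_lit 16) (nat_lit 5) (nat_lit 16) (nat_lit 4) (nat_lit 351) (nat_lit 217) (nat_lit 212)) (XT.nd (nat_lit 78) (nat_lit 0) (nat_lit 0) (XT.lf (nat_lit 0) (nat_lit 2991732569) (nat_lit 152) (nat_lit 18934928391) (nat_lit 0) (nat_lit 910819034) (nat_lit 12) (nat_lit 5) (nat_lit 14) (nat_lit 4) (nat_lit 12) (nat_lit 4) (nat_lit 352) (nat_lit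 217) (nat_lit 211)) (XT.lf (nat_lit 0) (nat_lit 6443554808) (nat_lit 152) (nat_lit 12913839451) (nat_lit 0) (nat_lit 4050307261) (nat_lit 12) (nat_lit 5) (nat_lit 14) (nat_lit 4) (nat_lit 12) (nat_lit 4) (nat_lit 353) (nat_lit 217) (nat_lit 210))))))))
noncomputable def xc18 : XT := (XT.nd (nat_lit 1794) (nat_lit 228) (nat_lit 0) (XT.nd (nat_lit 858) (nat_lit 228) (nat_lit 0) (XT.nd (nat_lit 390) (nat_lit 152) (nat_lit 0) (XT.nd (nat_lit 156) (nat_lit 76) (nat_lit 0) (XT.nd (nat_lit 78) (nat_lit 0) (nat_lit 0) (XT.lf (nat_lit 0) (nat_lit 9930984691) (nat_lit 152) (nat_lit 6831628819) (nat_lit 0) (nat_lit 7234500240) (nat_lit 12) (nat_lit 5) (nat_lit 14) (nat_lit 4) (nat_lit 12) (nat_lit 4) (nat_lit 354) (nat_lit 217) (nat_lit 209)) (XT.lf (nat_lit 0) (nat_lit 13457069488) (nat_lit 152) (nat_lit 682981942) (nat_lit 0) (nat_lit 10466180277) (nat_lit 12) (nat_lit 5) (nat_lit 14) (nat_lit 4) (nat_lit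 12) (nat_lit 4) (nat_lit 355) (nat_lit 217) (nat_lit 208))) (XT.nd (nat_lit 78) (nat_lit 0) (nat_lit 0) (XT.lf (nat_lit 0) (nat_lit 5647680368) (nat_lit 76) (nat_lit 11431498835) (nat_lit 76) (nat_lit 8154779758) (nat_lit 11) (nat_lit 4) (nat_lit 12) (nat_lit 5) (nat_lit 12) (nat_lit 4) (nat_lit 356) (nat_lit 217) (nat_lit 207)) (XT.nd (nat_lit 78) (nat_lit 0) (nat_lit 0) (XT.lf (nat_lit 0) (nat_lit 12070716868) (nat_lit 76) (nat_lit 8682878719) (nat_lit 76) (nat_lit 5128654919) (nat_lit 11) (nat_lit 4) (nat_lit 12) (nat_lit 5) (nat_lit 12) (nat_lit 4) (nat_lit 357) (nat_lit 217) (nat_lit 206)) (XT.lf (nat_lit 0) (nat_lit 18578147239) (nat_lit 76) (nat_lit 5898686154) (nat_lit 76) (nat_lit 2075040293) (nat_lit 11) (nat_lit 4) (nat_lit 12) (nat_lit 5) (nat_lit 12) (nat_lit 4) (nat_lit 358) (nat_lit 217) (nat_lit 205))))) (XT.nd (nat_lit 234) (nat_lit 0) (nat_lit 0) (XT.nd (nat_lit 78) (nat_lit 76)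 (nat_lit 0) (XT.lf (nat_lit 0) (nat_lit 989048324) (nat_lit 152) (nat_lit 2077452579) (nat_lit 76) (nat_lit 24176621813) (nat_lit 10) (nat_lit 5) (nat_lit 12) (nat_lit 5) (nat_lit 11) (nat_lit 4) (nat_lit 359) (nat_lit 217) (nat_lit 204)) (XT.nd (nat_lit 78) (nat_lit 0) (nat_lit 0) (XT.lf (nat_lit 0) (nat_lit 3948940778) (nat_lit 76) (nat_lit 133875768) (nat_lit 152) (nat_lit 23872329543) (nat_lit 9) (nat_lit 5) (nat_lit 10) (nat_lit 5) (nat_lit 11) (nat_lit 4) (nat_lit 360) (nat_lit 217) (nat_lit 203)) (XT.lf (nat_lit 0) (nat_lit 7260129287) (nat_lit 152) (nat_lit 18620756713) (nat_lit 0) (nat_lit 2807958254) (nat_lit 9) (nat_lit 5) (nat_lit 11) (nat_lit 4) (nat_lit 9) (nat_lit 4) (nat_lit 361) (nat_lit 217) (nat_lit 202)))) (XT.nd (nat_lit 78) (nat_lit 0) (nat_lit 0) (XT.lf (nat_lit 0) (nat_lit 10477578731) (nat_lit 152) (nat_lit 13175663239) (nat_lit 0) (nat_lit 5793001861) (nat_lit 9) (nat_lit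 5) (nat_lit 11) (nat_lit 4) (nat_lit 9) (nat_lit 4) (nat_lit 362) (nat_lit 217) (nat_lit 201)) (XT.nd (nat_lit 78) (nat_lit 0) (nat_lit 0) (XT.lf (nat_lit 0) (nat_lit 13736689346) (nat_lit 152) (nat_lit 7664880145) (nat_lit 0) (nat_lit 8826475741) (nat_lit 9) (nat_lit 5) (nat_lit 11) (nat_lit 4) (nat_lit 9) (nat_lit 4) (nat_lit 363) (nat_lit 217) (nat_lit 200)) (XT.lf (nat_lit 0) (nat_lit 17040308899) (nat_lit 152) (nat_lit 2083592184) (nat_lit 0) (nat_lit 11911030503) (nat_lit 9) (nat_lit 5) (nat_lit 11) (nat_lit 4) (nat_lit 9) (nat_lit 4) (nat_lit 364) (nat_lit 217) (nat_lit 199)))))) (XT.nd (nat_lit 468) (nat_lit 76) (nat_lit 0) (XT.nd (nat_lit 234) (nat_lit 76) (nat_lit 0) (XT.nd (nat_lit 78) (nat_lit 0) (nat_lit 0) (XT.lf (nat_lit 0) (nat_lit 3644188745) (nat_lit 76) (nat_lit 16782165472) (nat_lit 76) (nat_lit 11440202813) (nat_lit 8) (nat_lit 4) (nat_lit 9) (nat_lit 5) (nat_lit 9) (nat_lit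 4) (nat_lit 365) (nat_lit 217) (nat_lit 198)) (XT.nd (nat_lit 78) (nat_lit 0) (nat_lit 0) (XT.lf (nat_lit 0) (nat_lit 9495360301) (nat_lit 76) (nat_lit 14388577771) (nat_lit 76) (nat_lit 8840125536) (nat_lit 8) (nat_lit 4) (nat_lit 9) (nat_lit 5) (nat_lit 9) (nat_lit 4) (nat_lit 366) (nat_lit 217) (nat_lit 197)) (XT.lf (nat_lit 0) (nat_lit 15433567587) (nat_lit 76) (nat_lit 11962086692) (nat_lit 76) (nat_lit 6213159140) (nat_lit 8) (nat_lit 4) (nat_lit 9) (nat_lit 5) (nat_lit 9) (nat_lit 4) (nat_lit 367) (nat_lit 217) (nat_lit 196)))) (XT.nd (nat_lit 78) (nat_lit 76) (nat_lit 0) (XT.lf (nat_lit 0) (nat_lit 21463999327) (nat_lit 76) (nat_lit 9500571998) (nat_lit 76) (nat_lit 3557008216) (nat_lit 8) (nat_lit 4) (nat_lit 9) (nat_lit 5) (nat_lit 9) (nat_lit 4) (nat_lit 368) (nat_lit 217) (nat_lit 195)) (XT.nd (nat_lit 78) (nat_lit 76) (nat_lit 0) (XT.lf (nat_lit 0) (nat_lit 27591924832) (nat_lit 76)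 (nat_lit 7001882852) (nat_lit 76) (nat_lit 869351858) (nat_lit 8) (nat_lit 4) (nat_lit 9) (nat_lit 5) (nat_lit 9) (nat_lit 4) (nat_lit 369) (nat_lit 217) (nat_lit 194)) (XT.lf (nat_lit 0) (nat_lit 1816016092) (nat_lit 152) (nat_lit 2629481640) (nat_lit 76) (nat_lit 31988344304) (nat_lit 7) (nat_lit 5) (nat_lit 9) (nat_lit 5) (nat_lit 8) (nat_lit 4) (nat_lit 370) (nat_lit 217) (nat_lit 193))))) (XT.nd (nat_lit 234) (nat_lit 0) (nat_lit 0) (XT.nd (nat_lit 78) (nat_lit 0) (nat_lit 0) (XT.lf (nat_lit 0) (nat_lit 2734738376) (nat_lit 76) (nat_lit 1811494336) (nat_lit 152) (nat_lit 32887727281) (nat_lit 6) (nat_lit 5) (nat_lit 7) (nat_lit 5) (nat_lit 8) (nat_lit 4) (nat_lit 371) (nat_lit 217) (nat_lit 192)) (XT.nd (nat_lit 78) (nat_lit 0) (nat_lit 0) (XT.lf (nat_lit 0) (nat_lit 7349515659) (nat_lit 152) (nat_lit 30238200649) (nat_lit 0) (nat_lit 876655659) (nat_lit 6) (nat_lit 5) (nat_lit 8) (nat_lit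 4) (nat_lit 6) (nat_lit 4) (nat_lit 372) (nat_lit 217) (nat_lit 191)) (XT.lf (nat_lit 0) (nat_lit 10211801878) (nat_lit 152) (nat_lit 25738734719) (nat_lit 0) (nat_lit 3575937100) (nat_lit 6) (nat_lit 5) (nat_lit 8) (nat_lit 4) (nat_lit 6) (nat_lit 4) (nat_lit 373) (nat_lit 217) (nat_lit 190)))) (XT.nd (nat_lit 78) (nat_lit 0) (nat_lit 0) (XT.lf (nat_lit 0) (nat_lit 13118179205) (nat_lit 152) (nat_lit 21179479061) (nat_lit 0) (nat_lit 6324057361) (nat_lit 6) (nat_lit 5) (nat_lit 8) (nat_lit 4) (nat_lit 6) (nat_lit 4) (nat_lit 374) (nat_lit 217) (nat_lit 189)) (XT.nd (nat_lit 78) (nat_lit 0) (nat_lit 0) (XT.lf (nat_lit 0) (nat_lit 16071187192) (nat_lit 152) (nat_lit 16556449861) (nat_lit 0) (nat_lit 9123417711) (nat_lit 6) (nat_lit 5) (nat_lit 8) (nat_lit 4) (nat_lit 6) (nat_lit 4) (nat_lit 375) (nat_lit 217) (nat_lit 188)) (XT.lf (nat_lit 0) (nat_lit 19073406138) (nat_lit 152) (nat_lit 11865607579)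 (nat_lit 0) (nat_lit 11976464194) (nat_lit 6) (nat_lit 5) (nat_lit 8) (nat_lit 4) (nat_lit 6) (nat_lit 4) (nat_lit 376) (nat_lit 217) (nat_lit 187))))))) (XT.nd (nat_lit 936) (nat_lit 76) (nat_lit 0) (XT.nd (nat_lit 468) (nat_lit 76) (nat_lit 0) (XT.nd (nat_lit 234) (nat_lit 0) (nat_lit 0) (XT.nd (nat_lit 78) (nat_lit 76) (nat_lit 0) (XT.lf (nat_lit 0) (nat_lit 22127459341) (nat_lit 152) (nat_lit 7102853419) (nat_lit 0) (nat_lit 14885689763) (nat_lit 6) (nat_lit 5) (nat_lit 8) (nat_lit 4) (nat_lit 6) (nat_lit 4) (nat_lit 377) (nat_lit 217) (nat_lit 186)) (XT.nd (nat_lit 78) (nat_lit 76) (nat_lit 0) (XT.lf (nat_lit 0) (nat_lit 25236015391) (nat_lit 152) (nat_lit 2264025753) (nat_lit 0) (nat_lit 17853636459) (nat_lit 6) (nat_lit 5) (nat_lit 8) (nat_lit 4) (nat_lit 6) (nat_lit 4) (nat_lit 378) (nat_lit 217) (nat_lit 185)) (XT.lf (nat_lit 0) (nat_lit 2707945286) (nat_lit 76) (nat_lit 25719875642) (nat_lit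 76) (nat_lit 18200982775) (nat_lit 5) (nat_lit 4) (nat_lit 6) (nat_lit 5) (nat_lit 6) (nat_lit 4) (nat_lit 379) (nat_lit 217) (nat_lit 184)))) (XT.nd (nat_lit 78) (nat_lit 0) (nat_lit 0) (XT.lf (nat_lit 0) (nat_lit 7811258458) (nat_lit 76) (nat_lit 23891379021) (nat_lit 76) (nat_lit 16239948353) (nat_lit 5) (nat_lit 4) (nat_lit 6) (nat_lit 5) (nat_lit 6) (nat_lit 4) (nat_lit 380) (nat_lit 217) (nat_lit 183)) (XT.nd (nat_lit 78) (nat_lit 0) (nat_lit 0) (XT.lf (nat_lit 0) (nat_lit 13005314417) (nat_lit 76) (nat_lit 22035815788) (nat_lit 76) (nat_lit 14255707642) (nat_lit 5) (nat_lit 4) (nat_lit 6) (nat_lit 5) (nat_lit 6) (nat_lit 4) (nat_lit 381) (nat_lit 217) (nat_lit 182)) (XT.lf (nat_lit 0) (nat_lit 18294651656) (nat_lit 76) (nat_lit 20151564575) (nat_lit 76) (nat_lit 12246526840) (nat_lit 5) (nat_lit 4) (nat_lit 6) (nat_lit 5) (nat_lit 6) (nat_lit 4) (nat_lit 382) (nat_lit 217) (nat_lit 181)))))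 (XT.nd (nat_lit 234) (nat_lit 76) (nat_lit 0) (XT.nd (nat_lit 78) (nat_lit 0) (nat_lit 0) (XT.lf (nat_lit 0) (nat_lit 23683891928) (nat_lit 76) (nat_lit 18236978951) (nat_lit 76) (nat_lit 10210650352) (nat_lit 5) (nat_lit 4) (nat_lit 6) (nat_lit 5) (nat_lit 6) (nat_lit 4) (nat_lit 383) (nat_lit 217) (nat_lit 180)) (XT.nd (nat_lit 78) (nat_lit 0) (nat_lit 0) (XT.lf (nat_lit 0) (nat_lit 29177744277) (nat_lit 76) (nat_lit 16290385976) (nat_lit 76) (nat_lit 8146299258) (nat_lit 5) (nat_lit 4) (nat_lit 6) (nat_lit 5) (nat_lit 6) (nat_lit 4) (nat_lit 384) (nat_lit 217) (nat_lit 179)) (XT.lf (nat_lit 0) (nat_lit 34781009157) (nat_lit 76) (nat_lit 14310084744) (nat_lit 76) (nat_lit 6051669754) (nat_lit 5) (nat_lit 4) (nat_lit 6) (nat_lit 5) (nat_lit 6) (nat_lit 4) (nat_lit 385) (nat_lit 217) (nat_lit 178)))) (XT.nd (nat_lit 78) (nat_lit 76) (nat_lit 0) (XT.lf (nat_lit 0) (nat_lit 40498582625) (nat_lit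 76) (nat_lit 12294344894) (nat_lit 76) (nat_lit 3924931582) (nat_lit 5) (nat_lit 4) (nat_lit 6) (nat_lit 5) (nat_lit 6) (nat_lit 4) (nat_lit 386) (nat_lit 217) (nat_lit 177)) (XT.nd (nat_lit 78) (nat_lit 76) (nat_lit 0) (XT.lf (nat_lit 0) (nat_lit 46335460617) (nat_lit 76) (nat_lit 10241405101) (nat_lit 76) (nat_lit 1764226427) (nat_lit 5) (nat_lit 4) (nat_lit 6) (nat_lit 5) (nat_lit 6) (nat_lit 4) (nat_lit 387) (nat_lit 217) (nat_lit 176)) (XT.lf (nat_lit 0) (nat_lit 423897316) (nat_lit 152) (nat_lit 7721293685) (nat_lit 76) (nat_lit 51868565472) (nat_lit 4) (nat_lit 5) (nat_lit 6) (nat_lit 5) (nat_lit 5) (nat_lit 4) (nat_lit 388) (nat_lit 217) (nat_lit 175)))))) (XT.nd (nat_lit 468) (nat_lit 0) (nat_lit 0) (XT.nd (nat_lit 234) (nat_lit 0) (nat_lit 0) (XT.nd (nat_lit 78) (nat_lit 76) (nat_lit 0) (XT.lf (nat_lit 0) (nat_lit 2614631837) (nat_lit 152) (nat_lit 3375681795) (nat_lit 76) (nat_lit 55746605128)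 (nat_lit 4) (nat_lit 5) (nat_lit 6) (nat_lit 5) (nat_lit 5) (nat_lit 4) (nat_lit 389) (nat_lit 217) (nat_lit 174)) (XT.nd (nat_lit 78) (nat_lit 0) (nat_lit 0) (XT.lf (nat_lit 0) (nat_lit 1072896169) (nat_lit 76) (nat_lit 3781734947) (nat_lit 152) (nat_lit 58657652934) (nat_lit 3) (nat_lit 5) (nat_lit 4) (nat_lit 5) (nat_lit 5) (nat_lit 4) (nat_lit 390) (nat_lit 217) (nat_lit 173)) (XT.lf (nat_lit 0) (nat_lit 5676265195) (nat_lit 76) (nat_lit 1493201957) (nat_lit 152) (nat_lit 58171228035) (nat_lit 3) (nat_lit 5) (nat_lit 4) (nat_lit 5) (nat_lit 5) (nat_lit 4) (nat_lit 391) (nat_lit 217) (nat_lit 172)))) (XT.nd (nat_lit 78) (nat_lit 0) (nat_lit 0) (XT.lf (nat_lit 0) (nat_lit 9536173027) (nat_lit 152) (nat_lit 56861583034) (nat_lit 0) (nat_lit 826743442) (nat_lit 3) (nat_lit 5) (nat_lit 5) (nat_lit 4) (nat_lit 3) (nat_lit 4) (nat_lit 392) (nat_lit 217) (nat_lit 171)) (XT.nd (nat_lit 78) (nat_lit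 0) (nat_lit 0) (XT.lf (nat_lit 0) (nat_lit 11963537639) (nat_lit 152) (nat_lit 54035118820) (nat_lit 0) (nat_lit 3166484954) (nat_lit 3) (nat_lit 5) (nat_lit 5) (nat_lit 4) (nat_lit 3) (nat_lit 4) (nat_lit 393) (nat_lit 217) (nat_lit 170)) (XT.lf (nat_lit 0) (nat_lit 14439328416) (nat_lit 152) (nat_lit 51168214053) (nat_lit 0) (nat_lit 5557204759) (nat_lit 3) (nat_lit 5) (nat_lit 5) (nat_lit 4) (nat_lit 3) (nat_lit 4) (nat_lit 394) (nat_lit 217) (nat_lit 169))))) (XT.nd (nat_lit 234) (nat_lit 0) (nat_lit 0) (XT.nd (nat_lit 78) (nat_lit 0) (nat_lit 0) (XT.lf (nat_lit 0) (nat_lit 16965708671) (nat_lit 152) (nat_lit 48258363672) (nat_lit 0) (nat_lit 8000991838) (nat_lit 3) (nat_lit 5) (nat_lit 5) (nat_lit 4) (nat_lit 3) (nat_lit 4) (nat_lit 395) (nat_lit 217) (nat_lit 168)) (XT.nd (nat_lit 78) (nat_lit 0) (nat_lit 0) (XT.lf (nat_lit 0) (nat_lit 19544885920) (nat_lit 152) (nat_lit 45303025087) (nat_lit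 0) (nat_lit 10499981537) (nat_lit 3) (nat_lit 5) (nat_lit 5) (nat_lit 4) (nat_lit 3) (nat_lit 4) (nat_lit 396) (nat_lit 217) (nat_lit 167)) (XT.lf (nat_lit 0) (nat_lit 22179113813) (nat_lit 152) (nat_lit 42299615966) (nat_lit 0) (nat_lit 13056357440) (nat_lit 3) (nat_lit 5) (nat_lit 5) (nat_lit 4) (nat_lit 3) (nat_lit 4) (nat_lit 397) (nat_lit 217) (nat_lit 166)))) (XT.nd (nat_lit 78) (nat_lit 0) (nat_lit 0) (XT.lf (nat_lit 0) (nat_lit 24870694102) (nat_lit 152) (nat_lit 39245511969) (nat_lit 0) (nat_lit 15672353274) (nat_lit 3) (nat_lit 5) (nat_lit 5) (nat_lit 4) (nat_lit 3) (nat_lit 4) (nat_lit 398) (nat_lit 217) (nat_lit 165)) (XT.nd (nat_lit 78) (nat_lit 0) (nat_lit 0) (XT.lf (nat_lit 0) (nat_lit 27621978655) (nat_lit 152) (nat_lit 36138044463) (nat_lit 0) (nat_lit 18350254860) (nat_lit 3) (nat_lit 5) (nat_lit 5) (nat_lit 4) (nat_lit 3) (nat_lit 4) (nat_lit 399) (nat_lit 217) (nat_lit 164))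 (XT.lf (nat_lit 0) (nat_lit 30435371506) (nat_lit 152) (nat_lit 32974498183) (nat_lit 0) (nat_lit 21092402111) (nat_lit 3) (nat_lit 5) (nat_lit 5) (nat_lit 4) (nat_lit 3) (nat_lit 4) (nat_lit 400) (nat_lit 217) (nat_lit 163))))))))
noncomputable def xc19 : XT := (XT.nd (nat_lit 37674) (nat_lit 0) (nat_lit 152) (XT.nd (nat_lit 36738) (nat_lit 0) (nat_lit 456) (XT.nd (nat_lit 36270) (nat_lit 0) (nat_lit 836) (XT.nd (nat_lit 156) (nat_lit 0) (nat_lit 0) (XT.nd (nat_lit 78) (nat_lit 0) (nat_lit 0) (XT.lf (nat_lit 0) (nat_lit 33313330959) (nat_lit 152) (nat_lit 29752108868) (nat_lit 0) (nat_lit 23901191080) (nat_lit 3) (nat_lit 5) (nat_lit 5) (nat_lit 4) (nat_lit 3) (nat_lit 4) (nat_lit 401) (nat_lit 217) (nat_lit 162)) (XT.lf (nat_lit 0) (nat_lit 36258371737) (nat_lit 152) (nat_lit 26468060836) (nat_lit 0) (nat_lit 26779076047) (nat_lit 3) (nat_lit 5) (nat_lit 5) (nat_lit 4) (nat_lit 3) (nat_lit 4)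 (nat_lit 402) (nat_lit 217) (nat_lit 161))) (XT.nd (nat_lit 78) (nat_lit 0) (nat_lit 0) (XT.lf (nat_lit 0) (nat_lit 39273067176) (nat_lit 152) (nat_lit 23119484530) (nat_lit 0) (nat_lit 29728571670) (nat_lit 3) (nat_lit 5) (nat_lit 5) (nat_lit 4) (nat_lit 3) (nat_lit 4) (nat_lit 403) (nat_lit 217) (nat_lit 160)) (XT.nd (nat_lit 35958) (nat_lit 0) (nat_lit 1140) (XT.lf (nat_lit 0) (nat_lit 42360051475) (nat_lit 152) (nat_lit 19703454012) (nat_lit 0) (nat_lit 32752255178) (nat_lit 3) (nat_lit 5) (nat_lit 5) (nat_lit 4) (nat_lit 3) (nat_lit 4) (nat_lit 404) (nat_lit 217) (nat_lit 159)) (XT.lf (nat_lit 0) (nat_lit 5573392481) (nat_lit 152) (nat_lit 1930669820) (nat_lit 152) (nat_lit 1930669820) (nat_lit 18) (nat_lit 4) (nat_lit 20) (nat_lit 5) (nat_lit 20) (nat_lit 4) (nat_lit 344) (nat_lit 218) (nat_lit 218))))) (XT.nd (nat_lit 234) (nat_lit 152) (nat_lit 0) (XT.nd (nat_lit 78) (nat_lit 152) (nat_lit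 0) (XT.lf (nat_lit 0) (nat_lit 18294905008) (nat_lit 152) (nat_lit 713003470) (nat_lit 152) (nat_lit 305478428) (nat_lit 18) (nat_lit 4) (nat_lit 20) (nat_lit 5) (nat_lit 20) (nat_lit 4) (nat_lit 345) (nat_lit 218) (nat_lit 217)) (XT.nd (nat_lit 78) (nat_lit 0) (nat_lit 0) (XT.lf (nat_lit 0) (nat_lit 3294784912) (nat_lit 152) (nat_lit 13959836928) (nat_lit 0) (nat_lit 2514998094) (nat_lit 16) (nat_lit 5) (nat_lit 18) (nat_lit 4) (nat_lit 16) (nat_lit 4) (nat_lit 346) (nat_lit 218) (nat_lit 216)) (XT.lf (nat_lit 0) (nat_lit 6937305210) (nat_lit 152) (nat_lit 7519413235) (nat_lit 0) (nat_lit 5784575249) (nat_lit 16) (nat_lit 5) (nat_lit 18) (nat_lit 4) (nat_lit 16) (nat_lit 4) (nat_lit 347) (nat_lit 218) (nat_lit 215)))) (XT.nd (nat_lit 78) (nat_lit 152) (nat_lit 0) (XT.lf (nat_lit 0) (nat_lit 10614288428) (nat_lit 152) (nat_lit 1015650379) (nat_lit 0) (nat_lit 9099477746) (nat_lit 16) (nat_lit 5)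 (nat_lit 18) (nat_lit 4) (nat_lit 16) (nat_lit 4) (nat_lit 348) (nat_lit 218) (nat_lit 214)) (XT.nd (nat_lit 78) (nat_lit 0) (nat_lit 0) (XT.lf (nat_lit 0) (nat_lit 5667732412) (nat_lit 152) (nat_lit 8715696764) (nat_lit 152) (nat_lit 6849351401) (nat_lit 14) (nat_lit 4) (nat_lit 16) (nat_lit 5) (nat_lit 16) (nat_lit 4) (nat_lit 349) (nat_lit 218) (nat_lit 213)) (XT.lf (nat_lit 0) (nat_lit 12447581886) (nat_lit 152) (nat_lit 5756600026) (nat_lit 152) (nat_lit 3548958856) (nat_lit 14) (nat_lit 4) (nat_lit 16) (nat_lit 5) (nat_lit 16) (nat_lit 4) (nat_lit 350) (nat_lit 218) (nat_lit 212)))))) (XT.nd (nat_lit 468) (nat_lit 152) (nat_lit 0) (XT.nd (nat_lit 234) (nat_lit 76) (nat_lit 0) (XT.nd (nat_lit 78) (nat_lit 152) (nat_lit 0) (XT.lf (nat_lit 0) (nat_lit 19309608747) (nat_lit 152) (nat_lit 2760319051) (nat_lit 152) (nat_lit 221322729) (nat_lit 14) (nat_lit 4) (nat_lit 16) (nat_lit 5) (nat_lit 16)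 (nat_lit 4) (nat_lit 351) (nat_lit 218) (nat_lit 211)) (XT.nd (nat_lit 78) (nat_lit 0) (nat_lit 0) (XT.lf (nat_lit 0) (nat_lit 3111696158) (nat_lit 152) (nat_lit 19399569173) (nat_lit 0) (nat_lit 334317174) (nat_lit 12) (nat_lit 5) (nat_lit 14) (nat_lit 4) (nat_lit 12) (nat_lit 4) (nat_lit 352) (nat_lit 218) (nat_lit 210)) (XT.lf (nat_lit 0) (nat_lit 6530046957) (nat_lit 152) (nat_lit 13437352635) (nat_lit 0) (nat_lit 3449431069) (nat_lit 12) (nat_lit 5) (nat_lit 14) (nat_lit 4) (nat_lit 12) (nat_lit 4) (nat_lit 353) (nat_lit 218) (nat_lit 209)))) (XT.nd (nat_lit 78) (nat_lit 76) (nat_lit 0) (XT.lf (nat_lit 0) (nat_lit 9984980297) (nat_lit 152) (nat_lit 7412299676) (nat_lit 0) (nat_lit 6609959648) (nat_lit 12) (nat_lit 5) (nat_lit 14) (nat_lit 4) (nat_lit 12) (nat_lit 4) (nat_lit 354) (nat_lit 218) (nat_lit 208)) (XT.nd (nat_lit 78) (nat_lit 76) (nat_lit 0) (XT.lf (nat_lit 0) (nat_lit 13479515052)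 (nat_lit 152) (nat_lit 1319145685) (nat_lit 0) (nat_lit 9818664538) (nat_lit 12) (nat_lit 5) (nat_lit 14) (nat_lit 4) (nat_lit 12) (nat_lit 4) (nat_lit 355) (nat_lit 218) (nat_lit 207)) (XT.lf (nat_lit 0) (nat_lit 4943906881) (nat_lit 76) (nat_lit 12120321675) (nat_lit 76) (nat_lit 8181966438) (nat_lit 11) (nat_lit 4) (nat_lit 12) (nat_lit 5) (nat_lit 12) (nat_lit 4) (nat_lit 356) (nat_lit 218) (nat_lit 206))))) (XT.nd (nat_lit 234) (nat_lit 76) (nat_lit 0) (XT.nd (nat_lit 78) (nat_lit 76) (nat_lit 0) (XT.lf (nat_lit 0) (nat_lit 11313594995) (nat_lit 76) (nat_lit 9394798187) (nat_lit 76) (nat_lit 5187020888) (nat_lit 11) (nat_lit 4) (nat_lit 12) (nat_lit 5) (nat_lit 12) (nat_lit 4) (nat_lit 357) (nat_lit 218) (nat_lit 205)) (XT.nd (nat_lit 78) (nat_lit 76) (nat_lit 0) (XT.lf (nat_lit 0) (nat_lit 17769230817) (nat_lit 76) (nat_lit 6633029534) (nat_lit 76) (nat_lit 2163677418) (nat_lit 11) (nat_lit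 4) (nat_lit 12) (nat_lit 5) (nat_lit 12) (nat_lit 4) (nat_lit 358) (nat_lit 218) (nat_lit 204)) (XT.lf (nat_lit 0) (nat_lit 873324851) (nat_lit 152) (nat_lit 2950458799) (nat_lit 76) (nat_lit 23434311473) (nat_lit 10) (nat_lit 5) (nat_lit 12) (nat_lit 5) (nat_lit 11) (nat_lit 4) (nat_lit 359) (nat_lit 218) (nat_lit 203)))) (XT.nd (nat_lit 78) (nat_lit 0) (nat_lit 0) (XT.lf (nat_lit 0) (nat_lit 3008181075) (nat_lit 76) (nat_lit 921892164) (nat_lit 152) (nat_lit 24041173605) (nat_lit 9) (nat_lit 5) (nat_lit 10) (nat_lit 5) (nat_lit 11) (nat_lit 4) (nat_lit 360) (nat_lit 218) (nat_lit 202)) (XT.nd (nat_lit 78) (nat_lit 0) (nat_lit 0) (XT.lf (nat_lit 0) (nat_lit 7071974542) (nat_lit 152) (nat_lit 19619595516) (nat_lit 0) (nat_lit 2014454529) (nat_lit 9) (nat_lit 5) (nat_lit 11) (nat_lit 4) (nat_lit 9) (nat_lit 4) (nat_lit 361) (nat_lit 218) (nat_lit 201)) (XT.lf (nat_lit 0) (nat_lit 10262398216) (nat_lit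 152) (nat_lit 14222611985) (nat_lit 0) (nat_lit 4979241468) (nat_lit 9) (nat_lit 5) (nat_lit 11) (nat_lit 4) (nat_lit 9) (nat_lit 4) (nat_lit 362) (nat_lit 218) (nat_lit 200))))))) (XT.nd (nat_lit 936) (nat_lit 76) (nat_lit 0) (XT.nd (nat_lit 468) (nat_lit 152) (nat_lit 0) (XT.nd (nat_lit 234) (nat_lit 0) (nat_lit 0) (XT.nd (nat_lit 78) (nat_lit 76) (nat_lit 0) (XT.lf (nat_lit 0) (nat_lit 13495270220) (nat_lit 152) (nat_lit 8758537574) (nat_lit 0) (nat_lit 7993048681) (nat_lit 9) (nat_lit 5) (nat_lit 11) (nat_lit 4) (nat_lit 9) (nat_lit 4) (nat_lit 363) (nat_lit 218) (nat_lit 199)) (XT.nd (nat_lit 78) (nat_lit 76) (nat_lit 0) (XT.lf (nat_lit 0) (nat_lit 16773415392) (nat_lit 152) (nat_lit 3222597848) (nat_lit 0) (nat_lit 11058509590) (nat_lit 9) (nat_lit 5) (nat_lit 11) (nat_lit 4) (nat_lit 9) (nat_lit 4) (nat_lit 364) (nat_lit 218) (nat_lit 198)) (XT.lf (nat_lit 0) (nat_lit 2437610990) (nat_lit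 76) (nat_lit 17685518950) (nat_lit 76) (nat_lit 11764123572) (nat_lit 8) (nat_lit 4) (nat_lit 9) (nat_lit 5) (nat_lit 9) (nat_lit 4) (nat_lit 365) (nat_lit 218) (nat_lit 197)))) (XT.nd (nat_lit 78) (nat_lit 0) (nat_lit 0) (XT.lf (nat_lit 0) (nat_lit 8245186774) (nat_lit 76) (nat_lit 15311095905) (nat_lit 76) (nat_lit 9189225210) (nat_lit 8) (nat_lit 4) (nat_lit 9) (nat_lit 5) (nat_lit 9) (nat_lit 4) (nat_lit 366) (nat_lit 218) (nat_lit 196)) (XT.nd (nat_lit 78) (nat_lit 0) (nat_lit 0) (XT.lf (nat_lit 0) (nat_lit 14141068067) (nat_lit 76) (nat_lit 12903211288) (nat_lit 76) (nat_lit 6586704363) (nat_lit 8) (nat_lit 4) (nat_lit 9) (nat_lit 5) (nat_lit 9) (nat_lit 4) (nat_lit 367) (nat_lit 218) (nat_lit 195)) (XT.lf (nat_lit 0) (nat_lit 20130406612) (nat_lit 76) (nat_lit 10459761121) (nat_lit 76) (nat_lit 3954286983) (nat_lit 8) (nat_lit 4) (nat_lit 9) (nat_lit 5) (nat_lit 9) (nat_lit 4) (nat_lit 368)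 (nat_lit 218) (nat_lit 194))))) (XT.nd (nat_lit 234) (nat_lit 0) (nat_lit 0) (XT.nd (nat_lit 78) (nat_lit 152) (nat_lit 0) (XT.lf (nat_lit 0) (nat_lit 26218435810) (nat_lit 76) (nat_lit 7978610350) (nat_lit 76) (nat_lit 1289672899) (nat_lit 8) (nat_lit 4) (nat_lit 9) (nat_lit 5) (nat_lit 9) (nat_lit 4) (nat_lit 369) (nat_lit 218) (nat_lit 193)) (XT.nd (nat_lit 78) (nat_lit 76) (nat_lit 0) (XT.lf (nat_lit 0) (nat_lit 1381962430) (nat_lit 152) (nat_lit 4061673440) (nat_lit 76) (nat_lit 31014557757) (nat_lit 7) (nat_lit 5) (nat_lit 9) (nat_lit 5) (nat_lit 8) (nat_lit 4) (nat_lit 370) (nat_lit 218) (nat_lit 192)) (XT.lf (nat_lit 0) (nat_lit 1235243659) (nat_lit 76) (nat_lit 2841225602) (nat_lit 152) (nat_lit 33382926066) (nat_lit 6) (nat_lit 5) (nat_lit 7) (nat_lit 5) (nat_lit 8) (nat_lit 4) (nat_lit 371) (nat_lit 218) (nat_lit 191)))) (XT.nd (nat_lit 78) (nat_lit 0) (nat_lit 0) (XT.lf (nat_lit 0)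 (nat_lit 6697859697) (nat_lit 76) (nat_lit 152260283) (nat_lit 152) (nat_lit 31640588377) (nat_lit 6) (nat_lit 5) (nat_lit 7) (nat_lit 5) (nat_lit 8) (nat_lit 4) (nat_lit 372) (nat_lit 218) (nat_lit 190)) (XT.nd (nat_lit 78) (nat_lit 0) (nat_lit 0) (XT.lf (nat_lit 0) (nat_lit 9690362542) (nat_lit 152) (nat_lit 27328960614) (nat_lit 0) (nat_lit 2534159977) (nat_lit 6) (nat_lit 5) (nat_lit 8) (nat_lit 4) (nat_lit 6) (nat_lit 4) (nat_lit 373) (nat_lit 218) (nat_lit 189)) (XT.lf (nat_lit 0) (nat_lit 12576759248) (nat_lit 152) (nat_lit 22805667581) (nat_lit 0) (nat_lit 5266909046) (nat_lit 6) (nat_lit 5) (nat_lit 8) (nat_lit 4) (nat_lit 6) (nat_lit 4) (nat_lit 374) (nat_lit 218) (nat_lit 188)))))) (XT.nd (nat_lit 468) (nat_lit 0) (nat_lit 0) (XT.nd (nat_lit 234) (nat_lit 76) (nat_lit 0) (XT.nd (nat_lit 78) (nat_lit 0) (nat_lit 0) (XT.lf (nat_lit 0) (nat_lit 15510368575) (nat_lit 152) (nat_lit 18217553550)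 (nat_lit 0) (nat_lit 8051345910) (nat_lit 6) (nat_lit 5) (nat_lit 8) (nat_lit 4) (nat_lit 6) (nat_lit 4) (nat_lit 375) (nat_lit 218) (nat_lit 187)) (XT.nd (nat_lit 78) (nat_lit 0) (nat_lit 0) (XT.lf (nat_lit 0) (nat_lit 18493753870) (nat_lit 152) (nat_lit 13560609490) (nat_lit 0) (nat_lit 10889903571) (nat_lit 6) (nat_lit 5) (nat_lit 8) (nat_lit 4) (nat_lit 6) (nat_lit 4) (nat_lit 376) (nat_lit 218) (nat_lit 186)) (XT.lf (nat_lit 0) (nat_lit 21529521975) (nat_lit 152) (nat_lit 8830766227) (nat_lit 0) (nat_lit 13785062322) (nat_lit 6) (nat_lit 5) (nat_lit 8) (nat_lit 4) (nat_lit 6) (nat_lit 4) (nat_lit 377) (nat_lit 218) (nat_lit 185)))) (XT.nd (nat_lit 78) (nat_lit 76) (nat_lit 0) (XT.lf (nat_lit 0) (nat_lit 24620325502) (nat_lit 152) (nat_lit 4023890887) (nat_lit 0) (nat_lit 16739351914) (nat_lit 6) (nat_lit 5) (nat_lit 8) (nat_lit 4) (nat_lit 6) (nat_lit 4) (nat_lit 378) (nat_lit 218) (nat_lit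 184)) (XT.nd (nat_lit 78) (nat_lit 0) (nat_lit 0) (XT.lf (nat_lit 0) (nat_lit 881416318) (nat_lit 76) (nat_lit 26895921549) (nat_lit 76) (nat_lit 18882410159) (nat_lit 5) (nat_lit 4) (nat_lit 6) (nat_lit 5) (nat_lit 6) (nat_lit 4) (nat_lit 379) (nat_lit 218) (nat_lit 183)) (XT.lf (nat_lit 0) (nat_lit 5954011949) (nat_lit 76) (nat_lit 25081113739) (nat_lit 76) (nat_lit 16938924872) (nat_lit 5) (nat_lit 4) (nat_lit 6) (nat_lit 5) (nat_lit 6) (nat_lit 4) (nat_lit 380) (nat_lit 218) (nat_lit 182))))) (XT.nd (nat_lit 234) (nat_lit 0) (nat_lit 0) (XT.nd (nat_lit 78) (nat_lit 0) (nat_lit 0) (XT.lf (nat_lit 0) (nat_lit 11118245051) (nat_lit 76) (nat_lit 23238840613) (nat_lit 76) (nat_lit 14971722156) (nat_lit 5) (nat_lit 4) (nat_lit 6) (nat_lit 5) (nat_lit 6) (nat_lit 4) (nat_lit 381) (nat_lit 218) (nat_lit 181)) (XT.nd (nat_lit 78) (nat_lit 0) (nat_lit 0) (XT.lf (nat_lit 0) (nat_lit 16378628062) (nat_lit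 76) (nat_lit 21367492417) (nat_lit 76) (nat_lit 12979083097) (nat_lit 5) (nat_lit 4) (nat_lit 6) (nat_lit 5) (nat_lit 6) (nat_lit 4) (nat_lit 382) (nat_lit 218) (nat_lit 180)) (XT.lf (nat_lit 0) (nat_lit 21739757432) (nat_lit 76) (nat_lit 19465433994) (nat_lit 76) (nat_lit 10959266554) (nat_lit 5) (nat_lit 4) (nat_lit 6) (nat_lit 5) (nat_lit 6) (nat_lit 4) (nat_lit 383) (nat_lit 218) (nat_lit 179)))) (XT.nd (nat_lit 78) (nat_lit 0) (nat_lit 0) (XT.lf (nat_lit 0) (nat_lit 27206317643) (nat_lit 76) (nat_lit 17531003350) (nat_lit 76) (nat_lit 8910507639) (nat_lit 5) (nat_lit 4) (nat_lit 6) (nat_lit 5) (nat_lit 6) (nat_lit 4) (nat_lit 384) (nat_lit 218) (nat_lit 178)) (XT.nd (nat_lit 78) (nat_lit 0) (nat_lit 0) (XT.lf (nat_lit 0) (nat_lit 32783085302) (nat_lit 76) (nat_lit 15562510206) (nat_lit 76) (nat_lit 6831016173) (nat_lit 5) (nat_lit 4) (nat_lit 6) (nat_lit 5) (nat_lit 6) (nat_lit 4) (nat_lit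 385) (nat_lit 218) (nat_lit 177)) (XT.lf (nat_lit 0) (nat_lit 38474933312) (nat_lit 76) (nat_lit 13558234520) (nat_lit 76) (nat_lit 4718975125) (nat_lit 5) (nat_lit 4) (nat_lit 6) (nat_lit 5) (nat_lit 6) (nat_lit 4) (nat_lit 386) (nat_lit 218) (nat_lit 176))))))))
noncomputable def xc20 : XT := (XT.nd (nat_lit 37518) (nat_lit 0) (nat_lit 304) (XT.nd (nat_lit 858) (nat_lit 0) (nat_lit 0) (XT.nd (nat_lit 390) (nat_lit 0) (nat_lit 0) (XT.nd (nat_lit 156) (nat_lit 152) (nat_lit 0) (XT.nd (nat_lit 78) (nat_lit 0) (nat_lit 0) (XT.lf (nat_lit 0) (nat_lit 44286835133) (nat_lit 76) (nat_lit 11516424983) (nat_lit 76) (nat_lit 2572539024) (nat_lit 5) (nat_lit 4) (nat_lit 6) (nat_lit 5) (nat_lit 6) (nat_lit 4) (nat_lit 387) (nat_lit 218) (nat_lit 175)) (XT.lf (nat_lit 0) (nat_lit 50223869124) (nat_lit 76) (nat_lit 9435297489) (nat_lit 76) (nat_lit 389832341) (nat_lit 5) (nat_lit 4) (nat_lit 6) (nat_lit 5)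 (nat_lit 6) (nat_lit 4) (nat_lit 388) (nat_lit 218) (nat_lit 174))) (XT.nd (nat_lit 78) (nat_lit 76) (nat_lit 0) (XT.lf (nat_lit 0) (nat_lit 1795321719) (nat_lit 152) (nat_lit 5499582628) (nat_lit 76) (nat_lit 54477772039) (nat_lit 4) (nat_lit 5) (nat_lit 6) (nat_lit 5) (nat_lit 5) (nat_lit 4) (nat_lit 389) (nat_lit 218) (nat_lit 173)) (XT.nd (nat_lit 78) (nat_lit 76) (nat_lit 0) (XT.lf (nat_lit 0) (nat_lit 4012204271) (nat_lit 152) (nat_lit 1095059174) (nat_lit 76) (nat_lit 58441478625) (nat_lit 4) (nat_lit 5) (nat_lit 6) (nat_lit 5) (nat_lit 5) (nat_lit 4) (nat_lit 390) (nat_lit 218) (nat_lit 172)) (XT.lf (nat_lit 0) (nat_lit 3463624236) (nat_lit 76) (nat_lit 2840029670) (nat_lit 152) (nat_lit 59074207587) (nat_lit 3) (nat_lit 5) (nat_lit 4) (nat_lit 5) (nat_lit 5) (nat_lit 4) (nat_lit 391) (nat_lit 218) (nat_lit 171))))) (XT.nd (nat_lit 234) (nat_lit 0) (nat_lit 0) (XT.nd (nat_lit 78) (nat_lit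 0) (nat_lit 0) (XT.lf (nat_lit 0) (nat_lit 8136398959) (nat_lit 76) (nat_lit 513573428) (nat_lit 152) (nat_lit 58612311542) (nat_lit 3) (nat_lit 5) (nat_lit 4) (nat_lit 5) (nat_lit 5) (nat_lit 4) (nat_lit 392) (nat_lit 218) (nat_lit 170)) (XT.nd (nat_lit 78) (nat_lit 0) (nat_lit 0) (XT.lf (nat_lit 0) (nat_lit 11060383087) (nat_lit 152) (nat_lit 56316332927) (nat_lit 0) (nat_lit 1826724750) (nat_lit 3) (nat_lit 5) (nat_lit 5) (nat_lit 4) (nat_lit 3) (nat_lit 4) (nat_lit 393) (nat_lit 218) (nat_lit 169)) (XT.lf (nat_lit 0) (nat_lit 13524506748) (nat_lit 152) (nat_lit 53470640736) (nat_lit 0) (nat_lit 4208255235) (nat_lit 3) (nat_lit 5) (nat_lit 5) (nat_lit 4) (nat_lit 3) (nat_lit 4) (nat_lit 394) (nat_lit 218) (nat_lit 168)))) (XT.nd (nat_lit 78) (nat_lit 0) (nat_lit 0) (XT.lf (nat_lit 0) (nat_lit 16039559706) (nat_lit 152) (nat_lit 50581385087) (nat_lit 0) (nat_lit 6643120642) (nat_lit 3) (nat_lit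 5) (nat_lit 5) (nat_lit 4) (nat_lit 3) (nat_lit 4) (nat_lit 395) (nat_lit 218) (nat_lit 167)) (XT.nd (nat_lit 78) (nat_lit 0) (nat_lit 0) (XT.lf (nat_lit 0) (nat_lit 18607739578) (nat_lit 152) (nat_lit 47646041390) (nat_lit 0) (nat_lit 9133448525) (nat_lit 3) (nat_lit 5) (nat_lit 5) (nat_lit 4) (nat_lit 3) (nat_lit 4) (nat_lit 396) (nat_lit 218) (nat_lit 166)) (XT.lf (nat_lit 0) (nat_lit 21231290407) (nat_lit 152) (nat_lit 44662044780) (nat_lit 0) (nat_lit 11681414898) (nat_lit 3) (nat_lit 5) (nat_lit 5) (nat_lit 4) (nat_lit 3) (nat_lit 4) (nat_lit 397) (nat_lit 218) (nat_lit 165)))))) (XT.nd (nat_lit 468) (nat_lit 0) (nat_lit 0) (XT.nd (nat_lit 234) (nat_lit 0) (nat_lit 0) (XT.nd (nat_lit 78) (nat_lit 0) (nat_lit 0) (XT.lf (nat_lit 0) (nat_lit 23912504616) (nat_lit 152) (nat_lit 41626787882) (nat_lit 0) (nat_lit 14289246139) (nat_lit 3) (nat_lit 5) (nat_lit 5) (nat_lit 4) (nat_lit 3) (nat_lit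 4) (nat_lit 398) (nat_lit 218) (nat_lit 164)) (XT.nd (nat_lit 78) (nat_lit 0) (nat_lit 0) (XT.lf (nat_lit 0) (nat_lit 26653725011) (nat_lit 152) (nat_lit 38537618529) (nat_lit 0) (nat_lit 16959220936) (nat_lit 3) (nat_lit 5) (nat_lit 5) (nat_lit 4) (nat_lit 3) (nat_lit 4) (nat_lit 399) (nat_lit 218) (nat_lit 163)) (XT.lf (nat_lit 0) (nat_lit 29457346836) (nat_lit 152) (nat_lit 35391837448) (nat_lit 0) (nat_lit 19693672276) (nat_lit 3) (nat_lit 5) (nat_lit 5) (nat_lit 4) (nat_lit 3) (nat_lit 4) (nat_lit 400) (nat_lit 218) (nat_lit 162)))) (XT.nd (nat_lit 78) (nat_lit 0) (nat_lit 0) (XT.lf (nat_lit 0) (nat_lit 32325819856) (nat_lit 152) (nat_lit 32186695897) (nat_lit 0) (nat_lit 22494989486) (nat_lit 3) (nat_lit 5) (nat_lit 5) (nat_lit 4) (nat_lit 3) (nat_lit 4) (nat_lit 401) (nat_lit 218) (nat_lit 161)) (XT.nd (nat_lit 78) (nat_lit 0) (nat_lit 0) (XT.lf (nat_lit 0) (nat_lit 35261650505) (nat_lit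 152) (nat_lit 28919393268) (nat_lit 0) (nat_lit 25365620318) (nat_lit 3) (nat_lit 5) (nat_lit 5) (nat_lit 4) (nat_lit 3) (nat_lit 4) (nat_lit 402) (nat_lit 218) (nat_lit 160)) (XT.lf (nat_lit 0) (nat_lit 38267404070) (nat_lit 152) (nat_lit 25587074636) (nat_lit 0) (nat_lit 28308073092) (nat_lit 3) (nat_lit 5) (nat_lit 5) (nat_lit 4) (nat_lit 3) (nat_lit 4) (nat_lit 403) (nat_lit 218) (nat_lit 159))))) (XT.nd (nat_lit 35958) (nat_lit 0) (nat_lit 988) (XT.nd (nat_lit 35802) (nat_lit 0) (nat_lit 1140) (XT.lf (nat_lit 0) (nat_lit 41345706940) (nat_lit 152) (nat_lit 22186828265) (nat_lit 0) (nat_lit 31324918882) (nat_lit 3) (nat_lit 5) (nat_lit 5) (nat_lit 4) (nat_lit 3) (nat_lit 4) (nat_lit 404) (nat_lit 218) (nat_lit 158)) (XT.nd (nat_lit 78) (nat_lit 152) (nat_lit 0) (XT.lf (nat_lit 0) (nat_lit 3805901510) (nat_lit 152) (nat_lit 1400725734) (nat_lit 0) (nat_lit 3805901510) (nat_lit 20) (nat_lit 5)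 (nat_lit 22) (nat_lit 4) (nat_lit 20) (nat_lit 4) (nat_lit 342) (nat_lit 219) (nat_lit 219)) (XT.lf (nat_lit 0) (nat_lit 4075205968) (nat_lit 152) (nat_lit 7392688315) (nat_lit 152) (nat_lit 6972937522) (nat_lit 18) (nat_lit 4) (nat_lit 20) (nat_lit 5) (nat_lit 20) (nat_lit 4) (nat_lit 343) (nat_lit 219) (nat_lit 218)))) (XT.nd (nat_lit 78) (nat_lit 152) (nat_lit 0) (XT.lf (nat_lit 0) (nat_lit 11079983821) (nat_lit 152) (nat_lit 4308976959) (nat_lit 152) (nat_lit 3481701124) (nat_lit 18) (nat_lit 4) (nat_lit 20) (nat_lit 5) (nat_lit 20) (nat_lit 4) (nat_lit 344) (nat_lit 219) (nat_lit 217)) (XT.nd (nat_lit 78) (nat_lit 76) (nat_lit 0) (XT.lf (nat_lit 0) (nat_lit 34528936) (nat_lit 228) (nat_lit 1152837474) (nat_lit 76) (nat_lit 18128370777) (nat_lit 17) (nat_lit 5) (nat_lit 20) (nat_lit 5) (nat_lit 18) (nat_lit 4) (nat_lit 345) (nat_lit 219) (nat_lit 216)) (XT.lf (nat_lit 0) (nat_lit 3584982026)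 (nat_lit 152) (nat_lit 14163516207) (nat_lit 0) (nat_lit 2024727023) (nat_lit 16) (nat_lit 5) (nat_lit 18) (nat_lit 4) (nat_lit 16) (nat_lit 4) (nat_lit 346) (nat_lit 219) (nat_lit 215))))))) (XT.nd (nat_lit 936) (nat_lit 304) (nat_lit 0) (XT.nd (nat_lit 468) (nat_lit 76) (nat_lit 0) (XT.nd (nat_lit 234) (nat_lit 152) (nat_lit 0) (XT.nd (nat_lit 78) (nat_lit 152) (nat_lit 0) (XT.lf (nat_lit 0) (nat_lit 7190648783) (nat_lit 152) (nat_lit 7787069630) (nat_lit 0) (nat_lit 5268313058) (nat_lit 16) (nat_lit 5) (nat_lit 18) (nat_lit 4) (nat_lit 16) (nat_lit 4) (nat_lit 347) (nat_lit 219) (nat_lit 214)) (XT.nd (nat_lit 78) (nat_lit 152) (nat_lit 0) (XT.lf (nat_lit 0) (nat_lit 10831851864) (nat_lit 152) (nat_lit 1345420481) (nat_lit 0) (nat_lit 8557981459) (nat_lit 16) (nat_lit 5) (nat_lit 18) (nat_lit 4) (nat_lit 16) (nat_lit 4) (nat_lit 348) (nat_lit 219) (nat_lit 213)) (XT.lf (nat_lit 0) (nat_lit 5269894490)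 (nat_lit 152) (nat_lit 9292535863) (nat_lit 152) (nat_lit 6677369651) (nat_lit 14) (nat_lit 4) (nat_lit 16) (nat_lit 5) (nat_lit 16) (nat_lit 4) (nat_lit 349) (nat_lit 219) (nat_lit 212)))) (XT.nd (nat_lit 78) (nat_lit 152) (nat_lit 0) (XT.lf (nat_lit 0) (nat_lit 11990030616) (nat_lit 152) (nat_lit 6358852261) (nat_lit 152) (nat_lit 3412330897) (nat_lit 14) (nat_lit 4) (nat_lit 16) (nat_lit 5) (nat_lit 16) (nat_lit 4) (nat_lit 350) (nat_lit 219) (nat_lit 211)) (XT.nd (nat_lit 78) (nat_lit 152) (nat_lit 0) (XT.lf (nat_lit 0) (nat_lit 18794083353) (nat_lit 152) (nat_lit 3387244235) (nat_lit 152) (nat_lit 119018839) (nat_lit 14) (nat_lit 4) (nat_lit 16) (nat_lit 5) (nat_lit 16) (nat_lit 4) (nat_lit 351) (nat_lit 219) (nat_lit 210)) (XT.lf (nat_lit 0) (nat_lit 2855232111) (nat_lit 76) (nat_lit 315108537) (nat_lit 152) (nat_lit 19685580635) (nat_lit 12) (nat_lit 5) (nat_lit 13) (nat_lit 5) (nat_lit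 14) (nat_lit 4) (nat_lit 352) (nat_lit 219) (nat_lit 209))))) (XT.nd (nat_lit 234) (nat_lit 76) (nat_lit 0) (XT.nd (nat_lit 78) (nat_lit 0) (nat_lit 0) (XT.lf (nat_lit 0) (nat_lit 6553165888) (nat_lit 152) (nat_lit 14092601290) (nat_lit 0) (nat_lit 2782489859) (nat_lit 12) (nat_lit 5) (nat_lit 14) (nat_lit 4) (nat_lit 12) (nat_lit 4) (nat_lit 353) (nat_lit 219) (nat_lit 208)) (XT.nd (nat_lit 78) (nat_lit 0) (nat_lit 0) (XT.lf (nat_lit 0) (nat_lit 9976549187) (nat_lit 152) (nat_lit 8123041216) (nat_lit 0) (nat_lit 5920043292) (nat_lit 12) (nat_lit 5) (nat_lit 14) (nat_lit 4) (nat_lit 12) (nat_lit 4) (nat_lit 354) (nat_lit 219) (nat_lit 207)) (XT.lf (nat_lit 0) (nat_lit 13440452833) (nat_lit 152) (nat_lit 2083763813) (nat_lit 0) (nat_lit 9106442215) (nat_lit 12) (nat_lit 5) (nat_lit 14) (nat_lit 4) (nat_lit 12) (nat_lit 4) (nat_lit 355) (nat_lit 219) (nat_lit 206)))) (XT.nd (nat_lit 78) (nat_lit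 0) (nat_lit 0) (XT.lf (nat_lit 0) (nat_lit 4110722967) (nat_lit 76) (nat_lit 12876695356) (nat_lit 76) (nat_lit 8273262677) (nat_lit 11) (nat_lit 4) (nat_lit 12) (nat_lit 5) (nat_lit 12) (nat_lit 4) (nat_lit 356) (nat_lit 219) (nat_lit 205)) (XT.nd (nat_lit 78) (nat_lit 0) (nat_lit 0) (XT.lf (nat_lit 0) (nat_lit 10428616531) (nat_lit 76) (nat_lit 10173595779) (nat_lit 76) (nat_lit 5308588283) (nat_lit 11) (nat_lit 4) (nat_lit 12) (nat_lit 5) (nat_lit 12) (nat_lit 4) (nat_lit 357) (nat_lit 219) (nat_lit 204)) (XT.lf (nat_lit 0) (nat_lit 16833966383) (nat_lit 76) (nat_lit 7433597914) (nat_lit 76) (nat_lit 2314634284) (nat_lit 11) (nat_lit 4) (nat_lit 12) (nat_lit 5) (nat_lit 12) (nat_lit 4) (nat_lit 358) (nat_lit 219) (nat_lit 203)))))) (XT.nd (nat_lit 468) (nat_lit 152) (nat_lit 0) (XT.nd (nat_lit 234) (nat_lit 0) (nat_lit 0) (XT.nd (nat_lit 78) (nat_lit 76) (nat_lit 0) (XT.lf (nat_lit 0) (nat_lit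 697337021) (nat_lit 152) (nat_lit 3949928828) (nat_lit 76) (nat_lit 22627990671) (nat_lit 10) (nat_lit 5) (nat_lit 12) (nat_lit 5) (nat_lit 11) (nat_lit 4) (nat_lit 359) (nat_lit 219) (nat_lit 202)) (XT.nd (nat_lit 78) (nat_lit 0) (nat_lit 0) (XT.lf (nat_lit 0) (nat_lit 1939908033) (nat_lit 76) (nat_lit 1776746659) (nat_lit 152) (nat_lit 24272893702) (nat_lit 9) (nat_lit 5) (nat_lit 10) (nat_lit 5) (nat_lit 11) (nat_lit 4) (nat_lit 360) (nat_lit 219) (nat_lit 201)) (XT.lf (nat_lit 0) (nat_lit 6823312842) (nat_lit 152) (nat_lit 20746062668) (nat_lit 0) (nat_lit 1156024656) (nat_lit 9) (nat_lit 5) (nat_lit 11) (nat_lit 4) (nat_lit 9) (nat_lit 4) (nat_lit 361) (nat_lit 219) (nat_lit 200)))) (XT.nd (nat_lit 78) (nat_lit 0) (nat_lit 0) (XT.lf (nat_lit 0) (nat_lit 9987497905) (nat_lit 152) (nat_lit 15395787820) (nat_lit 0) (nat_lit 4101144928) (nat_lit 9) (nat_lit 5) (nat_lit 11) (nat_lit 4) (nat_lit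 9) (nat_lit 4) (nat_lit 362) (nat_lit 219) (nat_lit 199)) (XT.nd (nat_lit 78) (nat_lit 0) (nat_lit 0) (XT.lf (nat_lit 0) (nat_lit 13194895528) (nat_lit 152) (nat_lit 9977061644) (nat_lit 0) (nat_lit 7095858288) (nat_lit 9) (nat_lit 5) (nat_lit 11) (nat_lit 4) (nat_lit 9) (nat_lit 4) (nat_lit 363) (nat_lit 219) (nat_lit 198)) (XT.lf (nat_lit 0) (nat_lit 16448308293) (nat_lit 152) (nat_lit 4485149331) (nat_lit 0) (nat_lit 10142781477) (nat_lit 9) (nat_lit 5) (nat_lit 11) (nat_lit 4) (nat_lit 9) (nat_lit 4) (nat_lit 364) (nat_lit 219) (nat_lit 197))))) (XT.nd (nat_lit 234) (nat_lit 76) (nat_lit 0) (XT.nd (nat_lit 78) (nat_lit 0) (nat_lit 0) (XT.lf (nat_lit 0) (nat_lit 1106336485) (nat_lit 76) (nat_lit 18654877284) (nat_lit 76) (nat_lit 12148875152) (nat_lit 8) (nat_lit 4) (nat_lit 9) (nat_lit 5) (nat_lit 9) (nat_lit 4) (nat_lit 365) (nat_lit 219) (nat_lit 196)) (XT.nd (nat_lit 78) (nat_lit 0) (nat_lit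 0) (XT.lf (nat_lit 0) (nat_lit 6871586277) (nat_lit 76) (nat_lit 16299060702) (nat_lit 76) (nat_lit 9598422340) (nat_lit 8) (nat_lit 4) (nat_lit 9) (nat_lit 5) (nat_lit 9) (nat_lit 4) (nat_lit 366) (nat_lit 219) (nat_lit 195)) (XT.lf (nat_lit 0) (nat_lit 12726374375) (nat_lit 76) (nat_lit 13909240611) (nat_lit 76) (nat_lit 7019635036) (nat_lit 8) (nat_lit 4) (nat_lit 9) (nat_lit 5) (nat_lit 9) (nat_lit 4) (nat_lit 367) (nat_lit 219) (nat_lit 194)))) (XT.nd (nat_lit 78) (nat_lit 76) (nat_lit 0) (XT.lf (nat_lit 0) (nat_lit 18675816612) (nat_lit 76) (nat_lit 11483328819) (nat_lit 76) (nat_lit 4410259930) (nat_lit 8) (nat_lit 4) (nat_lit 9) (nat_lit 5) (nat_lit 9) (nat_lit 4) (nat_lit 368) (nat_lit 219) (nat_lit 193)) (XT.nd (nat_lit 78) (nat_lit 76) (nat_lit 0) (XT.lf (nat_lit 0) (nat_lit 24725111531) (nat_lit 76) (nat_lit 9019205597) (nat_lit 76) (nat_lit 1768016986) (nat_lit 8) (nat_lit 4) (nat_lit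 9) (nat_lit 5) (nat_lit 9) (nat_lit 4) (nat_lit 369) (nat_lit 219) (nat_lit 192)) (XT.lf (nat_lit 0) (nat_lit 891656831) (nat_lit 152) (nat_lit 5614057012) (nat_lit 76) (nat_lit 29978884107) (nat_lit 7) (nat_lit 5) (nat_lit 9) (nat_lit 5) (nat_lit 8) (nat_lit 4) (nat_lit 370) (nat_lit 219) (nat_lit 191))))))))
noncomputable def xc21 : XT := (XT.nd (nat_lit 1794) (nat_lit 0) (nat_lit 0) (XT.nd (nat_lit 858) (nat_lit 152) (nat_lit 0) (XT.nd (nat_lit 390) (nat_lit 76) (nat_lit 0) (XT.nd (nat_lit 156) (nat_lit 0) (nat_lit 0) (XT.nd (nat_lit 78) (nat_lit 76) (nat_lit 0) (XT.lf (nat_lit 0) (nat_lit 3553614282) (nat_lit 152) (nat_lit 378178307) (nat_lit 76) (nat_lit 33554995631) (nat_lit 7) (nat_lit 5) (nat_lit 9) (nat_lit 5) (nat_lit 8) (nat_lit 4) (nat_lit 371) (nat_lit 219) (nat_lit 190)) (XT.lf (nat_lit 0) (nat_lit 5040338998) (nat_lit 76) (nat_lit 1262793552) (nat_lit 152) (nat_lit 32215704410) (nat_lit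 6) (nat_lit 5) (nat_lit 7) (nat_lit 5) (nat_lit 8) (nat_lit 4) (nat_lit 372) (nat_lit 219) (nat_lit 189))) (XT.nd (nat_lit 78) (nat_lit 0) (nat_lit 0) (XT.lf (nat_lit 0) (nat_lit 9112719366) (nat_lit 152) (nat_lit 29039897414) (nat_lit 0) (nat_lit 1429926021) (nat_lit 6) (nat_lit 5) (nat_lit 8) (nat_lit 4) (nat_lit 6) (nat_lit 4) (nat_lit 373) (nat_lit 219) (nat_lit 188)) (XT.nd (nat_lit 78) (nat_lit 0) (nat_lit 0) (XT.lf (nat_lit 0) (nat_lit 11979717412) (nat_lit 152) (nat_lit 24551519550) (nat_lit 0) (nat_lit 4147751604) (nat_lit 6) (nat_lit 5) (nat_lit 8) (nat_lit 4) (nat_lit 6) (nat_lit 4) (nat_lit 374) (nat_lit 219) (nat_lit 187)) (XT.lf (nat_lit 0) (nat_lit 14894493088) (nat_lit 152) (nat_lit 19997303742) (nat_lit 0) (nat_lit 6917699645) (nat_lit 6) (nat_lit 5) (nat_lit 8) (nat_lit 4) (nat_lit 6) (nat_lit 4) (nat_lit 375) (nat_lit 219) (nat_lit 186))))) (XT.nd (nat_lit 234) (nat_lit 76) (nat_lit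 0) (XT.nd (nat_lit 78) (nat_lit 0) (nat_lit 0) (XT.lf (nat_lit 0) (nat_lit 17859593285) (nat_lit 152) (nat_lit 15373270578) (nat_lit 0) (nat_lit 9742190489) (nat_lit 6) (nat_lit 5) (nat_lit 8) (nat_lit 4) (nat_lit 6) (nat_lit 4) (nat_lit 376) (nat_lit 219) (nat_lit 185)) (XT.nd (nat_lit 78) (nat_lit 0) (nat_lit 0) (XT.lf (nat_lit 0) (nat_lit 20877608867) (nat_lit 152) (nat_lit 10675379640) (nat_lit 0) (nat_lit 12623692136) (nat_lit 6) (nat_lit 5) (nat_lit 8) (nat_lit 4) (nat_lit 6) (nat_lit 4) (nat_lit 377) (nat_lit 219) (nat_lit 184)) (XT.lf (nat_lit 0) (nat_lit 23951176936) (nat_lit 152) (nat_lit 5899525975) (nat_lit 0) (nat_lit 15564722403) (nat_lit 6) (nat_lit 5) (nat_lit 8) (nat_lit 4) (nat_lit 6) (nat_lit 4) (nat_lit 378) (nat_lit 219) (nat_lit 183)))) (XT.nd (nat_lit 78) (nat_lit 76) (nat_lit 0) (XT.lf (nat_lit 0) (nat_lit 27082983134) (nat_lit 152) (nat_lit 1041536508) (nat_lit 0) (nat_lit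 18567851124) (nat_lit 6) (nat_lit 5) (nat_lit 8) (nat_lit 4) (nat_lit 6) (nat_lit 4) (nat_lit 379) (nat_lit 219) (nat_lit 182)) (XT.nd (nat_lit 78) (nat_lit 0) (nat_lit 0) (XT.lf (nat_lit 0) (nat_lit 3980507647) (nat_lit 76) (nat_lit 26333519416) (nat_lit 76) (nat_lit 17693457817) (nat_lit 5) (nat_lit 4) (nat_lit 6) (nat_lit 5) (nat_lit 6) (nat_lit 4) (nat_lit 380) (nat_lit 219) (nat_lit 181)) (XT.lf (nat_lit 0) (nat_lit 9115786520) (nat_lit 76) (nat_lit 24504149307) (nat_lit 76) (nat_lit 15742796844) (nat_lit 5) (nat_lit 4) (nat_lit 6) (nat_lit 5) (nat_lit 6) (nat_lit 4) (nat_lit 381) (nat_lit 219) (nat_lit 180)))))) (XT.nd (nat_lit 468) (nat_lit 152) (nat_lit 0) (XT.nd (nat_lit 234) (nat_lit 0) (nat_lit 0) (XT.nd (nat_lit 78) (nat_lit 0) (nat_lit 0) (XT.lf (nat_lit 0) (nat_lit 14348058629) (nat_lit 76) (nat_lit 22645328313) (nat_lit 76) (nat_lit 13766217730) (nat_lit 5) (nat_lit 4) (nat_lit 6)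 (nat_lit 5) (nat_lit 6) (nat_lit 4) (nat_lit 382) (nat_lit 219) (nat_lit 179)) (XT.nd (nat_lit 78) (nat_lit 0) (nat_lit 0) (XT.lf (nat_lit 0) (nat_lit 19681895861) (nat_lit 76) (nat_lit 20755432220) (nat_lit 76) (nat_lit 11761993366) (nat_lit 5) (nat_lit 4) (nat_lit 6) (nat_lit 5) (nat_lit 6) (nat_lit 4) (nat_lit 383) (nat_lit 219) (nat_lit 178)) (XT.lf (nat_lit 0) (nat_lit 25121958851) (nat_lit 76) (nat_lit 18832809665) (nat_lit 76) (nat_lit 9728372488) (nat_lit 5) (nat_lit 4) (nat_lit 6) (nat_lit 5) (nat_lit 6) (nat_lit 4) (nat_lit 384) (nat_lit 219) (nat_lit 177)))) (XT.nd (nat_lit 78) (nat_lit 0) (nat_lit 0) (XT.lf (nat_lit 0) (nat_lit 30673001053) (nat_lit 76) (nat_lit 16875780685) (nat_lit 76) (nat_lit 7663578147) (nat_lit 5) (nat_lit 4) (nat_lit 6) (nat_lit 5) (nat_lit 6) (nat_lit 4) (nat_lit 385) (nat_lit 219) (nat_lit 176)) (XT.nd (nat_lit 78) (nat_lit 0) (nat_lit 0) (XT.lf (nat_lit 0)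 (nat_lit 36339872890) (nat_lit 76) (nat_lit 14882635254) (nat_lit 76) (nat_lit 5565806152) (nat_lit 5) (nat_lit 4) (nat_lit 6) (nat_lit 5) (nat_lit 6) (nat_lit 4) (nat_lit 386) (nat_lit 219) (nat_lit 175)) (XT.lf (nat_lit 0) (nat_lit 42127526000) (nat_lit 76) (nat_lit 12851631790) (nat_lit 76) (nat_lit 3433223500) (nat_lit 5) (nat_lit 4) (nat_lit 6) (nat_lit 5) (nat_lit 6) (nat_lit 4) (nat_lit 387) (nat_lit 219) (nat_lit 174))))) (XT.nd (nat_lit 234) (nat_lit 76) (nat_lit 0) (XT.nd (nat_lit 78) (nat_lit 76) (nat_lit 0) (XT.lf (nat_lit 0) (nat_lit 48041017554) (nat_lit 76) (nat_lit 10780995630) (nat_lit 76) (nat_lit 1263966768) (nat_lit 5) (nat_lit 4) (nat_lit 6) (nat_lit 5) (nat_lit 6) (nat_lit 4) (nat_lit 388) (nat_lit 219) (nat_lit 173)) (XT.nd (nat_lit 78) (nat_lit 0) (nat_lit 0) (XT.lf (nat_lit 0) (nat_lit 925441411) (nat_lit 152) (nat_lit 7734130924) (nat_lit 76) (nat_lit 53150728126) (nat_lit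 4) (nat_lit 5) (nat_lit 6) (nat_lit 5) (nat_lit 5) (nat_lit 4) (nat_lit 389) (nat_lit 219) (nat_lit 172)) (XT.lf (nat_lit 0) (nat_lit 3129893486) (nat_lit 152) (nat_lit 3352052559) (nat_lit 76) (nat_lit 57104799707) (nat_lit 4) (nat_lit 5) (nat_lit 6) (nat_lit 5) (nat_lit 5) (nat_lit 4) (nat_lit 390) (nat_lit 219) (nat_lit 171)))) (XT.nd (nat_lit 78) (nat_lit 0) (nat_lit 0) (XT.lf (nat_lit 0) (nat_lit 1139487218) (nat_lit 76) (nat_lit 4247446451) (nat_lit 152) (nat_lit 60029970288) (nat_lit 3) (nat_lit 5) (nat_lit 4) (nat_lit 5) (nat_lit 5) (nat_lit 4) (nat_lit 391) (nat_lit 219) (nat_lit 170)) (XT.nd (nat_lit 78) (nat_lit 0) (nat_lit 0) (XT.lf (nat_lit 0) (nat_lit 5790684233) (nat_lit 76) (nat_lit 1930643581) (nat_lit 152) (nat_lit 59580362617) (nat_lit 3) (nat_lit 5) (nat_lit 4) (nat_lit 5) (nat_lit 5) (nat_lit 4) (nat_lit 392) (nat_lit 219) (nat_lit 169)) (XT.lf (nat_lit 0) (nat_lit 10106449653)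 (nat_lit 152) (nat_lit 58709044985) (nat_lit 0) (nat_lit 428117418) (nat_lit 3) (nat_lit 5) (nat_lit 5) (nat_lit 4) (nat_lit 3) (nat_lit 4) (nat_lit 393) (nat_lit 219) (nat_lit 168))))))) (XT.nd (nat_lit 36504) (nat_lit 0) (nat_lit 684) (XT.nd (nat_lit 468) (nat_lit 0) (nat_lit 0) (XT.nd (nat_lit 234) (nat_lit 0) (nat_lit 0) (XT.nd (nat_lit 78) (nat_lit 0) (nat_lit 0) (XT.lf (nat_lit 0) (nat_lit 12559246017) (nat_lit 152) (nat_lit 55883947527) (nat_lit 0) (nat_lit 2800726232) (nat_lit 3) (nat_lit 5) (nat_lit 5) (nat_lit 4) (nat_lit 3) (nat_lit 4) (nat_lit 394) (nat_lit 219) (nat_lit 167)) (XT.nd (nat_lit 78) (nat_lit 0) (nat_lit 0) (XT.lf (nat_lit 0) (nat_lit 15063301598) (nat_lit 152) (nat_lit 53014686766) (nat_lit 0) (nat_lit 5226929824) (nat_lit 3) (nat_lit 5) (nat_lit 5) (nat_lit 4) (nat_lit 3) (nat_lit 4) (nat_lit 395) (nat_lit 219) (nat_lit 166)) (XT.lf (nat_lit 0) (nat_lit 17620804407) (nat_lit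 152) (nat_lit 50098755580) (nat_lit 0) (nat_lit 7708848176) (nat_lit 3) (nat_lit 5) (nat_lit 5) (nat_lit 4) (nat_lit 3) (nat_lit 4) (nat_lit 396) (nat_lit 219) (nat_lit 165)))) (XT.nd (nat_lit 78) (nat_lit 0) (nat_lit 0) (XT.lf (nat_lit 0) (nat_lit 20233989154) (nat_lit 152) (nat_lit 47133606069) (nat_lit 0) (nat_lit 10248649957) (nat_lit 3) (nat_lit 5) (nat_lit 5) (nat_lit 4) (nat_lit 3) (nat_lit 4) (nat_lit 397) (nat_lit 219) (nat_lit 164)) (XT.nd (nat_lit 78) (nat_lit 0) (nat_lit 0) (XT.lf (nat_lit 0) (nat_lit 22905139206) (nat_lit 152) (nat_lit 44116647325) (nat_lit 0) (nat_lit 12848554409) (nat_lit 3) (nat_lit 5) (nat_lit 5) (nat_lit 4) (nat_lit 3) (nat_lit 4) (nat_lit 398) (nat_lit 219) (nat_lit 163)) (XT.lf (nat_lit 0) (nat_lit 25636588575) (nat_lit 152) (nat_lit 41045243170) (nat_lit 0) (nat_lit 15510833294) (nat_lit 3) (nat_lit 5) (nat_lit 5) (nat_lit 4) (nat_lit 3) (nat_lit 4) (nat_lit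 399) (nat_lit 219) (nat_lit 162))))) (XT.nd (nat_lit 234) (nat_lit 0) (nat_lit 0) (XT.nd (nat_lit 78) (nat_lit 0) (nat_lit 0) (XT.lf (nat_lit 0) (nat_lit 28430723967) (nat_lit 152) (nat_lit 37916709854) (nat_lit 0) (nat_lit 18237812875) (nat_lit 3) (nat_lit 5) (nat_lit 5) (nat_lit 4) (nat_lit 3) (nat_lit 4) (nat_lit 400) (nat_lit 219) (nat_lit 161)) (XT.nd (nat_lit 78) (nat_lit 0) (nat_lit 0) (XT.lf (nat_lit 0) (nat_lit 31289986858) (nat_lit 152) (nat_lit 34728313706) (nat_lit 0) (nat_lit 21031875950) (nat_lit 3) (nat_lit 5) (nat_lit 5) (nat_lit 4) (nat_lit 3) (nat_lit 4) (nat_lit 401) (nat_lit 219) (nat_lit 160)) (XT.lf (nat_lit 0) (nat_lit 34216875633) (nat_lit 152) (nat_lit 31477268749) (nat_lit 0) (nat_lit 23895463934) (nat_lit 3) (nat_lit 5) (nat_lit 5) (nat_lit 4) (nat_lit 3) (nat_lit 4) (nat_lit 402) (nat_lit 219) (nat_lit 159)))) (XT.nd (nat_lit 78) (nat_lit 0) (nat_lit 0) (XT.lf (nat_lit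 0) (nat_lit 37213947769) (nat_lit 152) (nat_lit 28160734265) (nat_lit 0) (nat_lit 26831078989) (nat_lit 3) (nat_lit 5) (nat_lit 5) (nat_lit 4) (nat_lit 3) (nat_lit 4) (nat_lit 403) (nat_lit 219) (nat_lit 158)) (XT.nd (nat_lit 35646) (nat_lit 0) (nat_lit 1292) (XT.lf (nat_lit 0) (nat_lit 40283822065) (nat_lit 152) (nat_lit 24775812311) (nat_lit 0) (nat_lit 29841286218) (nat_lit 3) (nat_lit 5) (nat_lit 5) (nat_lit 4) (nat_lit 3) (nat_lit 4) (nat_lit 404) (nat_lit 219) (nat_lit 157)) (XT.lf (nat_lit 0) (nat_lit 274022793) (nat_lit 152) (nat_lit 8068537232) (nat_lit 0) (nat_lit 274022793) (nat_lit 20) (nat_lit 5) (nat_lit 22) (nat_lit 4) (nat_lit 20) (nat_lit 4) (nat_lit 340) (nat_lit 220) (nat_lit 220)))))) (XT.nd (nat_lit 468) (nat_lit 304) (nat_lit 0) (XT.nd (nat_lit 234) (nat_lit 152) (nat_lit 0) (XT.nd (nat_lit 78) (nat_lit 152) (nat_lit 0) (XT.lf (nat_lit 0) (nat_lit 4260707669) (nat_lit 152)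 (nat_lit 9533572292) (nat_lit 0) (nat_lit 3828364352) (nat_lit 20) (nat_lit 5) (nat_lit 22) (nat_lit 4) (nat_lit 20) (nat_lit 4) (nat_lit 341) (nat_lit 220) (nat_lit 219)) (XT.nd (nat_lit 78) (nat_lit 152) (nat_lit 0) (XT.lf (nat_lit 0) (nat_lit 8004725678) (nat_lit 152) (nat_lit 2868914009) (nat_lit 0) (nat_lit 7152631568) (nat_lit 20) (nat_lit 5) (nat_lit 22) (nat_lit 4) (nat_lit 20) (nat_lit 4) (nat_lit 342) (nat_lit 220) (nat_lit 218)) (XT.lf (nat_lit 0) (nat_lit 3939599650) (nat_lit 152) (nat_lit 7881641278) (nat_lit 152) (nat_lit 6622022126) (nat_lit 18) (nat_lit 4) (nat_lit 20) (nat_lit 5) (nat_lit 20) (nat_lit 4) (nat_lit 343) (nat_lit 220) (nat_lit 217)))) (XT.nd (nat_lit 78) (nat_lit 152) (nat_lit 0) (XT.lf (nat_lit 0) (nat_lit 10879522024) (nat_lit 152) (nat_lit 4825004219) (nat_lit 152) (nat_lit 3169729686) (nat_lit 18) (nat_lit 4) (nat_lit 20) (nat_lit 5) (nat_lit 20) (nat_lit 4) (nat_lit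 344) (nat_lit 220) (nat_lit 216)) (XT.nd (nat_lit 78) (nat_lit 76) (nat_lit 0) (XT.lf (nat_lit 0) (nat_lit 303340823) (nat_lit 228) (nat_lit 1423624098) (nat_lit 76) (nat_lit 17593416138) (nat_lit 17) (nat_lit 5) (nat_lit 20) (nat_lit 5) (nat_lit 18) (nat_lit 4) (nat_lit 345) (nat_lit 220) (nat_lit 215)) (XT.lf (nat_lit 0) (nat_lit 3809072365) (nat_lit 152) (nat_lit 14503179412) (nat_lit 0) (nat_lit 1466985848) (nat_lit 16) (nat_lit 5) (nat_lit 18) (nat_lit 4) (nat_lit 16) (nat_lit 4) (nat_lit 346) (nat_lit 220) (nat_lit 214))))) (XT.nd (nat_lit 234) (nat_lit 152) (nat_lit 0) (XT.nd (nat_lit 78) (nat_lit 152) (nat_lit 0) (XT.lf (nat_lit 0) (nat_lit 7378958985) (nat_lit 152) (nat_lit 8188846542) (nat_lit 0) (nat_lit 4685337787) (nat_lit 16) (nat_lit 5) (nat_lit 18) (nat_lit 4) (nat_lit 16) (nat_lit 4) (nat_lit 347) (nat_lit 220) (nat_lit 213)) (XT.nd (nat_lit 78) (nat_lit 152) (nat_lit 0) (XT.lf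 (nat_lit 0) (nat_lit 10985424070) (nat_lit 152) (nat_lit 1807501961) (nat_lit 0) (nat_lit 7950507065) (nat_lit 16) (nat_lit 5) (nat_lit 18) (nat_lit 4) (nat_lit 16) (nat_lit 4) (nat_lit 348) (nat_lit 220) (nat_lit 212)) (XT.lf (nat_lit 0) (nat_lit 4738903335) (nat_lit 152) (nat_lit 9938268802) (nat_lit 152) (nat_lit 6571996645) (nat_lit 14) (nat_lit 4) (nat_lit 16) (nat_lit 5) (nat_lit 16) (nat_lit 4) (nat_lit 349) (nat_lit 220) (nat_lit 211)))) (XT.nd (nat_lit 78) (nat_lit 152) (nat_lit 0) (XT.lf (nat_lit 0) (nat_lit 11401065336) (nat_lit 152) (nat_lit 7029258148) (nat_lit 152) (nat_lit 3341281959) (nat_lit 14) (nat_lit 4) (nat_lit 16) (nat_lit 5) (nat_lit 16) (nat_lit 4) (nat_lit 350) (nat_lit 220) (nat_lit 210)) (XT.nd (nat_lit 78) (nat_lit 152) (nat_lit 0) (XT.lf (nat_lit 0) (nat_lit 18148832516) (nat_lit 152) (nat_lit 4081604439) (nat_lit 152) (nat_lit 81294240) (nat_lit 14) (nat_lit 4) (nat_lit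 16) (nat_lit 5) (nat_lit 16) (nat_lit 4) (nat_lit 351) (nat_lit 220) (nat_lit 209)) (XT.lf (nat_lit 0) (nat_lit 2128758414) (nat_lit 76) (nat_lit 1039864993) (nat_lit 152) (nat_lit 19699854768) (nat_lit 12) (nat_lit 5) (nat_lit 13) (nat_lit 5) (nat_lit 14) (nat_lit 4) (nat_lit 352) (nat_lit 220) (nat_lit 208))))))))
noncomputable def xc22 : XT := (XT.nd (nat_lit 1794) (nat_lit 228) (nat_lit 0) (XT.nd (nat_lit 858) (nat_lit 228) (nat_lit 0) (XT.nd (nat_lit 390) (nat_lit 152) (nat_lit 0) (XT.nd (nat_lit 156) (nat_lit 76) (nat_lit 0) (XT.nd (nat_lit 78) (nat_lit 0) (nat_lit 0) (XT.lf (nat_lit 0) (nat_lit 6512931803) (nat_lit 152) (nat_lit 14880157963) (nat_lit 0) (nat_lit 2048900866) (nat_lit 12) (nat_lit 5) (nat_lit 14) (nat_lit 4) (nat_lit 12) (nat_lit 4) (nat_lit 353) (nat_lit 220) (nat_lit 207)) (XT.lf (nat_lit 0) (nat_lit 9905683992) (nat_lit 152) (nat_lit 8964474476) (nat_lit 0) (nat_lit 5164148332)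 (nat_lit 12) (nat_lit 5) (nat_lit 14) (nat_lit 4) (nat_lit 12) (nat_lit 4) (nat_lit 354) (nat_lit 220) (nat_lit 206))) (XT.nd (nat_lit 78) (nat_lit 76) (nat_lit 0) (XT.lf (nat_lit 0) (nat_lit 13339848698) (nat_lit 152) (nat_lit 2977504440) (nat_lit 0) (nat_lit 8328890977) (nat_lit 12) (nat_lit 5) (nat_lit 14) (nat_lit 4) (nat_lit 12) (nat_lit 4) (nat_lit 355) (nat_lit 220) (nat_lit 205)) (XT.nd (nat_lit 78) (nat_lit 0) (nat_lit 0) (XT.lf (nat_lit 0) (nat_lit 3147400599) (nat_lit 76) (nat_lit 13701280787) (nat_lit 76) (nat_lit 8428748249) (nat_lit 11) (nat_lit 4) (nat_lit 12) (nat_lit 5) (nat_lit 12) (nat_lit 4) (nat_lit 356) (nat_lit 220) (nat_lit 204)) (XT.lf (nat_lit 0) (nat_lit 9415008193) (nat_lit 76) (nat_lit 11019951998) (nat_lit 76) (nat_lit 5493463326) (nat_lit 11) (nat_lit 4) (nat_lit 12) (nat_lit 5) (nat_lit 12) (nat_lit 4) (nat_lit 357) (nat_lit 220) (nat_lit 203))))) (XT.nd (nat_lit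 234) (nat_lit 0) (nat_lit 0) (XT.nd (nat_lit 78) (nat_lit 152) (nat_lit 0) (XT.lf (nat_lit 0) (nat_lit 15771536714) (nat_lit 76) (nat_lit 8301090818) (nat_lit 76) (nat_lit 2528042795) (nat_lit 11) (nat_lit 4) (nat_lit 12) (nat_lit 5) (nat_lit 12) (nat_lit 4) (nat_lit 358) (nat_lit 220) (nat_lit 202)) (XT.nd (nat_lit 78) (nat_lit 76) (nat_lit 0) (XT.lf (nat_lit 0) (nat_lit 460931057) (nat_lit 152) (nat_lit 5076735988) (nat_lit 76) (nat_lit 21756954853) (nat_lit 10) (nat_lit 5) (nat_lit 12) (nat_lit 5) (nat_lit 11) (nat_lit 4) (nat_lit 359) (nat_lit 220) (nat_lit 201)) (XT.lf (nat_lit 0) (nat_lit 743188211) (nat_lit 76) (nat_lit 2699186214) (nat_lit 152) (nat_lit 24567692310) (nat_lit 9) (nat_lit 5) (nat_lit 10) (nat_lit 5) (nat_lit 11) (nat_lit 4) (nat_lit 360) (nat_lit 220) (nat_lit 200)))) (XT.nd (nat_lit 78) (nat_lit 0) (nat_lit 0) (XT.lf (nat_lit 0) (nat_lit 6513926909) (nat_lit 152) (nat_lit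 22001142460) (nat_lit 0) (nat_lit 231918552) (nat_lit 9) (nat_lit 5) (nat_lit 11) (nat_lit 4) (nat_lit 9) (nat_lit 4) (nat_lit 361) (nat_lit 220) (nat_lit 199)) (XT.nd (nat_lit 78) (nat_lit 0) (nat_lit 0) (XT.lf (nat_lit 0) (nat_lit 9652637592) (nat_lit 152) (nat_lit 16696215847) (nat_lit 0) (nat_lit 3157944972) (nat_lit 9) (nat_lit 5) (nat_lit 11) (nat_lit 4) (nat_lit 9) (nat_lit 4) (nat_lit 362) (nat_lit 220) (nat_lit 198)) (XT.lf (nat_lit 0) (nat_lit 12835302808) (nat_lit 152) (nat_lit 11321517084) (nat_lit 0) (nat_lit 6134120612) (nat_lit 9) (nat_lit 5) (nat_lit 11) (nat_lit 4) (nat_lit 9) (nat_lit 4) (nat_lit 363) (nat_lit 220) (nat_lit 197)))))) (XT.nd (nat_lit 468) (nat_lit 152) (nat_lit 0) (XT.nd (nat_lit 234) (nat_lit 0) (nat_lit 0) (XT.nd (nat_lit 78) (nat_lit 76) (nat_lit 0) (XT.lf (nat_lit 0) (nat_lit 16064703527) (nat_lit 152) (nat_lit 5872349833) (nat_lit 0) (nat_lit 9163046014) (nat_lit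 9) (nat_lit 5) (nat_lit 11) (nat_lit 4) (nat_lit 9) (nat_lit 4) (nat_lit 364) (nat_lit 220) (nat_lit 196)) (XT.nd (nat_lit 78) (nat_lit 76) (nat_lit 0) (XT.lf (nat_lit 0) (nat_lit 19343661554) (nat_lit 152) (nat_lit 343952685) (nat_lit 0) (nat_lit 12247367811) (nat_lit 9) (nat_lit 5) (nat_lit 11) (nat_lit 4) (nat_lit 9) (nat_lit 4) (nat_lit 365) (nat_lit 220) (nat_lit 195)) (XT.lf (nat_lit 0) (nat_lit 5373358577) (nat_lit 76) (nat_lit 17353335431) (nat_lit 76) (nat_lit 10068074475) (nat_lit 8) (nat_lit 4) (nat_lit 9) (nat_lit 5) (nat_lit 9) (nat_lit 4) (nat_lit 366) (nat_lit 220) (nat_lit 194)))) (XT.nd (nat_lit 78) (nat_lit 0) (nat_lit 0) (XT.lf (nat_lit 0) (nat_lit 11188250368) (nat_lit 76) (nat_lit 14981053715) (nat_lit 76) (nat_lit 7512329446) (nat_lit 8) (nat_lit 4) (nat_lit 9) (nat_lit 5) (nat_lit 9) (nat_lit 4) (nat_lit 367) (nat_lit 220) (nat_lit 193)) (XT.nd (nat_lit 78) (nat_lit 0) (nat_lit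 0) (XT.lf (nat_lit 0) (nat_lit 17098958327) (nat_lit 76) (nat_lit 12572169472) (nat_lit 76) (nat_lit 4925325481) (nat_lit 8) (nat_lit 4) (nat_lit 9) (nat_lit 5) (nat_lit 9) (nat_lit 4) (nat_lit 368) (nat_lit 220) (nat_lit 192)) (XT.lf (nat_lit 0) (nat_lit 23110647150) (nat_lit 76) (nat_lit 10124577852) (nat_lit 76) (nat_lit 2304802091) (nat_lit 8) (nat_lit 4) (nat_lit 9) (nat_lit 5) (nat_lit 9) (nat_lit 4) (nat_lit 369) (nat_lit 220) (nat_lit 191))))) (XT.nd (nat_lit 234) (nat_lit 0) (nat_lit 0) (XT.nd (nat_lit 78) (nat_lit 76) (nat_lit 0) (XT.lf (nat_lit 0) (nat_lit 344670874) (nat_lit 152) (nat_lit 7287988807) (nat_lit 76) (nat_lit 28880418396) (nat_lit 7) (nat_lit 5) (nat_lit 9) (nat_lit 5) (nat_lit 8) (nat_lit 4) (nat_lit 370) (nat_lit 220) (nat_lit 190)) (XT.nd (nat_lit 78) (nat_lit 76) (nat_lit 0) (XT.lf (nat_lit 0) (nat_lit 2986555060) (nat_lit 152) (nat_lit 2087968687) (nat_lit 76) (nat_lit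 32441358534) (nat_lit 7) (nat_lit 5) (nat_lit 9) (nat_lit 5) (nat_lit 8) (nat_lit 4) (nat_lit 371) (nat_lit 220) (nat_lit 189)) (XT.lf (nat_lit 0) (nat_lit 3261013407) (nat_lit 76) (nat_lit 2438467348) (nat_lit 152) (nat_lit 32849559437) (nat_lit 6) (nat_lit 5) (nat_lit 7) (nat_lit 5) (nat_lit 8) (nat_lit 4) (nat_lit 372) (nat_lit 220) (nat_lit 188)))) (XT.nd (nat_lit 78) (nat_lit 0) (nat_lit 0) (XT.lf (nat_lit 0) (nat_lit 8478367614) (nat_lit 152) (nat_lit 30873040112) (nat_lit 0) (nat_lit 262270369) (nat_lit 6) (nat_lit 5) (nat_lit 8) (nat_lit 4) (nat_lit 6) (nat_lit 4) (nat_lit 373) (nat_lit 220) (nat_lit 187)) (XT.nd (nat_lit 78) (nat_lit 0) (nat_lit 0) (XT.lf (nat_lit 0) (nat_lit 11326532009) (nat_lit 152) (nat_lit 26418560470) (nat_lit 0) (nat_lit 2965607129) (nat_lit 6) (nat_lit 5) (nat_lit 8) (nat_lit 4) (nat_lit 6) (nat_lit 4) (nat_lit 374) (nat_lit 220) (nat_lit 186)) (XT.lf (nat_lit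 0) (nat_lit 14223022587) (nat_lit 152) (nat_lit 21897255557) (nat_lit 0) (nat_lit 5721488354) (nat_lit 6) (nat_lit 5) (nat_lit 8) (nat_lit 4) (nat_lit 6) (nat_lit 4) (nat_lit 375) (nat_lit 220) (nat_lit 185))))))) (XT.nd (nat_lit 936) (nat_lit 152) (nat_lit 0) (XT.nd (nat_lit 468) (nat_lit 0) (nat_lit 0) (XT.nd (nat_lit 234) (nat_lit 76) (nat_lit 0) (XT.nd (nat_lit 78) (nat_lit 0) (nat_lit 0) (XT.lf (nat_lit 0) (nat_lit 17170370262) (nat_lit 152) (nat_lit 17305174719) (nat_lit 0) (nat_lit 8532322093) (nat_lit 6) (nat_lit 5) (nat_lit 8) (nat_lit 4) (nat_lit 6) (nat_lit 4) (nat_lit 376) (nat_lit 220) (nat_lit 184)) (XT.nd (nat_lit 78) (nat_lit 0) (nat_lit 0) (XT.lf (nat_lit 0) (nat_lit 20171150385) (nat_lit 152) (nat_lit 12638305457) (nat_lit 0) (nat_lit 11400564415) (nat_lit 6) (nat_lit 5) (nat_lit 8) (nat_lit 4) (nat_lit 6) (nat_lit 4) (nat_lit 377) (nat_lit 220) (nat_lit 183)) (XT.lf (nat_lit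 0) (nat_lit 23227984999) (nat_lit 152) (nat_lit 7892569924) (nat_lit 0) (nat_lit 14328721552) (nat_lit 6) (nat_lit 5) (nat_lit 8) (nat_lit 4) (nat_lit 6) (nat_lit 4) (nat_lit 378) (nat_lit 220) (nat_lit 182)))) (XT.nd (nat_lit 78) (nat_lit 76) (nat_lit 0) (XT.lf (nat_lit 0) (nat_lit 26343545124) (nat_lit 152) (nat_lit 3063821362) (nat_lit 0) (nat_lit 17319352087) (nat_lit 6) (nat_lit 5) (nat_lit 8) (nat_lit 4) (nat_lit 6) (nat_lit 4) (nat_lit 379) (nat_lit 220) (nat_lit 181)) (XT.nd (nat_lit 78) (nat_lit 0) (nat_lit 0) (XT.lf (nat_lit 0) (nat_lit 1889021131) (nat_lit 76) (nat_lit 27649690388) (nat_lit 76) (nat_lit 18504206488) (nat_lit 5) (nat_lit 4) (nat_lit 6) (nat_lit 5) (nat_lit 6) (nat_lit 4) (nat_lit 380) (nat_lit 220) (nat_lit 180)) (XT.lf (nat_lit 0) (nat_lit 6996189102) (nat_lit 76) (nat_lit 25832847480) (nat_lit 76) (nat_lit 16569605460) (nat_lit 5) (nat_lit 4) (nat_lit 6) (nat_lit 5)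 (nat_lit 6) (nat_lit 4) (nat_lit 381) (nat_lit 220) (nat_lit 179))))) (XT.nd (nat_lit 234) (nat_lit 0) (nat_lit 0) (XT.nd (nat_lit 78) (nat_lit 0) (nat_lit 0) (XT.lf (nat_lit 0) (nat_lit 12201169073) (nat_lit 76) (nat_lit 23986188817) (nat_lit 76) (nat_lit 14608618525) (nat_lit 5) (nat_lit 4) (nat_lit 6) (nat_lit 5) (nat_lit 6) (nat_lit 4) (nat_lit 382) (nat_lit 220) (nat_lit 178)) (XT.nd (nat_lit 78) (nat_lit 0) (nat_lit 0) (XT.lf (nat_lit 0) (nat_lit 17508509084) (nat_lit 76) (nat_lit 22108100813) (nat_lit 76) (nat_lit 12619532199) (nat_lit 5) (nat_lit 4) (nat_lit 6) (nat_lit 5) (nat_lit 6) (nat_lit 4) (nat_lit 383) (nat_lit 220) (nat_lit 177)) (XT.lf (nat_lit 0) (nat_lit 22922846617) (nat_lit 76) (nat_lit 20196942421) (nat_lit 76) (nat_lit 10600608446) (nat_lit 5) (nat_lit 4) (nat_lit 6) (nat_lit 5) (nat_lit 6) (nat_lit 4) (nat_lit 384) (nat_lit 220) (nat_lit 176)))) (XT.nd (nat_lit 78) (nat_lit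 0) (nat_lit 0) (XT.lf (nat_lit 0) (nat_lit 28448912646) (nat_lit 76) (nat_lit 18251043697) (nat_lit 76) (nat_lit 8550083157) (nat_lit 5) (nat_lit 4) (nat_lit 6) (nat_lit 5) (nat_lit 6) (nat_lit 4) (nat_lit 385) (nat_lit 220) (nat_lit 175)) (XT.nd (nat_lit 78) (nat_lit 0) (nat_lit 0) (XT.lf (nat_lit 0) (nat_lit 34091535773) (nat_lit 76) (nat_lit 16268704340) (nat_lit 76) (nat_lit 6466164612) (nat_lit 5) (nat_lit 4) (nat_lit 6) (nat_lit 5) (nat_lit 6) (nat_lit 4) (nat_lit 386) (nat_lit 220) (nat_lit 174)) (XT.lf (nat_lit 0) (nat_lit 39855646445) (nat_lit 76) (nat_lit 14248192210) (nat_lit 76) (nat_lit 4347031910) (nat_lit 5) (nat_lit 4) (nat_lit 6) (nat_lit 5) (nat_lit 6) (nat_lit 4) (nat_lit 387) (nat_lit 220) (nat_lit 173)))))) (XT.nd (nat_lit 468) (nat_lit 0) (nat_lit 0) (XT.nd (nat_lit 234) (nat_lit 76) (nat_lit 0) (XT.nd (nat_lit 78) (nat_lit 76) (nat_lit 0) (XT.lf (nat_lit 0) (nat_lit 45746281263)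 (nat_lit 76) (nat_lit 12187741810) (nat_lit 76) (nat_lit 2190833383) (nat_lit 5) (nat_lit 4) (nat_lit 6) (nat_lit 5) (nat_lit 6) (nat_lit 4) (nat_lit 388) (nat_lit 220) (nat_lit 172)) (XT.nd (nat_lit 78) (nat_lit 0) (nat_lit 0) (XT.lf (nat_lit 0) (nat_lit 4230824) (nat_lit 152) (nat_lit 10081279199) (nat_lit 76) (nat_lit 51764313837) (nat_lit 4) (nat_lit 5) (nat_lit 6) (nat_lit 5) (nat_lit 5) (nat_lit 4) (nat_lit 389) (nat_lit 220) (nat_lit 171)) (XT.lf (nat_lit 0) (nat_lit 2196614474) (nat_lit 152) (nat_lit 5720992183) (nat_lit 76) (nat_lit 55709031045) (nat_lit 4) (nat_lit 5) (nat_lit 6) (nat_lit 5) (nat_lit 5) (nat_lit 4) (nat_lit 390) (nat_lit 220) (nat_lit 170)))) (XT.nd (nat_lit 78) (nat_lit 76) (nat_lit 0) (XT.lf (nat_lit 0) (nat_lit 4430984292) (nat_lit 152) (nat_lit 1272844555) (nat_lit 76) (nat_lit 59753653480) (nat_lit 4) (nat_lit 5) (nat_lit 6) (nat_lit 5) (nat_lit 5) (nat_lit 4) (nat_lit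 391) (nat_lit 220) (nat_lit 169)) (XT.nd (nat_lit 78) (nat_lit 0) (nat_lit 0) (XT.lf (nat_lit 0) (nat_lit 3332071125) (nat_lit 76) (nat_lit 3409251418) (nat_lit 152) (nat_lit 60601674058) (nat_lit 3) (nat_lit 5) (nat_lit 4) (nat_lit 5) (nat_lit 5) (nat_lit 4) (nat_lit 392) (nat_lit 220) (nat_lit 168)) (XT.lf (nat_lit 0) (nat_lit 8059938052) (nat_lit 76) (nat_lit 1051069271) (nat_lit 152) (nat_lit 60174379963) (nat_lit 3) (nat_lit 5) (nat_lit 4) (nat_lit 5) (nat_lit 5) (nat_lit 4) (nat_lit 393) (nat_lit 220) (nat_lit 167))))) (XT.nd (nat_lit 234) (nat_lit 0) (nat_lit 0) (XT.nd (nat_lit 78) (nat_lit 0) (nat_lit 0) (XT.lf (nat_lit 0) (nat_lit 11542702790) (nat_lit 152) (nat_lit 58410243143) (nat_lit 0) (nat_lit 1333387873) (nat_lit 3) (nat_lit 5) (nat_lit 5) (nat_lit 4) (nat_lit 3) (nat_lit 4) (nat_lit 394) (nat_lit 220) (nat_lit 166)) (XT.nd (nat_lit 78) (nat_lit 0) (nat_lit 0) (XT.lf (nat_lit 0)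 (nat_lit 14036081308) (nat_lit 152) (nat_lit 55560394893) (nat_lit 0) (nat_lit 3751181934) (nat_lit 3) (nat_lit 5) (nat_lit 5) (nat_lit 4) (nat_lit 3) (nat_lit 4) (nat_lit 395) (nat_lit 220) (nat_lit 165)) (XT.lf (nat_lit 0) (nat_lit 16583218035) (nat_lit 152) (nat_lit 52663310806) (nat_lit 0) (nat_lit 6224935694) (nat_lit 3) (nat_lit 5) (nat_lit 5) (nat_lit 4) (nat_lit 3) (nat_lit 4) (nat_lit 396) (nat_lit 220) (nat_lit 164)))) (XT.nd (nat_lit 78) (nat_lit 0) (nat_lit 0) (XT.lf (nat_lit 0) (nat_lit 19186338625) (nat_lit 152) (nat_lit 49716459449) (nat_lit 0) (nat_lit 8756810685) (nat_lit 3) (nat_lit 5) (nat_lit 5) (nat_lit 4) (nat_lit 3) (nat_lit 4) (nat_lit 397) (nat_lit 220) (nat_lit 163)) (XT.nd (nat_lit 78) (nat_lit 0) (nat_lit 0) (XT.lf (nat_lit 0) (nat_lit 21847717650) (nat_lit 152) (nat_lit 46717265902) (nat_lit 0) (nat_lit 11349019226) (nat_lit 3) (nat_lit 5) (nat_lit 5) (nat_lit 4) (nat_lit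 3) (nat_lit 4) (nat_lit 398) (nat_lit 220) (nat_lit 162)) (XT.lf (nat_lit 0) (nat_lit 24569680587) (nat_lit 152) (nat_lit 43663109513) (nat_lit 0) (nat_lit 14003826352) (nat_lit 3) (nat_lit 5) (nat_lit 5) (nat_lit 4) (nat_lit 3) (nat_lit 4) (nat_lit 399) (nat_lit 220) (nat_lit 161))))))))
noncomputable def xc23 : XT := (XT.nd (nat_lit 37206) (nat_lit 0) (nat_lit 228) (XT.nd (nat_lit 36270) (nat_lit 0) (nat_lit 684) (XT.nd (nat_lit 35802) (nat_lit 0) (nat_lit 1140) (XT.nd (nat_lit 156) (nat_lit 0) (nat_lit 0) (XT.nd (nat_lit 78) (nat_lit 0) (nat_lit 0) (XT.lf (nat_lit 0) (nat_lit 27354605849) (nat_lit 152) (nat_lit 40551321599) (nat_lit 0) (nat_lit 16723551799) (nat_lit 3) (nat_lit 5) (nat_lit 5) (nat_lit 4) (nat_lit 3) (nat_lit 4) (nat_lit 400) (nat_lit 220) (nat_lit 160)) (XT.lf (nat_lit 0) (nat_lit 30204926867) (nat_lit 152) (nat_lit 37379183124) (nat_lit 0) (nat_lit 19510572024) (nat_lit 3)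 (nat_lit 5) (nat_lit 5) (nat_lit 4) (nat_lit 3) (nat_lit 4) (nat_lit 401) (nat_lit 220) (nat_lit 159))) (XT.nd (nat_lit 78) (nat_lit 0) (nat_lit 0) (XT.lf (nat_lit 0) (nat_lit 33123134212) (nat_lit 152) (nat_lit 34143922316) (nat_lit 0) (nat_lit 22367322290) (nat_lit 3) (nat_lit 5) (nat_lit 5) (nat_lit 4) (nat_lit 3) (nat_lit 4) (nat_lit 402) (nat_lit 220) (nat_lit 158)) (XT.nd (nat_lit 78) (nat_lit 0) (nat_lit 0) (XT.lf (nat_lit 0) (nat_lit 36111777775) (nat_lit 152) (nat_lit 30842712248) (nat_lit 0) (nat_lit 25296298785) (nat_lit 3) (nat_lit 5) (nat_lit 5) (nat_lit 4) (nat_lit 3) (nat_lit 4) (nat_lit 403) (nat_lit 220) (nat_lit 157)) (XT.lf (nat_lit 0) (nat_lit 39173468991) (nat_lit 152) (nat_lit 27472668367) (nat_lit 0) (nat_lit 28300060809) (nat_lit 3) (nat_lit 5) (nat_lit 5) (nat_lit 4) (nat_lit 3) (nat_lit 4) (nat_lit 404) (nat_lit 220) (nat_lit 156))))) (XT.nd (nat_lit 234) (nat_lit 152)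 (nat_lit 0) (XT.nd (nat_lit 78) (nat_lit 152) (nat_lit 0) (XT.lf (nat_lit 0) (nat_lit 1996176632) (nat_lit 152) (nat_lit 3123587162) (nat_lit 152) (nat_lit 3123587162) (nat_lit 22) (nat_lit 4) (nat_lit 24) (nat_lit 5) (nat_lit 24) (nat_lit 4) (nat_lit 338) (nat_lit 221) (nat_lit 221)) (XT.nd (nat_lit 78) (nat_lit 152) (nat_lit 0) (XT.lf (nat_lit 0) (nat_lit 11083555380) (nat_lit 152) (nat_lit 3114617211) (nat_lit 152) (nat_lit 2655944186) (nat_lit 22) (nat_lit 4) (nat_lit 24) (nat_lit 5) (nat_lit 24) (nat_lit 4) (nat_lit 339) (nat_lit 221) (nat_lit 220)) (XT.lf (nat_lit 0) (nat_lit 952755925) (nat_lit 152) (nat_lit 16206560881) (nat_lit 0) (nat_lit 75098992) (nat_lit 20) (nat_lit 5) (nat_lit 22) (nat_lit 4) (nat_lit 20) (nat_lit 4) (nat_lit 340) (nat_lit 221) (nat_lit 219)))) (XT.nd (nat_lit 78) (nat_lit 152) (nat_lit 0) (XT.lf (nat_lit 0) (nat_lit 4625997350) (nat_lit 152) (nat_lit 9670521247)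 (nat_lit 0) (nat_lit 3328589623) (nat_lit 20) (nat_lit 5) (nat_lit 22) (nat_lit 4) (nat_lit 20) (nat_lit 4) (nat_lit 341) (nat_lit 221) (nat_lit 218)) (XT.nd (nat_lit 78) (nat_lit 152) (nat_lit 0) (XT.lf (nat_lit 0) (nat_lit 8331742876) (nat_lit 152) (nat_lit 3071360575) (nat_lit 0) (nat_lit 6626810107) (nat_lit 20) (nat_lit 5) (nat_lit 22) (nat_lit 4) (nat_lit 20) (nat_lit 4) (nat_lit 342) (nat_lit 221) (nat_lit 217)) (XT.lf (nat_lit 0) (nat_lit 3668268522) (nat_lit 152) (nat_lit 8440223651) (nat_lit 152) (nat_lit 6339635502) (nat_lit 18) (nat_lit 4) (nat_lit 20) (nat_lit 5) (nat_lit 20) (nat_lit 4) (nat_lit 343) (nat_lit 221) (nat_lit 216)))))) (XT.nd (nat_lit 468) (nat_lit 152) (nat_lit 0) (XT.nd (nat_lit 234) (nat_lit 152) (nat_lit 0) (XT.nd (nat_lit 78) (nat_lit 152) (nat_lit 0) (XT.lf (nat_lit 0) (nat_lit 10545224413) (nat_lit 152) (nat_lit 5409872317) (nat_lit 152) (nat_lit 2925152730) (nat_lit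 18) (nat_lit 4) (nat_lit 20) (nat_lit 5) (nat_lit 20) (nat_lit 4) (nat_lit 344) (nat_lit 221) (nat_lit 215)) (XT.nd (nat_lit 78) (nat_lit 76) (nat_lit 0) (XT.lf (nat_lit 0) (nat_lit 507153100) (nat_lit 228) (nat_lit 1828141935) (nat_lit 76) (nat_lit 16992115637) (nat_lit 17) (nat_lit 5) (nat_lit 20) (nat_lit 5) (nat_lit 18) (nat_lit 4) (nat_lit 345) (nat_lit 221) (nat_lit 214)) (XT.lf (nat_lit 0) (nat_lit 3967251737) (nat_lit 152) (nat_lit 14979123336) (nat_lit 0) (nat_lit 841287221) (nat_lit 16) (nat_lit 5) (nat_lit 18) (nat_lit 4) (nat_lit 16) (nat_lit 4) (nat_lit 346) (nat_lit 221) (nat_lit 213)))) (XT.nd (nat_lit 78) (nat_lit 152) (nat_lit 0) (XT.lf (nat_lit 0) (nat_lit 7502400360) (nat_lit 152) (nat_lit 8725095035) (nat_lit 0) (nat_lit 4035140038) (nat_lit 16) (nat_lit 5) (nat_lit 18) (nat_lit 4) (nat_lit 16) (nat_lit 4) (nat_lit 347) (nat_lit 221) (nat_lit 212)) (XT.nd (nat_lit 78) (nat_lit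 152) (nat_lit 0) (XT.lf (nat_lit 0) (nat_lit 11075139234) (nat_lit 152) (nat_lit 2402298580) (nat_lit 0) (nat_lit 7276523759) (nat_lit 16) (nat_lit 5) (nat_lit 18) (nat_lit 4) (nat_lit 16) (nat_lit 4) (nat_lit 348) (nat_lit 221) (nat_lit 211)) (XT.lf (nat_lit 0) (nat_lit 4074294972) (nat_lit 152) (nat_lit 10653459813) (nat_lit 152) (nat_lit 6533140307) (nat_lit 14) (nat_lit 4) (nat_lit 16) (nat_lit 5) (nat_lit 16) (nat_lit 4) (nat_lit 349) (nat_lit 221) (nat_lit 210))))) (XT.nd (nat_lit 234) (nat_lit 0) (nat_lit 0) (XT.nd (nat_lit 78) (nat_lit 152) (nat_lit 0) (XT.lf (nat_lit 0) (nat_lit 10680171416) (nat_lit 152) (nat_lit 7768403476) (nat_lit 152) (nat_lit 3335749960) (nat_lit 14) (nat_lit 4) (nat_lit 16) (nat_lit 5) (nat_lit 16) (nat_lit 4) (nat_lit 350) (nat_lit 221) (nat_lit 209)) (XT.nd (nat_lit 78) (nat_lit 152) (nat_lit 0) (XT.lf (nat_lit 0) (nat_lit 17373292424) (nat_lit 152) (nat_lit 4844006387)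 (nat_lit 152) (nat_lit 108115967) (nat_lit 14) (nat_lit 4) (nat_lit 16) (nat_lit 5) (nat_lit 16) (nat_lit 4) (nat_lit 351) (nat_lit 221) (nat_lit 208)) (XT.lf (nat_lit 0) (nat_lit 1269333406) (nat_lit 76) (nat_lit 1833931907) (nat_lit 152) (nat_lit 19780097168) (nat_lit 12) (nat_lit 5) (nat_lit 13) (nat_lit 5) (nat_lit 14) (nat_lit 4) (nat_lit 352) (nat_lit 221) (nat_lit 207)))) (XT.nd (nat_lit 78) (nat_lit 0) (nat_lit 0) (XT.lf (nat_lit 0) (nat_lit 6409309543) (nat_lit 152) (nat_lit 15800710808) (nat_lit 0) (nat_lit 1248023090) (nat_lit 12) (nat_lit 5) (nat_lit 14) (nat_lit 4) (nat_lit 12) (nat_lit 4) (nat_lit 353) (nat_lit 221) (nat_lit 206)) (XT.nd (nat_lit 78) (nat_lit 0) (nat_lit 0) (XT.lf (nat_lit 0) (nat_lit 9772322792) (nat_lit 152) (nat_lit 9937334689) (nat_lit 0) (nat_lit 4341614278) (nat_lit 12) (nat_lit 5) (nat_lit 14) (nat_lit 4) (nat_lit 12) (nat_lit 4) (nat_lit 354) (nat_lit 221)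 (nat_lit 205)) (XT.lf (nat_lit 0) (nat_lit 13177614741) (nat_lit 152) (nat_lit 4001148505) (nat_lit 0) (nat_lit 7485331409) (nat_lit 12) (nat_lit 5) (nat_lit 14) (nat_lit 4) (nat_lit 12) (nat_lit 4) (nat_lit 355) (nat_lit 221) (nat_lit 204))))))) (XT.nd (nat_lit 936) (nat_lit 152) (nat_lit 0) (XT.nd (nat_lit 468) (nat_lit 76) (nat_lit 0) (XT.nd (nat_lit 234) (nat_lit 152) (nat_lit 0) (XT.nd (nat_lit 78) (nat_lit 0) (nat_lit 0) (XT.lf (nat_lit 0) (nat_lit 2053098041) (nat_lit 76) (nat_lit 14594798479) (nat_lit 76) (nat_lit 8648559015) (nat_lit 11) (nat_lit 4) (nat_lit 12) (nat_lit 5) (nat_lit 12) (nat_lit 4) (nat_lit 356) (nat_lit 221) (nat_lit 203)) (XT.nd (nat_lit 78) (nat_lit 0) (nat_lit 0) (XT.lf (nat_lit 0) (nat_lit 8271884304) (nat_lit 76) (nat_lit 11934606376) (nat_lit 76) (nat_lit 5741807559) (nat_lit 11) (nat_lit 4) (nat_lit 12) (nat_lit 5) (nat_lit 12) (nat_lit 4) (nat_lit 357) (nat_lit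 221) (nat_lit 202)) (XT.lf (nat_lit 0) (nat_lit 14581013475) (nat_lit 76) (nat_lit 9236266252) (nat_lit 76) (nat_lit 2804089423) (nat_lit 11) (nat_lit 4) (nat_lit 12) (nat_lit 5) (nat_lit 12) (nat_lit 4) (nat_lit 358) (nat_lit 221) (nat_lit 201)))) (XT.nd (nat_lit 78) (nat_lit 76) (nat_lit 0) (XT.lf (nat_lit 0) (nat_lit 163900392) (nat_lit 152) (nat_lit 6331864869) (nat_lit 76) (nat_lit 20820442920) (nat_lit 10) (nat_lit 5) (nat_lit 12) (nat_lit 5) (nat_lit 11) (nat_lit 4) (nat_lit 359) (nat_lit 221) (nat_lit 200)) (XT.nd (nat_lit 78) (nat_lit 76) (nat_lit 0) (XT.lf (nat_lit 0) (nat_lit 3112597158) (nat_lit 152) (nat_lit 571647169) (nat_lit 76) (nat_lit 24348407335) (nat_lit 10) (nat_lit 5) (nat_lit 12) (nat_lit 5) (nat_lit 11) (nat_lit 4) (nat_lit 360) (nat_lit 221) (nat_lit 199)) (XT.lf (nat_lit 0) (nat_lit 5377214062) (nat_lit 76) (nat_lit 773770299) (nat_lit 152) (nat_lit 22619599217) (nat_lit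 9) (nat_lit 5) (nat_lit 10) (nat_lit 5) (nat_lit 11) (nat_lit 4) (nat_lit 361) (nat_lit 221) (nat_lit 198))))) (XT.nd (nat_lit 234) (nat_lit 76) (nat_lit 0) (XT.nd (nat_lit 78) (nat_lit 0) (nat_lit 0) (XT.lf (nat_lit 0) (nat_lit 9257524683) (nat_lit 152) (nat_lit 18125032363) (nat_lit 0) (nat_lit 2148817445) (nat_lit 9) (nat_lit 5) (nat_lit 11) (nat_lit 4) (nat_lit 9) (nat_lit 4) (nat_lit 362) (nat_lit 221) (nat_lit 197)) (XT.nd (nat_lit 78) (nat_lit 0) (nat_lit 0) (XT.lf (nat_lit 0) (nat_lit 12416177853) (nat_lit 152) (nat_lit 12793078662) (nat_lit 0) (nat_lit 5106995298) (nat_lit 9) (nat_lit 5) (nat_lit 11) (nat_lit 4) (nat_lit 9) (nat_lit 4) (nat_lit 363) (nat_lit 221) (nat_lit 196)) (XT.lf (nat_lit 0) (nat_lit 15622265905) (nat_lit 152) (nat_lit 7385411470) (nat_lit 0) (nat_lit 8118447120) (nat_lit 9) (nat_lit 5) (nat_lit 11) (nat_lit 4) (nat_lit 9) (nat_lit 4) (nat_lit 364) (nat_lit 221) (nat_lit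 195)))) (XT.nd (nat_lit 78) (nat_lit 76) (nat_lit 0) (XT.lf (nat_lit 0) (nat_lit 18878590275) (nat_lit 152) (nat_lit 1897305642) (nat_lit 0) (nat_lit 11185804278) (nat_lit 9) (nat_lit 5) (nat_lit 11) (nat_lit 4) (nat_lit 9) (nat_lit 4) (nat_lit 365) (nat_lit 221) (nat_lit 194)) (XT.nd (nat_lit 78) (nat_lit 0) (nat_lit 0) (XT.lf (nat_lit 0) (nat_lit 3749194544) (nat_lit 76) (nat_lit 18474841304) (nat_lit 76) (nat_lit 10598591993) (nat_lit 8) (nat_lit 4) (nat_lit 9) (nat_lit 5) (nat_lit 9) (nat_lit 4) (nat_lit 366) (nat_lit 221) (nat_lit 193)) (XT.lf (nat_lit 0) (nat_lit 9525352056) (nat_lit 76) (nat_lit 16119587137) (nat_lit 76) (nat_lit 8065218104) (nat_lit 8) (nat_lit 4) (nat_lit 9) (nat_lit 5) (nat_lit 9) (nat_lit 4) (nat_lit 367) (nat_lit 221) (nat_lit 192)))))) (XT.nd (nat_lit 468) (nat_lit 0) (nat_lit 0) (XT.nd (nat_lit 234) (nat_lit 152) (nat_lit 0) (XT.nd (nat_lit 78) (nat_lit 0) (nat_lit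 0) (XT.lf (nat_lit 0) (nat_lit 15398453919) (nat_lit 76) (nat_lit 13727234495) (nat_lit 76) (nat_lit 5499933692) (nat_lit 8) (nat_lit 4) (nat_lit 9) (nat_lit 5) (nat_lit 9) (nat_lit 4) (nat_lit 368) (nat_lit 221) (nat_lit 191)) (XT.nd (nat_lit 78) (nat_lit 0) (nat_lit 0) (XT.lf (nat_lit 0) (nat_lit 21373631970) (nat_lit 76) (nat_lit 11295692972) (nat_lit 76) (nat_lit 2900497248) (nat_lit 8) (nat_lit 4) (nat_lit 9) (nat_lit 5) (nat_lit 9) (nat_lit 4) (nat_lit 369) (nat_lit 221) (nat_lit 190)) (XT.lf (nat_lit 0) (nat_lit 27456107238) (nat_lit 76) (nat_lit 8822837921) (nat_lit 76) (nat_lit 264637419) (nat_lit 8) (nat_lit 4) (nat_lit 9) (nat_lit 5) (nat_lit 9) (nat_lit 4) (nat_lit 370) (nat_lit 221) (nat_lit 189)))) (XT.nd (nat_lit 78) (nat_lit 76) (nat_lit 0) (XT.lf (nat_lit 0) (nat_lit 2362922188) (nat_lit 152) (nat_lit 3919725524) (nat_lit 76) (nat_lit 31264411437) (nat_lit 7) (nat_lit 5) (nat_lit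 9) (nat_lit 5) (nat_lit 8) (nat_lit 4) (nat_lit 371) (nat_lit 221) (nat_lit 188)) (XT.nd (nat_lit 78) (nat_lit 0) (nat_lit 0) (XT.lf (nat_lit 0) (nat_lit 1358328172) (nat_lit 76) (nat_lit 3680308959) (nat_lit 152) (nat_lit 33542707315) (nat_lit 6) (nat_lit 5) (nat_lit 7) (nat_lit 5) (nat_lit 8) (nat_lit 4) (nat_lit 372) (nat_lit 221) (nat_lit 187)) (XT.lf (nat_lit 0) (nat_lit 6807132383) (nat_lit 76) (nat_lit 989128725) (nat_lit 152) (nat_lit 31850369866) (nat_lit 6) (nat_lit 5) (nat_lit 7) (nat_lit 5) (nat_lit 8) (nat_lit 4) (nat_lit 373) (nat_lit 221) (nat_lit 186))))) (XT.nd (nat_lit 234) (nat_lit 0) (nat_lit 0) (XT.nd (nat_lit 78) (nat_lit 0) (nat_lit 0) (XT.lf (nat_lit 0) (nat_lit 10616632295) (nat_lit 152) (nat_lit 28408421736) (nat_lit 0) (nat_lit 1719442681) (nat_lit 6) (nat_lit 5) (nat_lit 8) (nat_lit 4) (nat_lit 6) (nat_lit 4) (nat_lit 374) (nat_lit 221) (nat_lit 185)) (XT.nd (nat_lit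 78) (nat_lit 0) (nat_lit 0) (XT.lf (nat_lit 0) (nat_lit 13495370351) (nat_lit 152) (nat_lit 23919069149) (nat_lit 0) (nat_lit 4461666801) (nat_lit 6) (nat_lit 5) (nat_lit 8) (nat_lit 4) (nat_lit 6) (nat_lit 4) (nat_lit 375) (nat_lit 221) (nat_lit 184)) (XT.lf (nat_lit 0) (nat_lit 16425482567) (nat_lit 152) (nat_lit 19358009986) (nat_lit 0) (nat_lit 7259241216) (nat_lit 6) (nat_lit 5) (nat_lit 8) (nat_lit 4) (nat_lit 6) (nat_lit 4) (nat_lit 376) (nat_lit 221) (nat_lit 183)))) (XT.nd (nat_lit 78) (nat_lit 0) (nat_lit 0) (XT.lf (nat_lit 0) (nat_lit 19409529235) (nat_lit 152) (nat_lit 14721258855) (nat_lit 0) (nat_lit 10114610408) (nat_lit 6) (nat_lit 5) (nat_lit 8) (nat_lit 4) (nat_lit 6) (nat_lit 4) (nat_lit 377) (nat_lit 221) (nat_lit 182)) (XT.nd (nat_lit 78) (nat_lit 0) (nat_lit 0) (XT.lf (nat_lit 0) (nat_lit 22450117777) (nat_lit 152) (nat_lit 10004764227) (nat_lit 0) (nat_lit 13030269359) (nat_lit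 6) (nat_lit 5) (nat_lit 8) (nat_lit 4) (nat_lit 6) (nat_lit 4) (nat_lit 378) (nat_lit 221) (nat_lit 181)) (XT.lf (nat_lit 0) (nat_lit 25549905015) (nat_lit 152) (nat_lit 5204404892) (nat_lit 0) (nat_lit 16008765734) (nat_lit 6) (nat_lit 5) (nat_lit 8) (nat_lit 4) (nat_lit 6) (nat_lit 4) (nat_lit 379) (nat_lit 221) (nat_lit 180))))))))
noncomputable def xc24 : XT := (XT.nd (nat_lit 1794) (nat_lit 0) (nat_lit 0) (XT.nd (nat_lit 858) (nat_lit 76) (nat_lit 0) (XT.nd (nat_lit 390) (nat_lit 76) (nat_lit 0) (XT.nd (nat_lit 156) (nat_lit 0) (nat_lit 0) (XT.nd (nat_lit 78) (nat_lit 76) (nat_lit 0) (XT.lf (nat_lit 0) (nat_lit 28711599502) (nat_lit 152) (nat_lit 315986362) (nat_lit 0) (nat_lit 19052702102) (nat_lit 6) (nat_lit 5) (nat_lit 8) (nat_lit 4) (nat_lit 6) (nat_lit 4) (nat_lit 380) (nat_lit 221) (nat_lit 179)) (XT.lf (nat_lit 0) (nat_lit 4757600722) (nat_lit 76) (nat_lit 27226096131) (nat_lit 76)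 (nat_lit 17452870459) (nat_lit 5) (nat_lit 4) (nat_lit 6) (nat_lit 5) (nat_lit 6) (nat_lit 4) (nat_lit 381) (nat_lit 221) (nat_lit 178))) (XT.nd (nat_lit 78) (nat_lit 0) (nat_lit 0) (XT.lf (nat_lit 0) (nat_lit 9936083472) (nat_lit 76) (nat_lit 25391245556) (nat_lit 76) (nat_lit 15507021562) (nat_lit 5) (nat_lit 4) (nat_lit 6) (nat_lit 5) (nat_lit 6) (nat_lit 4) (nat_lit 382) (nat_lit 221) (nat_lit 177)) (XT.nd (nat_lit 78) (nat_lit 0) (nat_lit 0) (XT.lf (nat_lit 0) (nat_lit 15217698026) (nat_lit 76) (nat_lit 23524621716) (nat_lit 76) (nat_lit 13532632360) (nat_lit 5) (nat_lit 4) (nat_lit 6) (nat_lit 5) (nat_lit 6) (nat_lit 4) (nat_lit 383) (nat_lit 221) (nat_lit 176)) (XT.lf (nat_lit 0) (nat_lit 20607059386) (nat_lit 76) (nat_lit 21624593579) (nat_lit 76) (nat_lit 11527977659) (nat_lit 5) (nat_lit 4) (nat_lit 6) (nat_lit 5) (nat_lit 6) (nat_lit 4) (nat_lit 384) (nat_lit 221) (nat_lit 175))))) (XT.nd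 (nat_lit 234) (nat_lit 76) (nat_lit 0) (XT.nd (nat_lit 78) (nat_lit 0) (nat_lit 0) (XT.lf (nat_lit 0) (nat_lit 26108876704) (nat_lit 76) (nat_lit 19689500929) (nat_lit 76) (nat_lit 9491305820) (nat_lit 5) (nat_lit 4) (nat_lit 6) (nat_lit 5) (nat_lit 6) (nat_lit 4) (nat_lit 385) (nat_lit 221) (nat_lit 174)) (XT.nd (nat_lit 78) (nat_lit 0) (nat_lit 0) (XT.lf (nat_lit 0) (nat_lit 31727957393) (nat_lit 76) (nat_lit 17717652905) (nat_lit 76) (nat_lit 7420837225) (nat_lit 5) (nat_lit 4) (nat_lit 6) (nat_lit 5) (nat_lit 6) (nat_lit 4) (nat_lit 386) (nat_lit 221) (nat_lit 173)) (XT.lf (nat_lit 0) (nat_lit 37469211329) (nat_lit 76) (nat_lit 15707326536) (nat_lit 76) (nat_lit 5314762728) (nat_lit 5) (nat_lit 4) (nat_lit 6) (nat_lit 5) (nat_lit 6) (nat_lit 4) (nat_lit 387) (nat_lit 221) (nat_lit 172)))) (XT.nd (nat_lit 78) (nat_lit 76) (nat_lit 0) (XT.lf (nat_lit 0) (nat_lit 43337655142) (nat_lit 76) (nat_lit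 13656765224) (nat_lit 76) (nat_lit 3171242070) (nat_lit 5) (nat_lit 4) (nat_lit 6) (nat_lit 5) (nat_lit 6) (nat_lit 4) (nat_lit 388) (nat_lit 221) (nat_lit 171)) (XT.nd (nat_lit 78) (nat_lit 76) (nat_lit 0) (XT.lf (nat_lit 0) (nat_lit 49338416598) (nat_lit 76) (nat_lit 11564177218) (nat_lit 76) (nat_lit 988402270) (nat_lit 5) (nat_lit 4) (nat_lit 6) (nat_lit 5) (nat_lit 6) (nat_lit 4) (nat_lit 389) (nat_lit 221) (nat_lit 170)) (XT.lf (nat_lit 0) (nat_lit 1211551750) (nat_lit 152) (nat_lit 8203947994) (nat_lit 76) (nat_lit 54252953033) (nat_lit 4) (nat_lit 5) (nat_lit 6) (nat_lit 5) (nat_lit 5) (nat_lit 4) (nat_lit 390) (nat_lit 221) (nat_lit 169)))))) (XT.nd (nat_lit 468) (nat_lit 0) (nat_lit 0) (XT.nd (nat_lit 234) (nat_lit 0) (nat_lit 0) (XT.nd (nat_lit 78) (nat_lit 76) (nat_lit 0) (XT.lf (nat_lit 0) (nat_lit 3434545919) (nat_lit 152) (nat_lit 3776340802) (nat_lit 76) (nat_lit 58288758074) (nat_lit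 4) (nat_lit 5) (nat_lit 6) (nat_lit 5) (nat_lit 5) (nat_lit 4) (nat_lit 391) (nat_lit 221) (nat_lit 168)) (XT.nd (nat_lit 78) (nat_lit 0) (nat_lit 0) (XT.lf (nat_lit 0) (nat_lit 758411334) (nat_lit 76) (nat_lit 4950688926) (nat_lit 152) (nat_lit 61677138275) (nat_lit 3) (nat_lit 5) (nat_lit 4) (nat_lit 5) (nat_lit 5) (nat_lit 4) (nat_lit 392) (nat_lit 221) (nat_lit 167)) (XT.lf (nat_lit 0) (nat_lit 5466531601) (nat_lit 76) (nat_lit 2601340983) (nat_lit 152) (nat_lit 61261089783) (nat_lit 3) (nat_lit 5) (nat_lit 4) (nat_lit 5) (nat_lit 5) (nat_lit 4) (nat_lit 393) (nat_lit 221) (nat_lit 166)))) (XT.nd (nat_lit 78) (nat_lit 0) (nat_lit 0) (XT.lf (nat_lit 0) (nat_lit 10276977302) (nat_lit 76) (nat_lit 198923701) (nat_lit 152) (nat_lit 60854723501) (nat_lit 3) (nat_lit 5) (nat_lit 4) (nat_lit 5) (nat_lit 5) (nat_lit 4) (nat_lit 394) (nat_lit 221) (nat_lit 165)) (XT.nd (nat_lit 78) (nat_lit 0) (nat_lit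 0) (XT.lf (nat_lit 0) (nat_lit 12957001263) (nat_lit 152) (nat_lit 58220733875) (nat_lit 0) (nat_lit 2214587484) (nat_lit 3) (nat_lit 5) (nat_lit 5) (nat_lit 4) (nat_lit 3) (nat_lit 4) (nat_lit 395) (nat_lit 221) (nat_lit 164)) (XT.lf (nat_lit 0) (nat_lit 15494073833) (nat_lit 152) (nat_lit 55341947941) (nat_lit 0) (nat_lit 4680414456) (nat_lit 3) (nat_lit 5) (nat_lit 5) (nat_lit 4) (nat_lit 3) (nat_lit 4) (nat_lit 396) (nat_lit 221) (nat_lit 163))))) (XT.nd (nat_lit 234) (nat_lit 0) (nat_lit 0) (XT.nd (nat_lit 78) (nat_lit 0) (nat_lit 0) (XT.lf (nat_lit 0) (nat_lit 18087423397) (nat_lit 152) (nat_lit 52412861782) (nat_lit 0) (nat_lit 7204593535) (nat_lit 3) (nat_lit 5) (nat_lit 5) (nat_lit 4) (nat_lit 3) (nat_lit 4) (nat_lit 397) (nat_lit 221) (nat_lit 162)) (XT.nd (nat_lit 78) (nat_lit 0) (nat_lit 0) (XT.lf (nat_lit 0) (nat_lit 20739315989) (nat_lit 152) (nat_lit 49430916001) (nat_lit 0) (nat_lit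 9789330317) (nat_lit 3) (nat_lit 5) (nat_lit 5) (nat_lit 4) (nat_lit 3) (nat_lit 4) (nat_lit 398) (nat_lit 221) (nat_lit 161)) (XT.lf (nat_lit 0) (nat_lit 23452068797) (nat_lit 152) (nat_lit 46393505014) (nat_lit 0) (nat_lit 12436883308) (nat_lit 3) (nat_lit 5) (nat_lit 5) (nat_lit 4) (nat_lit 3) (nat_lit 4) (nat_lit 399) (nat_lit 221) (nat_lit 160)))) (XT.nd (nat_lit 78) (nat_lit 0) (nat_lit 0) (XT.lf (nat_lit 0) (nat_lit 26228052186) (nat_lit 152) (nat_lit 43297974773) (nat_lit 0) (nat_lit 15149565906) (nat_lit 3) (nat_lit 5) (nat_lit 5) (nat_lit 4) (nat_lit 3) (nat_lit 4) (nat_lit 400) (nat_lit 221) (nat_lit 159)) (XT.nd (nat_lit 78) (nat_lit 0) (nat_lit 0) (XT.lf (nat_lit 0) (nat_lit 29069691774) (nat_lit 152) (nat_lit 40141620447) (nat_lit 0) (nat_lit 17929748414) (nat_lit 3) (nat_lit 5) (nat_lit 5) (nat_lit 4) (nat_lit 3) (nat_lit 4) (nat_lit 401) (nat_lit 221) (nat_lit 158)) (XT.lf (nat_lit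 0) (nat_lit 31979470546) (nat_lit 152) (nat_lit 36921684054) (nat_lit 0) (nat_lit 20779860118) (nat_lit 3) (nat_lit 5) (nat_lit 5) (nat_lit 4) (nat_lit 3) (nat_lit 4) (nat_lit 402) (nat_lit 221) (nat_lit 157))))))) (XT.nd (nat_lit 36192) (nat_lit 0) (nat_lit 608) (XT.nd (nat_lit 35724) (nat_lit 0) (nat_lit 1064) (XT.nd (nat_lit 35490) (nat_lit 0) (nat_lit 1444) (XT.nd (nat_lit 78) (nat_lit 0) (nat_lit 0) (XT.lf (nat_lit 0) (nat_lit 34959931028) (nat_lit 152) (nat_lit 33635352060) (nat_lit 0) (nat_lit 23702391408) (nat_lit 3) (nat_lit 5) (nat_lit 5) (nat_lit 4) (nat_lit 3) (nat_lit 4) (nat_lit 403) (nat_lit 221) (nat_lit 156)) (XT.nd (nat_lit 35334) (nat_lit 0) (nat_lit 1596) (XT.lf (nat_lit 0) (nat_lit 38013677505) (nat_lit 152) (nat_lit 30279752911) (nat_lit 0) (nat_lit 26699895952) (nat_lit 3) (nat_lit 5) (nat_lit 5) (nat_lit 4) (nat_lit 3) (nat_lit 4) (nat_lit 404) (nat_lit 221) (nat_lit 155))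 (XT.lf (nat_lit 0) (nat_lit 1517500833) (nat_lit 228) (nat_lit 4858446933) (nat_lit 0) (nat_lit 1517500833) (nat_lit 24) (nat_lit 5) (nat_lit 27) (nat_lit 4) (nat_lit 24) (nat_lit 4) (nat_lit 336) (nat_lit 222) (nat_lit 222)))) (XT.nd (nat_lit 78) (nat_lit 152) (nat_lit 0) (XT.lf (nat_lit 0) (nat_lit 6818030592) (nat_lit 228) (nat_lit 2967945091) (nat_lit 0) (nat_lit 6345597376) (nat_lit 24) (nat_lit 5) (nat_lit 27) (nat_lit 4) (nat_lit 24) (nat_lit 4) (nat_lit 337) (nat_lit 222) (nat_lit 221)) (XT.nd (nat_lit 78) (nat_lit 0) (nat_lit 0) (XT.lf (nat_lit 0) (nat_lit 3924005897) (nat_lit 152) (nat_lit 6747524591) (nat_lit 152) (nat_lit 5816418350) (nat_lit 22) (nat_lit 4) (nat_lit 24) (nat_lit 5) (nat_lit 24) (nat_lit 4) (nat_lit 338) (nat_lit 222) (nat_lit 220)) (XT.lf (nat_lit 0) (nat_lit 10948851345) (nat_lit 152) (nat_lit 3642071409) (nat_lit 152) (nat_lit 2265651552) (nat_lit 22) (nat_lit 4)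 (nat_lit 24) (nat_lit 5) (nat_lit 24) (nat_lit 4) (nat_lit 339) (nat_lit 222) (nat_lit 219))))) (XT.nd (nat_lit 234) (nat_lit 228) (nat_lit 0) (XT.nd (nat_lit 78) (nat_lit 0) (nat_lit 0) (XT.lf (nat_lit 0) (nat_lit 818375820) (nat_lit 76) (nat_lit 475781319) (nat_lit 152) (nat_lit 15943873026) (nat_lit 20) (nat_lit 5) (nat_lit 21) (nat_lit 5) (nat_lit 22) (nat_lit 4) (nat_lit 340) (nat_lit 222) (nat_lit 218)) (XT.nd (nat_lit 78) (nat_lit 0) (nat_lit 0) (XT.lf (nat_lit 0) (nat_lit 4924552579) (nat_lit 152) (nat_lit 9944538822) (nat_lit 0) (nat_lit 2760946786) (nat_lit 20) (nat_lit 5) (nat_lit 22) (nat_lit 4) (nat_lit 20) (nat_lit 4) (nat_lit 341) (nat_lit 222) (nat_lit 217)) (XT.lf (nat_lit 0) (nat_lit 8593140354) (nat_lit 152) (nat_lit 3408968064) (nat_lit 0) (nat_lit 6033879180) (nat_lit 20) (nat_lit 5) (nat_lit 22) (nat_lit 4) (nat_lit 20) (nat_lit 4) (nat_lit 342) (nat_lit 222) (nat_lit 216))))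 (XT.nd (nat_lit 78) (nat_lit 76) (nat_lit 0) (XT.lf (nat_lit 0) (nat_lit 3260975499) (nat_lit 152) (nat_lit 9068923517) (nat_lit 152) (nat_lit 6125530905) (nat_lit 18) (nat_lit 4) (nat_lit 20) (nat_lit 5) (nat_lit 20) (nat_lit 4) (nat_lit 343) (nat_lit 222) (nat_lit 215)) (XT.nd (nat_lit 78) (nat_lit 76) (nat_lit 0) (XT.lf (nat_lit 0) (nat_lit 10076798882) (nat_lit 152) (nat_lit 6064092303) (nat_lit 152) (nat_lit 2747756549) (nat_lit 18) (nat_lit 4) (nat_lit 20) (nat_lit 5) (nat_lit 20) (nat_lit 4) (nat_lit 344) (nat_lit 222) (nat_lit 214)) (XT.lf (nat_lit 0) (nat_lit 646143855) (nat_lit 228) (nat_lit 2366744449) (nat_lit 76) (nat_lit 16323943867) (nat_lit 17) (nat_lit 5) (nat_lit 20) (nat_lit 5) (nat_lit 18) (nat_lit 4) (nat_lit 345) (nat_lit 222) (nat_lit 213)))))) (XT.nd (nat_lit 468) (nat_lit 228) (nat_lit 0) (XT.nd (nat_lit 234) (nat_lit 152) (nat_lit 0) (XT.nd (nat_lit 78) (nat_lit 0) (nat_lit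 0) (XT.lf (nat_lit 0) (nat_lit 4059658356) (nat_lit 152) (nat_lit 15591763854) (nat_lit 0) (nat_lit 147084417) (nat_lit 16) (nat_lit 5) (nat_lit 18) (nat_lit 4) (nat_lit 16) (nat_lit 4) (nat_lit 346) (nat_lit 222) (nat_lit 212)) (XT.nd (nat_lit 78) (nat_lit 0) (nat_lit 0) (XT.lf (nat_lit 0) (nat_lit 7561080768) (nat_lit 152) (nat_lit 9396283679) (nat_lit 0) (nat_lit 3317151677) (nat_lit 16) (nat_lit 5) (nat_lit 18) (nat_lit 4) (nat_lit 16) (nat_lit 4) (nat_lit 347) (nat_lit 222) (nat_lit 211)) (XT.lf (nat_lit 0) (nat_lit 11101075748) (nat_lit 152) (nat_lit 3130330064) (nat_lit 0) (nat_lit 6535442626) (nat_lit 16) (nat_lit 5) (nat_lit 18) (nat_lit 4) (nat_lit 16) (nat_lit 4) (nat_lit 348) (nat_lit 222) (nat_lit 210)))) (XT.nd (nat_lit 78) (nat_lit 0) (nat_lit 0) (XT.lf (nat_lit 0) (nat_lit 3275488677) (nat_lit 152) (nat_lit 11438733819) (nat_lit 152) (nat_lit 6560766686) (nat_lit 14) (nat_lit 4)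 (nat_lit 16) (nat_lit 5) (nat_lit 16) (nat_lit 4) (nat_lit 349) (nat_lit 222) (nat_lit 209)) (XT.nd (nat_lit 78) (nat_lit 0) (nat_lit 0) (XT.lf (nat_lit 0) (nat_lit 9826718949) (nat_lit 152) (nat_lit 8576934102) (nat_lit 152) (nat_lit 3395730065) (nat_lit 14) (nat_lit 4) (nat_lit 16) (nat_lit 5) (nat_lit 16) (nat_lit 4) (nat_lit 350) (nat_lit 222) (nat_lit 208)) (XT.lf (nat_lit 0) (nat_lit 16466785421) (nat_lit 152) (nat_lit 5675116255) (nat_lit 152) (nat_lit 199507458) (nat_lit 14) (nat_lit 4) (nat_lit 16) (nat_lit 5) (nat_lit 16) (nat_lit 4) (nat_lit 351) (nat_lit 222) (nat_lit 207))))) (XT.nd (nat_lit 234) (nat_lit 76) (nat_lit 0) (XT.nd (nat_lit 78) (nat_lit 0) (nat_lit 0) (XT.lf (nat_lit 0) (nat_lit 276206134) (nat_lit 76) (nat_lit 2698003125) (nat_lit 152) (nat_lit 19926377951) (nat_lit 12) (nat_lit 5) (nat_lit 13) (nat_lit 5) (nat_lit 14) (nat_lit 4) (nat_lit 352) (nat_lit 222) (nat_lit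 206)) (XT.nd (nat_lit 78) (nat_lit 0) (nat_lit 0) (XT.lf (nat_lit 0) (nat_lit 6242208567) (nat_lit 152) (nat_lit 16855064194) (nat_lit 0) (nat_lit 379156736) (nat_lit 12) (nat_lit 5) (nat_lit 14) (nat_lit 4) (nat_lit 12) (nat_lit 4) (nat_lit 353) (nat_lit 222) (nat_lit 205)) (XT.lf (nat_lit 0) (nat_lit 9576349059) (nat_lit 152) (nat_lit 11042471926) (nat_lit 0) (nat_lit 3451722410) (nat_lit 12) (nat_lit 5) (nat_lit 14) (nat_lit 4) (nat_lit 12) (nat_lit 4) (nat_lit 354) (nat_lit 222) (nat_lit 204)))) (XT.nd (nat_lit 78) (nat_lit 76) (nat_lit 0) (XT.lf (nat_lit 0) (nat_lit 12953609203) (nat_lit 152) (nat_lit 5155590452) (nat_lit 0) (nat_lit 6575026422) (nat_lit 12) (nat_lit 5) (nat_lit 14) (nat_lit 4) (nat_lit 12) (nat_lit 4) (nat_lit 355) (nat_lit 222) (nat_lit 203)) (XT.nd (nat_lit 78) (nat_lit 0) (nat_lit 0) (XT.lf (nat_lit 0) (nat_lit 826859105) (nat_lit 76) (nat_lit 15558029176) (nat_lit 76)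 (nat_lit 8932887042) (nat_lit 11) (nat_lit 4) (nat_lit 12) (nat_lit 5) (nat_lit 12) (nat_lit 4) (nat_lit 356) (nat_lit 222) (nat_lit 202)) (XT.lf (nat_lit 0) (nat_lit 6998246018) (nat_lit 76) (nat_lit 12918358128) (nat_lit 76) (nat_lit 6053837982) (nat_lit 11) (nat_lit 4) (nat_lit 12) (nat_lit 5) (nat_lit 12) (nat_lit 4) (nat_lit 357) (nat_lit 222) (nat_lit 201))))))))
noncomputable def xc25 : XT := (XT.nd (nat_lit 1794) (nat_lit 228) (nat_lit 0) (XT.nd (nat_lit 858) (nat_lit 152) (nat_lit 0) (XT.nd (nat_lit 390) (nat_lit 76) (nat_lit 0) (XT.nd (nat_lit 156) (nat_lit 152) (nat_lit 0) (XT.nd (nat_lit 78) (nat_lit 0) (nat_lit 0) (XT.lf (nat_lit 0) (nat_lit 13261356402) (nat_lit 76) (nat_lit 10239941359) (nat_lit 76) (nat_lit 3143015376) (nat_lit 11) (nat_lit 4) (nat_lit 12) (nat_lit 5) (nat_lit 12) (nat_lit 4) (nat_lit 358) (nat_lit 222) (nat_lit 200)) (XT.lf (nat_lit 0) (nat_lit 19621662878) (nat_lit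 76) (nat_lit 7520438503) (nat_lit 76) (nat_lit 197875785) (nat_lit 11) (nat_lit 4) (nat_lit 12) (nat_lit 5) (nat_lit 12) (nat_lit 4) (nat_lit 359) (nat_lit 222) (nat_lit 199))) (XT.nd (nat_lit 78) (nat_lit 76) (nat_lit 0) (XT.lf (nat_lit 0) (nat_lit 2729825334) (nat_lit 152) (nat_lit 2000082078) (nat_lit 76) (nat_lit 23327331777) (nat_lit 10) (nat_lit 5) (nat_lit 12) (nat_lit 5) (nat_lit 11) (nat_lit 4) (nat_lit 360) (nat_lit 222) (nat_lit 198)) (XT.nd (nat_lit 78) (nat_lit 0) (nat_lit 0) (XT.lf (nat_lit 0) (nat_lit 3876893174) (nat_lit 76) (nat_lit 1852764434) (nat_lit 152) (nat_lit 23066685459) (nat_lit 9) (nat_lit 5) (nat_lit 10) (nat_lit 5) (nat_lit 11) (nat_lit 4) (nat_lit 361) (nat_lit 222) (nat_lit 197)) (XT.lf (nat_lit 0) (nat_lit 8801813932) (nat_lit 152) (nat_lit 19683485850) (nat_lit 0) (nat_lit 1072880585) (nat_lit 9) (nat_lit 5) (nat_lit 11) (nat_lit 4) (nat_lit 9) (nat_lit 4) (nat_lit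 362) (nat_lit 222) (nat_lit 196))))) (XT.nd (nat_lit 234) (nat_lit 76) (nat_lit 0) (XT.nd (nat_lit 78) (nat_lit 0) (nat_lit 0) (XT.lf (nat_lit 0) (nat_lit 11937154436) (nat_lit 152) (nat_lit 14393032208) (nat_lit 0) (nat_lit 4013584858) (nat_lit 9) (nat_lit 5) (nat_lit 11) (nat_lit 4) (nat_lit 9) (nat_lit 4) (nat_lit 363) (nat_lit 222) (nat_lit 195)) (XT.nd (nat_lit 78) (nat_lit 0) (nat_lit 0) (XT.lf (nat_lit 0) (nat_lit 15120608831) (nat_lit 152) (nat_lit 9025656336) (nat_lit 0) (nat_lit 7008072040) (nat_lit 9) (nat_lit 5) (nat_lit 11) (nat_lit 4) (nat_lit 9) (nat_lit 4) (nat_lit 364) (nat_lit 222) (nat_lit 194)) (XT.lf (nat_lit 0) (nat_lit 18354958778) (nat_lit 152) (nat_lit 3576668294) (nat_lit 0) (nat_lit 10058958673) (nat_lit 9) (nat_lit 5) (nat_lit 11) (nat_lit 4) (nat_lit 9) (nat_lit 4) (nat_lit 365) (nat_lit 222) (nat_lit 193)))) (XT.nd (nat_lit 78) (nat_lit 0) (nat_lit 0) (XT.lf (nat_lit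 0) (nat_lit 1997675003) (nat_lit 76) (nat_lit 19664558277) (nat_lit 76) (nat_lit 11190438451) (nat_lit 8) (nat_lit 4) (nat_lit 9) (nat_lit 5) (nat_lit 9) (nat_lit 4) (nat_lit 366) (nat_lit 222) (nat_lit 192)) (XT.nd (nat_lit 78) (nat_lit 0) (nat_lit 0) (XT.lf (nat_lit 0) (nat_lit 7736226420) (nat_lit 76) (nat_lit 17325835711) (nat_lit 76) (nat_lit 8678784116) (nat_lit 8) (nat_lit 4) (nat_lit 9) (nat_lit 5) (nat_lit 9) (nat_lit 4) (nat_lit 367) (nat_lit 222) (nat_lit 191)) (XT.lf (nat_lit 0) (nat_lit 13572817510) (nat_lit 76) (nat_lit 14949533167) (nat_lit 76) (nat_lit 6134586650) (nat_lit 8) (nat_lit 4) (nat_lit 9) (nat_lit 5) (nat_lit 9) (nat_lit 4) (nat_lit 368) (nat_lit 222) (nat_lit 190)))))) (XT.nd (nat_lit 468) (nat_lit 0) (nat_lit 0) (XT.nd (nat_lit 234) (nat_lit 76) (nat_lit 0) (XT.nd (nat_lit 78) (nat_lit 76) (nat_lit 0) (XT.lf (nat_lit 0) (nat_lit 19512548209) (nat_lit 76) (nat_lit 12533574264)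 (nat_lit 76) (nat_lit 3555622968) (nat_lit 8) (nat_lit 4) (nat_lit 9) (nat_lit 5) (nat_lit 9) (nat_lit 4) (nat_lit 369) (nat_lit 222) (nat_lit 189)) (XT.nd (nat_lit 78) (nat_lit 76) (nat_lit 0) (XT.lf (nat_lit 0) (nat_lit 25560608573) (nat_lit 76) (nat_lit 10075847969) (nat_lit 76) (nat_lit 939639608) (nat_lit 8) (nat_lit 4) (nat_lit 9) (nat_lit 5) (nat_lit 9) (nat_lit 4) (nat_lit 370) (nat_lit 222) (nat_lit 188)) (XT.lf (nat_lit 0) (nat_lit 1682170746) (nat_lit 152) (nat_lit 5875049383) (nat_lit 76) (nat_lit 30023125940) (nat_lit 7) (nat_lit 5) (nat_lit 9) (nat_lit 5) (nat_lit 8) (nat_lit 4) (nat_lit 371) (nat_lit 222) (nat_lit 187)))) (XT.nd (nat_lit 78) (nat_lit 76) (nat_lit 0) (XT.lf (nat_lit 0) (nat_lit 4326458726) (nat_lit 152) (nat_lit 656317246) (nat_lit 76) (nat_lit 33632808941) (nat_lit 7) (nat_lit 5) (nat_lit 9) (nat_lit 5) (nat_lit 8) (nat_lit 4) (nat_lit 372) (nat_lit 222) (nat_lit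 186)) (XT.nd (nat_lit 78) (nat_lit 0) (nat_lit 0) (XT.lf (nat_lit 0) (nat_lit 4746931002) (nat_lit 76) (nat_lit 2312570031) (nat_lit 152) (nat_lit 32622118287) (nat_lit 6) (nat_lit 5) (nat_lit 7) (nat_lit 5) (nat_lit 8) (nat_lit 4) (nat_lit 373) (nat_lit 222) (nat_lit 185)) (XT.lf (nat_lit 0) (nat_lit 9849397970) (nat_lit 152) (nat_lit 30522842061) (nat_lit 0) (nat_lit 408169378) (nat_lit 6) (nat_lit 5) (nat_lit 8) (nat_lit 4) (nat_lit 6) (nat_lit 4) (nat_lit 374) (nat_lit 222) (nat_lit 184))))) (XT.nd (nat_lit 234) (nat_lit 0) (nat_lit 0) (XT.nd (nat_lit 78) (nat_lit 0) (nat_lit 0) (XT.lf (nat_lit 0) (nat_lit 12710900566) (nat_lit 152) (nat_lit 26064511150) (nat_lit 0) (nat_lit 3137134174) (nat_lit 6) (nat_lit 5) (nat_lit 8) (nat_lit 4) (nat_lit 6) (nat_lit 4) (nat_lit 375) (nat_lit 222) (nat_lit 183)) (XT.nd (nat_lit 78) (nat_lit 0) (nat_lit 0) (XT.lf (nat_lit 0) (nat_lit 15624279327) (nat_lit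 152) (nat_lit 21533570118) (nat_lit 0) (nat_lit 5921835457) (nat_lit 6) (nat_lit 5) (nat_lit 8) (nat_lit 4) (nat_lit 6) (nat_lit 4) (nat_lit 376) (nat_lit 222) (nat_lit 182)) (XT.lf (nat_lit 0) (nat_lit 18592079923) (nat_lit 152) (nat_lit 16926059892) (nat_lit 0) (nat_lit 8764706464) (nat_lit 6) (nat_lit 5) (nat_lit 8) (nat_lit 4) (nat_lit 6) (nat_lit 4) (nat_lit 377) (nat_lit 222) (nat_lit 181)))) (XT.nd (nat_lit 78) (nat_lit 0) (nat_lit 0) (XT.lf (nat_lit 0) (nat_lit 21616895578) (nat_lit 152) (nat_lit 12237954492) (nat_lit 0) (nat_lit 11668231256) (nat_lit 6) (nat_lit 5) (nat_lit 8) (nat_lit 4) (nat_lit 6) (nat_lit 4) (nat_lit 378) (nat_lit 222) (nat_lit 180)) (XT.nd (nat_lit 78) (nat_lit 0) (nat_lit 0) (XT.lf (nat_lit 0) (nat_lit 24701369335) (nat_lit 152) (nat_lit 7465157514) (nat_lit 0) (nat_lit 14634946892) (nat_lit 6) (nat_lit 5) (nat_lit 8) (nat_lit 4) (nat_lit 6) (nat_lit 4) (nat_lit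 379) (nat_lit 222) (nat_lit 179)) (XT.lf (nat_lit 0) (nat_lit 27848196364) (nat_lit 152) (nat_lit 2603498554) (nat_lit 0) (nat_lit 17667445650) (nat_lit 6) (nat_lit 5) (nat_lit 8) (nat_lit 4) (nat_lit 6) (nat_lit 4) (nat_lit 380) (nat_lit 222) (nat_lit 178))))))) (XT.nd (nat_lit 936) (nat_lit 76) (nat_lit 0) (XT.nd (nat_lit 468) (nat_lit 76) (nat_lit 0) (XT.nd (nat_lit 234) (nat_lit 0) (nat_lit 0) (XT.nd (nat_lit 78) (nat_lit 0) (nat_lit 0) (XT.lf (nat_lit 0) (nat_lit 2398065332) (nat_lit 76) (nat_lit 28685112660) (nat_lit 76) (nat_lit 18393363624) (nat_lit 5) (nat_lit 4) (nat_lit 6) (nat_lit 5) (nat_lit 6) (nat_lit 4) (nat_lit 381) (nat_lit 222) (nat_lit 177)) (XT.nd (nat_lit 78) (nat_lit 0) (nat_lit 0) (XT.lf (nat_lit 0) (nat_lit 7550822624) (nat_lit 76) (nat_lit 26861726249) (nat_lit 76) (nat_lit 16462211851) (nat_lit 5) (nat_lit 4) (nat_lit 6) (nat_lit 5) (nat_lit 6) (nat_lit 4) (nat_lit 382)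 (nat_lit 222) (nat_lit 176)) (XT.lf (nat_lit 0) (nat_lit 12807461005) (nat_lit 76) (nat_lit 25006232664) (nat_lit 76) (nat_lit 14502091703) (nat_lit 5) (nat_lit 4) (nat_lit 6) (nat_lit 5) (nat_lit 6) (nat_lit 4) (nat_lit 383) (nat_lit 222) (nat_lit 175)))) (XT.nd (nat_lit 78) (nat_lit 0) (nat_lit 0) (XT.lf (nat_lit 0) (nat_lit 18172573655) (nat_lit 76) (nat_lit 23117010602) (nat_lit 76) (nat_lit 12511290451) (nat_lit 5) (nat_lit 4) (nat_lit 6) (nat_lit 5) (nat_lit 6) (nat_lit 4) (nat_lit 384) (nat_lit 222) (nat_lit 174)) (XT.nd (nat_lit 78) (nat_lit 0) (nat_lit 0) (XT.lf (nat_lit 0) (nat_lit 23650848535) (nat_lit 76) (nat_lit 21192409285) (nat_lit 76) (nat_lit 10488068563) (nat_lit 5) (nat_lit 4) (nat_lit 6) (nat_lit 5) (nat_lit 6) (nat_lit 4) (nat_lit 385) (nat_lit 222) (nat_lit 173)) (XT.lf (nat_lit 0) (nat_lit 29247072488) (nat_lit 76) (nat_lit 19230747022) (nat_lit 76) (nat_lit 8430658173)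 (nat_lit 5) (nat_lit 4) (nat_lit 6) (nat_lit 5) (nat_lit 6) (nat_lit 4) (nat_lit 386) (nat_lit 222) (nat_lit 172))))) (XT.nd (nat_lit 234) (nat_lit 76) (nat_lit 0) (XT.nd (nat_lit 78) (nat_lit 0) (nat_lit 0) (XT.lf (nat_lit 0) (nat_lit 34966135419) (nat_lit 76) (nat_lit 17230309741) (nat_lit 76) (nat_lit 6337261544) (nat_lit 5) (nat_lit 4) (nat_lit 6) (nat_lit 5) (nat_lit 6) (nat_lit 4) (nat_lit 387) (nat_lit 222) (nat_lit 171)) (XT.nd (nat_lit 78) (nat_lit 0) (nat_lit 0) (XT.lf (nat_lit 0) (nat_lit 40813034566) (nat_lit 76) (nat_lit 15189349486) (nat_lit 76) (nat_lit 4206049496) (nat_lit 5) (nat_lit 4) (nat_lit 6) (nat_lit 5) (nat_lit 6) (nat_lit 4) (nat_lit 388) (nat_lit 222) (nat_lit 170)) (XT.lf (nat_lit 0) (nat_lit 46792878871) (nat_lit 76) (nat_lit 13106082894) (nat_lit 76) (nat_lit 2035159803) (nat_lit 5) (nat_lit 4) (nat_lit 6) (nat_lit 5) (nat_lit 6) (nat_lit 4) (nat_lit 389) (nat_lit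 222) (nat_lit 169)))) (XT.nd (nat_lit 78) (nat_lit 0) (nat_lit 0) (XT.lf (nat_lit 0) (nat_lit 173844579) (nat_lit 152) (nat_lit 10803089566) (nat_lit 76) (nat_lit 52735293372) (nat_lit 4) (nat_lit 5) (nat_lit 6) (nat_lit 5) (nat_lit 5) (nat_lit 4) (nat_lit 390) (nat_lit 222) (nat_lit 168)) (XT.nd (nat_lit 78) (nat_lit 0) (nat_lit 0) (XT.lf (nat_lit 0) (nat_lit 2385794430) (nat_lit 152) (nat_lit 6395424544) (nat_lit 76) (nat_lit 56762537836) (nat_lit 4) (nat_lit 5) (nat_lit 6) (nat_lit 5) (nat_lit 5) (nat_lit 4) (nat_lit 391) (nat_lit 222) (nat_lit 167)) (XT.lf (nat_lit 0) (nat_lit 4642335818) (nat_lit 152) (nat_lit 1894833075) (nat_lit 76) (nat_lit 60893727819) (nat_lit 4) (nat_lit 5) (nat_lit 6) (nat_lit 5) (nat_lit 5) (nat_lit 4) (nat_lit 392) (nat_lit 222) (nat_lit 166)))))) (XT.nd (nat_lit 468) (nat_lit 0) (nat_lit 0) (XT.nd (nat_lit 234) (nat_lit 0) (nat_lit 0) (XT.nd (nat_lit 78) (nat_lit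 0) (nat_lit 0) (XT.lf (nat_lit 0) (nat_lit 2756404783) (nat_lit 76) (nat_lit 4215531945) (nat_lit 152) (nat_lit 62402564562) (nat_lit 3) (nat_lit 5) (nat_lit 4) (nat_lit 5) (nat_lit 5) (nat_lit 4) (nat_lit 393) (nat_lit 222) (nat_lit 165)) (XT.nd (nat_lit 78) (nat_lit 0) (nat_lit 0) (XT.lf (nat_lit 0) (nat_lit 7548237363) (nat_lit 76) (nat_lit 1821441748) (nat_lit 152) (nat_lit 62006798339) (nat_lit 3) (nat_lit 5) (nat_lit 4) (nat_lit 5) (nat_lit 5) (nat_lit 4) (nat_lit 394) (nat_lit 222) (nat_lit 164)) (XT.lf (nat_lit 0) (nat_lit 11825118578) (nat_lit 152) (nat_lit 60998028278) (nat_lit 0) (nat_lit 615803820) (nat_lit 3) (nat_lit 5) (nat_lit 5) (nat_lit 4) (nat_lit 3) (nat_lit 4) (nat_lit 395) (nat_lit 222) (nat_lit 163)))) (XT.nd (nat_lit 78) (nat_lit 0) (nat_lit 0) (XT.lf (nat_lit 0) (nat_lit 14352420122) (nat_lit 152) (nat_lit 58137007542) (nat_lit 0) (nat_lit 3073934880) (nat_lit 3) (nat_lit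 5) (nat_lit 5) (nat_lit 4) (nat_lit 3) (nat_lit 4) (nat_lit 396) (nat_lit 222) (nat_lit 162)) (XT.nd (nat_lit 78) (nat_lit 0) (nat_lit 0) (XT.lf (nat_lit 0) (nat_lit 16936283253) (nat_lit 152) (nat_lit 55225169148) (nat_lit 0) (nat_lit 5590642200) (nat_lit 3) (nat_lit 5) (nat_lit 5) (nat_lit 4) (nat_lit 3) (nat_lit 4) (nat_lit 397) (nat_lit 222) (nat_lit 161)) (XT.lf (nat_lit 0) (nat_lit 19578965716) (nat_lit 152) (nat_lit 52259968770) (nat_lit 0) (nat_lit 8168124847) (nat_lit 3) (nat_lit 5) (nat_lit 5) (nat_lit 4) (nat_lit 3) (nat_lit 4) (nat_lit 398) (nat_lit 222) (nat_lit 160))))) (XT.nd (nat_lit 234) (nat_lit 0) (nat_lit 0) (XT.nd (nat_lit 78) (nat_lit 0) (nat_lit 0) (XT.lf (nat_lit 0) (nat_lit 22282776650) (nat_lit 152) (nat_lit 49238815456) (nat_lit 0) (nat_lit 10808634990) (nat_lit 3) (nat_lit 5) (nat_lit 5) (nat_lit 4) (nat_lit 3) (nat_lit 4) (nat_lit 399) (nat_lit 222) (nat_lit 159)) (XT.nd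 (nat_lit 78) (nat_lit 0) (nat_lit 0) (XT.lf (nat_lit 0) (nat_lit 25050078609) (nat_lit 152) (nat_lit 46159069363) (nat_lit 0) (nat_lit 13514479869) (nat_lit 3) (nat_lit 5) (nat_lit 5) (nat_lit 4) (nat_lit 3) (nat_lit 4) (nat_lit 400) (nat_lit 222) (nat_lit 158)) (XT.lf (nat_lit 0) (nat_lit 27883289624) (nat_lit 152) (nat_lit 43018039453) (nat_lit 0) (nat_lit 16288023816) (nat_lit 3) (nat_lit 5) (nat_lit 5) (nat_lit 4) (nat_lit 3) (nat_lit 4) (nat_lit 401) (nat_lit 222) (nat_lit 157)))) (XT.nd (nat_lit 78) (nat_lit 0) (nat_lit 0) (XT.lf (nat_lit 0) (nat_lit 30784885316) (nat_lit 152) (nat_lit 39812981134) (nat_lit 0) (nat_lit 19131690316) (nat_lit 3) (nat_lit 5) (nat_lit 5) (nat_lit 4) (nat_lit 3) (nat_lit 4) (nat_lit 402) (nat_lit 222) (nat_lit 156)) (XT.nd (nat_lit 78) (nat_lit 0) (nat_lit 0) (XT.lf (nat_lit 0) (nat_lit 33757401059) (nat_lit 152) (nat_lit 36541093871) (nat_lit 0) (nat_lit 22047964126)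 (nat_lit 3) (nat_lit 5) (nat_lit 5) (nat_lit 4) (nat_lit 3) (nat_lit 4) (nat_lit 403) (nat_lit 222) (nat_lit 155)) (XT.lf (nat_lit 0) (nat_lit 36803434199) (nat_lit 152) (nat_lit 33199518733) (nat_lit 0) (nat_lit 25039393445) (nat_lit 3) (nat_lit 5) (nat_lit 5) (nat_lit 4) (nat_lit 3) (nat_lit 4) (nat_lit 404) (nat_lit 222) (nat_lit 154))))))))
noncomputable def xc26 : XT := (XT.nd (nat_lit 1794) (nat_lit 456) (nat_lit 0) (XT.nd (nat_lit 858) (nat_lit 456) (nat_lit 0) (XT.nd (nat_lit 390) (nat_lit 304) (nat_lit 0) (XT.nd (nat_lit 156) (nat_lit 380) (nat_lit 0) (XT.nd (nat_lit 78) (nat_lit 0) (nat_lit 0) (XT.lf (nat_lit 0) (nat_lit 3685707517) (nat_lit 152) (nat_lit 1939396990) (nat_lit 152) (nat_lit 1939396990) (nat_lit 27) (nat_lit 4) (nat_lit 29) (nat_lit 5) (nat_lit 29) (nat_lit 4) (nat_lit 334) (nat_lit 223) (nat_lit 223)) (XT.lf (nat_lit 0) (nat_lit 14512962506) (nat_lit 152) (nat_lit 721221287)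 (nat_lit 152) (nat_lit 220016889) (nat_lit 27) (nat_lit 4) (nat_lit 29) (nat_lit 5) (nat_lit 29) (nat_lit 4) (nat_lit 335) (nat_lit 223) (nat_lit 222))) (XT.nd (nat_lit 78) (nat_lit 152) (nat_lit 0) (XT.lf (nat_lit 0) (nat_lit 3480641359) (nat_lit 228) (nat_lit 9785917942) (nat_lit 0) (nat_lit 2521601931) (nat_lit 24) (nat_lit 5) (nat_lit 27) (nat_lit 4) (nat_lit 24) (nat_lit 4) (nat_lit 336) (nat_lit 223) (nat_lit 221)) (XT.nd (nat_lit 78) (nat_lit 152) (nat_lit 0) (XT.lf (nat_lit 0) (nat_lit 7223896963) (nat_lit 228) (nat_lit 3103982830) (nat_lit 0) (nat_lit 5806184510) (nat_lit 24) (nat_lit 5) (nat_lit 27) (nat_lit 4) (nat_lit 24) (nat_lit 4) (nat_lit 337) (nat_lit 223) (nat_lit 220)) (XT.lf (nat_lit 0) (nat_lit 3718904072) (nat_lit 152) (nat_lit 7317906347) (nat_lit 152) (nat_lit 5454880278) (nat_lit 22) (nat_lit 4) (nat_lit 24) (nat_lit 5) (nat_lit 24) (nat_lit 4) (nat_lit 338) (nat_lit 223)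 (nat_lit 219))))) (XT.nd (nat_lit 234) (nat_lit 152) (nat_lit 0) (XT.nd (nat_lit 78) (nat_lit 152) (nat_lit 0) (XT.lf (nat_lit 0) (nat_lit 10679325571) (nat_lit 152) (nat_lit 4238767663) (nat_lit 152) (nat_lit 1943398277) (nat_lit 22) (nat_lit 4) (nat_lit 24) (nat_lit 5) (nat_lit 24) (nat_lit 4) (nat_lit 339) (nat_lit 223) (nat_lit 218)) (XT.nd (nat_lit 78) (nat_lit 0) (nat_lit 0) (XT.lf (nat_lit 0) (nat_lit 470729305) (nat_lit 76) (nat_lit 1098654677) (nat_lit 152) (nat_lit 15674722821) (nat_lit 20) (nat_lit 5) (nat_lit 21) (nat_lit 5) (nat_lit 22) (nat_lit 4) (nat_lit 340) (nat_lit 223) (nat_lit 217)) (XT.lf (nat_lit 0) (nat_lit 5156634231) (nat_lit 152) (nat_lit 10355864449) (nat_lit 0) (nat_lit 2124939842) (nat_lit 20) (nat_lit 5) (nat_lit 22) (nat_lit 4) (nat_lit 20) (nat_lit 4) (nat_lit 341) (nat_lit 223) (nat_lit 216)))) (XT.nd (nat_lit 78) (nat_lit 152) (nat_lit 0) (XT.lf (nat_lit 0) (nat_lit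 8789146520) (nat_lit 152) (nat_lit 3882031472) (nat_lit 0) (nat_lit 5373320693) (nat_lit 20) (nat_lit 5) (nat_lit 22) (nat_lit 4) (nat_lit 20) (nat_lit 4) (nat_lit 342) (nat_lit 223) (nat_lit 215)) (XT.nd (nat_lit 78) (nat_lit 0) (nat_lit 0) (XT.lf (nat_lit 0) (nat_lit 2717364694) (nat_lit 152) (nat_lit 9768290223) (nat_lit 152) (nat_lit 5979521253) (nat_lit 18) (nat_lit 4) (nat_lit 20) (nat_lit 5) (nat_lit 20) (nat_lit 4) (nat_lit 343) (nat_lit 223) (nat_lit 214)) (XT.lf (nat_lit 0) (nat_lit 9473836128) (nat_lit 152) (nat_lit 6788235826) (nat_lit 152) (nat_lit 2637386135) (nat_lit 18) (nat_lit 4) (nat_lit 20) (nat_lit 5) (nat_lit 20) (nat_lit 4) (nat_lit 344) (nat_lit 223) (nat_lit 213)))))) (XT.nd (nat_lit 468) (nat_lit 152) (nat_lit 0) (XT.nd (nat_lit 234) (nat_lit 152) (nat_lit 0) (XT.nd (nat_lit 78) (nat_lit 76) (nat_lit 0) (XT.lf (nat_lit 0) (nat_lit 720434536) (nat_lit 228) (nat_lit 3039902262)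 (nat_lit 76) (nat_lit 15588316989) (nat_lit 17) (nat_lit 5) (nat_lit 20) (nat_lit 5) (nat_lit 18) (nat_lit 4) (nat_lit 345) (nat_lit 223) (nat_lit 212)) (XT.nd (nat_lit 78) (nat_lit 0) (nat_lit 0) (XT.lf (nat_lit 0) (nat_lit 3463921110) (nat_lit 76) (nat_lit 628493317) (nat_lit 152) (nat_lit 15719184426) (nat_lit 16) (nat_lit 5) (nat_lit 17) (nat_lit 5) (nat_lit 18) (nat_lit 4) (nat_lit 346) (nat_lit 223) (nat_lit 211)) (XT.lf (nat_lit 0) (nat_lit 7555051484) (nat_lit 152) (nat_lit 10202998947) (nat_lit 0) (nat_lit 2530745337) (nat_lit 16) (nat_lit 5) (nat_lit 18) (nat_lit 4) (nat_lit 16) (nat_lit 4) (nat_lit 347) (nat_lit 223) (nat_lit 210)))) (XT.nd (nat_lit 78) (nat_lit 152) (nat_lit 0) (XT.lf (nat_lit 0) (nat_lit 11063256276) (nat_lit 152) (nat_lit 3992232555) (nat_lit 0) (nat_lit 5726616118) (nat_lit 16) (nat_lit 5) (nat_lit 18) (nat_lit 4) (nat_lit 16) (nat_lit 4) (nat_lit 348) (nat_lit 223)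 (nat_lit 209)) (XT.nd (nat_lit 78) (nat_lit 0) (nat_lit 0) (XT.lf (nat_lit 0) (nat_lit 2341786464) (nat_lit 152) (nat_lit 12294776984) (nat_lit 152) (nat_lit 6654899922) (nat_lit 14) (nat_lit 4) (nat_lit 16) (nat_lit 5) (nat_lit 16) (nat_lit 4) (nat_lit 349) (nat_lit 223) (nat_lit 208)) (XT.lf (nat_lit 0) (nat_lit 8839962199) (nat_lit 152) (nat_lit 9455556509) (nat_lit 152) (nat_lit 3521274686) (nat_lit 14) (nat_lit 4) (nat_lit 16) (nat_lit 5) (nat_lit 16) (nat_lit 4) (nat_lit 350) (nat_lit 223) (nat_lit 207))))) (XT.nd (nat_lit 234) (nat_lit 0) (nat_lit 0) (XT.nd (nat_lit 78) (nat_lit 152) (nat_lit 0) (XT.lf (nat_lit 0) (nat_lit 15428519413) (nat_lit 152) (nat_lit 6575660256) (nat_lit 152) (nat_lit 355548568) (nat_lit 14) (nat_lit 4) (nat_lit 16) (nat_lit 5) (nat_lit 16) (nat_lit 4) (nat_lit 351) (nat_lit 223) (nat_lit 206)) (XT.nd (nat_lit 78) (nat_lit 76) (nat_lit 0) (XT.lf (nat_lit 0) (nat_lit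 2789527531) (nat_lit 228) (nat_lit 834875522) (nat_lit 76) (nat_lit 19295518805) (nat_lit 13) (nat_lit 5) (nat_lit 16) (nat_lit 5) (nat_lit 14) (nat_lit 4) (nat_lit 352) (nat_lit 223) (nat_lit 205)) (XT.lf (nat_lit 0) (nat_lit 5447386139) (nat_lit 76) (nat_lit 569571797) (nat_lit 152) (nat_lit 17480042675) (nat_lit 12) (nat_lit 5) (nat_lit 13) (nat_lit 5) (nat_lit 14) (nat_lit 4) (nat_lit 353) (nat_lit 223) (nat_lit 204)))) (XT.nd (nat_lit 78) (nat_lit 0) (nat_lit 0) (XT.lf (nat_lit 0) (nat_lit 9317591552) (nat_lit 152) (nat_lit 12280851842) (nat_lit 0) (nat_lit 2493695154) (nat_lit 12) (nat_lit 5) (nat_lit 14) (nat_lit 4) (nat_lit 12) (nat_lit 4) (nat_lit 354) (nat_lit 223) (nat_lit 203)) (XT.nd (nat_lit 78) (nat_lit 0) (nat_lit 0) (XT.lf (nat_lit 0) (nat_lit 12667636353) (nat_lit 152) (nat_lit 6441839018) (nat_lit 0) (nat_lit 5597180603) (nat_lit 12) (nat_lit 5) (nat_lit 14) (nat_lit 4) (nat_lit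 12) (nat_lit 4) (nat_lit 355) (nat_lit 223) (nat_lit 202)) (XT.lf (nat_lit 0) (nat_lit 16064544492) (nat_lit 152) (nat_lit 521998878) (nat_lit 0) (nat_lit 8754710729) (nat_lit 12) (nat_lit 5) (nat_lit 14) (nat_lit 4) (nat_lit 12) (nat_lit 4) (nat_lit 356) (nat_lit 223) (nat_lit 201))))))) (XT.nd (nat_lit 936) (nat_lit 152) (nat_lit 0) (XT.nd (nat_lit 468) (nat_lit 76) (nat_lit 0) (XT.nd (nat_lit 234) (nat_lit 152) (nat_lit 0) (XT.nd (nat_lit 78) (nat_lit 0) (nat_lit 0) (XT.lf (nat_lit 0) (nat_lit 5592980446) (nat_lit 76) (nat_lit 13972066842) (nat_lit 76) (nat_lit 6429827243) (nat_lit 11) (nat_lit 4) (nat_lit 12) (nat_lit 5) (nat_lit 12) (nat_lit 4) (nat_lit 357) (nat_lit 223) (nat_lit 200)) (XT.nd (nat_lit 78) (nat_lit 0) (nat_lit 0) (XT.lf (nat_lit 0) (nat_lit 11811412397) (nat_lit 76) (nat_lit 11312993135) (nat_lit 76) (nat_lit 3545116801) (nat_lit 11) (nat_lit 4) (nat_lit 12) (nat_lit 5) (nat_lit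 12) (nat_lit 4) (nat_lit 358) (nat_lit 223) (nat_lit 199)) (XT.lf (nat_lit 0) (nat_lit 18128341753) (nat_lit 76) (nat_lit 8612269952) (nat_lit 76) (nat_lit 625328827) (nat_lit 11) (nat_lit 4) (nat_lit 12) (nat_lit 5) (nat_lit 12) (nat_lit 4) (nat_lit 359) (nat_lit 223) (nat_lit 198)))) (XT.nd (nat_lit 78) (nat_lit 76) (nat_lit 0) (XT.lf (nat_lit 0) (nat_lit 2286580515) (nat_lit 152) (nat_lit 3557866943) (nat_lit 76) (nat_lit 22239617667) (nat_lit 10) (nat_lit 5) (nat_lit 12) (nat_lit 5) (nat_lit 11) (nat_lit 4) (nat_lit 360) (nat_lit 223) (nat_lit 197)) (XT.nd (nat_lit 78) (nat_lit 0) (nat_lit 0) (XT.lf (nat_lit 0) (nat_lit 2245913761) (nat_lit 76) (nat_lit 3001391029) (nat_lit 152) (nat_lit 23577052317) (nat_lit 9) (nat_lit 5) (nat_lit 10) (nat_lit 5) (nat_lit 11) (nat_lit 4) (nat_lit 361) (nat_lit 223) (nat_lit 196)) (XT.lf (nat_lit 0) (nat_lit 8213586400) (nat_lit 76) (nat_lit 72214920) (nat_lit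 152) (nat_lit 21301417315) (nat_lit 9) (nat_lit 5) (nat_lit 10) (nat_lit 5) (nat_lit 11) (nat_lit 4) (nat_lit 362) (nat_lit 223) (nat_lit 195))))) (XT.nd (nat_lit 234) (nat_lit 76) (nat_lit 0) (XT.nd (nat_lit 78) (nat_lit 0) (nat_lit 0) (XT.lf (nat_lit 0) (nat_lit 11397813993) (nat_lit 152) (nat_lit 16122775739) (nat_lit 0) (nat_lit 2852933886) (nat_lit 9) (nat_lit 5) (nat_lit 11) (nat_lit 4) (nat_lit 9) (nat_lit 4) (nat_lit 363) (nat_lit 223) (nat_lit 194)) (XT.nd (nat_lit 78) (nat_lit 0) (nat_lit 0) (XT.lf (nat_lit 0) (nat_lit 14559293965) (nat_lit 152) (nat_lit 10794517654) (nat_lit 0) (nat_lit 5830950543) (nat_lit 9) (nat_lit 5) (nat_lit 11) (nat_lit 4) (nat_lit 9) (nat_lit 4) (nat_lit 364) (nat_lit 223) (nat_lit 193)) (XT.lf (nat_lit 0) (nat_lit 17772309519) (nat_lit 152) (nat_lit 5383508045) (nat_lit 0) (nat_lit 8865846376) (nat_lit 9) (nat_lit 5) (nat_lit 11) (nat_lit 4) (nat_lit 9) (nat_lit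 4) (nat_lit 365) (nat_lit 223) (nat_lit 192)))) (XT.nd (nat_lit 78) (nat_lit 0) (nat_lit 0) (XT.lf (nat_lit 0) (nat_lit 117269503) (nat_lit 76) (nat_lit 20923525909) (nat_lit 76) (nat_lit 11844130997) (nat_lit 8) (nat_lit 4) (nat_lit 9) (nat_lit 5) (nat_lit 9) (nat_lit 4) (nat_lit 366) (nat_lit 223) (nat_lit 191)) (XT.nd (nat_lit 78) (nat_lit 0) (nat_lit 0) (XT.lf (nat_lit 0) (nat_lit 5819310146) (nat_lit 76) (nat_lit 18600853441) (nat_lit 76) (nat_lit 9353563607) (nat_lit 8) (nat_lit 4) (nat_lit 9) (nat_lit 5) (nat_lit 9) (nat_lit 4) (nat_lit 367) (nat_lit 223) (nat_lit 190)) (XT.lf (nat_lit 0) (nat_lit 11620453885) (nat_lit 76) (nat_lit 16240133516) (nat_lit 76) (nat_lit 6829838904) (nat_lit 8) (nat_lit 4) (nat_lit 9) (nat_lit 5) (nat_lit 9) (nat_lit 4) (nat_lit 368) (nat_lit 223) (nat_lit 189)))))) (XT.nd (nat_lit 468) (nat_lit 0) (nat_lit 0) (XT.nd (nat_lit 234) (nat_lit 76) (nat_lit 0) (XT.nd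 (nat_lit 78) (nat_lit 76) (nat_lit 0) (XT.lf (nat_lit 0) (nat_lit 17525769679) (nat_lit 76) (nat_lit 13839303370) (nat_lit 76) (nat_lit 4270751691) (nat_lit 8) (nat_lit 4) (nat_lit 9) (nat_lit 5) (nat_lit 9) (nat_lit 4) (nat_lit 369) (nat_lit 223) (nat_lit 188)) (XT.nd (nat_lit 78) (nat_lit 76) (nat_lit 0) (XT.lf (nat_lit 0) (nat_lit 23540417514) (nat_lit 76) (nat_lit 11396265188) (nat_lit 76) (nat_lit 1674065873) (nat_lit 8) (nat_lit 4) (nat_lit 9) (nat_lit 5) (nat_lit 9) (nat_lit 4) (nat_lit 370) (nat_lit 223) (nat_lit 187)) (XT.lf (nat_lit 0) (nat_lit 943705901) (nat_lit 152) (nat_lit 7955648798) (nat_lit 76) (nat_lit 28716417425) (nat_lit 7) (nat_lit 5) (nat_lit 9) (nat_lit 5) (nat_lit 8) (nat_lit 4) (nat_lit 371) (nat_lit 223) (nat_lit 186)))) (XT.nd (nat_lit 78) (nat_lit 76) (nat_lit 0) (XT.lf (nat_lit 0) (nat_lit 3570159045) (nat_lit 152) (nat_lit 2768776549) (nat_lit 76) (nat_lit 32312620846)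 (nat_lit 7) (nat_lit 5) (nat_lit 9) (nat_lit 5) (nat_lit 8) (nat_lit 4) (nat_lit 372) (nat_lit 223) (nat_lit 185)) (XT.nd (nat_lit 78) (nat_lit 0) (nat_lit 0) (XT.lf (nat_lit 0) (nat_lit 2560882079) (nat_lit 76) (nat_lit 3703990257) (nat_lit 152) (nat_lit 33453878504) (nat_lit 6) (nat_lit 5) (nat_lit 7) (nat_lit 5) (nat_lit 8) (nat_lit 4) (nat_lit 373) (nat_lit 223) (nat_lit 184)) (XT.lf (nat_lit 0) (nat_lit 8045011460) (nat_lit 76) (nat_lit 988650688) (nat_lit 152) (nat_lit 31784521824) (nat_lit 6) (nat_lit 5) (nat_lit 7) (nat_lit 5) (nat_lit 8) (nat_lit 4) (nat_lit 374) (nat_lit 223) (nat_lit 183))))) (XT.nd (nat_lit 234) (nat_lit 0) (nat_lit 0) (XT.nd (nat_lit 78) (nat_lit 0) (nat_lit 0) (XT.lf (nat_lit 0) (nat_lit 11868927775) (nat_lit 152) (nat_lit 28335456218) (nat_lit 0) (nat_lit 1746733112) (nat_lit 6) (nat_lit 5) (nat_lit 8) (nat_lit 4) (nat_lit 6) (nat_lit 4) (nat_lit 375) (nat_lit 223)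 (nat_lit 182)) (XT.nd (nat_lit 78) (nat_lit 0) (nat_lit 0) (XT.lf (nat_lit 0) (nat_lit 14766060463) (nat_lit 152) (nat_lit 23833756091) (nat_lit 0) (nat_lit 4518936211) (nat_lit 6) (nat_lit 5) (nat_lit 8) (nat_lit 4) (nat_lit 6) (nat_lit 4) (nat_lit 376) (nat_lit 223) (nat_lit 181)) (XT.lf (nat_lit 0) (nat_lit 17718088173) (nat_lit 152) (nat_lit 19254635093) (nat_lit 0) (nat_lit 7349673057) (nat_lit 6) (nat_lit 5) (nat_lit 8) (nat_lit 4) (nat_lit 6) (nat_lit 4) (nat_lit 377) (nat_lit 223) (nat_lit 180)))) (XT.nd (nat_lit 78) (nat_lit 0) (nat_lit 0) (XT.lf (nat_lit 0) (nat_lit 20727590346) (nat_lit 152) (nat_lit 14594092049) (nat_lit 0) (nat_lit 10241417110) (nat_lit 6) (nat_lit 5) (nat_lit 8) (nat_lit 4) (nat_lit 6) (nat_lit 4) (nat_lit 378) (nat_lit 223) (nat_lit 179)) (XT.nd (nat_lit 78) (nat_lit 0) (nat_lit 0) (XT.lf (nat_lit 0) (nat_lit 23797196644) (nat_lit 152) (nat_lit 9848054641) (nat_lit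 0) (nat_lit 13196695137) (nat_lit 6) (nat_lit 5) (nat_lit 8) (nat_lit 4) (nat_lit 6) (nat_lit 4) (nat_lit 379) (nat_lit 223) (nat_lit 178)) (XT.lf (nat_lit 0) (nat_lit 26929589249) (nat_lit 152) (nat_lit 5012375846) (nat_lit 0) (nat_lit 16218089419) (nat_lit 6) (nat_lit 5) (nat_lit 8) (nat_lit 4) (nat_lit 6) (nat_lit 4) (nat_lit 380) (nat_lit 223) (nat_lit 177))))))))
noncomputable def xc27 : XT := (XT.nd (nat_lit 1794) (nat_lit 0) (nat_lit 0) (XT.nd (nat_lit 858) (nat_lit 76) (nat_lit 0) (XT.nd (nat_lit 390) (nat_lit 76) (nat_lit 0) (XT.nd (nat_lit 156) (nat_lit 0) (nat_lit 0) (XT.nd (nat_lit 78) (nat_lit 76) (nat_lit 0) (XT.lf (nat_lit 0) (nat_lit 30127505201) (nat_lit 152) (nat_lit 82830313) (nat_lit 0) (nat_lit 19308240010) (nat_lit 6) (nat_lit 5) (nat_lit 8) (nat_lit 4) (nat_lit 6) (nat_lit 4) (nat_lit 381) (nat_lit 223) (nat_lit 176)) (XT.lf (nat_lit 0) (nat_lit 5043302321) (nat_lit 76) (nat_lit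 28398915782) (nat_lit 76) (nat_lit 17475024027) (nat_lit 5) (nat_lit 4) (nat_lit 6) (nat_lit 5) (nat_lit 6) (nat_lit 4) (nat_lit 382) (nat_lit 223) (nat_lit 175))) (XT.nd (nat_lit 78) (nat_lit 0) (nat_lit 0) (XT.lf (nat_lit 0) (nat_lit 10275691991) (nat_lit 76) (nat_lit 26554228271) (nat_lit 76) (nat_lit 15528757328) (nat_lit 5) (nat_lit 4) (nat_lit 6) (nat_lit 5) (nat_lit 6) (nat_lit 4) (nat_lit 383) (nat_lit 223) (nat_lit 174)) (XT.nd (nat_lit 78) (nat_lit 0) (nat_lit 0) (XT.lf (nat_lit 0) (nat_lit 15617262203) (nat_lit 76) (nat_lit 24675497542) (nat_lit 76) (nat_lit 13551406027) (nat_lit 5) (nat_lit 4) (nat_lit 6) (nat_lit 5) (nat_lit 6) (nat_lit 4) (nat_lit 384) (nat_lit 223) (nat_lit 173)) (XT.lf (nat_lit 0) (nat_lit 21072680347) (nat_lit 76) (nat_lit 22761081986) (nat_lit 76) (nat_lit 11541242343) (nat_lit 5) (nat_lit 4) (nat_lit 6) (nat_lit 5) (nat_lit 6) (nat_lit 4) (nat_lit 385) (nat_lit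 223) (nat_lit 172))))) (XT.nd (nat_lit 234) (nat_lit 76) (nat_lit 0) (XT.nd (nat_lit 78) (nat_lit 0) (nat_lit 0) (XT.lf (nat_lit 0) (nat_lit 26646713295) (nat_lit 76) (nat_lit 20809308812) (nat_lit 76) (nat_lit 9496509822) (nat_lit 5) (nat_lit 4) (nat_lit 6) (nat_lit 5) (nat_lit 6) (nat_lit 4) (nat_lit 386) (nat_lit 223) (nat_lit 171)) (XT.nd (nat_lit 78) (nat_lit 0) (nat_lit 0) (XT.lf (nat_lit 0) (nat_lit 32344231560) (nat_lit 76) (nat_lit 18818472587) (nat_lit 76) (nat_lit 7415421803) (nat_lit 5) (nat_lit 4) (nat_lit 6) (nat_lit 5) (nat_lit 6) (nat_lit 4) (nat_lit 387) (nat_lit 223) (nat_lit 170)) (XT.lf (nat_lit 0) (nat_lit 38170213556) (nat_lit 76) (nat_lit 16786833746) (nat_lit 76) (nat_lit 5296159862) (nat_lit 5) (nat_lit 4) (nat_lit 6) (nat_lit 5) (nat_lit 6) (nat_lit 4) (nat_lit 388) (nat_lit 223) (nat_lit 169)))) (XT.nd (nat_lit 78) (nat_lit 76) (nat_lit 0) (XT.lf (nat_lit 0) (nat_lit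 44129749947) (nat_lit 76) (nat_lit 14712617070) (nat_lit 76) (nat_lit 3136872215) (nat_lit 5) (nat_lit 4) (nat_lit 6) (nat_lit 5) (nat_lit 6) (nat_lit 4) (nat_lit 389) (nat_lit 223) (nat_lit 168)) (XT.nd (nat_lit 78) (nat_lit 76) (nat_lit 0) (XT.lf (nat_lit 0) (nat_lit 50228048096) (nat_lit 76) (nat_lit 12594010137) (nat_lit 76) (nat_lit 935672106) (nat_lit 5) (nat_lit 4) (nat_lit 6) (nat_lit 5) (nat_lit 6) (nat_lit 4) (nat_lit 390) (nat_lit 223) (nat_lit 167)) (XT.lf (nat_lit 0) (nat_lit 1283813437) (nat_lit 152) (nat_lit 9132384301) (nat_lit 76) (nat_lit 55173659175) (nat_lit 4) (nat_lit 5) (nat_lit 6) (nat_lit 5) (nat_lit 5) (nat_lit 4) (nat_lit 391) (nat_lit 223) (nat_lit 166)))))) (XT.nd (nat_lit 468) (nat_lit 0) (nat_lit 0) (XT.nd (nat_lit 234) (nat_lit 0) (nat_lit 0) (XT.nd (nat_lit 78) (nat_lit 76) (nat_lit 0) (XT.lf (nat_lit 0) (nat_lit 3529944497) (nat_lit 152) (nat_lit 4650590241) (nat_lit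 76) (nat_lit 59296779993) (nat_lit 4) (nat_lit 5) (nat_lit 6) (nat_lit 5) (nat_lit 5) (nat_lit 4) (nat_lit 392) (nat_lit 223) (nat_lit 165)) (XT.nd (nat_lit 78) (nat_lit 76) (nat_lit 0) (XT.lf (nat_lit 0) (nat_lit 5822942043) (nat_lit 152) (nat_lit 71389679) (nat_lit 76) (nat_lit 63527691130) (nat_lit 4) (nat_lit 5) (nat_lit 6) (nat_lit 5) (nat_lit 5) (nat_lit 4) (nat_lit 393) (nat_lit 223) (nat_lit 164)) (XT.lf (nat_lit 0) (nat_lit 4700951115) (nat_lit 76) (nat_lit 3509046967) (nat_lit 152) (nat_lit 63214326802) (nat_lit 3) (nat_lit 5) (nat_lit 4) (nat_lit 5) (nat_lit 5) (nat_lit 4) (nat_lit 394) (nat_lit 223) (nat_lit 163)))) (XT.nd (nat_lit 78) (nat_lit 0) (nat_lit 0) (XT.lf (nat_lit 0) (nat_lit 9582309910) (nat_lit 76) (nat_lit 1067394770) (nat_lit 152) (nat_lit 62837570545) (nat_lit 3) (nat_lit 5) (nat_lit 4) (nat_lit 5) (nat_lit 5) (nat_lit 4) (nat_lit 395) (nat_lit 223) (nat_lit 162)) (XT.nd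 (nat_lit 78) (nat_lit 0) (nat_lit 0) (XT.lf (nat_lit 0) (nat_lit 13157259340) (nat_lit 152) (nat_lit 61050931894) (nat_lit 0) (nat_lit 1404093246) (nat_lit 3) (nat_lit 5) (nat_lit 5) (nat_lit 4) (nat_lit 3) (nat_lit 4) (nat_lit 396) (nat_lit 223) (nat_lit 161)) (XT.lf (nat_lit 0) (nat_lit 15731912342) (nat_lit 152) (nat_lit 58155838903) (nat_lit 0) (nat_lit 3913546432) (nat_lit 3) (nat_lit 5) (nat_lit 5) (nat_lit 4) (nat_lit 3) (nat_lit 4) (nat_lit 397) (nat_lit 223) (nat_lit 160))))) (XT.nd (nat_lit 234) (nat_lit 0) (nat_lit 0) (XT.nd (nat_lit 78) (nat_lit 0) (nat_lit 0) (XT.lf (nat_lit 0) (nat_lit 18365652932) (nat_lit 152) (nat_lit 55206896197) (nat_lit 0) (nat_lit 6483986229) (nat_lit 3) (nat_lit 5) (nat_lit 5) (nat_lit 4) (nat_lit 3) (nat_lit 4) (nat_lit 398) (nat_lit 223) (nat_lit 159)) (XT.nd (nat_lit 78) (nat_lit 0) (nat_lit 0) (XT.lf (nat_lit 0) (nat_lit 21060782436) (nat_lit 152) (nat_lit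 52201527032) (nat_lit 0) (nat_lit 9117658654) (nat_lit 3) (nat_lit 5) (nat_lit 5) (nat_lit 4) (nat_lit 3) (nat_lit 4) (nat_lit 399) (nat_lit 223) (nat_lit 158)) (XT.lf (nat_lit 0) (nat_lit 23819655822) (nat_lit 152) (nat_lit 49137105355) (nat_lit 0) (nat_lit 11816864972) (nat_lit 3) (nat_lit 5) (nat_lit 5) (nat_lit 4) (nat_lit 3) (nat_lit 4) (nat_lit 400) (nat_lit 223) (nat_lit 157)))) (XT.nd (nat_lit 78) (nat_lit 0) (nat_lit 0) (XT.lf (nat_lit 0) (nat_lit 26644683757) (nat_lit 152) (nat_lit 46010953518) (nat_lit 0) (nat_lit 14583963715) (nat_lit 3) (nat_lit 5) (nat_lit 5) (nat_lit 4) (nat_lit 3) (nat_lit 4) (nat_lit 401) (nat_lit 223) (nat_lit 156)) (XT.nd (nat_lit 78) (nat_lit 0) (nat_lit 0) (XT.lf (nat_lit 0) (nat_lit 29538334710) (nat_lit 152) (nat_lit 42820339931) (nat_lit 0) (nat_lit 17421372734) (nat_lit 3) (nat_lit 5) (nat_lit 5) (nat_lit 4) (nat_lit 3) (nat_lit 4) (nat_lit 402) (nat_lit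 223) (nat_lit 155)) (XT.lf (nat_lit 0) (nat_lit 32503137115) (nat_lit 152) (nat_lit 39562476680) (nat_lit 0) (nat_lit 20331571320) (nat_lit 3) (nat_lit 5) (nat_lit 5) (nat_lit 4) (nat_lit 3) (nat_lit 4) (nat_lit 403) (nat_lit 223) (nat_lit 154))))))) (XT.nd (nat_lit 35880) (nat_lit 0) (nat_lit 684) (XT.nd (nat_lit 35412) (nat_lit 0) (nat_lit 1292) (XT.nd (nat_lit 35178) (nat_lit 0) (nat_lit 1596) (XT.nd (nat_lit 35022) (nat_lit 0) (nat_lit 1824) (XT.lf (nat_lit 0) (nat_lit 35541681576) (nat_lit 152) (nat_lit 36234517087) (nat_lit 0) (nat_lit 23317102365) (nat_lit 3) (nat_lit 5) (nat_lit 5) (nat_lit 4) (nat_lit 3) (nat_lit 4) (nat_lit 404) (nat_lit 223) (nat_lit 153)) (XT.nd (nat_lit 78) (nat_lit 152) (nat_lit 0) (XT.lf (nat_lit 0) (nat_lit 2003792406) (nat_lit 228) (nat_lit 3247914242) (nat_lit 0) (nat_lit 2003792406) (nat_lit 29) (nat_lit 5) (nat_lit 32) (nat_lit 4) (nat_lit 29) (nat_lit 4) (nat_lit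 332) (nat_lit 224) (nat_lit 224)) (XT.lf (nat_lit 0) (nat_lit 304155714) (nat_lit 152) (nat_lit 7513924075) (nat_lit 152) (nat_lit 6997683544) (nat_lit 27) (nat_lit 4) (nat_lit 29) (nat_lit 5) (nat_lit 29) (nat_lit 4) (nat_lit 333) (nat_lit 224) (nat_lit 223)))) (XT.nd (nat_lit 78) (nat_lit 228) (nat_lit 0) (XT.lf (nat_lit 0) (nat_lit 7303567927) (nat_lit 152) (nat_lit 4422070746) (nat_lit 152) (nat_lit 3404625817) (nat_lit 27) (nat_lit 4) (nat_lit 29) (nat_lit 5) (nat_lit 29) (nat_lit 4) (nat_lit 334) (nat_lit 224) (nat_lit 222)) (XT.nd (nat_lit 78) (nat_lit 152) (nat_lit 0) (XT.lf (nat_lit 0) (nat_lit 209141980) (nat_lit 228) (nat_lit 1079492921) (nat_lit 76) (nat_lit 14167990515) (nat_lit 26) (nat_lit 5) (nat_lit 29) (nat_lit 5) (nat_lit 27) (nat_lit 4) (nat_lit 335) (nat_lit 224) (nat_lit 221)) (XT.lf (nat_lit 0) (nat_lit 3858910400) (nat_lit 228) (nat_lit 9993050477) (nat_lit 0) (nat_lit 1939993549)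 (nat_lit 24) (nat_lit 5) (nat_lit 27) (nat_lit 4) (nat_lit 24) (nat_lit 4) (nat_lit 336) (nat_lit 224) (nat_lit 220))))) (XT.nd (nat_lit 234) (nat_lit 152) (nat_lit 0) (XT.nd (nat_lit 78) (nat_lit 152) (nat_lit 0) (XT.lf (nat_lit 0) (nat_lit 7563551129) (nat_lit 228) (nat_lit 3376177176) (nat_lit 0) (nat_lit 5199320661) (nat_lit 24) (nat_lit 5) (nat_lit 27) (nat_lit 4) (nat_lit 24) (nat_lit 4) (nat_lit 337) (nat_lit 224) (nat_lit 219)) (XT.nd (nat_lit 78) (nat_lit 0) (nat_lit 0) (XT.lf (nat_lit 0) (nat_lit 3376868576) (nat_lit 152) (nat_lit 7958817986) (nat_lit 152) (nat_lit 5162244201) (nat_lit 22) (nat_lit 4) (nat_lit 24) (nat_lit 5) (nat_lit 24) (nat_lit 4) (nat_lit 338) (nat_lit 224) (nat_lit 218)) (XT.lf (nat_lit 0) (nat_lit 10274742551) (nat_lit 152) (nat_lit 4905227357) (nat_lit 152) (nat_lit 1688902780) (nat_lit 22) (nat_lit 4) (nat_lit 24) (nat_lit 5) (nat_lit 24) (nat_lit 4) (nat_lit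 339) (nat_lit 224) (nat_lit 217)))) (XT.nd (nat_lit 78) (nat_lit 76) (nat_lit 0) (XT.lf (nat_lit 0) (nat_lit 1778081311) (nat_lit 228) (nat_lit 14344557) (nat_lit 76) (nat_lit 15460243024) (nat_lit 21) (nat_lit 5) (nat_lit 24) (nat_lit 5) (nat_lit 22) (nat_lit 4) (nat_lit 340) (nat_lit 224) (nat_lit 216)) (XT.nd (nat_lit 78) (nat_lit 0) (nat_lit 0) (XT.lf (nat_lit 0) (nat_lit 5322445095) (nat_lit 152) (nat_lit 10904857539) (nat_lit 0) (nat_lit 1420013056) (nat_lit 20) (nat_lit 5) (nat_lit 22) (nat_lit 4) (nat_lit 20) (nat_lit 4) (nat_lit 341) (nat_lit 224) (nat_lit 215)) (XT.lf (nat_lit 0) (nat_lit 8919932640) (nat_lit 152) (nat_lit 4490964154) (nat_lit 0) (nat_lit 4644557458) (nat_lit 20) (nat_lit 5) (nat_lit 22) (nat_lit 4) (nat_lit 20) (nat_lit 4) (nat_lit 342) (nat_lit 224) (nat_lit 214)))))) (XT.nd (nat_lit 468) (nat_lit 304) (nat_lit 0) (XT.nd (nat_lit 234) (nat_lit 76) (nat_lit 0) (XT.nd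 (nat_lit 78) (nat_lit 76) (nat_lit 0) (XT.lf (nat_lit 0) (nat_lit 2036961107) (nat_lit 152) (nat_lit 10538934869) (nat_lit 152) (nat_lit 5901478965) (nat_lit 18) (nat_lit 4) (nat_lit 20) (nat_lit 5) (nat_lit 20) (nat_lit 4) (nat_lit 343) (nat_lit 224) (nat_lit 213)) (XT.nd (nat_lit 78) (nat_lit 76) (nat_lit 0) (XT.lf (nat_lit 0) (nat_lit 8735809289) (nat_lit 152) (nat_lit 7582935633) (nat_lit 152) (nat_lit 2593945049) (nat_lit 18) (nat_lit 4) (nat_lit 20) (nat_lit 5) (nat_lit 20) (nat_lit 4) (nat_lit 344) (nat_lit 224) (nat_lit 212)) (XT.lf (nat_lit 0) (nat_lit 730090059) (nat_lit 228) (nat_lit 3848203570) (nat_lit 76) (nat_lit 14784592221) (nat_lit 17) (nat_lit 5) (nat_lit 20) (nat_lit 5) (nat_lit 18) (nat_lit 4) (nat_lit 345) (nat_lit 224) (nat_lit 211)))) (XT.nd (nat_lit 78) (nat_lit 0) (nat_lit 0) (XT.lf (nat_lit 0) (nat_lit 2583463162) (nat_lit 76) (nat_lit 1478164771) (nat_lit 152) (nat_lit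 15765440101) (nat_lit 16) (nat_lit 5) (nat_lit 17) (nat_lit 5) (nat_lit 18) (nat_lit 4) (nat_lit 346) (nat_lit 224) (nat_lit 210)) (XT.nd (nat_lit 78) (nat_lit 0) (nat_lit 0) (XT.lf (nat_lit 0) (nat_lit 7484307240) (nat_lit 152) (nat_lit 11145945737) (nat_lit 0) (nat_lit 1675233866) (nat_lit 16) (nat_lit 5) (nat_lit 18) (nat_lit 4) (nat_lit 16) (nat_lit 4) (nat_lit 347) (nat_lit 224) (nat_lit 209)) (XT.lf (nat_lit 0) (nat_lit 10961647772) (nat_lit 152) (nat_lit 4988759174) (nat_lit 0) (nat_lit 4849337494) (nat_lit 16) (nat_lit 5) (nat_lit 18) (nat_lit 4) (nat_lit 16) (nat_lit 4) (nat_lit 348) (nat_lit 224) (nat_lit 208))))) (XT.nd (nat_lit 234) (nat_lit 152) (nat_lit 0) (XT.nd (nat_lit 78) (nat_lit 0) (nat_lit 0) (XT.lf (nat_lit 0) (nat_lit 1272372476) (nat_lit 152) (nat_lit 13222337304) (nat_lit 152) (nat_lit 6815622266) (nat_lit 14) (nat_lit 4) (nat_lit 16) (nat_lit 5) (nat_lit 16) (nat_lit 4)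 (nat_lit 349) (nat_lit 224) (nat_lit 207)) (XT.nd (nat_lit 78) (nat_lit 0) (nat_lit 0) (XT.lf (nat_lit 0) (nat_lit 7719038953) (nat_lit 152) (nat_lit 10405038424) (nat_lit 152) (nat_lit 3712493520) (nat_lit 14) (nat_lit 4) (nat_lit 16) (nat_lit 5) (nat_lit 16) (nat_lit 4) (nat_lit 350) (nat_lit 224) (nat_lit 206)) (XT.lf (nat_lit 0) (nat_lit 14257587177) (nat_lit 152) (nat_lit 7546425273) (nat_lit 152) (nat_lit 576375646) (nat_lit 14) (nat_lit 4) (nat_lit 16) (nat_lit 5) (nat_lit 16) (nat_lit 4) (nat_lit 351) (nat_lit 224) (nat_lit 205)))) (XT.nd (nat_lit 78) (nat_lit 76) (nat_lit 0) (XT.lf (nat_lit 0) (nat_lit 2544824653) (nat_lit 228) (nat_lit 2073477641) (nat_lit 76) (nat_lit 18323208050) (nat_lit 13) (nat_lit 5) (nat_lit 16) (nat_lit 5) (nat_lit 14) (nat_lit 4) (nat_lit 352) (nat_lit 224) (nat_lit 204)) (XT.nd (nat_lit 78) (nat_lit 0) (nat_lit 0) (XT.lf (nat_lit 0) (nat_lit 4135482354) (nat_lit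 76) (nat_lit 1596797872) (nat_lit 152) (nat_lit 17787526949) (nat_lit 12) (nat_lit 5) (nat_lit 13) (nat_lit 5) (nat_lit 14) (nat_lit 4) (nat_lit 353) (nat_lit 224) (nat_lit 203)) (XT.lf (nat_lit 0) (nat_lit 8995824172) (nat_lit 152) (nat_lit 13653556516) (nat_lit 0) (nat_lit 1466695397) (nat_lit 12) (nat_lit 5) (nat_lit 14) (nat_lit 4) (nat_lit 12) (nat_lit 4) (nat_lit 354) (nat_lit 224) (nat_lit 202))))))))
noncomputable def xc28 : XT := (XT.nd (nat_lit 1794) (nat_lit 228) (nat_lit 0) (XT.nd (nat_lit 858) (nat_lit 228) (nat_lit 0) (XT.nd (nat_lit 390) (nat_lit 152) (nat_lit 0) (XT.nd (nat_lit 156) (nat_lit 76) (nat_lit 0) (XT.nd (nat_lit 78) (nat_lit 0) (nat_lit 0) (XT.lf (nat_lit 0) (nat_lit 12319446310) (nat_lit 152) (nat_lit 7861018110) (nat_lit 0) (nat_lit 4550939523) (nat_lit 12) (nat_lit 5) (nat_lit 14) (nat_lit 4) (nat_lit 12) (nat_lit 4) (nat_lit 355) (nat_lit 224) (nat_lit 201)) (XT.lf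 (nat_lit 0) (nat_lit 15690701378) (nat_lit 152) (nat_lit 1986298765) (nat_lit 0) (nat_lit 7689788753) (nat_lit 12) (nat_lit 5) (nat_lit 14) (nat_lit 4) (nat_lit 12) (nat_lit 4) (nat_lit 356) (nat_lit 224) (nat_lit 200))) (XT.nd (nat_lit 78) (nat_lit 0) (nat_lit 0) (XT.lf (nat_lit 0) (nat_lit 4054859688) (nat_lit 76) (nat_lit 15096653235) (nat_lit 76) (nat_lit 6870103876) (nat_lit 11) (nat_lit 4) (nat_lit 12) (nat_lit 5) (nat_lit 12) (nat_lit 4) (nat_lit 357) (nat_lit 224) (nat_lit 199)) (XT.nd (nat_lit 78) (nat_lit 0) (nat_lit 0) (XT.lf (nat_lit 0) (nat_lit 10229914519) (nat_lit 76) (nat_lit 12456359200) (nat_lit 76) (nat_lit 4010745050) (nat_lit 11) (nat_lit 4) (nat_lit 12) (nat_lit 5) (nat_lit 12) (nat_lit 4) (nat_lit 358) (nat_lit 224) (nat_lit 198)) (XT.lf (nat_lit 0) (nat_lit 16504730166) (nat_lit 76) (nat_lit 9773868709) (nat_lit 76) (nat_lit 1115570295) (nat_lit 11) (nat_lit 4) (nat_lit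 12) (nat_lit 5) (nat_lit 12) (nat_lit 4) (nat_lit 359) (nat_lit 224) (nat_lit 197))))) (XT.nd (nat_lit 234) (nat_lit 0) (nat_lit 0) (XT.nd (nat_lit 78) (nat_lit 76) (nat_lit 0) (XT.lf (nat_lit 0) (nat_lit 1782475397) (nat_lit 152) (nat_lit 5246362932) (nat_lit 76) (nat_lit 21084314575) (nat_lit 10) (nat_lit 5) (nat_lit 12) (nat_lit 5) (nat_lit 11) (nat_lit 4) (nat_lit 360) (nat_lit 224) (nat_lit 196)) (XT.nd (nat_lit 78) (nat_lit 0) (nat_lit 0) (XT.lf (nat_lit 0) (nat_lit 482850695) (nat_lit 76) (nat_lit 4220653738) (nat_lit 152) (nat_lit 24151145745) (nat_lit 9) (nat_lit 5) (nat_lit 10) (nat_lit 5) (nat_lit 11) (nat_lit 4) (nat_lit 361) (nat_lit 224) (nat_lit 195)) (XT.lf (nat_lit 0) (nat_lit 6410753728) (nat_lit 76) (nat_lit 1308779899) (nat_lit 152) (nat_lit 21898666113) (nat_lit 9) (nat_lit 5) (nat_lit 10) (nat_lit 5) (nat_lit 11) (nat_lit 4) (nat_lit 362) (nat_lit 224) (nat_lit 194)))) (XT.nd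 (nat_lit 78) (nat_lit 0) (nat_lit 0) (XT.lf (nat_lit 0) (nat_lit 10797685257) (nat_lit 152) (nat_lit 17983820683) (nat_lit 0) (nat_lit 1624028219) (nat_lit 9) (nat_lit 5) (nat_lit 11) (nat_lit 4) (nat_lit 9) (nat_lit 4) (nat_lit 363) (nat_lit 224) (nat_lit 193)) (XT.nd (nat_lit 78) (nat_lit 0) (nat_lit 0) (XT.lf (nat_lit 0) (nat_lit 13937830836) (nat_lit 152) (nat_lit 12693541031) (nat_lit 0) (nat_lit 4586054076) (nat_lit 9) (nat_lit 5) (nat_lit 11) (nat_lit 4) (nat_lit 9) (nat_lit 4) (nat_lit 364) (nat_lit 224) (nat_lit 192)) (XT.lf (nat_lit 0) (nat_lit 17130133389) (nat_lit 152) (nat_lit 7319403687) (nat_lit 0) (nat_lit 7605424860) (nat_lit 9) (nat_lit 5) (nat_lit 11) (nat_lit 4) (nat_lit 9) (nat_lit 4) (nat_lit 365) (nat_lit 224) (nat_lit 191)))))) (XT.nd (nat_lit 468) (nat_lit 76) (nat_lit 0) (XT.nd (nat_lit 234) (nat_lit 76) (nat_lit 0) (XT.nd (nat_lit 78) (nat_lit 76) (nat_lit 0) (XT.lf (nat_lit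 0) (nat_lit 20377382305) (nat_lit 152) (nat_lit 1856712805) (nat_lit 0) (nat_lit 10684778855) (nat_lit 9) (nat_lit 5) (nat_lit 11) (nat_lit 4) (nat_lit 9) (nat_lit 4) (nat_lit 366) (nat_lit 224) (nat_lit 190)) (XT.nd (nat_lit 78) (nat_lit 0) (nat_lit 0) (XT.lf (nat_lit 0) (nat_lit 3772928261) (nat_lit 76) (nat_lit 19945754420) (nat_lit 76) (nat_lit 10090146192) (nat_lit 8) (nat_lit 4) (nat_lit 9) (nat_lit 5) (nat_lit 9) (nat_lit 4) (nat_lit 367) (nat_lit 224) (nat_lit 189)) (XT.lf (nat_lit 0) (nat_lit 9539657094) (nat_lit 76) (nat_lit 17600163252) (nat_lit 76) (nat_lit 7586297957) (nat_lit 8) (nat_lit 4) (nat_lit 9) (nat_lit 5) (nat_lit 9) (nat_lit 4) (nat_lit 368) (nat_lit 224) (nat_lit 188)))) (XT.nd (nat_lit 78) (nat_lit 76) (nat_lit 0) (XT.lf (nat_lit 0) (nat_lit 15411560360) (nat_lit 76) (nat_lit 15214021218) (nat_lit 76) (nat_lit 5046508287) (nat_lit 8) (nat_lit 4) (nat_lit 9) (nat_lit 5)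 (nat_lit 9) (nat_lit 4) (nat_lit 369) (nat_lit 224) (nat_lit 187)) (XT.nd (nat_lit 78) (nat_lit 76) (nat_lit 0) (XT.lf (nat_lit 0) (nat_lit 21393768845) (nat_lit 76) (nat_lit 12785243341) (nat_lit 76) (nat_lit 2468557946) (nat_lit 8) (nat_lit 4) (nat_lit 9) (nat_lit 5) (nat_lit 9) (nat_lit 4) (nat_lit 370) (nat_lit 224) (nat_lit 186)) (XT.lf (nat_lit 0) (nat_lit 146882393) (nat_lit 152) (nat_lit 10163341769) (nat_lit 76) (nat_lit 27343144106) (nat_lit 7) (nat_lit 5) (nat_lit 9) (nat_lit 5) (nat_lit 8) (nat_lit 4) (nat_lit 371) (nat_lit 224) (nat_lit 185))))) (XT.nd (nat_lit 234) (nat_lit 0) (nat_lit 0) (XT.nd (nat_lit 78) (nat_lit 76) (nat_lit 0) (XT.lf (nat_lit 0) (nat_lit 2756020162) (nat_lit 152) (nat_lit 5007401451) (nat_lit 76) (nat_lit 30926260556) (nat_lit 7) (nat_lit 5) (nat_lit 9) (nat_lit 5) (nat_lit 8) (nat_lit 4) (nat_lit 372) (nat_lit 224) (nat_lit 184)) (XT.nd (nat_lit 78) (nat_lit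 0) (nat_lit 0) (XT.lf (nat_lit 0) (nat_lit 247075476) (nat_lit 76) (nat_lit 5164605210) (nat_lit 152) (nat_lit 34346377296) (nat_lit 6) (nat_lit 5) (nat_lit 7) (nat_lit 5) (nat_lit 8) (nat_lit 4) (nat_lit 373) (nat_lit 224) (nat_lit 183)) (XT.lf (nat_lit 0) (nat_lit 5701468278) (nat_lit 76) (nat_lit 2462394971) (nat_lit 152) (nat_lit 32694135624) (nat_lit 6) (nat_lit 5) (nat_lit 7) (nat_lit 5) (nat_lit 8) (nat_lit 4) (nat_lit 374) (nat_lit 224) (nat_lit 182)))) (XT.nd (nat_lit 78) (nat_lit 0) (nat_lit 0) (XT.lf (nat_lit 0) (nat_lit 10968716272) (nat_lit 152) (nat_lit 30733888674) (nat_lit 0) (nat_lit 289248702) (nat_lit 6) (nat_lit 5) (nat_lit 8) (nat_lit 4) (nat_lit 6) (nat_lit 4) (nat_lit 375) (nat_lit 224) (nat_lit 181)) (XT.nd (nat_lit 78) (nat_lit 0) (nat_lit 0) (XT.lf (nat_lit 0) (nat_lit 13850076073) (nat_lit 152) (nat_lit 26260577775) (nat_lit 0) (nat_lit 3049317641) (nat_lit 6) (nat_lit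 5) (nat_lit 8) (nat_lit 4) (nat_lit 6) (nat_lit 4) (nat_lit 376) (nat_lit 224) (nat_lit 180)) (XT.lf (nat_lit 0) (nat_lit 16786790302) (nat_lit 152) (nat_lit 21709019134) (nat_lit 0) (nat_lit 5868273749) (nat_lit 6) (nat_lit 5) (nat_lit 8) (nat_lit 4) (nat_lit 6) (nat_lit 4) (nat_lit 377) (nat_lit 224) (nat_lit 179))))))) (XT.nd (nat_lit 936) (nat_lit 152) (nat_lit 0) (XT.nd (nat_lit 468) (nat_lit 0) (nat_lit 0) (XT.nd (nat_lit 234) (nat_lit 76) (nat_lit 0) (XT.nd (nat_lit 78) (nat_lit 0) (nat_lit 0) (XT.lf (nat_lit 0) (nat_lit 19781425017) (nat_lit 152) (nat_lit 17075235660) (nat_lit 0) (nat_lit 8748580192) (nat_lit 6) (nat_lit 5) (nat_lit 8) (nat_lit 4) (nat_lit 6) (nat_lit 4) (nat_lit 378) (nat_lit 224) (nat_lit 178)) (XT.nd (nat_lit 78) (nat_lit 0) (nat_lit 0) (XT.lf (nat_lit 0) (nat_lit 22836596890) (nat_lit 152) (nat_lit 12355178417) (nat_lit 0) (nat_lit 11692753744) (nat_lit 6) (nat_lit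 5) (nat_lit 8) (nat_lit 4) (nat_lit 6) (nat_lit 4) (nat_lit 379) (nat_lit 224) (nat_lit 177)) (XT.lf (nat_lit 0) (nat_lit 25954975489) (nat_lit 152) (nat_lit 7544723083) (nat_lit 0) (nat_lit 14703366982) (nat_lit 6) (nat_lit 5) (nat_lit 8) (nat_lit 4) (nat_lit 6) (nat_lit 4) (nat_lit 380) (nat_lit 224) (nat_lit 176)))) (XT.nd (nat_lit 78) (nat_lit 76) (nat_lit 0) (XT.lf (nat_lit 0) (nat_lit 29139285611) (nat_lit 152) (nat_lit 2639666347) (nat_lit 0) (nat_lit 17783050539) (nat_lit 6) (nat_lit 5) (nat_lit 8) (nat_lit 4) (nat_lit 6) (nat_lit 4) (nat_lit 381) (nat_lit 224) (nat_lit 175)) (XT.nd (nat_lit 78) (nat_lit 0) (nat_lit 0) (XT.lf (nat_lit 0) (nat_lit 2411331525) (nat_lit 76) (nat_lit 30004157331) (nat_lit 76) (nat_lit 18546343070) (nat_lit 5) (nat_lit 4) (nat_lit 6) (nat_lit 5) (nat_lit 6) (nat_lit 4) (nat_lit 382) (nat_lit 224) (nat_lit 174)) (XT.lf (nat_lit 0) (nat_lit 7620178758) (nat_lit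 76) (nat_lit 28169961153) (nat_lit 76) (nat_lit 16613526321) (nat_lit 5) (nat_lit 4) (nat_lit 6) (nat_lit 5) (nat_lit 6) (nat_lit 4) (nat_lit 383) (nat_lit 224) (nat_lit 173))))) (XT.nd (nat_lit 234) (nat_lit 0) (nat_lit 0) (XT.nd (nat_lit 78) (nat_lit 0) (nat_lit 0) (XT.lf (nat_lit 0) (nat_lit 12938892234) (nat_lit 76) (nat_lit 26301416185) (nat_lit 76) (nat_lit 14649233225) (nat_lit 5) (nat_lit 4) (nat_lit 6) (nat_lit 5) (nat_lit 6) (nat_lit 4) (nat_lit 384) (nat_lit 224) (nat_lit 172)) (XT.nd (nat_lit 78) (nat_lit 0) (nat_lit 0) (XT.lf (nat_lit 0) (nat_lit 18372119373) (nat_lit 76) (nat_lit 24396889717) (nat_lit 76) (nat_lit 12651747410) (nat_lit 5) (nat_lit 4) (nat_lit 6) (nat_lit 5) (nat_lit 6) (nat_lit 4) (nat_lit 385) (nat_lit 224) (nat_lit 171)) (XT.lf (nat_lit 0) (nat_lit 23924607655) (nat_lit 76) (nat_lit 22454717599) (nat_lit 76) (nat_lit 10619323499) (nat_lit 5) (nat_lit 4) (nat_lit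 6) (nat_lit 5) (nat_lit 6) (nat_lit 4) (nat_lit 386) (nat_lit 224) (nat_lit 170)))) (XT.nd (nat_lit 78) (nat_lit 0) (nat_lit 0) (XT.lf (nat_lit 0) (nat_lit 29601208769) (nat_lit 76) (nat_lit 20473202788) (nat_lit 76) (nat_lit 8550185588) (nat_lit 5) (nat_lit 4) (nat_lit 6) (nat_lit 5) (nat_lit 6) (nat_lit 4) (nat_lit 387) (nat_lit 224) (nat_lit 169)) (XT.nd (nat_lit 78) (nat_lit 0) (nat_lit 0) (XT.lf (nat_lit 0) (nat_lit 35406882851) (nat_lit 76) (nat_lit 18450613864) (nat_lit 76) (nat_lit 6442525692) (nat_lit 5) (nat_lit 4) (nat_lit 6) (nat_lit 5) (nat_lit 6) (nat_lit 4) (nat_lit 388) (nat_lit 224) (nat_lit 168)) (XT.lf (nat_lit 0) (nat_lit 41346702821) (nat_lit 76) (nat_lit 16385183515) (nat_lit 76) (nat_lit 4294502167) (nat_lit 5) (nat_lit 4) (nat_lit 6) (nat_lit 5) (nat_lit 6) (nat_lit 4) (nat_lit 389) (nat_lit 224) (nat_lit 167)))))) (XT.nd (nat_lit 468) (nat_lit 0) (nat_lit 0) (XT.nd (nat_lit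 234) (nat_lit 76) (nat_lit 0) (XT.nd (nat_lit 78) (nat_lit 76) (nat_lit 0) (XT.lf (nat_lit 0) (nat_lit 47425858813) (nat_lit 76) (nat_lit 14275106996) (nat_lit 76) (nat_lit 2104238099) (nat_lit 5) (nat_lit 4) (nat_lit 6) (nat_lit 5) (nat_lit 6) (nat_lit 4) (nat_lit 390) (nat_lit 224) (nat_lit 166)) (XT.nd (nat_lit 78) (nat_lit 0) (nat_lit 0) (XT.lf (nat_lit 0) (nat_lit 127640047) (nat_lit 152) (nat_lit 11989611591) (nat_lit 76) (nat_lit 53520733749) (nat_lit 4) (nat_lit 5) (nat_lit 6) (nat_lit 5) (nat_lit 5) (nat_lit 4) (nat_lit 391) (nat_lit 224) (nat_lit 165)) (XT.lf (nat_lit 0) (nat_lit 2363663990) (nat_lit 152) (nat_lit 7526067442) (nat_lit 76) (nat_lit 57636020427) (nat_lit 4) (nat_lit 5) (nat_lit 6) (nat_lit 5) (nat_lit 5) (nat_lit 4) (nat_lit 392) (nat_lit 224) (nat_lit 164)))) (XT.nd (nat_lit 78) (nat_lit 76) (nat_lit 0) (XT.lf (nat_lit 0) (nat_lit 4646848802) (nat_lit 152) (nat_lit 2964585241)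 (nat_lit 76) (nat_lit 61859325603) (nat_lit 4) (nat_lit 5) (nat_lit 6) (nat_lit 5) (nat_lit 5) (nat_lit 4) (nat_lit 393) (nat_lit 224) (nat_lit 163)) (XT.nd (nat_lit 78) (nat_lit 0) (nat_lit 0) (XT.lf (nat_lit 0) (nat_lit 1732630637) (nat_lit 76) (nat_lit 5263213966) (nat_lit 152) (nat_lit 64478364012) (nat_lit 3) (nat_lit 5) (nat_lit 4) (nat_lit 5) (nat_lit 5) (nat_lit 4) (nat_lit 394) (nat_lit 224) (nat_lit 162)) (XT.lf (nat_lit 0) (nat_lit 6596955790) (nat_lit 76) (nat_lit 2829182231) (nat_lit 152) (nat_lit 64111308311) (nat_lit 3) (nat_lit 5) (nat_lit 4) (nat_lit 5) (nat_lit 5) (nat_lit 4) (nat_lit 395) (nat_lit 224) (nat_lit 161))))) (XT.nd (nat_lit 234) (nat_lit 0) (nat_lit 0) (XT.nd (nat_lit 78) (nat_lit 0) (nat_lit 0) (XT.lf (nat_lit 0) (nat_lit 11573639539) (nat_lit 76) (nat_lit 337148511) (nat_lit 152) (nat_lit 63752359511) (nat_lit 3) (nat_lit 5) (nat_lit 4) (nat_lit 5) (nat_lit 5) (nat_lit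 4) (nat_lit 396) (nat_lit 224) (nat_lit 160)) (XT.nd (nat_lit 78) (nat_lit 0) (nat_lit 0) (XT.lf (nat_lit 0) (nat_lit 14473258302) (nat_lit 152) (nat_lit 61207431826) (nat_lit 0) (nat_lit 2171840806) (nat_lit 3) (nat_lit 5) (nat_lit 5) (nat_lit 4) (nat_lit 3) (nat_lit 4) (nat_lit 397) (nat_lit 224) (nat_lit 159)) (XT.lf (nat_lit 0) (nat_lit 17098317461) (nat_lit 152) (nat_lit 58274273269) (nat_lit 0) (nat_lit 4735442886) (nat_lit 3) (nat_lit 5) (nat_lit 5) (nat_lit 4) (nat_lit 3) (nat_lit 4) (nat_lit 398) (nat_lit 224) (nat_lit 158)))) (XT.nd (nat_lit 78) (nat_lit 0) (nat_lit 0) (XT.lf (nat_lit 0) (nat_lit 19785018393) (nat_lit 152) (nat_lit 55284228519) (nat_lit 0) (nat_lit 7362476750) (nat_lit 3) (nat_lit 5) (nat_lit 5) (nat_lit 4) (nat_lit 3) (nat_lit 4) (nat_lit 399) (nat_lit 224) (nat_lit 157)) (XT.nd (nat_lit 78) (nat_lit 0) (nat_lit 0) (XT.lf (nat_lit 0) (nat_lit 22535708698) (nat_lit 152)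 (nat_lit 52234684917) (nat_lit 0) (nat_lit 10055237863) (nat_lit 3) (nat_lit 5) (nat_lit 5) (nat_lit 4) (nat_lit 3) (nat_lit 4) (nat_lit 400) (nat_lit 224) (nat_lit 156)) (XT.lf (nat_lit 0) (nat_lit 25352791894) (nat_lit 152) (nat_lit 49122977811) (nat_lit 0) (nat_lit 12816079125) (nat_lit 3) (nat_lit 5) (nat_lit 5) (nat_lit 4) (nat_lit 3) (nat_lit 4) (nat_lit 401) (nat_lit 224) (nat_lit 155))))))))
noncomputable def xc29 : XT := (XT.nd (nat_lit 36582) (nat_lit 0) (nat_lit 304) (XT.nd (nat_lit 35646) (nat_lit 0) (nat_lit 836) (XT.nd (nat_lit 35178) (nat_lit 0) (nat_lit 1596) (XT.nd (nat_lit 156) (nat_lit 0) (nat_lit 0) (XT.nd (nat_lit 78) (nat_lit 0) (nat_lit 0) (XT.lf (nat_lit 0) (nat_lit 28238729509) (nat_lit 152) (nat_lit 45946388236) (nat_lit 0) (nat_lit 15647412921) (nat_lit 3) (nat_lit 5) (nat_lit 5) (nat_lit 4) (nat_lit 3) (nat_lit 4) (nat_lit 402) (nat_lit 224) (nat_lit 154)) (XT.lf (nat_lit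 0) (nat_lit 31196043237) (nat_lit 152) (nat_lit 42702140529) (nat_lit 0) (nat_lit 18551713232) (nat_lit 3) (nat_lit 5) (nat_lit 5) (nat_lit 4) (nat_lit 3) (nat_lit 4) (nat_lit 403) (nat_lit 224) (nat_lit 153))) (XT.nd (nat_lit 34866) (nat_lit 0) (nat_lit 1976) (XT.lf (nat_lit 0) (nat_lit 34227317137) (nat_lit 152) (nat_lit 39387399912) (nat_lit 0) (nat_lit 21531517795) (nat_lit 3) (nat_lit 5) (nat_lit 5) (nat_lit 4) (nat_lit 3) (nat_lit 4) (nat_lit 404) (nat_lit 224) (nat_lit 152)) (XT.nd (nat_lit 78) (nat_lit 228) (nat_lit 0) (XT.lf (nat_lit 0) (nat_lit 4045763438) (nat_lit 152) (nat_lit 1459743547) (nat_lit 152) (nat_lit 1459743547) (nat_lit 32) (nat_lit 4) (nat_lit 34) (nat_lit 5) (nat_lit 34) (nat_lit 4) (nat_lit 330) (nat_lit 225) (nat_lit 225)) (XT.lf (nat_lit 0) (nat_lit 761119317) (nat_lit 228) (nat_lit 13227034617) (nat_lit 0) (nat_lit 229391570) (nat_lit 29) (nat_lit 5) (nat_lit 32) (nat_lit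 4) (nat_lit 29) (nat_lit 4) (nat_lit 331) (nat_lit 225) (nat_lit 224))))) (XT.nd (nat_lit 234) (nat_lit 228) (nat_lit 0) (XT.nd (nat_lit 78) (nat_lit 152) (nat_lit 0) (XT.lf (nat_lit 0) (nat_lit 4497949114) (nat_lit 228) (nat_lit 6564347347) (nat_lit 0) (nat_lit 3449980837) (nat_lit 29) (nat_lit 5) (nat_lit 32) (nat_lit 4) (nat_lit 29) (nat_lit 4) (nat_lit 332) (nat_lit 225) (nat_lit 223)) (XT.nd (nat_lit 78) (nat_lit 0) (nat_lit 0) (XT.lf (nat_lit 0) (nat_lit 166426085) (nat_lit 152) (nat_lit 8100535378) (nat_lit 152) (nat_lit 6551362703) (nat_lit 27) (nat_lit 4) (nat_lit 29) (nat_lit 5) (nat_lit 29) (nat_lit 4) (nat_lit 333) (nat_lit 225) (nat_lit 222)) (XT.lf (nat_lit 0) (nat_lit 7099967319) (nat_lit 152) (nat_lit 5034930822) (nat_lit 152) (nat_lit 2999151934) (nat_lit 27) (nat_lit 4) (nat_lit 29) (nat_lit 5) (nat_lit 29) (nat_lit 4) (nat_lit 334) (nat_lit 225) (nat_lit 221)))) (XT.nd (nat_lit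 78) (nat_lit 152) (nat_lit 0) (XT.lf (nat_lit 0) (nat_lit 567820221) (nat_lit 228) (nat_lit 1355537053) (nat_lit 76) (nat_lit 13538137312) (nat_lit 26) (nat_lit 5) (nat_lit 29) (nat_lit 5) (nat_lit 27) (nat_lit 4) (nat_lit 335) (nat_lit 225) (nat_lit 220)) (XT.nd (nat_lit 78) (nat_lit 0) (nat_lit 0) (XT.lf (nat_lit 0) (nat_lit 4170139317) (nat_lit 228) (nat_lit 10338472464) (nat_lit 0) (nat_lit 1289668319) (nat_lit 24) (nat_lit 5) (nat_lit 27) (nat_lit 4) (nat_lit 24) (nat_lit 4) (nat_lit 336) (nat_lit 225) (nat_lit 219)) (XT.lf (nat_lit 0) (nat_lit 7837289877) (nat_lit 228) (nat_lit 3784765968) (nat_lit 0) (nat_lit 4524475561) (nat_lit 24) (nat_lit 5) (nat_lit 27) (nat_lit 4) (nat_lit 24) (nat_lit 4) (nat_lit 337) (nat_lit 225) (nat_lit 218)))))) (XT.nd (nat_lit 468) (nat_lit 304) (nat_lit 0) (XT.nd (nat_lit 234) (nat_lit 228) (nat_lit 0) (XT.nd (nat_lit 78) (nat_lit 76) (nat_lit 0) (XT.lf (nat_lit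 0) (nat_lit 2897600542) (nat_lit 152) (nat_lit 8670819527) (nat_lit 152) (nat_lit 4938254419) (nat_lit 22) (nat_lit 4) (nat_lit 24) (nat_lit 5) (nat_lit 24) (nat_lit 4) (nat_lit 338) (nat_lit 225) (nat_lit 217)) (XT.nd (nat_lit 78) (nat_lit 76) (nat_lit 0) (XT.lf (nat_lit 0) (nat_lit 9734748766) (nat_lit 152) (nat_lit 5642032836) (nat_lit 152) (nat_lit 1501942686) (nat_lit 22) (nat_lit 4) (nat_lit 24) (nat_lit 5) (nat_lit 24) (nat_lit 4) (nat_lit 339) (nat_lit 225) (nat_lit 216)) (XT.lf (nat_lit 0) (nat_lit 1926143522) (nat_lit 228) (nat_lit 625674179) (nat_lit 76) (nat_lit 14711734850) (nat_lit 21) (nat_lit 5) (nat_lit 24) (nat_lit 5) (nat_lit 22) (nat_lit 4) (nat_lit 340) (nat_lit 225) (nat_lit 215)))) (XT.nd (nat_lit 78) (nat_lit 152) (nat_lit 0) (XT.lf (nat_lit 0) (nat_lit 5422130055) (nat_lit 152) (nat_lit 11591997795) (nat_lit 0) (nat_lit 645550474) (nat_lit 20) (nat_lit 5) (nat_lit 22) (nat_lit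 4) (nat_lit 20) (nat_lit 4) (nat_lit 341) (nat_lit 225) (nat_lit 214)) (XT.nd (nat_lit 78) (nat_lit 152) (nat_lit 0) (XT.lf (nat_lit 0) (nat_lit 8985612994) (nat_lit 152) (nat_lit 5236298189) (nat_lit 0) (nat_lit 3846952691) (nat_lit 20) (nat_lit 5) (nat_lit 22) (nat_lit 4) (nat_lit 20) (nat_lit 4) (nat_lit 342) (nat_lit 225) (nat_lit 213)) (XT.lf (nat_lit 0) (nat_lit 1219170212) (nat_lit 152) (nat_lit 11381530832) (nat_lit 152) (nat_lit 5891335848) (nat_lit 18) (nat_lit 4) (nat_lit 20) (nat_lit 5) (nat_lit 20) (nat_lit 4) (nat_lit 343) (nat_lit 225) (nat_lit 212))))) (XT.nd (nat_lit 234) (nat_lit 152) (nat_lit 0) (XT.nd (nat_lit 78) (nat_lit 152) (nat_lit 0) (XT.lf (nat_lit 0) (nat_lit 7862073488) (nat_lit 152) (nat_lit 8448886122) (nat_lit 152) (nat_lit 2617395332) (nat_lit 18) (nat_lit 4) (nat_lit 20) (nat_lit 5) (nat_lit 20) (nat_lit 4) (nat_lit 344) (nat_lit 225) (nat_lit 211)) (XT.nd (nat_lit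 78) (nat_lit 76) (nat_lit 0) (XT.lf (nat_lit 0) (nat_lit 675118859) (nat_lit 228) (nat_lit 4792354657) (nat_lit 76) (nat_lit 13912067280) (nat_lit 17) (nat_lit 5) (nat_lit 20) (nat_lit 5) (nat_lit 18) (nat_lit 4) (nat_lit 345) (nat_lit 225) (nat_lit 210)) (XT.lf (nat_lit 0) (nat_lit 1566084862) (nat_lit 76) (nat_lit 2399745105) (nat_lit 152) (nat_lit 15879140977) (nat_lit 16) (nat_lit 5) (nat_lit 17) (nat_lit 5) (nat_lit 18) (nat_lit 4) (nat_lit 346) (nat_lit 225) (nat_lit 209)))) (XT.nd (nat_lit 78) (nat_lit 152) (nat_lit 0) (XT.lf (nat_lit 0) (nat_lit 7348786220) (nat_lit 152) (nat_lit 12225947982) (nat_lit 0) (nat_lit 749869730) (nat_lit 16) (nat_lit 5) (nat_lit 18) (nat_lit 4) (nat_lit 16) (nat_lit 4) (nat_lit 347) (nat_lit 225) (nat_lit 208)) (XT.nd (nat_lit 78) (nat_lit 152) (nat_lit 0) (XT.lf (nat_lit 0) (nat_lit 10796161450) (nat_lit 152) (nat_lit 6120780670) (nat_lit 0) (nat_lit 3902840200)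 (nat_lit 16) (nat_lit 5) (nat_lit 18) (nat_lit 4) (nat_lit 16) (nat_lit 4) (nat_lit 348) (nat_lit 225) (nat_lit 207)) (XT.lf (nat_lit 0) (nat_lit 66312273) (nat_lit 152) (nat_lit 14222225272) (nat_lit 152) (nat_lit 7043074156) (nat_lit 14) (nat_lit 4) (nat_lit 16) (nat_lit 5) (nat_lit 16) (nat_lit 4) (nat_lit 349) (nat_lit 225) (nat_lit 206))))))) (XT.nd (nat_lit 936) (nat_lit 228) (nat_lit 0) (XT.nd (nat_lit 468) (nat_lit 152) (nat_lit 0) (XT.nd (nat_lit 234) (nat_lit 76) (nat_lit 0) (XT.nd (nat_lit 78) (nat_lit 76) (nat_lit 0) (XT.lf (nat_lit 0) (nat_lit 6462969762) (nat_lit 152) (nat_lit 11426209492) (nat_lit 152) (nat_lit 3969553653) (nat_lit 14) (nat_lit 4) (nat_lit 16) (nat_lit 5) (nat_lit 16) (nat_lit 4) (nat_lit 350) (nat_lit 225) (nat_lit 205)) (XT.nd (nat_lit 78) (nat_lit 76) (nat_lit 0) (XT.lf (nat_lit 0) (nat_lit 12952965570) (nat_lit 152) (nat_lit 8588259547) (nat_lit 152) (nat_lit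 862181646) (nat_lit 14) (nat_lit 4) (nat_lit 16) (nat_lit 5) (nat_lit 16) (nat_lit 4) (nat_lit 351) (nat_lit 225) (nat_lit 204)) (XT.lf (nat_lit 0) (nat_lit 2237231746) (nat_lit 228) (nat_lit 3446072271) (nat_lit 76) (nat_lit 17282147167) (nat_lit 13) (nat_lit 5) (nat_lit 16) (nat_lit 5) (nat_lit 14) (nat_lit 4) (nat_lit 352) (nat_lit 225) (nat_lit 203)))) (XT.nd (nat_lit 78) (nat_lit 0) (nat_lit 0) (XT.lf (nat_lit 0) (nat_lit 2688336365) (nat_lit 76) (nat_lit 2695873100) (nat_lit 152) (nat_lit 18160771169) (nat_lit 12) (nat_lit 5) (nat_lit 13) (nat_lit 5) (nat_lit 14) (nat_lit 4) (nat_lit 353) (nat_lit 225) (nat_lit 202)) (XT.nd (nat_lit 78) (nat_lit 0) (nat_lit 0) (XT.lf (nat_lit 0) (nat_lit 8610765765) (nat_lit 152) (nat_lit 15161785399) (nat_lit 0) (nat_lit 369825762) (nat_lit 12) (nat_lit 5) (nat_lit 14) (nat_lit 4) (nat_lit 12) (nat_lit 4) (nat_lit 354) (nat_lit 225) (nat_lit 201)) (XT.lf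 (nat_lit 0) (nat_lit 11908734831) (nat_lit 152) (nat_lit 9414367787) (nat_lit 0) (nat_lit 3435388992) (nat_lit 12) (nat_lit 5) (nat_lit 14) (nat_lit 4) (nat_lit 12) (nat_lit 4) (nat_lit 355) (nat_lit 225) (nat_lit 200))))) (XT.nd (nat_lit 234) (nat_lit 76) (nat_lit 0) (XT.nd (nat_lit 78) (nat_lit 76) (nat_lit 0) (XT.lf (nat_lit 0) (nat_lit 15255084004) (nat_lit 152) (nat_lit 3583455038) (nat_lit 0) (nat_lit 6556101430) (nat_lit 12) (nat_lit 5) (nat_lit 14) (nat_lit 4) (nat_lit 12) (nat_lit 4) (nat_lit 356) (nat_lit 225) (nat_lit 199)) (XT.nd (nat_lit 78) (nat_lit 0) (nat_lit 0) (XT.lf (nat_lit 0) (nat_lit 2382539753) (nat_lit 76) (nat_lit 16293099954) (nat_lit 76) (nat_lit 7375052588) (nat_lit 11) (nat_lit 4) (nat_lit 12) (nat_lit 5) (nat_lit 12) (nat_lit 4) (nat_lit 357) (nat_lit 225) (nat_lit 198)) (XT.lf (nat_lit 0) (nat_lit 8515480876) (nat_lit 76) (nat_lit 13671038611) (nat_lit 76) (nat_lit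 4540306982) (nat_lit 11) (nat_lit 4) (nat_lit 12) (nat_lit 5) (nat_lit 12) (nat_lit 4) (nat_lit 358) (nat_lit 225) (nat_lit 197)))) (XT.nd (nat_lit 78) (nat_lit 76) (nat_lit 0) (XT.lf (nat_lit 0) (nat_lit 14749409427) (nat_lit 76) (nat_lit 11006249762) (nat_lit 76) (nat_lit 1669028556) (nat_lit 11) (nat_lit 4) (nat_lit 12) (nat_lit 5) (nat_lit 12) (nat_lit 4) (nat_lit 359) (nat_lit 225) (nat_lit 196)) (XT.nd (nat_lit 78) (nat_lit 0) (nat_lit 0) (XT.lf (nat_lit 0) (nat_lit 1217069501) (nat_lit 152) (nat_lit 7067045433) (nat_lit 76) (nat_lit 19860413013) (nat_lit 10) (nat_lit 5) (nat_lit 12) (nat_lit 5) (nat_lit 11) (nat_lit 4) (nat_lit 360) (nat_lit 225) (nat_lit 195)) (XT.lf (nat_lit 0) (nat_lit 4111372035) (nat_lit 152) (nat_lit 1386247519) (nat_lit 76) (nat_lit 23389221476) (nat_lit 10) (nat_lit 5) (nat_lit 12) (nat_lit 5) (nat_lit 11) (nat_lit 4) (nat_lit 361) (nat_lit 225) (nat_lit 194))))))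 (XT.nd (nat_lit 468) (nat_lit 76) (nat_lit 0) (XT.nd (nat_lit 234) (nat_lit 76) (nat_lit 0) (XT.nd (nat_lit 78) (nat_lit 0) (nat_lit 0) (XT.lf (nat_lit 0) (nat_lit 4475455201) (nat_lit 76) (nat_lit 2616542417) (nat_lit 152) (nat_lit 22559468687) (nat_lit 9) (nat_lit 5) (nat_lit 10) (nat_lit 5) (nat_lit 11) (nat_lit 4) (nat_lit 362) (nat_lit 225) (nat_lit 193)) (XT.nd (nat_lit 78) (nat_lit 0) (nat_lit 0) (XT.lf (nat_lit 0) (nat_lit 10136243843) (nat_lit 152) (nat_lit 19977793195) (nat_lit 0) (nat_lit 325794058) (nat_lit 9) (nat_lit 5) (nat_lit 11) (nat_lit 4) (nat_lit 9) (nat_lit 4) (nat_lit 363) (nat_lit 225) (nat_lit 192)) (XT.lf (nat_lit 0) (nat_lit 13255676420) (nat_lit 152) (nat_lit 14724385808) (nat_lit 0) (nat_lit 3272294866) (nat_lit 9) (nat_lit 5) (nat_lit 11) (nat_lit 4) (nat_lit 9) (nat_lit 4) (nat_lit 364) (nat_lit 225) (nat_lit 191)))) (XT.nd (nat_lit 78) (nat_lit 76) (nat_lit 0) (XT.lf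 (nat_lit 0) (nat_lit 16427869262) (nat_lit 152) (nat_lit 9386046780) (nat_lit 0) (nat_lit 6276592786) (nat_lit 9) (nat_lit 5) (nat_lit 11) (nat_lit 4) (nat_lit 9) (nat_lit 4) (nat_lit 365) (nat_lit 225) (nat_lit 190)) (XT.nd (nat_lit 78) (nat_lit 76) (nat_lit 0) (XT.lf (nat_lit 0) (nat_lit 19655594187) (nat_lit 152) (nat_lit 3958111544) (nat_lit 0) (nat_lit 9341312933) (nat_lit 9) (nat_lit 5) (nat_lit 11) (nat_lit 4) (nat_lit 9) (nat_lit 4) (nat_lit 366) (nat_lit 225) (nat_lit 189)) (XT.lf (nat_lit 0) (nat_lit 1595292661) (nat_lit 76) (nat_lit 21361713805) (nat_lit 76) (nat_lit 10889175485) (nat_lit 8) (nat_lit 4) (nat_lit 9) (nat_lit 5) (nat_lit 9) (nat_lit 4) (nat_lit 367) (nat_lit 225) (nat_lit 188))))) (XT.nd (nat_lit 234) (nat_lit 76) (nat_lit 0) (XT.nd (nat_lit 78) (nat_lit 0) (nat_lit 0) (XT.lf (nat_lit 0) (nat_lit 7328608966) (nat_lit 76) (nat_lit 19030810750) (nat_lit 76) (nat_lit 8404624793)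 (nat_lit 8) (nat_lit 4) (nat_lit 9) (nat_lit 5) (nat_lit 9) (nat_lit 4) (nat_lit 368) (nat_lit 225) (nat_lit 187)) (XT.nd (nat_lit 78) (nat_lit 0) (nat_lit 0) (XT.lf (nat_lit 0) (nat_lit 13168072883) (nat_lit 76) (nat_lit 16658929020) (nat_lit 76) (nat_lit 5883570600) (nat_lit 8) (nat_lit 4) (nat_lit 9) (nat_lit 5) (nat_lit 9) (nat_lit 4) (nat_lit 369) (nat_lit 225) (nat_lit 186)) (XT.lf (nat_lit 0) (nat_lit 19118786855) (nat_lit 76) (nat_lit 14243996098) (nat_lit 76) (nat_lit 3323810044) (nat_lit 8) (nat_lit 4) (nat_lit 9) (nat_lit 5) (nat_lit 9) (nat_lit 4) (nat_lit 370) (nat_lit 225) (nat_lit 185)))) (XT.nd (nat_lit 78) (nat_lit 76) (nat_lit 0) (XT.lf (nat_lit 0) (nat_lit 25185950537) (nat_lit 76) (nat_lit 11783901848) (nat_lit 76) (nat_lit 723106441) (nat_lit 8) (nat_lit 4) (nat_lit 9) (nat_lit 5) (nat_lit 9) (nat_lit 4) (nat_lit 371) (nat_lit 225) (nat_lit 184)) (XT.nd (nat_lit 78) (nat_lit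 0) (nat_lit 0) (XT.lf (nat_lit 0) (nat_lit 1883330695) (nat_lit 152) (nat_lit 7374148031) (nat_lit 76) (nat_lit 29472516690) (nat_lit 7) (nat_lit 5) (nat_lit 9) (nat_lit 5) (nat_lit 8) (nat_lit 4) (nat_lit 372) (nat_lit 225) (nat_lit 183)) (XT.lf (nat_lit 0) (nat_lit 4520294776) (nat_lit 152) (nat_lit 2153648747) (nat_lit 76) (nat_lit 33124998141) (nat_lit 7) (nat_lit 5) (nat_lit 9) (nat_lit 5) (nat_lit 8) (nat_lit 4) (nat_lit 373) (nat_lit 225) (nat_lit 182))))))))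
noncomputable def xc30 : XT := (XT.nd (nat_lit 1794) (nat_lit 0) (nat_lit 0) (XT.nd (nat_lit 858) (nat_lit 152) (nat_lit 0) (XT.nd (nat_lit 390) (nat_lit 76) (nat_lit 0) (XT.nd (nat_lit 156) (nat_lit 0) (nat_lit 0) (XT.nd (nat_lit 78) (nat_lit 0) (nat_lit 0) (XT.lf (nat_lit 0) (nat_lit 3229011756) (nat_lit 76) (nat_lit 4006227838) (nat_lit 152) (nat_lit 33664769357) (nat_lit 6) (nat_lit 5) (nat_lit 7) (nat_lit 5) (nat_lit 8) (nat_lit 4) (nat_lit 374) (nat_lit 225) (nat_lit 181)) (XT.lf (nat_lit 0) (nat_lit 8760399720) (nat_lit 76) (nat_lit 1261203201) (nat_lit 152) (nat_lit 32012824491) (nat_lit 6) (nat_lit 5) (nat_lit 7) (nat_lit 5) (nat_lit 8) (nat_lit 4) (nat_lit 375) (nat_lit 225) (nat_lit 180))) (XT.nd (nat_lit 78) (nat_lit 0) (nat_lit 0) (XT.lf (nat_lit 0) (nat_lit 12875525785) (nat_lit 152) (nat_lit 28816155694) (nat_lit 0) (nat_lit 1511695616) (nat_lit 6) (nat_lit 5) (nat_lit 8) (nat_lit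 4) (nat_lit 6) (nat_lit 4) (nat_lit 376) (nat_lit 225) (nat_lit 179)) (XT.nd (nat_lit 78) (nat_lit 0) (nat_lit 0) (XT.lf (nat_lit 0) (nat_lit 15797372555) (nat_lit 152) (nat_lit 24291356623) (nat_lit 0) (nat_lit 4319214114) (nat_lit 6) (nat_lit 5) (nat_lit 8) (nat_lit 4) (nat_lit 6) (nat_lit 4) (nat_lit 377) (nat_lit 225) (nat_lit 178)) (XT.lf (nat_lit 0) (nat_lit 18777572845) (nat_lit 152) (nat_lit 19683553314) (nat_lit 0) (nat_lit 7188416082) (nat_lit 6) (nat_lit 5) (nat_lit 8) (nat_lit 4) (nat_lit 6) (nat_lit 4) (nat_lit 378) (nat_lit 225) (nat_lit 177))))) (XT.nd (nat_lit 234) (nat_lit 76) (nat_lit 0) (XT.nd (nat_lit 78) (nat_lit 0) (nat_lit 0) (XT.lf (nat_lit 0) (nat_lit 21818730713) (nat_lit 152) (nat_lit 14988719532) (nat_lit 0) (nat_lit 10121808589) (nat_lit 6) (nat_lit 5) (nat_lit 8) (nat_lit 4) (nat_lit 6) (nat_lit 4) (nat_lit 379) (nat_lit 225) (nat_lit 176)) (XT.nd (nat_lit 78) (nat_lit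 0) (nat_lit 0) (XT.lf (nat_lit 0) (nat_lit 24923503482) (nat_lit 152) (nat_lit 10202752995) (nat_lit 0) (nat_lit 13121954793) (nat_lit 6) (nat_lit 5) (nat_lit 8) (nat_lit 4) (nat_lit 6) (nat_lit 4) (nat_lit 380) (nat_lit 225) (nat_lit 175)) (XT.lf (nat_lit 0) (nat_lit 28094604060) (nat_lit 152) (nat_lit 5321471790) (nat_lit 0) (nat_lit 16191476183) (nat_lit 6) (nat_lit 5) (nat_lit 8) (nat_lit 4) (nat_lit 6) (nat_lit 4) (nat_lit 381) (nat_lit 225) (nat_lit 174)))) (XT.nd (nat_lit 78) (nat_lit 76) (nat_lit 0) (XT.lf (nat_lit 0) (nat_lit 31334803311) (nat_lit 152) (nat_lit 340610721) (nat_lit 0) (nat_lit 19333054863) (nat_lit 6) (nat_lit 5) (nat_lit 8) (nat_lit 4) (nat_lit 6) (nat_lit 4) (nat_lit 382) (nat_lit 225) (nat_lit 173)) (XT.nd (nat_lit 78) (nat_lit 0) (nat_lit 0) (XT.lf (nat_lit 0) (nat_lit 4838600954) (nat_lit 76) (nat_lit 29854843116) (nat_lit 76) (nat_lit 17757346540) (nat_lit 5) (nat_lit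 4) (nat_lit 6) (nat_lit 5) (nat_lit 6) (nat_lit 4) (nat_lit 383) (nat_lit 225) (nat_lit 172)) (XT.lf (nat_lit 0) (nat_lit 10135123425) (nat_lit 76) (nat_lit 27996187236) (nat_lit 76) (nat_lit 15805731313) (nat_lit 5) (nat_lit 4) (nat_lit 6) (nat_lit 5) (nat_lit 6) (nat_lit 4) (nat_lit 384) (nat_lit 225) (nat_lit 171)))))) (XT.nd (nat_lit 468) (nat_lit 152) (nat_lit 0) (XT.nd (nat_lit 234) (nat_lit 0) (nat_lit 0) (XT.nd (nat_lit 78) (nat_lit 0) (nat_lit 0) (XT.lf (nat_lit 0) (nat_lit 15546805898) (nat_lit 76) (nat_lit 26101261825) (nat_lit 76) (nat_lit 13820554108) (nat_lit 5) (nat_lit 4) (nat_lit 6) (nat_lit 5) (nat_lit 6) (nat_lit 4) (nat_lit 385) (nat_lit 225) (nat_lit 170)) (XT.nd (nat_lit 78) (nat_lit 0) (nat_lit 0) (XT.lf (nat_lit 0) (nat_lit 21078377029) (nat_lit 76) (nat_lit 24168411121) (nat_lit 76) (nat_lit 11800080304) (nat_lit 5) (nat_lit 4) (nat_lit 6) (nat_lit 5) (nat_lit 6) (nat_lit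 4) (nat_lit 386) (nat_lit 225) (nat_lit 169)) (XT.lf (nat_lit 0) (nat_lit 26734670229) (nat_lit 76) (nat_lit 22195946227) (nat_lit 76) (nat_lit 9742544438) (nat_lit 5) (nat_lit 4) (nat_lit 6) (nat_lit 5) (nat_lit 6) (nat_lit 4) (nat_lit 387) (nat_lit 225) (nat_lit 168)))) (XT.nd (nat_lit 78) (nat_lit 0) (nat_lit 0) (XT.lf (nat_lit 0) (nat_lit 32520627890) (nat_lit 76) (nat_lit 20182143629) (nat_lit 76) (nat_lit 7646148664) (nat_lit 5) (nat_lit 4) (nat_lit 6) (nat_lit 5) (nat_lit 6) (nat_lit 4) (nat_lit 388) (nat_lit 225) (nat_lit 167)) (XT.nd (nat_lit 78) (nat_lit 0) (nat_lit 0) (XT.lf (nat_lit 0) (nat_lit 38441305704) (nat_lit 76) (nat_lit 18125243694) (nat_lit 76) (nat_lit 5509061180) (nat_lit 5) (nat_lit 4) (nat_lit 6) (nat_lit 5) (nat_lit 6) (nat_lit 4) (nat_lit 389) (nat_lit 225) (nat_lit 166)) (XT.lf (nat_lit 0) (nat_lit 44501877078) (nat_lit 76) (nat_lit 16023449131) (nat_lit 76) (nat_lit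 3329414627) (nat_lit 5) (nat_lit 4) (nat_lit 6) (nat_lit 5) (nat_lit 6) (nat_lit 4) (nat_lit 390) (nat_lit 225) (nat_lit 165))))) (XT.nd (nat_lit 234) (nat_lit 76) (nat_lit 0) (XT.nd (nat_lit 78) (nat_lit 76) (nat_lit 0) (XT.lf (nat_lit 0) (nat_lit 50707637658) (nat_lit 76) (nat_lit 13874923421) (nat_lit 76) (nat_lit 1105304461) (nat_lit 5) (nat_lit 4) (nat_lit 6) (nat_lit 5) (nat_lit 6) (nat_lit 4) (nat_lit 391) (nat_lit 225) (nat_lit 164)) (XT.nd (nat_lit 78) (nat_lit 0) (nat_lit 0) (XT.lf (nat_lit 0) (nat_lit 1142475219) (nat_lit 152) (nat_lit 10523777231) (nat_lit 76) (nat_lit 55909997973) (nat_lit 4) (nat_lit 5) (nat_lit 6) (nat_lit 5) (nat_lit 5) (nat_lit 4) (nat_lit 392) (nat_lit 225) (nat_lit 163)) (XT.lf (nat_lit 0) (nat_lit 3416133105) (nat_lit 152) (nat_lit 5979497322) (nat_lit 76) (nat_lit 60125918720) (nat_lit 4) (nat_lit 5) (nat_lit 6) (nat_lit 5) (nat_lit 5) (nat_lit 4) (nat_lit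 393) (nat_lit 225) (nat_lit 162)))) (XT.nd (nat_lit 78) (nat_lit 76) (nat_lit 0) (XT.lf (nat_lit 0) (nat_lit 5739224358) (nat_lit 152) (nat_lit 1332792562) (nat_lit 76) (nat_lit 64453763313) (nat_lit 4) (nat_lit 5) (nat_lit 6) (nat_lit 5) (nat_lit 5) (nat_lit 4) (nat_lit 394) (nat_lit 225) (nat_lit 161)) (XT.nd (nat_lit 78) (nat_lit 0) (nat_lit 0) (XT.lf (nat_lit 0) (nat_lit 3488469888) (nat_lit 76) (nat_lit 4658842283) (nat_lit 152) (nat_lit 65442376782) (nat_lit 3) (nat_lit 5) (nat_lit 4) (nat_lit 5) (nat_lit 5) (nat_lit 4) (nat_lit 395) (nat_lit 225) (nat_lit 160)) (XT.lf (nat_lit 0) (nat_lit 8449097795) (nat_lit 76) (nat_lit 2173991579) (nat_lit 152) (nat_lit 65092571686) (nat_lit 3) (nat_lit 5) (nat_lit 4) (nat_lit 5) (nat_lit 5) (nat_lit 4) (nat_lit 396) (nat_lit 225) (nat_lit 159))))))) (XT.nd (nat_lit 35646) (nat_lit 0) (nat_lit 1140) (XT.nd (nat_lit 468) (nat_lit 0) (nat_lit 0) (XT.nd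 (nat_lit 234) (nat_lit 0) (nat_lit 0) (XT.nd (nat_lit 78) (nat_lit 0) (nat_lit 0) (XT.lf (nat_lit 0) (nat_lit 13159221337) (nat_lit 152) (nat_lit 64382614359) (nat_lit 0) (nat_lit 364003445) (nat_lit 3) (nat_lit 5) (nat_lit 5) (nat_lit 4) (nat_lit 3) (nat_lit 4) (nat_lit 397) (nat_lit 225) (nat_lit 158)) (XT.nd (nat_lit 78) (nat_lit 0) (nat_lit 0) (XT.lf (nat_lit 0) (nat_lit 15775851924) (nat_lit 152) (nat_lit 61464780217) (nat_lit 0) (nat_lit 2920966964) (nat_lit 3) (nat_lit 5) (nat_lit 5) (nat_lit 4) (nat_lit 3) (nat_lit 4) (nat_lit 398) (nat_lit 225) (nat_lit 157)) (XT.lf (nat_lit 0) (nat_lit 18454369774) (nat_lit 152) (nat_lit 58489613541) (nat_lit 0) (nat_lit 5541555622) (nat_lit 3) (nat_lit 5) (nat_lit 5) (nat_lit 4) (nat_lit 3) (nat_lit 4) (nat_lit 399) (nat_lit 225) (nat_lit 156)))) (XT.nd (nat_lit 78) (nat_lit 0) (nat_lit 0) (XT.lf (nat_lit 0) (nat_lit 21197115342) (nat_lit 152) (nat_lit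 55454514670) (nat_lit 0) (nat_lit 8228059256) (nat_lit 3) (nat_lit 5) (nat_lit 5) (nat_lit 4) (nat_lit 3) (nat_lit 4) (nat_lit 400) (nat_lit 225) (nat_lit 155)) (XT.nd (nat_lit 78) (nat_lit 0) (nat_lit 0) (XT.lf (nat_lit 0) (nat_lit 24006485199) (nat_lit 152) (nat_lit 52356831576) (nat_lit 0) (nat_lit 10982825294) (nat_lit 3) (nat_lit 5) (nat_lit 5) (nat_lit 4) (nat_lit 3) (nat_lit 4) (nat_lit 401) (nat_lit 225) (nat_lit 154)) (XT.lf (nat_lit 0) (nat_lit 26884934136) (nat_lit 152) (nat_lit 49193857545) (nat_lit 0) (nat_lit 13808260814) (nat_lit 3) (nat_lit 5) (nat_lit 5) (nat_lit 4) (nat_lit 3) (nat_lit 4) (nat_lit 402) (nat_lit 225) (nat_lit 153))))) (XT.nd (nat_lit 34944) (nat_lit 0) (nat_lit 1976) (XT.nd (nat_lit 34788) (nat_lit 0) (nat_lit 2204) (XT.lf (nat_lit 0) (nat_lit 29834977303) (nat_lit 152) (nat_lit 45962828814) (nat_lit 0) (nat_lit 16706834644) (nat_lit 3) (nat_lit 5) (nat_lit 5)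 (nat_lit 4) (nat_lit 3) (nat_lit 4) (nat_lit 403) (nat_lit 225) (nat_lit 152)) (XT.nd (nat_lit 78) (nat_lit 152) (nat_lit 0) (XT.lf (nat_lit 0) (nat_lit 1915408899) (nat_lit 228) (nat_lit 2861536030) (nat_lit 0) (nat_lit 1915408899) (nat_lit 34) (nat_lit 5) (nat_lit 37) (nat_lit 4) (nat_lit 34) (nat_lit 4) (nat_lit 328) (nat_lit 226) (nat_lit 226)) (XT.lf (nat_lit 0) (nat_lit 1058504809) (nat_lit 152) (nat_lit 6579691240) (nat_lit 152) (nat_lit 6015581274) (nat_lit 32) (nat_lit 4) (nat_lit 34) (nat_lit 5) (nat_lit 34) (nat_lit 4) (nat_lit 329) (nat_lit 226) (nat_lit 225)))) (XT.nd (nat_lit 78) (nat_lit 228) (nat_lit 0) (XT.lf (nat_lit 0) (nat_lit 8024226416) (nat_lit 152) (nat_lit 3509670805) (nat_lit 152) (nat_lit 2397881260) (nat_lit 32) (nat_lit 4) (nat_lit 34) (nat_lit 5) (nat_lit 34) (nat_lit 4) (nat_lit 330) (nat_lit 226) (nat_lit 224)) (XT.nd (nat_lit 78) (nat_lit 0) (nat_lit 0) (XT.lf (nat_lit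 0) (nat_lit 850269825) (nat_lit 152) (nat_lit 378196734) (nat_lit 228) (nat_lit 12991566630) (nat_lit 29) (nat_lit 5) (nat_lit 31) (nat_lit 5) (nat_lit 32) (nat_lit 4) (nat_lit 331) (nat_lit 226) (nat_lit 223)) (XT.lf (nat_lit 0) (nat_lit 4921502213) (nat_lit 228) (nat_lit 6769963803) (nat_lit 0) (nat_lit 2824649959) (nat_lit 29) (nat_lit 5) (nat_lit 32) (nat_lit 4) (nat_lit 29) (nat_lit 4) (nat_lit 332) (nat_lit 226) (nat_lit 222)))))) (XT.nd (nat_lit 468) (nat_lit 304) (nat_lit 0) (XT.nd (nat_lit 234) (nat_lit 304) (nat_lit 0) (XT.nd (nat_lit 78) (nat_lit 228) (nat_lit 0) (XT.lf (nat_lit 0) (nat_lit 8649925759) (nat_lit 228) (nat_lit 107023541) (nat_lit 0) (nat_lit 6066467293) (nat_lit 29) (nat_lit 5) (nat_lit 32) (nat_lit 4) (nat_lit 29) (nat_lit 4) (nat_lit 333) (nat_lit 226) (nat_lit 221)) (XT.nd (nat_lit 78) (nat_lit 76) (nat_lit 0) (XT.lf (nat_lit 0) (nat_lit 6760435307) (nat_lit 152) (nat_lit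 5717909716) (nat_lit 152) (nat_lit 2662018034) (nat_lit 27) (nat_lit 4) (nat_lit 29) (nat_lit 5) (nat_lit 29) (nat_lit 4) (nat_lit 334) (nat_lit 226) (nat_lit 220)) (XT.lf (nat_lit 0) (nat_lit 860624565) (nat_lit 228) (nat_lit 1767496839) (nat_lit 76) (nat_lit 12840754492) (nat_lit 26) (nat_lit 5) (nat_lit 29) (nat_lit 5) (nat_lit 27) (nat_lit 4) (nat_lit 335) (nat_lit 226) (nat_lit 219)))) (XT.nd (nat_lit 78) (nat_lit 152) (nat_lit 0) (XT.lf (nat_lit 0) (nat_lit 4414600057) (nat_lit 228) (nat_lit 10822485726) (nat_lit 0) (nat_lit 570057996) (nat_lit 24) (nat_lit 5) (nat_lit 27) (nat_lit 4) (nat_lit 24) (nat_lit 4) (nat_lit 336) (nat_lit 226) (nat_lit 218)) (XT.nd (nat_lit 78) (nat_lit 152) (nat_lit 0) (XT.lf (nat_lit 0) (nat_lit 8045352394) (nat_lit 228) (nat_lit 4330106227) (nat_lit 0) (nat_lit 3781059539) (nat_lit 24) (nat_lit 5) (nat_lit 27) (nat_lit 4) (nat_lit 24) (nat_lit 4) (nat_lit 337)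 (nat_lit 226) (nat_lit 217)) (XT.lf (nat_lit 0) (nat_lit 2280681192) (nat_lit 152) (nat_lit 9454533108) (nat_lit 152) (nat_lit 4782715211) (nat_lit 22) (nat_lit 4) (nat_lit 24) (nat_lit 5) (nat_lit 24) (nat_lit 4) (nat_lit 338) (nat_lit 226) (nat_lit 216))))) (XT.nd (nat_lit 234) (nat_lit 152) (nat_lit 0) (XT.nd (nat_lit 78) (nat_lit 152) (nat_lit 0) (XT.lf (nat_lit 0) (nat_lit 9058872376) (nat_lit 152) (nat_lit 6449827910) (nat_lit 152) (nat_lit 1382354633) (nat_lit 22) (nat_lit 4) (nat_lit 24) (nat_lit 5) (nat_lit 24) (nat_lit 4) (nat_lit 339) (nat_lit 226) (nat_lit 215)) (XT.nd (nat_lit 78) (nat_lit 76) (nat_lit 0) (XT.lf (nat_lit 0) (nat_lit 2009175052) (nat_lit 228) (nat_lit 1372979357) (nat_lit 76) (nat_lit 13894748630) (nat_lit 21) (nat_lit 5) (nat_lit 24) (nat_lit 5) (nat_lit 22) (nat_lit 4) (nat_lit 340) (nat_lit 226) (nat_lit 214)) (XT.lf (nat_lit 0) (nat_lit 5254640827) (nat_lit 76)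 (nat_lit 203087588) (nat_lit 152) (nat_lit 12216750244) (nat_lit 20) (nat_lit 5) (nat_lit 21) (nat_lit 5) (nat_lit 22) (nat_lit 4) (nat_lit 341) (nat_lit 226) (nat_lit 213)))) (XT.nd (nat_lit 78) (nat_lit 152) (nat_lit 0) (XT.lf (nat_lit 0) (nat_lit 8986244971) (nat_lit 152) (nat_lit 6118684840) (nat_lit 0) (nat_lit 2979809458) (nat_lit 20) (nat_lit 5) (nat_lit 22) (nat_lit 4) (nat_lit 20) (nat_lit 4) (nat_lit 342) (nat_lit 226) (nat_lit 212)) (XT.nd (nat_lit 78) (nat_lit 0) (nat_lit 0) (XT.lf (nat_lit 0) (nat_lit 263277432) (nat_lit 152) (nat_lit 12296814360) (nat_lit 152) (nat_lit 5949083040) (nat_lit 18) (nat_lit 4) (nat_lit 20) (nat_lit 5) (nat_lit 20) (nat_lit 4) (nat_lit 343) (nat_lit 226) (nat_lit 211)) (XT.lf (nat_lit 0) (nat_lit 6851865267) (nat_lit 152) (nat_lit 9386843947) (nat_lit 152) (nat_lit 2707757475) (nat_lit 18) (nat_lit 4) (nat_lit 20) (nat_lit 5) (nat_lit 20) (nat_lit 4) (nat_lit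 344) (nat_lit 226) (nat_lit 210))))))))
noncomputable def xc31 : XT := (XT.nd (nat_lit 1872) (nat_lit 228) (nat_lit 0) (XT.nd (nat_lit 936) (nat_lit 304) (nat_lit 0) (XT.nd (nat_lit 468) (nat_lit 152) (nat_lit 0) (XT.nd (nat_lit 234) (nat_lit 152) (nat_lit 0) (XT.nd (nat_lit 78) (nat_lit 76) (nat_lit 0) (XT.lf (nat_lit 0) (nat_lit 555472903) (nat_lit 228) (nat_lit 5873180508) (nat_lit 76) (nat_lit 12969979766) (nat_lit 17) (nat_lit 5) (nat_lit 20) (nat_lit 5) (nat_lit 18) (nat_lit 4) (nat_lit 345) (nat_lit 226) (nat_lit 209)) (XT.nd (nat_lit 78) (nat_lit 0) (nat_lit 0) (XT.lf (nat_lit 0) (nat_lit 410897238) (nat_lit 76) (nat_lit 3394039585) (nat_lit 152) (nat_lit 16060386406) (nat_lit 16) (nat_lit 5) (nat_lit 17) (nat_lit 5) (nat_lit 18) (nat_lit 4) (nat_lit 346) (nat_lit 226) (nat_lit 208)) (XT.lf (nat_lit 0) (nat_lit 6899728677) (nat_lit 76) (nat_lit 251054621) (nat_lit 152) (nat_lit 13195308044)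 (nat_lit 16) (nat_lit 5) (nat_lit 17) (nat_lit 5) (nat_lit 18) (nat_lit 4) (nat_lit 347) (nat_lit 226) (nat_lit 207)))) (XT.nd (nat_lit 78) (nat_lit 152) (nat_lit 0) (XT.lf (nat_lit 0) (nat_lit 10566652713) (nat_lit 152) (nat_lit 7389286190) (nat_lit 0) (nat_lit 2886297198) (nat_lit 16) (nat_lit 5) (nat_lit 18) (nat_lit 4) (nat_lit 16) (nat_lit 4) (nat_lit 348) (nat_lit 226) (nat_lit 206)) (XT.nd (nat_lit 78) (nat_lit 152) (nat_lit 0) (XT.lf (nat_lit 0) (nat_lit 14030146203) (nat_lit 152) (nat_lit 1252520370) (nat_lit 0) (nat_lit 6072285965) (nat_lit 16) (nat_lit 5) (nat_lit 18) (nat_lit 4) (nat_lit 16) (nat_lit 4) (nat_lit 349) (nat_lit 226) (nat_lit 205)) (XT.lf (nat_lit 0) (nat_lit 5070657090) (nat_lit 152) (nat_lit 12519961999) (nat_lit 152) (nat_lit 4292679700) (nat_lit 14) (nat_lit 4) (nat_lit 16) (nat_lit 5) (nat_lit 16) (nat_lit 4) (nat_lit 350) (nat_lit 226) (nat_lit 204))))) (XT.nd (nat_lit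 234) (nat_lit 0) (nat_lit 0) (XT.nd (nat_lit 78) (nat_lit 152) (nat_lit 0) (XT.lf (nat_lit 0) (nat_lit 11513514629) (nat_lit 152) (nat_lit 9702073418) (nat_lit 152) (nat_lit 1213216302) (nat_lit 14) (nat_lit 4) (nat_lit 16) (nat_lit 5) (nat_lit 16) (nat_lit 4) (nat_lit 351) (nat_lit 226) (nat_lit 203)) (XT.nd (nat_lit 78) (nat_lit 76) (nat_lit 0) (XT.lf (nat_lit 0) (nat_lit 1866480040) (nat_lit 228) (nat_lit 4953858767) (nat_lit 76) (nat_lit 16171426489) (nat_lit 13) (nat_lit 5) (nat_lit 16) (nat_lit 5) (nat_lit 14) (nat_lit 4) (nat_lit 352) (nat_lit 226) (nat_lit 202)) (XT.lf (nat_lit 0) (nat_lit 1104683675) (nat_lit 76) (nat_lit 3867757840) (nat_lit 152) (nat_lit 18600101470) (nat_lit 12) (nat_lit 5) (nat_lit 13) (nat_lit 5) (nat_lit 14) (nat_lit 4) (nat_lit 353) (nat_lit 226) (nat_lit 201)))) (XT.nd (nat_lit 78) (nat_lit 0) (nat_lit 0) (XT.lf (nat_lit 0) (nat_lit 7356150745) (nat_lit 76) (nat_lit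 813751401) (nat_lit 152) (nat_lit 16000927235) (nat_lit 12) (nat_lit 5) (nat_lit 13) (nat_lit 5) (nat_lit 14) (nat_lit 4) (nat_lit 354) (nat_lit 226) (nat_lit 200)) (XT.nd (nat_lit 78) (nat_lit 0) (nat_lit 0) (XT.lf (nat_lit 0) (nat_lit 11435143043) (nat_lit 152) (nat_lit 11103245345) (nat_lit 0) (nat_lit 2249554256) (nat_lit 12) (nat_lit 5) (nat_lit 14) (nat_lit 4) (nat_lit 12) (nat_lit 4) (nat_lit 355) (nat_lit 226) (nat_lit 199)) (XT.lf (nat_lit 0) (nat_lit 14757311736) (nat_lit 152) (nat_lit 5314863272) (nat_lit 0) (nat_lit 5352658157) (nat_lit 12) (nat_lit 5) (nat_lit 14) (nat_lit 4) (nat_lit 12) (nat_lit 4) (nat_lit 356) (nat_lit 226) (nat_lit 198)))))) (XT.nd (nat_lit 468) (nat_lit 76) (nat_lit 0) (XT.nd (nat_lit 234) (nat_lit 152) (nat_lit 0) (XT.nd (nat_lit 78) (nat_lit 0) (nat_lit 0) (XT.lf (nat_lit 0) (nat_lit 574559392) (nat_lit 76) (nat_lit 17562452439) (nat_lit 76) (nat_lit 7945114597)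 (nat_lit 11) (nat_lit 4) (nat_lit 12) (nat_lit 5) (nat_lit 12) (nat_lit 4) (nat_lit 357) (nat_lit 226) (nat_lit 197)) (XT.nd (nat_lit 78) (nat_lit 0) (nat_lit 0) (XT.lf (nat_lit 0) (nat_lit 6666613419) (nat_lit 76) (nat_lit 14958092738) (nat_lit 76) (nat_lit 5134265321) (nat_lit 11) (nat_lit 4) (nat_lit 12) (nat_lit 5) (nat_lit 12) (nat_lit 4) (nat_lit 358) (nat_lit 226) (nat_lit 196)) (XT.lf (nat_lit 0) (nat_lit 12860845761) (nat_lit 76) (nat_lit 12310489950) (nat_lit 76) (nat_lit 2286187216) (nat_lit 11) (nat_lit 4) (nat_lit 12) (nat_lit 5) (nat_lit 12) (nat_lit 4) (nat_lit 359) (nat_lit 226) (nat_lit 195)))) (XT.nd (nat_lit 78) (nat_lit 76) (nat_lit 0) (XT.lf (nat_lit 0) (nat_lit 589868784) (nat_lit 152) (nat_lit 9021505331) (nat_lit 76) (nat_lit 18566843553) (nat_lit 10) (nat_lit 5) (nat_lit 12) (nat_lit 5) (nat_lit 11) (nat_lit 4) (nat_lit 360) (nat_lit 226) (nat_lit 194)) (XT.nd (nat_lit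 78) (nat_lit 76) (nat_lit 0) (XT.lf (nat_lit 0) (nat_lit 3462729525) (nat_lit 152) (nat_lit 3378565241) (nat_lit 76) (nat_lit 22079892844) (nat_lit 10) (nat_lit 5) (nat_lit 12) (nat_lit 5) (nat_lit 11) (nat_lit 4) (nat_lit 361) (nat_lit 226) (nat_lit 193)) (XT.lf (nat_lit 0) (nat_lit 2405999782) (nat_lit 76) (nat_lit 3996645179) (nat_lit 152) (nat_lit 23284402436) (nat_lit 9) (nat_lit 5) (nat_lit 10) (nat_lit 5) (nat_lit 11) (nat_lit 4) (nat_lit 362) (nat_lit 226) (nat_lit 192))))) (XT.nd (nat_lit 234) (nat_lit 76) (nat_lit 0) (XT.nd (nat_lit 78) (nat_lit 0) (nat_lit 0) (XT.lf (nat_lit 0) (nat_lit 8359477539) (nat_lit 76) (nat_lit 1063658791) (nat_lit 152) (nat_lit 21053001327) (nat_lit 9) (nat_lit 5) (nat_lit 10) (nat_lit 5) (nat_lit 11) (nat_lit 4) (nat_lit 363) (nat_lit 226) (nat_lit 191)) (XT.nd (nat_lit 78) (nat_lit 0) (nat_lit 0) (XT.lf (nat_lit 0) (nat_lit 12512234658) (nat_lit 152) (nat_lit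 16888826509) (nat_lit 0) (nat_lit 1888524967) (nat_lit 9) (nat_lit 5) (nat_lit 11) (nat_lit 4) (nat_lit 9) (nat_lit 4) (nat_lit 364) (nat_lit 226) (nat_lit 190)) (XT.lf (nat_lit 0) (nat_lit 15664903509) (nat_lit 152) (nat_lit 11585243128) (nat_lit 0) (nat_lit 4878189040) (nat_lit 9) (nat_lit 5) (nat_lit 11) (nat_lit 4) (nat_lit 9) (nat_lit 4) (nat_lit 365) (nat_lit 226) (nat_lit 189)))) (XT.nd (nat_lit 78) (nat_lit 76) (nat_lit 0) (XT.lf (nat_lit 0) (nat_lit 18873673103) (nat_lit 152) (nat_lit 6191051238) (nat_lit 0) (nat_lit 7928701568) (nat_lit 9) (nat_lit 5) (nat_lit 11) (nat_lit 4) (nat_lit 9) (nat_lit 4) (nat_lit 366) (nat_lit 226) (nat_lit 188)) (XT.nd (nat_lit 78) (nat_lit 76) (nat_lit 0) (XT.lf (nat_lit 0) (nat_lit 22141347220) (nat_lit 152) (nat_lit 701537468) (nat_lit 0) (nat_lit 11042728047) (nat_lit 9) (nat_lit 5) (nat_lit 11) (nat_lit 4) (nat_lit 9) (nat_lit 4) (nat_lit 367) (nat_lit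 226) (nat_lit 187)) (XT.lf (nat_lit 0) (nat_lit 4985377517) (nat_lit 76) (nat_lit 20533326090) (nat_lit 76) (nat_lit 9285534454) (nat_lit 8) (nat_lit 4) (nat_lit 9) (nat_lit 5) (nat_lit 9) (nat_lit 4) (nat_lit 368) (nat_lit 226) (nat_lit 186))))))) (XT.nd (nat_lit 936) (nat_lit 76) (nat_lit 0) (XT.nd (nat_lit 468) (nat_lit 0) (nat_lit 0) (XT.nd (nat_lit 234) (nat_lit 152) (nat_lit 0) (XT.nd (nat_lit 78) (nat_lit 0) (nat_lit 0) (XT.lf (nat_lit 0) (nat_lit 10793346920) (nat_lit 76) (nat_lit 18175289315) (nat_lit 76) (nat_lit 6782670046) (nat_lit 8) (nat_lit 4) (nat_lit 9) (nat_lit 5) (nat_lit 9) (nat_lit 4) (nat_lit 369) (nat_lit 226) (nat_lit 185)) (XT.nd (nat_lit 78) (nat_lit 0) (nat_lit 0) (XT.lf (nat_lit 0) (nat_lit 16713483696) (nat_lit 76) (nat_lit 15773798098) (nat_lit 76) (nat_lit 4240569475) (nat_lit 8) (nat_lit 4) (nat_lit 9) (nat_lit 5) (nat_lit 9) (nat_lit 4) (nat_lit 370) (nat_lit 226)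 (nat_lit 184)) (XT.lf (nat_lit 0) (nat_lit 22750960778) (nat_lit 76) (nat_lit 13326754046) (nat_lit 76) (nat_lit 1657011488) (nat_lit 8) (nat_lit 4) (nat_lit 9) (nat_lit 5) (nat_lit 9) (nat_lit 4) (nat_lit 371) (nat_lit 226) (nat_lit 183)))) (XT.nd (nat_lit 78) (nat_lit 76) (nat_lit 0) (XT.lf (nat_lit 0) (nat_lit 951328097) (nat_lit 152) (nat_lit 9871084320) (nat_lit 76) (nat_lit 27950118986) (nat_lit 7) (nat_lit 5) (nat_lit 9) (nat_lit 5) (nat_lit 8) (nat_lit 4) (nat_lit 372) (nat_lit 226) (nat_lit 182)) (XT.nd (nat_lit 78) (nat_lit 76) (nat_lit 0) (XT.lf (nat_lit 0) (nat_lit 3572446158) (nat_lit 152) (nat_lit 4678892134) (nat_lit 76) (nat_lit 31590624004) (nat_lit 7) (nat_lit 5) (nat_lit 9) (nat_lit 5) (nat_lit 8) (nat_lit 4) (nat_lit 373) (nat_lit 226) (nat_lit 181)) (XT.lf (nat_lit 0) (nat_lit 625481496) (nat_lit 76) (nat_lit 5621498268) (nat_lit 152) (nat_lit 34697271152) (nat_lit 6) (nat_lit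 5) (nat_lit 7) (nat_lit 5) (nat_lit 8) (nat_lit 4) (nat_lit 374) (nat_lit 226) (nat_lit 180))))) (XT.nd (nat_lit 234) (nat_lit 0) (nat_lit 0) (XT.nd (nat_lit 78) (nat_lit 0) (nat_lit 0) (XT.lf (nat_lit 0) (nat_lit 6129656277) (nat_lit 76) (nat_lit 2888488829) (nat_lit 152) (nat_lit 33060988942) (nat_lit 6) (nat_lit 5) (nat_lit 7) (nat_lit 5) (nat_lit 8) (nat_lit 4) (nat_lit 375) (nat_lit 226) (nat_lit 179)) (XT.nd (nat_lit 78) (nat_lit 0) (nat_lit 0) (XT.lf (nat_lit 0) (nat_lit 11745322555) (nat_lit 76) (nat_lit 97169545) (nat_lit 152) (nat_lit 31406487385) (nat_lit 6) (nat_lit 5) (nat_lit 7) (nat_lit 5) (nat_lit 8) (nat_lit 4) (nat_lit 376) (nat_lit 226) (nat_lit 178)) (XT.lf (nat_lit 0) (nat_lit 14748970392) (nat_lit 152) (nat_lit 27003903971) (nat_lit 0) (nat_lit 2701140604) (nat_lit 6) (nat_lit 5) (nat_lit 8) (nat_lit 4) (nat_lit 6) (nat_lit 4) (nat_lit 377) (nat_lit 226) (nat_lit 177)))) (XT.nd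 (nat_lit 78) (nat_lit 0) (nat_lit 0) (XT.lf (nat_lit 0) (nat_lit 17715156677) (nat_lit 152) (nat_lit 22421324123) (nat_lit 0) (nat_lit 5559561528) (nat_lit 6) (nat_lit 5) (nat_lit 8) (nat_lit 4) (nat_lit 6) (nat_lit 4) (nat_lit 378) (nat_lit 226) (nat_lit 176)) (XT.nd (nat_lit 78) (nat_lit 0) (nat_lit 0) (XT.lf (nat_lit 0) (nat_lit 20742708715) (nat_lit 152) (nat_lit 17750979139) (nat_lit 0) (nat_lit 8482487002) (nat_lit 6) (nat_lit 5) (nat_lit 8) (nat_lit 4) (nat_lit 6) (nat_lit 4) (nat_lit 379) (nat_lit 226) (nat_lit 175)) (XT.lf (nat_lit 0) (nat_lit 23834271940) (nat_lit 152) (nat_lit 12988788133) (nat_lit 0) (nat_lit 11472471038) (nat_lit 6) (nat_lit 5) (nat_lit 8) (nat_lit 4) (nat_lit 6) (nat_lit 4) (nat_lit 380) (nat_lit 226) (nat_lit 174)))))) (XT.nd (nat_lit 468) (nat_lit 0) (nat_lit 0) (XT.nd (nat_lit 234) (nat_lit 0) (nat_lit 0) (XT.nd (nat_lit 78) (nat_lit 76) (nat_lit 0) (XT.lf (nat_lit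 0) (nat_lit 26992547718) (nat_lit 152) (nat_lit 8130589968) (nat_lit 0) (nat_lit 14532126245) (nat_lit 6) (nat_lit 5) (nat_lit 8) (nat_lit 4) (nat_lit 6) (nat_lit 4) (nat_lit 381) (nat_lit 226) (nat_lit 173)) (XT.nd (nat_lit 78) (nat_lit 76) (nat_lit 0) (XT.lf (nat_lit 0) (nat_lit 30220295708) (nat_lit 152) (nat_lit 3172139617) (nat_lit 0) (nat_lit 17664126107) (nat_lit 6) (nat_lit 5) (nat_lit 8) (nat_lit 4) (nat_lit 6) (nat_lit 4) (nat_lit 382) (nat_lit 226) (nat_lit 172)) (XT.lf (nat_lit 0) (nat_lit 1928528075) (nat_lit 76) (nat_lit 31610346387) (nat_lit 76) (nat_lit 18961217439) (nat_lit 5) (nat_lit 4) (nat_lit 6) (nat_lit 5) (nat_lit 6) (nat_lit 4) (nat_lit 383) (nat_lit 226) (nat_lit 171)))) (XT.nd (nat_lit 78) (nat_lit 0) (nat_lit 0) (XT.lf (nat_lit 0) (nat_lit 7203505880) (nat_lit 76) (nat_lit 29761291564) (nat_lit 76) (nat_lit 17021910822) (nat_lit 5) (nat_lit 4) (nat_lit 6) (nat_lit 5)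 (nat_lit 6) (nat_lit 4) (nat_lit 384) (nat_lit 226) (nat_lit 170)) (XT.nd (nat_lit 78) (nat_lit 0) (nat_lit 0) (XT.lf (nat_lit 0) (nat_lit 12594271202) (nat_lit 76) (nat_lit 27875687566) (nat_lit 76) (nat_lit 15048683724) (nat_lit 5) (nat_lit 4) (nat_lit 6) (nat_lit 5) (nat_lit 6) (nat_lit 4) (nat_lit 385) (nat_lit 226) (nat_lit 169)) (XT.lf (nat_lit 0) (nat_lit 18105534419) (nat_lit 76) (nat_lit 25951886779) (nat_lit 76) (nat_lit 13039811965) (nat_lit 5) (nat_lit 4) (nat_lit 6) (nat_lit 5) (nat_lit 6) (nat_lit 4) (nat_lit 386) (nat_lit 226) (nat_lit 168))))) (XT.nd (nat_lit 234) (nat_lit 0) (nat_lit 0) (XT.nd (nat_lit 78) (nat_lit 0) (nat_lit 0) (XT.lf (nat_lit 0) (nat_lit 23742111198) (nat_lit 76) (nat_lit 23988208211) (nat_lit 76) (nat_lit 10993540222) (nat_lit 5) (nat_lit 4) (nat_lit 6) (nat_lit 5) (nat_lit 6) (nat_lit 4) (nat_lit 387) (nat_lit 226) (nat_lit 167)) (XT.nd (nat_lit 78) (nat_lit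 0) (nat_lit 0) (XT.lf (nat_lit 0) (nat_lit 29508926703) (nat_lit 76) (nat_lit 21982936028) (nat_lit 76) (nat_lit 8908080489) (nat_lit 5) (nat_lit 4) (nat_lit 6) (nat_lit 5) (nat_lit 6) (nat_lit 4) (nat_lit 388) (nat_lit 226) (nat_lit 166)) (XT.lf (nat_lit 0) (nat_lit 35411019900) (nat_lit 76) (nat_lit 19934318049) (nat_lit 76) (nat_lit 6781610520) (nat_lit 5) (nat_lit 4) (nat_lit 6) (nat_lit 5) (nat_lit 6) (nat_lit 4) (nat_lit 389) (nat_lit 226) (nat_lit 165)))) (XT.nd (nat_lit 78) (nat_lit 0) (nat_lit 0) (XT.lf (nat_lit 0) (nat_lit 41453547955) (nat_lit 76) (nat_lit 17840564219) (nat_lit 76) (nat_lit 4612272235) (nat_lit 5) (nat_lit 4) (nat_lit 6) (nat_lit 5) (nat_lit 6) (nat_lit 4) (nat_lit 390) (nat_lit 226) (nat_lit 164)) (XT.nd (nat_lit 78) (nat_lit 0) (nat_lit 0) (XT.lf (nat_lit 0) (nat_lit 47641790750) (nat_lit 76) (nat_lit 15699845047) (nat_lit 76) (nat_lit 2398170094) (nat_lit 5) (nat_lit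 4) (nat_lit 6) (nat_lit 5) (nat_lit 6) (nat_lit 4) (nat_lit 391) (nat_lit 226) (nat_lit 163)) (XT.lf (nat_lit 0) (nat_lit 53981155486) (nat_lit 76) (nat_lit 13510289999) (nat_lit 76) (nat_lit 137369447) (nat_lit 5) (nat_lit 4) (nat_lit 6) (nat_lit 5) (nat_lit 6) (nat_lit 4) (nat_lit 392) (nat_lit 226) (nat_lit 162))))))))
noncomputable def xc32 : XT := (XT.nd (nat_lit 36348) (nat_lit 0) (nat_lit 532) (XT.nd (nat_lit 35412) (nat_lit 0) (nat_lit 1596) (XT.nd (nat_lit 390) (nat_lit 0) (nat_lit 0) (XT.nd (nat_lit 156) (nat_lit 76) (nat_lit 0) (XT.nd (nat_lit 78) (nat_lit 0) (nat_lit 0) (XT.lf (nat_lit 0) (nat_lit 2129719567) (nat_lit 152) (nat_lit 9118760312) (nat_lit 76) (nat_lit 58325955854) (nat_lit 4) (nat_lit 5) (nat_lit 6) (nat_lit 5) (nat_lit 5) (nat_lit 4) (nat_lit 393) (nat_lit 226) (nat_lit 161)) (XT.lf (nat_lit 0) (nat_lit 4443830779) (nat_lit 152) (nat_lit 4488270362) (nat_lit 76) (nat_lit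 62646839915) (nat_lit 4) (nat_lit 5) (nat_lit 6) (nat_lit 5) (nat_lit 5) (nat_lit 4) (nat_lit 394) (nat_lit 226) (nat_lit 160))) (XT.nd (nat_lit 78) (nat_lit 0) (nat_lit 0) (XT.lf (nat_lit 0) (nat_lit 254136051) (nat_lit 76) (nat_lit 6557973659) (nat_lit 152) (nat_lit 66831939027) (nat_lit 3) (nat_lit 5) (nat_lit 4) (nat_lit 5) (nat_lit 5) (nat_lit 4) (nat_lit 395) (nat_lit 226) (nat_lit 159)) (XT.nd (nat_lit 78) (nat_lit 0) (nat_lit 0) (XT.lf (nat_lit 0) (nat_lit 5199175763) (nat_lit 76) (nat_lit 4080096757) (nat_lit 152) (nat_lit 66491011314) (nat_lit 3) (nat_lit 5) (nat_lit 4) (nat_lit 5) (nat_lit 5) (nat_lit 4) (nat_lit 396) (nat_lit 226) (nat_lit 158)) (XT.lf (nat_lit 0) (nat_lit 10261844301) (nat_lit 76) (nat_lit 1541628031) (nat_lit 152) (nat_lit 66157351971) (nat_lit 3) (nat_lit 5) (nat_lit 4) (nat_lit 5) (nat_lit 5) (nat_lit 4) (nat_lit 397) (nat_lit 226) (nat_lit 157))))) (XT.nd (nat_lit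 234) (nat_lit 0) (nat_lit 0) (XT.nd (nat_lit 78) (nat_lit 0) (nat_lit 0) (XT.lf (nat_lit 0) (nat_lit 14397100766) (nat_lit 152) (nat_lit 64781204863) (nat_lit 0) (nat_lit 1038972998) (nat_lit 3) (nat_lit 5) (nat_lit 5) (nat_lit 4) (nat_lit 3) (nat_lit 4) (nat_lit 398) (nat_lit 226) (nat_lit 156)) (XT.nd (nat_lit 78) (nat_lit 0) (nat_lit 0) (XT.lf (nat_lit 0) (nat_lit 17067673878) (nat_lit 152) (nat_lit 61820482919) (nat_lit 0) (nat_lit 3653304176) (nat_lit 3) (nat_lit 5) (nat_lit 5) (nat_lit 4) (nat_lit 3) (nat_lit 4) (nat_lit 399) (nat_lit 226) (nat_lit 155)) (XT.lf (nat_lit 0) (nat_lit 19802706107) (nat_lit 152) (nat_lit 58799408059) (nat_lit 0) (nat_lit 6333732586) (nat_lit 3) (nat_lit 5) (nat_lit 5) (nat_lit 4) (nat_lit 3) (nat_lit 4) (nat_lit 400) (nat_lit 226) (nat_lit 154)))) (XT.nd (nat_lit 78) (nat_lit 0) (nat_lit 0) (XT.lf (nat_lit 0) (nat_lit 22604587287) (nat_lit 152) (nat_lit 55715340510)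 (nat_lit 0) (nat_lit 9082600349) (nat_lit 3) (nat_lit 5) (nat_lit 5) (nat_lit 4) (nat_lit 3) (nat_lit 4) (nat_lit 401) (nat_lit 226) (nat_lit 153)) (XT.nd (nat_lit 78) (nat_lit 0) (nat_lit 0) (XT.lf (nat_lit 0) (nat_lit 25475765663) (nat_lit 152) (nat_lit 52565585455) (nat_lit 0) (nat_lit 11902309388) (nat_lit 3) (nat_lit 5) (nat_lit 5) (nat_lit 4) (nat_lit 3) (nat_lit 4) (nat_lit 402) (nat_lit 226) (nat_lit 152)) (XT.lf (nat_lit 0) (nat_lit 28418750032) (nat_lit 152) (nat_lit 49347390681) (nat_lit 0) (nat_lit 14795323527) (nat_lit 3) (nat_lit 5) (nat_lit 5) (nat_lit 4) (nat_lit 3) (nat_lit 4) (nat_lit 403) (nat_lit 226) (nat_lit 151)))))) (XT.nd (nat_lit 468) (nat_lit 380) (nat_lit 0) (XT.nd (nat_lit 234) (nat_lit 380) (nat_lit 0) (XT.nd (nat_lit 78) (nat_lit 228) (nat_lit 0) (XT.lf (nat_lit 0) (nat_lit 3407872840) (nat_lit 228) (nat_lit 1514076176) (nat_lit 228) (nat_lit 1514076176) (nat_lit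 37) (nat_lit 4) (nat_lit 40) (nat_lit 5) (nat_lit 40) (nat_lit 4) (nat_lit 326) (nat_lit 227) (nat_lit 227)) (XT.nd (nat_lit 78) (nat_lit 0) (nat_lit 0) (XT.lf (nat_lit 0) (nat_lit 642869002) (nat_lit 228) (nat_lit 12421027629) (nat_lit 0) (nat_lit 61835737) (nat_lit 34) (nat_lit 5) (nat_lit 37) (nat_lit 4) (nat_lit 34) (nat_lit 4) (nat_lit 327) (nat_lit 227) (nat_lit 226)) (XT.lf (nat_lit 0) (nat_lit 4370053887) (nat_lit 228) (nat_lit 5791038862) (nat_lit 0) (nat_lit 3224910656) (nat_lit 34) (nat_lit 5) (nat_lit 37) (nat_lit 4) (nat_lit 34) (nat_lit 4) (nat_lit 328) (nat_lit 227) (nat_lit 225)))) (XT.nd (nat_lit 78) (nat_lit 228) (nat_lit 0) (XT.lf (nat_lit 0) (nat_lit 921884874) (nat_lit 152) (nat_lit 7213654207) (nat_lit 152) (nat_lit 5520831397) (nat_lit 32) (nat_lit 4) (nat_lit 34) (nat_lit 5) (nat_lit 34) (nat_lit 4) (nat_lit 329) (nat_lit 227) (nat_lit 224)) (XT.nd (nat_lit 78) (nat_lit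 228) (nat_lit 0) (XT.lf (nat_lit 0) (nat_lit 7822266227) (nat_lit 152) (nat_lit 4168948087) (nat_lit 152) (nat_lit 1944397530) (nat_lit 32) (nat_lit 4) (nat_lit 34) (nat_lit 5) (nat_lit 34) (nat_lit 4) (nat_lit 330) (nat_lit 227) (nat_lit 223)) (XT.lf (nat_lit 0) (nat_lit 570399732) (nat_lit 152) (nat_lit 1060728750) (nat_lit 228) (nat_lit 12593903646) (nat_lit 29) (nat_lit 5) (nat_lit 31) (nat_lit 5) (nat_lit 32) (nat_lit 4) (nat_lit 331) (nat_lit 227) (nat_lit 222))))) (XT.nd (nat_lit 234) (nat_lit 228) (nat_lit 0) (XT.nd (nat_lit 78) (nat_lit 152) (nat_lit 0) (XT.lf (nat_lit 0) (nat_lit 5278614206) (nat_lit 228) (nat_lit 7112857517) (nat_lit 0) (nat_lit 2131045773) (nat_lit 29) (nat_lit 5) (nat_lit 32) (nat_lit 4) (nat_lit 29) (nat_lit 4) (nat_lit 332) (nat_lit 227) (nat_lit 221)) (XT.nd (nat_lit 78) (nat_lit 152) (nat_lit 0) (XT.lf (nat_lit 0) (nat_lit 8969184339) (nat_lit 228) (nat_lit 512621720)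 (nat_lit 0) (nat_lit 5349182691) (nat_lit 29) (nat_lit 5) (nat_lit 32) (nat_lit 4) (nat_lit 29) (nat_lit 4) (nat_lit 333) (nat_lit 227) (nat_lit 220)) (XT.lf (nat_lit 0) (nat_lit 6284675214) (nat_lit 152) (nat_lit 6471604207) (nat_lit 152) (nat_lit 2392929534) (nat_lit 27) (nat_lit 4) (nat_lit 29) (nat_lit 5) (nat_lit 29) (nat_lit 4) (nat_lit 334) (nat_lit 227) (nat_lit 219)))) (XT.nd (nat_lit 78) (nat_lit 152) (nat_lit 0) (XT.lf (nat_lit 0) (nat_lit 1087810859) (nat_lit 228) (nat_lit 2315732245) (nat_lit 76) (nat_lit 12075232692) (nat_lit 26) (nat_lit 5) (nat_lit 29) (nat_lit 5) (nat_lit 27) (nat_lit 4) (nat_lit 335) (nat_lit 227) (nat_lit 218)) (XT.nd (nat_lit 78) (nat_lit 0) (nat_lit 0) (XT.lf (nat_lit 0) (nat_lit 4370823844) (nat_lit 152) (nat_lit 223834013) (nat_lit 228) (nat_lit 11223830804) (nat_lit 24) (nat_lit 5) (nat_lit 26) (nat_lit 5) (nat_lit 27) (nat_lit 4) (nat_lit 336) (nat_lit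 227) (nat_lit 217)) (XT.lf (nat_lit 0) (nat_lit 8187920484) (nat_lit 228) (nat_lit 5012674462) (nat_lit 0) (nat_lit 2968423009) (nat_lit 24) (nat_lit 5) (nat_lit 27) (nat_lit 4) (nat_lit 24) (nat_lit 4) (nat_lit 337) (nat_lit 227) (nat_lit 216))))))) (XT.nd (nat_lit 936) (nat_lit 456) (nat_lit 0) (XT.nd (nat_lit 468) (nat_lit 304) (nat_lit 0) (XT.nd (nat_lit 234) (nat_lit 76) (nat_lit 0) (XT.nd (nat_lit 78) (nat_lit 76) (nat_lit 0) (XT.lf (nat_lit 0) (nat_lit 1525571471) (nat_lit 152) (nat_lit 10310643527) (nat_lit 152) (nat_lit 4695490671) (nat_lit 22) (nat_lit 4) (nat_lit 24) (nat_lit 5) (nat_lit 24) (nat_lit 4) (nat_lit 338) (nat_lit 227) (nat_lit 215)) (XT.nd (nat_lit 78) (nat_lit 76) (nat_lit 0) (XT.lf (nat_lit 0) (nat_lit 8246522810) (nat_lit 152) (nat_lit 7329318418) (nat_lit 152) (nat_lit 1330034125) (nat_lit 22) (nat_lit 4) (nat_lit 24) (nat_lit 5) (nat_lit 24) (nat_lit 4) (nat_lit 339)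 (nat_lit 227) (nat_lit 214)) (XT.lf (nat_lit 0) (nat_lit 2027248453) (nat_lit 228) (nat_lit 2256913076) (nat_lit 76) (nat_lit 13008570493) (nat_lit 21) (nat_lit 5) (nat_lit 24) (nat_lit 5) (nat_lit 22) (nat_lit 4) (nat_lit 340) (nat_lit 227) (nat_lit 213)))) (XT.nd (nat_lit 78) (nat_lit 0) (nat_lit 0) (XT.lf (nat_lit 0) (nat_lit 4297405889) (nat_lit 76) (nat_lit 1136936005) (nat_lit 152) (nat_lit 12257235614) (nat_lit 20) (nat_lit 5) (nat_lit 21) (nat_lit 5) (nat_lit 22) (nat_lit 4) (nat_lit 341) (nat_lit 227) (nat_lit 212)) (XT.nd (nat_lit 78) (nat_lit 0) (nat_lit 0) (XT.lf (nat_lit 0) (nat_lit 8921829126) (nat_lit 152) (nat_lit 7138895122) (nat_lit 0) (nat_lit 2042370059) (nat_lit 20) (nat_lit 5) (nat_lit 22) (nat_lit 4) (nat_lit 20) (nat_lit 4) (nat_lit 342) (nat_lit 227) (nat_lit 211)) (XT.lf (nat_lit 0) (nat_lit 12462026132) (nat_lit 152) (nat_lit 815325892) (nat_lit 0) (nat_lit 5251211913)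 (nat_lit 20) (nat_lit 5) (nat_lit 22) (nat_lit 4) (nat_lit 20) (nat_lit 4) (nat_lit 343) (nat_lit 227) (nat_lit 210))))) (XT.nd (nat_lit 234) (nat_lit 76) (nat_lit 0) (XT.nd (nat_lit 78) (nat_lit 76) (nat_lit 0) (XT.lf (nat_lit 0) (nat_lit 5704301919) (nat_lit 152) (nat_lit 10397628686) (nat_lit 152) (nat_lit 2865110435) (nat_lit 18) (nat_lit 4) (nat_lit 20) (nat_lit 5) (nat_lit 20) (nat_lit 4) (nat_lit 344) (nat_lit 227) (nat_lit 209)) (XT.nd (nat_lit 78) (nat_lit 0) (nat_lit 0) (XT.lf (nat_lit 0) (nat_lit 371047648) (nat_lit 228) (nat_lit 7091625535) (nat_lit 76) (nat_lit 11957506494) (nat_lit 17) (nat_lit 5) (nat_lit 20) (nat_lit 5) (nat_lit 18) (nat_lit 4) (nat_lit 345) (nat_lit 227) (nat_lit 208)) (XT.lf (nat_lit 0) (nat_lit 3587296900) (nat_lit 228) (nat_lit 865876457) (nat_lit 76) (nat_lit 15434714644) (nat_lit 17) (nat_lit 5) (nat_lit 20) (nat_lit 5) (nat_lit 18) (nat_lit 4) (nat_lit 346)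 (nat_lit 227) (nat_lit 207)))) (XT.nd (nat_lit 78) (nat_lit 0) (nat_lit 0) (XT.lf (nat_lit 0) (nat_lit 5555904999) (nat_lit 76) (nat_lit 1339858018) (nat_lit 152) (nat_lit 13474035704) (nat_lit 16) (nat_lit 5) (nat_lit 17) (nat_lit 5) (nat_lit 18) (nat_lit 4) (nat_lit 347) (nat_lit 227) (nat_lit 206)) (XT.nd (nat_lit 78) (nat_lit 0) (nat_lit 0) (XT.lf (nat_lit 0) (nat_lit 10272921017) (nat_lit 152) (nat_lit 8795384136) (nat_lit 0) (nat_lit 1798820249) (nat_lit 16) (nat_lit 5) (nat_lit 18) (nat_lit 4) (nat_lit 16) (nat_lit 4) (nat_lit 348) (nat_lit 227) (nat_lit 205)) (XT.lf (nat_lit 0) (nat_lit 13708992011) (nat_lit 152) (nat_lit 2706223300) (nat_lit 0) (nat_lit 4965469182) (nat_lit 16) (nat_lit 5) (nat_lit 18) (nat_lit 4) (nat_lit 16) (nat_lit 4) (nat_lit 349) (nat_lit 227) (nat_lit 204)))))) (XT.nd (nat_lit 468) (nat_lit 152) (nat_lit 0) (XT.nd (nat_lit 234) (nat_lit 76) (nat_lit 0) (XT.nd (nat_lit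 78) (nat_lit 76) (nat_lit 0) (XT.lf (nat_lit 0) (nat_lit 3540884353) (nat_lit 152) (nat_lit 13687251651) (nat_lit 152) (nat_lit 4682154005) (nat_lit 14) (nat_lit 4) (nat_lit 16) (nat_lit 5) (nat_lit 16) (nat_lit 4) (nat_lit 350) (nat_lit 227) (nat_lit 203)) (XT.nd (nat_lit 78) (nat_lit 76) (nat_lit 0) (XT.lf (nat_lit 0) (nat_lit 9937976584) (nat_lit 152) (nat_lit 10888840122) (nat_lit 152) (nat_lit 1629786343) (nat_lit 14) (nat_lit 4) (nat_lit 16) (nat_lit 5) (nat_lit 16) (nat_lit 4) (nat_lit 351) (nat_lit 227) (nat_lit 202)) (XT.lf (nat_lit 0) (nat_lit 1432245576) (nat_lit 228) (nat_lit 6598154611) (nat_lit 76) (nat_lit 14990075485) (nat_lit 13) (nat_lit 5) (nat_lit 16) (nat_lit 5) (nat_lit 14) (nat_lit 4) (nat_lit 352) (nat_lit 227) (nat_lit 201)))) (XT.nd (nat_lit 78) (nat_lit 76) (nat_lit 0) (XT.lf (nat_lit 0) (nat_lit 4502546209) (nat_lit 228) (nat_lit 604822338) (nat_lit 76) (nat_lit 18494971875)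 (nat_lit 13) (nat_lit 5) (nat_lit 16) (nat_lit 5) (nat_lit 14) (nat_lit 4) (nat_lit 353) (nat_lit 227) (nat_lit 200)) (XT.nd (nat_lit 78) (nat_lit 0) (nat_lit 0) (XT.lf (nat_lit 0) (nat_lit 5591381748) (nat_lit 76) (nat_lit 2077967379) (nat_lit 152) (nat_lit 16532214156) (nat_lit 12) (nat_lit 5) (nat_lit 13) (nat_lit 5) (nat_lit 14) (nat_lit 4) (nat_lit 354) (nat_lit 227) (nat_lit 199)) (XT.lf (nat_lit 0) (nat_lit 10898257126) (nat_lit 152) (nat_lit 12929126502) (nat_lit 0) (nat_lit 992399149) (nat_lit 12) (nat_lit 5) (nat_lit 14) (nat_lit 4) (nat_lit 12) (nat_lit 4) (nat_lit 355) (nat_lit 227) (nat_lit 198))))) (XT.nd (nat_lit 234) (nat_lit 76) (nat_lit 0) (XT.nd (nat_lit 78) (nat_lit 76) (nat_lit 0) (XT.lf (nat_lit 0) (nat_lit 14196949624) (nat_lit 152) (nat_lit 7182036347) (nat_lit 0) (nat_lit 4078407384) (nat_lit 12) (nat_lit 5) (nat_lit 14) (nat_lit 4) (nat_lit 12) (nat_lit 4) (nat_lit 356)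 (nat_lit 227) (nat_lit 197)) (XT.nd (nat_lit 78) (nat_lit 76) (nat_lit 0) (XT.lf (nat_lit 0) (nat_lit 17548334282) (nat_lit 152) (nat_lit 1343914647) (nat_lit 0) (nat_lit 7223302466) (nat_lit 12) (nat_lit 5) (nat_lit 14) (nat_lit 4) (nat_lit 12) (nat_lit 4) (nat_lit 357) (nat_lit 227) (nat_lit 196)) (XT.lf (nat_lit 0) (nat_lit 4681696633) (nat_lit 76) (nat_lit 16318646192) (nat_lit 76) (nat_lit 5793139060) (nat_lit 11) (nat_lit 4) (nat_lit 12) (nat_lit 5) (nat_lit 12) (nat_lit 4) (nat_lit 358) (nat_lit 227) (nat_lit 195)))) (XT.nd (nat_lit 78) (nat_lit 76) (nat_lit 0) (XT.lf (nat_lit 0) (nat_lit 10837388966) (nat_lit 76) (nat_lit 13687728899) (nat_lit 76) (nat_lit 2967585537) (nat_lit 11) (nat_lit 4) (nat_lit 12) (nat_lit 5) (nat_lit 12) (nat_lit 4) (nat_lit 359) (nat_lit 227) (nat_lit 194)) (XT.nd (nat_lit 78) (nat_lit 76) (nat_lit 0) (XT.lf (nat_lit 0) (nat_lit 17101794575) (nat_lit 76) (nat_lit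 11010769094) (nat_lit 76) (nat_lit 101658518) (nat_lit 11) (nat_lit 4) (nat_lit 12) (nat_lit 5) (nat_lit 12) (nat_lit 4) (nat_lit 360) (nat_lit 227) (nat_lit 193)) (XT.lf (nat_lit 0) (nat_lit 2752368671) (nat_lit 152) (nat_lit 5505265486) (nat_lit 76) (nat_lit 20700225015) (nat_lit 10) (nat_lit 5) (nat_lit 12) (nat_lit 5) (nat_lit 11) (nat_lit 4) (nat_lit 361) (nat_lit 227) (nat_lit 192))))))))
noncomputable def xc33 : XT := (XT.nd (nat_lit 1794) (nat_lit 152) (nat_lit 0) (XT.nd (nat_lit 858) (nat_lit 228) (nat_lit 0) (XT.nd (nat_lit 390) (nat_lit 76) (nat_lit 0) (XT.nd (nat_lit 156) (nat_lit 0) (nat_lit 0) (XT.nd (nat_lit 78) (nat_lit 0) (nat_lit 0) (XT.lf (nat_lit 0) (nat_lit 200579208) (nat_lit 76) (nat_lit 5450294101) (nat_lit 152) (nat_lit 24074100799) (nat_lit 9) (nat_lit 5) (nat_lit 10) (nat_lit 5) (nat_lit 11) (nat_lit 4) (nat_lit 362) (nat_lit 227) (nat_lit 191)) (XT.lf (nat_lit 0) (nat_lit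 6118722184) (nat_lit 76) (nat_lit 2532680556) (nat_lit 152) (nat_lit 21863272937) (nat_lit 9) (nat_lit 5) (nat_lit 10) (nat_lit 5) (nat_lit 11) (nat_lit 4) (nat_lit 363) (nat_lit 227) (nat_lit 190))) (XT.nd (nat_lit 78) (nat_lit 0) (nat_lit 0) (XT.lf (nat_lit 0) (nat_lit 11706855942) (nat_lit 152) (nat_lit 19188754394) (nat_lit 0) (nat_lit 433535260) (nat_lit 9) (nat_lit 5) (nat_lit 11) (nat_lit 4) (nat_lit 9) (nat_lit 4) (nat_lit 364) (nat_lit 227) (nat_lit 189)) (XT.nd (nat_lit 78) (nat_lit 0) (nat_lit 0) (XT.lf (nat_lit 0) (nat_lit 14840569461) (nat_lit 152) (nat_lit 13918914359) (nat_lit 0) (nat_lit 3408991714) (nat_lit 9) (nat_lit 5) (nat_lit 11) (nat_lit 4) (nat_lit 9) (nat_lit 4) (nat_lit 365) (nat_lit 227) (nat_lit 188)) (XT.lf (nat_lit 0) (nat_lit 18030935821) (nat_lit 152) (nat_lit 8557482999) (nat_lit 0) (nat_lit 6445710437) (nat_lit 9) (nat_lit 5) (nat_lit 11) (nat_lit 4) (nat_lit 9)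 (nat_lit 4) (nat_lit 366) (nat_lit 227) (nat_lit 187))))) (XT.nd (nat_lit 234) (nat_lit 0) (nat_lit 0) (XT.nd (nat_lit 78) (nat_lit 76) (nat_lit 0) (XT.lf (nat_lit 0) (nat_lit 21280742720) (nat_lit 152) (nat_lit 3099775569) (nat_lit 0) (nat_lit 9546344873) (nat_lit 9) (nat_lit 5) (nat_lit 11) (nat_lit 4) (nat_lit 9) (nat_lit 4) (nat_lit 367) (nat_lit 227) (nat_lit 186)) (XT.nd (nat_lit 78) (nat_lit 0) (nat_lit 0) (XT.lf (nat_lit 0) (nat_lit 2507915262) (nat_lit 76) (nat_lit 22109022149) (nat_lit 76) (nat_lit 10229796667) (nat_lit 8) (nat_lit 4) (nat_lit 9) (nat_lit 5) (nat_lit 9) (nat_lit 4) (nat_lit 368) (nat_lit 227) (nat_lit 185)) (XT.lf (nat_lit 0) (nat_lit 8285307468) (nat_lit 76) (nat_lit 19764427079) (nat_lit 76) (nat_lit 7744592244) (nat_lit 8) (nat_lit 4) (nat_lit 9) (nat_lit 5) (nat_lit 9) (nat_lit 4) (nat_lit 369) (nat_lit 227) (nat_lit 184)))) (XT.nd (nat_lit 78) (nat_lit 0) (nat_lit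 0) (XT.lf (nat_lit 0) (nat_lit 14175757645) (nat_lit 76) (nat_lit 17375986060) (nat_lit 76) (nat_lit 5219637289) (nat_lit 8) (nat_lit 4) (nat_lit 9) (nat_lit 5) (nat_lit 9) (nat_lit 4) (nat_lit 370) (nat_lit 227) (nat_lit 183)) (XT.nd (nat_lit 78) (nat_lit 0) (nat_lit 0) (XT.lf (nat_lit 0) (nat_lit 20184412786) (nat_lit 76) (nat_lit 14941612104) (nat_lit 76) (nat_lit 2652725532) (nat_lit 8) (nat_lit 4) (nat_lit 9) (nat_lit 5) (nat_lit 9) (nat_lit 4) (nat_lit 371) (nat_lit 227) (nat_lit 182)) (XT.lf (nat_lit 0) (nat_lit 26316523173) (nat_lit 76) (nat_lit 12459178088) (nat_lit 76) (nat_lit 41614039) (nat_lit 8) (nat_lit 4) (nat_lit 9) (nat_lit 5) (nat_lit 9) (nat_lit 4) (nat_lit 372) (nat_lit 227) (nat_lit 181)))))) (XT.nd (nat_lit 468) (nat_lit 76) (nat_lit 0) (XT.nd (nat_lit 234) (nat_lit 0) (nat_lit 0) (XT.nd (nat_lit 78) (nat_lit 76) (nat_lit 0) (XT.lf (nat_lit 0) (nat_lit 2564931574) (nat_lit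 152) (nat_lit 7335682541) (nat_lit 76) (nat_lit 29986614608) (nat_lit 7) (nat_lit 5) (nat_lit 9) (nat_lit 5) (nat_lit 8) (nat_lit 4) (nat_lit 373) (nat_lit 227) (nat_lit 180)) (XT.nd (nat_lit 78) (nat_lit 76) (nat_lit 0) (XT.lf (nat_lit 0) (nat_lit 5218516275) (nat_lit 152) (nat_lit 2070196462) (nat_lit 76) (nat_lit 33701441804) (nat_lit 7) (nat_lit 5) (nat_lit 9) (nat_lit 5) (nat_lit 8) (nat_lit 4) (nat_lit 374) (nat_lit 227) (nat_lit 179)) (XT.lf (nat_lit 0) (nat_lit 3366356784) (nat_lit 76) (nat_lit 4588273464) (nat_lit 152) (nat_lit 34171467445) (nat_lit 6) (nat_lit 5) (nat_lit 7) (nat_lit 5) (nat_lit 8) (nat_lit 4) (nat_lit 375) (nat_lit 227) (nat_lit 178)))) (XT.nd (nat_lit 78) (nat_lit 0) (nat_lit 0) (XT.lf (nat_lit 0) (nat_lit 8956372027) (nat_lit 76) (nat_lit 1808279657) (nat_lit 152) (nat_lit 32531729444) (nat_lit 6) (nat_lit 5) (nat_lit 7) (nat_lit 5) (nat_lit 8) (nat_lit 4) (nat_lit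 376) (nat_lit 227) (nat_lit 177)) (XT.nd (nat_lit 78) (nat_lit 0) (nat_lit 0) (XT.lf (nat_lit 0) (nat_lit 13640667734) (nat_lit 152) (nat_lit 29849031366) (nat_lit 0) (nat_lit 1012639370) (nat_lit 6) (nat_lit 5) (nat_lit 8) (nat_lit 4) (nat_lit 6) (nat_lit 4) (nat_lit 377) (nat_lit 227) (nat_lit 176)) (XT.lf (nat_lit 0) (nat_lit 16593248189) (nat_lit 152) (nat_lit 25290940316) (nat_lit 0) (nat_lit 3860593260) (nat_lit 6) (nat_lit 5) (nat_lit 8) (nat_lit 4) (nat_lit 6) (nat_lit 4) (nat_lit 378) (nat_lit 227) (nat_lit 175))))) (XT.nd (nat_lit 234) (nat_lit 76) (nat_lit 0) (XT.nd (nat_lit 78) (nat_lit 0) (nat_lit 0) (XT.lf (nat_lit 0) (nat_lit 19607590683) (nat_lit 152) (nat_lit 20644370862) (nat_lit 0) (nat_lit 6773356565) (nat_lit 6) (nat_lit 5) (nat_lit 8) (nat_lit 4) (nat_lit 6) (nat_lit 4) (nat_lit 379) (nat_lit 227) (nat_lit 174)) (XT.nd (nat_lit 78) (nat_lit 0) (nat_lit 0) (XT.lf (nat_lit 0)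 (nat_lit 22686329108) (nat_lit 152) (nat_lit 15905262896) (nat_lit 0) (nat_lit 9753474419) (nat_lit 6) (nat_lit 5) (nat_lit 8) (nat_lit 4) (nat_lit 6) (nat_lit 4) (nat_lit 380) (nat_lit 227) (nat_lit 173)) (XT.lf (nat_lit 0) (nat_lit 25832153624) (nat_lit 152) (nat_lit 11069475450) (nat_lit 0) (nat_lit 12803550808) (nat_lit 6) (nat_lit 5) (nat_lit 8) (nat_lit 4) (nat_lit 6) (nat_lit 4) (nat_lit 381) (nat_lit 227) (nat_lit 172)))) (XT.nd (nat_lit 78) (nat_lit 76) (nat_lit 0) (XT.lf (nat_lit 0) (nat_lit 29047813010) (nat_lit 152) (nat_lit 6132783078) (nat_lit 0) (nat_lit 15926250846) (nat_lit 6) (nat_lit 5) (nat_lit 8) (nat_lit 4) (nat_lit 6) (nat_lit 4) (nat_lit 382) (nat_lit 227) (nat_lit 171)) (XT.nd (nat_lit 78) (nat_lit 76) (nat_lit 0) (XT.lf (nat_lit 0) (nat_lit 32336117065) (nat_lit 152) (nat_lit 1090872166) (nat_lit 0) (nat_lit 19124303107) (nat_lit 6) (nat_lit 5) (nat_lit 8) (nat_lit 4)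 (nat_lit 6) (nat_lit 4) (nat_lit 383) (nat_lit 227) (nat_lit 170)) (XT.lf (nat_lit 0) (nat_lit 4141477992) (nat_lit 76) (nat_lit 31598271491) (nat_lit 76) (nat_lit 18298834433) (nat_lit 5) (nat_lit 4) (nat_lit 6) (nat_lit 5) (nat_lit 6) (nat_lit 4) (nat_lit 384) (nat_lit 227) (nat_lit 169))))))) (XT.nd (nat_lit 936) (nat_lit 0) (nat_lit 0) (XT.nd (nat_lit 468) (nat_lit 152) (nat_lit 0) (XT.nd (nat_lit 234) (nat_lit 0) (nat_lit 0) (XT.nd (nat_lit 78) (nat_lit 0) (nat_lit 0) (XT.lf (nat_lit 0) (nat_lit 9511935401) (nat_lit 76) (nat_lit 29721717410) (nat_lit 76) (nat_lit 16337209381) (nat_lit 5) (nat_lit 4) (nat_lit 6) (nat_lit 5) (nat_lit 6) (nat_lit 4) (nat_lit 385) (nat_lit 227) (nat_lit 168)) (XT.nd (nat_lit 78) (nat_lit 0) (nat_lit 0) (XT.lf (nat_lit 0) (nat_lit 15003482197) (nat_lit 76) (nat_lit 27806702950) (nat_lit 76) (nat_lit 14339601744) (nat_lit 5) (nat_lit 4) (nat_lit 6) (nat_lit 5) (nat_lit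 6) (nat_lit 4) (nat_lit 386) (nat_lit 227) (nat_lit 167)) (XT.lf (nat_lit 0) (nat_lit 20620916819) (nat_lit 76) (nat_lit 25851554796) (nat_lit 76) (nat_lit 12304266042) (nat_lit 5) (nat_lit 4) (nat_lit 6) (nat_lit 5) (nat_lit 6) (nat_lit 4) (nat_lit 387) (nat_lit 227) (nat_lit 166)))) (XT.nd (nat_lit 78) (nat_lit 0) (nat_lit 0) (XT.lf (nat_lit 0) (nat_lit 26369147707) (nat_lit 76) (nat_lit 23854564569) (nat_lit 76) (nat_lit 10229423824) (nat_lit 5) (nat_lit 4) (nat_lit 6) (nat_lit 5) (nat_lit 6) (nat_lit 4) (nat_lit 388) (nat_lit 227) (nat_lit 165)) (XT.nd (nat_lit 78) (nat_lit 0) (nat_lit 0) (XT.lf (nat_lit 0) (nat_lit 32253197585) (nat_lit 76) (nat_lit 21813987323) (nat_lit 76) (nat_lit 8113262122) (nat_lit 5) (nat_lit 4) (nat_lit 6) (nat_lit 5) (nat_lit 6) (nat_lit 4) (nat_lit 389) (nat_lit 227) (nat_lit 164)) (XT.lf (nat_lit 0) (nat_lit 38278207856) (nat_lit 76) (nat_lit 19728040031) (nat_lit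 76) (nat_lit 5953931864) (nat_lit 5) (nat_lit 4) (nat_lit 6) (nat_lit 5) (nat_lit 6) (nat_lit 4) (nat_lit 390) (nat_lit 227) (nat_lit 163))))) (XT.nd (nat_lit 234) (nat_lit 76) (nat_lit 0) (XT.nd (nat_lit 78) (nat_lit 76) (nat_lit 0) (XT.lf (nat_lit 0) (nat_lit 44449443092) (nat_lit 76) (nat_lit 17594900021) (nat_lit 76) (nat_lit 3749546254) (nat_lit 5) (nat_lit 4) (nat_lit 6) (nat_lit 5) (nat_lit 6) (nat_lit 4) (nat_lit 391) (nat_lit 227) (nat_lit 162)) (XT.nd (nat_lit 78) (nat_lit 76) (nat_lit 0) (XT.lf (nat_lit 0) (nat_lit 50772295636) (nat_lit 76) (nat_lit 15412703383) (nat_lit 76) (nat_lit 1498179132) (nat_lit 5) (nat_lit 4) (nat_lit 6) (nat_lit 5) (nat_lit 6) (nat_lit 4) (nat_lit 392) (nat_lit 227) (nat_lit 161)) (XT.lf (nat_lit 0) (nat_lit 786484140) (nat_lit 152) (nat_lit 12385117257) (nat_lit 76) (nat_lit 56457864221) (nat_lit 4) (nat_lit 5) (nat_lit 6) (nat_lit 5) (nat_lit 5) (nat_lit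 4) (nat_lit 393) (nat_lit 227) (nat_lit 160)))) (XT.nd (nat_lit 78) (nat_lit 76) (nat_lit 0) (XT.lf (nat_lit 0) (nat_lit 3091876865) (nat_lit 152) (nat_lit 7770369841) (nat_lit 76) (nat_lit 60771990484) (nat_lit 4) (nat_lit 5) (nat_lit 6) (nat_lit 5) (nat_lit 5) (nat_lit 4) (nat_lit 394) (nat_lit 227) (nat_lit 159)) (XT.nd (nat_lit 78) (nat_lit 76) (nat_lit 0) (XT.lf (nat_lit 0) (nat_lit 5449248334) (nat_lit 152) (nat_lit 3048206550) (nat_lit 76) (nat_lit 65202221767) (nat_lit 4) (nat_lit 5) (nat_lit 6) (nat_lit 5) (nat_lit 5) (nat_lit 4) (nat_lit 395) (nat_lit 227) (nat_lit 158)) (XT.lf (nat_lit 0) (nat_lit 1821033704) (nat_lit 76) (nat_lit 6057129573) (nat_lit 152) (nat_lit 67948900332) (nat_lit 3) (nat_lit 5) (nat_lit 4) (nat_lit 5) (nat_lit 5) (nat_lit 4) (nat_lit 396) (nat_lit 227) (nat_lit 157)))))) (XT.nd (nat_lit 468) (nat_lit 0) (nat_lit 0) (XT.nd (nat_lit 234) (nat_lit 0) (nat_lit 0)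 (XT.nd (nat_lit 78) (nat_lit 0) (nat_lit 0) (XT.lf (nat_lit 0) (nat_lit 6869008872) (nat_lit 76) (nat_lit 3525234324) (nat_lit 152) (nat_lit 67623608774) (nat_lit 3) (nat_lit 5) (nat_lit 4) (nat_lit 5) (nat_lit 5) (nat_lit 4) (nat_lit 397) (nat_lit 227) (nat_lit 156)) (XT.nd (nat_lit 78) (nat_lit 0) (nat_lit 0) (XT.lf (nat_lit 0) (nat_lit 12039464519) (nat_lit 76) (nat_lit 930337711) (nat_lit 152) (nat_lit 67305050318) (nat_lit 3) (nat_lit 5) (nat_lit 4) (nat_lit 5) (nat_lit 5) (nat_lit 4) (nat_lit 398) (nat_lit 227) (nat_lit 155)) (XT.lf (nat_lit 0) (nat_lit 15623719029) (nat_lit 152) (nat_lit 65279747121) (nat_lit 0) (nat_lit 1696072483) (nat_lit 3) (nat_lit 5) (nat_lit 5) (nat_lit 4) (nat_lit 3) (nat_lit 4) (nat_lit 399) (nat_lit 227) (nat_lit 154)))) (XT.nd (nat_lit 78) (nat_lit 0) (nat_lit 0) (XT.lf (nat_lit 0) (nat_lit 18351262580) (nat_lit 152) (nat_lit 62272287806) (nat_lit 0) (nat_lit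 4370602617) (nat_lit 3) (nat_lit 5) (nat_lit 5) (nat_lit 4) (nat_lit 3) (nat_lit 4) (nat_lit 400) (nat_lit 227) (nat_lit 153)) (XT.nd (nat_lit 78) (nat_lit 0) (nat_lit 0) (XT.lf (nat_lit 0) (nat_lit 21145873199) (nat_lit 152) (nat_lit 59201439233) (nat_lit 0) (nat_lit 7113743899) (nat_lit 3) (nat_lit 5) (nat_lit 5) (nat_lit 4) (nat_lit 3) (nat_lit 4) (nat_lit 401) (nat_lit 227) (nat_lit 152)) (XT.lf (nat_lit 0) (nat_lit 24009992778) (nat_lit 152) (nat_lit 56064518135) (nat_lit 0) (nat_lit 9927893248) (nat_lit 3) (nat_lit 5) (nat_lit 5) (nat_lit 4) (nat_lit 3) (nat_lit 4) (nat_lit 402) (nat_lit 227) (nat_lit 151))))) (XT.nd (nat_lit 34632) (nat_lit 0) (nat_lit 2356) (XT.nd (nat_lit 34476) (nat_lit 0) (nat_lit 2812) (XT.lf (nat_lit 0) (nat_lit 26946123946) (nat_lit 152) (nat_lit 52858783513) (nat_lit 0) (nat_lit 12815509630) (nat_lit 3) (nat_lit 5) (nat_lit 5) (nat_lit 4) (nat_lit 3) (nat_lit 4)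 (nat_lit 403) (nat_lit 227) (nat_lit 150)) (XT.nd (nat_lit 78) (nat_lit 0) (nat_lit 0) (XT.lf (nat_lit 0) (nat_lit 1401300663) (nat_lit 228) (nat_lit 3392491020) (nat_lit 0) (nat_lit 1401300663) (nat_lit 40) (nat_lit 5) (nat_lit 43) (nat_lit 4) (nat_lit 40) (nat_lit 4) (nat_lit 324) (nat_lit 228) (nat_lit 228)) (XT.lf (nat_lit 0) (nat_lit 6563423448) (nat_lit 228) (nat_lit 117449269) (nat_lit 0) (nat_lit 5947005257) (nat_lit 40) (nat_lit 5) (nat_lit 43) (nat_lit 4) (nat_lit 40) (nat_lit 4) (nat_lit 325) (nat_lit 228) (nat_lit 227)))) (XT.nd (nat_lit 78) (nat_lit 228) (nat_lit 0) (XT.lf (nat_lit 0) (nat_lit 6749042556) (nat_lit 228) (nat_lit 3669592549) (nat_lit 228) (nat_lit 2454710095) (nat_lit 37) (nat_lit 4) (nat_lit 40) (nat_lit 5) (nat_lit 40) (nat_lit 4) (nat_lit 326) (nat_lit 228) (nat_lit 226)) (XT.nd (nat_lit 78) (nat_lit 0) (nat_lit 0) (XT.lf (nat_lit 0) (nat_lit 563433714) (nat_lit 152)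 (nat_lit 598807386) (nat_lit 228) (nat_lit 11965948953) (nat_lit 34) (nat_lit 5) (nat_lit 36) (nat_lit 5) (nat_lit 37) (nat_lit 4) (nat_lit 327) (nat_lit 228) (nat_lit 225)) (XT.lf (nat_lit 0) (nat_lit 4843090099) (nat_lit 228) (nat_lit 5994998656) (nat_lit 0) (nat_lit 2551803026) (nat_lit 34) (nat_lit 5) (nat_lit 37) (nat_lit 4) (nat_lit 34) (nat_lit 4) (nat_lit 328) (nat_lit 228) (nat_lit 224))))))))
noncomputable def xc34 : XT := (XT.nd (nat_lit 1794) (nat_lit 608) (nat_lit 0) (XT.nd (nat_lit 858) (nat_lit 608) (nat_lit 0) (XT.nd (nat_lit 390) (nat_lit 532) (nat_lit 0) (XT.nd (nat_lit 156) (nat_lit 228) (nat_lit 0) (XT.nd (nat_lit 78) (nat_lit 0) (nat_lit 0) (XT.lf (nat_lit 0) (nat_lit 648525627) (nat_lit 152) (nat_lit 7918024123) (nat_lit 152) (nat_lit 5095009303) (nat_lit 32) (nat_lit 4) (nat_lit 34) (nat_lit 5) (nat_lit 34) (nat_lit 4) (nat_lit 329) (nat_lit 228) (nat_lit 223)) (XT.lf (nat_lit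 0) (nat_lit 7485469842) (nat_lit 152) (nat_lit 4897895007) (nat_lit 152) (nat_lit 1558639657) (nat_lit 32) (nat_lit 4) (nat_lit 34) (nat_lit 5) (nat_lit 34) (nat_lit 4) (nat_lit 330) (nat_lit 228) (nat_lit 222))) (XT.nd (nat_lit 78) (nat_lit 0) (nat_lit 0) (XT.lf (nat_lit 0) (nat_lit 152972467) (nat_lit 152) (nat_lit 1814235520) (nat_lit 228) (nat_lit 12265406168) (nat_lit 29) (nat_lit 5) (nat_lit 31) (nat_lit 5) (nat_lit 32) (nat_lit 4) (nat_lit 331) (nat_lit 228) (nat_lit 221)) (XT.nd (nat_lit 78) (nat_lit 0) (nat_lit 0) (XT.lf (nat_lit 0) (nat_lit 5569597131) (nat_lit 228) (nat_lit 7593328106) (nat_lit 0) (nat_lit 1368562218) (nat_lit 29) (nat_lit 5) (nat_lit 32) (nat_lit 4) (nat_lit 29) (nat_lit 4) (nat_lit 332) (nat_lit 228) (nat_lit 220)) (XT.lf (nat_lit 0) (nat_lit 9223416379) (nat_lit 228) (nat_lit 1053970430) (nat_lit 0) (nat_lit 4563708441) (nat_lit 29) (nat_lit 5) (nat_lit 32) (nat_lit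 4) (nat_lit 29) (nat_lit 4) (nat_lit 333) (nat_lit 228) (nat_lit 219))))) (XT.nd (nat_lit 234) (nat_lit 152) (nat_lit 0) (XT.nd (nat_lit 78) (nat_lit 228) (nat_lit 0) (XT.lf (nat_lit 0) (nat_lit 5672271326) (nat_lit 152) (nat_lit 7296672863) (nat_lit 152) (nat_lit 2191651308) (nat_lit 27) (nat_lit 4) (nat_lit 29) (nat_lit 5) (nat_lit 29) (nat_lit 4) (nat_lit 334) (nat_lit 228) (nat_lit 218)) (XT.nd (nat_lit 78) (nat_lit 152) (nat_lit 0) (XT.lf (nat_lit 0) (nat_lit 1249577616) (nat_lit 228) (nat_lit 3000722310) (nat_lit 76) (nat_lit 11240903009) (nat_lit 26) (nat_lit 5) (nat_lit 29) (nat_lit 5) (nat_lit 27) (nat_lit 4) (nat_lit 335) (nat_lit 228) (nat_lit 217)) (XT.lf (nat_lit 0) (nat_lit 3613517334) (nat_lit 152) (nat_lit 1101080202) (nat_lit 228) (nat_lit 11117603298) (nat_lit 24) (nat_lit 5) (nat_lit 26) (nat_lit 5) (nat_lit 27) (nat_lit 4) (nat_lit 336) (nat_lit 228) (nat_lit 216)))) (XT.nd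 (nat_lit 78) (nat_lit 152) (nat_lit 0) (XT.lf (nat_lit 0) (nat_lit 8265118720) (nat_lit 228) (nat_lit 5833067093) (nat_lit 0) (nat_lit 2085855898) (nat_lit 24) (nat_lit 5) (nat_lit 27) (nat_lit 4) (nat_lit 24) (nat_lit 4) (nat_lit 337) (nat_lit 228) (nat_lit 215)) (XT.nd (nat_lit 78) (nat_lit 0) (nat_lit 0) (XT.lf (nat_lit 0) (nat_lit 631611574) (nat_lit 152) (nat_lit 11239898841) (nat_lit 152) (nat_lit 4676504581) (nat_lit 22) (nat_lit 4) (nat_lit 24) (nat_lit 5) (nat_lit 24) (nat_lit 4) (nat_lit 338) (nat_lit 228) (nat_lit 214)) (XT.lf (nat_lit 0) (nat_lit 7296990248) (nat_lit 152) (nat_lit 8281272849) (nat_lit 152) (nat_lit 1344935446) (nat_lit 22) (nat_lit 4) (nat_lit 24) (nat_lit 5) (nat_lit 24) (nat_lit 4) (nat_lit 339) (nat_lit 228) (nat_lit 213)))))) (XT.nd (nat_lit 468) (nat_lit 228) (nat_lit 0) (XT.nd (nat_lit 234) (nat_lit 228) (nat_lit 0) (XT.nd (nat_lit 78) (nat_lit 76) (nat_lit 0)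 (XT.lf (nat_lit 0) (nat_lit 1980379516) (nat_lit 228) (nat_lit 3278247705) (nat_lit 76) (nat_lit 12052426109) (nat_lit 21) (nat_lit 5) (nat_lit 24) (nat_lit 5) (nat_lit 22) (nat_lit 4) (nat_lit 340) (nat_lit 228) (nat_lit 212)) (XT.nd (nat_lit 78) (nat_lit 0) (nat_lit 0) (XT.lf (nat_lit 0) (nat_lit 3201658092) (nat_lit 76) (nat_lit 2143963039) (nat_lit 152) (nat_lit 12365558550) (nat_lit 20) (nat_lit 5) (nat_lit 21) (nat_lit 5) (nat_lit 22) (nat_lit 4) (nat_lit 341) (nat_lit 228) (nat_lit 211)) (XT.lf (nat_lit 0) (nat_lit 8792309171) (nat_lit 152) (nat_lit 8297820484) (nat_lit 0) (nat_lit 1033815373) (nat_lit 20) (nat_lit 5) (nat_lit 22) (nat_lit 4) (nat_lit 20) (nat_lit 4) (nat_lit 342) (nat_lit 228) (nat_lit 210)))) (XT.nd (nat_lit 78) (nat_lit 228) (nat_lit 0) (XT.lf (nat_lit 0) (nat_lit 12302293525) (nat_lit 152) (nat_lit 2025955673) (nat_lit 0) (nat_lit 4222095696) (nat_lit 20) (nat_lit 5)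 (nat_lit 22) (nat_lit 4) (nat_lit 20) (nat_lit 4) (nat_lit 343) (nat_lit 228) (nat_lit 209)) (XT.nd (nat_lit 78) (nat_lit 76) (nat_lit 0) (XT.lf (nat_lit 0) (nat_lit 4418380719) (nat_lit 152) (nat_lit 11482123546) (nat_lit 152) (nat_lit 3089591706) (nat_lit 18) (nat_lit 4) (nat_lit 20) (nat_lit 5) (nat_lit 20) (nat_lit 4) (nat_lit 344) (nat_lit 228) (nat_lit 208)) (XT.lf (nat_lit 0) (nat_lit 121681943) (nat_lit 228) (nat_lit 8448754398) (nat_lit 76) (nat_lit 10873762780) (nat_lit 17) (nat_lit 5) (nat_lit 20) (nat_lit 5) (nat_lit 18) (nat_lit 4) (nat_lit 345) (nat_lit 228) (nat_lit 207))))) (XT.nd (nat_lit 234) (nat_lit 152) (nat_lit 0) (XT.nd (nat_lit 78) (nat_lit 76) (nat_lit 0) (XT.lf (nat_lit 0) (nat_lit 3309518697) (nat_lit 228) (nat_lit 2271850548) (nat_lit 76) (nat_lit 14331411771) (nat_lit 17) (nat_lit 5) (nat_lit 20) (nat_lit 5) (nat_lit 18) (nat_lit 4) (nat_lit 346) (nat_lit 228) (nat_lit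 206)) (XT.nd (nat_lit 78) (nat_lit 0) (nat_lit 0) (XT.lf (nat_lit 0) (nat_lit 4073582915) (nat_lit 76) (nat_lit 2502567964) (nat_lit 152) (nat_lit 13819816455) (nat_lit 16) (nat_lit 5) (nat_lit 17) (nat_lit 5) (nat_lit 18) (nat_lit 4) (nat_lit 347) (nat_lit 228) (nat_lit 205)) (XT.lf (nat_lit 0) (nat_lit 9914709704) (nat_lit 152) (nat_lit 10340303137) (nat_lit 0) (nat_lit 639459128) (nat_lit 16) (nat_lit 5) (nat_lit 18) (nat_lit 4) (nat_lit 16) (nat_lit 4) (nat_lit 348) (nat_lit 228) (nat_lit 204)))) (XT.nd (nat_lit 78) (nat_lit 152) (nat_lit 0) (XT.lf (nat_lit 0) (nat_lit 13324156916) (nat_lit 152) (nat_lit 4297360732) (nat_lit 0) (nat_lit 3787331523) (nat_lit 16) (nat_lit 5) (nat_lit 18) (nat_lit 4) (nat_lit 16) (nat_lit 4) (nat_lit 349) (nat_lit 228) (nat_lit 203)) (XT.nd (nat_lit 78) (nat_lit 0) (nat_lit 0) (XT.lf (nat_lit 0) (nat_lit 1872314857) (nat_lit 152) (nat_lit 14929098409) (nat_lit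 152) (nat_lit 5138316883) (nat_lit 14) (nat_lit 4) (nat_lit 16) (nat_lit 5) (nat_lit 16) (nat_lit 4) (nat_lit 350) (nat_lit 228) (nat_lit 202)) (XT.lf (nat_lit 0) (nat_lit 8224974749) (nat_lit 152) (nat_lit 12149596640) (nat_lit 152) (nat_lit 2112255762) (nat_lit 14) (nat_lit 4) (nat_lit 16) (nat_lit 5) (nat_lit 16) (nat_lit 4) (nat_lit 351) (nat_lit 228) (nat_lit 201))))))) (XT.nd (nat_lit 936) (nat_lit 228) (nat_lit 0) (XT.nd (nat_lit 468) (nat_lit 228) (nat_lit 0) (XT.nd (nat_lit 234) (nat_lit 0) (nat_lit 0) (XT.nd (nat_lit 78) (nat_lit 76) (nat_lit 0) (XT.lf (nat_lit 0) (nat_lit 934148926) (nat_lit 228) (nat_lit 8380396569) (nat_lit 76) (nat_lit 13737061907) (nat_lit 13) (nat_lit 5) (nat_lit 16) (nat_lit 5) (nat_lit 14) (nat_lit 4) (nat_lit 352) (nat_lit 228) (nat_lit 200)) (XT.nd (nat_lit 78) (nat_lit 76) (nat_lit 0) (XT.lf (nat_lit 0) (nat_lit 3980136990) (nat_lit 228) (nat_lit 2429446636)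 (nat_lit 76) (nat_lit 17224634634) (nat_lit 13) (nat_lit 5) (nat_lit 16) (nat_lit 5) (nat_lit 14) (nat_lit 4) (nat_lit 353) (nat_lit 228) (nat_lit 199)) (XT.lf (nat_lit 0) (nat_lit 3688477020) (nat_lit 76) (nat_lit 3416566567) (nat_lit 152) (nat_lit 17129670670) (nat_lit 12) (nat_lit 5) (nat_lit 13) (nat_lit 5) (nat_lit 14) (nat_lit 4) (nat_lit 354) (nat_lit 228) (nat_lit 198)))) (XT.nd (nat_lit 78) (nat_lit 0) (nat_lit 0) (XT.lf (nat_lit 0) (nat_lit 9957028340) (nat_lit 76) (nat_lit 343885252) (nat_lit 152) (nat_lit 14553027070) (nat_lit 12) (nat_lit 5) (nat_lit 13) (nat_lit 5) (nat_lit 14) (nat_lit 4) (nat_lit 355) (nat_lit 228) (nat_lit 197)) (XT.nd (nat_lit 78) (nat_lit 0) (nat_lit 0) (XT.lf (nat_lit 0) (nat_lit 13573508034) (nat_lit 152) (nat_lit 9186605774) (nat_lit 0) (nat_lit 2732235688) (nat_lit 12) (nat_lit 5) (nat_lit 14) (nat_lit 4) (nat_lit 12) (nat_lit 4) (nat_lit 356) (nat_lit 228)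 (nat_lit 196)) (XT.lf (nat_lit 0) (nat_lit 16902764127) (nat_lit 152) (nat_lit 3387405667) (nat_lit 0) (nat_lit 5861016464) (nat_lit 12) (nat_lit 5) (nat_lit 14) (nat_lit 4) (nat_lit 12) (nat_lit 4) (nat_lit 357) (nat_lit 228) (nat_lit 195))))) (XT.nd (nat_lit 234) (nat_lit 152) (nat_lit 0) (XT.nd (nat_lit 78) (nat_lit 0) (nat_lit 0) (XT.lf (nat_lit 0) (nat_lit 2558996125) (nat_lit 76) (nat_lit 17753887806) (nat_lit 76) (nat_lit 6517503913) (nat_lit 11) (nat_lit 4) (nat_lit 12) (nat_lit 5) (nat_lit 12) (nat_lit 4) (nat_lit 358) (nat_lit 228) (nat_lit 194)) (XT.nd (nat_lit 78) (nat_lit 0) (nat_lit 0) (XT.lf (nat_lit 0) (nat_lit 8677270973) (nat_lit 76) (nat_lit 15139170024) (nat_lit 76) (nat_lit 3713818918) (nat_lit 11) (nat_lit 4) (nat_lit 12) (nat_lit 5) (nat_lit 12) (nat_lit 4) (nat_lit 359) (nat_lit 228) (nat_lit 193)) (XT.lf (nat_lit 0) (nat_lit 14905348928) (nat_lit 76) (nat_lit 12477937898)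 (nat_lit 76) (nat_lit 869123478) (nat_lit 11) (nat_lit 4) (nat_lit 12) (nat_lit 5) (nat_lit 12) (nat_lit 4) (nat_lit 360) (nat_lit 228) (nat_lit 192)))) (XT.nd (nat_lit 78) (nat_lit 76) (nat_lit 0) (XT.lf (nat_lit 0) (nat_lit 1979668770) (nat_lit 152) (nat_lit 7768206537) (nat_lit 76) (nat_lit 19249012454) (nat_lit 10) (nat_lit 5) (nat_lit 12) (nat_lit 5) (nat_lit 11) (nat_lit 4) (nat_lit 361) (nat_lit 228) (nat_lit 191)) (XT.nd (nat_lit 78) (nat_lit 76) (nat_lit 0) (XT.lf (nat_lit 0) (nat_lit 4856623041) (nat_lit 152) (nat_lit 2100921137) (nat_lit 76) (nat_lit 22807117482) (nat_lit 10) (nat_lit 5) (nat_lit 12) (nat_lit 5) (nat_lit 11) (nat_lit 4) (nat_lit 362) (nat_lit 228) (nat_lit 190)) (XT.lf (nat_lit 0) (nat_lit 3741103777) (nat_lit 76) (nat_lit 4076070907) (nat_lit 152) (nat_lit 22738399966) (nat_lit 9) (nat_lit 5) (nat_lit 10) (nat_lit 5) (nat_lit 11) (nat_lit 4) (nat_lit 363) (nat_lit 228)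 (nat_lit 189)))))) (XT.nd (nat_lit 468) (nat_lit 152) (nat_lit 0) (XT.nd (nat_lit 234) (nat_lit 76) (nat_lit 0) (XT.nd (nat_lit 78) (nat_lit 0) (nat_lit 0) (XT.lf (nat_lit 0) (nat_lit 9733844232) (nat_lit 76) (nat_lit 1115717266) (nat_lit 152) (nat_lit 20521186798) (nat_lit 9) (nat_lit 5) (nat_lit 10) (nat_lit 5) (nat_lit 11) (nat_lit 4) (nat_lit 364) (nat_lit 228) (nat_lit 188)) (XT.nd (nat_lit 78) (nat_lit 0) (nat_lit 0) (XT.lf (nat_lit 0) (nat_lit 13954146827) (nat_lit 152) (nat_lit 16389099603) (nat_lit 0) (nat_lit 1867717044) (nat_lit 9) (nat_lit 5) (nat_lit 11) (nat_lit 4) (nat_lit 9) (nat_lit 4) (nat_lit 365) (nat_lit 228) (nat_lit 187)) (XT.lf (nat_lit 0) (nat_lit 17126645969) (nat_lit 152) (nat_lit 11059474583) (nat_lit 0) (nat_lit 4891043723) (nat_lit 9) (nat_lit 5) (nat_lit 11) (nat_lit 4) (nat_lit 9) (nat_lit 4) (nat_lit 366) (nat_lit 228) (nat_lit 186)))) (XT.nd (nat_lit 78) (nat_lit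 76) (nat_lit 0) (XT.lf (nat_lit 0) (nat_lit 20359106055) (nat_lit 152) (nat_lit 5632647094) (nat_lit 0) (nat_lit 7978676175) (nat_lit 9) (nat_lit 5) (nat_lit 11) (nat_lit 4) (nat_lit 9) (nat_lit 4) (nat_lit 367) (nat_lit 228) (nat_lit 185)) (XT.nd (nat_lit 78) (nat_lit 76) (nat_lit 0) (XT.lf (nat_lit 0) (nat_lit 23654351565) (nat_lit 152) (nat_lit 103875248) (nat_lit 0) (nat_lit 11133312331) (nat_lit 9) (nat_lit 5) (nat_lit 11) (nat_lit 4) (nat_lit 9) (nat_lit 4) (nat_lit 368) (nat_lit 228) (nat_lit 184)) (XT.lf (nat_lit 0) (nat_lit 5641763037) (nat_lit 76) (nat_lit 21427730879) (nat_lit 76) (nat_lit 8770177709) (nat_lit 8) (nat_lit 4) (nat_lit 9) (nat_lit 5) (nat_lit 9) (nat_lit 4) (nat_lit 369) (nat_lit 228) (nat_lit 183))))) (XT.nd (nat_lit 234) (nat_lit 152) (nat_lit 0) (XT.nd (nat_lit 78) (nat_lit 0) (nat_lit 0) (XT.lf (nat_lit 0) (nat_lit 11503391272) (nat_lit 76) (nat_lit 19051959955) (nat_lit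 76) (nat_lit 6261868984) (nat_lit 8) (nat_lit 4) (nat_lit 9) (nat_lit 5) (nat_lit 9) (nat_lit 4) (nat_lit 370) (nat_lit 228) (nat_lit 182)) (XT.nd (nat_lit 78) (nat_lit 0) (nat_lit 0) (XT.lf (nat_lit 0) (nat_lit 17484063946) (nat_lit 76) (nat_lit 16629887062) (nat_lit 76) (nat_lit 3711118615) (nat_lit 8) (nat_lit 4) (nat_lit 9) (nat_lit 5) (nat_lit 9) (nat_lit 4) (nat_lit 371) (nat_lit 228) (nat_lit 181)) (XT.lf (nat_lit 0) (nat_lit 23589006890) (nat_lit 76) (nat_lit 14159395827) (nat_lit 76) (nat_lit 1115697790) (nat_lit 8) (nat_lit 4) (nat_lit 9) (nat_lit 5) (nat_lit 9) (nat_lit 4) (nat_lit 372) (nat_lit 228) (nat_lit 180)))) (XT.nd (nat_lit 78) (nat_lit 76) (nat_lit 0) (XT.lf (nat_lit 0) (nat_lit 1496870672) (nat_lit 152) (nat_lit 10126341435) (nat_lit 76) (nat_lit 28311568389) (nat_lit 7) (nat_lit 5) (nat_lit 9) (nat_lit 5) (nat_lit 8) (nat_lit 4) (nat_lit 373) (nat_lit 228) (nat_lit 179))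 (XT.nd (nat_lit 78) (nat_lit 76) (nat_lit 0) (XT.lf (nat_lit 0) (nat_lit 4135954018) (nat_lit 152) (nat_lit 4886760361) (nat_lit 76) (nat_lit 32015435453) (nat_lit 7) (nat_lit 5) (nat_lit 9) (nat_lit 5) (nat_lit 8) (nat_lit 4) (nat_lit 374) (nat_lit 228) (nat_lit 178)) (XT.lf (nat_lit 0) (nat_lit 468086706) (nat_lit 76) (nat_lit 6362042356) (nat_lit 152) (nat_lit 35345230322) (nat_lit 6) (nat_lit 5) (nat_lit 7) (nat_lit 5) (nat_lit 8) (nat_lit 4) (nat_lit 375) (nat_lit 228) (nat_lit 177))))))))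
noncomputable def xc35 : XT := (XT.nd (nat_lit 1794) (nat_lit 0) (nat_lit 0) (XT.nd (nat_lit 858) (nat_lit 152) (nat_lit 0) (XT.nd (nat_lit 390) (nat_lit 76) (nat_lit 0) (XT.nd (nat_lit 156) (nat_lit 0) (nat_lit 0) (XT.nd (nat_lit 78) (nat_lit 0) (nat_lit 0) (XT.lf (nat_lit 0) (nat_lit 6033198033) (nat_lit 76) (nat_lit 3593044157) (nat_lit 152) (nat_lit 33719825870) (nat_lit 6) (nat_lit 5) (nat_lit 7) (nat_lit 5) (nat_lit 8) (nat_lit 4) (nat_lit 376) (nat_lit 228) (nat_lit 176)) (XT.lf (nat_lit 0) (nat_lit 11716180222) (nat_lit 76) (nat_lit 762646968) (nat_lit 152) (nat_lit 32073908902) (nat_lit 6) (nat_lit 5) (nat_lit 7) (nat_lit 5) (nat_lit 8) (nat_lit 4) (nat_lit 377) (nat_lit 228) (nat_lit 175))) (XT.nd (nat_lit 78) (nat_lit 0) (nat_lit 0) (XT.lf (nat_lit 0) (nat_lit 15410867072) (nat_lit 152) (nat_lit 28294909322) (nat_lit 0) (nat_lit 2090026742) (nat_lit 6) (nat_lit 5) (nat_lit 8) (nat_lit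 4) (nat_lit 6) (nat_lit 4) (nat_lit 378) (nat_lit 228) (nat_lit 174)) (XT.nd (nat_lit 78) (nat_lit 0) (nat_lit 0) (XT.lf (nat_lit 0) (nat_lit 18412384766) (nat_lit 152) (nat_lit 23671422909) (nat_lit 0) (nat_lit 4992923865) (nat_lit 6) (nat_lit 5) (nat_lit 8) (nat_lit 4) (nat_lit 6) (nat_lit 4) (nat_lit 379) (nat_lit 228) (nat_lit 173)) (XT.lf (nat_lit 0) (nat_lit 21478671929) (nat_lit 152) (nat_lit 18954725661) (nat_lit 0) (nat_lit 7963462901) (nat_lit 6) (nat_lit 5) (nat_lit 8) (nat_lit 4) (nat_lit 6) (nat_lit 4) (nat_lit 380) (nat_lit 228) (nat_lit 172))))) (XT.nd (nat_lit 234) (nat_lit 76) (nat_lit 0) (XT.nd (nat_lit 78) (nat_lit 0) (nat_lit 0) (XT.lf (nat_lit 0) (nat_lit 24612407842) (nat_lit 152) (nat_lit 14140696194) (nat_lit 0) (nat_lit 11004239466) (nat_lit 6) (nat_lit 5) (nat_lit 8) (nat_lit 4) (nat_lit 6) (nat_lit 4) (nat_lit 381) (nat_lit 228) (nat_lit 171)) (XT.nd (nat_lit 78) (nat_lit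 0) (nat_lit 0) (XT.lf (nat_lit 0) (nat_lit 27816330719) (nat_lit 152) (nat_lit 9225128074) (nat_lit 0) (nat_lit 14117910549) (nat_lit 6) (nat_lit 5) (nat_lit 8) (nat_lit 4) (nat_lit 6) (nat_lit 4) (nat_lit 382) (nat_lit 228) (nat_lit 170)) (XT.lf (nat_lit 0) (nat_lit 31093240105) (nat_lit 152) (nat_lit 4203726144) (nat_lit 0) (nat_lit 17307196835) (nat_lit 6) (nat_lit 5) (nat_lit 8) (nat_lit 4) (nat_lit 6) (nat_lit 4) (nat_lit 383) (nat_lit 228) (nat_lit 169)))) (XT.nd (nat_lit 78) (nat_lit 0) (nat_lit 0) (XT.lf (nat_lit 0) (nat_lit 946364203) (nat_lit 76) (nat_lit 33508732147) (nat_lit 76) (nat_lit 19637617906) (nat_lit 5) (nat_lit 4) (nat_lit 6) (nat_lit 5) (nat_lit 6) (nat_lit 4) (nat_lit 384) (nat_lit 228) (nat_lit 168)) (XT.nd (nat_lit 78) (nat_lit 0) (nat_lit 0) (XT.lf (nat_lit 0) (nat_lit 6297105190) (nat_lit 76) (nat_lit 31640964393) (nat_lit 76) (nat_lit 17687256975) (nat_lit 5) (nat_lit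 4) (nat_lit 6) (nat_lit 5) (nat_lit 6) (nat_lit 4) (nat_lit 385) (nat_lit 228) (nat_lit 167)) (XT.lf (nat_lit 0) (nat_lit 11769509830) (nat_lit 76) (nat_lit 29734480347) (nat_lit 76) (nat_lit 15700585380) (nat_lit 5) (nat_lit 4) (nat_lit 6) (nat_lit 5) (nat_lit 6) (nat_lit 4) (nat_lit 386) (nat_lit 228) (nat_lit 166)))))) (XT.nd (nat_lit 468) (nat_lit 152) (nat_lit 0) (XT.nd (nat_lit 234) (nat_lit 0) (nat_lit 0) (XT.nd (nat_lit 78) (nat_lit 0) (nat_lit 0) (XT.lf (nat_lit 0) (nat_lit 17368359835) (nat_lit 76) (nat_lit 27787614149) (nat_lit 76) (nat_lit 13675867192) (nat_lit 5) (nat_lit 4) (nat_lit 6) (nat_lit 5) (nat_lit 6) (nat_lit 4) (nat_lit 387) (nat_lit 228) (nat_lit 165)) (XT.nd (nat_lit 78) (nat_lit 0) (nat_lit 0) (XT.lf (nat_lit 0) (nat_lit 23098547404) (nat_lit 76) (nat_lit 25798664655) (nat_lit 76) (nat_lit 11611333242) (nat_lit 5) (nat_lit 4) (nat_lit 6) (nat_lit 5) (nat_lit 6) (nat_lit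 4) (nat_lit 388) (nat_lit 228) (nat_lit 164)) (XT.lf (nat_lit 0) (nat_lit 28965079497) (nat_lit 76) (nat_lit 23765893947) (nat_lit 76) (nat_lit 9505179567) (nat_lit 5) (nat_lit 4) (nat_lit 6) (nat_lit 5) (nat_lit 6) (nat_lit 4) (nat_lit 389) (nat_lit 228) (nat_lit 163)))) (XT.nd (nat_lit 78) (nat_lit 0) (nat_lit 0) (XT.lf (nat_lit 0) (nat_lit 34973082210) (nat_lit 76) (nat_lit 21687525818) (nat_lit 76) (nat_lit 7355565839) (nat_lit 5) (nat_lit 4) (nat_lit 6) (nat_lit 5) (nat_lit 6) (nat_lit 4) (nat_lit 390) (nat_lit 228) (nat_lit 162)) (XT.nd (nat_lit 78) (nat_lit 0) (nat_lit 0) (XT.lf (nat_lit 0) (nat_lit 41127805255) (nat_lit 76) (nat_lit 19561744218) (nat_lit 76) (nat_lit 5160613754) (nat_lit 5) (nat_lit 4) (nat_lit 6) (nat_lit 5) (nat_lit 6) (nat_lit 4) (nat_lit 391) (nat_lit 228) (nat_lit 161)) (XT.lf (nat_lit 0) (nat_lit 47434626544) (nat_lit 76) (nat_lit 17386691668) (nat_lit 76) (nat_lit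 2918405394) (nat_lit 5) (nat_lit 4) (nat_lit 6) (nat_lit 5) (nat_lit 6) (nat_lit 4) (nat_lit 392) (nat_lit 228) (nat_lit 160))))) (XT.nd (nat_lit 234) (nat_lit 76) (nat_lit 0) (XT.nd (nat_lit 78) (nat_lit 76) (nat_lit 0) (XT.lf (nat_lit 0) (nat_lit 53899056892) (nat_lit 76) (nat_lit 15160467637) (nat_lit 76) (nat_lit 626981547) (nat_lit 5) (nat_lit 4) (nat_lit 6) (nat_lit 5) (nat_lit 6) (nat_lit 4) (nat_lit 393) (nat_lit 228) (nat_lit 159)) (XT.nd (nat_lit 78) (nat_lit 0) (nat_lit 0) (XT.lf (nat_lit 0) (nat_lit 1682181295) (nat_lit 152) (nat_lit 11181958851) (nat_lit 76) (nat_lit 58827576803) (nat_lit 4) (nat_lit 5) (nat_lit 6) (nat_lit 5) (nat_lit 5) (nat_lit 4) (nat_lit 394) (nat_lit 228) (nat_lit 158)) (XT.lf (nat_lit 0) (nat_lit 4031334755) (nat_lit 152) (nat_lit 6474634408) (nat_lit 76) (nat_lit 63251438213) (nat_lit 4) (nat_lit 5) (nat_lit 6) (nat_lit 5) (nat_lit 5) (nat_lit 4) (nat_lit 395)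 (nat_lit 228) (nat_lit 157)))) (XT.nd (nat_lit 78) (nat_lit 76) (nat_lit 0) (XT.lf (nat_lit 0) (nat_lit 6434766157) (nat_lit 152) (nat_lit 1655335729) (nat_lit 76) (nat_lit 67795461249) (nat_lit 4) (nat_lit 5) (nat_lit 6) (nat_lit 5) (nat_lit 5) (nat_lit 4) (nat_lit 396) (nat_lit 228) (nat_lit 156)) (XT.nd (nat_lit 78) (nat_lit 0) (nat_lit 0) (XT.lf (nat_lit 0) (nat_lit 3345429604) (nat_lit 76) (nat_lit 5581304299) (nat_lit 152) (nat_lit 69150345130) (nat_lit 3) (nat_lit 5) (nat_lit 4) (nat_lit 5) (nat_lit 5) (nat_lit 4) (nat_lit 397) (nat_lit 228) (nat_lit 155)) (XT.lf (nat_lit 0) (nat_lit 8502035341) (nat_lit 76) (nat_lit 2992603819) (nat_lit 152) (nat_lit 68839674113) (nat_lit 3) (nat_lit 5) (nat_lit 4) (nat_lit 5) (nat_lit 5) (nat_lit 4) (nat_lit 398) (nat_lit 228) (nat_lit 154))))))) (XT.nd (nat_lit 35178) (nat_lit 0) (nat_lit 1368) (XT.nd (nat_lit 34710) (nat_lit 0) (nat_lit 2356) (XT.nd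 (nat_lit 234) (nat_lit 0) (nat_lit 0) (XT.nd (nat_lit 78) (nat_lit 0) (nat_lit 0) (XT.lf (nat_lit 0) (nat_lit 13786042827) (nat_lit 76) (nat_lit 338454119) (nat_lit 152) (nat_lit 68535228114) (nat_lit 3) (nat_lit 5) (nat_lit 4) (nat_lit 5) (nat_lit 5) (nat_lit 4) (nat_lit 399) (nat_lit 228) (nat_lit 153)) (XT.nd (nat_lit 78) (nat_lit 0) (nat_lit 0) (XT.lf (nat_lit 0) (nat_lit 16841516508) (nat_lit 152) (nat_lit 65876188466) (nat_lit 0) (nat_lit 2336953992) (nat_lit 3) (nat_lit 5) (nat_lit 5) (nat_lit 4) (nat_lit 3) (nat_lit 4) (nat_lit 400) (nat_lit 228) (nat_lit 152)) (XT.lf (nat_lit 0) (nat_lit 19629068329) (nat_lit 152) (nat_lit 62818173850) (nat_lit 0) (nat_lit 5074535584) (nat_lit 3) (nat_lit 5) (nat_lit 5) (nat_lit 4) (nat_lit 3) (nat_lit 4) (nat_lit 401) (nat_lit 228) (nat_lit 151)))) (XT.nd (nat_lit 78) (nat_lit 0) (nat_lit 0) (XT.lf (nat_lit 0) (nat_lit 22486334707) (nat_lit 152) (nat_lit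 59693712904) (nat_lit 0) (nat_lit 7883287175) (nat_lit 3) (nat_lit 5) (nat_lit 5) (nat_lit 4) (nat_lit 3) (nat_lit 4) (nat_lit 402) (nat_lit 228) (nat_lit 150)) (XT.nd (nat_lit 34320) (nat_lit 0) (nat_lit 3040) (XT.lf (nat_lit 0) (nat_lit 25415812282) (nat_lit 152) (nat_lit 56500075518) (nat_lit 0) (nat_lit 10765663016) (nat_lit 3) (nat_lit 5) (nat_lit 5) (nat_lit 4) (nat_lit 3) (nat_lit 4) (nat_lit 403) (nat_lit 228) (nat_lit 149)) (XT.lf (nat_lit 0) (nat_lit 2042293509) (nat_lit 228) (nat_lit 1963149770) (nat_lit 228) (nat_lit 1963149770) (nat_lit 43) (nat_lit 4) (nat_lit 46) (nat_lit 5) (nat_lit 46) (nat_lit 4) (nat_lit 322) (nat_lit 229) (nat_lit 229))))) (XT.nd (nat_lit 234) (nat_lit 456) (nat_lit 0) (XT.nd (nat_lit 78) (nat_lit 228) (nat_lit 0) (XT.lf (nat_lit 0) (nat_lit 10944265304) (nat_lit 228) (nat_lit 935492119) (nat_lit 228) (nat_lit 281534060) (nat_lit 43) (nat_lit 4) (nat_lit 46)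 (nat_lit 5) (nat_lit 46) (nat_lit 4) (nat_lit 323) (nat_lit 229) (nat_lit 228)) (XT.nd (nat_lit 78) (nat_lit 0) (nat_lit 0) (XT.lf (nat_lit 0) (nat_lit 3395240937) (nat_lit 228) (nat_lit 6852345592) (nat_lit 0) (nat_lit 2143912009) (nat_lit 40) (nat_lit 5) (nat_lit 43) (nat_lit 4) (nat_lit 40) (nat_lit 4) (nat_lit 324) (nat_lit 229) (nat_lit 227)) (XT.lf (nat_lit 0) (nat_lit 7115023131) (nat_lit 228) (nat_lit 250214327) (nat_lit 0) (nat_lit 5265229940) (nat_lit 40) (nat_lit 5) (nat_lit 43) (nat_lit 4) (nat_lit 40) (nat_lit 4) (nat_lit 325) (nat_lit 229) (nat_lit 226)))) (XT.nd (nat_lit 78) (nat_lit 228) (nat_lit 0) (XT.lf (nat_lit 0) (nat_lit 6548874899) (nat_lit 228) (nat_lit 4379591165) (nat_lit 228) (nat_lit 1948764709) (nat_lit 37) (nat_lit 4) (nat_lit 40) (nat_lit 5) (nat_lit 40) (nat_lit 4) (nat_lit 326) (nat_lit 229) (nat_lit 225)) (XT.nd (nat_lit 78) (nat_lit 0) (nat_lit 0) (XT.lf (nat_lit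 0) (nat_lit 285386135) (nat_lit 152) (nat_lit 1330536306) (nat_lit 228) (nat_lit 11517319633) (nat_lit 34) (nat_lit 5) (nat_lit 36) (nat_lit 5) (nat_lit 37) (nat_lit 4) (nat_lit 327) (nat_lit 229) (nat_lit 224)) (XT.lf (nat_lit 0) (nat_lit 5250339768) (nat_lit 228) (nat_lit 6335129659) (nat_lit 0) (nat_lit 1810906757) (nat_lit 34) (nat_lit 5) (nat_lit 37) (nat_lit 4) (nat_lit 34) (nat_lit 4) (nat_lit 328) (nat_lit 229) (nat_lit 223)))))) (XT.nd (nat_lit 468) (nat_lit 456) (nat_lit 0) (XT.nd (nat_lit 234) (nat_lit 304) (nat_lit 0) (XT.nd (nat_lit 78) (nat_lit 76) (nat_lit 0) (XT.lf (nat_lit 0) (nat_lit 238188210) (nat_lit 152) (nat_lit 8693416456) (nat_lit 152) (nat_lit 4737742915) (nat_lit 32) (nat_lit 4) (nat_lit 34) (nat_lit 5) (nat_lit 34) (nat_lit 4) (nat_lit 329) (nat_lit 229) (nat_lit 222)) (XT.nd (nat_lit 78) (nat_lit 76) (nat_lit 0) (XT.lf (nat_lit 0) (nat_lit 7013542970) (nat_lit 152)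 (nat_lit 5697148510) (nat_lit 152) (nat_lit 1240270571) (nat_lit 32) (nat_lit 4) (nat_lit 34) (nat_lit 5) (nat_lit 34) (nat_lit 4) (nat_lit 330) (nat_lit 229) (nat_lit 221)) (XT.lf (nat_lit 0) (nat_lit 2240866630) (nat_lit 228) (nat_lit 394524891) (nat_lit 76) (nat_lit 11607278340) (nat_lit 31) (nat_lit 5) (nat_lit 34) (nat_lit 5) (nat_lit 32) (nat_lit 4) (nat_lit 331) (nat_lit 229) (nat_lit 220)))) (XT.nd (nat_lit 78) (nat_lit 152) (nat_lit 0) (XT.lf (nat_lit 0) (nat_lit 5794705247) (nat_lit 228) (nat_lit 8211795399) (nat_lit 0) (nat_lit 536533046) (nat_lit 29) (nat_lit 5) (nat_lit 32) (nat_lit 4) (nat_lit 29) (nat_lit 4) (nat_lit 332) (nat_lit 229) (nat_lit 219)) (XT.nd (nat_lit 78) (nat_lit 152) (nat_lit 0) (XT.lf (nat_lit 0) (nat_lit 9412844024) (nat_lit 228) (nat_lit 1731542695) (nat_lit 0) (nat_lit 3709358206) (nat_lit 29) (nat_lit 5) (nat_lit 32) (nat_lit 4) (nat_lit 29) (nat_lit 4) (nat_lit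 333) (nat_lit 229) (nat_lit 218)) (XT.lf (nat_lit 0) (nat_lit 4922688534) (nat_lit 152) (nat_lit 8193836617) (nat_lit 152) (nat_lit 2058007482) (nat_lit 27) (nat_lit 4) (nat_lit 29) (nat_lit 5) (nat_lit 29) (nat_lit 4) (nat_lit 334) (nat_lit 229) (nat_lit 217))))) (XT.nd (nat_lit 234) (nat_lit 228) (nat_lit 0) (XT.nd (nat_lit 78) (nat_lit 152) (nat_lit 0) (XT.lf (nat_lit 0) (nat_lit 1346066185) (nat_lit 228) (nat_lit 3823065570) (nat_lit 76) (nat_lit 10337036417) (nat_lit 26) (nat_lit 5) (nat_lit 29) (nat_lit 5) (nat_lit 27) (nat_lit 4) (nat_lit 335) (nat_lit 229) (nat_lit 216)) (XT.nd (nat_lit 78) (nat_lit 0) (nat_lit 0) (XT.lf (nat_lit 0) (nat_lit 2717833269) (nat_lit 152) (nat_lit 2051101823) (nat_lit 228) (nat_lit 11079524850) (nat_lit 24) (nat_lit 5) (nat_lit 26) (nat_lit 5) (nat_lit 27) (nat_lit 4) (nat_lit 336) (nat_lit 229) (nat_lit 215)) (XT.lf (nat_lit 0) (nat_lit 8277014558) (nat_lit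 228) (nat_lit 6792000967) (nat_lit 0) (nat_lit 1132587033) (nat_lit 24) (nat_lit 5) (nat_lit 27) (nat_lit 4) (nat_lit 24) (nat_lit 4) (nat_lit 337) (nat_lit 229) (nat_lit 214)))) (XT.nd (nat_lit 78) (nat_lit 228) (nat_lit 0) (XT.lf (nat_lit 0) (nat_lit 11844995466) (nat_lit 228) (nat_lit 394135558) (nat_lit 0) (nat_lit 4327624798) (nat_lit 24) (nat_lit 5) (nat_lit 27) (nat_lit 4) (nat_lit 24) (nat_lit 4) (nat_lit 338) (nat_lit 229) (nat_lit 213)) (XT.nd (nat_lit 78) (nat_lit 76) (nat_lit 0) (XT.lf (nat_lit 0) (nat_lit 6209445002) (nat_lit 152) (nat_lit 9306523006) (nat_lit 152) (nat_lit 1427071617) (nat_lit 22) (nat_lit 4) (nat_lit 24) (nat_lit 5) (nat_lit 24) (nat_lit 4) (nat_lit 339) (nat_lit 229) (nat_lit 212)) (XT.lf (nat_lit 0) (nat_lit 1868527289) (nat_lit 228) (nat_lit 4437875672) (nat_lit 76) (nat_lit 11025480012) (nat_lit 21) (nat_lit 5) (nat_lit 24) (nat_lit 5) (nat_lit 22) (nat_lit 4)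 (nat_lit 340) (nat_lit 229) (nat_lit 211))))))))
noncomputable def xc36 : XT := (XT.nd (nat_lit 1794) (nat_lit 304) (nat_lit 0) (XT.nd (nat_lit 858) (nat_lit 380) (nat_lit 0) (XT.nd (nat_lit 390) (nat_lit 304) (nat_lit 0) (XT.nd (nat_lit 156) (nat_lit 152) (nat_lit 0) (XT.nd (nat_lit 78) (nat_lit 0) (nat_lit 0) (XT.lf (nat_lit 0) (nat_lit 1966439986) (nat_lit 76) (nat_lit 3225048616) (nat_lit 152) (nat_lit 12541813703) (nat_lit 20) (nat_lit 5) (nat_lit 21) (nat_lit 5) (nat_lit 22) (nat_lit 4) (nat_lit 341) (nat_lit 229) (nat_lit 210)) (XT.lf (nat_lit 0) (nat_lit 8550364133) (nat_lit 76) (nat_lit 47665995) (nat_lit 152) (nat_lit 9549265775) (nat_lit 20) (nat_lit 5) (nat_lit 21) (nat_lit 5) (nat_lit 22) (nat_lit 4) (nat_lit 342) (nat_lit 229) (nat_lit 209))) (XT.nd (nat_lit 78) (nat_lit 152) (nat_lit 0) (XT.lf (nat_lit 0) (nat_lit 12078223617) (nat_lit 152) (nat_lit 3374807231) (nat_lit 0) (nat_lit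 3121581811) (nat_lit 20) (nat_lit 5) (nat_lit 22) (nat_lit 4) (nat_lit 20) (nat_lit 4) (nat_lit 343) (nat_lit 229) (nat_lit 208)) (XT.nd (nat_lit 78) (nat_lit 0) (nat_lit 0) (XT.lf (nat_lit 0) (nat_lit 2992978047) (nat_lit 152) (nat_lit 12641276145) (nat_lit 152) (nat_lit 3381397435) (nat_lit 18) (nat_lit 4) (nat_lit 20) (nat_lit 5) (nat_lit 20) (nat_lit 4) (nat_lit 344) (nat_lit 229) (nat_lit 207)) (XT.lf (nat_lit 0) (nat_lit 9523012234) (nat_lit 152) (nat_lit 9750963509) (nat_lit 152) (nat_lit 196680038) (nat_lit 18) (nat_lit 4) (nat_lit 20) (nat_lit 5) (nat_lit 20) (nat_lit 4) (nat_lit 345) (nat_lit 229) (nat_lit 206))))) (XT.nd (nat_lit 234) (nat_lit 152) (nat_lit 0) (XT.nd (nat_lit 78) (nat_lit 76) (nat_lit 0) (XT.lf (nat_lit 0) (nat_lit 2967409703) (nat_lit 228) (nat_lit 3816271638) (nat_lit 76) (nat_lit 13156461181) (nat_lit 17) (nat_lit 5) (nat_lit 20) (nat_lit 5) (nat_lit 18) (nat_lit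 4) (nat_lit 346) (nat_lit 229) (nat_lit 205)) (XT.nd (nat_lit 78) (nat_lit 0) (nat_lit 0) (XT.lf (nat_lit 0) (nat_lit 2451467193) (nat_lit 76) (nat_lit 3740200419) (nat_lit 152) (nat_lit 14232952436) (nat_lit 16) (nat_lit 5) (nat_lit 17) (nat_lit 5) (nat_lit 18) (nat_lit 4) (nat_lit 347) (nat_lit 229) (nat_lit 204)) (XT.lf (nat_lit 0) (nat_lit 8892920467) (nat_lit 76) (nat_lit 604597063) (nat_lit 152) (nat_lit 11426607816) (nat_lit 16) (nat_lit 5) (nat_lit 17) (nat_lit 5) (nat_lit 18) (nat_lit 4) (nat_lit 348) (nat_lit 229) (nat_lit 203)))) (XT.nd (nat_lit 78) (nat_lit 152) (nat_lit 0) (XT.lf (nat_lit 0) (nat_lit 12875304654) (nat_lit 152) (nat_lit 6027322981) (nat_lit 0) (nat_lit 2536843550) (nat_lit 16) (nat_lit 5) (nat_lit 18) (nat_lit 4) (nat_lit 16) (nat_lit 4) (nat_lit 349) (nat_lit 229) (nat_lit 202)) (XT.nd (nat_lit 78) (nat_lit 0) (nat_lit 0) (XT.lf (nat_lit 0) (nat_lit 63490628) (nat_lit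 152) (nat_lit 16246587383) (nat_lit 152) (nat_lit 5661566925) (nat_lit 14) (nat_lit 4) (nat_lit 16) (nat_lit 5) (nat_lit 16) (nat_lit 4) (nat_lit 350) (nat_lit 229) (nat_lit 201)) (XT.lf (nat_lit 0) (nat_lit 6373012328) (nat_lit 152) (nat_lit 13485444604) (nat_lit 152) (nat_lit 2661046134) (nat_lit 14) (nat_lit 4) (nat_lit 16) (nat_lit 5) (nat_lit 16) (nat_lit 4) (nat_lit 351) (nat_lit 229) (nat_lit 200)))))) (XT.nd (nat_lit 468) (nat_lit 228) (nat_lit 0) (XT.nd (nat_lit 234) (nat_lit 0) (nat_lit 0) (XT.nd (nat_lit 78) (nat_lit 76) (nat_lit 0) (XT.lf (nat_lit 0) (nat_lit 371754861) (nat_lit 228) (nat_lit 10302141938) (nat_lit 76) (nat_lit 12411290888) (nat_lit 13) (nat_lit 5) (nat_lit 16) (nat_lit 5) (nat_lit 14) (nat_lit 4) (nat_lit 352) (nat_lit 229) (nat_lit 199)) (XT.nd (nat_lit 78) (nat_lit 76) (nat_lit 0) (XT.lf (nat_lit 0) (nat_lit 3394138488) (nat_lit 228) (nat_lit 4392339909) (nat_lit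 76) (nat_lit 15882044526) (nat_lit 13) (nat_lit 5) (nat_lit 16) (nat_lit 5) (nat_lit 14) (nat_lit 4) (nat_lit 353) (nat_lit 229) (nat_lit 198)) (XT.lf (nat_lit 0) (nat_lit 1645773829) (nat_lit 76) (nat_lit 4830718614) (nat_lit 152) (nat_lit 17793818826) (nat_lit 12) (nat_lit 5) (nat_lit 13) (nat_lit 5) (nat_lit 14) (nat_lit 4) (nat_lit 354) (nat_lit 229) (nat_lit 197)))) (XT.nd (nat_lit 78) (nat_lit 0) (nat_lit 0) (XT.lf (nat_lit 0) (nat_lit 7874767388) (nat_lit 76) (nat_lit 1774965362) (nat_lit 152) (nat_lit 15240499130) (nat_lit 12) (nat_lit 5) (nat_lit 13) (nat_lit 5) (nat_lit 14) (nat_lit 4) (nat_lit 355) (nat_lit 229) (nat_lit 196)) (XT.nd (nat_lit 78) (nat_lit 0) (nat_lit 0) (XT.lf (nat_lit 0) (nat_lit 12886442210) (nat_lit 152) (nat_lit 11330323119) (nat_lit 0) (nat_lit 1312966801) (nat_lit 12) (nat_lit 5) (nat_lit 14) (nat_lit 4) (nat_lit 12) (nat_lit 4) (nat_lit 356) (nat_lit 229) (nat_lit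 195)) (XT.lf (nat_lit 0) (nat_lit 16194214260) (nat_lit 152) (nat_lit 5568910967) (nat_lit 0) (nat_lit 4426102621) (nat_lit 12) (nat_lit 5) (nat_lit 14) (nat_lit 4) (nat_lit 12) (nat_lit 4) (nat_lit 357) (nat_lit 229) (nat_lit 194))))) (XT.nd (nat_lit 234) (nat_lit 152) (nat_lit 0) (XT.nd (nat_lit 78) (nat_lit 0) (nat_lit 0) (XT.lf (nat_lit 0) (nat_lit 296657108) (nat_lit 76) (nat_lit 19265071674) (nat_lit 76) (nat_lit 7307992822) (nat_lit 11) (nat_lit 4) (nat_lit 12) (nat_lit 5) (nat_lit 12) (nat_lit 4) (nat_lit 358) (nat_lit 229) (nat_lit 193)) (XT.nd (nat_lit 78) (nat_lit 0) (nat_lit 0) (XT.lf (nat_lit 0) (nat_lit 6378604302) (nat_lit 76) (nat_lit 16666081572) (nat_lit 76) (nat_lit 4525539406) (nat_lit 11) (nat_lit 4) (nat_lit 12) (nat_lit 5) (nat_lit 12) (nat_lit 4) (nat_lit 359) (nat_lit 229) (nat_lit 192)) (XT.lf (nat_lit 0) (nat_lit 12571412688) (nat_lit 76) (nat_lit 14020119038) (nat_lit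 76) (nat_lit 1701457150) (nat_lit 11) (nat_lit 4) (nat_lit 12) (nat_lit 5) (nat_lit 12) (nat_lit 4) (nat_lit 360) (nat_lit 229) (nat_lit 191)))) (XT.nd (nat_lit 78) (nat_lit 76) (nat_lit 0) (XT.lf (nat_lit 0) (nat_lit 1143954648) (nat_lit 152) (nat_lit 10169365721) (nat_lit 76) (nat_lit 17724987112) (nat_lit 10) (nat_lit 5) (nat_lit 12) (nat_lit 5) (nat_lit 11) (nat_lit 4) (nat_lit 361) (nat_lit 229) (nat_lit 190)) (XT.nd (nat_lit 78) (nat_lit 76) (nat_lit 0) (XT.lf (nat_lit 0) (nat_lit 4001858163) (nat_lit 152) (nat_lit 4535716506) (nat_lit 76) (nat_lit 21269090319) (nat_lit 10) (nat_lit 5) (nat_lit 12) (nat_lit 5) (nat_lit 11) (nat_lit 4) (nat_lit 362) (nat_lit 229) (nat_lit 189)) (XT.lf (nat_lit 0) (nat_lit 1224544787) (nat_lit 76) (nat_lit 5695178436) (nat_lit 152) (nat_lit 23679147090) (nat_lit 9) (nat_lit 5) (nat_lit 10) (nat_lit 5) (nat_lit 11) (nat_lit 4) (nat_lit 363) (nat_lit 229) (nat_lit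 188))))))) (XT.nd (nat_lit 936) (nat_lit 152) (nat_lit 0) (XT.nd (nat_lit 468) (nat_lit 76) (nat_lit 0) (XT.nd (nat_lit 234) (nat_lit 76) (nat_lit 0) (XT.nd (nat_lit 78) (nat_lit 0) (nat_lit 0) (XT.lf (nat_lit 0) (nat_lit 7184948912) (nat_lit 76) (nat_lit 2748893124) (nat_lit 152) (nat_lit 21480761357) (nat_lit 9) (nat_lit 5) (nat_lit 10) (nat_lit 5) (nat_lit 11) (nat_lit 4) (nat_lit 364) (nat_lit 229) (nat_lit 187)) (XT.nd (nat_lit 78) (nat_lit 0) (nat_lit 0) (XT.lf (nat_lit 0) (nat_lit 13004861062) (nat_lit 152) (nat_lit 18997957274) (nat_lit 0) (nat_lit 253018286) (nat_lit 9) (nat_lit 5) (nat_lit 11) (nat_lit 4) (nat_lit 9) (nat_lit 4) (nat_lit 365) (nat_lit 229) (nat_lit 186)) (XT.lf (nat_lit 0) (nat_lit 16160013392) (nat_lit 152) (nat_lit 13699212196) (nat_lit 0) (nat_lit 3263342981) (nat_lit 9) (nat_lit 5) (nat_lit 11) (nat_lit 4) (nat_lit 9) (nat_lit 4) (nat_lit 366) (nat_lit 229) (nat_lit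 185)))) (XT.nd (nat_lit 78) (nat_lit 76) (nat_lit 0) (XT.lf (nat_lit 0) (nat_lit 19375631911) (nat_lit 152) (nat_lit 8302365233) (nat_lit 0) (nat_lit 6338352147) (nat_lit 9) (nat_lit 5) (nat_lit 11) (nat_lit 4) (nat_lit 9) (nat_lit 4) (nat_lit 367) (nat_lit 229) (nat_lit 184)) (XT.nd (nat_lit 78) (nat_lit 76) (nat_lit 0) (XT.lf (nat_lit 0) (nat_lit 22654526385) (nat_lit 152) (nat_lit 2802700694) (nat_lit 0) (nat_lit 9480732686) (nat_lit 9) (nat_lit 5) (nat_lit 11) (nat_lit 4) (nat_lit 9) (nat_lit 4) (nat_lit 368) (nat_lit 229) (nat_lit 183)) (XT.lf (nat_lit 0) (nat_lit 2860403732) (nat_lit 76) (nat_lit 23166654086) (nat_lit 76) (nat_lit 9860322585) (nat_lit 8) (nat_lit 4) (nat_lit 9) (nat_lit 5) (nat_lit 9) (nat_lit 4) (nat_lit 369) (nat_lit 229) (nat_lit 182))))) (XT.nd (nat_lit 234) (nat_lit 76) (nat_lit 0) (XT.nd (nat_lit 78) (nat_lit 0) (nat_lit 0) (XT.lf (nat_lit 0) (nat_lit 8694049500) (nat_lit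 76) (nat_lit 20803184225) (nat_lit 76) (nat_lit 7368175247) (nat_lit 8) (nat_lit 4) (nat_lit 9) (nat_lit 5) (nat_lit 9) (nat_lit 4) (nat_lit 370) (nat_lit 229) (nat_lit 181)) (XT.nd (nat_lit 78) (nat_lit 0) (nat_lit 0) (XT.lf (nat_lit 0) (nat_lit 14647554731) (nat_lit 76) (nat_lit 18393054113) (nat_lit 76) (nat_lit 4833115546) (nat_lit 8) (nat_lit 4) (nat_lit 9) (nat_lit 5) (nat_lit 9) (nat_lit 4) (nat_lit 371) (nat_lit 229) (nat_lit 180)) (XT.lf (nat_lit 0) (nat_lit 20726121516) (nat_lit 76) (nat_lit 15934157810) (nat_lit 76) (nat_lit 2252928379) (nat_lit 8) (nat_lit 4) (nat_lit 9) (nat_lit 5) (nat_lit 9) (nat_lit 4) (nat_lit 372) (nat_lit 229) (nat_lit 179)))) (XT.nd (nat_lit 78) (nat_lit 0) (nat_lit 0) (XT.lf (nat_lit 0) (nat_lit 367330193) (nat_lit 152) (nat_lit 13053307256) (nat_lit 76) (nat_lit 26564021715) (nat_lit 7) (nat_lit 5) (nat_lit 9) (nat_lit 5) (nat_lit 8) (nat_lit 4) (nat_lit 373)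 (nat_lit 229) (nat_lit 178)) (XT.nd (nat_lit 78) (nat_lit 0) (nat_lit 0) (XT.lf (nat_lit 0) (nat_lit 2992334556) (nat_lit 152) (nat_lit 7838876673) (nat_lit 76) (nat_lit 30257247875) (nat_lit 7) (nat_lit 5) (nat_lit 9) (nat_lit 5) (nat_lit 8) (nat_lit 4) (nat_lit 374) (nat_lit 229) (nat_lit 177)) (XT.lf (nat_lit 0) (nat_lit 5668341148) (nat_lit 152) (nat_lit 2517581613) (nat_lit 76) (nat_lit 34040298939) (nat_lit 7) (nat_lit 5) (nat_lit 9) (nat_lit 5) (nat_lit 8) (nat_lit 4) (nat_lit 375) (nat_lit 229) (nat_lit 176)))))) (XT.nd (nat_lit 468) (nat_lit 76) (nat_lit 0) (XT.nd (nat_lit 234) (nat_lit 0) (nat_lit 0) (XT.nd (nat_lit 78) (nat_lit 0) (nat_lit 0) (XT.lf (nat_lit 0) (nat_lit 2973246342) (nat_lit 76) (nat_lit 5453022548) (nat_lit 152) (nat_lit 34971814806) (nat_lit 6) (nat_lit 5) (nat_lit 7) (nat_lit 5) (nat_lit 8) (nat_lit 4) (nat_lit 376) (nat_lit 229) (nat_lit 175)) (XT.nd (nat_lit 78)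 (nat_lit 0) (nat_lit 0) (XT.lf (nat_lit 0) (nat_lit 8632754201) (nat_lit 76) (nat_lit 2632989774) (nat_lit 152) (nat_lit 33339408583) (nat_lit 6) (nat_lit 5) (nat_lit 7) (nat_lit 5) (nat_lit 8) (nat_lit 4) (nat_lit 377) (nat_lit 229) (nat_lit 174)) (XT.lf (nat_lit 0) (nat_lit 14166980178) (nat_lit 152) (nat_lit 31435855970) (nat_lit 0) (nat_lit 246314878) (nat_lit 6) (nat_lit 5) (nat_lit 8) (nat_lit 4) (nat_lit 6) (nat_lit 4) (nat_lit 378) (nat_lit 229) (nat_lit 173)))) (XT.nd (nat_lit 78) (nat_lit 0) (nat_lit 0) (XT.lf (nat_lit 0) (nat_lit 17156046610) (nat_lit 152) (nat_lit 26834780275) (nat_lit 0) (nat_lit 3139633183) (nat_lit 6) (nat_lit 5) (nat_lit 8) (nat_lit 4) (nat_lit 6) (nat_lit 4) (nat_lit 379) (nat_lit 229) (nat_lit 172)) (XT.nd (nat_lit 78) (nat_lit 0) (nat_lit 0) (XT.lf (nat_lit 0) (nat_lit 20210245170) (nat_lit 152) (nat_lit 22139841007) (nat_lit 0) (nat_lit 6100872395) (nat_lit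 6) (nat_lit 5) (nat_lit 8) (nat_lit 4) (nat_lit 6) (nat_lit 4) (nat_lit 380) (nat_lit 229) (nat_lit 171)) (XT.lf (nat_lit 0) (nat_lit 23332244573) (nat_lit 152) (nat_lit 17346935791) (nat_lit 0) (nat_lit 9132620005) (nat_lit 6) (nat_lit 5) (nat_lit 8) (nat_lit 4) (nat_lit 6) (nat_lit 4) (nat_lit 381) (nat_lit 229) (nat_lit 170))))) (XT.nd (nat_lit 234) (nat_lit 76) (nat_lit 0) (XT.nd (nat_lit 78) (nat_lit 0) (nat_lit 0) (XT.lf (nat_lit 0) (nat_lit 26524772782) (nat_lit 152) (nat_lit 12451876653) (nat_lit 0) (nat_lit 12237525113) (nat_lit 6) (nat_lit 5) (nat_lit 8) (nat_lit 4) (nat_lit 6) (nat_lit 4) (nat_lit 382) (nat_lit 229) (nat_lit 169)) (XT.nd (nat_lit 78) (nat_lit 0) (nat_lit 0) (XT.lf (nat_lit 0) (nat_lit 29790619383) (nat_lit 152) (nat_lit 7450386356) (nat_lit 0) (nat_lit 15418300743) (nat_lit 6) (nat_lit 5) (nat_lit 8) (nat_lit 4) (nat_lit 6) (nat_lit 4) (nat_lit 383) (nat_lit 229) (nat_lit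 168)) (XT.lf (nat_lit 0) (nat_lit 33132638029) (nat_lit 152) (nat_lit 2338094666) (nat_lit 0) (nat_lit 18677726213) (nat_lit 6) (nat_lit 5) (nat_lit 8) (nat_lit 4) (nat_lit 6) (nat_lit 4) (nat_lit 384) (nat_lit 229) (nat_lit 167)))) (XT.nd (nat_lit 78) (nat_lit 0) (nat_lit 0) (XT.lf (nat_lit 0) (nat_lit 2946971496) (nat_lit 76) (nat_lit 33635105526) (nat_lit 76) (nat_lit 19100006161) (nat_lit 5) (nat_lit 4) (nat_lit 6) (nat_lit 5) (nat_lit 6) (nat_lit 4) (nat_lit 385) (nat_lit 229) (nat_lit 166)) (XT.nd (nat_lit 78) (nat_lit 0) (nat_lit 0) (XT.lf (nat_lit 0) (nat_lit 8400791518) (nat_lit 76) (nat_lit 31736903436) (nat_lit 76) (nat_lit 17123952080) (nat_lit 5) (nat_lit 4) (nat_lit 6) (nat_lit 5) (nat_lit 6) (nat_lit 4) (nat_lit 386) (nat_lit 229) (nat_lit 165)) (XT.lf (nat_lit 0) (nat_lit 13981598205) (nat_lit 76) (nat_lit 29798077972) (nat_lit 76) (nat_lit 15109542160) (nat_lit 5) (nat_lit 4) (nat_lit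 6) (nat_lit 5) (nat_lit 6) (nat_lit 4) (nat_lit 387) (nat_lit 229) (nat_lit 164))))))))
noncomputable def xc37 : XT := (XT.nd (nat_lit 35880) (nat_lit 0) (nat_lit 988) (XT.nd (nat_lit 858) (nat_lit 0) (nat_lit 0) (XT.nd (nat_lit 390) (nat_lit 152) (nat_lit 0) (XT.nd (nat_lit 156) (nat_lit 0) (nat_lit 0) (XT.nd (nat_lit 78) (nat_lit 0) (nat_lit 0) (XT.lf (nat_lit 0) (nat_lit 19694267989) (nat_lit 76) (nat_lit 27816935015) (nat_lit 76) (nat_lit 13055016236) (nat_lit 5) (nat_lit 4) (nat_lit 6) (nat_lit 5) (nat_lit 6) (nat_lit 4) (nat_lit 388) (nat_lit 229) (nat_lit 163)) (XT.lf (nat_lit 0) (nat_lit 25543792525) (nat_lit 76) (nat_lit 25791743470) (nat_lit 76) (nat_lit 10958579092) (nat_lit 5) (nat_lit 4) (nat_lit 6) (nat_lit 5) (nat_lit 6) (nat_lit 4) (nat_lit 389) (nat_lit 229) (nat_lit 162))) (XT.nd (nat_lit 78) (nat_lit 0) (nat_lit 0) (XT.lf (nat_lit 0) (nat_lit 31535283046) (nat_lit 76) (nat_lit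 23720733751) (nat_lit 76) (nat_lit 8818398889) (nat_lit 5) (nat_lit 4) (nat_lit 6) (nat_lit 5) (nat_lit 6) (nat_lit 4) (nat_lit 390) (nat_lit 229) (nat_lit 161)) (XT.nd (nat_lit 78) (nat_lit 0) (nat_lit 0) (XT.lf (nat_lit 0) (nat_lit 37673974835) (nat_lit 76) (nat_lit 21602096239) (nat_lit 76) (nat_lit 6632605566) (nat_lit 5) (nat_lit 4) (nat_lit 6) (nat_lit 5) (nat_lit 6) (nat_lit 4) (nat_lit 391) (nat_lit 229) (nat_lit 160)) (XT.lf (nat_lit 0) (nat_lit 43965231800) (nat_lit 76) (nat_lit 19433979696) (nat_lit 76) (nat_lit 4399289208) (nat_lit 5) (nat_lit 4) (nat_lit 6) (nat_lit 5) (nat_lit 6) (nat_lit 4) (nat_lit 392) (nat_lit 229) (nat_lit 159))))) (XT.nd (nat_lit 234) (nat_lit 76) (nat_lit 0) (XT.nd (nat_lit 78) (nat_lit 76) (nat_lit 0) (XT.lf (nat_lit 0) (nat_lit 50414551153) (nat_lit 76) (nat_lit 17214489652) (nat_lit 76) (nat_lit 2116498372) (nat_lit 5) (nat_lit 4) (nat_lit 6) (nat_lit 5)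 (nat_lit 6) (nat_lit 4) (nat_lit 393) (nat_lit 229) (nat_lit 158)) (XT.nd (nat_lit 78) (nat_lit 0) (nat_lit 0) (XT.lf (nat_lit 0) (nat_lit 213512298) (nat_lit 152) (nat_lit 14726018394) (nat_lit 76) (nat_lit 56811899869) (nat_lit 4) (nat_lit 5) (nat_lit 6) (nat_lit 5) (nat_lit 5) (nat_lit 4) (nat_lit 394) (nat_lit 229) (nat_lit 157)) (XT.lf (nat_lit 0) (nat_lit 2554687107) (nat_lit 152) (nat_lit 10033100600) (nat_lit 76) (nat_lit 61229576936) (nat_lit 4) (nat_lit 5) (nat_lit 6) (nat_lit 5) (nat_lit 5) (nat_lit 4) (nat_lit 395) (nat_lit 229) (nat_lit 156)))) (XT.nd (nat_lit 78) (nat_lit 76) (nat_lit 0) (XT.lf (nat_lit 0) (nat_lit 4950372246) (nat_lit 152) (nat_lit 5227788958) (nat_lit 76) (nat_lit 65767595757) (nat_lit 4) (nat_lit 5) (nat_lit 6) (nat_lit 5) (nat_lit 5) (nat_lit 4) (nat_lit 396) (nat_lit 229) (nat_lit 155)) (XT.nd (nat_lit 78) (nat_lit 76) (nat_lit 0) (XT.lf (nat_lit 0) (nat_lit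 7402661034) (nat_lit 152) (nat_lit 305884653) (nat_lit 76) (nat_lit 70429921589) (nat_lit 4) (nat_lit 5) (nat_lit 6) (nat_lit 5) (nat_lit 5) (nat_lit 4) (nat_lit 397) (nat_lit 229) (nat_lit 154)) (XT.lf (nat_lit 0) (nat_lit 4831186864) (nat_lit 76) (nat_lit 5128949705) (nat_lit 152) (nat_lit 70435881770) (nat_lit 3) (nat_lit 5) (nat_lit 4) (nat_lit 5) (nat_lit 5) (nat_lit 4) (nat_lit 398) (nat_lit 229) (nat_lit 153)))))) (XT.nd (nat_lit 34554) (nat_lit 0) (nat_lit 2584) (XT.nd (nat_lit 234) (nat_lit 0) (nat_lit 0) (XT.nd (nat_lit 78) (nat_lit 0) (nat_lit 0) (XT.lf (nat_lit 0) (nat_lit 10102139481) (nat_lit 76) (nat_lit 2480640454) (nat_lit 152) (nat_lit 70138870440) (nat_lit 3) (nat_lit 5) (nat_lit 4) (nat_lit 5) (nat_lit 5) (nat_lit 4) (nat_lit 399) (nat_lit 229) (nat_lit 152)) (XT.nd (nat_lit 78) (nat_lit 0) (nat_lit 0) (XT.lf (nat_lit 0) (nat_lit 15272148695) (nat_lit 152) (nat_lit 69614259079)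 (nat_lit 0) (nat_lit 231009738) (nat_lit 3) (nat_lit 5) (nat_lit 5) (nat_lit 4) (nat_lit 3) (nat_lit 4) (nat_lit 400) (nat_lit 229) (nat_lit 151)) (XT.lf (nat_lit 0) (nat_lit 18052847316) (nat_lit 152) (nat_lit 66568704615) (nat_lit 0) (nat_lit 2963193572) (nat_lit 3) (nat_lit 5) (nat_lit 5) (nat_lit 4) (nat_lit 3) (nat_lit 4) (nat_lit 401) (nat_lit 229) (nat_lit 150)))) (XT.nd (nat_lit 78) (nat_lit 0) (nat_lit 0) (XT.lf (nat_lit 0) (nat_lit 20903460100) (nat_lit 152) (nat_lit 63456340905) (nat_lit 0) (nat_lit 5766704622) (nat_lit 3) (nat_lit 5) (nat_lit 5) (nat_lit 4) (nat_lit 3) (nat_lit 4) (nat_lit 402) (nat_lit 229) (nat_lit 149)) (XT.nd (nat_lit 34164) (nat_lit 0) (nat_lit 3268) (XT.lf (nat_lit 0) (nat_lit 23826477876) (nat_lit 152) (nat_lit 60274448407) (nat_lit 0) (nat_lit 8643992558) (nat_lit 3) (nat_lit 5) (nat_lit 5) (nat_lit 4) (nat_lit 3) (nat_lit 4) (nat_lit 403) (nat_lit 229) (nat_lit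 148)) (XT.lf (nat_lit 0) (nat_lit 582748366) (nat_lit 304) (nat_lit 4590545315) (nat_lit 0) (nat_lit 582748366) (nat_lit 46) (nat_lit 5) (nat_lit 50) (nat_lit 4) (nat_lit 46) (nat_lit 4) (nat_lit 320) (nat_lit 230) (nat_lit 230))))) (XT.nd (nat_lit 234) (nat_lit 380) (nat_lit 0) (XT.nd (nat_lit 78) (nat_lit 304) (nat_lit 0) (XT.lf (nat_lit 0) (nat_lit 4871157866) (nat_lit 304) (nat_lit 2652678312) (nat_lit 0) (nat_lit 4197581065) (nat_lit 46) (nat_lit 5) (nat_lit 50) (nat_lit 4) (nat_lit 46) (nat_lit 4) (nat_lit 321) (nat_lit 230) (nat_lit 229)) (XT.nd (nat_lit 78) (nat_lit 76) (nat_lit 0) (XT.lf (nat_lit 0) (nat_lit 4018536619) (nat_lit 228) (nat_lit 4623749083) (nat_lit 228) (nat_lit 3296214224) (nat_lit 43) (nat_lit 4) (nat_lit 46) (nat_lit 5) (nat_lit 46) (nat_lit 4) (nat_lit 322) (nat_lit 230) (nat_lit 228)) (XT.lf (nat_lit 0) (nat_lit 300348982) (nat_lit 304) (nat_lit 1352737161) (nat_lit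 76) (nat_lit 10510706386) (nat_lit 42) (nat_lit 5) (nat_lit 46) (nat_lit 5) (nat_lit 43) (nat_lit 4) (nat_lit 323) (nat_lit 230) (nat_lit 227)))) (XT.nd (nat_lit 78) (nat_lit 228) (nat_lit 0) (XT.lf (nat_lit 0) (nat_lit 3922348683) (nat_lit 228) (nat_lit 7054495107) (nat_lit 0) (nat_lit 1418597433) (nat_lit 40) (nat_lit 5) (nat_lit 43) (nat_lit 4) (nat_lit 40) (nat_lit 4) (nat_lit 324) (nat_lit 230) (nat_lit 226)) (XT.nd (nat_lit 78) (nat_lit 228) (nat_lit 0) (XT.lf (nat_lit 0) (nat_lit 7602286287) (nat_lit 228) (nat_lit 515860450) (nat_lit 0) (nat_lit 4517501772) (nat_lit 40) (nat_lit 5) (nat_lit 43) (nat_lit 4) (nat_lit 40) (nat_lit 4) (nat_lit 325) (nat_lit 230) (nat_lit 225)) (XT.lf (nat_lit 0) (nat_lit 6215067805) (nat_lit 228) (nat_lit 5158768589) (nat_lit 228) (nat_lit 1509874108) (nat_lit 37) (nat_lit 4) (nat_lit 40) (nat_lit 5) (nat_lit 40) (nat_lit 4) (nat_lit 326) (nat_lit 230) (nat_lit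 224))))))) (XT.nd (nat_lit 936) (nat_lit 608) (nat_lit 0) (XT.nd (nat_lit 468) (nat_lit 380) (nat_lit 0) (XT.nd (nat_lit 234) (nat_lit 380) (nat_lit 0) (XT.nd (nat_lit 78) (nat_lit 152) (nat_lit 0) (XT.lf (nat_lit 0) (nat_lit 2004943785) (nat_lit 304) (nat_lit 126538174) (nat_lit 76) (nat_lit 11009391855) (nat_lit 36) (nat_lit 5) (nat_lit 40) (nat_lit 5) (nat_lit 37) (nat_lit 4) (nat_lit 327) (nat_lit 230) (nat_lit 223)) (XT.nd (nat_lit 78) (nat_lit 0) (nat_lit 0) (XT.lf (nat_lit 0) (nat_lit 5592158741) (nat_lit 228) (nat_lit 6811729074) (nat_lit 0) (nat_lit 1001574464) (nat_lit 34) (nat_lit 5) (nat_lit 37) (nat_lit 4) (nat_lit 34) (nat_lit 4) (nat_lit 328) (nat_lit 230) (nat_lit 222)) (XT.lf (nat_lit 0) (nat_lit 9233997780) (nat_lit 228) (nat_lit 303446737) (nat_lit 0) (nat_lit 4142209103) (nat_lit 34) (nat_lit 5) (nat_lit 37) (nat_lit 4) (nat_lit 34) (nat_lit 4) (nat_lit 329) (nat_lit 230) (nat_lit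 221)))) (XT.nd (nat_lit 78) (nat_lit 228) (nat_lit 0) (XT.lf (nat_lit 0) (nat_lit 6406073249) (nat_lit 152) (nat_lit 6567406973) (nat_lit 152) (nat_lit 989012084) (nat_lit 32) (nat_lit 4) (nat_lit 34) (nat_lit 5) (nat_lit 34) (nat_lit 4) (nat_lit 330) (nat_lit 230) (nat_lit 220)) (XT.nd (nat_lit 78) (nat_lit 152) (nat_lit 0) (XT.lf (nat_lit 0) (nat_lit 2451273176) (nat_lit 228) (nat_lit 1074743555) (nat_lit 76) (nat_lit 10729223411) (nat_lit 31) (nat_lit 5) (nat_lit 34) (nat_lit 5) (nat_lit 32) (nat_lit 4) (nat_lit 331) (nat_lit 230) (nat_lit 219)) (XT.lf (nat_lit 0) (nat_lit 5584672942) (nat_lit 152) (nat_lit 373048274) (nat_lit 228) (nat_lit 8599337497) (nat_lit 29) (nat_lit 5) (nat_lit 31) (nat_lit 5) (nat_lit 32) (nat_lit 4) (nat_lit 332) (nat_lit 230) (nat_lit 218))))) (XT.nd (nat_lit 234) (nat_lit 152) (nat_lit 0) (XT.nd (nat_lit 78) (nat_lit 228) (nat_lit 0) (XT.lf (nat_lit 0) (nat_lit 9537632791)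 (nat_lit 228) (nat_lit 2545930567) (nat_lit 0) (nat_lit 2785385465) (nat_lit 29) (nat_lit 5) (nat_lit 32) (nat_lit 4) (nat_lit 29) (nat_lit 4) (nat_lit 333) (nat_lit 230) (nat_lit 217)) (XT.nd (nat_lit 78) (nat_lit 76) (nat_lit 0) (XT.lf (nat_lit 0) (nat_lit 4035271861) (nat_lit 152) (nat_lit 9163879398) (nat_lit 152) (nat_lit 1991881279) (nat_lit 27) (nat_lit 4) (nat_lit 29) (nat_lit 5) (nat_lit 29) (nat_lit 4) (nat_lit 334) (nat_lit 230) (nat_lit 216)) (XT.lf (nat_lit 0) (nat_lit 1377360878) (nat_lit 228) (nat_lit 4783480578) (nat_lit 76) (nat_lit 9362843129) (nat_lit 26) (nat_lit 5) (nat_lit 29) (nat_lit 5) (nat_lit 27) (nat_lit 4) (nat_lit 335) (nat_lit 230) (nat_lit 215)))) (XT.nd (nat_lit 78) (nat_lit 0) (nat_lit 0) (XT.lf (nat_lit 0) (nat_lit 1682989010) (nat_lit 152) (nat_lit 3074728995) (nat_lit 228) (nat_lit 11109562189) (nat_lit 24) (nat_lit 5) (nat_lit 26) (nat_lit 5) (nat_lit 27) (nat_lit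 4) (nat_lit 336) (nat_lit 230) (nat_lit 214)) (XT.nd (nat_lit 78) (nat_lit 0) (nat_lit 0) (XT.lf (nat_lit 0) (nat_lit 8223618390) (nat_lit 228) (nat_lit 7890313988) (nat_lit 0) (nat_lit 107783460) (nat_lit 24) (nat_lit 5) (nat_lit 27) (nat_lit 4) (nat_lit 24) (nat_lit 4) (nat_lit 337) (nat_lit 230) (nat_lit 213)) (XT.lf (nat_lit 0) (nat_lit 11760201872) (nat_lit 228) (nat_lit 1545349785) (nat_lit 0) (nat_lit 3282286220) (nat_lit 24) (nat_lit 5) (nat_lit 27) (nat_lit 4) (nat_lit 24) (nat_lit 4) (nat_lit 338) (nat_lit 230) (nat_lit 212)))))) (XT.nd (nat_lit 468) (nat_lit 152) (nat_lit 0) (XT.nd (nat_lit 234) (nat_lit 152) (nat_lit 0) (XT.nd (nat_lit 78) (nat_lit 152) (nat_lit 0) (XT.lf (nat_lit 0) (nat_lit 4982936788) (nat_lit 152) (nat_lit 10405964740) (nat_lit 152) (nat_lit 1576514407) (nat_lit 22) (nat_lit 4) (nat_lit 24) (nat_lit 5) (nat_lit 24) (nat_lit 4) (nat_lit 339) (nat_lit 230) (nat_lit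 211)) (XT.nd (nat_lit 78) (nat_lit 76) (nat_lit 0) (XT.lf (nat_lit 0) (nat_lit 1691594036) (nat_lit 228) (nat_lit 5736810245) (nat_lit 76) (nat_lit 9926834869) (nat_lit 21) (nat_lit 5) (nat_lit 24) (nat_lit 5) (nat_lit 22) (nat_lit 4) (nat_lit 340) (nat_lit 230) (nat_lit 210)) (XT.lf (nat_lit 0) (nat_lit 590672255) (nat_lit 76) (nat_lit 4381137374) (nat_lit 152) (nat_lit 12786155082) (nat_lit 20) (nat_lit 5) (nat_lit 21) (nat_lit 5) (nat_lit 22) (nat_lit 4) (nat_lit 341) (nat_lit 230) (nat_lit 209)))) (XT.nd (nat_lit 78) (nat_lit 152) (nat_lit 0) (XT.lf (nat_lit 0) (nat_lit 7125099495) (nat_lit 76) (nat_lit 1224114701) (nat_lit 152) (nat_lit 9823641385) (nat_lit 20) (nat_lit 5) (nat_lit 21) (nat_lit 5) (nat_lit 22) (nat_lit 4) (nat_lit 342) (nat_lit 230) (nat_lit 208)) (XT.nd (nat_lit 78) (nat_lit 152) (nat_lit 0) (XT.lf (nat_lit 0) (nat_lit 11789620617) (nat_lit 152) (nat_lit 4863059175) (nat_lit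 0) (nat_lit 1948708642) (nat_lit 20) (nat_lit 5) (nat_lit 22) (nat_lit 4) (nat_lit 20) (nat_lit 4) (nat_lit 343) (nat_lit 230) (nat_lit 207)) (XT.lf (nat_lit 0) (nat_lit 1426848405) (nat_lit 152) (nat_lit 13876099335) (nat_lit 152) (nat_lit 3740782598) (nat_lit 18) (nat_lit 4) (nat_lit 20) (nat_lit 5) (nat_lit 20) (nat_lit 4) (nat_lit 344) (nat_lit 230) (nat_lit 206))))) (XT.nd (nat_lit 234) (nat_lit 0) (nat_lit 0) (XT.nd (nat_lit 78) (nat_lit 152) (nat_lit 0) (XT.lf (nat_lit 0) (nat_lit 7910029615) (nat_lit 152) (nat_lit 11005345747) (nat_lit 152) (nat_lit 584199145) (nat_lit 18) (nat_lit 4) (nat_lit 20) (nat_lit 5) (nat_lit 20) (nat_lit 4) (nat_lit 345) (nat_lit 230) (nat_lit 205)) (XT.nd (nat_lit 78) (nat_lit 76) (nat_lit 0) (XT.lf (nat_lit 0) (nat_lit 2560670985) (nat_lit 228) (nat_lit 5500489224) (nat_lit 76) (nat_lit 11908836215) (nat_lit 17) (nat_lit 5) (nat_lit 20) (nat_lit 5) (nat_lit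 18) (nat_lit 4) (nat_lit 346) (nat_lit 230) (nat_lit 204)) (XT.lf (nat_lit 0) (nat_lit 688140449) (nat_lit 76) (nat_lit 5053836809) (nat_lit 152) (nat_lit 14713804638) (nat_lit 16) (nat_lit 5) (nat_lit 17) (nat_lit 5) (nat_lit 18) (nat_lit 4) (nat_lit 347) (nat_lit 230) (nat_lit 203)))) (XT.nd (nat_lit 78) (nat_lit 0) (nat_lit 0) (XT.lf (nat_lit 0) (nat_lit 7085331659) (nat_lit 76) (nat_lit 1936825908) (nat_lit 152) (nat_lit 11933918550) (nat_lit 16) (nat_lit 5) (nat_lit 17) (nat_lit 5) (nat_lit 18) (nat_lit 4) (nat_lit 348) (nat_lit 230) (nat_lit 202)) (XT.nd (nat_lit 78) (nat_lit 0) (nat_lit 0) (XT.lf (nat_lit 0) (nat_lit 12362043024) (nat_lit 152) (nat_lit 7897621664) (nat_lit 0) (nat_lit 1212912601) (nat_lit 16) (nat_lit 5) (nat_lit 18) (nat_lit 4) (nat_lit 16) (nat_lit 4) (nat_lit 349) (nat_lit 230) (nat_lit 201)) (XT.lf (nat_lit 0) (nat_lit 15771841539) (nat_lit 152) (nat_lit 1850343396)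 (nat_lit 0) (nat_lit 4383333103) (nat_lit 16) (nat_lit 5) (nat_lit 18) (nat_lit 4) (nat_lit 16) (nat_lit 4) (nat_lit 350) (nat_lit 230) (nat_lit 200))))))))
noncomputable def xc38 : XT := (XT.nd (nat_lit 1794) (nat_lit 304) (nat_lit 0) (XT.nd (nat_lit 858) (nat_lit 152) (nat_lit 0) (XT.nd (nat_lit 390) (nat_lit 152) (nat_lit 0) (XT.nd (nat_lit 156) (nat_lit 152) (nat_lit 0) (XT.nd (nat_lit 78) (nat_lit 0) (nat_lit 0) (XT.lf (nat_lit 0) (nat_lit 4380471100) (nat_lit 152) (nat_lit 14897551259) (nat_lit 152) (nat_lit 3276636986) (nat_lit 14) (nat_lit 4) (nat_lit 16) (nat_lit 5) (nat_lit 16) (nat_lit 4) (nat_lit 351) (nat_lit 230) (nat_lit 199)) (XT.lf (nat_lit 0) (nat_lit 10753596632) (nat_lit 152) (nat_lit 12107062558) (nat_lit 152) (nat_lit 260511551) (nat_lit 14) (nat_lit 4) (nat_lit 16) (nat_lit 5) (nat_lit 16) (nat_lit 4) (nat_lit 352) (nat_lit 230) (nat_lit 198))) (XT.nd (nat_lit 78) (nat_lit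 76) (nat_lit 0) (XT.lf (nat_lit 0) (nat_lit 2744038666) (nat_lit 228) (nat_lit 6495217306) (nat_lit 76) (nat_lit 14466028412) (nat_lit 13) (nat_lit 5) (nat_lit 16) (nat_lit 5) (nat_lit 14) (nat_lit 4) (nat_lit 353) (nat_lit 230) (nat_lit 197)) (XT.nd (nat_lit 78) (nat_lit 76) (nat_lit 0) (XT.lf (nat_lit 0) (nat_lit 5788322991) (nat_lit 228) (nat_lit 528004388) (nat_lit 76) (nat_lit 17991902752) (nat_lit 13) (nat_lit 5) (nat_lit 16) (nat_lit 5) (nat_lit 14) (nat_lit 4) (nat_lit 354) (nat_lit 230) (nat_lit 196)) (XT.lf (nat_lit 0) (nat_lit 5652075255) (nat_lit 76) (nat_lit 3282340948) (nat_lit 152) (nat_lit 15994563819) (nat_lit 12) (nat_lit 5) (nat_lit 13) (nat_lit 5) (nat_lit 14) (nat_lit 4) (nat_lit 355) (nat_lit 230) (nat_lit 195))))) (XT.nd (nat_lit 234) (nat_lit 152) (nat_lit 0) (XT.nd (nat_lit 78) (nat_lit 0) (nat_lit 0) (XT.lf (nat_lit 0) (nat_lit 11952688285) (nat_lit 76) (nat_lit 184234492)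 (nat_lit 152) (nat_lit 13432598014) (nat_lit 12) (nat_lit 5) (nat_lit 13) (nat_lit 5) (nat_lit 14) (nat_lit 4) (nat_lit 356) (nat_lit 230) (nat_lit 194)) (XT.nd (nat_lit 78) (nat_lit 0) (nat_lit 0) (XT.lf (nat_lit 0) (nat_lit 15422065558) (nat_lit 152) (nat_lit 7890336715) (nat_lit 0) (nat_lit 2917307127) (nat_lit 12) (nat_lit 5) (nat_lit 14) (nat_lit 4) (nat_lit 12) (nat_lit 4) (nat_lit 357) (nat_lit 230) (nat_lit 193)) (XT.lf (nat_lit 0) (nat_lit 18766477661) (nat_lit 152) (nat_lit 2066176259) (nat_lit 0) (nat_lit 6078255916) (nat_lit 12) (nat_lit 5) (nat_lit 14) (nat_lit 4) (nat_lit 12) (nat_lit 4) (nat_lit 358) (nat_lit 230) (nat_lit 192)))) (XT.nd (nat_lit 78) (nat_lit 76) (nat_lit 0) (XT.lf (nat_lit 0) (nat_lit 3939380407) (nat_lit 76) (nat_lit 18269797739) (nat_lit 76) (nat_lit 5403456272) (nat_lit 11) (nat_lit 4) (nat_lit 12) (nat_lit 5) (nat_lit 12) (nat_lit 4) (nat_lit 359) (nat_lit 230)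 (nat_lit 191)) (XT.nd (nat_lit 78) (nat_lit 76) (nat_lit 0) (XT.lf (nat_lit 0) (nat_lit 10097946494) (nat_lit 76) (nat_lit 15638660052) (nat_lit 76) (nat_lit 2599386816) (nat_lit 11) (nat_lit 4) (nat_lit 12) (nat_lit 5) (nat_lit 12) (nat_lit 4) (nat_lit 360) (nat_lit 230) (nat_lit 190)) (XT.lf (nat_lit 0) (nat_lit 244496069) (nat_lit 152) (nat_lit 12710841137) (nat_lit 76) (nat_lit 16126817315) (nat_lit 10) (nat_lit 5) (nat_lit 12) (nat_lit 5) (nat_lit 11) (nat_lit 4) (nat_lit 361) (nat_lit 230) (nat_lit 189)))))) (XT.nd (nat_lit 468) (nat_lit 76) (nat_lit 0) (XT.nd (nat_lit 234) (nat_lit 0) (nat_lit 0) (XT.nd (nat_lit 78) (nat_lit 76) (nat_lit 0) (XT.lf (nat_lit 0) (nat_lit 3083903705) (nat_lit 152) (nat_lit 7109848413) (nat_lit 76) (nat_lit 19657326522) (nat_lit 10) (nat_lit 5) (nat_lit 12) (nat_lit 5) (nat_lit 11) (nat_lit 4) (nat_lit 362) (nat_lit 230) (nat_lit 188)) (XT.nd (nat_lit 78) (nat_lit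 76) (nat_lit 0) (XT.lf (nat_lit 0) (nat_lit 5972040527) (nat_lit 152) (nat_lit 1405187730) (nat_lit 76) (nat_lit 23266958949) (nat_lit 10) (nat_lit 5) (nat_lit 12) (nat_lit 5) (nat_lit 11) (nat_lit 4) (nat_lit 363) (nat_lit 230) (nat_lit 187)) (XT.lf (nat_lit 0) (nat_lit 4495855908) (nat_lit 76) (nat_lit 4458791159) (nat_lit 152) (nat_lit 22506229650) (nat_lit 9) (nat_lit 5) (nat_lit 10) (nat_lit 5) (nat_lit 11) (nat_lit 4) (nat_lit 364) (nat_lit 230) (nat_lit 186)))) (XT.nd (nat_lit 78) (nat_lit 0) (nat_lit 0) (XT.lf (nat_lit 0) (nat_lit 10540861241) (nat_lit 76) (nat_lit 1465104937) (nat_lit 152) (nat_lit 20296745505) (nat_lit 9) (nat_lit 5) (nat_lit 10) (nat_lit 5) (nat_lit 11) (nat_lit 4) (nat_lit 365) (nat_lit 230) (nat_lit 185)) (XT.nd (nat_lit 78) (nat_lit 0) (nat_lit 0) (XT.lf (nat_lit 0) (nat_lit 15130193457) (nat_lit 152) (nat_lit 16479002405) (nat_lit 0) (nat_lit 1561185946) (nat_lit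 9) (nat_lit 5) (nat_lit 11) (nat_lit 4) (nat_lit 9) (nat_lit 4) (nat_lit 366) (nat_lit 230) (nat_lit 184)) (XT.lf (nat_lit 0) (nat_lit 18329460942) (nat_lit 152) (nat_lit 11111262749) (nat_lit 0) (nat_lit 4623939496) (nat_lit 9) (nat_lit 5) (nat_lit 11) (nat_lit 4) (nat_lit 9) (nat_lit 4) (nat_lit 367) (nat_lit 230) (nat_lit 183))))) (XT.nd (nat_lit 234) (nat_lit 0) (nat_lit 0) (XT.nd (nat_lit 78) (nat_lit 76) (nat_lit 0) (XT.lf (nat_lit 0) (nat_lit 21592480624) (nat_lit 152) (nat_lit 5639857731) (nat_lit 0) (nat_lit 7754421377) (nat_lit 9) (nat_lit 5) (nat_lit 11) (nat_lit 4) (nat_lit 9) (nat_lit 4) (nat_lit 368) (nat_lit 230) (nat_lit 182)) (XT.nd (nat_lit 78) (nat_lit 76) (nat_lit 0) (XT.lf (nat_lit 0) (nat_lit 24922103687) (nat_lit 152) (nat_lit 60006512) (nat_lit 0) (nat_lit 10955366963) (nat_lit 9) (nat_lit 5) (nat_lit 11) (nat_lit 4) (nat_lit 9) (nat_lit 4) (nat_lit 369) (nat_lit 230) (nat_lit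 181)) (XT.lf (nat_lit 0) (nat_lit 5745277564) (nat_lit 76) (nat_lit 22631189068) (nat_lit 76) (nat_lit 8539522754) (nat_lit 8) (nat_lit 4) (nat_lit 9) (nat_lit 5) (nat_lit 9) (nat_lit 4) (nat_lit 370) (nat_lit 230) (nat_lit 180)))) (XT.nd (nat_lit 78) (nat_lit 0) (nat_lit 0) (XT.lf (nat_lit 0) (nat_lit 11672406636) (nat_lit 76) (nat_lit 20232653888) (nat_lit 76) (nat_lit 6019696711) (nat_lit 8) (nat_lit 4) (nat_lit 9) (nat_lit 5) (nat_lit 9) (nat_lit 4) (nat_lit 371) (nat_lit 230) (nat_lit 179)) (XT.nd (nat_lit 78) (nat_lit 0) (nat_lit 0) (XT.lf (nat_lit 0) (nat_lit 17725365500) (nat_lit 76) (nat_lit 17785014800) (nat_lit 76) (nat_lit 3454299503) (nat_lit 8) (nat_lit 4) (nat_lit 9) (nat_lit 5) (nat_lit 9) (nat_lit 4) (nat_lit 372) (nat_lit 230) (nat_lit 178)) (XT.lf (nat_lit 0) (nat_lit 23909443149) (nat_lit 76) (nat_lit 15286133091) (nat_lit 76) (nat_lit 841089522) (nat_lit 8) (nat_lit 4) (nat_lit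 9) (nat_lit 5) (nat_lit 9) (nat_lit 4) (nat_lit 373) (nat_lit 230) (nat_lit 177))))))) (XT.nd (nat_lit 936) (nat_lit 152) (nat_lit 0) (XT.nd (nat_lit 468) (nat_lit 0) (nat_lit 0) (XT.nd (nat_lit 234) (nat_lit 76) (nat_lit 0) (XT.nd (nat_lit 78) (nat_lit 0) (nat_lit 0) (XT.lf (nat_lit 0) (nat_lit 1786658608) (nat_lit 152) (nat_lit 10929124915) (nat_lit 76) (nat_lit 28425342788) (nat_lit 7) (nat_lit 5) (nat_lit 9) (nat_lit 5) (nat_lit 8) (nat_lit 4) (nat_lit 374) (nat_lit 230) (nat_lit 176)) (XT.nd (nat_lit 78) (nat_lit 0) (nat_lit 0) (XT.lf (nat_lit 0) (nat_lit 4449394407) (nat_lit 152) (nat_lit 5631536605) (nat_lit 76) (nat_lit 32198363779) (nat_lit 7) (nat_lit 5) (nat_lit 9) (nat_lit 5) (nat_lit 8) (nat_lit 4) (nat_lit 375) (nat_lit 230) (nat_lit 175)) (XT.lf (nat_lit 0) (nat_lit 7165857221) (nat_lit 152) (nat_lit 221743656) (nat_lit 76) (nat_lit 36064807390) (nat_lit 7) (nat_lit 5) (nat_lit 9)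 (nat_lit 5) (nat_lit 8) (nat_lit 4) (nat_lit 376) (nat_lit 230) (nat_lit 174)))) (XT.nd (nat_lit 78) (nat_lit 0) (nat_lit 0) (XT.lf (nat_lit 0) (nat_lit 5410560457) (nat_lit 76) (nat_lit 4579869819) (nat_lit 152) (nat_lit 34669501227) (nat_lit 6) (nat_lit 5) (nat_lit 7) (nat_lit 5) (nat_lit 8) (nat_lit 4) (nat_lit 377) (nat_lit 230) (nat_lit 173)) (XT.nd (nat_lit 78) (nat_lit 0) (nat_lit 0) (XT.lf (nat_lit 0) (nat_lit 11171461803) (nat_lit 76) (nat_lit 1705432472) (nat_lit 152) (nat_lit 33027485964) (nat_lit 6) (nat_lit 5) (nat_lit 7) (nat_lit 5) (nat_lit 8) (nat_lit 4) (nat_lit 378) (nat_lit 230) (nat_lit 172)) (XT.lf (nat_lit 0) (nat_lit 15837478444) (nat_lit 152) (nat_lit 30137207060) (nat_lit 0) (nat_lit 1211865138) (nat_lit 6) (nat_lit 5) (nat_lit 8) (nat_lit 4) (nat_lit 6) (nat_lit 4) (nat_lit 379) (nat_lit 230) (nat_lit 171))))) (XT.nd (nat_lit 234) (nat_lit 0) (nat_lit 0) (XT.nd (nat_lit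 78) (nat_lit 0) (nat_lit 0) (XT.lf (nat_lit 0) (nat_lit 18879940494) (nat_lit 152) (nat_lit 25463392043) (nat_lit 0) (nat_lit 4164075396) (nat_lit 6) (nat_lit 5) (nat_lit 8) (nat_lit 4) (nat_lit 6) (nat_lit 4) (nat_lit 380) (nat_lit 230) (nat_lit 170)) (XT.nd (nat_lit 78) (nat_lit 0) (nat_lit 0) (XT.lf (nat_lit 0) (nat_lit 21990545229) (nat_lit 152) (nat_lit 20690995810) (nat_lit 0) (nat_lit 7187057030) (nat_lit 6) (nat_lit 5) (nat_lit 8) (nat_lit 4) (nat_lit 6) (nat_lit 4) (nat_lit 381) (nat_lit 230) (nat_lit 169)) (XT.lf (nat_lit 0) (nat_lit 25172010653) (nat_lit 152) (nat_lit 15815848305) (nat_lit 0) (nat_lit 10283451482) (nat_lit 6) (nat_lit 5) (nat_lit 8) (nat_lit 4) (nat_lit 6) (nat_lit 4) (nat_lit 382) (nat_lit 230) (nat_lit 168)))) (XT.nd (nat_lit 78) (nat_lit 0) (nat_lit 0) (XT.lf (nat_lit 0) (nat_lit 28427116686) (nat_lit 152) (nat_lit 10833689690) (nat_lit 0) (nat_lit 13455964339) (nat_lit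 6) (nat_lit 5) (nat_lit 8) (nat_lit 4) (nat_lit 6) (nat_lit 4) (nat_lit 383) (nat_lit 230) (nat_lit 167)) (XT.nd (nat_lit 78) (nat_lit 0) (nat_lit 0) (XT.lf (nat_lit 0) (nat_lit 31758707596) (nat_lit 152) (nat_lit 5740166624) (nat_lit 0) (nat_lit 16707367700) (nat_lit 6) (nat_lit 5) (nat_lit 8) (nat_lit 4) (nat_lit 6) (nat_lit 4) (nat_lit 384) (nat_lit 230) (nat_lit 166)) (XT.lf (nat_lit 0) (nat_lit 35169694482) (nat_lit 152) (nat_lit 530828454) (nat_lit 0) (nat_lit 20040502596) (nat_lit 6) (nat_lit 5) (nat_lit 8) (nat_lit 4) (nat_lit 6) (nat_lit 4) (nat_lit 385) (nat_lit 230) (nat_lit 165)))))) (XT.nd (nat_lit 468) (nat_lit 76) (nat_lit 0) (XT.nd (nat_lit 234) (nat_lit 0) (nat_lit 0) (XT.nd (nat_lit 78) (nat_lit 0) (nat_lit 0) (XT.lf (nat_lit 0) (nat_lit 4894383721) (nat_lit 76) (nat_lit 33815721906) (nat_lit 76) (nat_lit 18610945565) (nat_lit 5) (nat_lit 4) (nat_lit 6) (nat_lit 5) (nat_lit 6)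 (nat_lit 4) (nat_lit 386) (nat_lit 230) (nat_lit 164)) (XT.nd (nat_lit 78) (nat_lit 0) (nat_lit 0) (XT.lf (nat_lit 0) (nat_lit 10457672623) (nat_lit 76) (nat_lit 31884702980) (nat_lit 76) (nat_lit 16606543671) (nat_lit 5) (nat_lit 4) (nat_lit 6) (nat_lit 5) (nat_lit 6) (nat_lit 4) (nat_lit 387) (nat_lit 230) (nat_lit 163)) (XT.lf (nat_lit 0) (nat_lit 16153334850) (nat_lit 76) (nat_lit 29911139186) (nat_lit 76) (nat_lit 14561734278) (nat_lit 5) (nat_lit 4) (nat_lit 6) (nat_lit 5) (nat_lit 6) (nat_lit 4) (nat_lit 388) (nat_lit 230) (nat_lit 162)))) (XT.nd (nat_lit 78) (nat_lit 0) (nat_lit 0) (XT.lf (nat_lit 0) (nat_lit 21986347193) (nat_lit 76) (nat_lit 27893306051) (nat_lit 76) (nat_lit 12474730658) (nat_lit 5) (nat_lit 4) (nat_lit 6) (nat_lit 5) (nat_lit 6) (nat_lit 4) (nat_lit 389) (nat_lit 230) (nat_lit 161)) (XT.nd (nat_lit 78) (nat_lit 0) (nat_lit 0) (XT.lf (nat_lit 0) (nat_lit 27961806459)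 (nat_lit 76) (nat_lit 25829440420) (nat_lit 76) (nat_lit 10343709217) (nat_lit 5) (nat_lit 4) (nat_lit 6) (nat_lit 5) (nat_lit 6) (nat_lit 4) (nat_lit 390) (nat_lit 230) (nat_lit 160)) (XT.lf (nat_lit 0) (nat_lit 34084933924) (nat_lit 76) (nat_lit 23717738915) (nat_lit 76) (nat_lit 8166807896) (nat_lit 5) (nat_lit 4) (nat_lit 6) (nat_lit 5) (nat_lit 6) (nat_lit 4) (nat_lit 391) (nat_lit 230) (nat_lit 159))))) (XT.nd (nat_lit 234) (nat_lit 76) (nat_lit 0) (XT.nd (nat_lit 78) (nat_lit 0) (nat_lit 0) (XT.lf (nat_lit 0) (nat_lit 40361079893) (nat_lit 76) (nat_lit 21556356360) (nat_lit 76) (nat_lit 5942124549) (nat_lit 5) (nat_lit 4) (nat_lit 6) (nat_lit 5) (nat_lit 6) (nat_lit 4) (nat_lit 392) (nat_lit 230) (nat_lit 158)) (XT.nd (nat_lit 78) (nat_lit 0) (nat_lit 0) (XT.lf (nat_lit 0) (nat_lit 46795728378) (nat_lit 76) (nat_lit 19343404169) (nat_lit 76) (nat_lit 3667715278) (nat_lit 5) (nat_lit 4) (nat_lit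 6) (nat_lit 5) (nat_lit 6) (nat_lit 4) (nat_lit 393) (nat_lit 230) (nat_lit 157)) (XT.lf (nat_lit 0) (nat_lit 53394501885) (nat_lit 76) (nat_lit 17076948694) (nat_lit 76) (nat_lit 1341592735) (nat_lit 5) (nat_lit 4) (nat_lit 6) (nat_lit 5) (nat_lit 6) (nat_lit 4) (nat_lit 394) (nat_lit 230) (nat_lit 156)))) (XT.nd (nat_lit 78) (nat_lit 0) (nat_lit 0) (XT.lf (nat_lit 0) (nat_lit 1018015116) (nat_lit 152) (nat_lit 13726714463) (nat_lit 76) (nat_lit 59134871262) (nat_lit 4) (nat_lit 5) (nat_lit 6) (nat_lit 5) (nat_lit 5) (nat_lit 4) (nat_lit 395) (nat_lit 230) (nat_lit 155)) (XT.nd (nat_lit 78) (nat_lit 0) (nat_lit 0) (XT.lf (nat_lit 0) (nat_lit 3406179612) (nat_lit 152) (nat_lit 8934982470) (nat_lit 76) (nat_lit 63667060747) (nat_lit 4) (nat_lit 5) (nat_lit 6) (nat_lit 5) (nat_lit 5) (nat_lit 4) (nat_lit 396) (nat_lit 230) (nat_lit 154)) (XT.lf (nat_lit 0) (nat_lit 5851166804) (nat_lit 152) (nat_lit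 4026262289) (nat_lit 76) (nat_lit 68323727030) (nat_lit 4) (nat_lit 5) (nat_lit 6) (nat_lit 5) (nat_lit 5) (nat_lit 4) (nat_lit 397) (nat_lit 230) (nat_lit 153))))))))
noncomputable def xc39 : XT := (XT.nd (nat_lit 35724) (nat_lit 0) (nat_lit 684) (XT.nd (nat_lit 34788) (nat_lit 0) (nat_lit 1824) (XT.nd (nat_lit 390) (nat_lit 0) (nat_lit 0) (XT.nd (nat_lit 156) (nat_lit 0) (nat_lit 0) (XT.nd (nat_lit 78) (nat_lit 0) (nat_lit 0) (XT.lf (nat_lit 0) (nat_lit 1023711550) (nat_lit 76) (nat_lit 7341242080) (nat_lit 152) (nat_lit 72095068034) (nat_lit 3) (nat_lit 5) (nat_lit 4) (nat_lit 5) (nat_lit 5) (nat_lit 4) (nat_lit 398) (nat_lit 230) (nat_lit 152)) (XT.lf (nat_lit 0) (nat_lit 6281989538) (nat_lit 76) (nat_lit 4698603168) (nat_lit 152) (nat_lit 71805274828) (nat_lit 3) (nat_lit 5) (nat_lit 4) (nat_lit 5) (nat_lit 5) (nat_lit 4) (nat_lit 399) (nat_lit 230) (nat_lit 151))) (XT.nd (nat_lit 78) (nat_lit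 0) (nat_lit 0) (XT.lf (nat_lit 0) (nat_lit 11673035770) (nat_lit 76) (nat_lit 1987860612) (nat_lit 152) (nat_lit 71521013839) (nat_lit 3) (nat_lit 5) (nat_lit 4) (nat_lit 5) (nat_lit 5) (nat_lit 4) (nat_lit 400) (nat_lit 230) (nat_lit 150)) (XT.nd (nat_lit 78) (nat_lit 0) (nat_lit 0) (XT.lf (nat_lit 0) (nat_lit 16415832877) (nat_lit 152) (nat_lit 70456308691) (nat_lit 0) (nat_lit 777873001) (nat_lit 3) (nat_lit 5) (nat_lit 5) (nat_lit 4) (nat_lit 3) (nat_lit 4) (nat_lit 401) (nat_lit 230) (nat_lit 149)) (XT.lf (nat_lit 0) (nat_lit 19259985862) (nat_lit 152) (nat_lit 67355689869) (nat_lit 0) (nat_lit 3576296147) (nat_lit 3) (nat_lit 5) (nat_lit 5) (nat_lit 4) (nat_lit 3) (nat_lit 4) (nat_lit 402) (nat_lit 230) (nat_lit 148))))) (XT.nd (nat_lit 34164) (nat_lit 0) (nat_lit 3040) (XT.nd (nat_lit 34008) (nat_lit 0) (nat_lit 3572) (XT.lf (nat_lit 0) (nat_lit 22176731988) (nat_lit 152) (nat_lit 64185200176)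 (nat_lit 0) (nat_lit 6448644370) (nat_lit 3) (nat_lit 5) (nat_lit 5) (nat_lit 4) (nat_lit 3) (nat_lit 4) (nat_lit 403) (nat_lit 230) (nat_lit 147)) (XT.nd (nat_lit 78) (nat_lit 0) (nat_lit 0) (XT.lf (nat_lit 0) (nat_lit 168820427) (nat_lit 228) (nat_lit 2693524307) (nat_lit 228) (nat_lit 2693524307) (nat_lit 50) (nat_lit 4) (nat_lit 53) (nat_lit 5) (nat_lit 53) (nat_lit 4) (nat_lit 318) (nat_lit 231) (nat_lit 231)) (XT.lf (nat_lit 0) (nat_lit 7012159171) (nat_lit 228) (nat_lit 2505699752) (nat_lit 228) (nat_lit 1791102124) (nat_lit 50) (nat_lit 4) (nat_lit 53) (nat_lit 5) (nat_lit 53) (nat_lit 4) (nat_lit 319) (nat_lit 231) (nat_lit 230)))) (XT.nd (nat_lit 78) (nat_lit 228) (nat_lit 0) (XT.lf (nat_lit 0) (nat_lit 1816491814) (nat_lit 304) (nat_lit 9247794994) (nat_lit 0) (nat_lit 449130909) (nat_lit 46) (nat_lit 5) (nat_lit 50) (nat_lit 4) (nat_lit 46) (nat_lit 4) (nat_lit 320) (nat_lit 231) (nat_lit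 229)) (XT.nd (nat_lit 78) (nat_lit 228) (nat_lit 0) (XT.lf (nat_lit 0) (nat_lit 5480610207) (nat_lit 304) (nat_lit 2784144193) (nat_lit 0) (nat_lit 3459291243) (nat_lit 46) (nat_lit 5) (nat_lit 50) (nat_lit 4) (nat_lit 46) (nat_lit 4) (nat_lit 321) (nat_lit 231) (nat_lit 228)) (XT.lf (nat_lit 0) (nat_lit 3820327709) (nat_lit 228) (nat_lit 5389172271) (nat_lit 228) (nat_lit 2732942570) (nat_lit 43) (nat_lit 4) (nat_lit 46) (nat_lit 5) (nat_lit 46) (nat_lit 4) (nat_lit 322) (nat_lit 231) (nat_lit 227)))))) (XT.nd (nat_lit 468) (nat_lit 532) (nat_lit 0) (XT.nd (nat_lit 234) (nat_lit 456) (nat_lit 0) (XT.nd (nat_lit 78) (nat_lit 152) (nat_lit 0) (XT.lf (nat_lit 0) (nat_lit 812434240) (nat_lit 304) (nat_lit 1623406382) (nat_lit 76) (nat_lit 9732982325) (nat_lit 42) (nat_lit 5) (nat_lit 46) (nat_lit 5) (nat_lit 43) (nat_lit 4) (nat_lit 323) (nat_lit 231) (nat_lit 226)) (XT.nd (nat_lit 78) (nat_lit 0)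 (nat_lit 0) (XT.lf (nat_lit 0) (nat_lit 4384385143) (nat_lit 228) (nat_lit 7391607222) (nat_lit 0) (nat_lit 626023828) (nat_lit 40) (nat_lit 5) (nat_lit 43) (nat_lit 4) (nat_lit 40) (nat_lit 4) (nat_lit 324) (nat_lit 231) (nat_lit 225)) (XT.lf (nat_lit 0) (nat_lit 8025638679) (nat_lit 228) (nat_lit 914619757) (nat_lit 0) (nat_lit 3703167397) (nat_lit 40) (nat_lit 5) (nat_lit 43) (nat_lit 4) (nat_lit 40) (nat_lit 4) (nat_lit 325) (nat_lit 231) (nat_lit 224)))) (XT.nd (nat_lit 78) (nat_lit 228) (nat_lit 0) (XT.lf (nat_lit 0) (nat_lit 5747329598) (nat_lit 228) (nat_lit 6007805654) (nat_lit 228) (nat_lit 1137654794) (nat_lit 37) (nat_lit 4) (nat_lit 40) (nat_lit 5) (nat_lit 40) (nat_lit 4) (nat_lit 326) (nat_lit 231) (nat_lit 223)) (XT.nd (nat_lit 78) (nat_lit 152) (nat_lit 0) (XT.lf (nat_lit 0) (nat_lit 2332461298) (nat_lit 304) (nat_lit 666982169) (nat_lit 76) (nat_lit 10151563988) (nat_lit 36) (nat_lit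 5) (nat_lit 40) (nat_lit 5) (nat_lit 37) (nat_lit 4) (nat_lit 327) (nat_lit 231) (nat_lit 222)) (XT.lf (nat_lit 0) (nat_lit 5868845697) (nat_lit 228) (nat_lit 7425213346) (nat_lit 0) (nat_lit 123098962) (nat_lit 34) (nat_lit 5) (nat_lit 37) (nat_lit 4) (nat_lit 34) (nat_lit 4) (nat_lit 328) (nat_lit 231) (nat_lit 221))))) (XT.nd (nat_lit 234) (nat_lit 304) (nat_lit 0) (XT.nd (nat_lit 78) (nat_lit 228) (nat_lit 0) (XT.lf (nat_lit 0) (nat_lit 9474630124) (nat_lit 228) (nat_lit 975559769) (nat_lit 0) (nat_lit 3242277177) (nat_lit 34) (nat_lit 5) (nat_lit 37) (nat_lit 4) (nat_lit 34) (nat_lit 4) (nat_lit 329) (nat_lit 231) (nat_lit 220)) (XT.nd (nat_lit 78) (nat_lit 76) (nat_lit 0) (XT.lf (nat_lit 0) (nat_lit 5662529881) (nat_lit 152) (nat_lit 7509430815) (nat_lit 152) (nat_lit 804644652) (nat_lit 32) (nat_lit 4) (nat_lit 34) (nat_lit 5) (nat_lit 34) (nat_lit 4) (nat_lit 330) (nat_lit 231) (nat_lit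 219)) (XT.lf (nat_lit 0) (nat_lit 2597141011) (nat_lit 228) (nat_lit 1891262933) (nat_lit 76) (nat_lit 9781976152) (nat_lit 31) (nat_lit 5) (nat_lit 34) (nat_lit 5) (nat_lit 32) (nat_lit 4) (nat_lit 331) (nat_lit 231) (nat_lit 218)))) (XT.nd (nat_lit 78) (nat_lit 152) (nat_lit 0) (XT.lf (nat_lit 0) (nat_lit 4695372224) (nat_lit 152) (nat_lit 1365782961) (nat_lit 228) (nat_lit 8512348559) (nat_lit 29) (nat_lit 5) (nat_lit 31) (nat_lit 5) (nat_lit 32) (nat_lit 4) (nat_lit 332) (nat_lit 231) (nat_lit 217)) (XT.nd (nat_lit 78) (nat_lit 152) (nat_lit 0) (XT.lf (nat_lit 0) (nat_lit 9597891721) (nat_lit 228) (nat_lit 3497845648) (nat_lit 0) (nat_lit 1790982865) (nat_lit 29) (nat_lit 5) (nat_lit 32) (nat_lit 4) (nat_lit 29) (nat_lit 4) (nat_lit 333) (nat_lit 231) (nat_lit 216)) (XT.lf (nat_lit 0) (nat_lit 3009245896) (nat_lit 152) (nat_lit 10207648818) (nat_lit 152) (nat_lit 1993214921) (nat_lit 27) (nat_lit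 4) (nat_lit 29) (nat_lit 5) (nat_lit 29) (nat_lit 4) (nat_lit 334) (nat_lit 231) (nat_lit 215))))))) (XT.nd (nat_lit 936) (nat_lit 380) (nat_lit 0) (XT.nd (nat_lit 468) (nat_lit 304) (nat_lit 0) (XT.nd (nat_lit 234) (nat_lit 228) (nat_lit 0) (XT.nd (nat_lit 78) (nat_lit 152) (nat_lit 0) (XT.lf (nat_lit 0) (nat_lit 1343489037) (nat_lit 228) (nat_lit 5882806531) (nat_lit 76) (nat_lit 8317471909) (nat_lit 26) (nat_lit 5) (nat_lit 29) (nat_lit 5) (nat_lit 27) (nat_lit 4) (nat_lit 335) (nat_lit 231) (nat_lit 214)) (XT.nd (nat_lit 78) (nat_lit 0) (nat_lit 0) (XT.lf (nat_lit 0) (nat_lit 508080327) (nat_lit 152) (nat_lit 4172856146) (nat_lit 228) (nat_lit 11207741561) (nat_lit 24) (nat_lit 5) (nat_lit 26) (nat_lit 5) (nat_lit 27) (nat_lit 4) (nat_lit 336) (nat_lit 231) (nat_lit 213)) (XT.lf (nat_lit 0) (nat_lit 7105441773) (nat_lit 152) (nat_lit 1009142281) (nat_lit 228) (nat_lit 8129524059) (nat_lit 24)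 (nat_lit 5) (nat_lit 26) (nat_lit 5) (nat_lit 27) (nat_lit 4) (nat_lit 337) (nat_lit 231) (nat_lit 212)))) (XT.nd (nat_lit 78) (nat_lit 228) (nat_lit 0) (XT.lf (nat_lit 0) (nat_lit 11610984105) (nat_lit 228) (nat_lit 2835362038) (nat_lit 0) (nat_lit 2165115581) (nat_lit 24) (nat_lit 5) (nat_lit 27) (nat_lit 4) (nat_lit 24) (nat_lit 4) (nat_lit 338) (nat_lit 231) (nat_lit 211)) (XT.nd (nat_lit 78) (nat_lit 76) (nat_lit 0) (XT.lf (nat_lit 0) (nat_lit 3616393901) (nat_lit 152) (nat_lit 11580558728) (nat_lit 152) (nat_lit 1793394397) (nat_lit 22) (nat_lit 4) (nat_lit 24) (nat_lit 5) (nat_lit 24) (nat_lit 4) (nat_lit 339) (nat_lit 231) (nat_lit 210)) (XT.lf (nat_lit 0) (nat_lit 1449425156) (nat_lit 228) (nat_lit 7176186414) (nat_lit 76) (nat_lit 8755530700) (nat_lit 21) (nat_lit 5) (nat_lit 24) (nat_lit 5) (nat_lit 22) (nat_lit 4) (nat_lit 340) (nat_lit 231) (nat_lit 209))))) (XT.nd (nat_lit 234) (nat_lit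 228) (nat_lit 0) (XT.nd (nat_lit 78) (nat_lit 76) (nat_lit 0) (XT.lf (nat_lit 0) (nat_lit 4695301681) (nat_lit 228) (nat_lit 908761101) (nat_lit 76) (nat_lit 12180858383) (nat_lit 21) (nat_lit 5) (nat_lit 24) (nat_lit 5) (nat_lit 22) (nat_lit 4) (nat_lit 341) (nat_lit 231) (nat_lit 208)) (XT.nd (nat_lit 78) (nat_lit 0) (nat_lit 0) (XT.lf (nat_lit 0) (nat_lit 5559524761) (nat_lit 76) (nat_lit 2475983754) (nat_lit 152) (nat_lit 10165441939) (nat_lit 20) (nat_lit 5) (nat_lit 21) (nat_lit 5) (nat_lit 22) (nat_lit 4) (nat_lit 342) (nat_lit 231) (nat_lit 207)) (XT.lf (nat_lit 0) (nat_lit 11436232349) (nat_lit 152) (nat_lit 6492011919) (nat_lit 0) (nat_lit 702451350) (nat_lit 20) (nat_lit 5) (nat_lit 22) (nat_lit 4) (nat_lit 20) (nat_lit 4) (nat_lit 343) (nat_lit 231) (nat_lit 206)))) (XT.nd (nat_lit 78) (nat_lit 228) (nat_lit 0) (XT.lf (nat_lit 0) (nat_lit 14909000182) (nat_lit 152) (nat_lit 275885997)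 (nat_lit 0) (nat_lit 3889389318) (nat_lit 20) (nat_lit 5) (nat_lit 22) (nat_lit 4) (nat_lit 20) (nat_lit 4) (nat_lit 344) (nat_lit 231) (nat_lit 205)) (XT.nd (nat_lit 78) (nat_lit 76) (nat_lit 0) (XT.lf (nat_lit 0) (nat_lit 6156316213) (nat_lit 152) (nat_lit 12335907866) (nat_lit 152) (nat_lit 1038792278) (nat_lit 18) (nat_lit 4) (nat_lit 20) (nat_lit 5) (nat_lit 20) (nat_lit 4) (nat_lit 345) (nat_lit 231) (nat_lit 204)) (XT.lf (nat_lit 0) (nat_lit 2088947142) (nat_lit 228) (nat_lit 7325974950) (nat_lit 76) (nat_lit 10587446718) (nat_lit 17) (nat_lit 5) (nat_lit 20) (nat_lit 5) (nat_lit 18) (nat_lit 4) (nat_lit 346) (nat_lit 231) (nat_lit 203)))))) (XT.nd (nat_lit 468) (nat_lit 152) (nat_lit 0) (XT.nd (nat_lit 234) (nat_lit 152) (nat_lit 0) (XT.nd (nat_lit 78) (nat_lit 76) (nat_lit 0) (XT.lf (nat_lit 0) (nat_lit 5238394452) (nat_lit 228) (nat_lit 1194171727) (nat_lit 76) (nat_lit 14056562704) (nat_lit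 17) (nat_lit 5) (nat_lit 20) (nat_lit 5) (nat_lit 18) (nat_lit 4) (nat_lit 347) (nat_lit 231) (nat_lit 202)) (XT.nd (nat_lit 78) (nat_lit 0) (nat_lit 0) (XT.lf (nat_lit 0) (nat_lit 5136280246) (nat_lit 76) (nat_lit 3345664997) (nat_lit 152) (nat_lit 12508595031) (nat_lit 16) (nat_lit 5) (nat_lit 17) (nat_lit 5) (nat_lit 18) (nat_lit 4) (nat_lit 348) (nat_lit 231) (nat_lit 201)) (XT.lf (nat_lit 0) (nat_lit 11596431011) (nat_lit 76) (nat_lit 189312320) (nat_lit 152) (nat_lit 9722398489) (nat_lit 16) (nat_lit 5) (nat_lit 17) (nat_lit 5) (nat_lit 18) (nat_lit 4) (nat_lit 349) (nat_lit 231) (nat_lit 200)))) (XT.nd (nat_lit 78) (nat_lit 152) (nat_lit 0) (XT.lf (nat_lit 0) (nat_lit 15170067174) (nat_lit 152) (nat_lit 3903677232) (nat_lit 0) (nat_lit 2968119636) (nat_lit 16) (nat_lit 5) (nat_lit 18) (nat_lit 4) (nat_lit 16) (nat_lit 4) (nat_lit 350) (nat_lit 231) (nat_lit 199)) (XT.nd (nat_lit 78) (nat_lit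 0) (nat_lit 0) (XT.lf (nat_lit 0) (nat_lit 2245610010) (nat_lit 152) (nat_lit 16387150485) (nat_lit 152) (nat_lit 3959566212) (nat_lit 14) (nat_lit 4) (nat_lit 16) (nat_lit 5) (nat_lit 16) (nat_lit 4) (nat_lit 351) (nat_lit 231) (nat_lit 198)) (XT.lf (nat_lit 0) (nat_lit 8579257984) (nat_lit 152) (nat_lit 13613462861) (nat_lit 152) (nat_lit 966813797) (nat_lit 14) (nat_lit 4) (nat_lit 16) (nat_lit 5) (nat_lit 16) (nat_lit 4) (nat_lit 352) (nat_lit 231) (nat_lit 197))))) (XT.nd (nat_lit 234) (nat_lit 0) (nat_lit 0) (XT.nd (nat_lit 78) (nat_lit 76) (nat_lit 0) (XT.lf (nat_lit 0) (nat_lit 2029269475) (nat_lit 228) (nat_lit 8739916292) (nat_lit 76) (nat_lit 12975348997) (nat_lit 13) (nat_lit 5) (nat_lit 16) (nat_lit 5) (nat_lit 14) (nat_lit 4) (nat_lit 353) (nat_lit 231) (nat_lit 196)) (XT.nd (nat_lit 78) (nat_lit 76) (nat_lit 0) (XT.lf (nat_lit 0) (nat_lit 5051952397) (nat_lit 228) (nat_lit 2810359535)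 (nat_lit 76) (nat_lit 16485831488) (nat_lit 13) (nat_lit 5) (nat_lit 16) (nat_lit 5) (nat_lit 14) (nat_lit 4) (nat_lit 354) (nat_lit 231) (nat_lit 195)) (XT.lf (nat_lit 0) (nat_lit 3287009782) (nat_lit 76) (nat_lit 4867329134) (nat_lit 152) (nat_lit 16815880028) (nat_lit 12) (nat_lit 5) (nat_lit 13) (nat_lit 5) (nat_lit 14) (nat_lit 4) (nat_lit 355) (nat_lit 231) (nat_lit 194)))) (XT.nd (nat_lit 78) (nat_lit 0) (nat_lit 0) (XT.lf (nat_lit 0) (nat_lit 9551421857) (nat_lit 76) (nat_lit 1784714253) (nat_lit 152) (nat_lit 14275258898) (nat_lit 12) (nat_lit 5) (nat_lit 13) (nat_lit 5) (nat_lit 14) (nat_lit 4) (nat_lit 356) (nat_lit 231) (nat_lit 193)) (XT.nd (nat_lit 78) (nat_lit 0) (nat_lit 0) (XT.lf (nat_lit 0) (nat_lit 14585643330) (nat_lit 152) (nat_lit 10353711341) (nat_lit 0) (nat_lit 1333311619) (nat_lit 12) (nat_lit 5) (nat_lit 14) (nat_lit 4) (nat_lit 12) (nat_lit 4) (nat_lit 357) (nat_lit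 231) (nat_lit 192)) (XT.lf (nat_lit 0) (nat_lit 17910394489) (nat_lit 152) (nat_lit 4564132217) (nat_lit 0) (nat_lit 4479943056) (nat_lit 12) (nat_lit 5) (nat_lit 14) (nat_lit 4) (nat_lit 12) (nat_lit 4) (nat_lit 358) (nat_lit 231) (nat_lit 191))))))))
noncomputable def xc40 : XT := (XT.nd (nat_lit 1794) (nat_lit 228) (nat_lit 0) (XT.nd (nat_lit 858) (nat_lit 228) (nat_lit 0) (XT.nd (nat_lit 390) (nat_lit 76) (nat_lit 0) (XT.nd (nat_lit 156) (nat_lit 76) (nat_lit 0) (XT.nd (nat_lit 78) (nat_lit 0) (nat_lit 0) (XT.lf (nat_lit 0) (nat_lit 1357467928) (nat_lit 76) (nat_lit 19951719830) (nat_lit 76) (nat_lit 6348336627) (nat_lit 11) (nat_lit 4) (nat_lit 12) (nat_lit 5) (nat_lit 12) (nat_lit 4) (nat_lit 359) (nat_lit 231) (nat_lit 190)) (XT.lf (nat_lit 0) (nat_lit 7482789065) (nat_lit 76) (nat_lit 17334975198) (nat_lit 76) (nat_lit 3563697075) (nat_lit 11) (nat_lit 4) (nat_lit 12) (nat_lit 5) (nat_lit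 12) (nat_lit 4) (nat_lit 360) (nat_lit 231) (nat_lit 189))) (XT.nd (nat_lit 78) (nat_lit 76) (nat_lit 0) (XT.lf (nat_lit 0) (nat_lit 13726348234) (nat_lit 76) (nat_lit 14668095123) (nat_lit 76) (nat_lit 733812221) (nat_lit 11) (nat_lit 4) (nat_lit 12) (nat_lit 5) (nat_lit 12) (nat_lit 4) (nat_lit 361) (nat_lit 231) (nat_lit 188)) (XT.nd (nat_lit 78) (nat_lit 0) (nat_lit 0) (XT.lf (nat_lit 0) (nat_lit 2101957570) (nat_lit 152) (nat_lit 9825566100) (nat_lit 76) (nat_lit 17970417754) (nat_lit 10) (nat_lit 5) (nat_lit 12) (nat_lit 5) (nat_lit 11) (nat_lit 4) (nat_lit 362) (nat_lit 231) (nat_lit 187)) (XT.lf (nat_lit 0) (nat_lit 4972660252) (nat_lit 152) (nat_lit 4151687292) (nat_lit 76) (nat_lit 21567236531) (nat_lit 10) (nat_lit 5) (nat_lit 12) (nat_lit 5) (nat_lit 11) (nat_lit 4) (nat_lit 363) (nat_lit 231) (nat_lit 186))))) (XT.nd (nat_lit 234) (nat_lit 0) (nat_lit 0) (XT.nd (nat_lit 78) (nat_lit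 0) (nat_lit 0) (XT.lf (nat_lit 0) (nat_lit 1664215528) (nat_lit 76) (nat_lit 6246905455) (nat_lit 152) (nat_lit 23598487718) (nat_lit 9) (nat_lit 5) (nat_lit 10) (nat_lit 5) (nat_lit 11) (nat_lit 4) (nat_lit 364) (nat_lit 231) (nat_lit 185)) (XT.nd (nat_lit 78) (nat_lit 0) (nat_lit 0) (XT.lf (nat_lit 0) (nat_lit 7679628539) (nat_lit 76) (nat_lit 3266093747) (nat_lit 152) (nat_lit 21406233343) (nat_lit 9) (nat_lit 5) (nat_lit 10) (nat_lit 5) (nat_lit 11) (nat_lit 4) (nat_lit 365) (nat_lit 231) (nat_lit 184)) (XT.lf (nat_lit 0) (nat_lit 13817181208) (nat_lit 76) (nat_lit 221231729) (nat_lit 152) (nat_lit 19182169039) (nat_lit 9) (nat_lit 5) (nat_lit 10) (nat_lit 5) (nat_lit 11) (nat_lit 4) (nat_lit 366) (nat_lit 231) (nat_lit 183)))) (XT.nd (nat_lit 78) (nat_lit 0) (nat_lit 0) (XT.lf (nat_lit 0) (nat_lit 17219679016) (nat_lit 152) (nat_lit 14061794018) (nat_lit 0) (nat_lit 2833940190) (nat_lit 9)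 (nat_lit 5) (nat_lit 11) (nat_lit 4) (nat_lit 9) (nat_lit 4) (nat_lit 367) (nat_lit 231) (nat_lit 182)) (XT.nd (nat_lit 78) (nat_lit 0) (nat_lit 0) (XT.lf (nat_lit 0) (nat_lit 20467286280) (nat_lit 152) (nat_lit 8617825429) (nat_lit 0) (nat_lit 5952869977) (nat_lit 9) (nat_lit 5) (nat_lit 11) (nat_lit 4) (nat_lit 9) (nat_lit 4) (nat_lit 368) (nat_lit 231) (nat_lit 181)) (XT.lf (nat_lit 0) (nat_lit 23781945830) (nat_lit 152) (nat_lit 3064611519) (nat_lit 0) (nat_lit 9142599937) (nat_lit 9) (nat_lit 5) (nat_lit 11) (nat_lit 4) (nat_lit 9) (nat_lit 4) (nat_lit 369) (nat_lit 231) (nat_lit 180)))))) (XT.nd (nat_lit 468) (nat_lit 76) (nat_lit 0) (XT.nd (nat_lit 234) (nat_lit 76) (nat_lit 0) (XT.nd (nat_lit 78) (nat_lit 0) (nat_lit 0) (XT.lf (nat_lit 0) (nat_lit 2654498868) (nat_lit 76) (nat_lit 24537571768) (nat_lit 76) (nat_lit 9776935012) (nat_lit 8) (nat_lit 4) (nat_lit 9) (nat_lit 5) (nat_lit 9)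 (nat_lit 4) (nat_lit 370) (nat_lit 231) (nat_lit 179)) (XT.nd (nat_lit 78) (nat_lit 0) (nat_lit 0) (XT.lf (nat_lit 0) (nat_lit 8556020018) (nat_lit 76) (nat_lit 22150293804) (nat_lit 76) (nat_lit 7271898928) (nat_lit 8) (nat_lit 4) (nat_lit 9) (nat_lit 5) (nat_lit 9) (nat_lit 4) (nat_lit 371) (nat_lit 231) (nat_lit 178)) (XT.lf (nat_lit 0) (nat_lit 14584116823) (nat_lit 76) (nat_lit 19713584052) (nat_lit 76) (nat_lit 4720860904) (nat_lit 8) (nat_lit 4) (nat_lit 9) (nat_lit 5) (nat_lit 9) (nat_lit 4) (nat_lit 372) (nat_lit 231) (nat_lit 177)))) (XT.nd (nat_lit 78) (nat_lit 76) (nat_lit 0) (XT.lf (nat_lit 0) (nat_lit 20744056550) (nat_lit 76) (nat_lit 17225313348) (nat_lit 76) (nat_lit 2121591879) (nat_lit 8) (nat_lit 4) (nat_lit 9) (nat_lit 5) (nat_lit 9) (nat_lit 4) (nat_lit 373) (nat_lit 231) (nat_lit 176)) (XT.nd (nat_lit 78) (nat_lit 0) (nat_lit 0) (XT.lf (nat_lit 0) (nat_lit 517872672) (nat_lit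 152) (nat_lit 14160205306) (nat_lit 76) (nat_lit 26518119500) (nat_lit 7) (nat_lit 5) (nat_lit 9) (nat_lit 5) (nat_lit 8) (nat_lit 4) (nat_lit 374) (nat_lit 231) (nat_lit 175)) (XT.lf (nat_lit 0) (nat_lit 3167724206) (nat_lit 152) (nat_lit 8885633257) (nat_lit 76) (nat_lit 30281402555) (nat_lit 7) (nat_lit 5) (nat_lit 9) (nat_lit 5) (nat_lit 8) (nat_lit 4) (nat_lit 375) (nat_lit 231) (nat_lit 174))))) (XT.nd (nat_lit 234) (nat_lit 0) (nat_lit 0) (XT.nd (nat_lit 78) (nat_lit 76) (nat_lit 0) (XT.lf (nat_lit 0) (nat_lit 5871678025) (nat_lit 152) (nat_lit 3498186192) (nat_lit 76) (nat_lit 34138391860) (nat_lit 7) (nat_lit 5) (nat_lit 9) (nat_lit 5) (nat_lit 8) (nat_lit 4) (nat_lit 376) (nat_lit 231) (nat_lit 173)) (XT.nd (nat_lit 78) (nat_lit 0) (nat_lit 0) (XT.lf (nat_lit 0) (nat_lit 2046783482) (nat_lit 76) (nat_lit 6604988260) (nat_lit 152) (nat_lit 36065349052) (nat_lit 6) (nat_lit 5) (nat_lit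 7) (nat_lit 5) (nat_lit 8) (nat_lit 4) (nat_lit 377) (nat_lit 231) (nat_lit 172)) (XT.lf (nat_lit 0) (nat_lit 7786202491) (nat_lit 76) (nat_lit 3740035821) (nat_lit 152) (nat_lit 34435698034) (nat_lit 6) (nat_lit 5) (nat_lit 7) (nat_lit 5) (nat_lit 8) (nat_lit 4) (nat_lit 378) (nat_lit 231) (nat_lit 171)))) (XT.nd (nat_lit 78) (nat_lit 0) (nat_lit 0) (XT.lf (nat_lit 0) (nat_lit 13655465094) (nat_lit 76) (nat_lit 807828366) (nat_lit 152) (nat_lit 32781525853) (nat_lit 6) (nat_lit 5) (nat_lit 7) (nat_lit 5) (nat_lit 8) (nat_lit 4) (nat_lit 379) (nat_lit 231) (nat_lit 170)) (XT.nd (nat_lit 78) (nat_lit 0) (nat_lit 0) (XT.lf (nat_lit 0) (nat_lit 17486595501) (nat_lit 152) (nat_lit 28928282845) (nat_lit 0) (nat_lit 2151379556) (nat_lit 6) (nat_lit 5) (nat_lit 8) (nat_lit 4) (nat_lit 6) (nat_lit 4) (nat_lit 380) (nat_lit 231) (nat_lit 169)) (XT.lf (nat_lit 0) (nat_lit 20586137451) (nat_lit 152) (nat_lit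 24175798245) (nat_lit 0) (nat_lit 5165850535) (nat_lit 6) (nat_lit 5) (nat_lit 8) (nat_lit 4) (nat_lit 6) (nat_lit 4) (nat_lit 381) (nat_lit 231) (nat_lit 168))))))) (XT.nd (nat_lit 936) (nat_lit 152) (nat_lit 0) (XT.nd (nat_lit 468) (nat_lit 0) (nat_lit 0) (XT.nd (nat_lit 234) (nat_lit 76) (nat_lit 0) (XT.nd (nat_lit 78) (nat_lit 0) (nat_lit 0) (XT.lf (nat_lit 0) (nat_lit 23756862307) (nat_lit 152) (nat_lit 19319982422) (nat_lit 0) (nat_lit 8253982214) (nat_lit 6) (nat_lit 5) (nat_lit 8) (nat_lit 4) (nat_lit 6) (nat_lit 4) (nat_lit 382) (nat_lit 231) (nat_lit 167)) (XT.nd (nat_lit 78) (nat_lit 0) (nat_lit 0) (XT.lf (nat_lit 0) (nat_lit 27001540604) (nat_lit 152) (nat_lit 14356592431) (nat_lit 0) (nat_lit 11418472962) (nat_lit 6) (nat_lit 5) (nat_lit 8) (nat_lit 4) (nat_lit 6) (nat_lit 4) (nat_lit 383) (nat_lit 231) (nat_lit 166)) (XT.lf (nat_lit 0) (nat_lit 30323007499) (nat_lit 152) (nat_lit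 9281291330) (nat_lit 0) (nat_lit 14662087866) (nat_lit 6) (nat_lit 5) (nat_lit 8) (nat_lit 4) (nat_lit 6) (nat_lit 4) (nat_lit 384) (nat_lit 231) (nat_lit 165)))) (XT.nd (nat_lit 78) (nat_lit 76) (nat_lit 0) (XT.lf (nat_lit 0) (nat_lit 33724165243) (nat_lit 152) (nat_lit 4089644389) (nat_lit 0) (nat_lit 17987661155) (nat_lit 6) (nat_lit 5) (nat_lit 8) (nat_lit 4) (nat_lit 6) (nat_lit 4) (nat_lit 385) (nat_lit 231) (nat_lit 164)) (XT.nd (nat_lit 78) (nat_lit 0) (nat_lit 0) (XT.lf (nat_lit 0) (nat_lit 1247222587) (nat_lit 76) (nat_lit 35972752203) (nat_lit 76) (nat_lit 20162865147) (nat_lit 5) (nat_lit 4) (nat_lit 6) (nat_lit 5) (nat_lit 6) (nat_lit 4) (nat_lit 386) (nat_lit 231) (nat_lit 163)) (XT.lf (nat_lit 0) (nat_lit 6793503931) (nat_lit 76) (nat_lit 34049312439) (nat_lit 76) (nat_lit 18168179784) (nat_lit 5) (nat_lit 4) (nat_lit 6) (nat_lit 5) (nat_lit 6) (nat_lit 4) (nat_lit 387) (nat_lit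 231) (nat_lit 162))))) (XT.nd (nat_lit 234) (nat_lit 0) (nat_lit 0) (XT.nd (nat_lit 78) (nat_lit 0) (nat_lit 0) (XT.lf (nat_lit 0) (nat_lit 12472653965) (nat_lit 76) (nat_lit 32083107055) (nat_lit 76) (nat_lit 16132803916) (nat_lit 5) (nat_lit 4) (nat_lit 6) (nat_lit 5) (nat_lit 6) (nat_lit 4) (nat_lit 388) (nat_lit 231) (nat_lit 161)) (XT.nd (nat_lit 78) (nat_lit 0) (nat_lit 0) (XT.lf (nat_lit 0) (nat_lit 18289635054) (nat_lit 76) (nat_lit 30072418008) (nat_lit 76) (nat_lit 14054959058) (nat_lit 5) (nat_lit 4) (nat_lit 6) (nat_lit 5) (nat_lit 6) (nat_lit 4) (nat_lit 389) (nat_lit 231) (nat_lit 160)) (XT.lf (nat_lit 0) (nat_lit 24249529995) (nat_lit 76) (nat_lit 28015488384) (nat_lit 76) (nat_lit 11932829619) (nat_lit 5) (nat_lit 4) (nat_lit 6) (nat_lit 5) (nat_lit 6) (nat_lit 4) (nat_lit 390) (nat_lit 231) (nat_lit 159)))) (XT.nd (nat_lit 78) (nat_lit 0) (nat_lit 0) (XT.lf (nat_lit 0) (nat_lit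 30357546465) (nat_lit 76) (nat_lit 25910520867) (nat_lit 76) (nat_lit 9764561310) (nat_lit 5) (nat_lit 4) (nat_lit 6) (nat_lit 5) (nat_lit 6) (nat_lit 4) (nat_lit 391) (nat_lit 231) (nat_lit 158)) (XT.nd (nat_lit 78) (nat_lit 0) (nat_lit 0) (XT.lf (nat_lit 0) (nat_lit 36619021566) (nat_lit 76) (nat_lit 23755676165) (nat_lit 76) (nat_lit 7548259527) (nat_lit 5) (nat_lit 4) (nat_lit 6) (nat_lit 5) (nat_lit 6) (nat_lit 4) (nat_lit 392) (nat_lit 231) (nat_lit 157)) (XT.lf (nat_lit 0) (nat_lit 43039426488) (nat_lit 76) (nat_lit 21549071403) (nat_lit 76) (nat_lit 5281987698) (nat_lit 5) (nat_lit 4) (nat_lit 6) (nat_lit 5) (nat_lit 6) (nat_lit 4) (nat_lit 393) (nat_lit 231) (nat_lit 156)))))) (XT.nd (nat_lit 468) (nat_lit 0) (nat_lit 0) (XT.nd (nat_lit 234) (nat_lit 76) (nat_lit 0) (XT.nd (nat_lit 78) (nat_lit 76) (nat_lit 0) (XT.lf (nat_lit 0) (nat_lit 49624371295) (nat_lit 76) (nat_lit 19288778480)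 (nat_lit 76) (nat_lit 2963765583) (nat_lit 5) (nat_lit 4) (nat_lit 6) (nat_lit 5) (nat_lit 6) (nat_lit 4) (nat_lit 394) (nat_lit 231) (nat_lit 155)) (XT.nd (nat_lit 78) (nat_lit 76) (nat_lit 0) (XT.lf (nat_lit 0) (nat_lit 56379609822) (nat_lit 76) (nat_lit 16972822384) (nat_lit 76) (nat_lit 591567553) (nat_lit 5) (nat_lit 4) (nat_lit 6) (nat_lit 5) (nat_lit 6) (nat_lit 4) (nat_lit 395) (nat_lit 231) (nat_lit 154)) (XT.lf (nat_lit 0) (nat_lit 1800838960) (nat_lit 152) (nat_lit 12780155559) (nat_lit 76) (nat_lit 61492020801) (nat_lit 4) (nat_lit 5) (nat_lit 6) (nat_lit 5) (nat_lit 5) (nat_lit 4) (nat_lit 396) (nat_lit 231) (nat_lit 153)))) (XT.nd (nat_lit 78) (nat_lit 76) (nat_lit 0) (XT.lf (nat_lit 0) (nat_lit 4238737225) (nat_lit 152) (nat_lit 7884235499) (nat_lit 76) (nat_lit 66143192375) (nat_lit 4) (nat_lit 5) (nat_lit 6) (nat_lit 5) (nat_lit 5) (nat_lit 4) (nat_lit 397) (nat_lit 231) (nat_lit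 152)) (XT.nd (nat_lit 78) (nat_lit 76) (nat_lit 0) (XT.lf (nat_lit 0) (nat_lit 6735801055) (nat_lit 152) (nat_lit 2866665260) (nat_lit 76) (nat_lit 70923069721) (nat_lit 4) (nat_lit 5) (nat_lit 6) (nat_lit 5) (nat_lit 5) (nat_lit 4) (nat_lit 398) (nat_lit 231) (nat_lit 151)) (XT.lf (nat_lit 0) (nat_lit 2322255002) (nat_lit 76) (nat_lit 6994280286) (nat_lit 152) (nat_lit 73535897362) (nat_lit 3) (nat_lit 5) (nat_lit 4) (nat_lit 5) (nat_lit 5) (nat_lit 4) (nat_lit 399) (nat_lit 231) (nat_lit 150))))) (XT.nd (nat_lit 234) (nat_lit 0) (nat_lit 0) (XT.nd (nat_lit 78) (nat_lit 0) (nat_lit 0) (XT.lf (nat_lit 0) (nat_lit 7701354180) (nat_lit 76) (nat_lit 4288882568) (nat_lit 152) (nat_lit 73258440148) (nat_lit 3) (nat_lit 5) (nat_lit 4) (nat_lit 5) (nat_lit 5) (nat_lit 4) (nat_lit 400) (nat_lit 231) (nat_lit 149)) (XT.nd (nat_lit 78) (nat_lit 0) (nat_lit 0) (XT.lf (nat_lit 0) (nat_lit 13218280199) (nat_lit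 76) (nat_lit 1512856920) (nat_lit 152) (nat_lit 72986068599) (nat_lit 3) (nat_lit 5) (nat_lit 4) (nat_lit 5) (nat_lit 5) (nat_lit 4) (nat_lit 401) (nat_lit 231) (nat_lit 148)) (XT.lf (nat_lit 0) (nat_lit 17554475948) (nat_lit 152) (nat_lit 71395166996) (nat_lit 0) (nat_lit 1310147800) (nat_lit 3) (nat_lit 5) (nat_lit 5) (nat_lit 4) (nat_lit 3) (nat_lit 4) (nat_lit 402) (nat_lit 231) (nat_lit 147)))) (XT.nd (nat_lit 33852) (nat_lit 0) (nat_lit 3800) (XT.lf (nat_lit 0) (nat_lit 20465133093) (nat_lit 152) (nat_lit 68235747987) (nat_lit 0) (nat_lit 4177700186) (nat_lit 3) (nat_lit 5) (nat_lit 5) (nat_lit 4) (nat_lit 3) (nat_lit 4) (nat_lit 403) (nat_lit 231) (nat_lit 146)) (XT.nd (nat_lit 78) (nat_lit 304) (nat_lit 0) (XT.lf (nat_lit 0) (nat_lit 4493288026) (nat_lit 228) (nat_lit 437399649) (nat_lit 228) (nat_lit 437399649) (nat_lit 57) (nat_lit 4) (nat_lit 60) (nat_lit 5) (nat_lit 60) (nat_lit 4)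 (nat_lit 316) (nat_lit 232) (nat_lit 232)) (XT.lf (nat_lit 0) (nat_lit 2754123083) (nat_lit 304) (nat_lit 6148870703) (nat_lit 0) (nat_lit 2018087527) (nat_lit 53) (nat_lit 5) (nat_lit 57) (nat_lit 4) (nat_lit 53) (nat_lit 4) (nat_lit 317) (nat_lit 232) (nat_lit 231))))))))
noncomputable def xc41 : XT := (XT.nd (nat_lit 1794) (nat_lit 836) (nat_lit 0) (XT.nd (nat_lit 858) (nat_lit 988) (nat_lit 0) (XT.nd (nat_lit 390) (nat_lit 684) (nat_lit 0) (XT.nd (nat_lit 156) (nat_lit 532) (nat_lit 0) (XT.nd (nat_lit 78) (nat_lit 0) (nat_lit 0) (XT.lf (nat_lit 0) (nat_lit 272303707) (nat_lit 228) (nat_lit 6145701080) (nat_lit 228) (nat_lit 4695067896) (nat_lit 50) (nat_lit 4) (nat_lit 53) (nat_lit 5) (nat_lit 53) (nat_lit 4) (nat_lit 318) (nat_lit 232) (nat_lit 230)) (XT.lf (nat_lit 0) (nat_lit 6883387899) (nat_lit 228) (nat_lit 3286310382) (nat_lit 228) (nat_lit 1141893093) (nat_lit 50) (nat_lit 4) (nat_lit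 53) (nat_lit 5) (nat_lit 53) (nat_lit 4) (nat_lit 319) (nat_lit 232) (nat_lit 229))) (XT.nd (nat_lit 78) (nat_lit 228) (nat_lit 0) (XT.lf (nat_lit 0) (nat_lit 2066088392) (nat_lit 228) (nat_lit 339863569) (nat_lit 304) (nat_lit 9111369777) (nat_lit 46) (nat_lit 5) (nat_lit 49) (nat_lit 5) (nat_lit 50) (nat_lit 4) (nat_lit 320) (nat_lit 232) (nat_lit 228)) (XT.nd (nat_lit 78) (nat_lit 228) (nat_lit 0) (XT.lf (nat_lit 0) (nat_lit 6026470620) (nat_lit 304) (nat_lit 3047190827) (nat_lit 0) (nat_lit 2655643291) (nat_lit 46) (nat_lit 5) (nat_lit 50) (nat_lit 4) (nat_lit 46) (nat_lit 4) (nat_lit 321) (nat_lit 232) (nat_lit 227)) (XT.lf (nat_lit 0) (nat_lit 3489787095) (nat_lit 228) (nat_lit 6223237922) (nat_lit 228) (nat_lit 2235992402) (nat_lit 43) (nat_lit 4) (nat_lit 46) (nat_lit 5) (nat_lit 46) (nat_lit 4) (nat_lit 322) (nat_lit 232) (nat_lit 226))))) (XT.nd (nat_lit 234) (nat_lit 456) (nat_lit 0)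 (XT.nd (nat_lit 78) (nat_lit 152) (nat_lit 0) (XT.lf (nat_lit 0) (nat_lit 1260662911) (nat_lit 304) (nat_lit 2026564071) (nat_lit 76) (nat_lit 8889241338) (nat_lit 42) (nat_lit 5) (nat_lit 46) (nat_lit 5) (nat_lit 43) (nat_lit 4) (nat_lit 323) (nat_lit 232) (nat_lit 225)) (XT.nd (nat_lit 78) (nat_lit 0) (nat_lit 0) (XT.lf (nat_lit 0) (nat_lit 4544884688) (nat_lit 152) (nat_lit 239168383) (nat_lit 228) (nat_lit 7627107149) (nat_lit 40) (nat_lit 5) (nat_lit 42) (nat_lit 5) (nat_lit 43) (nat_lit 4) (nat_lit 324) (nat_lit 232) (nat_lit 224)) (XT.lf (nat_lit 0) (nat_lit 8385450227) (nat_lit 228) (nat_lit 1446840677) (nat_lit 0) (nat_lit 2821515262) (nat_lit 40) (nat_lit 5) (nat_lit 43) (nat_lit 4) (nat_lit 40) (nat_lit 4) (nat_lit 325) (nat_lit 232) (nat_lit 223)))) (XT.nd (nat_lit 78) (nat_lit 228) (nat_lit 0) (XT.lf (nat_lit 0) (nat_lit 5145251575) (nat_lit 228) (nat_lit 6927444239) (nat_lit 228)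 (nat_lit 831781527) (nat_lit 37) (nat_lit 4) (nat_lit 40) (nat_lit 5) (nat_lit 40) (nat_lit 4) (nat_lit 326) (nat_lit 232) (nat_lit 222)) (XT.nd (nat_lit 78) (nat_lit 152) (nat_lit 0) (XT.lf (nat_lit 0) (nat_lit 2596017855) (nat_lit 304) (nat_lit 1341986994) (nat_lit 76) (nat_lit 9225729303) (nat_lit 36) (nat_lit 5) (nat_lit 40) (nat_lit 5) (nat_lit 37) (nat_lit 4) (nat_lit 327) (nat_lit 232) (nat_lit 221)) (XT.lf (nat_lit 0) (nat_lit 5247021269) (nat_lit 152) (nat_lit 841712183) (nat_lit 228) (nat_lit 7342497399) (nat_lit 34) (nat_lit 5) (nat_lit 36) (nat_lit 5) (nat_lit 37) (nat_lit 4) (nat_lit 328) (nat_lit 232) (nat_lit 220)))))) (XT.nd (nat_lit 468) (nat_lit 456) (nat_lit 0) (XT.nd (nat_lit 234) (nat_lit 304) (nat_lit 0) (XT.nd (nat_lit 78) (nat_lit 228) (nat_lit 0) (XT.lf (nat_lit 0) (nat_lit 9651422350) (nat_lit 228) (nat_lit 1783386080) (nat_lit 0) (nat_lit 2273059386) (nat_lit 34) (nat_lit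 5) (nat_lit 37) (nat_lit 4) (nat_lit 34) (nat_lit 4) (nat_lit 329) (nat_lit 232) (nat_lit 219)) (XT.nd (nat_lit 78) (nat_lit 76) (nat_lit 0) (XT.lf (nat_lit 0) (nat_lit 4782263167) (nat_lit 152) (nat_lit 8524043163) (nat_lit 152) (nat_lit 687007175) (nat_lit 32) (nat_lit 4) (nat_lit 34) (nat_lit 5) (nat_lit 34) (nat_lit 4) (nat_lit 330) (nat_lit 232) (nat_lit 218)) (XT.lf (nat_lit 0) (nat_lit 2678597594) (nat_lit 228) (nat_lit 2844796489) (nat_lit 76) (nat_lit 8764708870) (nat_lit 31) (nat_lit 5) (nat_lit 34) (nat_lit 5) (nat_lit 32) (nat_lit 4) (nat_lit 331) (nat_lit 232) (nat_lit 217)))) (XT.nd (nat_lit 78) (nat_lit 152) (nat_lit 0) (XT.lf (nat_lit 0) (nat_lit 3667977012) (nat_lit 152) (nat_lit 2431860393) (nat_lit 228) (nat_lit 8492703554) (nat_lit 29) (nat_lit 5) (nat_lit 31) (nat_lit 5) (nat_lit 32) (nat_lit 4) (nat_lit 332) (nat_lit 232) (nat_lit 216)) (XT.nd (nat_lit 78) (nat_lit 152) (nat_lit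 0) (XT.lf (nat_lit 0) (nat_lit 9593673466) (nat_lit 228) (nat_lit 4588119708) (nat_lit 0) (nat_lit 725281509) (nat_lit 29) (nat_lit 5) (nat_lit 32) (nat_lit 4) (nat_lit 29) (nat_lit 4) (nat_lit 333) (nat_lit 232) (nat_lit 215)) (XT.lf (nat_lit 0) (nat_lit 1843714110) (nat_lit 152) (nat_lit 11326056907) (nat_lit 152) (nat_lit 2062009570) (nat_lit 27) (nat_lit 4) (nat_lit 29) (nat_lit 5) (nat_lit 29) (nat_lit 4) (nat_lit 334) (nat_lit 232) (nat_lit 214))))) (XT.nd (nat_lit 234) (nat_lit 228) (nat_lit 0) (XT.nd (nat_lit 78) (nat_lit 152) (nat_lit 0) (XT.lf (nat_lit 0) (nat_lit 1244421068) (nat_lit 228) (nat_lit 7122004004) (nat_lit 76) (nat_lit 7200009327) (nat_lit 26) (nat_lit 5) (nat_lit 29) (nat_lit 5) (nat_lit 27) (nat_lit 4) (nat_lit 335) (nat_lit 232) (nat_lit 213)) (XT.nd (nat_lit 78) (nat_lit 152) (nat_lit 0) (XT.lf (nat_lit 0) (nat_lit 4546289622) (nat_lit 228) (nat_lit 792153983) (nat_lit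 76) (nat_lit 10573995568) (nat_lit 26) (nat_lit 5) (nat_lit 29) (nat_lit 5) (nat_lit 27) (nat_lit 4) (nat_lit 336) (nat_lit 232) (nat_lit 212)) (XT.lf (nat_lit 0) (nat_lit 5738820885) (nat_lit 152) (nat_lit 2203062624) (nat_lit 228) (nat_lit 8327153424) (nat_lit 24) (nat_lit 5) (nat_lit 26) (nat_lit 5) (nat_lit 27) (nat_lit 4) (nat_lit 337) (nat_lit 232) (nat_lit 211)))) (XT.nd (nat_lit 78) (nat_lit 228) (nat_lit 0) (XT.lf (nat_lit 0) (nat_lit 11397211780) (nat_lit 228) (nat_lit 4265299513) (nat_lit 0) (nat_lit 975136712) (nat_lit 24) (nat_lit 5) (nat_lit 27) (nat_lit 4) (nat_lit 24) (nat_lit 4) (nat_lit 338) (nat_lit 232) (nat_lit 210)) (XT.nd (nat_lit 78) (nat_lit 76) (nat_lit 0) (XT.lf (nat_lit 0) (nat_lit 2108622275) (nat_lit 152) (nat_lit 12831331313) (nat_lit 152) (nat_lit 2077901093) (nat_lit 22) (nat_lit 4) (nat_lit 24) (nat_lit 5) (nat_lit 24) (nat_lit 4) (nat_lit 339) (nat_lit 232) (nat_lit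 209)) (XT.lf (nat_lit 0) (nat_lit 1141809045) (nat_lit 228) (nat_lit 8757261888) (nat_lit 76) (nat_lit 7510544035) (nat_lit 21) (nat_lit 5) (nat_lit 24) (nat_lit 5) (nat_lit 22) (nat_lit 4) (nat_lit 340) (nat_lit 232) (nat_lit 208))))))) (XT.nd (nat_lit 936) (nat_lit 304) (nat_lit 0) (XT.nd (nat_lit 468) (nat_lit 228) (nat_lit 0) (XT.nd (nat_lit 234) (nat_lit 228) (nat_lit 0) (XT.nd (nat_lit 78) (nat_lit 76) (nat_lit 0) (XT.lf (nat_lit 0) (nat_lit 4359859196) (nat_lit 228) (nat_lit 2536954093) (nat_lit 76) (nat_lit 10917437852) (nat_lit 21) (nat_lit 5) (nat_lit 24) (nat_lit 5) (nat_lit 22) (nat_lit 4) (nat_lit 341) (nat_lit 232) (nat_lit 207)) (XT.nd (nat_lit 78) (nat_lit 0) (nat_lit 0) (XT.lf (nat_lit 0) (nat_lit 3852271954) (nat_lit 76) (nat_lit 3804367020) (nat_lit 152) (nat_lit 10574966099) (nat_lit 20) (nat_lit 5) (nat_lit 21) (nat_lit 5) (nat_lit 22) (nat_lit 4) (nat_lit 342) (nat_lit 232)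 (nat_lit 206)) (XT.lf (nat_lit 0) (nat_lit 10393227592) (nat_lit 76) (nat_lit 630583993) (nat_lit 152) (nat_lit 7638566386) (nat_lit 20) (nat_lit 5) (nat_lit 21) (nat_lit 5) (nat_lit 22) (nat_lit 4) (nat_lit 343) (nat_lit 232) (nat_lit 205)))) (XT.nd (nat_lit 78) (nat_lit 228) (nat_lit 0) (XT.lf (nat_lit 0) (nat_lit 14464456161) (nat_lit 152) (nat_lit 2091563584) (nat_lit 0) (nat_lit 2550922382) (nat_lit 20) (nat_lit 5) (nat_lit 22) (nat_lit 4) (nat_lit 20) (nat_lit 4) (nat_lit 344) (nat_lit 232) (nat_lit 204)) (XT.nd (nat_lit 78) (nat_lit 76) (nat_lit 0) (XT.lf (nat_lit 0) (nat_lit 4260339657) (nat_lit 152) (nat_lit 13743812493) (nat_lit 152) (nat_lit 1560856653) (nat_lit 18) (nat_lit 4) (nat_lit 20) (nat_lit 5) (nat_lit 20) (nat_lit 4) (nat_lit 345) (nat_lit 232) (nat_lit 203)) (XT.lf (nat_lit 0) (nat_lit 1551825987) (nat_lit 228) (nat_lit 9294323903) (nat_lit 76) (nat_lit 9191138076) (nat_lit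 17) (nat_lit 5) (nat_lit 20) (nat_lit 5) (nat_lit 18) (nat_lit 4) (nat_lit 346) (nat_lit 232) (nat_lit 202))))) (XT.nd (nat_lit 234) (nat_lit 152) (nat_lit 0) (XT.nd (nat_lit 78) (nat_lit 76) (nat_lit 0) (XT.lf (nat_lit 0) (nat_lit 4676764427) (nat_lit 228) (nat_lit 3204655001) (nat_lit 76) (nat_lit 12643382161) (nat_lit 17) (nat_lit 5) (nat_lit 20) (nat_lit 5) (nat_lit 18) (nat_lit 4) (nat_lit 347) (nat_lit 232) (nat_lit 201)) (XT.nd (nat_lit 78) (nat_lit 0) (nat_lit 0) (XT.lf (nat_lit 0) (nat_lit 3044063172) (nat_lit 76) (nat_lit 4832345357) (nat_lit 152) (nat_lit 13151139404) (nat_lit 16) (nat_lit 5) (nat_lit 17) (nat_lit 5) (nat_lit 18) (nat_lit 4) (nat_lit 348) (nat_lit 232) (nat_lit 200)) (XT.lf (nat_lit 0) (nat_lit 9463707878) (nat_lit 76) (nat_lit 1693007408) (nat_lit 152) (nat_lit 10389156166) (nat_lit 16) (nat_lit 5) (nat_lit 17) (nat_lit 5) (nat_lit 18) (nat_lit 4) (nat_lit 349) (nat_lit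 232) (nat_lit 199)))) (XT.nd (nat_lit 78) (nat_lit 152) (nat_lit 0) (XT.lf (nat_lit 0) (nat_lit 14503618785) (nat_lit 152) (nat_lit 6099543985) (nat_lit 0) (nat_lit 1477570249) (nat_lit 16) (nat_lit 5) (nat_lit 18) (nat_lit 4) (nat_lit 16) (nat_lit 4) (nat_lit 350) (nat_lit 232) (nat_lit 198)) (XT.nd (nat_lit 78) (nat_lit 152) (nat_lit 0) (XT.lf (nat_lit 0) (nat_lit 17922428930) (nat_lit 152) (nat_lit 32783890) (nat_lit 0) (nat_lit 4677315603) (nat_lit 16) (nat_lit 5) (nat_lit 18) (nat_lit 4) (nat_lit 16) (nat_lit 4) (nat_lit 351) (nat_lit 232) (nat_lit 197)) (XT.lf (nat_lit 0) (nat_lit 6261883894) (nat_lit 152) (nat_lit 15198167974) (nat_lit 152) (nat_lit 1740370384) (nat_lit 14) (nat_lit 4) (nat_lit 16) (nat_lit 5) (nat_lit 16) (nat_lit 4) (nat_lit 352) (nat_lit 232) (nat_lit 196)))))) (XT.nd (nat_lit 468) (nat_lit 152) (nat_lit 0) (XT.nd (nat_lit 234) (nat_lit 0) (nat_lit 0) (XT.nd (nat_lit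 78) (nat_lit 76) (nat_lit 0) (XT.lf (nat_lit 0) (nat_lit 1249206360) (nat_lit 228) (nat_lit 11128398255) (nat_lit 76) (nat_lit 11408703746) (nat_lit 13) (nat_lit 5) (nat_lit 16) (nat_lit 5) (nat_lit 14) (nat_lit 4) (nat_lit 353) (nat_lit 232) (nat_lit 195)) (XT.nd (nat_lit 78) (nat_lit 76) (nat_lit 0) (XT.lf (nat_lit 0) (nat_lit 4250917046) (nat_lit 228) (nat_lit 5235400878) (nat_lit 76) (nat_lit 14904242694) (nat_lit 13) (nat_lit 5) (nat_lit 16) (nat_lit 5) (nat_lit 14) (nat_lit 4) (nat_lit 354) (nat_lit 232) (nat_lit 194)) (XT.lf (nat_lit 0) (nat_lit 777504407) (nat_lit 76) (nat_lit 6531314863) (nat_lit 152) (nat_lit 17705165414) (nat_lit 12) (nat_lit 5) (nat_lit 13) (nat_lit 5) (nat_lit 14) (nat_lit 4) (nat_lit 355) (nat_lit 232) (nat_lit 193)))) (XT.nd (nat_lit 78) (nat_lit 0) (nat_lit 0) (XT.lf (nat_lit 0) (nat_lit 7006769925) (nat_lit 76) (nat_lit 3463740346) (nat_lit 152) (nat_lit 15185267269)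 (nat_lit 12) (nat_lit 5) (nat_lit 13) (nat_lit 5) (nat_lit 14) (nat_lit 4) (nat_lit 356) (nat_lit 232) (nat_lit 192)) (XT.nd (nat_lit 78) (nat_lit 0) (nat_lit 0) (XT.lf (nat_lit 0) (nat_lit 13353643979) (nat_lit 76) (nat_lit 333781251) (nat_lit 152) (nat_lit 12630614568) (nat_lit 12) (nat_lit 5) (nat_lit 13) (nat_lit 5) (nat_lit 14) (nat_lit 4) (nat_lit 357) (nat_lit 232) (nat_lit 191)) (XT.lf (nat_lit 0) (nat_lit 16989879585) (nat_lit 152) (nat_lit 7205182295) (nat_lit 0) (nat_lit 2805463118) (nat_lit 12) (nat_lit 5) (nat_lit 14) (nat_lit 4) (nat_lit 12) (nat_lit 4) (nat_lit 358) (nat_lit 232) (nat_lit 190))))) (XT.nd (nat_lit 234) (nat_lit 76) (nat_lit 0) (XT.nd (nat_lit 78) (nat_lit 76) (nat_lit 0) (XT.lf (nat_lit 0) (nat_lit 20357091718) (nat_lit 152) (nat_lit 1342667459) (nat_lit 0) (nat_lit 6004780329) (nat_lit 12) (nat_lit 5) (nat_lit 14) (nat_lit 4) (nat_lit 12) (nat_lit 4) (nat_lit 359)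 (nat_lit 232) (nat_lit 189)) (XT.nd (nat_lit 78) (nat_lit 0) (nat_lit 0) (XT.lf (nat_lit 0) (nat_lit 4723655311) (nat_lit 76) (nat_lit 19110546694) (nat_lit 76) (nat_lit 4595230527) (nat_lit 11) (nat_lit 4) (nat_lit 12) (nat_lit 5) (nat_lit 12) (nat_lit 4) (nat_lit 360) (nat_lit 232) (nat_lit 188)) (XT.lf (nat_lit 0) (nat_lit 10935877926) (nat_lit 76) (nat_lit 16457233454) (nat_lit 76) (nat_lit 1783660220) (nat_lit 11) (nat_lit 4) (nat_lit 12) (nat_lit 5) (nat_lit 12) (nat_lit 4) (nat_lit 361) (nat_lit 232) (nat_lit 187)))) (XT.nd (nat_lit 78) (nat_lit 0) (nat_lit 0) (XT.lf (nat_lit 0) (nat_lit 1055161746) (nat_lit 152) (nat_lit 12685242524) (nat_lit 76) (nat_lit 16206890015) (nat_lit 10) (nat_lit 5) (nat_lit 12) (nat_lit 5) (nat_lit 11) (nat_lit 4) (nat_lit 362) (nat_lit 232) (nat_lit 186)) (XT.nd (nat_lit 78) (nat_lit 0) (nat_lit 0) (XT.lf (nat_lit 0) (nat_lit 3908938079) (nat_lit 152) (nat_lit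 7041249031) (nat_lit 76) (nat_lit 19791268358) (nat_lit 10) (nat_lit 5) (nat_lit 12) (nat_lit 5) (nat_lit 11) (nat_lit 4) (nat_lit 363) (nat_lit 232) (nat_lit 185)) (XT.lf (nat_lit 0) (nat_lit 6814968003) (nat_lit 152) (nat_lit 1286835919) (nat_lit 76) (nat_lit 23458659522) (nat_lit 10) (nat_lit 5) (nat_lit 12) (nat_lit 5) (nat_lit 11) (nat_lit 4) (nat_lit 364) (nat_lit 232) (nat_lit 184))))))))
noncomputable def xc42 : XT := (XT.nd (nat_lit 1794) (nat_lit 152) (nat_lit 0) (XT.nd (nat_lit 858) (nat_lit 152) (nat_lit 0) (XT.nd (nat_lit 390) (nat_lit 152) (nat_lit 0) (XT.nd (nat_lit 156) (nat_lit 0) (nat_lit 0) (XT.nd (nat_lit 78) (nat_lit 0) (nat_lit 0) (XT.lf (nat_lit 0) (nat_lit 4674236123) (nat_lit 76) (nat_lit 5146486262) (nat_lit 152) (nat_lit 22582963518) (nat_lit 9) (nat_lit 5) (nat_lit 10) (nat_lit 5) (nat_lit 11) (nat_lit 4) (nat_lit 365) (nat_lit 232) (nat_lit 183)) (XT.lf (nat_lit 0)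 (nat_lit 10783895191) (nat_lit 76) (nat_lit 2113759708) (nat_lit 152) (nat_lit 20375139924) (nat_lit 9) (nat_lit 5) (nat_lit 10) (nat_lit 5) (nat_lit 11) (nat_lit 4) (nat_lit 366) (nat_lit 232) (nat_lit 182))) (XT.nd (nat_lit 78) (nat_lit 0) (nat_lit 0) (XT.lf (nat_lit 0) (nat_lit 16045316423) (nat_lit 152) (nat_lit 17156537175) (nat_lit 0) (nat_lit 966790153) (nat_lit 9) (nat_lit 5) (nat_lit 11) (nat_lit 4) (nat_lit 9) (nat_lit 4) (nat_lit 367) (nat_lit 232) (nat_lit 181)) (XT.nd (nat_lit 78) (nat_lit 0) (nat_lit 0) (XT.lf (nat_lit 0) (nat_lit 19277960173) (nat_lit 152) (nat_lit 11739205894) (nat_lit 0) (nat_lit 4074504315) (nat_lit 9) (nat_lit 5) (nat_lit 11) (nat_lit 4) (nat_lit 9) (nat_lit 4) (nat_lit 368) (nat_lit 232) (nat_lit 180)) (XT.lf (nat_lit 0) (nat_lit 22578092040) (nat_lit 152) (nat_lit 6211853449) (nat_lit 0) (nat_lit 7253345318) (nat_lit 9) (nat_lit 5) (nat_lit 11) (nat_lit 4)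 (nat_lit 9) (nat_lit 4) (nat_lit 369) (nat_lit 232) (nat_lit 179))))) (XT.nd (nat_lit 234) (nat_lit 76) (nat_lit 0) (XT.nd (nat_lit 78) (nat_lit 76) (nat_lit 0) (XT.lf (nat_lit 0) (nat_lit 25948595633) (nat_lit 152) (nat_lit 569650114) (nat_lit 0) (nat_lit 10506090791) (nat_lit 9) (nat_lit 5) (nat_lit 11) (nat_lit 4) (nat_lit 9) (nat_lit 4) (nat_lit 370) (nat_lit 232) (nat_lit 178)) (XT.nd (nat_lit 78) (nat_lit 0) (nat_lit 0) (XT.lf (nat_lit 0) (nat_lit 5295671821) (nat_lit 76) (nat_lit 24147649469) (nat_lit 76) (nat_lit 8590816355) (nat_lit 8) (nat_lit 4) (nat_lit 9) (nat_lit 5) (nat_lit 9) (nat_lit 4) (nat_lit 371) (nat_lit 232) (nat_lit 177)) (XT.lf (nat_lit 0) (nat_lit 11299630704) (nat_lit 76) (nat_lit 21721550722) (nat_lit 76) (nat_lit 6053719286) (nat_lit 8) (nat_lit 4) (nat_lit 9) (nat_lit 5) (nat_lit 9) (nat_lit 4) (nat_lit 372) (nat_lit 232) (nat_lit 176)))) (XT.nd (nat_lit 78) (nat_lit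 76) (nat_lit 0) (XT.lf (nat_lit 0) (nat_lit 17436135556) (nat_lit 76) (nat_lit 19243581966) (nat_lit 76) (nat_lit 3467985169) (nat_lit 8) (nat_lit 4) (nat_lit 9) (nat_lit 5) (nat_lit 9) (nat_lit 4) (nat_lit 373) (nat_lit 232) (nat_lit 175)) (XT.nd (nat_lit 78) (nat_lit 76) (nat_lit 0) (XT.lf (nat_lit 0) (nat_lit 23710548371) (nat_lit 76) (nat_lit 16711577984) (nat_lit 76) (nat_lit 831354623) (nat_lit 8) (nat_lit 4) (nat_lit 9) (nat_lit 5) (nat_lit 9) (nat_lit 4) (nat_lit 374) (nat_lit 232) (nat_lit 174)) (XT.lf (nat_lit 0) (nat_lit 1822210638) (nat_lit 152) (nat_lit 12282714954) (nat_lit 76) (nat_lit 28287740254) (nat_lit 7) (nat_lit 5) (nat_lit 9) (nat_lit 5) (nat_lit 8) (nat_lit 4) (nat_lit 375) (nat_lit 232) (nat_lit 173)))))) (XT.nd (nat_lit 468) (nat_lit 76) (nat_lit 0) (XT.nd (nat_lit 234) (nat_lit 0) (nat_lit 0) (XT.nd (nat_lit 78) (nat_lit 76) (nat_lit 0) (XT.lf (nat_lit 0) (nat_lit 4514019801)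 (nat_lit 152) (nat_lit 6916962924) (nat_lit 76) (nat_lit 32135550620) (nat_lit 7) (nat_lit 5) (nat_lit 9) (nat_lit 5) (nat_lit 8) (nat_lit 4) (nat_lit 376) (nat_lit 232) (nat_lit 172)) (XT.nd (nat_lit 78) (nat_lit 76) (nat_lit 0) (XT.lf (nat_lit 0) (nat_lit 7262647656) (nat_lit 152) (nat_lit 1432996506) (nat_lit 76) (nat_lit 36080704770) (nat_lit 7) (nat_lit 5) (nat_lit 9) (nat_lit 5) (nat_lit 8) (nat_lit 4) (nat_lit 377) (nat_lit 232) (nat_lit 171)) (XT.lf (nat_lit 0) (nat_lit 4257046423) (nat_lit 76) (nat_lit 5854370827) (nat_lit 152) (nat_lit 35910524835) (nat_lit 6) (nat_lit 5) (nat_lit 7) (nat_lit 5) (nat_lit 8) (nat_lit 4) (nat_lit 378) (nat_lit 232) (nat_lit 170)))) (XT.nd (nat_lit 78) (nat_lit 0) (nat_lit 0) (XT.lf (nat_lit 0) (nat_lit 10106059863) (nat_lit 76) (nat_lit 2931103808) (nat_lit 152) (nat_lit 34268007141) (nat_lit 6) (nat_lit 5) (nat_lit 7) (nat_lit 5) (nat_lit 8) (nat_lit 4)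 (nat_lit 379) (nat_lit 232) (nat_lit 169)) (XT.nd (nat_lit 78) (nat_lit 0) (nat_lit 0) (XT.lf (nat_lit 0) (nat_lit 16028992705) (nat_lit 152) (nat_lit 32537540985) (nat_lit 0) (nat_lit 61026210) (nat_lit 6) (nat_lit 5) (nat_lit 8) (nat_lit 4) (nat_lit 6) (nat_lit 4) (nat_lit 380) (nat_lit 232) (nat_lit 168)) (XT.lf (nat_lit 0) (nat_lit 19117794087) (nat_lit 152) (nat_lit 27804388068) (nat_lit 0) (nat_lit 3067234416) (nat_lit 6) (nat_lit 5) (nat_lit 8) (nat_lit 4) (nat_lit 6) (nat_lit 4) (nat_lit 381) (nat_lit 232) (nat_lit 167))))) (XT.nd (nat_lit 234) (nat_lit 76) (nat_lit 0) (XT.nd (nat_lit 78) (nat_lit 0) (nat_lit 0) (XT.lf (nat_lit 0) (nat_lit 22278091207) (nat_lit 152) (nat_lit 22967340869) (nat_lit 0) (nat_lit 6147343986) (nat_lit 6) (nat_lit 5) (nat_lit 8) (nat_lit 4) (nat_lit 6) (nat_lit 4) (nat_lit 382) (nat_lit 232) (nat_lit 166)) (XT.nd (nat_lit 78) (nat_lit 0) (nat_lit 0) (XT.lf (nat_lit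 0) (nat_lit 25512645488) (nat_lit 152) (nat_lit 18022172844) (nat_lit 0) (nat_lit 9304046277) (nat_lit 6) (nat_lit 5) (nat_lit 8) (nat_lit 4) (nat_lit 6) (nat_lit 4) (nat_lit 383) (nat_lit 232) (nat_lit 165)) (XT.lf (nat_lit 0) (nat_lit 28824283242) (nat_lit 152) (nat_lit 12964562970) (nat_lit 0) (nat_lit 12540099575) (nat_lit 6) (nat_lit 5) (nat_lit 8) (nat_lit 4) (nat_lit 6) (nat_lit 4) (nat_lit 384) (nat_lit 232) (nat_lit 164)))) (XT.nd (nat_lit 78) (nat_lit 76) (nat_lit 0) (XT.lf (nat_lit 0) (nat_lit 32215898131) (nat_lit 152) (nat_lit 7790091979) (nat_lit 0) (nat_lit 15858331497) (nat_lit 6) (nat_lit 5) (nat_lit 8) (nat_lit 4) (nat_lit 6) (nat_lit 4) (nat_lit 385) (nat_lit 232) (nat_lit 163)) (XT.nd (nat_lit 78) (nat_lit 76) (nat_lit 0) (XT.lf (nat_lit 0) (nat_lit 35690453703) (nat_lit 152) (nat_lit 2494238486) (nat_lit 0) (nat_lit 19261641470) (nat_lit 6) (nat_lit 5) (nat_lit 8) (nat_lit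 4) (nat_lit 6) (nat_lit 4) (nat_lit 386) (nat_lit 232) (nat_lit 162)) (XT.lf (nat_lit 0) (nat_lit 2985890428) (nat_lit 76) (nat_lit 36293797754) (nat_lit 76) (nat_lit 19795815036) (nat_lit 5) (nat_lit 4) (nat_lit 6) (nat_lit 5) (nat_lit 6) (nat_lit 4) (nat_lit 387) (nat_lit 232) (nat_lit 161))))))) (XT.nd (nat_lit 936) (nat_lit 76) (nat_lit 0) (XT.nd (nat_lit 468) (nat_lit 76) (nat_lit 0) (XT.nd (nat_lit 234) (nat_lit 0) (nat_lit 0) (XT.nd (nat_lit 78) (nat_lit 0) (nat_lit 0) (XT.lf (nat_lit 0) (nat_lit 8649009208) (nat_lit 76) (nat_lit 34334736458) (nat_lit 76) (nat_lit 17769597930) (nat_lit 5) (nat_lit 4) (nat_lit 6) (nat_lit 5) (nat_lit 6) (nat_lit 4) (nat_lit 388) (nat_lit 232) (nat_lit 160)) (XT.nd (nat_lit 78) (nat_lit 0) (nat_lit 0) (XT.lf (nat_lit 0) (nat_lit 14450425971) (nat_lit 76) (nat_lit 32330983418) (nat_lit 76) (nat_lit 15700645074) (nat_lit 5) (nat_lit 4) (nat_lit 6) (nat_lit 5)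 (nat_lit 6) (nat_lit 4) (nat_lit 389) (nat_lit 232) (nat_lit 159)) (XT.lf (nat_lit 0) (nat_lit 20395209918) (nat_lit 76) (nat_lit 30280787782) (nat_lit 76) (nat_lit 13587148646) (nat_lit 5) (nat_lit 4) (nat_lit 6) (nat_lit 5) (nat_lit 6) (nat_lit 4) (nat_lit 390) (nat_lit 232) (nat_lit 158)))) (XT.nd (nat_lit 78) (nat_lit 0) (nat_lit 0) (XT.lf (nat_lit 0) (nat_lit 26488555519) (nat_lit 76) (nat_lit 28182358118) (nat_lit 76) (nat_lit 11427261902) (nat_lit 5) (nat_lit 4) (nat_lit 6) (nat_lit 5) (nat_lit 6) (nat_lit 4) (nat_lit 391) (nat_lit 232) (nat_lit 157)) (XT.nd (nat_lit 78) (nat_lit 0) (nat_lit 0) (XT.lf (nat_lit 0) (nat_lit 32735787057) (nat_lit 76) (nat_lit 26033860845) (nat_lit 76) (nat_lit 9219097561) (nat_lit 5) (nat_lit 4) (nat_lit 6) (nat_lit 5) (nat_lit 6) (nat_lit 4) (nat_lit 392) (nat_lit 232) (nat_lit 156)) (XT.lf (nat_lit 0) (nat_lit 39142363279) (nat_lit 76) (nat_lit 23833418635)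 (nat_lit 76) (nat_lit 6960726160) (nat_lit 5) (nat_lit 4) (nat_lit 6) (nat_lit 5) (nat_lit 6) (nat_lit 4) (nat_lit 393) (nat_lit 232) (nat_lit 155))))) (XT.nd (nat_lit 234) (nat_lit 0) (nat_lit 0) (XT.nd (nat_lit 78) (nat_lit 76) (nat_lit 0) (XT.lf (nat_lit 0) (nat_lit 45713882162) (nat_lit 76) (nat_lit 21579108774) (nat_lit 76) (nat_lit 4650174364) (nat_lit 5) (nat_lit 4) (nat_lit 6) (nat_lit 5) (nat_lit 6) (nat_lit 4) (nat_lit 394) (nat_lit 232) (nat_lit 154)) (XT.nd (nat_lit 78) (nat_lit 76) (nat_lit 0) (XT.lf (nat_lit 0) (nat_lit 52456085812) (nat_lit 76) (nat_lit 19268961474) (nat_lit 76) (nat_lit 2285423246) (nat_lit 5) (nat_lit 4) (nat_lit 6) (nat_lit 5) (nat_lit 6) (nat_lit 4) (nat_lit 395) (nat_lit 232) (nat_lit 153)) (XT.lf (nat_lit 0) (nat_lit 132947565) (nat_lit 152) (nat_lit 16766668086) (nat_lit 76) (nat_lit 59240575398) (nat_lit 4) (nat_lit 5) (nat_lit 6) (nat_lit 5) (nat_lit 5)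 (nat_lit 4) (nat_lit 396) (nat_lit 232) (nat_lit 152)))) (XT.nd (nat_lit 78) (nat_lit 0) (nat_lit 0) (XT.lf (nat_lit 0) (nat_lit 2563963376) (nat_lit 152) (nat_lit 11883175328) (nat_lit 76) (nat_lit 63886412305) (nat_lit 4) (nat_lit 5) (nat_lit 6) (nat_lit 5) (nat_lit 5) (nat_lit 4) (nat_lit 397) (nat_lit 232) (nat_lit 151)) (XT.nd (nat_lit 78) (nat_lit 0) (nat_lit 0) (XT.lf (nat_lit 0) (nat_lit 5054345212) (nat_lit 152) (nat_lit 6877670430) (nat_lit 76) (nat_lit 68661110360) (nat_lit 4) (nat_lit 5) (nat_lit 6) (nat_lit 5) (nat_lit 5) (nat_lit 4) (nat_lit 398) (nat_lit 232) (nat_lit 150)) (XT.lf (nat_lit 0) (nat_lit 7606269136) (nat_lit 152) (nat_lit 1745779651) (nat_lit 76) (nat_lit 73568841631) (nat_lit 4) (nat_lit 5) (nat_lit 6) (nat_lit 5) (nat_lit 5) (nat_lit 4) (nat_lit 399) (nat_lit 232) (nat_lit 149)))))) (XT.nd (nat_lit 34086) (nat_lit 0) (nat_lit 3268) (XT.nd (nat_lit 234) (nat_lit 0)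 (nat_lit 0) (XT.nd (nat_lit 78) (nat_lit 0) (nat_lit 0) (XT.lf (nat_lit 0) (nat_lit 3586976007) (nat_lit 76) (nat_lit 6669469184) (nat_lit 152) (nat_lit 75061398627) (nat_lit 3) (nat_lit 5) (nat_lit 4) (nat_lit 5) (nat_lit 5) (nat_lit 4) (nat_lit 400) (nat_lit 232) (nat_lit 148)) (XT.nd (nat_lit 78) (nat_lit 0) (nat_lit 0) (XT.lf (nat_lit 0) (nat_lit 9092640782) (nat_lit 76) (nat_lit 3898481559) (nat_lit 152) (nat_lit 74795440288) (nat_lit 3) (nat_lit 5) (nat_lit 4) (nat_lit 5) (nat_lit 5) (nat_lit 4) (nat_lit 401) (nat_lit 232) (nat_lit 147)) (XT.lf (nat_lit 0) (nat_lit 14741281009) (nat_lit 76) (nat_lit 1054293612) (nat_lit 152) (nat_lit 74534142828) (nat_lit 3) (nat_lit 5) (nat_lit 4) (nat_lit 5) (nat_lit 5) (nat_lit 4) (nat_lit 402) (nat_lit 232) (nat_lit 146)))) (XT.nd (nat_lit 33696) (nat_lit 0) (nat_lit 4104) (XT.lf (nat_lit 0) (nat_lit 18690185620) (nat_lit 152) (nat_lit 72429631153) (nat_lit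 0) (nat_lit 1829175685) (nat_lit 3) (nat_lit 5) (nat_lit 5) (nat_lit 4) (nat_lit 3) (nat_lit 4) (nat_lit 403) (nat_lit 232) (nat_lit 145)) (XT.nd (nat_lit 78) (nat_lit 228) (nat_lit 0) (XT.lf (nat_lit 0) (nat_lit 1598323106) (nat_lit 304) (nat_lit 1994519437) (nat_lit 0) (nat_lit 1598323106) (nat_lit 60) (nat_lit 5) (nat_lit 64) (nat_lit 4) (nat_lit 60) (nat_lit 4) (nat_lit 314) (nat_lit 233) (nat_lit 233)) (XT.lf (nat_lit 0) (nat_lit 2394410041) (nat_lit 228) (nat_lit 4471507561) (nat_lit 228) (nat_lit 3690647439) (nat_lit 57) (nat_lit 4) (nat_lit 60) (nat_lit 5) (nat_lit 60) (nat_lit 4) (nat_lit 315) (nat_lit 233) (nat_lit 232))))) (XT.nd (nat_lit 234) (nat_lit 304) (nat_lit 0) (XT.nd (nat_lit 78) (nat_lit 532) (nat_lit 0) (XT.lf (nat_lit 0) (nat_lit 8923898616) (nat_lit 228) (nat_lit 1676285273) (nat_lit 228) (nat_lit 137308528) (nat_lit 57) (nat_lit 4) (nat_lit 60) (nat_lit 5) (nat_lit 60)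 (nat_lit 4) (nat_lit 316) (nat_lit 233) (nat_lit 231)) (XT.nd (nat_lit 78) (nat_lit 228) (nat_lit 0) (XT.lf (nat_lit 0) (nat_lit 3426792586) (nat_lit 304) (nat_lit 6278916938) (nat_lit 0) (nat_lit 1218042778) (nat_lit 53) (nat_lit 5) (nat_lit 57) (nat_lit 4) (nat_lit 53) (nat_lit 4) (nat_lit 317) (nat_lit 233) (nat_lit 230)) (XT.lf (nat_lit 0) (nat_lit 76235172) (nat_lit 228) (nat_lit 6971688194) (nat_lit 228) (nat_lit 4069154282) (nat_lit 50) (nat_lit 4) (nat_lit 53) (nat_lit 5) (nat_lit 53) (nat_lit 4) (nat_lit 318) (nat_lit 233) (nat_lit 229)))) (XT.nd (nat_lit 78) (nat_lit 304) (nat_lit 0) (XT.lf (nat_lit 0) (nat_lit 6625732836) (nat_lit 228) (nat_lit 4133616103) (nat_lit 228) (nat_lit 557505390) (nat_lit 50) (nat_lit 4) (nat_lit 53) (nat_lit 5) (nat_lit 53) (nat_lit 4) (nat_lit 319) (nat_lit 233) (nat_lit 228)) (XT.nd (nat_lit 78) (nat_lit 0) (nat_lit 0) (XT.lf (nat_lit 0) (nat_lit 1730375365)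 (nat_lit 228) (nat_lit 1205804012) (nat_lit 304) (nat_lit 8587566576) (nat_lit 46) (nat_lit 5) (nat_lit 49) (nat_lit 5) (nat_lit 50) (nat_lit 4) (nat_lit 320) (nat_lit 233) (nat_lit 227)) (XT.lf (nat_lit 0) (nat_lit 6509216069) (nat_lit 304) (nat_lit 3442048062) (nat_lit 0) (nat_lit 1785934993) (nat_lit 46) (nat_lit 5) (nat_lit 50) (nat_lit 4) (nat_lit 46) (nat_lit 4) (nat_lit 321) (nat_lit 233) (nat_lit 226))))))))
noncomputable def xc43 : XT := (XT.nd (nat_lit 1794) (nat_lit 836) (nat_lit 0) (XT.nd (nat_lit 858) (nat_lit 684) (nat_lit 0) (XT.nd (nat_lit 390) (nat_lit 608) (nat_lit 0) (XT.nd (nat_lit 156) (nat_lit 380) (nat_lit 0) (XT.nd (nat_lit 78) (nat_lit 76) (nat_lit 0) (XT.lf (nat_lit 0) (nat_lit 3026625955) (nat_lit 228) (nat_lit 7126674830) (nat_lit 228) (nat_lit 1804929491) (nat_lit 43) (nat_lit 4) (nat_lit 46) (nat_lit 5) (nat_lit 46) (nat_lit 4) (nat_lit 322) (nat_lit 233) (nat_lit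 225)) (XT.lf (nat_lit 0) (nat_lit 1645426650) (nat_lit 304) (nat_lit 2562562503) (nat_lit 76) (nat_lit 7978746176) (nat_lit 42) (nat_lit 5) (nat_lit 46) (nat_lit 5) (nat_lit 43) (nat_lit 4) (nat_lit 323) (nat_lit 233) (nat_lit 224))) (XT.nd (nat_lit 78) (nat_lit 228) (nat_lit 0) (XT.lf (nat_lit 0) (nat_lit 3939321188) (nat_lit 152) (nat_lit 1186890515) (nat_lit 228) (nat_lit 7296534294) (nat_lit 40) (nat_lit 5) (nat_lit 42) (nat_lit 5) (nat_lit 43) (nat_lit 4) (nat_lit 324) (nat_lit 233) (nat_lit 223)) (XT.nd (nat_lit 78) (nat_lit 228) (nat_lit 0) (XT.lf (nat_lit 0) (nat_lit 8682035330) (nat_lit 228) (nat_lit 2112988260) (nat_lit 0) (nat_lit 1871774991) (nat_lit 40) (nat_lit 5) (nat_lit 43) (nat_lit 4) (nat_lit 40) (nat_lit 4) (nat_lit 325) (nat_lit 233) (nat_lit 222)) (XT.lf (nat_lit 0) (nat_lit 4408307649) (nat_lit 228) (nat_lit 7918487910) (nat_lit 228) (nat_lit 591987040) (nat_lit 37) (nat_lit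 4) (nat_lit 40) (nat_lit 5) (nat_lit 40) (nat_lit 4) (nat_lit 326) (nat_lit 233) (nat_lit 221))))) (XT.nd (nat_lit 234) (nat_lit 380) (nat_lit 0) (XT.nd (nat_lit 78) (nat_lit 152) (nat_lit 0) (XT.lf (nat_lit 0) (nat_lit 2795843748) (nat_lit 304) (nat_lit 2152142458) (nat_lit 76) (nat_lit 8231078818) (nat_lit 36) (nat_lit 5) (nat_lit 40) (nat_lit 5) (nat_lit 37) (nat_lit 4) (nat_lit 327) (nat_lit 233) (nat_lit 220)) (XT.nd (nat_lit 78) (nat_lit 0) (nat_lit 0) (XT.lf (nat_lit 0) (nat_lit 4364695807) (nat_lit 152) (nat_lit 1881120590) (nat_lit 228) (nat_lit 7202062648) (nat_lit 34) (nat_lit 5) (nat_lit 36) (nat_lit 5) (nat_lit 37) (nat_lit 4) (nat_lit 328) (nat_lit 233) (nat_lit 219)) (XT.lf (nat_lit 0) (nat_lit 9764528936) (nat_lit 228) (nat_lit 2727631536) (nat_lit 0) (nat_lit 1233708843) (nat_lit 34) (nat_lit 5) (nat_lit 37) (nat_lit 4) (nat_lit 34) (nat_lit 4) (nat_lit 329) (nat_lit 233) (nat_lit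 218)))) (XT.nd (nat_lit 78) (nat_lit 228) (nat_lit 0) (XT.lf (nat_lit 0) (nat_lit 3764503941) (nat_lit 152) (nat_lit 9612130574) (nat_lit 152) (nat_lit 635996864) (nat_lit 32) (nat_lit 4) (nat_lit 34) (nat_lit 5) (nat_lit 34) (nat_lit 4) (nat_lit 330) (nat_lit 233) (nat_lit 217)) (XT.nd (nat_lit 78) (nat_lit 152) (nat_lit 0) (XT.lf (nat_lit 0) (nat_lit 2695714098) (nat_lit 228) (nat_lit 3936177406) (nat_lit 76) (nat_lit 7676532692) (nat_lit 31) (nat_lit 5) (nat_lit 34) (nat_lit 5) (nat_lit 32) (nat_lit 4) (nat_lit 331) (nat_lit 233) (nat_lit 216)) (XT.lf (nat_lit 0) (nat_lit 2501589582) (nat_lit 152) (nat_lit 3572212093) (nat_lit 228) (nat_lit 8540385316) (nat_lit 29) (nat_lit 5) (nat_lit 31) (nat_lit 5) (nat_lit 32) (nat_lit 4) (nat_lit 332) (nat_lit 233) (nat_lit 215)))))) (XT.nd (nat_lit 468) (nat_lit 304) (nat_lit 0) (XT.nd (nat_lit 234) (nat_lit 152) (nat_lit 0) (XT.nd (nat_lit 78) (nat_lit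 228) (nat_lit 0) (XT.lf (nat_lit 0) (nat_lit 9108157590) (nat_lit 152) (nat_lit 420862336) (nat_lit 228) (nat_lit 5400888664) (nat_lit 29) (nat_lit 5) (nat_lit 31) (nat_lit 5) (nat_lit 32) (nat_lit 4) (nat_lit 333) (nat_lit 233) (nat_lit 214)) (XT.nd (nat_lit 78) (nat_lit 76) (nat_lit 0) (XT.lf (nat_lit 0) (nat_lit 537658079) (nat_lit 152) (nat_lit 12520080916) (nat_lit 152) (nat_lit 2198325341) (nat_lit 27) (nat_lit 4) (nat_lit 29) (nat_lit 5) (nat_lit 29) (nat_lit 4) (nat_lit 334) (nat_lit 233) (nat_lit 213)) (XT.lf (nat_lit 0) (nat_lit 1080070406) (nat_lit 228) (nat_lit 8502155792) (nat_lit 76) (nat_lit 6009478957) (nat_lit 26) (nat_lit 5) (nat_lit 29) (nat_lit 5) (nat_lit 27) (nat_lit 4) (nat_lit 335) (nat_lit 233) (nat_lit 212)))) (XT.nd (nat_lit 78) (nat_lit 152) (nat_lit 0) (XT.lf (nat_lit 0) (nat_lit 4352138083) (nat_lit 228) (nat_lit 2221939130) (nat_lit 76) (nat_lit 9364552812) (nat_lit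 26) (nat_lit 5) (nat_lit 29) (nat_lit 5) (nat_lit 27) (nat_lit 4) (nat_lit 336) (nat_lit 233) (nat_lit 211)) (XT.nd (nat_lit 78) (nat_lit 0) (nat_lit 0) (XT.lf (nat_lit 0) (nat_lit 4231433452) (nat_lit 152) (nat_lit 3472875696) (nat_lit 228) (nat_lit 8592246629) (nat_lit 24) (nat_lit 5) (nat_lit 26) (nat_lit 5) (nat_lit 27) (nat_lit 4) (nat_lit 337) (nat_lit 233) (nat_lit 210)) (XT.lf (nat_lit 0) (nat_lit 10827092730) (nat_lit 152) (nat_lit 294435672) (nat_lit 228) (nat_lit 5544806292) (nat_lit 24) (nat_lit 5) (nat_lit 26) (nat_lit 5) (nat_lit 27) (nat_lit 4) (nat_lit 338) (nat_lit 233) (nat_lit 209))))) (XT.nd (nat_lit 234) (nat_lit 76) (nat_lit 0) (XT.nd (nat_lit 78) (nat_lit 76) (nat_lit 0) (XT.lf (nat_lit 0) (nat_lit 458304438) (nat_lit 152) (nat_lit 14159375405) (nat_lit 152) (nat_lit 2430283095) (nat_lit 22) (nat_lit 4) (nat_lit 24) (nat_lit 5) (nat_lit 24) (nat_lit 4) (nat_lit 339) (nat_lit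 233) (nat_lit 208)) (XT.nd (nat_lit 78) (nat_lit 0) (nat_lit 0) (XT.lf (nat_lit 0) (nat_lit 768476912) (nat_lit 228) (nat_lit 10481418188) (nat_lit 76) (nat_lit 6190787023) (nat_lit 21) (nat_lit 5) (nat_lit 24) (nat_lit 5) (nat_lit 22) (nat_lit 4) (nat_lit 340) (nat_lit 233) (nat_lit 207)) (XT.lf (nat_lit 0) (nat_lit 3959511166) (nat_lit 228) (nat_lit 4306855556) (nat_lit 76) (nat_lit 9579783882) (nat_lit 21) (nat_lit 5) (nat_lit 24) (nat_lit 5) (nat_lit 22) (nat_lit 4) (nat_lit 341) (nat_lit 233) (nat_lit 206)))) (XT.nd (nat_lit 78) (nat_lit 0) (nat_lit 0) (XT.lf (nat_lit 0) (nat_lit 2001849300) (nat_lit 76) (nat_lit 5210425224) (nat_lit 152) (nat_lit 11052571702) (nat_lit 20) (nat_lit 5) (nat_lit 21) (nat_lit 5) (nat_lit 22) (nat_lit 4) (nat_lit 342) (nat_lit 233) (nat_lit 205)) (XT.nd (nat_lit 78) (nat_lit 0) (nat_lit 0) (XT.lf (nat_lit 0) (nat_lit 8498827577) (nat_lit 76) (nat_lit 2054731746)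 (nat_lit 152) (nat_lit 8142857013) (nat_lit 20) (nat_lit 5) (nat_lit 21) (nat_lit 5) (nat_lit 22) (nat_lit 4) (nat_lit 343) (nat_lit 233) (nat_lit 204)) (XT.lf (nat_lit 0) (nat_lit 13955211499) (nat_lit 152) (nat_lit 4049613822) (nat_lit 0) (nat_lit 1137344922) (nat_lit 20) (nat_lit 5) (nat_lit 22) (nat_lit 4) (nat_lit 20) (nat_lit 4) (nat_lit 344) (nat_lit 233) (nat_lit 203))))))) (XT.nd (nat_lit 936) (nat_lit 228) (nat_lit 0) (XT.nd (nat_lit 468) (nat_lit 304) (nat_lit 0) (XT.nd (nat_lit 234) (nat_lit 76) (nat_lit 0) (XT.nd (nat_lit 78) (nat_lit 76) (nat_lit 0) (XT.lf (nat_lit 0) (nat_lit 2220443268) (nat_lit 152) (nat_lit 15230289837) (nat_lit 152) (nat_lit 2150848443) (nat_lit 18) (nat_lit 4) (nat_lit 20) (nat_lit 5) (nat_lit 20) (nat_lit 4) (nat_lit 345) (nat_lit 233) (nat_lit 202)) (XT.nd (nat_lit 78) (nat_lit 0) (nat_lit 0) (XT.lf (nat_lit 0) (nat_lit 948838191) (nat_lit 228) (nat_lit 11407255997)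 (nat_lit 76) (nat_lit 7718690215) (nat_lit 17) (nat_lit 5) (nat_lit 20) (nat_lit 5) (nat_lit 18) (nat_lit 4) (nat_lit 346) (nat_lit 233) (nat_lit 201)) (XT.lf (nat_lit 0) (nat_lit 4049981612) (nat_lit 228) (nat_lit 5358494205) (nat_lit 76) (nat_lit 11154553812) (nat_lit 17) (nat_lit 5) (nat_lit 20) (nat_lit 5) (nat_lit 18) (nat_lit 4) (nat_lit 347) (nat_lit 233) (nat_lit 200)))) (XT.nd (nat_lit 78) (nat_lit 0) (nat_lit 0) (XT.lf (nat_lit 0) (nat_lit 806852287) (nat_lit 76) (nat_lit 6398166027) (nat_lit 152) (nat_lit 13862113115) (nat_lit 16) (nat_lit 5) (nat_lit 17) (nat_lit 5) (nat_lit 18) (nat_lit 4) (nat_lit 348) (nat_lit 233) (nat_lit 199)) (XT.nd (nat_lit 78) (nat_lit 0) (nat_lit 0) (XT.lf (nat_lit 0) (nat_lit 7187170722) (nat_lit 76) (nat_lit 3275347233) (nat_lit 152) (nat_lit 11123637939) (nat_lit 16) (nat_lit 5) (nat_lit 17) (nat_lit 5) (nat_lit 18) (nat_lit 4) (nat_lit 349) (nat_lit 233)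 (nat_lit 198)) (XT.lf (nat_lit 0) (nat_lit 13681391595) (nat_lit 76) (nat_lit 91401044) (nat_lit 152) (nat_lit 8349339931) (nat_lit 16) (nat_lit 5) (nat_lit 17) (nat_lit 5) (nat_lit 18) (nat_lit 4) (nat_lit 350) (nat_lit 233) (nat_lit 197))))) (XT.nd (nat_lit 234) (nat_lit 76) (nat_lit 0) (XT.nd (nat_lit 78) (nat_lit 228) (nat_lit 0) (XT.lf (nat_lit 0) (nat_lit 17169076611) (nat_lit 152) (nat_lit 2410682092) (nat_lit 0) (nat_lit 3094860830) (nat_lit 16) (nat_lit 5) (nat_lit 18) (nat_lit 4) (nat_lit 16) (nat_lit 4) (nat_lit 351) (nat_lit 233) (nat_lit 196)) (XT.nd (nat_lit 78) (nat_lit 76) (nat_lit 0) (XT.lf (nat_lit 0) (nat_lit 3799449471) (nat_lit 152) (nat_lit 16862562593) (nat_lit 152) (nat_lit 2581857235) (nat_lit 14) (nat_lit 4) (nat_lit 16) (nat_lit 5) (nat_lit 16) (nat_lit 4) (nat_lit 352) (nat_lit 233) (nat_lit 195)) (XT.lf (nat_lit 0) (nat_lit 403167712) (nat_lit 228) (nat_lit 13662750217)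 (nat_lit 76) (nat_lit 9764723745) (nat_lit 13) (nat_lit 5) (nat_lit 16) (nat_lit 5) (nat_lit 14) (nat_lit 4) (nat_lit 353) (nat_lit 233) (nat_lit 194)))) (XT.nd (nat_lit 78) (nat_lit 76) (nat_lit 0) (XT.lf (nat_lit 0) (nat_lit 3384517004) (nat_lit 228) (nat_lit 7805247384) (nat_lit 76) (nat_lit 13245754399) (nat_lit 13) (nat_lit 5) (nat_lit 16) (nat_lit 5) (nat_lit 14) (nat_lit 4) (nat_lit 354) (nat_lit 233) (nat_lit 193)) (XT.nd (nat_lit 78) (nat_lit 76) (nat_lit 0) (XT.lf (nat_lit 0) (nat_lit 6415177036) (nat_lit 228) (nat_lit 1841974731) (nat_lit 76) (nat_lit 16802621956) (nat_lit 13) (nat_lit 5) (nat_lit 16) (nat_lit 5) (nat_lit 14) (nat_lit 4) (nat_lit 355) (nat_lit 233) (nat_lit 192)) (XT.lf (nat_lit 0) (nat_lit 4316509005) (nat_lit 76) (nat_lit 5222779879) (nat_lit 152) (nat_lit 16163418279) (nat_lit 12) (nat_lit 5) (nat_lit 13) (nat_lit 5) (nat_lit 14) (nat_lit 4) (nat_lit 356) (nat_lit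 233) (nat_lit 191)))))) (XT.nd (nat_lit 468) (nat_lit 152) (nat_lit 0) (XT.nd (nat_lit 234) (nat_lit 76) (nat_lit 0) (XT.nd (nat_lit 78) (nat_lit 0) (nat_lit 0) (XT.lf (nat_lit 0) (nat_lit 10630254057) (nat_lit 76) (nat_lit 2106997770) (nat_lit 152) (nat_lit 13628298979) (nat_lit 12) (nat_lit 5) (nat_lit 13) (nat_lit 5) (nat_lit 14) (nat_lit 4) (nat_lit 357) (nat_lit 233) (nat_lit 190)) (XT.nd (nat_lit 78) (nat_lit 0) (nat_lit 0) (XT.lf (nat_lit 0) (nat_lit 16004128616) (nat_lit 152) (nat_lit 9991634204) (nat_lit 0) (nat_lit 1053352964) (nat_lit 12) (nat_lit 5) (nat_lit 14) (nat_lit 4) (nat_lit 12) (nat_lit 4) (nat_lit 358) (nat_lit 233) (nat_lit 189)) (XT.lf (nat_lit 0) (nat_lit 19353348200) (nat_lit 152) (nat_lit 4160766186) (nat_lit 0) (nat_lit 4239567770) (nat_lit 12) (nat_lit 5) (nat_lit 14) (nat_lit 4) (nat_lit 12) (nat_lit 4) (nat_lit 359) (nat_lit 233) (nat_lit 188)))) (XT.nd (nat_lit 78)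 (nat_lit 0) (nat_lit 0) (XT.lf (nat_lit 0) (nat_lit 1818134340) (nat_lit 76) (nat_lit 20966926009) (nat_lit 76) (nat_lit 5694888513) (nat_lit 11) (nat_lit 4) (nat_lit 12) (nat_lit 5) (nat_lit 12) (nat_lit 4) (nat_lit 360) (nat_lit 233) (nat_lit 187)) (XT.nd (nat_lit 78) (nat_lit 0) (nat_lit 0) (XT.lf (nat_lit 0) (nat_lit 7999933116) (nat_lit 76) (nat_lit 18326784453) (nat_lit 76) (nat_lit 2901099320) (nat_lit 11) (nat_lit 4) (nat_lit 12) (nat_lit 5) (nat_lit 12) (nat_lit 4) (nat_lit 361) (nat_lit 233) (nat_lit 186)) (XT.lf (nat_lit 0) (nat_lit 14307224308) (nat_lit 76) (nat_lit 15633398378) (nat_lit 76) (nat_lit 58540782) (nat_lit 11) (nat_lit 4) (nat_lit 12) (nat_lit 5) (nat_lit 12) (nat_lit 4) (nat_lit 362) (nat_lit 233) (nat_lit 185))))) (XT.nd (nat_lit 234) (nat_lit 0) (nat_lit 0) (XT.nd (nat_lit 78) (nat_lit 76) (nat_lit 0) (XT.lf (nat_lit 0) (nat_lit 2779944543) (nat_lit 152) (nat_lit 10076397807)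 (nat_lit 76) (nat_lit 17937502610) (nat_lit 10) (nat_lit 5) (nat_lit 12) (nat_lit 5) (nat_lit 11) (nat_lit 4) (nat_lit 363) (nat_lit 233) (nat_lit 184)) (XT.nd (nat_lit 78) (nat_lit 76) (nat_lit 0) (XT.lf (nat_lit 0) (nat_lit 5670019759) (nat_lit 152) (nat_lit 4350154471) (nat_lit 76) (nat_lit 21593167471) (nat_lit 10) (nat_lit 5) (nat_lit 12) (nat_lit 5) (nat_lit 11) (nat_lit 4) (nat_lit 364) (nat_lit 233) (nat_lit 183)) (XT.lf (nat_lit 0) (nat_lit 1522057924) (nat_lit 76) (nat_lit 7107925545) (nat_lit 152) (nat_lit 23827964240) (nat_lit 9) (nat_lit 5) (nat_lit 10) (nat_lit 5) (nat_lit 11) (nat_lit 4) (nat_lit 365) (nat_lit 233) (nat_lit 182)))) (XT.nd (nat_lit 78) (nat_lit 0) (nat_lit 0) (XT.lf (nat_lit 0) (nat_lit 7604635824) (nat_lit 76) (nat_lit 4086980995) (nat_lit 152) (nat_lit 21635908327) (nat_lit 9) (nat_lit 5) (nat_lit 10) (nat_lit 5) (nat_lit 11) (nat_lit 4) (nat_lit 366) (nat_lit 233)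 (nat_lit 181)) (XT.nd (nat_lit 78) (nat_lit 0) (nat_lit 0) (XT.lf (nat_lit 0) (nat_lit 13816317500) (nat_lit 76) (nat_lit 998628951) (nat_lit 152) (nat_lit 19409166844) (nat_lit 9) (nat_lit 5) (nat_lit 10) (nat_lit 5) (nat_lit 11) (nat_lit 4) (nat_lit 367) (nat_lit 233) (nat_lit 180)) (XT.lf (nat_lit 0) (nat_lit 18023463087) (nat_lit 152) (nat_lit 15006726548) (nat_lit 0) (nat_lit 2117683100) (nat_lit 9) (nat_lit 5) (nat_lit 11) (nat_lit 4) (nat_lit 9) (nat_lit 4) (nat_lit 368) (nat_lit 233) (nat_lit 179))))))))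
noncomputable def xc44 : XT := (XT.nd (nat_lit 1794) (nat_lit 152) (nat_lit 0) (XT.nd (nat_lit 858) (nat_lit 76) (nat_lit 0) (XT.nd (nat_lit 390) (nat_lit 152) (nat_lit 0) (XT.nd (nat_lit 156) (nat_lit 76) (nat_lit 0) (XT.nd (nat_lit 78) (nat_lit 0) (nat_lit 0) (XT.lf (nat_lit 0) (nat_lit 21309490407) (nat_lit 152) (nat_lit 9504482321) (nat_lit 0) (nat_lit 5285952300) (nat_lit 9) (nat_lit 5) (nat_lit 11) (nat_lit 4) (nat_lit 9) (nat_lit 4) (nat_lit 369) (nat_lit 233) (nat_lit 178)) (XT.lf (nat_lit 0) (nat_lit 24666300266) (nat_lit 152) (nat_lit 3886655898) (nat_lit 0) (nat_lit 8528433887) (nat_lit 9) (nat_lit 5) (nat_lit 11) (nat_lit 4) (nat_lit 9) (nat_lit 4) (nat_lit 370) (nat_lit 233) (nat_lit 177))) (XT.nd (nat_lit 78) (nat_lit 0) (nat_lit 0) (XT.lf (nat_lit 0) (nat_lit 1888513197) (nat_lit 76) (nat_lit 26226466144) (nat_lit 76) (nat_lit 9977601443) (nat_lit 8) (nat_lit 4) (nat_lit 9) (nat_lit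 5) (nat_lit 9) (nat_lit 4) (nat_lit 371) (nat_lit 233) (nat_lit 176)) (XT.nd (nat_lit 78) (nat_lit 0) (nat_lit 0) (XT.lf (nat_lit 0) (nat_lit 7869037204) (nat_lit 76) (nat_lit 23810669345) (nat_lit 76) (nat_lit 7454039283) (nat_lit 8) (nat_lit 4) (nat_lit 9) (nat_lit 5) (nat_lit 9) (nat_lit 4) (nat_lit 372) (nat_lit 233) (nat_lit 175)) (XT.lf (nat_lit 0) (nat_lit 13982789750) (nat_lit 76) (nat_lit 21342702479) (nat_lit 76) (nat_lit 4881445853) (nat_lit 8) (nat_lit 4) (nat_lit 9) (nat_lit 5) (nat_lit 9) (nat_lit 4) (nat_lit 373) (nat_lit 233) (nat_lit 174))))) (XT.nd (nat_lit 234) (nat_lit 76) (nat_lit 0) (XT.nd (nat_lit 78) (nat_lit 76) (nat_lit 0) (XT.lf (nat_lit 0) (nat_lit 20235112947) (nat_lit 76) (nat_lit 18820409071) (nat_lit 76) (nat_lit 2257573256) (nat_lit 8) (nat_lit 4) (nat_lit 9) (nat_lit 5) (nat_lit 9) (nat_lit 4) (nat_lit 374) (nat_lit 233) (nat_lit 173)) (XT.nd (nat_lit 78) (nat_lit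 0) (nat_lit 0) (XT.lf (nat_lit 0) (nat_lit 411678012) (nat_lit 152) (nat_lit 15825750021) (nat_lit 76) (nat_lit 26215634838) (nat_lit 7) (nat_lit 5) (nat_lit 9) (nat_lit 5) (nat_lit 8) (nat_lit 4) (nat_lit 375) (nat_lit 233) (nat_lit 172)) (XT.lf (nat_lit 0) (nat_lit 3091696248) (nat_lit 152) (nat_lit 10481061130) (nat_lit 76) (nat_lit 30054533615) (nat_lit 7) (nat_lit 5) (nat_lit 9) (nat_lit 5) (nat_lit 8) (nat_lit 4) (nat_lit 376) (nat_lit 233) (nat_lit 171)))) (XT.nd (nat_lit 78) (nat_lit 76) (nat_lit 0) (XT.lf (nat_lit 0) (nat_lit 5828876600) (nat_lit 152) (nat_lit 5017544362) (nat_lit 76) (nat_lit 33991035735) (nat_lit 7) (nat_lit 5) (nat_lit 9) (nat_lit 5) (nat_lit 8) (nat_lit 4) (nat_lit 377) (nat_lit 233) (nat_lit 170)) (XT.nd (nat_lit 78) (nat_lit 0) (nat_lit 0) (XT.lf (nat_lit 0) (nat_lit 580909872) (nat_lit 76) (nat_lit 8050284968) (nat_lit 152) (nat_lit 37453255049) (nat_lit 6) (nat_lit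 5) (nat_lit 7) (nat_lit 5) (nat_lit 8) (nat_lit 4) (nat_lit 378) (nat_lit 233) (nat_lit 169)) (XT.lf (nat_lit 0) (nat_lit 6410263930) (nat_lit 76) (nat_lit 5135697983) (nat_lit 152) (nat_lit 35822052392) (nat_lit 6) (nat_lit 5) (nat_lit 7) (nat_lit 5) (nat_lit 8) (nat_lit 4) (nat_lit 379) (nat_lit 233) (nat_lit 168)))))) (XT.nd (nat_lit 468) (nat_lit 76) (nat_lit 0) (XT.nd (nat_lit 234) (nat_lit 0) (nat_lit 0) (XT.nd (nat_lit 78) (nat_lit 0) (nat_lit 0) (XT.lf (nat_lit 0) (nat_lit 12375752449) (nat_lit 76) (nat_lit 2150780642) (nat_lit 152) (nat_lit 34164214163) (nat_lit 6) (nat_lit 5) (nat_lit 7) (nat_lit 5) (nat_lit 8) (nat_lit 4) (nat_lit 380) (nat_lit 233) (nat_lit 167)) (XT.nd (nat_lit 78) (nat_lit 0) (nat_lit 0) (XT.lf (nat_lit 0) (nat_lit 17584232118) (nat_lit 152) (nat_lit 31579935892) (nat_lit 0) (nat_lit 889374931) (nat_lit 6) (nat_lit 5) (nat_lit 8) (nat_lit 4) (nat_lit 6) (nat_lit 4)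 (nat_lit 381) (nat_lit 233) (nat_lit 166)) (XT.lf (nat_lit 0) (nat_lit 20734405222) (nat_lit 152) (nat_lit 26761110659) (nat_lit 0) (nat_lit 3961696045) (nat_lit 6) (nat_lit 5) (nat_lit 8) (nat_lit 4) (nat_lit 6) (nat_lit 4) (nat_lit 382) (nat_lit 233) (nat_lit 165)))) (XT.nd (nat_lit 78) (nat_lit 0) (nat_lit 0) (XT.lf (nat_lit 0) (nat_lit 23959130363) (nat_lit 152) (nat_lit 21833633861) (nat_lit 0) (nat_lit 7110836729) (nat_lit 6) (nat_lit 5) (nat_lit 8) (nat_lit 4) (nat_lit 6) (nat_lit 4) (nat_lit 383) (nat_lit 233) (nat_lit 164)) (XT.nd (nat_lit 78) (nat_lit 0) (nat_lit 0) (XT.lf (nat_lit 0) (nat_lit 27261225260) (nat_lit 152) (nat_lit 16793199938) (nat_lit 0) (nat_lit 10339548660) (nat_lit 6) (nat_lit 5) (nat_lit 8) (nat_lit 4) (nat_lit 6) (nat_lit 4) (nat_lit 384) (nat_lit 233) (nat_lit 163)) (XT.lf (nat_lit 0) (nat_lit 30643575241) (nat_lit 152) (nat_lit 11635404625) (nat_lit 0) (nat_lit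 13650653042) (nat_lit 6) (nat_lit 5) (nat_lit 8) (nat_lit 4) (nat_lit 6) (nat_lit 4) (nat_lit 385) (nat_lit 233) (nat_lit 162))))) (XT.nd (nat_lit 234) (nat_lit 0) (nat_lit 0) (XT.nd (nat_lit 78) (nat_lit 76) (nat_lit 0) (XT.lf (nat_lit 0) (nat_lit 34109135757) (nat_lit 152) (nat_lit 6355741112) (nat_lit 0) (nat_lit 17047043073) (nat_lit 6) (nat_lit 5) (nat_lit 8) (nat_lit 4) (nat_lit 6) (nat_lit 4) (nat_lit 386) (nat_lit 233) (nat_lit 161)) (XT.nd (nat_lit 78) (nat_lit 76) (nat_lit 0) (XT.lf (nat_lit 0) (nat_lit 37660934967) (nat_lit 152) (nat_lit 949596101) (nat_lit 0) (nat_lit 20531686472) (nat_lit 6) (nat_lit 5) (nat_lit 8) (nat_lit 4) (nat_lit 6) (nat_lit 4) (nat_lit 387) (nat_lit 233) (nat_lit 160)) (XT.lf (nat_lit 0) (nat_lit 4679059528) (nat_lit 76) (nat_lit 36667994838) (nat_lit 76) (nat_lit 19473546528) (nat_lit 5) (nat_lit 4) (nat_lit 6) (nat_lit 5) (nat_lit 6) (nat_lit 4) (nat_lit 388)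 (nat_lit 233) (nat_lit 159)))) (XT.nd (nat_lit 78) (nat_lit 0) (nat_lit 0) (XT.lf (nat_lit 0) (nat_lit 10465365297) (nat_lit 76) (nat_lit 34670975786) (nat_lit 76) (nat_lit 17413226684) (nat_lit 5) (nat_lit 4) (nat_lit 6) (nat_lit 5) (nat_lit 6) (nat_lit 4) (nat_lit 389) (nat_lit 233) (nat_lit 158)) (XT.nd (nat_lit 78) (nat_lit 0) (nat_lit 0) (XT.lf (nat_lit 0) (nat_lit 16395478375) (nat_lit 76) (nat_lit 32627318003) (nat_lit 76) (nat_lit 15308111821) (nat_lit 5) (nat_lit 4) (nat_lit 6) (nat_lit 5) (nat_lit 6) (nat_lit 4) (nat_lit 390) (nat_lit 233) (nat_lit 157)) (XT.lf (nat_lit 0) (nat_lit 22474580414) (nat_lit 76) (nat_lit 30535235767) (nat_lit 76) (nat_lit 13156362518) (nat_lit 5) (nat_lit 4) (nat_lit 6) (nat_lit 5) (nat_lit 6) (nat_lit 4) (nat_lit 391) (nat_lit 233) (nat_lit 156))))))) (XT.nd (nat_lit 34398) (nat_lit 0) (nat_lit 2964) (XT.nd (nat_lit 468) (nat_lit 76) (nat_lit 0) (XT.nd (nat_lit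 234) (nat_lit 76) (nat_lit 0) (XT.nd (nat_lit 78) (nat_lit 0) (nat_lit 0) (XT.lf (nat_lit 0) (nat_lit 28707983251) (nat_lit 76) (nat_lit 28392901047) (nat_lit 76) (nat_lit 10956098606) (nat_lit 5) (nat_lit 4) (nat_lit 6) (nat_lit 5) (nat_lit 6) (nat_lit 4) (nat_lit 392) (nat_lit 233) (nat_lit 155)) (XT.nd (nat_lit 78) (nat_lit 0) (nat_lit 0) (XT.lf (nat_lit 0) (nat_lit 35101133549) (nat_lit 76) (nat_lit 26198441899) (nat_lit 76) (nat_lit 8705397523) (nat_lit 5) (nat_lit 4) (nat_lit 6) (nat_lit 5) (nat_lit 6) (nat_lit 4) (nat_lit 393) (nat_lit 233) (nat_lit 154)) (XT.lf (nat_lit 0) (nat_lit 41659617555) (nat_lit 76) (nat_lit 23949940834) (nat_lit 76) (nat_lit 6402292640) (nat_lit 5) (nat_lit 4) (nat_lit 6) (nat_lit 5) (nat_lit 6) (nat_lit 4) (nat_lit 394) (nat_lit 233) (nat_lit 153)))) (XT.nd (nat_lit 78) (nat_lit 76) (nat_lit 0) (XT.lf (nat_lit 0) (nat_lit 48389165985) (nat_lit 76) (nat_lit 21645433144)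 (nat_lit 76) (nat_lit 4044771532) (nat_lit 5) (nat_lit 4) (nat_lit 6) (nat_lit 5) (nat_lit 6) (nat_lit 4) (nat_lit 395) (nat_lit 233) (nat_lit 152)) (XT.nd (nat_lit 78) (nat_lit 76) (nat_lit 0) (XT.lf (nat_lit 0) (nat_lit 55295659025) (nat_lit 76) (nat_lit 19282905179) (nat_lit 76) (nat_lit 1630774231) (nat_lit 5) (nat_lit 4) (nat_lit 6) (nat_lit 5) (nat_lit 6) (nat_lit 4) (nat_lit 396) (nat_lit 233) (nat_lit 151)) (XT.lf (nat_lit 0) (nat_lit 825381863) (nat_lit 152) (nat_lit 16026575995) (nat_lit 76) (nat_lit 61551414874) (nat_lit 4) (nat_lit 5) (nat_lit 6) (nat_lit 5) (nat_lit 5) (nat_lit 4) (nat_lit 397) (nat_lit 233) (nat_lit 150))))) (XT.nd (nat_lit 234) (nat_lit 76) (nat_lit 0) (XT.nd (nat_lit 78) (nat_lit 0) (nat_lit 0) (XT.lf (nat_lit 0) (nat_lit 3309276326) (nat_lit 152) (nat_lit 11032785021) (nat_lit 76) (nat_lit 66321084493) (nat_lit 4) (nat_lit 5) (nat_lit 6) (nat_lit 5) (nat_lit 5)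 (nat_lit 4) (nat_lit 398) (nat_lit 233) (nat_lit 149)) (XT.nd (nat_lit 78) (nat_lit 0) (nat_lit 0) (XT.lf (nat_lit 0) (nat_lit 5854901829) (nat_lit 152) (nat_lit 5912266983) (nat_lit 76) (nat_lit 71223933786) (nat_lit 4) (nat_lit 5) (nat_lit 6) (nat_lit 5) (nat_lit 5) (nat_lit 4) (nat_lit 399) (nat_lit 233) (nat_lit 148)) (XT.lf (nat_lit 0) (nat_lit 8464482706) (nat_lit 152) (nat_lit 660547643) (nat_lit 76) (nat_lit 76264246798) (nat_lit 4) (nat_lit 5) (nat_lit 6) (nat_lit 5) (nat_lit 5) (nat_lit 4) (nat_lit 400) (nat_lit 233) (nat_lit 147)))) (XT.nd (nat_lit 78) (nat_lit 0) (nat_lit 0) (XT.lf (nat_lit 0) (nat_lit 4821037691) (nat_lit 76) (nat_lit 6365604244) (nat_lit 152) (nat_lit 76671732756) (nat_lit 3) (nat_lit 5) (nat_lit 4) (nat_lit 5) (nat_lit 5) (nat_lit 4) (nat_lit 401) (nat_lit 233) (nat_lit 146)) (XT.nd (nat_lit 78) (nat_lit 0) (nat_lit 0) (XT.lf (nat_lit 0) (nat_lit 10459063116) (nat_lit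 76) (nat_lit 3526165117) (nat_lit 152) (nat_lit 76416480362) (nat_lit 3) (nat_lit 5) (nat_lit 4) (nat_lit 5) (nat_lit 5) (nat_lit 4) (nat_lit 402) (nat_lit 233) (nat_lit 145)) (XT.lf (nat_lit 0) (nat_lit 16245308867) (nat_lit 76) (nat_lit 610902141) (nat_lit 152) (nat_lit 76165484457) (nat_lit 3) (nat_lit 5) (nat_lit 4) (nat_lit 5) (nat_lit 5) (nat_lit 4) (nat_lit 403) (nat_lit 233) (nat_lit 144)))))) (XT.nd (nat_lit 468) (nat_lit 836) (nat_lit 0) (XT.nd (nat_lit 234) (nat_lit 532) (nat_lit 0) (XT.nd (nat_lit 78) (nat_lit 304) (nat_lit 0) (XT.lf (nat_lit 0) (nat_lit 1871863137) (nat_lit 304) (nat_lit 1576684843) (nat_lit 304) (nat_lit 1576684843) (nat_lit 64) (nat_lit 4) (nat_lit 68) (nat_lit 5) (nat_lit 68) (nat_lit 4) (nat_lit 312) (nat_lit 234) (nat_lit 234)) (XT.nd (nat_lit 78) (nat_lit 228) (nat_lit 0) (XT.lf (nat_lit 0) (nat_lit 381458814) (nat_lit 380) (nat_lit 54053109) (nat_lit 76) (nat_lit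 9779486751) (nat_lit 63) (nat_lit 5) (nat_lit 68) (nat_lit 5) (nat_lit 64) (nat_lit 4) (nat_lit 313) (nat_lit 234) (nat_lit 233)) (XT.lf (nat_lit 0) (nat_lit 3958239576) (nat_lit 304) (nat_lit 4052336880) (nat_lit 0) (nat_lit 2373093528) (nat_lit 60) (nat_lit 5) (nat_lit 64) (nat_lit 4) (nat_lit 60) (nat_lit 4) (nat_lit 314) (nat_lit 234) (nat_lit 232)))) (XT.nd (nat_lit 78) (nat_lit 304) (nat_lit 0) (XT.lf (nat_lit 0) (nat_lit 2267174845) (nat_lit 228) (nat_lit 5317663967) (nat_lit 228) (nat_lit 2974401297) (nat_lit 57) (nat_lit 4) (nat_lit 60) (nat_lit 5) (nat_lit 60) (nat_lit 4) (nat_lit 315) (nat_lit 234) (nat_lit 231)) (XT.nd (nat_lit 78) (nat_lit 228) (nat_lit 0) (XT.lf (nat_lit 0) (nat_lit 526355932) (nat_lit 304) (nat_lit 2010795684) (nat_lit 76) (nat_lit 8204140445) (nat_lit 56) (nat_lit 5) (nat_lit 60) (nat_lit 5) (nat_lit 57) (nat_lit 4) (nat_lit 316) (nat_lit 234) (nat_lit 230)) (XT.lf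 (nat_lit 0) (nat_lit 4036683803) (nat_lit 304) (nat_lit 6539123041) (nat_lit 0) (nat_lit 353289769) (nat_lit 53) (nat_lit 5) (nat_lit 57) (nat_lit 4) (nat_lit 53) (nat_lit 4) (nat_lit 317) (nat_lit 234) (nat_lit 229))))) (XT.nd (nat_lit 234) (nat_lit 304) (nat_lit 0) (XT.nd (nat_lit 78) (nat_lit 532) (nat_lit 0) (XT.lf (nat_lit 0) (nat_lit 7617405850) (nat_lit 304) (nat_lit 245843306) (nat_lit 0) (nat_lit 3260435016) (nat_lit 53) (nat_lit 5) (nat_lit 57) (nat_lit 4) (nat_lit 53) (nat_lit 4) (nat_lit 318) (nat_lit 234) (nat_lit 228)) (XT.nd (nat_lit 78) (nat_lit 304) (nat_lit 0) (XT.lf (nat_lit 0) (nat_lit 6238968847) (nat_lit 228) (nat_lit 5048357277) (nat_lit 228) (nat_lit 37428383) (nat_lit 50) (nat_lit 4) (nat_lit 53) (nat_lit 5) (nat_lit 53) (nat_lit 4) (nat_lit 319) (nat_lit 234) (nat_lit 227)) (XT.lf (nat_lit 0) (nat_lit 1262725642) (nat_lit 228) (nat_lit 2140508481) (nat_lit 304) (nat_lit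 8129593951) (nat_lit 46) (nat_lit 5) (nat_lit 49) (nat_lit 5) (nat_lit 50) (nat_lit 4) (nat_lit 320) (nat_lit 234) (nat_lit 226)))) (XT.nd (nat_lit 78) (nat_lit 304) (nat_lit 0) (XT.lf (nat_lit 0) (nat_lit 6929268372) (nat_lit 304) (nat_lit 3969060918) (nat_lit 0) (nat_lit 849406410) (nat_lit 46) (nat_lit 5) (nat_lit 50) (nat_lit 4) (nat_lit 46) (nat_lit 4) (nat_lit 321) (nat_lit 234) (nat_lit 225)) (XT.nd (nat_lit 78) (nat_lit 76) (nat_lit 0) (XT.lf (nat_lit 0) (nat_lit 2430439586) (nat_lit 228) (nat_lit 8100272407) (nat_lit 228) (nat_lit 1439377180) (nat_lit 43) (nat_lit 4) (nat_lit 46) (nat_lit 5) (nat_lit 46) (nat_lit 4) (nat_lit 322) (nat_lit 234) (nat_lit 224)) (XT.lf (nat_lit 0) (nat_lit 1967061659) (nat_lit 304) (nat_lit 3231870025) (nat_lit 76) (nat_lit 7000701261) (nat_lit 42) (nat_lit 5) (nat_lit 46) (nat_lit 5) (nat_lit 43) (nat_lit 4) (nat_lit 323) (nat_lit 234) (nat_lit 223))))))))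
noncomputable def xc45 : XT := (XT.nd (nat_lit 1794) (nat_lit 608) (nat_lit 0) (XT.nd (nat_lit 858) (nat_lit 912) (nat_lit 0) (XT.nd (nat_lit 390) (nat_lit 380) (nat_lit 0) (XT.nd (nat_lit 156) (nat_lit 456) (nat_lit 0) (XT.nd (nat_lit 78) (nat_lit 0) (nat_lit 0) (XT.lf (nat_lit 0) (nat_lit 3199510951) (nat_lit 152) (nat_lit 2205511572) (nat_lit 228) (nat_lit 7031945246) (nat_lit 40) (nat_lit 5) (nat_lit 42) (nat_lit 5) (nat_lit 43) (nat_lit 4) (nat_lit 324) (nat_lit 234) (nat_lit 222)) (XT.lf (nat_lit 0) (nat_lit 8915653139) (nat_lit 228) (nat_lit 2913644575) (nat_lit 0) (nat_lit 853116713) (nat_lit 40) (nat_lit 5) (nat_lit 43) (nat_lit 4) (nat_lit 40) (nat_lit 4) (nat_lit 325) (nat_lit 234) (nat_lit 221))) (XT.nd (nat_lit 78) (nat_lit 228) (nat_lit 0) (XT.lf (nat_lit 0) (nat_lit 3535853887) (nat_lit 228) (nat_lit 8981802628) (nat_lit 228) (nat_lit 418061803) (nat_lit 37) (nat_lit 4) (nat_lit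 40) (nat_lit 5) (nat_lit 40) (nat_lit 4) (nat_lit 326) (nat_lit 234) (nat_lit 220)) (XT.nd (nat_lit 78) (nat_lit 152) (nat_lit 0) (XT.lf (nat_lit 0) (nat_lit 2932113581) (nat_lit 304) (nat_lit 3098156465) (nat_lit 76) (nat_lit 7166743420) (nat_lit 36) (nat_lit 5) (nat_lit 40) (nat_lit 5) (nat_lit 37) (nat_lit 4) (nat_lit 327) (nat_lit 234) (nat_lit 219)) (XT.lf (nat_lit 0) (nat_lit 3345440369) (nat_lit 152) (nat_lit 2993584567) (nat_lit 228) (nat_lit 7128128405) (nat_lit 34) (nat_lit 5) (nat_lit 36) (nat_lit 5) (nat_lit 37) (nat_lit 4) (nat_lit 328) (nat_lit 234) (nat_lit 218))))) (XT.nd (nat_lit 234) (nat_lit 152) (nat_lit 0) (XT.nd (nat_lit 78) (nat_lit 228) (nat_lit 0) (XT.lf (nat_lit 0) (nat_lit 9814048714) (nat_lit 228) (nat_lit 3809121206) (nat_lit 0) (nat_lit 123317376) (nat_lit 34) (nat_lit 5) (nat_lit 37) (nat_lit 4) (nat_lit 34) (nat_lit 4) (nat_lit 329) (nat_lit 234) (nat_lit 217)) (XT.nd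 (nat_lit 78) (nat_lit 76) (nat_lit 0) (XT.lf (nat_lit 0) (nat_lit 2608362901) (nat_lit 152) (nat_lit 10774643802) (nat_lit 152) (nat_lit 651569147) (nat_lit 32) (nat_lit 4) (nat_lit 34) (nat_lit 5) (nat_lit 34) (nat_lit 4) (nat_lit 330) (nat_lit 234) (nat_lit 216)) (XT.lf (nat_lit 0) (nat_lit 2648505481) (nat_lit 228) (nat_lit 5166359320) (nat_lit 76) (nat_lit 6516496784) (nat_lit 31) (nat_lit 5) (nat_lit 34) (nat_lit 5) (nat_lit 32) (nat_lit 4) (nat_lit 331) (nat_lit 234) (nat_lit 215)))) (XT.nd (nat_lit 78) (nat_lit 0) (nat_lit 0) (XT.lf (nat_lit 0) (nat_lit 1195190760) (nat_lit 152) (nat_lit 4787834485) (nat_lit 228) (nat_lit 8655435509) (nat_lit 29) (nat_lit 5) (nat_lit 31) (nat_lit 5) (nat_lit 32) (nat_lit 4) (nat_lit 332) (nat_lit 234) (nat_lit 214)) (XT.nd (nat_lit 78) (nat_lit 0) (nat_lit 0) (XT.lf (nat_lit 0) (nat_lit 7751531704) (nat_lit 152) (nat_lit 1656122273) (nat_lit 228) (nat_lit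 5547474549) (nat_lit 29) (nat_lit 5) (nat_lit 31) (nat_lit 5) (nat_lit 32) (nat_lit 4) (nat_lit 333) (nat_lit 234) (nat_lit 213)) (XT.lf (nat_lit 0) (nat_lit 12889448840) (nat_lit 228) (nat_lit 892304796) (nat_lit 0) (nat_lit 1500966017) (nat_lit 29) (nat_lit 5) (nat_lit 32) (nat_lit 4) (nat_lit 29) (nat_lit 4) (nat_lit 334) (nat_lit 234) (nat_lit 212)))))) (XT.nd (nat_lit 468) (nat_lit 304) (nat_lit 0) (XT.nd (nat_lit 234) (nat_lit 228) (nat_lit 0) (XT.nd (nat_lit 78) (nat_lit 152) (nat_lit 0) (XT.lf (nat_lit 0) (nat_lit 850293443) (nat_lit 228) (nat_lit 10024467854) (nat_lit 76) (nat_lit 4744840531) (nat_lit 26) (nat_lit 5) (nat_lit 29) (nat_lit 5) (nat_lit 27) (nat_lit 4) (nat_lit 335) (nat_lit 234) (nat_lit 211)) (XT.nd (nat_lit 78) (nat_lit 152) (nat_lit 0) (XT.lf (nat_lit 0) (nat_lit 4093428229) (nat_lit 228) (nat_lit 3792438919) (nat_lit 76) (nat_lit 8081552845) (nat_lit 26) (nat_lit 5)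 (nat_lit 29) (nat_lit 5) (nat_lit 27) (nat_lit 4) (nat_lit 336) (nat_lit 234) (nat_lit 210)) (XT.lf (nat_lit 0) (nat_lit 2581962340) (nat_lit 152) (nat_lit 4819691045) (nat_lit 228) (nat_lit 8925035312) (nat_lit 24) (nat_lit 5) (nat_lit 26) (nat_lit 5) (nat_lit 27) (nat_lit 4) (nat_lit 337) (nat_lit 234) (nat_lit 209)))) (XT.nd (nat_lit 78) (nat_lit 228) (nat_lit 0) (XT.lf (nat_lit 0) (nat_lit 9131296085) (nat_lit 152) (nat_lit 1659859219) (nat_lit 228) (nat_lit 5906167684) (nat_lit 24) (nat_lit 5) (nat_lit 26) (nat_lit 5) (nat_lit 27) (nat_lit 4) (nat_lit 338) (nat_lit 234) (nat_lit 208)) (XT.nd (nat_lit 78) (nat_lit 228) (nat_lit 0) (XT.lf (nat_lit 0) (nat_lit 14242692261) (nat_lit 228) (nat_lit 1309931429) (nat_lit 0) (nat_lit 1527689139) (nat_lit 24) (nat_lit 5) (nat_lit 27) (nat_lit 4) (nat_lit 24) (nat_lit 4) (nat_lit 339) (nat_lit 234) (nat_lit 207)) (XT.lf (nat_lit 0) (nat_lit 329102545)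 (nat_lit 228) (nat_lit 12350161858) (nat_lit 76) (nat_lit 4795106476) (nat_lit 21) (nat_lit 5) (nat_lit 24) (nat_lit 5) (nat_lit 22) (nat_lit 4) (nat_lit 340) (nat_lit 234) (nat_lit 206))))) (XT.nd (nat_lit 234) (nat_lit 228) (nat_lit 0) (XT.nd (nat_lit 78) (nat_lit 76) (nat_lit 0) (XT.lf (nat_lit 0) (nat_lit 3493907772) (nat_lit 228) (nat_lit 6220012007) (nat_lit 76) (nat_lit 8166727648) (nat_lit 21) (nat_lit 5) (nat_lit 24) (nat_lit 5) (nat_lit 22) (nat_lit 4) (nat_lit 341) (nat_lit 234) (nat_lit 205)) (XT.nd (nat_lit 78) (nat_lit 0) (nat_lit 0) (XT.lf (nat_lit 0) (nat_lit 6639924) (nat_lit 76) (nat_lit 6695386960) (nat_lit 152) (nat_lit 11598676072) (nat_lit 20) (nat_lit 5) (nat_lit 21) (nat_lit 5) (nat_lit 22) (nat_lit 4) (nat_lit 342) (nat_lit 234) (nat_lit 204)) (XT.lf (nat_lit 0) (nat_lit 6460921735) (nat_lit 76) (nat_lit 3557256151) (nat_lit 152) (nat_lit 8714869174) (nat_lit 20) (nat_lit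 5) (nat_lit 21) (nat_lit 5) (nat_lit 22) (nat_lit 4) (nat_lit 343) (nat_lit 234) (nat_lit 203)))) (XT.nd (nat_lit 78) (nat_lit 228) (nat_lit 0) (XT.lf (nat_lit 0) (nat_lit 13024682653) (nat_lit 76) (nat_lit 359595223) (nat_lit 152) (nat_lit 5795609055) (nat_lit 20) (nat_lit 5) (nat_lit 21) (nat_lit 5) (nat_lit 22) (nat_lit 4) (nat_lit 344) (nat_lit 234) (nat_lit 202)) (XT.nd (nat_lit 78) (nat_lit 76) (nat_lit 0) (XT.lf (nat_lit 0) (nat_lit 34844614) (nat_lit 152) (nat_lit 16796638762) (nat_lit 152) (nat_lit 2809283176) (nat_lit 18) (nat_lit 4) (nat_lit 20) (nat_lit 5) (nat_lit 20) (nat_lit 4) (nat_lit 345) (nat_lit 234) (nat_lit 201)) (XT.lf (nat_lit 0) (nat_lit 279456873) (nat_lit 228) (nat_lit 13666617485) (nat_lit 76) (nat_lit 6168816528) (nat_lit 17) (nat_lit 5) (nat_lit 20) (nat_lit 5) (nat_lit 18) (nat_lit 4) (nat_lit 346) (nat_lit 234) (nat_lit 200))))))) (XT.nd (nat_lit 936) (nat_lit 228)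 (nat_lit 0) (XT.nd (nat_lit 468) (nat_lit 152) (nat_lit 0) (XT.nd (nat_lit 234) (nat_lit 152) (nat_lit 0) (XT.nd (nat_lit 78) (nat_lit 76) (nat_lit 0) (XT.lf (nat_lit 0) (nat_lit 3357498333) (nat_lit 228) (nat_lit 7657571332) (nat_lit 76) (nat_lit 9588776740) (nat_lit 17) (nat_lit 5) (nat_lit 20) (nat_lit 5) (nat_lit 18) (nat_lit 4) (nat_lit 347) (nat_lit 234) (nat_lit 199)) (XT.nd (nat_lit 78) (nat_lit 76) (nat_lit 0) (XT.lf (nat_lit 0) (nat_lit 6482349989) (nat_lit 228) (nat_lit 1546528308) (nat_lit 76) (nat_lit 13079992192) (nat_lit 17) (nat_lit 5) (nat_lit 20) (nat_lit 5) (nat_lit 18) (nat_lit 4) (nat_lit 348) (nat_lit 234) (nat_lit 198)) (XT.lf (nat_lit 0) (nat_lit 4764830336) (nat_lit 76) (nat_lit 4937714421) (nat_lit 152) (nat_lit 11926485589) (nat_lit 16) (nat_lit 5) (nat_lit 17) (nat_lit 5) (nat_lit 18) (nat_lit 4) (nat_lit 349) (nat_lit 234) (nat_lit 197)))) (XT.nd (nat_lit 78) (nat_lit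 152) (nat_lit 0) (XT.lf (nat_lit 0) (nat_lit 11221982427) (nat_lit 76) (nat_lit 1769339119) (nat_lit 152) (nat_lit 9174346185) (nat_lit 16) (nat_lit 5) (nat_lit 17) (nat_lit 5) (nat_lit 18) (nat_lit 4) (nat_lit 350) (nat_lit 234) (nat_lit 196)) (XT.nd (nat_lit 78) (nat_lit 152) (nat_lit 0) (XT.lf (nat_lit 0) (nat_lit 16350459092) (nat_lit 152) (nat_lit 4933982309) (nat_lit 0) (nat_lit 1434842998) (nat_lit 16) (nat_lit 5) (nat_lit 18) (nat_lit 4) (nat_lit 16) (nat_lit 4) (nat_lit 351) (nat_lit 234) (nat_lit 195)) (XT.lf (nat_lit 0) (nat_lit 1189803074) (nat_lit 152) (nat_lit 18608101041) (nat_lit 152) (nat_lit 3492009630) (nat_lit 14) (nat_lit 4) (nat_lit 16) (nat_lit 5) (nat_lit 16) (nat_lit 4) (nat_lit 352) (nat_lit 234) (nat_lit 194))))) (XT.nd (nat_lit 234) (nat_lit 76) (nat_lit 0) (XT.nd (nat_lit 78) (nat_lit 76) (nat_lit 0) (XT.lf (nat_lit 0) (nat_lit 7527240965) (nat_lit 152) (nat_lit 15830455120)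 (nat_lit 152) (nat_lit 519727480) (nat_lit 14) (nat_lit 4) (nat_lit 16) (nat_lit 5) (nat_lit 16) (nat_lit 4) (nat_lit 353) (nat_lit 234) (nat_lit 193)) (XT.nd (nat_lit 78) (nat_lit 0) (nat_lit 0) (XT.lf (nat_lit 0) (nat_lit 2451995222) (nat_lit 228) (nat_lit 10522144551) (nat_lit 76) (nat_lit 11508917439) (nat_lit 13) (nat_lit 5) (nat_lit 16) (nat_lit 5) (nat_lit 14) (nat_lit 4) (nat_lit 354) (nat_lit 234) (nat_lit 192)) (XT.lf (nat_lit 0) (nat_lit 5463462688) (nat_lit 228) (nat_lit 4592328910) (nat_lit 76) (nat_lit 15052109537) (nat_lit 13) (nat_lit 5) (nat_lit 16) (nat_lit 5) (nat_lit 14) (nat_lit 4) (nat_lit 355) (nat_lit 234) (nat_lit 191)))) (XT.nd (nat_lit 78) (nat_lit 0) (nat_lit 0) (XT.lf (nat_lit 0) (nat_lit 1478288384) (nat_lit 76) (nat_lit 7063369878) (nat_lit 152) (nat_lit 17210566624) (nat_lit 12) (nat_lit 5) (nat_lit 13) (nat_lit 5) (nat_lit 14) (nat_lit 4) (nat_lit 356) (nat_lit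 234) (nat_lit 190)) (XT.nd (nat_lit 78) (nat_lit 0) (nat_lit 0) (XT.lf (nat_lit 0) (nat_lit 7759869357) (nat_lit 76) (nat_lit 3961351832) (nat_lit 152) (nat_lit 14694411791) (nat_lit 12) (nat_lit 5) (nat_lit 13) (nat_lit 5) (nat_lit 14) (nat_lit 4) (nat_lit 357) (nat_lit 234) (nat_lit 189)) (XT.lf (nat_lit 0) (nat_lit 14166506418) (nat_lit 76) (nat_lit 793400477) (nat_lit 152) (nat_lit 12140148884) (nat_lit 12) (nat_lit 5) (nat_lit 13) (nat_lit 5) (nat_lit 14) (nat_lit 4) (nat_lit 358) (nat_lit 234) (nat_lit 188)))))) (XT.nd (nat_lit 468) (nat_lit 76) (nat_lit 0) (XT.nd (nat_lit 234) (nat_lit 76) (nat_lit 0) (XT.nd (nat_lit 78) (nat_lit 76) (nat_lit 0) (XT.lf (nat_lit 0) (nat_lit 18284031335) (nat_lit 152) (nat_lit 7125779757) (nat_lit 0) (nat_lit 2395575648) (nat_lit 12) (nat_lit 5) (nat_lit 14) (nat_lit 4) (nat_lit 12) (nat_lit 4) (nat_lit 359) (nat_lit 234) (nat_lit 187)) (XT.nd (nat_lit 78)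 (nat_lit 76) (nat_lit 0) (XT.lf (nat_lit 0) (nat_lit 21681306763) (nat_lit 152) (nat_lit 1212187740) (nat_lit 0) (nat_lit 5639203439) (nat_lit 12) (nat_lit 5) (nat_lit 14) (nat_lit 4) (nat_lit 12) (nat_lit 4) (nat_lit 360) (nat_lit 234) (nat_lit 186)) (XT.lf (nat_lit 0) (nat_lit 4915948414) (nat_lit 76) (nat_lit 20278381711) (nat_lit 76) (nat_lit 4087105923) (nat_lit 11) (nat_lit 4) (nat_lit 12) (nat_lit 5) (nat_lit 12) (nat_lit 4) (nat_lit 361) (nat_lit 234) (nat_lit 185)))) (XT.nd (nat_lit 78) (nat_lit 76) (nat_lit 0) (XT.lf (nat_lit 0) (nat_lit 11194562220) (nat_lit 76) (nat_lit 17597411211) (nat_lit 76) (nat_lit 1261307790) (nat_lit 11) (nat_lit 4) (nat_lit 12) (nat_lit 5) (nat_lit 12) (nat_lit 4) (nat_lit 362) (nat_lit 234) (nat_lit 184)) (XT.nd (nat_lit 78) (nat_lit 0) (nat_lit 0) (XT.lf (nat_lit 0) (nat_lit 1584693143) (nat_lit 152) (nat_lit 13259785692) (nat_lit 76) (nat_lit 16004319494)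 (nat_lit 10) (nat_lit 5) (nat_lit 12) (nat_lit 5) (nat_lit 11) (nat_lit 4) (nat_lit 363) (nat_lit 234) (nat_lit 183)) (XT.lf (nat_lit 0) (nat_lit 4459278353) (nat_lit 152) (nat_lit 7560891653) (nat_lit 76) (nat_lit 19648599594) (nat_lit 10) (nat_lit 5) (nat_lit 12) (nat_lit 5) (nat_lit 11) (nat_lit 4) (nat_lit 364) (nat_lit 234) (nat_lit 182))))) (XT.nd (nat_lit 234) (nat_lit 0) (nat_lit 0) (XT.nd (nat_lit 78) (nat_lit 76) (nat_lit 0) (XT.lf (nat_lit 0) (nat_lit 7389572268) (nat_lit 152) (nat_lit 1744932805) (nat_lit 76) (nat_lit 23379770170) (nat_lit 10) (nat_lit 5) (nat_lit 12) (nat_lit 5) (nat_lit 11) (nat_lit 4) (nat_lit 365) (nat_lit 234) (nat_lit 181)) (XT.nd (nat_lit 78) (nat_lit 0) (nat_lit 0) (XT.lf (nat_lit 0) (nat_lit 4276625115) (nat_lit 76) (nat_lit 6142619763) (nat_lit 152) (nat_lit 22965575890) (nat_lit 9) (nat_lit 5) (nat_lit 10) (nat_lit 5) (nat_lit 11) (nat_lit 4) (nat_lit 366)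 (nat_lit 234) (nat_lit 180)) (XT.lf (nat_lit 0) (nat_lit 10462780194) (nat_lit 76) (nat_lit 3065373388) (nat_lit 152) (nat_lit 20753696958) (nat_lit 9) (nat_lit 5) (nat_lit 10) (nat_lit 5) (nat_lit 11) (nat_lit 4) (nat_lit 367) (nat_lit 234) (nat_lit 179)))) (XT.nd (nat_lit 78) (nat_lit 0) (nat_lit 0) (XT.lf (nat_lit 0) (nat_lit 16702698859) (nat_lit 152) (nat_lit 18423242505) (nat_lit 0) (nat_lit 80696488) (nat_lit 9) (nat_lit 5) (nat_lit 11) (nat_lit 4) (nat_lit 9) (nat_lit 4) (nat_lit 368) (nat_lit 234) (nat_lit 178)) (XT.nd (nat_lit 78) (nat_lit 0) (nat_lit 0) (XT.lf (nat_lit 0) (nat_lit 19975032445) (nat_lit 152) (nat_lit 12945375189) (nat_lit 0) (nat_lit 3238701802) (nat_lit 9) (nat_lit 5) (nat_lit 11) (nat_lit 4) (nat_lit 9) (nat_lit 4) (nat_lit 369) (nat_lit 234) (nat_lit 177)) (XT.lf (nat_lit 0) (nat_lit 23318547415) (nat_lit 152) (nat_lit 7351215669) (nat_lit 0) (nat_lit 6471218451) (nat_lit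 9) (nat_lit 5) (nat_lit 11) (nat_lit 4) (nat_lit 9) (nat_lit 4) (nat_lit 370) (nat_lit 234) (nat_lit 176))))))))
noncomputable def xc46 : XT := (XT.nd (nat_lit 1794) (nat_lit 152) (nat_lit 0) (XT.nd (nat_lit 858) (nat_lit 76) (nat_lit 0) (XT.nd (nat_lit 390) (nat_lit 152) (nat_lit 0) (XT.nd (nat_lit 156) (nat_lit 0) (nat_lit 0) (XT.nd (nat_lit 78) (nat_lit 76) (nat_lit 0) (XT.lf (nat_lit 0) (nat_lit 26736165290) (nat_lit 152) (nat_lit 1635875845) (nat_lit 0) (nat_lit 9781070964) (nat_lit 9) (nat_lit 5) (nat_lit 11) (nat_lit 4) (nat_lit 9) (nat_lit 4) (nat_lit 371) (nat_lit 234) (nat_lit 175)) (XT.lf (nat_lit 0) (nat_lit 4289338718) (nat_lit 76) (nat_lit 25982765364) (nat_lit 76) (nat_lit 8923044474) (nat_lit 8) (nat_lit 4) (nat_lit 9) (nat_lit 5) (nat_lit 9) (nat_lit 4) (nat_lit 372) (nat_lit 234) (nat_lit 174))) (XT.nd (nat_lit 78) (nat_lit 0) (nat_lit 0) (XT.lf (nat_lit 0) (nat_lit 10381001645)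 (nat_lit 76) (nat_lit 23524509071) (nat_lit 76) (nat_lit 6363208993) (nat_lit 8) (nat_lit 4) (nat_lit 9) (nat_lit 5) (nat_lit 9) (nat_lit 4) (nat_lit 373) (nat_lit 234) (nat_lit 173)) (XT.nd (nat_lit 78) (nat_lit 0) (nat_lit 0) (XT.lf (nat_lit 0) (nat_lit 16611878612) (nat_lit 76) (nat_lit 21011643404) (nat_lit 76) (nat_lit 3751722754) (nat_lit 8) (nat_lit 4) (nat_lit 9) (nat_lit 5) (nat_lit 9) (nat_lit 4) (nat_lit 374) (nat_lit 234) (nat_lit 172)) (XT.lf (nat_lit 0) (nat_lit 22987414073) (nat_lit 76) (nat_lit 18441972654) (nat_lit 76) (nat_lit 1086303877) (nat_lit 8) (nat_lit 4) (nat_lit 9) (nat_lit 5) (nat_lit 9) (nat_lit 4) (nat_lit 375) (nat_lit 234) (nat_lit 171))))) (XT.nd (nat_lit 234) (nat_lit 76) (nat_lit 0) (XT.nd (nat_lit 78) (nat_lit 0) (nat_lit 0) (XT.lf (nat_lit 0) (nat_lit 1603464557) (nat_lit 152) (nat_lit 14193595073) (nat_lit 76) (nat_lit 27893522480) (nat_lit 7) (nat_lit 5) (nat_lit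 9) (nat_lit 5) (nat_lit 8) (nat_lit 4) (nat_lit 376) (nat_lit 234) (nat_lit 170)) (XT.nd (nat_lit 78) (nat_lit 0) (nat_lit 0) (XT.lf (nat_lit 0) (nat_lit 4329530829) (nat_lit 152) (nat_lit 8749932334) (nat_lit 76) (nat_lit 31821624571) (nat_lit 7) (nat_lit 5) (nat_lit 9) (nat_lit 5) (nat_lit 8) (nat_lit 4) (nat_lit 377) (nat_lit 234) (nat_lit 169)) (XT.lf (nat_lit 0) (nat_lit 7115474639) (nat_lit 152) (nat_lit 3182089499) (nat_lit 76) (nat_lit 35851014329) (nat_lit 7) (nat_lit 5) (nat_lit 9) (nat_lit 5) (nat_lit 8) (nat_lit 4) (nat_lit 378) (nat_lit 234) (nat_lit 168)))) (XT.nd (nat_lit 78) (nat_lit 0) (nat_lit 0) (XT.lf (nat_lit 0) (nat_lit 2564847959) (nat_lit 76) (nat_lit 7423537237) (nat_lit 152) (nat_lit 37445019508) (nat_lit 6) (nat_lit 5) (nat_lit 7) (nat_lit 5) (nat_lit 8) (nat_lit 4) (nat_lit 379) (nat_lit 234) (nat_lit 167)) (XT.nd (nat_lit 78) (nat_lit 0) (nat_lit 0) (XT.lf (nat_lit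 0) (nat_lit 8511805625) (nat_lit 76) (nat_lit 4446801660) (nat_lit 152) (nat_lit 35797846786) (nat_lit 6) (nat_lit 5) (nat_lit 7) (nat_lit 5) (nat_lit 8) (nat_lit 4) (nat_lit 380) (nat_lit 234) (nat_lit 166)) (XT.lf (nat_lit 0) (nat_lit 14600650049) (nat_lit 76) (nat_lit 1396889243) (nat_lit 152) (nat_lit 34122279251) (nat_lit 6) (nat_lit 5) (nat_lit 7) (nat_lit 5) (nat_lit 8) (nat_lit 4) (nat_lit 381) (nat_lit 234) (nat_lit 165)))))) (XT.nd (nat_lit 468) (nat_lit 76) (nat_lit 0) (XT.nd (nat_lit 234) (nat_lit 0) (nat_lit 0) (XT.nd (nat_lit 78) (nat_lit 0) (nat_lit 0) (XT.lf (nat_lit 0) (nat_lit 19124455501) (nat_lit 152) (nat_lit 30704606735) (nat_lit 0) (nat_lit 1695128603) (nat_lit 6) (nat_lit 5) (nat_lit 8) (nat_lit 4) (nat_lit 6) (nat_lit 4) (nat_lit 382) (nat_lit 234) (nat_lit 164)) (XT.nd (nat_lit 78) (nat_lit 0) (nat_lit 0) (XT.lf (nat_lit 0) (nat_lit 22339637786) (nat_lit 152) (nat_lit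 25794305887) (nat_lit 0) (nat_lit 4836927921) (nat_lit 6) (nat_lit 5) (nat_lit 8) (nat_lit 4) (nat_lit 6) (nat_lit 4) (nat_lit 383) (nat_lit 234) (nat_lit 163)) (XT.lf (nat_lit 0) (nat_lit 25632467776) (nat_lit 152) (nat_lit 20770547643) (nat_lit 0) (nat_lit 8058512311) (nat_lit 6) (nat_lit 5) (nat_lit 8) (nat_lit 4) (nat_lit 6) (nat_lit 4) (nat_lit 384) (nat_lit 234) (nat_lit 162)))) (XT.nd (nat_lit 78) (nat_lit 0) (nat_lit 0) (XT.lf (nat_lit 0) (nat_lit 29005822700) (nat_lit 152) (nat_lit 15628942310) (nat_lit 0) (nat_lit 11362696751) (nat_lit 6) (nat_lit 5) (nat_lit 8) (nat_lit 4) (nat_lit 6) (nat_lit 4) (nat_lit 385) (nat_lit 234) (nat_lit 161)) (XT.nd (nat_lit 78) (nat_lit 0) (nat_lit 0) (XT.lf (nat_lit 0) (nat_lit 32462650151) (nat_lit 152) (nat_lit 10364997224) (nat_lit 0) (nat_lit 14752368392) (nat_lit 6) (nat_lit 5) (nat_lit 8) (nat_lit 4) (nat_lit 6) (nat_lit 4) (nat_lit 386) (nat_lit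 234) (nat_lit 160)) (XT.lf (nat_lit 0) (nat_lit 36005970657) (nat_lit 152) (nat_lit 4974112822) (nat_lit 0) (nat_lit 18230489082) (nat_lit 6) (nat_lit 5) (nat_lit 8) (nat_lit 4) (nat_lit 6) (nat_lit 4) (nat_lit 387) (nat_lit 234) (nat_lit 159))))) (XT.nd (nat_lit 234) (nat_lit 0) (nat_lit 0) (XT.nd (nat_lit 78) (nat_lit 0) (nat_lit 0) (XT.lf (nat_lit 0) (nat_lit 559336038) (nat_lit 76) (nat_lit 39084920965) (nat_lit 76) (nat_lit 21246138598) (nat_lit 5) (nat_lit 4) (nat_lit 6) (nat_lit 5) (nat_lit 6) (nat_lit 4) (nat_lit 388) (nat_lit 234) (nat_lit 158)) (XT.nd (nat_lit 78) (nat_lit 0) (nat_lit 0) (XT.lf (nat_lit 0) (nat_lit 6330970938) (nat_lit 76) (nat_lit 37094439766) (nat_lit 76) (nat_lit 19194200318) (nat_lit 5) (nat_lit 4) (nat_lit 6) (nat_lit 5) (nat_lit 6) (nat_lit 4) (nat_lit 389) (nat_lit 234) (nat_lit 157)) (XT.lf (nat_lit 0) (nat_lit 12246840454) (nat_lit 76) (nat_lit 35057129411) (nat_lit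 76) (nat_lit 17097222897) (nat_lit 5) (nat_lit 4) (nat_lit 6) (nat_lit 5) (nat_lit 6) (nat_lit 4) (nat_lit 390) (nat_lit 234) (nat_lit 156)))) (XT.nd (nat_lit 78) (nat_lit 0) (nat_lit 0) (XT.lf (nat_lit 0) (nat_lit 18312113792) (nat_lit 76) (nat_lit 32971209729) (nat_lit 76) (nat_lit 14953374022) (nat_lit 5) (nat_lit 4) (nat_lit 6) (nat_lit 5) (nat_lit 6) (nat_lit 4) (nat_lit 391) (nat_lit 234) (nat_lit 155)) (XT.nd (nat_lit 78) (nat_lit 0) (nat_lit 0) (XT.lf (nat_lit 0) (nat_lit 24532090706) (nat_lit 76) (nat_lit 30834858069) (nat_lit 76) (nat_lit 12760780429) (nat_lit 5) (nat_lit 4) (nat_lit 6) (nat_lit 5) (nat_lit 6) (nat_lit 4) (nat_lit 392) (nat_lit 234) (nat_lit 154)) (XT.lf (nat_lit 0) (nat_lit 30912206127) (nat_lit 76) (nat_lit 28646207718) (nat_lit 76) (nat_lit 10517526258) (nat_lit 5) (nat_lit 4) (nat_lit 6) (nat_lit 5) (nat_lit 6) (nat_lit 4) (nat_lit 393) (nat_lit 234) (nat_lit 153)))))))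 (XT.nd (nat_lit 34242) (nat_lit 0) (nat_lit 2964) (XT.nd (nat_lit 468) (nat_lit 76) (nat_lit 0) (XT.nd (nat_lit 234) (nat_lit 76) (nat_lit 0) (XT.nd (nat_lit 78) (nat_lit 0) (nat_lit 0) (XT.lf (nat_lit 0) (nat_lit 37458034913) (nat_lit 76) (nat_lit 26403346263) (nat_lit 76) (nat_lit 8221651386) (nat_lit 5) (nat_lit 4) (nat_lit 6) (nat_lit 5) (nat_lit 6) (nat_lit 4) (nat_lit 394) (nat_lit 234) (nat_lit 152)) (XT.nd (nat_lit 78) (nat_lit 0) (nat_lit 0) (XT.lf (nat_lit 0) (nat_lit 44175296720) (nat_lit 76) (nat_lit 24104313920) (nat_lit 76) (nat_lit 5871149707) (nat_lit 5) (nat_lit 4) (nat_lit 6) (nat_lit 5) (nat_lit 6) (nat_lit 4) (nat_lit 395) (nat_lit 234) (nat_lit 151)) (XT.lf (nat_lit 0) (nat_lit 51069861002) (nat_lit 76) (nat_lit 21747101828) (nat_lit 76) (nat_lit 3463967385) (nat_lit 5) (nat_lit 4) (nat_lit 6) (nat_lit 5) (nat_lit 6) (nat_lit 4) (nat_lit 396) (nat_lit 234) (nat_lit 150))))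 (XT.nd (nat_lit 78) (nat_lit 76) (nat_lit 0) (XT.lf (nat_lit 0) (nat_lit 58147752133) (nat_lit 76) (nat_lit 19329650286) (nat_lit 76) (nat_lit 998001057) (nat_lit 5) (nat_lit 4) (nat_lit 6) (nat_lit 5) (nat_lit 6) (nat_lit 4) (nat_lit 397) (nat_lit 234) (nat_lit 149)) (XT.nd (nat_lit 78) (nat_lit 0) (nat_lit 0) (XT.lf (nat_lit 0) (nat_lit 1499069580) (nat_lit 152) (nat_lit 15335639715) (nat_lit 76) (nat_lit 63900947435) (nat_lit 4) (nat_lit 5) (nat_lit 6) (nat_lit 5) (nat_lit 5) (nat_lit 4) (nat_lit 398) (nat_lit 234) (nat_lit 148)) (XT.lf (nat_lit 0) (nat_lit 4038580112) (nat_lit 152) (nat_lit 10226163174) (nat_lit 76) (nat_lit 68799056945) (nat_lit 4) (nat_lit 5) (nat_lit 6) (nat_lit 5) (nat_lit 5) (nat_lit 4) (nat_lit 399) (nat_lit 234) (nat_lit 147))))) (XT.nd (nat_lit 234) (nat_lit 0) (nat_lit 0) (XT.nd (nat_lit 78) (nat_lit 76) (nat_lit 0) (XT.lf (nat_lit 0) (nat_lit 6642224123) (nat_lit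 152) (nat_lit 4985163733) (nat_lit 76) (nat_lit 73834768225) (nat_lit 4) (nat_lit 5) (nat_lit 6) (nat_lit 5) (nat_lit 5) (nat_lit 4) (nat_lit 400) (nat_lit 234) (nat_lit 146)) (XT.nd (nat_lit 78) (nat_lit 0) (nat_lit 0) (XT.lf (nat_lit 0) (nat_lit 399738458) (nat_lit 76) (nat_lit 8916380714) (nat_lit 152) (nat_lit 78616585482) (nat_lit 3) (nat_lit 5) (nat_lit 4) (nat_lit 5) (nat_lit 5) (nat_lit 4) (nat_lit 401) (nat_lit 234) (nat_lit 145)) (XT.lf (nat_lit 0) (nat_lit 6027458249) (nat_lit 76) (nat_lit 6081552092) (nat_lit 152) (nat_lit 78367202084) (nat_lit 3) (nat_lit 5) (nat_lit 4) (nat_lit 5) (nat_lit 5) (nat_lit 4) (nat_lit 402) (nat_lit 234) (nat_lit 144)))) (XT.nd (nat_lit 33384) (nat_lit 0) (nat_lit 4940) (XT.lf (nat_lit 0) (nat_lit 11803698531) (nat_lit 76) (nat_lit 3170765333) (nat_lit 152) (nat_lit 78121904233) (nat_lit 3) (nat_lit 5) (nat_lit 4) (nat_lit 5) (nat_lit 5) (nat_lit 4) (nat_lit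 403) (nat_lit 234) (nat_lit 143)) (XT.nd (nat_lit 78) (nat_lit 0) (nat_lit 0) (XT.lf (nat_lit 0) (nat_lit 266780676) (nat_lit 380) (nat_lit 4336151345) (nat_lit 0) (nat_lit 266780676) (nat_lit 68) (nat_lit 5) (nat_lit 73) (nat_lit 4) (nat_lit 68) (nat_lit 4) (nat_lit 310) (nat_lit 235) (nat_lit 235)) (XT.lf (nat_lit 0) (nat_lit 4092262427) (nat_lit 380) (nat_lit 2561249317) (nat_lit 0) (nat_lit 3238995488) (nat_lit 68) (nat_lit 5) (nat_lit 73) (nat_lit 4) (nat_lit 68) (nat_lit 4) (nat_lit 311) (nat_lit 235) (nat_lit 234)))))) (XT.nd (nat_lit 468) (nat_lit 836) (nat_lit 0) (XT.nd (nat_lit 234) (nat_lit 532) (nat_lit 0) (XT.nd (nat_lit 78) (nat_lit 304) (nat_lit 0) (XT.lf (nat_lit 0) (nat_lit 3681875692) (nat_lit 304) (nat_lit 4025806625) (nat_lit 304) (nat_lit 2344125183) (nat_lit 64) (nat_lit 4) (nat_lit 68) (nat_lit 5) (nat_lit 68) (nat_lit 4) (nat_lit 312) (nat_lit 235) (nat_lit 233)) (XT.nd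 (nat_lit 78) (nat_lit 228) (nat_lit 0) (XT.lf (nat_lit 0) (nat_lit 1133005831) (nat_lit 380) (nat_lit 185965528) (nat_lit 76) (nat_lit 8898450889) (nat_lit 63) (nat_lit 5) (nat_lit 68) (nat_lit 5) (nat_lit 64) (nat_lit 4) (nat_lit 313) (nat_lit 235) (nat_lit 232)) (XT.lf (nat_lit 0) (nat_lit 4658539087) (nat_lit 304) (nat_lit 4242286205) (nat_lit 0) (nat_lit 1486861913) (nat_lit 60) (nat_lit 5) (nat_lit 64) (nat_lit 4) (nat_lit 60) (nat_lit 4) (nat_lit 314) (nat_lit 235) (nat_lit 231)))) (XT.nd (nat_lit 78) (nat_lit 304) (nat_lit 0) (XT.lf (nat_lit 0) (nat_lit 2012593277) (nat_lit 228) (nat_lit 6229856018) (nat_lit 228) (nat_lit 2322143287) (nat_lit 57) (nat_lit 4) (nat_lit 60) (nat_lit 5) (nat_lit 60) (nat_lit 4) (nat_lit 315) (nat_lit 235) (nat_lit 230)) (XT.nd (nat_lit 78) (nat_lit 228) (nat_lit 0) (XT.lf (nat_lit 0) (nat_lit 1125803977) (nat_lit 304) (nat_lit 2336928284) (nat_lit 76) (nat_lit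 7284978087) (nat_lit 56) (nat_lit 5) (nat_lit 60) (nat_lit 5) (nat_lit 57) (nat_lit 4) (nat_lit 316) (nat_lit 235) (nat_lit 229)) (XT.lf (nat_lit 0) (nat_lit 4001576708) (nat_lit 228) (nat_lit 588409090) (nat_lit 304) (nat_lit 6346963434) (nat_lit 53) (nat_lit 5) (nat_lit 56) (nat_lit 5) (nat_lit 57) (nat_lit 4) (nat_lit 317) (nat_lit 235) (nat_lit 228))))) (XT.nd (nat_lit 234) (nat_lit 304) (nat_lit 0) (XT.nd (nat_lit 78) (nat_lit 532) (nat_lit 0) (XT.lf (nat_lit 0) (nat_lit 8126531392) (nat_lit 304) (nat_lit 695062616) (nat_lit 0) (nat_lit 2311316573) (nat_lit 53) (nat_lit 5) (nat_lit 57) (nat_lit 4) (nat_lit 53) (nat_lit 4) (nat_lit 318) (nat_lit 235) (nat_lit 227)) (XT.nd (nat_lit 78) (nat_lit 228) (nat_lit 0) (XT.lf (nat_lit 0) (nat_lit 410620214) (nat_lit 304) (nat_lit 5616566520) (nat_lit 76) (nat_lit 5307991309) (nat_lit 49) (nat_lit 5) (nat_lit 53) (nat_lit 5) (nat_lit 50) (nat_lit 4)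 (nat_lit 319) (nat_lit 235) (nat_lit 226)) (XT.lf (nat_lit 0) (nat_lit 662730598) (nat_lit 228) (nat_lit 3144793709) (nat_lit 304) (nat_lit 7737051732) (nat_lit 46) (nat_lit 5) (nat_lit 49) (nat_lit 5) (nat_lit 50) (nat_lit 4) (nat_lit 320) (nat_lit 235) (nat_lit 225)))) (XT.nd (nat_lit 78) (nat_lit 304) (nat_lit 0) (XT.lf (nat_lit 0) (nat_lit 7130671000) (nat_lit 228) (nat_lit 157840827) (nat_lit 304) (nat_lit 4472366328) (nat_lit 46) (nat_lit 5) (nat_lit 49) (nat_lit 5) (nat_lit 50) (nat_lit 4) (nat_lit 321) (nat_lit 235) (nat_lit 224)) (XT.nd (nat_lit 78) (nat_lit 76) (nat_lit 0) (XT.lf (nat_lit 0) (nat_lit 1700707048) (nat_lit 228) (nat_lit 9144881369) (nat_lit 228) (nat_lit 1139016054) (nat_lit 43) (nat_lit 4) (nat_lit 46) (nat_lit 5) (nat_lit 46) (nat_lit 4) (nat_lit 322) (nat_lit 235) (nat_lit 223)) (XT.lf (nat_lit 0) (nat_lit 2225848977) (nat_lit 304) (nat_lit 4035071469) (nat_lit 76) (nat_lit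 5954251990) (nat_lit 42) (nat_lit 5) (nat_lit 46) (nat_lit 5) (nat_lit 43) (nat_lit 4) (nat_lit 323) (nat_lit 235) (nat_lit 222))))))))
noncomputable def xc47 : XT := (XT.nd (nat_lit 1872) (nat_lit 608) (nat_lit 0) (XT.nd (nat_lit 936) (nat_lit 684) (nat_lit 0) (XT.nd (nat_lit 468) (nat_lit 608) (nat_lit 0) (XT.nd (nat_lit 234) (nat_lit 228) (nat_lit 0) (XT.nd (nat_lit 78) (nat_lit 228) (nat_lit 0) (XT.lf (nat_lit 0) (nat_lit 2324807541) (nat_lit 152) (nat_lit 3295921612) (nat_lit 228) (nat_lit 6833108813) (nat_lit 40) (nat_lit 5) (nat_lit 42) (nat_lit 5) (nat_lit 43) (nat_lit 4) (nat_lit 324) (nat_lit 235) (nat_lit 221)) (XT.nd (nat_lit 78) (nat_lit 228) (nat_lit 0) (XT.lf (nat_lit 0) (nat_lit 8848781555) (nat_lit 152) (nat_lit 240033580) (nat_lit 228) (nat_lit 3611782993) (nat_lit 40) (nat_lit 5) (nat_lit 42) (nat_lit 5) (nat_lit 43) (nat_lit 4) (nat_lit 325) (nat_lit 235) (nat_lit 220)) (XT.lf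 (nat_lit 0) (nat_lit 2527127951) (nat_lit 228) (nat_lit 10118317503) (nat_lit 228) (nat_lit 309853843) (nat_lit 37) (nat_lit 4) (nat_lit 40) (nat_lit 5) (nat_lit 40) (nat_lit 4) (nat_lit 326) (nat_lit 235) (nat_lit 219)))) (XT.nd (nat_lit 78) (nat_lit 152) (nat_lit 0) (XT.lf (nat_lit 0) (nat_lit 3004946427) (nat_lit 304) (nat_lit 4180855628) (nat_lit 76) (nat_lit 6031793108) (nat_lit 36) (nat_lit 5) (nat_lit 40) (nat_lit 5) (nat_lit 37) (nat_lit 4) (nat_lit 327) (nat_lit 235) (nat_lit 218)) (XT.nd (nat_lit 78) (nat_lit 0) (nat_lit 0) (XT.lf (nat_lit 0) (nat_lit 2188364342) (nat_lit 152) (nat_lit 4180076171) (nat_lit 228) (nat_lit 7120630066) (nat_lit 34) (nat_lit 5) (nat_lit 36) (nat_lit 5) (nat_lit 37) (nat_lit 4) (nat_lit 328) (nat_lit 235) (nat_lit 217)) (XT.lf (nat_lit 0) (nat_lit 8730245010) (nat_lit 152) (nat_lit 1080163131) (nat_lit 228) (nat_lit 3959020139) (nat_lit 34) (nat_lit 5) (nat_lit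 36) (nat_lit 5) (nat_lit 37) (nat_lit 4) (nat_lit 329) (nat_lit 235) (nat_lit 216))))) (XT.nd (nat_lit 234) (nat_lit 380) (nat_lit 0) (XT.nd (nat_lit 78) (nat_lit 76) (nat_lit 0) (XT.lf (nat_lit 0) (nat_lit 1312829825) (nat_lit 152) (nat_lit 12012598635) (nat_lit 152) (nat_lit 733737631) (nat_lit 32) (nat_lit 4) (nat_lit 34) (nat_lit 5) (nat_lit 34) (nat_lit 4) (nat_lit 330) (nat_lit 235) (nat_lit 215)) (XT.nd (nat_lit 78) (nat_lit 0) (nat_lit 0) (XT.lf (nat_lit 0) (nat_lit 2536930492) (nat_lit 228) (nat_lit 6536417145) (nat_lit 76) (nat_lit 5283587522) (nat_lit 31) (nat_lit 5) (nat_lit 34) (nat_lit 5) (nat_lit 32) (nat_lit 4) (nat_lit 331) (nat_lit 235) (nat_lit 214)) (XT.lf (nat_lit 0) (nat_lit 5829854646) (nat_lit 228) (nat_lit 247436494) (nat_lit 76) (nat_lit 8588019544) (nat_lit 31) (nat_lit 5) (nat_lit 34) (nat_lit 5) (nat_lit 32) (nat_lit 4) (nat_lit 332) (nat_lit 235) (nat_lit 213)))) (XT.nd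 (nat_lit 78) (nat_lit 228) (nat_lit 0) (XT.lf (nat_lit 0) (nat_lit 6255215837) (nat_lit 152) (nat_lit 2967143128) (nat_lit 228) (nat_lit 5760610879) (nat_lit 29) (nat_lit 5) (nat_lit 31) (nat_lit 5) (nat_lit 32) (nat_lit 4) (nat_lit 333) (nat_lit 235) (nat_lit 212)) (XT.nd (nat_lit 78) (nat_lit 228) (nat_lit 0) (XT.lf (nat_lit 0) (nat_lit 12662540005) (nat_lit 228) (nat_lit 2451917398) (nat_lit 0) (nat_lit 197378834) (nat_lit 29) (nat_lit 5) (nat_lit 32) (nat_lit 4) (nat_lit 29) (nat_lit 4) (nat_lit 334) (nat_lit 235) (nat_lit 211)) (XT.lf (nat_lit 0) (nat_lit 554889403) (nat_lit 228) (nat_lit 11690270363) (nat_lit 76) (nat_lit 3404989025) (nat_lit 26) (nat_lit 5) (nat_lit 29) (nat_lit 5) (nat_lit 27) (nat_lit 4) (nat_lit 335) (nat_lit 235) (nat_lit 210)))))) (XT.nd (nat_lit 468) (nat_lit 304) (nat_lit 0) (XT.nd (nat_lit 234) (nat_lit 228) (nat_lit 0) (XT.nd (nat_lit 78) (nat_lit 152) (nat_lit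 0) (XT.lf (nat_lit 0) (nat_lit 3769934004) (nat_lit 228) (nat_lit 5505025630) (nat_lit 76) (nat_lit 6723874601) (nat_lit 26) (nat_lit 5) (nat_lit 29) (nat_lit 5) (nat_lit 27) (nat_lit 4) (nat_lit 336) (nat_lit 235) (nat_lit 209)) (XT.nd (nat_lit 78) (nat_lit 0) (nat_lit 0) (XT.lf (nat_lit 0) (nat_lit 788966263) (nat_lit 152) (nat_lit 6244685497) (nat_lit 228) (nat_lit 9325810256) (nat_lit 24) (nat_lit 5) (nat_lit 26) (nat_lit 5) (nat_lit 27) (nat_lit 4) (nat_lit 337) (nat_lit 235) (nat_lit 208)) (XT.lf (nat_lit 0) (nat_lit 7293323763) (nat_lit 152) (nat_lit 3102919885) (nat_lit 228) (nat_lit 6334683124) (nat_lit 24) (nat_lit 5) (nat_lit 26) (nat_lit 5) (nat_lit 27) (nat_lit 4) (nat_lit 338) (nat_lit 235) (nat_lit 207)))) (XT.nd (nat_lit 78) (nat_lit 228) (nat_lit 0) (XT.lf (nat_lit 0) (nat_lit 13807614171) (nat_lit 228) (nat_lit 3211939880) (nat_lit 0) (nat_lit 95590041) (nat_lit 24) (nat_lit 5)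 (nat_lit 27) (nat_lit 4) (nat_lit 24) (nat_lit 4) (nat_lit 339) (nat_lit 235) (nat_lit 206)) (XT.nd (nat_lit 78) (nat_lit 76) (nat_lit 0) (XT.lf (nat_lit 0) (nat_lit 3143800589) (nat_lit 152) (nat_lit 14186643503) (nat_lit 152) (nat_lit 180214612) (nat_lit 22) (nat_lit 4) (nat_lit 24) (nat_lit 5) (nat_lit 24) (nat_lit 4) (nat_lit 340) (nat_lit 235) (nat_lit 205)) (XT.lf (nat_lit 0) (nat_lit 2962642177) (nat_lit 228) (nat_lit 8278095135) (nat_lit 76) (nat_lit 6677034442) (nat_lit 21) (nat_lit 5) (nat_lit 24) (nat_lit 5) (nat_lit 22) (nat_lit 4) (nat_lit 341) (nat_lit 235) (nat_lit 204))))) (XT.nd (nat_lit 234) (nat_lit 228) (nat_lit 0) (XT.nd (nat_lit 78) (nat_lit 76) (nat_lit 0) (XT.lf (nat_lit 0) (nat_lit 6145974089) (nat_lit 228) (nat_lit 2093436077) (nat_lit 76) (nat_lit 10099180712) (nat_lit 21) (nat_lit 5) (nat_lit 24) (nat_lit 5) (nat_lit 22) (nat_lit 4) (nat_lit 342) (nat_lit 235) (nat_lit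 203)) (XT.nd (nat_lit 78) (nat_lit 0) (nat_lit 0) (XT.lf (nat_lit 0) (nat_lit 4277729370) (nat_lit 76) (nat_lit 5139470093) (nat_lit 152) (nat_lit 9355102686) (nat_lit 20) (nat_lit 5) (nat_lit 21) (nat_lit 5) (nat_lit 22) (nat_lit 4) (nat_lit 343) (nat_lit 235) (nat_lit 202)) (XT.lf (nat_lit 0) (nat_lit 10801244773) (nat_lit 76) (nat_lit 1958363665) (nat_lit 152) (nat_lit 6460263144) (nat_lit 20) (nat_lit 5) (nat_lit 21) (nat_lit 5) (nat_lit 22) (nat_lit 4) (nat_lit 344) (nat_lit 235) (nat_lit 201)))) (XT.nd (nat_lit 78) (nat_lit 228) (nat_lit 0) (XT.lf (nat_lit 0) (nat_lit 16167955169) (nat_lit 152) (nat_lit 2253516652) (nat_lit 0) (nat_lit 1260463430) (nat_lit 20) (nat_lit 5) (nat_lit 22) (nat_lit 4) (nat_lit 20) (nat_lit 4) (nat_lit 345) (nat_lit 235) (nat_lit 200)) (XT.nd (nat_lit 78) (nat_lit 76) (nat_lit 0) (XT.lf (nat_lit 0) (nat_lit 4078646070) (nat_lit 152) (nat_lit 15612865878) (nat_lit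 152) (nat_lit 465996128) (nat_lit 18) (nat_lit 4) (nat_lit 20) (nat_lit 5) (nat_lit 20) (nat_lit 4) (nat_lit 346) (nat_lit 235) (nat_lit 199)) (XT.lf (nat_lit 0) (nat_lit 2598709507) (nat_lit 228) (nat_lit 10103895287) (nat_lit 76) (nat_lit 7944682790) (nat_lit 17) (nat_lit 5) (nat_lit 20) (nat_lit 5) (nat_lit 18) (nat_lit 4) (nat_lit 347) (nat_lit 235) (nat_lit 198))))))) (XT.nd (nat_lit 936) (nat_lit 228) (nat_lit 0) (XT.nd (nat_lit 468) (nat_lit 152) (nat_lit 0) (XT.nd (nat_lit 234) (nat_lit 152) (nat_lit 0) (XT.nd (nat_lit 78) (nat_lit 76) (nat_lit 0) (XT.lf (nat_lit 0) (nat_lit 5701785350) (nat_lit 228) (nat_lit 4030288062) (nat_lit 76) (nat_lit 11420907776) (nat_lit 17) (nat_lit 5) (nat_lit 20) (nat_lit 5) (nat_lit 18) (nat_lit 4) (nat_lit 348) (nat_lit 235) (nat_lit 197)) (XT.nd (nat_lit 78) (nat_lit 0) (nat_lit 0) (XT.lf (nat_lit 0) (nat_lit 2194570111) (nat_lit 76) (nat_lit 6681561526)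 (nat_lit 152) (nat_lit 12798400634) (nat_lit 16) (nat_lit 5) (nat_lit 17) (nat_lit 5) (nat_lit 18) (nat_lit 4) (nat_lit 349) (nat_lit 235) (nat_lit 196)) (XT.lf (nat_lit 0) (nat_lit 8615733094) (nat_lit 76) (nat_lit 3528303591) (nat_lit 152) (nat_lit 10067774436) (nat_lit 16) (nat_lit 5) (nat_lit 17) (nat_lit 5) (nat_lit 18) (nat_lit 4) (nat_lit 350) (nat_lit 235) (nat_lit 195)))) (XT.nd (nat_lit 78) (nat_lit 152) (nat_lit 0) (XT.lf (nat_lit 0) (nat_lit 15158600976) (nat_lit 76) (nat_lit 310242338) (nat_lit 152) (nat_lit 7297629269) (nat_lit 16) (nat_lit 5) (nat_lit 17) (nat_lit 5) (nat_lit 18) (nat_lit 4) (nat_lit 351) (nat_lit 235) (nat_lit 194)) (XT.nd (nat_lit 78) (nat_lit 152) (nat_lit 0) (XT.lf (nat_lit 0) (nat_lit 18882058390) (nat_lit 152) (nat_lit 1538712180) (nat_lit 0) (nat_lit 2917372691) (nat_lit 16) (nat_lit 5) (nat_lit 18) (nat_lit 4) (nat_lit 16) (nat_lit 4) (nat_lit 352) (nat_lit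 235) (nat_lit 193)) (XT.lf (nat_lit 0) (nat_lit 4734048632) (nat_lit 152) (nat_lit 17673155382) (nat_lit 152) (nat_lit 1519502470) (nat_lit 14) (nat_lit 4) (nat_lit 16) (nat_lit 5) (nat_lit 16) (nat_lit 4) (nat_lit 353) (nat_lit 235) (nat_lit 192))))) (XT.nd (nat_lit 234) (nat_lit 76) (nat_lit 0) (XT.nd (nat_lit 78) (nat_lit 0) (nat_lit 0) (XT.lf (nat_lit 0) (nat_lit 1452536876) (nat_lit 228) (nat_lit 13388466366) (nat_lit 76) (nat_lit 9692214188) (nat_lit 13) (nat_lit 5) (nat_lit 16) (nat_lit 5) (nat_lit 14) (nat_lit 4) (nat_lit 354) (nat_lit 235) (nat_lit 191)) (XT.nd (nat_lit 78) (nat_lit 0) (nat_lit 0) (XT.lf (nat_lit 0) (nat_lit 4445370781) (nat_lit 228) (nat_lit 7491133260) (nat_lit 76) (nat_lit 13222129143) (nat_lit 13) (nat_lit 5) (nat_lit 16) (nat_lit 5) (nat_lit 14) (nat_lit 4) (nat_lit 355) (nat_lit 235) (nat_lit 190)) (XT.lf (nat_lit 0) (nat_lit 7491265309) (nat_lit 228) (nat_lit 1480899139)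 (nat_lit 76) (nat_lit 16831773970) (nat_lit 13) (nat_lit 5) (nat_lit 16) (nat_lit 5) (nat_lit 14) (nat_lit 4) (nat_lit 356) (nat_lit 235) (nat_lit 189)))) (XT.nd (nat_lit 78) (nat_lit 0) (nat_lit 0) (XT.lf (nat_lit 0) (nat_lit 4739981775) (nat_lit 76) (nat_lit 5898463748) (nat_lit 152) (nat_lit 15829884558) (nat_lit 12) (nat_lit 5) (nat_lit 13) (nat_lit 5) (nat_lit 14) (nat_lit 4) (nat_lit 357) (nat_lit 235) (nat_lit 188)) (XT.nd (nat_lit 78) (nat_lit 0) (nat_lit 0) (XT.lf (nat_lit 0) (nat_lit 11116301107) (nat_lit 76) (nat_lit 2743486342) (nat_lit 152) (nat_lit 13293497479) (nat_lit 12) (nat_lit 5) (nat_lit 13) (nat_lit 5) (nat_lit 14) (nat_lit 4) (nat_lit 358) (nat_lit 235) (nat_lit 187)) (XT.lf (nat_lit 0) (nat_lit 17148206769) (nat_lit 152) (nat_lit 10240298960) (nat_lit 0) (nat_lit 471192708) (nat_lit 12) (nat_lit 5) (nat_lit 14) (nat_lit 4) (nat_lit 12) (nat_lit 4) (nat_lit 359) (nat_lit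 235) (nat_lit 186)))))) (XT.nd (nat_lit 468) (nat_lit 76) (nat_lit 0) (XT.nd (nat_lit 234) (nat_lit 76) (nat_lit 0) (XT.nd (nat_lit 78) (nat_lit 76) (nat_lit 0) (XT.lf (nat_lit 0) (nat_lit 20529016467) (nat_lit 152) (nat_lit 4355668265) (nat_lit 0) (nat_lit 3702829943) (nat_lit 12) (nat_lit 5) (nat_lit 14) (nat_lit 4) (nat_lit 12) (nat_lit 4) (nat_lit 360) (nat_lit 235) (nat_lit 185)) (XT.nd (nat_lit 78) (nat_lit 0) (nat_lit 0) (XT.lf (nat_lit 0) (nat_lit 1681229077) (nat_lit 76) (nat_lit 22313730504) (nat_lit 76) (nat_lit 5342716346) (nat_lit 11) (nat_lit 4) (nat_lit 12) (nat_lit 5) (nat_lit 12) (nat_lit 4) (nat_lit 361) (nat_lit 235) (nat_lit 184)) (XT.lf (nat_lit 0) (nat_lit 7932000761) (nat_lit 76) (nat_lit 19644813962) (nat_lit 76) (nat_lit 2533190450) (nat_lit 11) (nat_lit 4) (nat_lit 12) (nat_lit 5) (nat_lit 12) (nat_lit 4) (nat_lit 362) (nat_lit 235) (nat_lit 183)))) (XT.nd (nat_lit 78)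 (nat_lit 0) (nat_lit 0) (XT.lf (nat_lit 0) (nat_lit 322139487) (nat_lit 152) (nat_lit 16594194287) (nat_lit 76) (nat_lit 13990029820) (nat_lit 10) (nat_lit 5) (nat_lit 12) (nat_lit 5) (nat_lit 11) (nat_lit 4) (nat_lit 363) (nat_lit 235) (nat_lit 182)) (XT.nd (nat_lit 78) (nat_lit 0) (nat_lit 0) (XT.lf (nat_lit 0) (nat_lit 3181685854) (nat_lit 152) (nat_lit 10921852963) (nat_lit 76) (nat_lit 17623256754) (nat_lit 10) (nat_lit 5) (nat_lit 12) (nat_lit 5) (nat_lit 11) (nat_lit 4) (nat_lit 364) (nat_lit 235) (nat_lit 181)) (XT.lf (nat_lit 0) (nat_lit 6097378952) (nat_lit 152) (nat_lit 5131673451) (nat_lit 76) (nat_lit 21343696101) (nat_lit 10) (nat_lit 5) (nat_lit 12) (nat_lit 5) (nat_lit 11) (nat_lit 4) (nat_lit 365) (nat_lit 235) (nat_lit 180))))) (XT.nd (nat_lit 234) (nat_lit 0) (nat_lit 0) (XT.nd (nat_lit 78) (nat_lit 0) (nat_lit 0) (XT.lf (nat_lit 0) (nat_lit 796955093) (nat_lit 76) (nat_lit 8282472201)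 (nat_lit 152) (nat_lit 24365304458) (nat_lit 9) (nat_lit 5) (nat_lit 10) (nat_lit 5) (nat_lit 11) (nat_lit 4) (nat_lit 366) (nat_lit 235) (nat_lit 179)) (XT.nd (nat_lit 78) (nat_lit 0) (nat_lit 0) (XT.lf (nat_lit 0) (nat_lit 6958327067) (nat_lit 76) (nat_lit 5216008028) (nat_lit 152) (nat_lit 22167855187) (nat_lit 9) (nat_lit 5) (nat_lit 10) (nat_lit 5) (nat_lit 11) (nat_lit 4) (nat_lit 367) (nat_lit 235) (nat_lit 178)) (XT.lf (nat_lit 0) (nat_lit 13255695832) (nat_lit 76) (nat_lit 2078800291) (nat_lit 152) (nat_lit 19932921479) (nat_lit 9) (nat_lit 5) (nat_lit 10) (nat_lit 5) (nat_lit 11) (nat_lit 4) (nat_lit 368) (nat_lit 235) (nat_lit 177)))) (XT.nd (nat_lit 78) (nat_lit 0) (nat_lit 0) (XT.lf (nat_lit 0) (nat_lit 18573552120) (nat_lit 152) (nat_lit 16537538658) (nat_lit 0) (nat_lit 1109804965) (nat_lit 9) (nat_lit 5) (nat_lit 11) (nat_lit 4) (nat_lit 9) (nat_lit 4) (nat_lit 369) (nat_lit 235)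 (nat_lit 176)) (XT.nd (nat_lit 78) (nat_lit 0) (nat_lit 0) (XT.lf (nat_lit 0) (nat_lit 21904159433) (nat_lit 152) (nat_lit 10966356715) (nat_lit 0) (nat_lit 4332646917) (nat_lit 9) (nat_lit 5) (nat_lit 11) (nat_lit 4) (nat_lit 9) (nat_lit 4) (nat_lit 370) (nat_lit 235) (nat_lit 175)) (XT.lf (nat_lit 0) (nat_lit 25309245600) (nat_lit 152) (nat_lit 5273325217) (nat_lit 0) (nat_lit 7633106520) (nat_lit 9) (nat_lit 5) (nat_lit 11) (nat_lit 4) (nat_lit 9) (nat_lit 4) (nat_lit 371) (nat_lit 235) (nat_lit 174))))))))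
noncomputable def xc48 : XT := (XT.nd (nat_lit 1794) (nat_lit 152) (nat_lit 0) (XT.nd (nat_lit 858) (nat_lit 76) (nat_lit 0) (XT.nd (nat_lit 390) (nat_lit 76) (nat_lit 0) (XT.nd (nat_lit 156) (nat_lit 76) (nat_lit 0) (XT.nd (nat_lit 78) (nat_lit 0) (nat_lit 0) (XT.lf (nat_lit 0) (nat_lit 557407353) (nat_lit 76) (nat_lit 28239736727) (nat_lit 76) (nat_lit 10462018458) (nat_lit 8) (nat_lit 4) (nat_lit 9) (nat_lit 5) (nat_lit 9) (nat_lit 4) (nat_lit 372) (nat_lit 235) (nat_lit 173)) (XT.lf (nat_lit 0) (nat_lit 6627624049) (nat_lit 76) (nat_lit 25790908176) (nat_lit 76) (nat_lit 7914569335) (nat_lit 8) (nat_lit 4) (nat_lit 9) (nat_lit 5) (nat_lit 9) (nat_lit 4) (nat_lit 373) (nat_lit 235) (nat_lit 172))) (XT.nd (nat_lit 78) (nat_lit 76) (nat_lit 0) (XT.lf (nat_lit 0) (nat_lit 12837679432) (nat_lit 76) (nat_lit 23287195655) (nat_lit 76) (nat_lit 5315108686) (nat_lit 8) (nat_lit 4) (nat_lit 9) (nat_lit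 5) (nat_lit 9) (nat_lit 4) (nat_lit 374) (nat_lit 235) (nat_lit 171)) (XT.nd (nat_lit 78) (nat_lit 76) (nat_lit 0) (XT.lf (nat_lit 0) (nat_lit 19192999764) (nat_lit 76) (nat_lit 20726411455) (nat_lit 76) (nat_lit 2661365139) (nat_lit 8) (nat_lit 4) (nat_lit 9) (nat_lit 5) (nat_lit 9) (nat_lit 4) (nat_lit 375) (nat_lit 235) (nat_lit 170)) (XT.lf (nat_lit 0) (nat_lit 48024332) (nat_lit 152) (nat_lit 18057808713) (nat_lit 76) (nat_lit 25650628952) (nat_lit 7) (nat_lit 5) (nat_lit 9) (nat_lit 5) (nat_lit 8) (nat_lit 4) (nat_lit 376) (nat_lit 235) (nat_lit 169))))) (XT.nd (nat_lit 234) (nat_lit 76) (nat_lit 0) (XT.nd (nat_lit 78) (nat_lit 0) (nat_lit 0) (XT.lf (nat_lit 0) (nat_lit 2763300235) (nat_lit 152) (nat_lit 12633421731) (nat_lit 76) (nat_lit 29570575676) (nat_lit 7) (nat_lit 5) (nat_lit 9) (nat_lit 5) (nat_lit 8) (nat_lit 4) (nat_lit 377) (nat_lit 235) (nat_lit 168)) (XT.nd (nat_lit 78) (nat_lit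 0) (nat_lit 0) (XT.lf (nat_lit 0) (nat_lit 5538767959) (nat_lit 152) (nat_lit 7084293222) (nat_lit 76) (nat_lit 33592047601) (nat_lit 7) (nat_lit 5) (nat_lit 9) (nat_lit 5) (nat_lit 8) (nat_lit 4) (nat_lit 378) (nat_lit 235) (nat_lit 167)) (XT.lf (nat_lit 0) (nat_lit 8376852670) (nat_lit 152) (nat_lit 1405574435) (nat_lit 76) (nat_lit 37718558636) (nat_lit 7) (nat_lit 5) (nat_lit 9) (nat_lit 5) (nat_lit 8) (nat_lit 4) (nat_lit 379) (nat_lit 235) (nat_lit 166)))) (XT.nd (nat_lit 78) (nat_lit 0) (nat_lit 0) (XT.lf (nat_lit 0) (nat_lit 4495418424) (nat_lit 76) (nat_lit 6827828536) (nat_lit 152) (nat_lit 37501508756) (nat_lit 6) (nat_lit 5) (nat_lit 7) (nat_lit 5) (nat_lit 8) (nat_lit 4) (nat_lit 380) (nat_lit 235) (nat_lit 165)) (XT.nd (nat_lit 78) (nat_lit 0) (nat_lit 0) (XT.lf (nat_lit 0) (nat_lit 10566795742) (nat_lit 76) (nat_lit 3785628217) (nat_lit 152) (nat_lit 35835994484) (nat_lit 6) (nat_lit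 5) (nat_lit 7) (nat_lit 5) (nat_lit 8) (nat_lit 4) (nat_lit 381) (nat_lit 235) (nat_lit 164)) (XT.lf (nat_lit 0) (nat_lit 16785888917) (nat_lit 76) (nat_lit 667361461) (nat_lit 152) (nat_lit 34140328496) (nat_lit 6) (nat_lit 5) (nat_lit 7) (nat_lit 5) (nat_lit 8) (nat_lit 4) (nat_lit 382) (nat_lit 235) (nat_lit 163)))))) (XT.nd (nat_lit 468) (nat_lit 76) (nat_lit 0) (XT.nd (nat_lit 234) (nat_lit 0) (nat_lit 0) (XT.nd (nat_lit 78) (nat_lit 0) (nat_lit 0) (XT.lf (nat_lit 0) (nat_lit 20652752669) (nat_lit 152) (nat_lit 29907649703) (nat_lit 0) (nat_lit 2480332941) (nat_lit 6) (nat_lit 5) (nat_lit 8) (nat_lit 4) (nat_lit 6) (nat_lit 4) (nat_lit 383) (nat_lit 235) (nat_lit 162)) (XT.nd (nat_lit 78) (nat_lit 0) (nat_lit 0) (XT.lf (nat_lit 0) (nat_lit 23936587602) (nat_lit 152) (nat_lit 24900081438) (nat_lit 0) (nat_lit 5694997390) (nat_lit 6) (nat_lit 5) (nat_lit 8) (nat_lit 4) (nat_lit 6) (nat_lit 4)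 (nat_lit 384) (nat_lit 235) (nat_lit 161)) (XT.lf (nat_lit 0) (nat_lit 27301209462) (nat_lit 152) (nat_lit 19774194533) (nat_lit 0) (nat_lit 8992463439) (nat_lit 6) (nat_lit 5) (nat_lit 8) (nat_lit 4) (nat_lit 6) (nat_lit 4) (nat_lit 385) (nat_lit 235) (nat_lit 160)))) (XT.nd (nat_lit 78) (nat_lit 0) (nat_lit 0) (XT.lf (nat_lit 0) (nat_lit 30749558209) (nat_lit 152) (nat_lit 14525510056) (nat_lit 0) (nat_lit 12375612370) (nat_lit 6) (nat_lit 5) (nat_lit 8) (nat_lit 4) (nat_lit 6) (nat_lit 4) (nat_lit 386) (nat_lit 235) (nat_lit 159)) (XT.nd (nat_lit 78) (nat_lit 0) (nat_lit 0) (XT.lf (nat_lit 0) (nat_lit 34284646964) (nat_lit 152) (nat_lit 9149441778) (nat_lit 0) (nat_lit 15847400333) (nat_lit 6) (nat_lit 5) (nat_lit 8) (nat_lit 4) (nat_lit 6) (nat_lit 4) (nat_lit 387) (nat_lit 235) (nat_lit 158)) (XT.lf (nat_lit 0) (nat_lit 37909564640) (nat_lit 152) (nat_lit 3641292165) (nat_lit 0) (nat_lit 19410860929)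 (nat_lit 6) (nat_lit 5) (nat_lit 8) (nat_lit 4) (nat_lit 6) (nat_lit 4) (nat_lit 388) (nat_lit 235) (nat_lit 157))))) (XT.nd (nat_lit 234) (nat_lit 0) (nat_lit 0) (XT.nd (nat_lit 78) (nat_lit 0) (nat_lit 0) (XT.lf (nat_lit 0) (nat_lit 2043630318) (nat_lit 76) (nat_lit 39603492946) (nat_lit 76) (nat_lit 21045122168) (nat_lit 5) (nat_lit 4) (nat_lit 6) (nat_lit 5) (nat_lit 6) (nat_lit 4) (nat_lit 389) (nat_lit 235) (nat_lit 156)) (XT.nd (nat_lit 78) (nat_lit 0) (nat_lit 0) (XT.lf (nat_lit 0) (nat_lit 7945671132) (nat_lit 76) (nat_lit 37572345144) (nat_lit 76) (nat_lit 18956045175) (nat_lit 5) (nat_lit 4) (nat_lit 6) (nat_lit 5) (nat_lit 6) (nat_lit 4) (nat_lit 390) (nat_lit 235) (nat_lit 155)) (XT.lf (nat_lit 0) (nat_lit 13997518547) (nat_lit 76) (nat_lit 35492408523) (nat_lit 76) (nat_lit 16819866619) (nat_lit 5) (nat_lit 4) (nat_lit 6) (nat_lit 5) (nat_lit 6) (nat_lit 4) (nat_lit 391) (nat_lit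 235) (nat_lit 154)))) (XT.nd (nat_lit 78) (nat_lit 0) (nat_lit 0) (XT.lf (nat_lit 0) (nat_lit 20204460584) (nat_lit 76) (nat_lit 33361865661) (nat_lit 76) (nat_lit 14634719938) (nat_lit 5) (nat_lit 4) (nat_lit 6) (nat_lit 5) (nat_lit 6) (nat_lit 4) (nat_lit 392) (nat_lit 235) (nat_lit 153)) (XT.nd (nat_lit 78) (nat_lit 0) (nat_lit 0) (XT.lf (nat_lit 0) (nat_lit 26571920784) (nat_lit 76) (nat_lit 31178854918) (nat_lit 76) (nat_lit 12398695778) (nat_lit 5) (nat_lit 4) (nat_lit 6) (nat_lit 5) (nat_lit 6) (nat_lit 4) (nat_lit 393) (nat_lit 235) (nat_lit 152)) (XT.lf (nat_lit 0) (nat_lit 33105462949) (nat_lit 76) (nat_lit 28941468811) (nat_lit 76) (nat_lit 10109840334) (nat_lit 5) (nat_lit 4) (nat_lit 6) (nat_lit 5) (nat_lit 6) (nat_lit 4) (nat_lit 394) (nat_lit 235) (nat_lit 151))))))) (XT.nd (nat_lit 34086) (nat_lit 0) (nat_lit 3040) (XT.nd (nat_lit 468) (nat_lit 76) (nat_lit 0) (XT.nd (nat_lit 234)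 (nat_lit 76) (nat_lit 0) (XT.nd (nat_lit 78) (nat_lit 0) (nat_lit 0) (XT.lf (nat_lit 0) (nat_lit 39810795997) (nat_lit 76) (nat_lit 26647752341) (nat_lit 76) (nat_lit 7766153634) (nat_lit 5) (nat_lit 4) (nat_lit 6) (nat_lit 5) (nat_lit 6) (nat_lit 4) (nat_lit 395) (nat_lit 235) (nat_lit 150)) (XT.nd (nat_lit 78) (nat_lit 0) (nat_lit 0) (XT.lf (nat_lit 0) (nat_lit 46693778959) (nat_lit 76) (nat_lit 24295701289) (nat_lit 76) (nat_lit 5365587797) (nat_lit 5) (nat_lit 4) (nat_lit 6) (nat_lit 5) (nat_lit 6) (nat_lit 4) (nat_lit 396) (nat_lit 235) (nat_lit 149)) (XT.lf (nat_lit 0) (nat_lit 53760426091) (nat_lit 76) (nat_lit 21883260467) (nat_lit 76) (nat_lit 2906045240) (nat_lit 5) (nat_lit 4) (nat_lit 6) (nat_lit 5) (nat_lit 6) (nat_lit 4) (nat_lit 397) (nat_lit 235) (nat_lit 148)))) (XT.nd (nat_lit 78) (nat_lit 76) (nat_lit 0) (XT.lf (nat_lit 0) (nat_lit 61016912133) (nat_lit 76) (nat_lit 19408321915)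 (nat_lit 76) (nat_lit 385376850) (nat_lit 5) (nat_lit 4) (nat_lit 6) (nat_lit 5) (nat_lit 6) (nat_lit 4) (nat_lit 398) (nat_lit 235) (nat_lit 147)) (XT.nd (nat_lit 78) (nat_lit 0) (nat_lit 0) (XT.lf (nat_lit 0) (nat_lit 2155716906) (nat_lit 152) (nat_lit 14691237646) (nat_lit 76) (nat_lit 66292092284) (nat_lit 4) (nat_lit 5) (nat_lit 6) (nat_lit 5) (nat_lit 5) (nat_lit 4) (nat_lit 399) (nat_lit 235) (nat_lit 146)) (XT.lf (nat_lit 0) (nat_lit 4753596971) (nat_lit 152) (nat_lit 9460645875) (nat_lit 76) (nat_lit 71323335863) (nat_lit 4) (nat_lit 5) (nat_lit 6) (nat_lit 5) (nat_lit 5) (nat_lit 4) (nat_lit 400) (nat_lit 235) (nat_lit 145))))) (XT.nd (nat_lit 33384) (nat_lit 0) (nat_lit 4940) (XT.nd (nat_lit 78) (nat_lit 76) (nat_lit 0) (XT.lf (nat_lit 0) (nat_lit 7418053425) (nat_lit 152) (nat_lit 4093648553) (nat_lit 76) (nat_lit 76496711475) (nat_lit 4) (nat_lit 5) (nat_lit 6) (nat_lit 5) (nat_lit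 5) (nat_lit 4) (nat_lit 401) (nat_lit 235) (nat_lit 144)) (XT.nd (nat_lit 78) (nat_lit 0) (nat_lit 0) (XT.lf (nat_lit 0) (nat_lit 1442594134) (nat_lit 76) (nat_lit 8722687398) (nat_lit 152) (nat_lit 80388012508) (nat_lit 3) (nat_lit 5) (nat_lit 4) (nat_lit 5) (nat_lit 5) (nat_lit 4) (nat_lit 402) (nat_lit 235) (nat_lit 143)) (XT.lf (nat_lit 0) (nat_lit 7209120368) (nat_lit 76) (nat_lit 5816246482) (nat_lit 152) (nat_lit 80148246749) (nat_lit 3) (nat_lit 5) (nat_lit 4) (nat_lit 5) (nat_lit 5) (nat_lit 4) (nat_lit 403) (nat_lit 235) (nat_lit 142)))) (XT.nd (nat_lit 78) (nat_lit 684) (nat_lit 0) (XT.lf (nat_lit 0) (nat_lit 1954425013) (nat_lit 380) (nat_lit 814243705) (nat_lit 0) (nat_lit 1954425013) (nat_lit 77) (nat_lit 5) (nat_lit 82) (nat_lit 4) (nat_lit 77) (nat_lit 4) (nat_lit 308) (nat_lit 236) (nat_lit 236)) (XT.nd (nat_lit 78) (nat_lit 380) (nat_lit 0) (XT.lf (nat_lit 0) (nat_lit 4505875528)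 (nat_lit 304) (nat_lit 2994934390) (nat_lit 304) (nat_lit 2089703495) (nat_lit 73) (nat_lit 4) (nat_lit 77) (nat_lit 5) (nat_lit 77) (nat_lit 4) (nat_lit 309) (nat_lit 236) (nat_lit 235)) (XT.lf (nat_lit 0) (nat_lit 1002357340) (nat_lit 304) (nat_lit 370279695) (nat_lit 380) (nat_lit 8368045315) (nat_lit 68) (nat_lit 5) (nat_lit 72) (nat_lit 5) (nat_lit 73) (nat_lit 4) (nat_lit 310) (nat_lit 236) (nat_lit 234)))))) (XT.nd (nat_lit 468) (nat_lit 988) (nat_lit 0) (XT.nd (nat_lit 234) (nat_lit 532) (nat_lit 0) (XT.nd (nat_lit 78) (nat_lit 380) (nat_lit 0) (XT.lf (nat_lit 0) (nat_lit 4885692716) (nat_lit 380) (nat_lit 2684355938) (nat_lit 0) (nat_lit 2325146327) (nat_lit 68) (nat_lit 5) (nat_lit 73) (nat_lit 4) (nat_lit 68) (nat_lit 4) (nat_lit 311) (nat_lit 236) (nat_lit 233)) (XT.nd (nat_lit 78) (nat_lit 76) (nat_lit 0) (XT.lf (nat_lit 0) (nat_lit 3496269898) (nat_lit 304) (nat_lit 4962198320) (nat_lit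 304) (nat_lit 1597366006) (nat_lit 64) (nat_lit 4) (nat_lit 68) (nat_lit 5) (nat_lit 68) (nat_lit 4) (nat_lit 312) (nat_lit 236) (nat_lit 232)) (XT.lf (nat_lit 0) (nat_lit 1824507405) (nat_lit 380) (nat_lit 441942403) (nat_lit 76) (nat_lit 7956060605) (nat_lit 63) (nat_lit 5) (nat_lit 68) (nat_lit 5) (nat_lit 64) (nat_lit 4) (nat_lit 313) (nat_lit 236) (nat_lit 231)))) (XT.nd (nat_lit 78) (nat_lit 304) (nat_lit 0) (XT.lf (nat_lit 0) (nat_lit 5298156658) (nat_lit 304) (nat_lit 4559052823) (nat_lit 0) (nat_lit 537176989) (nat_lit 60) (nat_lit 5) (nat_lit 64) (nat_lit 4) (nat_lit 60) (nat_lit 4) (nat_lit 314) (nat_lit 236) (nat_lit 230)) (XT.nd (nat_lit 78) (nat_lit 76) (nat_lit 0) (XT.lf (nat_lit 0) (nat_lit 1630442886) (nat_lit 228) (nat_lit 7208880774) (nat_lit 228) (nat_lit 1733303477) (nat_lit 57) (nat_lit 4) (nat_lit 60) (nat_lit 5) (nat_lit 60) (nat_lit 4) (nat_lit 315) (nat_lit 236) (nat_lit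 229)) (XT.lf (nat_lit 0) (nat_lit 1664238779) (nat_lit 304) (nat_lit 2790956679) (nat_lit 76) (nat_lit 6301597025) (nat_lit 56) (nat_lit 5) (nat_lit 60) (nat_lit 5) (nat_lit 57) (nat_lit 4) (nat_lit 316) (nat_lit 236) (nat_lit 228))))) (XT.nd (nat_lit 234) (nat_lit 456) (nat_lit 0) (XT.nd (nat_lit 78) (nat_lit 304) (nat_lit 0) (XT.lf (nat_lit 0) (nat_lit 3480899519) (nat_lit 228) (nat_lit 1604734826) (nat_lit 304) (nat_lit 5861729107) (nat_lit 53) (nat_lit 5) (nat_lit 56) (nat_lit 5) (nat_lit 57) (nat_lit 4) (nat_lit 317) (nat_lit 236) (nat_lit 227)) (XT.nd (nat_lit 78) (nat_lit 304) (nat_lit 0) (XT.lf (nat_lit 0) (nat_lit 8575012040) (nat_lit 304) (nat_lit 1273302900) (nat_lit 0) (nat_lit 1296471980) (nat_lit 53) (nat_lit 5) (nat_lit 57) (nat_lit 4) (nat_lit 53) (nat_lit 4) (nat_lit 318) (nat_lit 236) (nat_lit 226)) (XT.lf (nat_lit 0) (nat_lit 795719115) (nat_lit 304) (nat_lit 6279648445) (nat_lit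 76) (nat_lit 4272894866) (nat_lit 49) (nat_lit 5) (nat_lit 53) (nat_lit 5) (nat_lit 50) (nat_lit 4) (nat_lit 319) (nat_lit 236) (nat_lit 225)))) (XT.nd (nat_lit 78) (nat_lit 456) (nat_lit 0) (XT.lf (nat_lit 0) (nat_lit 4150077362) (nat_lit 304) (nat_lit 68765467) (nat_lit 76) (nat_lit 7340137057) (nat_lit 49) (nat_lit 5) (nat_lit 53) (nat_lit 5) (nat_lit 50) (nat_lit 4) (nat_lit 320) (nat_lit 236) (nat_lit 224)) (XT.nd (nat_lit 78) (nat_lit 228) (nat_lit 0) (XT.lf (nat_lit 0) (nat_lit 6342868427) (nat_lit 228) (nat_lit 1251872560) (nat_lit 304) (nat_lit 4181672564) (nat_lit 46) (nat_lit 5) (nat_lit 49) (nat_lit 5) (nat_lit 50) (nat_lit 4) (nat_lit 321) (nat_lit 236) (nat_lit 223)) (XT.lf (nat_lit 0) (nat_lit 836790710) (nat_lit 228) (nat_lit 10261414482) (nat_lit 228) (nat_lit 903583662) (nat_lit 43) (nat_lit 4) (nat_lit 46) (nat_lit 5) (nat_lit 46) (nat_lit 4) (nat_lit 322) (nat_lit 236) (nat_lit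 222))))))))
noncomputable def xc49 : XT := (XT.nd (nat_lit 1794) (nat_lit 836) (nat_lit 0) (XT.nd (nat_lit 858) (nat_lit 684) (nat_lit 0) (XT.nd (nat_lit 390) (nat_lit 532) (nat_lit 0) (XT.nd (nat_lit 156) (nat_lit 304) (nat_lit 0) (XT.nd (nat_lit 78) (nat_lit 152) (nat_lit 0) (XT.lf (nat_lit 0) (nat_lit 2422014731) (nat_lit 304) (nat_lit 4972868661) (nat_lit 76) (nat_lit 4838483991) (nat_lit 42) (nat_lit 5) (nat_lit 46) (nat_lit 5) (nat_lit 43) (nat_lit 4) (nat_lit 323) (nat_lit 236) (nat_lit 221)) (XT.lf (nat_lit 0) (nat_lit 1314446653) (nat_lit 152) (nat_lit 4459073420) (nat_lit 228) (nat_lit 6699851252) (nat_lit 40) (nat_lit 5) (nat_lit 42) (nat_lit 5) (nat_lit 43) (nat_lit 4) (nat_lit 324) (nat_lit 236) (nat_lit 220))) (XT.nd (nat_lit 78) (nat_lit 304) (nat_lit 0) (XT.lf (nat_lit 0) (nat_lit 7786090869) (nat_lit 152) (nat_lit 1422329999) (nat_lit 228) (nat_lit 3512742261) (nat_lit 40) (nat_lit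 5) (nat_lit 42) (nat_lit 5) (nat_lit 43) (nat_lit 4) (nat_lit 325) (nat_lit 236) (nat_lit 219)) (XT.nd (nat_lit 78) (nat_lit 76) (nat_lit 0) (XT.lf (nat_lit 0) (nat_lit 1381248432) (nat_lit 228) (nat_lit 11329025607) (nat_lit 228) (nat_lit 267268609) (nat_lit 37) (nat_lit 4) (nat_lit 40) (nat_lit 5) (nat_lit 40) (nat_lit 4) (nat_lit 326) (nat_lit 236) (nat_lit 218)) (XT.lf (nat_lit 0) (nat_lit 3014405924) (nat_lit 304) (nat_lit 5401185996) (nat_lit 76) (nat_lit 4825236178) (nat_lit 36) (nat_lit 5) (nat_lit 40) (nat_lit 5) (nat_lit 37) (nat_lit 4) (nat_lit 327) (nat_lit 236) (nat_lit 217))))) (XT.nd (nat_lit 234) (nat_lit 380) (nat_lit 0) (XT.nd (nat_lit 78) (nat_lit 0) (nat_lit 0) (XT.lf (nat_lit 0) (nat_lit 892456690) (nat_lit 152) (nat_lit 5441632141) (nat_lit 228) (nat_lit 7179561079) (nat_lit 34) (nat_lit 5) (nat_lit 36) (nat_lit 5) (nat_lit 37) (nat_lit 4) (nat_lit 328) (nat_lit 236) (nat_lit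 216)) (XT.nd (nat_lit 78) (nat_lit 0) (nat_lit 0) (XT.lf (nat_lit 0) (nat_lit 7384540933) (nat_lit 152) (nat_lit 2360595958) (nat_lit 228) (nat_lit 4049829436) (nat_lit 34) (nat_lit 5) (nat_lit 36) (nat_lit 5) (nat_lit 37) (nat_lit 4) (nat_lit 329) (nat_lit 236) (nat_lit 215)) (XT.lf (nat_lit 0) (nat_lit 13205034014) (nat_lit 228) (nat_lit 120822696) (nat_lit 0) (nat_lit 760531344) (nat_lit 34) (nat_lit 5) (nat_lit 37) (nat_lit 4) (nat_lit 34) (nat_lit 4) (nat_lit 330) (nat_lit 236) (nat_lit 214)))) (XT.nd (nat_lit 78) (nat_lit 152) (nat_lit 0) (XT.lf (nat_lit 0) (nat_lit 2360891639) (nat_lit 228) (nat_lit 8047548021) (nat_lit 76) (nat_lit 3976727608) (nat_lit 31) (nat_lit 5) (nat_lit 34) (nat_lit 5) (nat_lit 32) (nat_lit 4) (nat_lit 331) (nat_lit 236) (nat_lit 213)) (XT.nd (nat_lit 78) (nat_lit 152) (nat_lit 0) (XT.lf (nat_lit 0) (nat_lit 5624585980) (nat_lit 228) (nat_lit 1806379946) (nat_lit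 76) (nat_lit 7263481417) (nat_lit 31) (nat_lit 5) (nat_lit 34) (nat_lit 5) (nat_lit 32) (nat_lit 4) (nat_lit 332) (nat_lit 236) (nat_lit 212)) (XT.lf (nat_lit 0) (nat_lit 4617902528) (nat_lit 152) (nat_lit 4355070455) (nat_lit 228) (nat_lit 6040483889) (nat_lit 29) (nat_lit 5) (nat_lit 31) (nat_lit 5) (nat_lit 32) (nat_lit 4) (nat_lit 333) (nat_lit 236) (nat_lit 211)))))) (XT.nd (nat_lit 468) (nat_lit 304) (nat_lit 0) (XT.nd (nat_lit 234) (nat_lit 152) (nat_lit 0) (XT.nd (nat_lit 78) (nat_lit 228) (nat_lit 0) (XT.lf (nat_lit 0) (nat_lit 11178633791) (nat_lit 152) (nat_lit 1204591401) (nat_lit 228) (nat_lit 2960022007) (nat_lit 29) (nat_lit 5) (nat_lit 31) (nat_lit 5) (nat_lit 32) (nat_lit 4) (nat_lit 334) (nat_lit 236) (nat_lit 210)) (XT.nd (nat_lit 78) (nat_lit 0) (nat_lit 0) (XT.lf (nat_lit 0) (nat_lit 193600167) (nat_lit 228) (nat_lit 13501018876) (nat_lit 76) (nat_lit 1988753695) (nat_lit 26)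 (nat_lit 5) (nat_lit 29) (nat_lit 5) (nat_lit 27) (nat_lit 4) (nat_lit 335) (nat_lit 236) (nat_lit 209)) (XT.lf (nat_lit 0) (nat_lit 3381372743) (nat_lit 228) (nat_lit 7361195698) (nat_lit 76) (nat_lit 5290331758) (nat_lit 26) (nat_lit 5) (nat_lit 29) (nat_lit 5) (nat_lit 27) (nat_lit 4) (nat_lit 336) (nat_lit 236) (nat_lit 208)))) (XT.nd (nat_lit 78) (nat_lit 152) (nat_lit 0) (XT.lf (nat_lit 0) (nat_lit 6611028780) (nat_lit 228) (nat_lit 1126697975) (nat_lit 76) (nat_lit 8656846239) (nat_lit 26) (nat_lit 5) (nat_lit 29) (nat_lit 5) (nat_lit 27) (nat_lit 4) (nat_lit 337) (nat_lit 236) (nat_lit 207)) (XT.nd (nat_lit 78) (nat_lit 0) (nat_lit 0) (XT.lf (nat_lit 0) (nat_lit 5311569768) (nat_lit 152) (nat_lit 4624878595) (nat_lit 228) (nat_lit 6830727043) (nat_lit 24) (nat_lit 5) (nat_lit 26) (nat_lit 5) (nat_lit 27) (nat_lit 4) (nat_lit 338) (nat_lit 236) (nat_lit 206)) (XT.lf (nat_lit 0) (nat_lit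 11880021066) (nat_lit 152) (nat_lit 1441495377) (nat_lit 228) (nat_lit 3830687189) (nat_lit 24) (nat_lit 5) (nat_lit 26) (nat_lit 5) (nat_lit 27) (nat_lit 4) (nat_lit 339) (nat_lit 236) (nat_lit 205))))) (XT.nd (nat_lit 234) (nat_lit 76) (nat_lit 0) (XT.nd (nat_lit 78) (nat_lit 76) (nat_lit 0) (XT.lf (nat_lit 0) (nat_lit 1014095520) (nat_lit 152) (nat_lit 15771136862) (nat_lit 152) (nat_lit 764280478) (nat_lit 22) (nat_lit 4) (nat_lit 24) (nat_lit 5) (nat_lit 24) (nat_lit 4) (nat_lit 340) (nat_lit 236) (nat_lit 204)) (XT.nd (nat_lit 78) (nat_lit 0) (nat_lit 0) (XT.lf (nat_lit 0) (nat_lit 2365250167) (nat_lit 228) (nat_lit 10482903266) (nat_lit 76) (nat_lit 5109402589) (nat_lit 21) (nat_lit 5) (nat_lit 24) (nat_lit 5) (nat_lit 22) (nat_lit 4) (nat_lit 341) (nat_lit 236) (nat_lit 203)) (XT.lf (nat_lit 0) (nat_lit 5524578805) (nat_lit 228) (nat_lit 4338888193) (nat_lit 76) (nat_lit 8515647644) (nat_lit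 21) (nat_lit 5) (nat_lit 24) (nat_lit 5) (nat_lit 22) (nat_lit 4) (nat_lit 342) (nat_lit 236) (nat_lit 202)))) (XT.nd (nat_lit 78) (nat_lit 0) (nat_lit 0) (XT.lf (nat_lit 0) (nat_lit 1947342839) (nat_lit 76) (nat_lit 6802756089) (nat_lit 152) (nat_lit 10064116975) (nat_lit 20) (nat_lit 5) (nat_lit 21) (nat_lit 5) (nat_lit 22) (nat_lit 4) (nat_lit 343) (nat_lit 236) (nat_lit 201)) (XT.nd (nat_lit 78) (nat_lit 0) (nat_lit 0) (XT.lf (nat_lit 0) (nat_lit 8431784927) (nat_lit 76) (nat_lit 3637721991) (nat_lit 152) (nat_lit 7192986732) (nat_lit 20) (nat_lit 5) (nat_lit 21) (nat_lit 5) (nat_lit 22) (nat_lit 4) (nat_lit 344) (nat_lit 236) (nat_lit 200)) (XT.lf (nat_lit 0) (nat_lit 15033751705) (nat_lit 76) (nat_lit 409413406) (nat_lit 152) (nat_lit 4282450616) (nat_lit 20) (nat_lit 5) (nat_lit 21) (nat_lit 5) (nat_lit 22) (nat_lit 4) (nat_lit 345) (nat_lit 236) (nat_lit 199))))))) (XT.nd (nat_lit 936)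 (nat_lit 228) (nat_lit 0) (XT.nd (nat_lit 468) (nat_lit 304) (nat_lit 0) (XT.nd (nat_lit 234) (nat_lit 76) (nat_lit 0) (XT.nd (nat_lit 78) (nat_lit 76) (nat_lit 0) (XT.lf (nat_lit 0) (nat_lit 1557688905) (nat_lit 152) (nat_lit 17359038209) (nat_lit 152) (nat_lit 1285978516) (nat_lit 18) (nat_lit 4) (nat_lit 20) (nat_lit 5) (nat_lit 20) (nat_lit 4) (nat_lit 346) (nat_lit 236) (nat_lit 198)) (XT.nd (nat_lit 78) (nat_lit 0) (nat_lit 0) (XT.lf (nat_lit 0) (nat_lit 1772952115) (nat_lit 228) (nat_lit 12699603633) (nat_lit 76) (nat_lit 6220835375) (nat_lit 17) (nat_lit 5) (nat_lit 20) (nat_lit 5) (nat_lit 18) (nat_lit 4) (nat_lit 347) (nat_lit 236) (nat_lit 197)) (XT.lf (nat_lit 0) (nat_lit 4854886391) (nat_lit 228) (nat_lit 6662341844) (nat_lit 76) (nat_lit 9682506510) (nat_lit 17) (nat_lit 5) (nat_lit 20) (nat_lit 5) (nat_lit 18) (nat_lit 4) (nat_lit 348) (nat_lit 236) (nat_lit 196)))) (XT.nd (nat_lit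 78) (nat_lit 76) (nat_lit 0) (XT.lf (nat_lit 0) (nat_lit 7987611336) (nat_lit 228) (nat_lit 515594469) (nat_lit 76) (nat_lit 13219343977) (nat_lit 17) (nat_lit 5) (nat_lit 20) (nat_lit 5) (nat_lit 18) (nat_lit 4) (nat_lit 349) (nat_lit 236) (nat_lit 195)) (XT.nd (nat_lit 78) (nat_lit 0) (nat_lit 0) (XT.lf (nat_lit 0) (nat_lit 5860366290) (nat_lit 76) (nat_lit 5369831418) (nat_lit 152) (nat_lit 11030405351) (nat_lit 16) (nat_lit 5) (nat_lit 17) (nat_lit 5) (nat_lit 18) (nat_lit 4) (nat_lit 350) (nat_lit 236) (nat_lit 194)) (XT.lf (nat_lit 0) (nat_lit 12369310985) (nat_lit 76) (nat_lit 2166019733) (nat_lit 152) (nat_lit 8280538444) (nat_lit 16) (nat_lit 5) (nat_lit 17) (nat_lit 5) (nat_lit 18) (nat_lit 4) (nat_lit 351) (nat_lit 236) (nat_lit 193))))) (XT.nd (nat_lit 234) (nat_lit 76) (nat_lit 0) (XT.nd (nat_lit 78) (nat_lit 228) (nat_lit 0) (XT.lf (nat_lit 0) (nat_lit 17911473340) (nat_lit 152) (nat_lit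 4392949061) (nat_lit 0) (nat_lit 1084243627) (nat_lit 16) (nat_lit 5) (nat_lit 18) (nat_lit 4) (nat_lit 16) (nat_lit 4) (nat_lit 352) (nat_lit 236) (nat_lit 192)) (XT.nd (nat_lit 78) (nat_lit 76) (nat_lit 0) (XT.lf (nat_lit 0) (nat_lit 1789945008) (nat_lit 152) (nat_lit 19599700046) (nat_lit 152) (nat_lit 2589007020) (nat_lit 14) (nat_lit 4) (nat_lit 16) (nat_lit 5) (nat_lit 16) (nat_lit 4) (nat_lit 353) (nat_lit 236) (nat_lit 191)) (XT.lf (nat_lit 0) (nat_lit 385268652) (nat_lit 228) (nat_lit 16406717383) (nat_lit 76) (nat_lit 7794057237) (nat_lit 13) (nat_lit 5) (nat_lit 16) (nat_lit 5) (nat_lit 14) (nat_lit 4) (nat_lit 354) (nat_lit 236) (nat_lit 190)))) (XT.nd (nat_lit 78) (nat_lit 76) (nat_lit 0) (XT.lf (nat_lit 0) (nat_lit 3360011723) (nat_lit 228) (nat_lit 10540920719) (nat_lit 76) (nat_lit 11311081760) (nat_lit 13) (nat_lit 5) (nat_lit 16) (nat_lit 5) (nat_lit 14) (nat_lit 4) (nat_lit 355)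 (nat_lit 236) (nat_lit 189)) (XT.nd (nat_lit 78) (nat_lit 76) (nat_lit 0) (XT.lf (nat_lit 0) (nat_lit 6388342332) (nat_lit 228) (nat_lit 4561304503) (nat_lit 76) (nat_lit 14908211606) (nat_lit 13) (nat_lit 5) (nat_lit 16) (nat_lit 5) (nat_lit 14) (nat_lit 4) (nat_lit 356) (nat_lit 236) (nat_lit 188)) (XT.lf (nat_lit 0) (nat_lit 1567952575) (nat_lit 76) (nat_lit 7920026140) (nat_lit 152) (nat_lit 17035709441) (nat_lit 12) (nat_lit 5) (nat_lit 13) (nat_lit 5) (nat_lit 14) (nat_lit 4) (nat_lit 357) (nat_lit 236) (nat_lit 187)))))) (XT.nd (nat_lit 468) (nat_lit 152) (nat_lit 0) (XT.nd (nat_lit 234) (nat_lit 76) (nat_lit 0) (XT.nd (nat_lit 78) (nat_lit 0) (nat_lit 0) (XT.lf (nat_lit 0) (nat_lit 7914837218) (nat_lit 76) (nat_lit 4777644801) (nat_lit 152) (nat_lit 14516677536) (nat_lit 12) (nat_lit 5) (nat_lit 13) (nat_lit 5) (nat_lit 14) (nat_lit 4) (nat_lit 358) (nat_lit 236) (nat_lit 186)) (XT.nd (nat_lit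 78) (nat_lit 0) (nat_lit 0) (XT.lf (nat_lit 0) (nat_lit 14394116344) (nat_lit 76) (nat_lit 1565817283) (nat_lit 152) (nat_lit 11956279532) (nat_lit 12) (nat_lit 5) (nat_lit 13) (nat_lit 5) (nat_lit 14) (nat_lit 4) (nat_lit 359) (nat_lit 236) (nat_lit 185)) (XT.lf (nat_lit 0) (nat_lit 19309705586) (nat_lit 152) (nat_lit 7650532313) (nat_lit 0) (nat_lit 1684733369) (nat_lit 12) (nat_lit 5) (nat_lit 14) (nat_lit 4) (nat_lit 12) (nat_lit 4) (nat_lit 360) (nat_lit 236) (nat_lit 184)))) (XT.nd (nat_lit 78) (nat_lit 76) (nat_lit 0) (XT.lf (nat_lit 0) (nat_lit 22743967168) (nat_lit 152) (nat_lit 1673740628) (nat_lit 0) (nat_lit 4978385598) (nat_lit 12) (nat_lit 5) (nat_lit 14) (nat_lit 4) (nat_lit 12) (nat_lit 4) (nat_lit 361) (nat_lit 236) (nat_lit 183)) (XT.nd (nat_lit 78) (nat_lit 0) (nat_lit 0) (XT.lf (nat_lit 0) (nat_lit 4516689147) (nat_lit 76) (nat_lit 21777395624) (nat_lit 76) (nat_lit 3875300118)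 (nat_lit 11) (nat_lit 4) (nat_lit 12) (nat_lit 5) (nat_lit 12) (nat_lit 4) (nat_lit 362) (nat_lit 236) (nat_lit 182)) (XT.lf (nat_lit 0) (nat_lit 10873866801) (nat_lit 76) (nat_lit 19063530424) (nat_lit 76) (nat_lit 1028897117) (nat_lit 11) (nat_lit 4) (nat_lit 12) (nat_lit 5) (nat_lit 12) (nat_lit 4) (nat_lit 363) (nat_lit 236) (nat_lit 181))))) (XT.nd (nat_lit 234) (nat_lit 76) (nat_lit 0) (XT.nd (nat_lit 78) (nat_lit 0) (nat_lit 0) (XT.lf (nat_lit 0) (nat_lit 1836125920) (nat_lit 152) (nat_lit 14435975164) (nat_lit 76) (nat_lit 15515369234) (nat_lit 10) (nat_lit 5) (nat_lit 12) (nat_lit 5) (nat_lit 11) (nat_lit 4) (nat_lit 364) (nat_lit 236) (nat_lit 180)) (XT.nd (nat_lit 78) (nat_lit 0) (nat_lit 0) (XT.lf (nat_lit 0) (nat_lit 4737643467) (nat_lit 152) (nat_lit 8670824134) (nat_lit 76) (nat_lit 19225389913) (nat_lit 10) (nat_lit 5) (nat_lit 12) (nat_lit 5) (nat_lit 11) (nat_lit 4) (nat_lit 365)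 (nat_lit 236) (nat_lit 179)) (XT.lf (nat_lit 0) (nat_lit 7698268318) (nat_lit 152) (nat_lit 2782046549) (nat_lit 76) (nat_lit 23026177330) (nat_lit 10) (nat_lit 5) (nat_lit 12) (nat_lit 5) (nat_lit 11) (nat_lit 4) (nat_lit 366) (nat_lit 236) (nat_lit 178)))) (XT.nd (nat_lit 78) (nat_lit 0) (nat_lit 0) (XT.lf (nat_lit 0) (nat_lit 3299895977) (nat_lit 76) (nat_lit 7452412068) (nat_lit 152) (nat_lit 23652877204) (nat_lit 9) (nat_lit 5) (nat_lit 10) (nat_lit 5) (nat_lit 11) (nat_lit 4) (nat_lit 367) (nat_lit 236) (nat_lit 177)) (XT.nd (nat_lit 78) (nat_lit 0) (nat_lit 0) (XT.lf (nat_lit 0) (nat_lit 9573904289) (nat_lit 76) (nat_lit 4325367591) (nat_lit 152) (nat_lit 21431544835) (nat_lit 9) (nat_lit 5) (nat_lit 10) (nat_lit 5) (nat_lit 11) (nat_lit 4) (nat_lit 368) (nat_lit 236) (nat_lit 176)) (XT.lf (nat_lit 0) (nat_lit 15990092347) (nat_lit 76) (nat_lit 1124542282) (nat_lit 152) (nat_lit 19170379018)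 (nat_lit 9) (nat_lit 5) (nat_lit 10) (nat_lit 5) (nat_lit 11) (nat_lit 4) (nat_lit 369) (nat_lit 236) (nat_lit 175))))))))
noncomputable def xc50 : XT := (XT.nd (nat_lit 1794) (nat_lit 152) (nat_lit 0) (XT.nd (nat_lit 858) (nat_lit 76) (nat_lit 0) (XT.nd (nat_lit 390) (nat_lit 152) (nat_lit 0) (XT.nd (nat_lit 156) (nat_lit 76) (nat_lit 0) (XT.nd (nat_lit 78) (nat_lit 0) (nat_lit 0) (XT.lf (nat_lit 0) (nat_lit 20421900447) (nat_lit 152) (nat_lit 14735237896) (nat_lit 0) (nat_lit 2110850629) (nat_lit 9) (nat_lit 5) (nat_lit 11) (nat_lit 4) (nat_lit 9) (nat_lit 4) (nat_lit 370) (nat_lit 236) (nat_lit 174)) (XT.lf (nat_lit 0) (nat_lit 23814819908) (nat_lit 152) (nat_lit 9063864968) (nat_lit 0) (nat_lit 5402190902) (nat_lit 9) (nat_lit 5) (nat_lit 11) (nat_lit 4) (nat_lit 9) (nat_lit 4) (nat_lit 371) (nat_lit 236) (nat_lit 173))) (XT.nd (nat_lit 78) (nat_lit 76) (nat_lit 0) (XT.lf (nat_lit 0) (nat_lit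 27285547912) (nat_lit 152) (nat_lit 3265037160) (nat_lit 0) (nat_lit 8774298334) (nat_lit 9) (nat_lit 5) (nat_lit 11) (nat_lit 4) (nat_lit 9) (nat_lit 4) (nat_lit 372) (nat_lit 236) (nat_lit 172)) (XT.nd (nat_lit 78) (nat_lit 0) (nat_lit 0) (XT.lf (nat_lit 0) (nat_lit 2719377311) (nat_lit 76) (nat_lit 28143880140) (nat_lit 76) (nat_lit 9536882435) (nat_lit 8) (nat_lit 4) (nat_lit 9) (nat_lit 5) (nat_lit 9) (nat_lit 4) (nat_lit 373) (nat_lit 236) (nat_lit 171)) (XT.lf (nat_lit 0) (nat_lit 8909217564) (nat_lit 76) (nat_lit 25649054170) (nat_lit 76) (nat_lit 6949097117) (nat_lit 8) (nat_lit 4) (nat_lit 9) (nat_lit 5) (nat_lit 9) (nat_lit 4) (nat_lit 374) (nat_lit 236) (nat_lit 170))))) (XT.nd (nat_lit 234) (nat_lit 76) (nat_lit 0) (XT.nd (nat_lit 78) (nat_lit 76) (nat_lit 0) (XT.lf (nat_lit 0) (nat_lit 15244911557) (nat_lit 76) (nat_lit 23096897688) (nat_lit 76) (nat_lit 4306688842) (nat_lit 8) (nat_lit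 4) (nat_lit 9) (nat_lit 5) (nat_lit 9) (nat_lit 4) (nat_lit 375) (nat_lit 236) (nat_lit 169)) (XT.nd (nat_lit 78) (nat_lit 76) (nat_lit 0) (XT.lf (nat_lit 0) (nat_lit 21731995331) (nat_lit 76) (nat_lit 20485180656) (nat_lit 76) (nat_lit 1607348710) (nat_lit 8) (nat_lit 4) (nat_lit 9) (nat_lit 5) (nat_lit 9) (nat_lit 4) (nat_lit 376) (nat_lit 236) (nat_lit 168)) (XT.lf (nat_lit 0) (nat_lit 1128816268) (nat_lit 152) (nat_lit 16671405893) (nat_lit 76) (nat_lit 27235922114) (nat_lit 7) (nat_lit 5) (nat_lit 9) (nat_lit 5) (nat_lit 8) (nat_lit 4) (nat_lit 377) (nat_lit 236) (nat_lit 167)))) (XT.nd (nat_lit 78) (nat_lit 76) (nat_lit 0) (XT.lf (nat_lit 0) (nat_lit 3894113034) (nat_lit 152) (nat_lit 11140446633) (nat_lit 76) (nat_lit 31249706823) (nat_lit 7) (nat_lit 5) (nat_lit 9) (nat_lit 5) (nat_lit 8) (nat_lit 4) (nat_lit 378) (nat_lit 236) (nat_lit 166)) (XT.nd (nat_lit 78) (nat_lit 76) (nat_lit 0)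 (XT.lf (nat_lit 0) (nat_lit 6722323029) (nat_lit 152) (nat_lit 5479367893) (nat_lit 76) (nat_lit 35368754541) (nat_lit 7) (nat_lit 5) (nat_lit 9) (nat_lit 5) (nat_lit 8) (nat_lit 4) (nat_lit 379) (nat_lit 236) (nat_lit 165)) (XT.lf (nat_lit 0) (nat_lit 323081381) (nat_lit 76) (nat_lit 9295941778) (nat_lit 152) (nat_lit 39276688709) (nat_lit 6) (nat_lit 5) (nat_lit 7) (nat_lit 5) (nat_lit 8) (nat_lit 4) (nat_lit 380) (nat_lit 236) (nat_lit 164)))))) (XT.nd (nat_lit 468) (nat_lit 76) (nat_lit 0) (XT.nd (nat_lit 234) (nat_lit 0) (nat_lit 0) (XT.nd (nat_lit 78) (nat_lit 0) (nat_lit 0) (XT.lf (nat_lit 0) (nat_lit 6377500344) (nat_lit 76) (nat_lit 6261228933) (nat_lit 152) (nat_lit 37620934887) (nat_lit 6) (nat_lit 5) (nat_lit 7) (nat_lit 5) (nat_lit 8) (nat_lit 4) (nat_lit 381) (nat_lit 236) (nat_lit 163)) (XT.nd (nat_lit 78) (nat_lit 0) (nat_lit 0) (XT.lf (nat_lit 0) (nat_lit 12580129096) (nat_lit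 76) (nat_lit 3150231569) (nat_lit 152) (nat_lit 35934745064) (nat_lit 6) (nat_lit 5) (nat_lit 7) (nat_lit 5) (nat_lit 8) (nat_lit 4) (nat_lit 382) (nat_lit 236) (nat_lit 162)) (XT.lf (nat_lit 0) (nat_lit 18897001033) (nat_lit 152) (nat_lit 34177259492) (nat_lit 0) (nat_lit 38992630) (nat_lit 6) (nat_lit 5) (nat_lit 8) (nat_lit 4) (nat_lit 6) (nat_lit 4) (nat_lit 383) (nat_lit 236) (nat_lit 161)))) (XT.nd (nat_lit 78) (nat_lit 0) (nat_lit 0) (XT.lf (nat_lit 0) (nat_lit 22172102901) (nat_lit 152) (nat_lit 29185409654) (nat_lit 0) (nat_lit 3246938688) (nat_lit 6) (nat_lit 5) (nat_lit 8) (nat_lit 4) (nat_lit 6) (nat_lit 4) (nat_lit 384) (nat_lit 236) (nat_lit 160)) (XT.nd (nat_lit 78) (nat_lit 0) (nat_lit 0) (XT.lf (nat_lit 0) (nat_lit 25528246058) (nat_lit 152) (nat_lit 24074783358) (nat_lit 0) (nat_lit 6537882028) (nat_lit 6) (nat_lit 5) (nat_lit 8) (nat_lit 4) (nat_lit 6) (nat_lit 4) (nat_lit 385)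 (nat_lit 236) (nat_lit 159)) (XT.lf (nat_lit 0) (nat_lit 28968363054) (nat_lit 152) (nat_lit 18840915006) (nat_lit 0) (nat_lit 9914698232) (nat_lit 6) (nat_lit 5) (nat_lit 8) (nat_lit 4) (nat_lit 6) (nat_lit 4) (nat_lit 386) (nat_lit 236) (nat_lit 158))))) (XT.nd (nat_lit 234) (nat_lit 76) (nat_lit 0) (XT.nd (nat_lit 78) (nat_lit 0) (nat_lit 0) (XT.lf (nat_lit 0) (nat_lit 32495459818) (nat_lit 152) (nat_lit 13479231316) (nat_lit 0) (nat_lit 13380337916) (nat_lit 6) (nat_lit 5) (nat_lit 8) (nat_lit 4) (nat_lit 6) (nat_lit 4) (nat_lit 387) (nat_lit 236) (nat_lit 157)) (XT.nd (nat_lit 78) (nat_lit 0) (nat_lit 0) (XT.lf (nat_lit 0) (nat_lit 36112618278) (nat_lit 152) (nat_lit 7985047322) (nat_lit 0) (nat_lit 16937829309) (nat_lit 6) (nat_lit 5) (nat_lit 8) (nat_lit 4) (nat_lit 6) (nat_lit 4) (nat_lit 388) (nat_lit 236) (nat_lit 156)) (XT.lf (nat_lit 0) (nat_lit 39822999060) (nat_lit 152) (nat_lit 2353562279)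 (nat_lit 0) (nat_lit 20590280899) (nat_lit 6) (nat_lit 5) (nat_lit 8) (nat_lit 4) (nat_lit 6) (nat_lit 4) (nat_lit 389) (nat_lit 236) (nat_lit 155)))) (XT.nd (nat_lit 78) (nat_lit 0) (nat_lit 0) (XT.lf (nat_lit 0) (nat_lit 3488212107) (nat_lit 76) (nat_lit 40175162963) (nat_lit 76) (nat_lit 20886202869) (nat_lit 5) (nat_lit 4) (nat_lit 6) (nat_lit 5) (nat_lit 6) (nat_lit 4) (nat_lit 390) (nat_lit 236) (nat_lit 154)) (XT.nd (nat_lit 78) (nat_lit 0) (nat_lit 0) (XT.lf (nat_lit 0) (nat_lit 9527024644) (nat_lit 76) (nat_lit 38101035139) (nat_lit 76) (nat_lit 18757471225) (nat_lit 5) (nat_lit 4) (nat_lit 6) (nat_lit 5) (nat_lit 6) (nat_lit 4) (nat_lit 391) (nat_lit 236) (nat_lit 153)) (XT.lf (nat_lit 0) (nat_lit 15721311461) (nat_lit 76) (nat_lit 35976131885) (nat_lit 76) (nat_lit 16579554554) (nat_lit 5) (nat_lit 4) (nat_lit 6) (nat_lit 5) (nat_lit 6) (nat_lit 4) (nat_lit 392) (nat_lit 236) (nat_lit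 152))))))) (XT.nd (nat_lit 33930) (nat_lit 0) (nat_lit 3800) (XT.nd (nat_lit 468) (nat_lit 152) (nat_lit 0) (XT.nd (nat_lit 234) (nat_lit 0) (nat_lit 0) (XT.nd (nat_lit 78) (nat_lit 0) (nat_lit 0) (XT.lf (nat_lit 0) (nat_lit 22076485040) (nat_lit 76) (nat_lit 33798596491) (nat_lit 76) (nat_lit 14350549824) (nat_lit 5) (nat_lit 4) (nat_lit 6) (nat_lit 5) (nat_lit 6) (nat_lit 4) (nat_lit 393) (nat_lit 236) (nat_lit 151)) (XT.nd (nat_lit 78) (nat_lit 0) (nat_lit 0) (XT.lf (nat_lit 0) (nat_lit 28598098445) (nat_lit 76) (nat_lit 31566526256) (nat_lit 76) (nat_lit 12068509359) (nat_lit 5) (nat_lit 4) (nat_lit 6) (nat_lit 5) (nat_lit 6) (nat_lit 4) (nat_lit 394) (nat_lit 236) (nat_lit 150)) (XT.lf (nat_lit 0) (nat_lit 35291850174) (nat_lit 76) (nat_lit 29277970827) (nat_lit 76) (nat_lit 9731439143) (nat_lit 5) (nat_lit 4) (nat_lit 6) (nat_lit 5) (nat_lit 6) (nat_lit 4) (nat_lit 395) (nat_lit 236) (nat_lit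 149)))) (XT.nd (nat_lit 78) (nat_lit 0) (nat_lit 0) (XT.lf (nat_lit 0) (nat_lit 42163589137) (nat_lit 76) (nat_lit 26930930495) (nat_lit 76) (nat_lit 7337297077) (nat_lit 5) (nat_lit 4) (nat_lit 6) (nat_lit 5) (nat_lit 6) (nat_lit 4) (nat_lit 396) (nat_lit 236) (nat_lit 148)) (XT.nd (nat_lit 78) (nat_lit 0) (nat_lit 0) (XT.lf (nat_lit 0) (nat_lit 49219319764) (nat_lit 76) (nat_lit 24523354449) (nat_lit 76) (nat_lit 4883991192) (nat_lit 5) (nat_lit 4) (nat_lit 6) (nat_lit 5) (nat_lit 6) (nat_lit 4) (nat_lit 397) (nat_lit 236) (nat_lit 147)) (XT.lf (nat_lit 0) (nat_lit 56465207259) (nat_lit 76) (nat_lit 22053138981) (nat_lit 76) (nat_lit 2369377822) (nat_lit 5) (nat_lit 4) (nat_lit 6) (nat_lit 5) (nat_lit 6) (nat_lit 4) (nat_lit 398) (nat_lit 236) (nat_lit 146))))) (XT.nd (nat_lit 234) (nat_lit 76) (nat_lit 0) (XT.nd (nat_lit 78) (nat_lit 0) (nat_lit 0) (XT.lf (nat_lit 0) (nat_lit 204666992) (nat_lit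 152) (nat_lit 19311391922) (nat_lit 76) (nat_lit 63700849249) (nat_lit 4) (nat_lit 5) (nat_lit 6) (nat_lit 5) (nat_lit 5) (nat_lit 4) (nat_lit 399) (nat_lit 236) (nat_lit 145)) (XT.nd (nat_lit 78) (nat_lit 0) (nat_lit 0) (XT.lf (nat_lit 0) (nat_lit 2796950992) (nat_lit 152) (nat_lit 14090904684) (nat_lit 76) (nat_lit 68727755255) (nat_lit 4) (nat_lit 5) (nat_lit 6) (nat_lit 5) (nat_lit 5) (nat_lit 4) (nat_lit 400) (nat_lit 236) (nat_lit 144)) (XT.lf (nat_lit 0) (nat_lit 5455974373) (nat_lit 152) (nat_lit 8733717589) (nat_lit 76) (nat_lit 73896919630) (nat_lit 4) (nat_lit 5) (nat_lit 6) (nat_lit 5) (nat_lit 5) (nat_lit 4) (nat_lit 401) (nat_lit 236) (nat_lit 143)))) (XT.nd (nat_lit 78) (nat_lit 76) (nat_lit 0) (XT.lf (nat_lit 0) (nat_lit 8184060555) (nat_lit 152) (nat_lit 3235149600) (nat_lit 76) (nat_lit 79212859122) (nat_lit 4) (nat_lit 5) (nat_lit 6) (nat_lit 5) (nat_lit 5) (nat_lit 4) (nat_lit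 402) (nat_lit 236) (nat_lit 142)) (XT.nd (nat_lit 33072) (nat_lit 0) (nat_lit 6004) (XT.lf (nat_lit 0) (nat_lit 2457559697) (nat_lit 76) (nat_lit 8549657172) (nat_lit 152) (nat_lit 82246282594) (nat_lit 3) (nat_lit 5) (nat_lit 4) (nat_lit 5) (nat_lit 5) (nat_lit 4) (nat_lit 403) (nat_lit 236) (nat_lit 141)) (XT.lf (nat_lit 0) (nat_lit 2449020541) (nat_lit 380) (nat_lit 1068397911) (nat_lit 380) (nat_lit 1068397911) (nat_lit 82) (nat_lit 4) (nat_lit 87) (nat_lit 5) (nat_lit 87) (nat_lit 4) (nat_lit 306) (nat_lit 237) (nat_lit 237)))))) (XT.nd (nat_lit 468) (nat_lit 836) (nat_lit 0) (XT.nd (nat_lit 234) (nat_lit 684) (nat_lit 0) (XT.nd (nat_lit 78) (nat_lit 304) (nat_lit 0) (XT.lf (nat_lit 0) (nat_lit 1311631810) (nat_lit 380) (nat_lit 7616589678) (nat_lit 0) (nat_lit 379243988) (nat_lit 77) (nat_lit 5) (nat_lit 82) (nat_lit 4) (nat_lit 77) (nat_lit 4) (nat_lit 307) (nat_lit 237) (nat_lit 236)) (XT.nd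 (nat_lit 78) (nat_lit 304) (nat_lit 0) (XT.lf (nat_lit 0) (nat_lit 4798455799) (nat_lit 380) (nat_lit 1688245172) (nat_lit 0) (nat_lit 2960837082) (nat_lit 77) (nat_lit 5) (nat_lit 82) (nat_lit 4) (nat_lit 77) (nat_lit 4) (nat_lit 308) (nat_lit 237) (nat_lit 235)) (XT.lf (nat_lit 0) (nat_lit 4385756569) (nat_lit 304) (nat_lit 3961968496) (nat_lit 304) (nat_lit 1245484833) (nat_lit 73) (nat_lit 4) (nat_lit 77) (nat_lit 5) (nat_lit 77) (nat_lit 4) (nat_lit 309) (nat_lit 237) (nat_lit 234)))) (XT.nd (nat_lit 78) (nat_lit 304) (nat_lit 0) (XT.lf (nat_lit 0) (nat_lit 809327307) (nat_lit 304) (nat_lit 1347853928) (nat_lit 380) (nat_lit 7587311598) (nat_lit 68) (nat_lit 5) (nat_lit 72) (nat_lit 5) (nat_lit 73) (nat_lit 4) (nat_lit 310) (nat_lit 237) (nat_lit 233)) (XT.nd (nat_lit 78) (nat_lit 304) (nat_lit 0) (XT.lf (nat_lit 0) (nat_lit 5619979644) (nat_lit 380) (nat_lit 2930676748) (nat_lit 0) (nat_lit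 1349916435) (nat_lit 68) (nat_lit 5) (nat_lit 73) (nat_lit 4) (nat_lit 68) (nat_lit 4) (nat_lit 311) (nat_lit 237) (nat_lit 232)) (XT.lf (nat_lit 0) (nat_lit 3186746713) (nat_lit 304) (nat_lit 5963362979) (nat_lit 304) (nat_lit 912439648) (nat_lit 64) (nat_lit 4) (nat_lit 68) (nat_lit 5) (nat_lit 68) (nat_lit 4) (nat_lit 312) (nat_lit 237) (nat_lit 231))))) (XT.nd (nat_lit 234) (nat_lit 304) (nat_lit 0) (XT.nd (nat_lit 78) (nat_lit 456) (nat_lit 0) (XT.lf (nat_lit 0) (nat_lit 2456567759) (nat_lit 380) (nat_lit 822207402) (nat_lit 76) (nat_lit 6951492451) (nat_lit 63) (nat_lit 5) (nat_lit 68) (nat_lit 5) (nat_lit 64) (nat_lit 4) (nat_lit 313) (nat_lit 237) (nat_lit 230)) (XT.nd (nat_lit 78) (nat_lit 228) (nat_lit 0) (XT.lf (nat_lit 0) (nat_lit 5396045461) (nat_lit 228) (nat_lit 486280140) (nat_lit 304) (nat_lit 4521307804) (nat_lit 60) (nat_lit 5) (nat_lit 63) (nat_lit 5) (nat_lit 64) (nat_lit 4)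 (nat_lit 314) (nat_lit 237) (nat_lit 229)) (XT.lf (nat_lit 0) (nat_lit 1120389756) (nat_lit 228) (nat_lit 8255593694) (nat_lit 228) (nat_lit 1207367346) (nat_lit 57) (nat_lit 4) (nat_lit 60) (nat_lit 5) (nat_lit 60) (nat_lit 4) (nat_lit 315) (nat_lit 237) (nat_lit 228)))) (XT.nd (nat_lit 78) (nat_lit 228) (nat_lit 0) (XT.lf (nat_lit 0) (nat_lit 2142130815) (nat_lit 304) (nat_lit 3373277593) (nat_lit 76) (nat_lit 5253137996) (nat_lit 56) (nat_lit 5) (nat_lit 60) (nat_lit 5) (nat_lit 57) (nat_lit 4) (nat_lit 316) (nat_lit 237) (nat_lit 227)) (XT.nd (nat_lit 78) (nat_lit 0) (nat_lit 0) (XT.lf (nat_lit 0) (nat_lit 2831054580) (nat_lit 228) (nat_lit 2689544329) (nat_lit 304) (nat_lit 5439853370) (nat_lit 53) (nat_lit 5) (nat_lit 56) (nat_lit 5) (nat_lit 57) (nat_lit 4) (nat_lit 317) (nat_lit 237) (nat_lit 226)) (XT.lf (nat_lit 0) (nat_lit 8963239669) (nat_lit 304) (nat_lit 1981069418) (nat_lit 0) (nat_lit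 215014480) (nat_lit 53) (nat_lit 5) (nat_lit 57) (nat_lit 4) (nat_lit 53) (nat_lit 4) (nat_lit 318) (nat_lit 237) (nat_lit 225))))))))
noncomputable def xc51 : XT := (XT.nd (nat_lit 1794) (nat_lit 836) (nat_lit 0) (XT.nd (nat_lit 858) (nat_lit 988) (nat_lit 0) (XT.nd (nat_lit 390) (nat_lit 608) (nat_lit 0) (XT.nd (nat_lit 156) (nat_lit 532) (nat_lit 0) (XT.nd (nat_lit 78) (nat_lit 0) (nat_lit 0) (XT.lf (nat_lit 0) (nat_lit 1118935176) (nat_lit 304) (nat_lit 7075251043) (nat_lit 76) (nat_lit 3169843664) (nat_lit 49) (nat_lit 5) (nat_lit 53) (nat_lit 5) (nat_lit 50) (nat_lit 4) (nat_lit 319) (nat_lit 237) (nat_lit 224)) (XT.lf (nat_lit 0) (nat_lit 4438171797) (nat_lit 304) (nat_lit 918233967) (nat_lit 76) (nat_lit 6219437060) (nat_lit 49) (nat_lit 5) (nat_lit 53) (nat_lit 5) (nat_lit 50) (nat_lit 4) (nat_lit 320) (nat_lit 237) (nat_lit 223))) (XT.nd (nat_lit 78) (nat_lit 304) (nat_lit 0) (XT.lf (nat_lit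 0) (nat_lit 5423156032) (nat_lit 228) (nat_lit 2416739886) (nat_lit 304) (nat_lit 3954709371) (nat_lit 46) (nat_lit 5) (nat_lit 49) (nat_lit 5) (nat_lit 50) (nat_lit 4) (nat_lit 321) (nat_lit 237) (nat_lit 222)) (XT.nd (nat_lit 78) (nat_lit 304) (nat_lit 0) (XT.lf (nat_lit 0) (nat_lit 11290340912) (nat_lit 304) (nat_lit 158901846) (nat_lit 0) (nat_lit 572367842) (nat_lit 46) (nat_lit 5) (nat_lit 50) (nat_lit 4) (nat_lit 46) (nat_lit 4) (nat_lit 322) (nat_lit 237) (nat_lit 221)) (XT.lf (nat_lit 0) (nat_lit 2555730326) (nat_lit 304) (nat_lit 6046081037) (nat_lit 76) (nat_lit 3652422320) (nat_lit 42) (nat_lit 5) (nat_lit 46) (nat_lit 5) (nat_lit 43) (nat_lit 4) (nat_lit 323) (nat_lit 237) (nat_lit 220))))) (XT.nd (nat_lit 234) (nat_lit 228) (nat_lit 0) (XT.nd (nat_lit 78) (nat_lit 228) (nat_lit 0) (XT.lf (nat_lit 0) (nat_lit 167545448) (nat_lit 152) (nat_lit 5695983343) (nat_lit 228) (nat_lit 6632056126)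 (nat_lit 40) (nat_lit 5) (nat_lit 42) (nat_lit 5) (nat_lit 43) (nat_lit 4) (nat_lit 324) (nat_lit 237) (nat_lit 219)) (XT.nd (nat_lit 78) (nat_lit 228) (nat_lit 0) (XT.lf (nat_lit 0) (nat_lit 6588384035) (nat_lit 152) (nat_lit 2677826923) (nat_lit 228) (nat_lit 3478167357) (nat_lit 40) (nat_lit 5) (nat_lit 42) (nat_lit 5) (nat_lit 43) (nat_lit 4) (nat_lit 325) (nat_lit 237) (nat_lit 218)) (XT.lf (nat_lit 0) (nat_lit 97214073) (nat_lit 228) (nat_lit 12614984839) (nat_lit 228) (nat_lit 290268891) (nat_lit 37) (nat_lit 4) (nat_lit 40) (nat_lit 5) (nat_lit 40) (nat_lit 4) (nat_lit 326) (nat_lit 237) (nat_lit 217)))) (XT.nd (nat_lit 78) (nat_lit 152) (nat_lit 0) (XT.lf (nat_lit 0) (nat_lit 2960500339) (nat_lit 304) (nat_lit 6760213876) (nat_lit 76) (nat_lit 3546018357) (nat_lit 36) (nat_lit 5) (nat_lit 40) (nat_lit 5) (nat_lit 37) (nat_lit 4) (nat_lit 327) (nat_lit 237) (nat_lit 216)) (XT.nd (nat_lit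 78) (nat_lit 152) (nat_lit 0) (XT.lf (nat_lit 0) (nat_lit 6241163512) (nat_lit 304) (nat_lit 532810951) (nat_lit 76) (nat_lit 6766781640) (nat_lit 36) (nat_lit 5) (nat_lit 40) (nat_lit 5) (nat_lit 37) (nat_lit 4) (nat_lit 328) (nat_lit 237) (nat_lit 215)) (XT.lf (nat_lit 0) (nat_lit 5900323264) (nat_lit 152) (nat_lit 3716645670) (nat_lit 228) (nat_lit 4206191084) (nat_lit 34) (nat_lit 5) (nat_lit 36) (nat_lit 5) (nat_lit 37) (nat_lit 4) (nat_lit 329) (nat_lit 237) (nat_lit 214)))))) (XT.nd (nat_lit 468) (nat_lit 456) (nat_lit 0) (XT.nd (nat_lit 234) (nat_lit 304) (nat_lit 0) (XT.nd (nat_lit 78) (nat_lit 228) (nat_lit 0) (XT.lf (nat_lit 0) (nat_lit 12442089659) (nat_lit 152) (nat_lit 598175550) (nat_lit 228) (nat_lit 1075443904) (nat_lit 34) (nat_lit 5) (nat_lit 36) (nat_lit 5) (nat_lit 37) (nat_lit 4) (nat_lit 330) (nat_lit 237) (nat_lit 213)) (XT.nd (nat_lit 78) (nat_lit 0) (nat_lit 0) (XT.lf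 (nat_lit 0) (nat_lit 2120235101) (nat_lit 228) (nat_lit 9701072352) (nat_lit 76) (nat_lit 2594775123) (nat_lit 31) (nat_lit 5) (nat_lit 34) (nat_lit 5) (nat_lit 32) (nat_lit 4) (nat_lit 331) (nat_lit 237) (nat_lit 212)) (XT.lf (nat_lit 0) (nat_lit 5355550983) (nat_lit 228) (nat_lit 3506324254) (nat_lit 76) (nat_lit 5864365619) (nat_lit 31) (nat_lit 5) (nat_lit 34) (nat_lit 5) (nat_lit 32) (nat_lit 4) (nat_lit 332) (nat_lit 237) (nat_lit 211)))) (XT.nd (nat_lit 78) (nat_lit 152) (nat_lit 0) (XT.lf (nat_lit 0) (nat_lit 2838161116) (nat_lit 152) (nat_lit 5821117006) (nat_lit 228) (nat_lit 6387338129) (nat_lit 29) (nat_lit 5) (nat_lit 31) (nat_lit 5) (nat_lit 32) (nat_lit 4) (nat_lit 333) (nat_lit 237) (nat_lit 210)) (XT.nd (nat_lit 78) (nat_lit 152) (nat_lit 0) (XT.lf (nat_lit 0) (nat_lit 9354266283) (nat_lit 152) (nat_lit 2688085656) (nat_lit 228) (nat_lit 3334895301) (nat_lit 29) (nat_lit 5) (nat_lit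 31) (nat_lit 5) (nat_lit 32) (nat_lit 4) (nat_lit 334) (nat_lit 237) (nat_lit 209)) (XT.lf (nat_lit 0) (nat_lit 258645268) (nat_lit 152) (nat_lit 15222043815) (nat_lit 152) (nat_lit 238544824) (nat_lit 27) (nat_lit 4) (nat_lit 29) (nat_lit 5) (nat_lit 29) (nat_lit 4) (nat_lit 335) (nat_lit 237) (nat_lit 208))))) (XT.nd (nat_lit 234) (nat_lit 228) (nat_lit 0) (XT.nd (nat_lit 78) (nat_lit 152) (nat_lit 0) (XT.lf (nat_lit 0) (nat_lit 2927404927) (nat_lit 228) (nat_lit 9362571019) (nat_lit 76) (nat_lit 3779671706) (nat_lit 26) (nat_lit 5) (nat_lit 29) (nat_lit 5) (nat_lit 27) (nat_lit 4) (nat_lit 336) (nat_lit 237) (nat_lit 207)) (XT.nd (nat_lit 78) (nat_lit 152) (nat_lit 0) (XT.lf (nat_lit 0) (nat_lit 6131354465) (nat_lit 228) (nat_lit 3170887468) (nat_lit 76) (nat_lit 7129872196) (nat_lit 26) (nat_lit 5) (nat_lit 29) (nat_lit 5) (nat_lit 27) (nat_lit 4) (nat_lit 337) (nat_lit 237) (nat_lit 206))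 (XT.lf (nat_lit 0) (nat_lit 3184302471) (nat_lit 152) (nat_lit 6227065217) (nat_lit 228) (nat_lit 7394732876) (nat_lit 24) (nat_lit 5) (nat_lit 26) (nat_lit 5) (nat_lit 27) (nat_lit 4) (nat_lit 338) (nat_lit 237) (nat_lit 205)))) (XT.nd (nat_lit 78) (nat_lit 228) (nat_lit 0) (XT.lf (nat_lit 0) (nat_lit 9711594133) (nat_lit 152) (nat_lit 3060215143) (nat_lit 228) (nat_lit 4420079506) (nat_lit 24) (nat_lit 5) (nat_lit 26) (nat_lit 5) (nat_lit 27) (nat_lit 4) (nat_lit 339) (nat_lit 237) (nat_lit 204)) (XT.nd (nat_lit 78) (nat_lit 228) (nat_lit 0) (XT.lf (nat_lit 0) (nat_lit 16186153471) (nat_lit 228) (nat_lit 1238789462) (nat_lit 0) (nat_lit 165756807) (nat_lit 24) (nat_lit 5) (nat_lit 27) (nat_lit 4) (nat_lit 24) (nat_lit 4) (nat_lit 340) (nat_lit 237) (nat_lit 203)) (XT.lf (nat_lit 0) (nat_lit 1701209750) (nat_lit 228) (nat_lit 12836362930) (nat_lit 76) (nat_lit 3462462314) (nat_lit 21) (nat_lit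 5) (nat_lit 24) (nat_lit 5) (nat_lit 22) (nat_lit 4) (nat_lit 341) (nat_lit 237) (nat_lit 202))))))) (XT.nd (nat_lit 936) (nat_lit 456) (nat_lit 0) (XT.nd (nat_lit 468) (nat_lit 76) (nat_lit 0) (XT.nd (nat_lit 234) (nat_lit 228) (nat_lit 0) (XT.nd (nat_lit 78) (nat_lit 76) (nat_lit 0) (XT.lf (nat_lit 0) (nat_lit 4837234238) (nat_lit 228) (nat_lit 6731808037) (nat_lit 76) (nat_lit 6853269297) (nat_lit 21) (nat_lit 5) (nat_lit 24) (nat_lit 5) (nat_lit 22) (nat_lit 4) (nat_lit 342) (nat_lit 237) (nat_lit 201)) (XT.nd (nat_lit 78) (nat_lit 76) (nat_lit 0) (XT.lf (nat_lit 0) (nat_lit 8021409922) (nat_lit 228) (nat_lit 521887531) (nat_lit 76) (nat_lit 10315373997) (nat_lit 21) (nat_lit 5) (nat_lit 24) (nat_lit 5) (nat_lit 22) (nat_lit 4) (nat_lit 343) (nat_lit 237) (nat_lit 200)) (XT.lf (nat_lit 0) (nat_lit 5914232713) (nat_lit 76) (nat_lit 5399137602) (nat_lit 152) (nat_lit 7994420062) (nat_lit 20)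 (nat_lit 5) (nat_lit 21) (nat_lit 5) (nat_lit 22) (nat_lit 4) (nat_lit 344) (nat_lit 237) (nat_lit 199)))) (XT.nd (nat_lit 78) (nat_lit 228) (nat_lit 0) (XT.lf (nat_lit 0) (nat_lit 12479369144) (nat_lit 76) (nat_lit 2185978729) (nat_lit 152) (nat_lit 5106232234) (nat_lit 20) (nat_lit 5) (nat_lit 21) (nat_lit 5) (nat_lit 22) (nat_lit 4) (nat_lit 345) (nat_lit 237) (nat_lit 198)) (XT.nd (nat_lit 78) (nat_lit 228) (nat_lit 0) (XT.lf (nat_lit 0) (nat_lit 18085668439) (nat_lit 152) (nat_lit 1092241164) (nat_lit 0) (nat_lit 1072374384) (nat_lit 20) (nat_lit 5) (nat_lit 22) (nat_lit 4) (nat_lit 20) (nat_lit 4) (nat_lit 346) (nat_lit 237) (nat_lit 197)) (XT.lf (nat_lit 0) (nat_lit 879504621) (nat_lit 228) (nat_lit 15446964465) (nat_lit 76) (nat_lit 4415728220) (nat_lit 17) (nat_lit 5) (nat_lit 20) (nat_lit 5) (nat_lit 18) (nat_lit 4) (nat_lit 347) (nat_lit 237) (nat_lit 196))))) (XT.nd (nat_lit 234) (nat_lit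 0) (nat_lit 0) (XT.nd (nat_lit 78) (nat_lit 76) (nat_lit 0) (XT.lf (nat_lit 0) (nat_lit 3940913104) (nat_lit 228) (nat_lit 9444989507) (nat_lit 76) (nat_lit 7863269404) (nat_lit 17) (nat_lit 5) (nat_lit 20) (nat_lit 5) (nat_lit 18) (nat_lit 4) (nat_lit 348) (nat_lit 237) (nat_lit 195)) (XT.nd (nat_lit 78) (nat_lit 76) (nat_lit 0) (XT.lf (nat_lit 0) (nat_lit 7053710095) (nat_lit 228) (nat_lit 3332501192) (nat_lit 76) (nat_lit 11386388470) (nat_lit 17) (nat_lit 5) (nat_lit 20) (nat_lit 5) (nat_lit 18) (nat_lit 4) (nat_lit 349) (nat_lit 237) (nat_lit 194)) (XT.lf (nat_lit 0) (nat_lit 2953474414) (nat_lit 76) (nat_lit 7295531702) (nat_lit 152) (nat_lit 12063080063) (nat_lit 16) (nat_lit 5) (nat_lit 17) (nat_lit 5) (nat_lit 18) (nat_lit 4) (nat_lit 350) (nat_lit 237) (nat_lit 193)))) (XT.nd (nat_lit 78) (nat_lit 0) (nat_lit 0) (XT.lf (nat_lit 0) (nat_lit 9429483976) (nat_lit 76) (nat_lit 4105554549)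 (nat_lit 152) (nat_lit 9332900788) (nat_lit 16) (nat_lit 5) (nat_lit 17) (nat_lit 5) (nat_lit 18) (nat_lit 4) (nat_lit 351) (nat_lit 237) (nat_lit 192)) (XT.nd (nat_lit 78) (nat_lit 0) (nat_lit 0) (XT.lf (nat_lit 0) (nat_lit 16034862837) (nat_lit 76) (nat_lit 847144198) (nat_lit 152) (nat_lit 6559617973) (nat_lit 16) (nat_lit 5) (nat_lit 17) (nat_lit 5) (nat_lit 18) (nat_lit 4) (nat_lit 352) (nat_lit 237) (nat_lit 191)) (XT.lf (nat_lit 0) (nat_lit 20316699935) (nat_lit 152) (nat_lit 1282125610) (nat_lit 0) (nat_lit 2434103082) (nat_lit 16) (nat_lit 5) (nat_lit 18) (nat_lit 4) (nat_lit 16) (nat_lit 4) (nat_lit 353) (nat_lit 237) (nat_lit 190)))))) (XT.nd (nat_lit 468) (nat_lit 152) (nat_lit 0) (XT.nd (nat_lit 234) (nat_lit 76) (nat_lit 0) (XT.nd (nat_lit 78) (nat_lit 76) (nat_lit 0) (XT.lf (nat_lit 0) (nat_lit 5054464968) (nat_lit 152) (nat_lit 18821211872) (nat_lit 152) (nat_lit 765683250) (nat_lit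 14) (nat_lit 4) (nat_lit 16) (nat_lit 5) (nat_lit 16) (nat_lit 4) (nat_lit 354) (nat_lit 237) (nat_lit 189)) (XT.nd (nat_lit 78) (nat_lit 0) (nat_lit 0) (XT.lf (nat_lit 0) (nat_lit 2206437140) (nat_lit 228) (nat_lit 13744356149) (nat_lit 76) (nat_lit 9317297544) (nat_lit 13) (nat_lit 5) (nat_lit 16) (nat_lit 5) (nat_lit 14) (nat_lit 4) (nat_lit 355) (nat_lit 237) (nat_lit 188)) (XT.lf (nat_lit 0) (nat_lit 5217715402) (nat_lit 228) (nat_lit 7794466054) (nat_lit 76) (nat_lit 12902276921) (nat_lit 13) (nat_lit 5) (nat_lit 16) (nat_lit 5) (nat_lit 14) (nat_lit 4) (nat_lit 356) (nat_lit 237) (nat_lit 187)))) (XT.nd (nat_lit 78) (nat_lit 76) (nat_lit 0) (XT.lf (nat_lit 0) (nat_lit 8285723989) (nat_lit 228) (nat_lit 1724665689) (nat_lit 76) (nat_lit 16570858641) (nat_lit 13) (nat_lit 5) (nat_lit 16) (nat_lit 5) (nat_lit 14) (nat_lit 4) (nat_lit 357) (nat_lit 237) (nat_lit 186)) (XT.nd (nat_lit 78) (nat_lit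 0) (nat_lit 0) (XT.lf (nat_lit 0) (nat_lit 4559317356) (nat_lit 76) (nat_lit 6897653274) (nat_lit 152) (nat_lit 15810757852) (nat_lit 12) (nat_lit 5) (nat_lit 13) (nat_lit 5) (nat_lit 14) (nat_lit 4) (nat_lit 358) (nat_lit 237) (nat_lit 185)) (XT.lf (nat_lit 0) (nat_lit 11010851465) (nat_lit 76) (nat_lit 3697698758) (nat_lit 152) (nat_lit 13266718763) (nat_lit 12) (nat_lit 5) (nat_lit 13) (nat_lit 5) (nat_lit 14) (nat_lit 4) (nat_lit 359) (nat_lit 237) (nat_lit 184))))) (XT.nd (nat_lit 234) (nat_lit 76) (nat_lit 0) (XT.nd (nat_lit 78) (nat_lit 76) (nat_lit 0) (XT.lf (nat_lit 0) (nat_lit 17601249669) (nat_lit 76) (nat_lit 425145794) (nat_lit 152) (nat_lit 10678599860) (nat_lit 12) (nat_lit 5) (nat_lit 13) (nat_lit 5) (nat_lit 14) (nat_lit 4) (nat_lit 360) (nat_lit 237) (nat_lit 183)) (XT.nd (nat_lit 78) (nat_lit 76) (nat_lit 0) (XT.lf (nat_lit 0) (nat_lit 21441501809) (nat_lit 152) (nat_lit 5149370919)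 (nat_lit 0) (nat_lit 2865829502) (nat_lit 12) (nat_lit 5) (nat_lit 14) (nat_lit 4) (nat_lit 12) (nat_lit 4) (nat_lit 361) (nat_lit 237) (nat_lit 182)) (XT.lf (nat_lit 0) (nat_lit 945643128) (nat_lit 76) (nat_lit 23997019617) (nat_lit 76) (nat_lit 5288809509) (nat_lit 11) (nat_lit 4) (nat_lit 12) (nat_lit 5) (nat_lit 12) (nat_lit 4) (nat_lit 362) (nat_lit 237) (nat_lit 181)))) (XT.nd (nat_lit 78) (nat_lit 76) (nat_lit 0) (XT.lf (nat_lit 0) (nat_lit 7277341295) (nat_lit 76) (nat_lit 21294185495) (nat_lit 76) (nat_lit 2457297910) (nat_lit 11) (nat_lit 4) (nat_lit 12) (nat_lit 5) (nat_lit 12) (nat_lit 4) (nat_lit 363) (nat_lit 237) (nat_lit 180)) (XT.nd (nat_lit 78) (nat_lit 0) (nat_lit 0) (XT.lf (nat_lit 0) (nat_lit 421422820) (nat_lit 152) (nat_lit 18106328848) (nat_lit 76) (nat_lit 13323095191) (nat_lit 10) (nat_lit 5) (nat_lit 12) (nat_lit 5) (nat_lit 11) (nat_lit 4) (nat_lit 364) (nat_lit 237)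 (nat_lit 179)) (XT.lf (nat_lit 0) (nat_lit 3309177696) (nat_lit 152) (nat_lit 12365477314) (nat_lit 76) (nat_lit 17023000657) (nat_lit 10) (nat_lit 5) (nat_lit 12) (nat_lit 5) (nat_lit 11) (nat_lit 4) (nat_lit 365) (nat_lit 237) (nat_lit 178))))))))
noncomputable def xc52 : XT := (XT.nd (nat_lit 1794) (nat_lit 152) (nat_lit 0) (XT.nd (nat_lit 858) (nat_lit 152) (nat_lit 0) (XT.nd (nat_lit 390) (nat_lit 76) (nat_lit 0) (XT.nd (nat_lit 156) (nat_lit 76) (nat_lit 0) (XT.nd (nat_lit 78) (nat_lit 0) (nat_lit 0) (XT.lf (nat_lit 0) (nat_lit 6256440730) (nat_lit 152) (nat_lit 6500291474) (nat_lit 76) (nat_lit 20813967479) (nat_lit 10) (nat_lit 5) (nat_lit 12) (nat_lit 5) (nat_lit 11) (nat_lit 4) (nat_lit 366) (nat_lit 237) (nat_lit 177)) (XT.lf (nat_lit 0) (nat_lit 9265787202) (nat_lit 152) (nat_lit 505646408) (nat_lit 76) (nat_lit 24699308154) (nat_lit 10) (nat_lit 5) (nat_lit 12) (nat_lit 5) (nat_lit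 11) (nat_lit 4) (nat_lit 367) (nat_lit 237) (nat_lit 176))) (XT.nd (nat_lit 78) (nat_lit 0) (nat_lit 0) (XT.lf (nat_lit 0) (nat_lit 5735618497) (nat_lit 76) (nat_lit 6659362413) (nat_lit 152) (nat_lit 23001933415) (nat_lit 9) (nat_lit 5) (nat_lit 10) (nat_lit 5) (nat_lit 11) (nat_lit 4) (nat_lit 368) (nat_lit 237) (nat_lit 175)) (XT.nd (nat_lit 78) (nat_lit 0) (nat_lit 0) (XT.lf (nat_lit 0) (nat_lit 12129787088) (nat_lit 76) (nat_lit 3468116951) (nat_lit 152) (nat_lit 20753588165) (nat_lit 9) (nat_lit 5) (nat_lit 10) (nat_lit 5) (nat_lit 11) (nat_lit 4) (nat_lit 369) (nat_lit 237) (nat_lit 174)) (XT.lf (nat_lit 0) (nat_lit 18672383147) (nat_lit 76) (nat_lit 200014795) (nat_lit 152) (nat_lit 18463060278) (nat_lit 9) (nat_lit 5) (nat_lit 10) (nat_lit 5) (nat_lit 11) (nat_lit 4) (nat_lit 370) (nat_lit 237) (nat_lit 173))))) (XT.nd (nat_lit 234) (nat_lit 76) (nat_lit 0) (XT.nd (nat_lit 78) (nat_lit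 0) (nat_lit 0) (XT.lf (nat_lit 0) (nat_lit 22251582404) (nat_lit 152) (nat_lit 13010807219) (nat_lit 0) (nat_lit 3086374767) (nat_lit 9) (nat_lit 5) (nat_lit 11) (nat_lit 4) (nat_lit 9) (nat_lit 4) (nat_lit 371) (nat_lit 237) (nat_lit 172)) (XT.nd (nat_lit 78) (nat_lit 0) (nat_lit 0) (XT.lf (nat_lit 0) (nat_lit 25710842120) (nat_lit 152) (nat_lit 7232394690) (nat_lit 0) (nat_lit 6449886356) (nat_lit 9) (nat_lit 5) (nat_lit 11) (nat_lit 4) (nat_lit 9) (nat_lit 4) (nat_lit 372) (nat_lit 237) (nat_lit 171)) (XT.lf (nat_lit 0) (nat_lit 29251277082) (nat_lit 152) (nat_lit 1320865724) (nat_lit 0) (nat_lit 9897361971) (nat_lit 9) (nat_lit 5) (nat_lit 11) (nat_lit 4) (nat_lit 9) (nat_lit 4) (nat_lit 373) (nat_lit 237) (nat_lit 170)))) (XT.nd (nat_lit 78) (nat_lit 0) (nat_lit 0) (XT.lf (nat_lit 0) (nat_lit 4823060371) (nat_lit 76) (nat_lit 28099282708) (nat_lit 76) (nat_lit 8655115804) (nat_lit 8) (nat_lit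 4) (nat_lit 9) (nat_lit 5) (nat_lit 9) (nat_lit 4) (nat_lit 374) (nat_lit 237) (nat_lit 169)) (XT.nd (nat_lit 78) (nat_lit 0) (nat_lit 0) (XT.lf (nat_lit 0) (nat_lit 11139699665) (nat_lit 76) (nat_lit 25555502653) (nat_lit 76) (nat_lit 6023712647) (nat_lit 8) (nat_lit 4) (nat_lit 9) (nat_lit 5) (nat_lit 9) (nat_lit 4) (nat_lit 375) (nat_lit 237) (nat_lit 168)) (XT.lf (nat_lit 0) (nat_lit 17608283733) (nat_lit 76) (nat_lit 22951918073) (nat_lit 76) (nat_lit 3335057097) (nat_lit 8) (nat_lit 4) (nat_lit 9) (nat_lit 5) (nat_lit 9) (nat_lit 4) (nat_lit 376) (nat_lit 237) (nat_lit 167)))))) (XT.nd (nat_lit 468) (nat_lit 0) (nat_lit 0) (XT.nd (nat_lit 234) (nat_lit 76) (nat_lit 0) (XT.nd (nat_lit 78) (nat_lit 76) (nat_lit 0) (XT.lf (nat_lit 0) (nat_lit 24234464734) (nat_lit 76) (nat_lit 20286253993) (nat_lit 76) (nat_lit 586799841) (nat_lit 8) (nat_lit 4) (nat_lit 9) (nat_lit 5) (nat_lit 9) (nat_lit 4)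 (nat_lit 377) (nat_lit 237) (nat_lit 166)) (XT.nd (nat_lit 78) (nat_lit 0) (nat_lit 0) (XT.lf (nat_lit 0) (nat_lit 2180072787) (nat_lit 152) (nat_lit 15354093944) (nat_lit 76) (nat_lit 28821945289) (nat_lit 7) (nat_lit 5) (nat_lit 9) (nat_lit 5) (nat_lit 8) (nat_lit 4) (nat_lit 378) (nat_lit 237) (nat_lit 165)) (XT.lf (nat_lit 0) (nat_lit 4998695678) (nat_lit 152) (nat_lit 9710141464) (nat_lit 76) (nat_lit 32933747068) (nat_lit 7) (nat_lit 5) (nat_lit 9) (nat_lit 5) (nat_lit 8) (nat_lit 4) (nat_lit 379) (nat_lit 237) (nat_lit 164)))) (XT.nd (nat_lit 78) (nat_lit 76) (nat_lit 0) (XT.lf (nat_lit 0) (nat_lit 7882982286) (nat_lit 152) (nat_lit 3930624106) (nat_lit 76) (nat_lit 37154622071) (nat_lit 7) (nat_lit 5) (nat_lit 9) (nat_lit 5) (nat_lit 8) (nat_lit 4) (nat_lit 380) (nat_lit 237) (nat_lit 163)) (XT.nd (nat_lit 78) (nat_lit 0) (nat_lit 0) (XT.lf (nat_lit 0) (nat_lit 2029103305) (nat_lit 76)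 (nat_lit 8825854537) (nat_lit 152) (nat_lit 39478660116) (nat_lit 6) (nat_lit 5) (nat_lit 7) (nat_lit 5) (nat_lit 8) (nat_lit 4) (nat_lit 381) (nat_lit 237) (nat_lit 162)) (XT.lf (nat_lit 0) (nat_lit 8215747182) (nat_lit 76) (nat_lit 5721914835) (nat_lit 152) (nat_lit 37801670453) (nat_lit 6) (nat_lit 5) (nat_lit 7) (nat_lit 5) (nat_lit 8) (nat_lit 4) (nat_lit 382) (nat_lit 237) (nat_lit 161))))) (XT.nd (nat_lit 234) (nat_lit 0) (nat_lit 0) (XT.nd (nat_lit 78) (nat_lit 0) (nat_lit 0) (XT.lf (nat_lit 0) (nat_lit 14556486200) (nat_lit 76) (nat_lit 2538766705) (nat_lit 152) (nat_lit 36092503455) (nat_lit 6) (nat_lit 5) (nat_lit 7) (nat_lit 5) (nat_lit 8) (nat_lit 4) (nat_lit 383) (nat_lit 237) (nat_lit 160)) (XT.nd (nat_lit 78) (nat_lit 0) (nat_lit 0) (XT.lf (nat_lit 0) (nat_lit 20337471892) (nat_lit 152) (nat_lit 33630276753) (nat_lit 0) (nat_lit 712197125) (nat_lit 6) (nat_lit 5) (nat_lit 8) (nat_lit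 4) (nat_lit 6) (nat_lit 4) (nat_lit 384) (nat_lit 237) (nat_lit 159)) (XT.lf (nat_lit 0) (nat_lit 23685383297) (nat_lit 152) (nat_lit 28534466581) (nat_lit 0) (nat_lit 3996807739) (nat_lit 6) (nat_lit 5) (nat_lit 8) (nat_lit 4) (nat_lit 6) (nat_lit 4) (nat_lit 385) (nat_lit 237) (nat_lit 158)))) (XT.nd (nat_lit 78) (nat_lit 0) (nat_lit 0) (XT.lf (nat_lit 0) (nat_lit 27117508302) (nat_lit 152) (nat_lit 23314982817) (nat_lit 0) (nat_lit 7367475664) (nat_lit 6) (nat_lit 5) (nat_lit 8) (nat_lit 4) (nat_lit 6) (nat_lit 4) (nat_lit 386) (nat_lit 237) (nat_lit 157)) (XT.nd (nat_lit 78) (nat_lit 0) (nat_lit 0) (XT.lf (nat_lit 0) (nat_lit 30636845851) (nat_lit 152) (nat_lit 17967264746) (nat_lit 0) (nat_lit 10827146145) (nat_lit 6) (nat_lit 5) (nat_lit 8) (nat_lit 4) (nat_lit 6) (nat_lit 4) (nat_lit 387) (nat_lit 237) (nat_lit 156)) (XT.lf (nat_lit 0) (nat_lit 34246471093) (nat_lit 152) (nat_lit 12486639605)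 (nat_lit 0) (nat_lit 14378842196) (nat_lit 6) (nat_lit 5) (nat_lit 8) (nat_lit 4) (nat_lit 6) (nat_lit 4) (nat_lit 388) (nat_lit 237) (nat_lit 155))))))) (XT.nd (nat_lit 936) (nat_lit 0) (nat_lit 0) (XT.nd (nat_lit 468) (nat_lit 76) (nat_lit 0) (XT.nd (nat_lit 234) (nat_lit 0) (nat_lit 0) (XT.nd (nat_lit 78) (nat_lit 76) (nat_lit 0) (XT.lf (nat_lit 0) (nat_lit 37949538070) (nat_lit 152) (nat_lit 6868318498) (nat_lit 0) (nat_lit 18025667239) (nat_lit 6) (nat_lit 5) (nat_lit 8) (nat_lit 4) (nat_lit 6) (nat_lit 4) (nat_lit 389) (nat_lit 237) (nat_lit 154)) (XT.nd (nat_lit 78) (nat_lit 76) (nat_lit 0) (XT.lf (nat_lit 0) (nat_lit 41749282472) (nat_lit 152) (nat_lit 1107392212) (nat_lit 0) (nat_lit 21770807821) (nat_lit 6) (nat_lit 5) (nat_lit 8) (nat_lit 4) (nat_lit 6) (nat_lit 4) (nat_lit 390) (nat_lit 237) (nat_lit 153)) (XT.lf (nat_lit 0) (nat_lit 4896725827) (nat_lit 76) (nat_lit 40799368959) (nat_lit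 76) (nat_lit 20767880891) (nat_lit 5) (nat_lit 4) (nat_lit 6) (nat_lit 5) (nat_lit 6) (nat_lit 4) (nat_lit 391) (nat_lit 237) (nat_lit 152)))) (XT.nd (nat_lit 78) (nat_lit 0) (nat_lit 0) (XT.lf (nat_lit 0) (nat_lit 11078726022) (nat_lit 76) (nat_lit 38679941054) (nat_lit 76) (nat_lit 18596983650) (nat_lit 5) (nat_lit 4) (nat_lit 6) (nat_lit 5) (nat_lit 6) (nat_lit 4) (nat_lit 392) (nat_lit 237) (nat_lit 151)) (XT.nd (nat_lit 78) (nat_lit 0) (nat_lit 0) (XT.lf (nat_lit 0) (nat_lit 17421970842) (nat_lit 76) (nat_lit 36507721532) (nat_lit 76) (nat_lit 16374793898) (nat_lit 5) (nat_lit 4) (nat_lit 6) (nat_lit 5) (nat_lit 6) (nat_lit 4) (nat_lit 393) (nat_lit 237) (nat_lit 150)) (XT.lf (nat_lit 0) (nat_lit 23932002928) (nat_lit 76) (nat_lit 34280812338) (nat_lit 76) (nat_lit 14099369917) (nat_lit 5) (nat_lit 4) (nat_lit 6) (nat_lit 5) (nat_lit 6) (nat_lit 4) (nat_lit 394) (nat_lit 237) (nat_lit 149)))))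 (XT.nd (nat_lit 234) (nat_lit 76) (nat_lit 0) (XT.nd (nat_lit 78) (nat_lit 0) (nat_lit 0) (XT.lf (nat_lit 0) (nat_lit 30614510658) (nat_lit 76) (nat_lit 31997267628) (nat_lit 76) (nat_lit 11768723473) (nat_lit 5) (nat_lit 4) (nat_lit 6) (nat_lit 5) (nat_lit 6) (nat_lit 4) (nat_lit 395) (nat_lit 237) (nat_lit 148)) (XT.nd (nat_lit 78) (nat_lit 0) (nat_lit 0) (XT.lf (nat_lit 0) (nat_lit 37475333116) (nat_lit 76) (nat_lit 29655092072) (nat_lit 76) (nat_lit 9380818079) (nat_lit 5) (nat_lit 4) (nat_lit 6) (nat_lit 5) (nat_lit 6) (nat_lit 4) (nat_lit 396) (nat_lit 237) (nat_lit 147)) (XT.lf (nat_lit 0) (nat_lit 44520465196) (nat_lit 76) (nat_lit 27252239109) (nat_lit 76) (nat_lit 6933567214) (nat_lit 5) (nat_lit 4) (nat_lit 6) (nat_lit 5) (nat_lit 6) (nat_lit 4) (nat_lit 397) (nat_lit 237) (nat_lit 146)))) (XT.nd (nat_lit 78) (nat_lit 76) (nat_lit 0) (XT.lf (nat_lit 0) (nat_lit 51756062838) (nat_lit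 76) (nat_lit 24786609159) (nat_lit 76) (nat_lit 4424832505) (nat_lit 5) (nat_lit 4) (nat_lit 6) (nat_lit 5) (nat_lit 6) (nat_lit 4) (nat_lit 398) (nat_lit 237) (nat_lit 145)) (XT.nd (nat_lit 78) (nat_lit 76) (nat_lit 0) (XT.lf (nat_lit 0) (nat_lit 59188448409) (nat_lit 76) (nat_lit 22256047788) (nat_lit 76) (nat_lit 1852421853) (nat_lit 5) (nat_lit 4) (nat_lit 6) (nat_lit 5) (nat_lit 6) (nat_lit 4) (nat_lit 399) (nat_lit 237) (nat_lit 144)) (XT.lf (nat_lit 0) (nat_lit 770576495) (nat_lit 152) (nat_lit 18879986018) (nat_lit 76) (nat_lit 66045758419) (nat_lit 4) (nat_lit 5) (nat_lit 6) (nat_lit 5) (nat_lit 5) (nat_lit 4) (nat_lit 400) (nat_lit 237) (nat_lit 143)))))) (XT.nd (nat_lit 33306) (nat_lit 0) (nat_lit 4560) (XT.nd (nat_lit 33072) (nat_lit 0) (nat_lit 5928) (XT.nd (nat_lit 78) (nat_lit 0) (nat_lit 0) (XT.lf (nat_lit 0) (nat_lit 3424325049) (nat_lit 152) (nat_lit 13532323415) (nat_lit 76)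 (nat_lit 71210834215) (nat_lit 4) (nat_lit 5) (nat_lit 6) (nat_lit 5) (nat_lit 5) (nat_lit 4) (nat_lit 401) (nat_lit 237) (nat_lit 142)) (XT.nd (nat_lit 78) (nat_lit 0) (nat_lit 0) (XT.lf (nat_lit 0) (nat_lit 6147290039) (nat_lit 152) (nat_lit 8043002506) (nat_lit 76) (nat_lit 76522804213) (nat_lit 4) (nat_lit 5) (nat_lit 6) (nat_lit 5) (nat_lit 5) (nat_lit 4) (nat_lit 402) (nat_lit 237) (nat_lit 141)) (XT.lf (nat_lit 0) (nat_lit 8941850755) (nat_lit 152) (nat_lit 2407226796) (nat_lit 76) (nat_lit 81986309937) (nat_lit 4) (nat_lit 5) (nat_lit 6) (nat_lit 5) (nat_lit 5) (nat_lit 4) (nat_lit 403) (nat_lit 237) (nat_lit 140)))) (XT.nd (nat_lit 78) (nat_lit 380) (nat_lit 0) (XT.lf (nat_lit 0) (nat_lit 505604869) (nat_lit 380) (nat_lit 3446011592) (nat_lit 0) (nat_lit 505604869) (nat_lit 87) (nat_lit 5) (nat_lit 92) (nat_lit 4) (nat_lit 87) (nat_lit 4) (nat_lit 304) (nat_lit 238) (nat_lit 238)) (XT.nd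 (nat_lit 78) (nat_lit 380) (nat_lit 0) (XT.lf (nat_lit 0) (nat_lit 4464045718) (nat_lit 380) (nat_lit 1102232265) (nat_lit 0) (nat_lit 3474875478) (nat_lit 87) (nat_lit 5) (nat_lit 92) (nat_lit 4) (nat_lit 87) (nat_lit 4) (nat_lit 305) (nat_lit 238) (nat_lit 237)) (XT.lf (nat_lit 0) (nat_lit 4839827731) (nat_lit 380) (nat_lit 3141345466) (nat_lit 380) (nat_lit 1191815769) (nat_lit 82) (nat_lit 4) (nat_lit 87) (nat_lit 5) (nat_lit 87) (nat_lit 4) (nat_lit 306) (nat_lit 238) (nat_lit 236))))) (XT.nd (nat_lit 234) (nat_lit 684) (nat_lit 0) (XT.nd (nat_lit 78) (nat_lit 304) (nat_lit 0) (XT.lf (nat_lit 0) (nat_lit 1566120815) (nat_lit 304) (nat_lit 625031073) (nat_lit 380) (nat_lit 7118875042) (nat_lit 77) (nat_lit 5) (nat_lit 81) (nat_lit 5) (nat_lit 82) (nat_lit 4) (nat_lit 307) (nat_lit 238) (nat_lit 235)) (XT.nd (nat_lit 78) (nat_lit 304) (nat_lit 0) (XT.lf (nat_lit 0) (nat_lit 5630431727) (nat_lit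 380) (nat_lit 1867570673) (nat_lit 0) (nat_lit 1953588607) (nat_lit 77) (nat_lit 5) (nat_lit 82) (nat_lit 4) (nat_lit 77) (nat_lit 4) (nat_lit 308) (nat_lit 238) (nat_lit 234)) (XT.lf (nat_lit 0) (nat_lit 4145413691) (nat_lit 304) (nat_lit 4991650795) (nat_lit 304) (nat_lit 461540736) (nat_lit 73) (nat_lit 4) (nat_lit 77) (nat_lit 5) (nat_lit 77) (nat_lit 4) (nat_lit 309) (nat_lit 238) (nat_lit 233)))) (XT.nd (nat_lit 78) (nat_lit 304) (nat_lit 0) (XT.lf (nat_lit 0) (nat_lit 493251865) (nat_lit 304) (nat_lit 2389396620) (nat_lit 380) (nat_lit 6868368621) (nat_lit 68) (nat_lit 5) (nat_lit 72) (nat_lit 5) (nat_lit 73) (nat_lit 4) (nat_lit 310) (nat_lit 238) (nat_lit 232)) (XT.nd (nat_lit 78) (nat_lit 304) (nat_lit 0) (XT.lf (nat_lit 0) (nat_lit 6295764821) (nat_lit 380) (nat_lit 3300426980) (nat_lit 0) (nat_lit 312453668) (nat_lit 68) (nat_lit 5) (nat_lit 73) (nat_lit 4) (nat_lit 68) (nat_lit 4)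 (nat_lit 311) (nat_lit 238) (nat_lit 231)) (XT.lf (nat_lit 0) (nat_lit 2753035682) (nat_lit 304) (nat_lit 7030175405) (nat_lit 304) (nat_lit 288747629) (nat_lit 64) (nat_lit 4) (nat_lit 68) (nat_lit 5) (nat_lit 68) (nat_lit 4) (nat_lit 312) (nat_lit 238) (nat_lit 230))))))))
noncomputable def xc53 : XT := (XT.nd (nat_lit 1794) (nat_lit 1292) (nat_lit 0) (XT.nd (nat_lit 858) (nat_lit 988) (nat_lit 0) (XT.nd (nat_lit 390) (nat_lit 836) (nat_lit 0) (XT.nd (nat_lit 156) (nat_lit 532) (nat_lit 0) (XT.nd (nat_lit 78) (nat_lit 228) (nat_lit 0) (XT.lf (nat_lit 0) (nat_lit 3029739180) (nat_lit 380) (nat_lit 1327092796) (nat_lit 76) (nat_lit 5883868648) (nat_lit 63) (nat_lit 5) (nat_lit 68) (nat_lit 5) (nat_lit 64) (nat_lit 4) (nat_lit 313) (nat_lit 238) (nat_lit 229)) (XT.lf (nat_lit 0) (nat_lit 4825888942) (nat_lit 228) (nat_lit 1586894261) (nat_lit 304) (nat_lit 4002616079) (nat_lit 60) (nat_lit 5) (nat_lit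 63) (nat_lit 5) (nat_lit 64) (nat_lit 4) (nat_lit 314) (nat_lit 238) (nat_lit 228))) (XT.nd (nat_lit 78) (nat_lit 304) (nat_lit 0) (XT.lf (nat_lit 0) (nat_lit 481988208) (nat_lit 228) (nat_lit 9370909381) (nat_lit 228) (nat_lit 743875337) (nat_lit 57) (nat_lit 4) (nat_lit 60) (nat_lit 5) (nat_lit 60) (nat_lit 4) (nat_lit 315) (nat_lit 238) (nat_lit 227)) (XT.nd (nat_lit 78) (nat_lit 228) (nat_lit 0) (XT.lf (nat_lit 0) (nat_lit 2559897661) (nat_lit 304) (nat_lit 4084399850) (nat_lit 76) (nat_lit 4138684869) (nat_lit 56) (nat_lit 5) (nat_lit 60) (nat_lit 5) (nat_lit 57) (nat_lit 4) (nat_lit 316) (nat_lit 238) (nat_lit 226)) (XT.lf (nat_lit 0) (nat_lit 2051474064) (nat_lit 228) (nat_lit 3843785493) (nat_lit 304) (nat_lit 5080967596) (nat_lit 53) (nat_lit 5) (nat_lit 56) (nat_lit 5) (nat_lit 57) (nat_lit 4) (nat_lit 317) (nat_lit 238) (nat_lit 225))))) (XT.nd (nat_lit 234) (nat_lit 532) (nat_lit 0)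 (XT.nd (nat_lit 78) (nat_lit 304) (nat_lit 0) (XT.lf (nat_lit 0) (nat_lit 8348121043) (nat_lit 228) (nat_lit 952589337) (nat_lit 304) (nat_lit 1875548140) (nat_lit 53) (nat_lit 5) (nat_lit 56) (nat_lit 5) (nat_lit 57) (nat_lit 4) (nat_lit 318) (nat_lit 238) (nat_lit 224)) (XT.nd (nat_lit 78) (nat_lit 0) (nat_lit 0) (XT.lf (nat_lit 0) (nat_lit 1380550818) (nat_lit 304) (nat_lit 8004069502) (nat_lit 76) (nat_lit 1997873873) (nat_lit 49) (nat_lit 5) (nat_lit 53) (nat_lit 5) (nat_lit 50) (nat_lit 4) (nat_lit 319) (nat_lit 238) (nat_lit 223)) (XT.lf (nat_lit 0) (nat_lit 4665688773) (nat_lit 304) (nat_lit 1899349418) (nat_lit 76) (nat_lit 5030332516) (nat_lit 49) (nat_lit 5) (nat_lit 53) (nat_lit 5) (nat_lit 50) (nat_lit 4) (nat_lit 320) (nat_lit 238) (nat_lit 222)))) (XT.nd (nat_lit 78) (nat_lit 304) (nat_lit 0) (XT.lf (nat_lit 0) (nat_lit 4370730183) (nat_lit 228) (nat_lit 3653460650) (nat_lit 304)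 (nat_lit 3791278434) (nat_lit 46) (nat_lit 5) (nat_lit 49) (nat_lit 5) (nat_lit 50) (nat_lit 4) (nat_lit 321) (nat_lit 238) (nat_lit 221)) (XT.nd (nat_lit 78) (nat_lit 304) (nat_lit 0) (XT.lf (nat_lit 0) (nat_lit 10765786700) (nat_lit 228) (nat_lit 670613129) (nat_lit 304) (nat_lit 607260110) (nat_lit 46) (nat_lit 5) (nat_lit 49) (nat_lit 5) (nat_lit 50) (nat_lit 4) (nat_lit 322) (nat_lit 238) (nat_lit 220)) (XT.lf (nat_lit 0) (nat_lit 2627112602) (nat_lit 304) (nat_lit 7255646355) (nat_lit 76) (nat_lit 2395030613) (nat_lit 42) (nat_lit 5) (nat_lit 46) (nat_lit 5) (nat_lit 43) (nat_lit 4) (nat_lit 323) (nat_lit 238) (nat_lit 219)))))) (XT.nd (nat_lit 468) (nat_lit 380) (nat_lit 0) (XT.nd (nat_lit 234) (nat_lit 456) (nat_lit 0) (XT.nd (nat_lit 78) (nat_lit 152) (nat_lit 0) (XT.lf (nat_lit 0) (nat_lit 5901570264) (nat_lit 304) (nat_lit 1095103512) (nat_lit 76) (nat_lit 5523502286) (nat_lit 42) (nat_lit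 5) (nat_lit 46) (nat_lit 5) (nat_lit 43) (nat_lit 4) (nat_lit 324) (nat_lit 238) (nat_lit 218)) (XT.nd (nat_lit 78) (nat_lit 0) (nat_lit 0) (XT.lf (nat_lit 0) (nat_lit 5254614514) (nat_lit 152) (nat_lit 4007621387) (nat_lit 228) (nat_lit 3508028069) (nat_lit 40) (nat_lit 5) (nat_lit 42) (nat_lit 5) (nat_lit 43) (nat_lit 4) (nat_lit 325) (nat_lit 238) (nat_lit 217)) (XT.lf (nat_lit 0) (nat_lit 11720057597) (nat_lit 152) (nat_lit 953072938) (nat_lit 228) (nat_lit 356308746) (nat_lit 40) (nat_lit 5) (nat_lit 42) (nat_lit 5) (nat_lit 43) (nat_lit 4) (nat_lit 326) (nat_lit 238) (nat_lit 216)))) (XT.nd (nat_lit 78) (nat_lit 152) (nat_lit 0) (XT.lf (nat_lit 0) (nat_lit 2843182569) (nat_lit 304) (nat_lit 8259126768) (nat_lit 76) (nat_lit 2193021881) (nat_lit 36) (nat_lit 5) (nat_lit 40) (nat_lit 5) (nat_lit 37) (nat_lit 4) (nat_lit 327) (nat_lit 238) (nat_lit 215)) (XT.nd (nat_lit 78) (nat_lit 152) (nat_lit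 0) (XT.lf (nat_lit 0) (nat_lit 6094291475) (nat_lit 304) (nat_lit 2079126482) (nat_lit 76) (nat_lit 5396853642) (nat_lit 36) (nat_lit 5) (nat_lit 40) (nat_lit 5) (nat_lit 37) (nat_lit 4) (nat_lit 328) (nat_lit 238) (nat_lit 214)) (XT.lf (nat_lit 0) (nat_lit 4276295116) (nat_lit 152) (nat_lit 5149497167) (nat_lit 228) (nat_lit 4428241711) (nat_lit 34) (nat_lit 5) (nat_lit 36) (nat_lit 5) (nat_lit 37) (nat_lit 4) (nat_lit 329) (nat_lit 238) (nat_lit 213))))) (XT.nd (nat_lit 234) (nat_lit 152) (nat_lit 0) (XT.nd (nat_lit 78) (nat_lit 228) (nat_lit 0) (XT.lf (nat_lit 0) (nat_lit 10772490728) (nat_lit 152) (nat_lit 2048302044) (nat_lit 228) (nat_lit 1326667676) (nat_lit 34) (nat_lit 5) (nat_lit 36) (nat_lit 5) (nat_lit 37) (nat_lit 4) (nat_lit 330) (nat_lit 238) (nat_lit 212)) (XT.nd (nat_lit 78) (nat_lit 0) (nat_lit 0) (XT.lf (nat_lit 0) (nat_lit 1814750596) (nat_lit 228) (nat_lit 11498434967) (nat_lit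 76) (nat_lit 1136522538) (nat_lit 31) (nat_lit 5) (nat_lit 34) (nat_lit 5) (nat_lit 32) (nat_lit 4) (nat_lit 331) (nat_lit 238) (nat_lit 211)) (XT.lf (nat_lit 0) (nat_lit 5022514576) (nat_lit 228) (nat_lit 5348754807) (nat_lit 76) (nat_lit 4389449622) (nat_lit 31) (nat_lit 5) (nat_lit 34) (nat_lit 5) (nat_lit 32) (nat_lit 4) (nat_lit 332) (nat_lit 238) (nat_lit 210)))) (XT.nd (nat_lit 78) (nat_lit 0) (nat_lit 0) (XT.lf (nat_lit 0) (nat_lit 914436486) (nat_lit 152) (nat_lit 7366563792) (nat_lit 228) (nat_lit 6801476675) (nat_lit 29) (nat_lit 5) (nat_lit 31) (nat_lit 5) (nat_lit 32) (nat_lit 4) (nat_lit 333) (nat_lit 238) (nat_lit 209)) (XT.nd (nat_lit 78) (nat_lit 0) (nat_lit 0) (XT.lf (nat_lit 0) (nat_lit 7387215347) (nat_lit 152) (nat_lit 4250471960) (nat_lit 228) (nat_lit 3776236812) (nat_lit 29) (nat_lit 5) (nat_lit 31) (nat_lit 5) (nat_lit 32) (nat_lit 4) (nat_lit 334) (nat_lit 238) (nat_lit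 208)) (XT.lf (nat_lit 0) (nat_lit 13968786890) (nat_lit 152) (nat_lit 1074283025) (nat_lit 228) (nat_lit 713853363) (nat_lit 29) (nat_lit 5) (nat_lit 31) (nat_lit 5) (nat_lit 32) (nat_lit 4) (nat_lit 335) (nat_lit 238) (nat_lit 207))))))) (XT.nd (nat_lit 936) (nat_lit 456) (nat_lit 0) (XT.nd (nat_lit 468) (nat_lit 228) (nat_lit 0) (XT.nd (nat_lit 234) (nat_lit 228) (nat_lit 0) (XT.nd (nat_lit 78) (nat_lit 152) (nat_lit 0) (XT.lf (nat_lit 0) (nat_lit 2407633885) (nat_lit 228) (nat_lit 11510900368) (nat_lit 76) (nat_lit 2190574451) (nat_lit 26) (nat_lit 5) (nat_lit 29) (nat_lit 5) (nat_lit 27) (nat_lit 4) (nat_lit 336) (nat_lit 238) (nat_lit 206)) (XT.nd (nat_lit 78) (nat_lit 152) (nat_lit 0) (XT.lf (nat_lit 0) (nat_lit 5586625657) (nat_lit 228) (nat_lit 5360783974) (nat_lit 76) (nat_lit 5524936115) (nat_lit 26) (nat_lit 5) (nat_lit 29) (nat_lit 5) (nat_lit 27) (nat_lit 4) (nat_lit 337) (nat_lit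 238) (nat_lit 205)) (XT.lf (nat_lit 0) (nat_lit 909663094) (nat_lit 152) (nat_lit 7910879720) (nat_lit 228) (nat_lit 8027193445) (nat_lit 24) (nat_lit 5) (nat_lit 26) (nat_lit 5) (nat_lit 27) (nat_lit 4) (nat_lit 338) (nat_lit 238) (nat_lit 204)))) (XT.nd (nat_lit 78) (nat_lit 228) (nat_lit 0) (XT.lf (nat_lit 0) (nat_lit 7396993945) (nat_lit 152) (nat_lit 4760081242) (nat_lit 228) (nat_lit 5077187146) (nat_lit 24) (nat_lit 5) (nat_lit 26) (nat_lit 5) (nat_lit 27) (nat_lit 4) (nat_lit 339) (nat_lit 238) (nat_lit 203)) (XT.nd (nat_lit 78) (nat_lit 228) (nat_lit 0) (XT.lf (nat_lit 0) (nat_lit 14000187005) (nat_lit 152) (nat_lit 1546394479) (nat_lit 228) (nat_lit 2087256924) (nat_lit 24) (nat_lit 5) (nat_lit 26) (nat_lit 5) (nat_lit 27) (nat_lit 4) (nat_lit 340) (nat_lit 238) (nat_lit 202)) (XT.lf (nat_lit 0) (nat_lit 969940697) (nat_lit 228) (nat_lit 15340530550) (nat_lit 76) (nat_lit 1734774544)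 (nat_lit 21) (nat_lit 5) (nat_lit 24) (nat_lit 5) (nat_lit 22) (nat_lit 4) (nat_lit 341) (nat_lit 238) (nat_lit 201))))) (XT.nd (nat_lit 234) (nat_lit 152) (nat_lit 0) (XT.nd (nat_lit 78) (nat_lit 76) (nat_lit 0) (XT.lf (nat_lit 0) (nat_lit 4083339796) (nat_lit 228) (nat_lit 9274286511) (nat_lit 76) (nat_lit 5110593107) (nat_lit 21) (nat_lit 5) (nat_lit 24) (nat_lit 5) (nat_lit 22) (nat_lit 4) (nat_lit 342) (nat_lit 238) (nat_lit 200)) (XT.nd (nat_lit 78) (nat_lit 76) (nat_lit 0) (XT.lf (nat_lit 0) (nat_lit 7245549084) (nat_lit 228) (nat_lit 3101561009) (nat_lit 76) (nat_lit 8558145942) (nat_lit 21) (nat_lit 5) (nat_lit 24) (nat_lit 5) (nat_lit 22) (nat_lit 4) (nat_lit 343) (nat_lit 238) (nat_lit 199)) (XT.lf (nat_lit 0) (nat_lit 3246388328) (nat_lit 76) (nat_lit 7244149598) (nat_lit 152) (nat_lit 8865263417) (nat_lit 20) (nat_lit 5) (nat_lit 21) (nat_lit 5) (nat_lit 22) (nat_lit 4) (nat_lit 344)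 (nat_lit 238) (nat_lit 198)))) (XT.nd (nat_lit 78) (nat_lit 152) (nat_lit 0) (XT.lf (nat_lit 0) (nat_lit 9775767140) (nat_lit 76) (nat_lit 4045699185) (nat_lit 152) (nat_lit 5998772956) (nat_lit 20) (nat_lit 5) (nat_lit 21) (nat_lit 5) (nat_lit 22) (nat_lit 4) (nat_lit 345) (nat_lit 238) (nat_lit 197)) (XT.nd (nat_lit 78) (nat_lit 152) (nat_lit 0) (XT.lf (nat_lit 0) (nat_lit 16430553563) (nat_lit 76) (nat_lit 780283775) (nat_lit 152) (nat_lit 3089050553) (nat_lit 20) (nat_lit 5) (nat_lit 21) (nat_lit 5) (nat_lit 22) (nat_lit 4) (nat_lit 346) (nat_lit 238) (nat_lit 196)) (XT.lf (nat_lit 0) (nat_lit 2444538175) (nat_lit 152) (nat_lit 18265132516) (nat_lit 152) (nat_lit 84053850) (nat_lit 18) (nat_lit 4) (nat_lit 20) (nat_lit 5) (nat_lit 20) (nat_lit 4) (nat_lit 347) (nat_lit 238) (nat_lit 195)))))) (XT.nd (nat_lit 468) (nat_lit 304) (nat_lit 0) (XT.nd (nat_lit 234) (nat_lit 76) (nat_lit 0) (XT.nd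 (nat_lit 78) (nat_lit 0) (nat_lit 0) (XT.lf (nat_lit 0) (nat_lit 2959066872) (nat_lit 228) (nat_lit 12380662491) (nat_lit 76) (nat_lit 5961606832) (nat_lit 17) (nat_lit 5) (nat_lit 20) (nat_lit 5) (nat_lit 18) (nat_lit 4) (nat_lit 348) (nat_lit 238) (nat_lit 194)) (XT.nd (nat_lit 78) (nat_lit 0) (nat_lit 0) (XT.lf (nat_lit 0) (nat_lit 6052516334) (nat_lit 228) (nat_lit 6301435399) (nat_lit 76) (nat_lit 9471407063) (nat_lit 17) (nat_lit 5) (nat_lit 20) (nat_lit 5) (nat_lit 18) (nat_lit 4) (nat_lit 349) (nat_lit 238) (nat_lit 193)) (XT.lf (nat_lit 0) (nat_lit 9200637744) (nat_lit 228) (nat_lit 105385166) (nat_lit 76) (nat_lit 13060251559) (nat_lit 17) (nat_lit 5) (nat_lit 20) (nat_lit 5) (nat_lit 18) (nat_lit 4) (nat_lit 350) (nat_lit 238) (nat_lit 192)))) (XT.nd (nat_lit 78) (nat_lit 0) (nat_lit 0) (XT.lf (nat_lit 0) (nat_lit 6336551168) (nat_lit 76) (nat_lit 6130541526) (nat_lit 152) (nat_lit 10455635840)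 (nat_lit 16) (nat_lit 5) (nat_lit 17) (nat_lit 5) (nat_lit 18) (nat_lit 4) (nat_lit 351) (nat_lit 238) (nat_lit 191)) (XT.nd (nat_lit 78) (nat_lit 0) (nat_lit 0) (XT.lf (nat_lit 0) (nat_lit 12910885507) (nat_lit 76) (nat_lit 2885171547) (nat_lit 152) (nat_lit 7700910506) (nat_lit 16) (nat_lit 5) (nat_lit 17) (nat_lit 5) (nat_lit 18) (nat_lit 4) (nat_lit 352) (nat_lit 238) (nat_lit 190)) (XT.lf (nat_lit 0) (nat_lit 19193557733) (nat_lit 152) (nat_lit 4472410555) (nat_lit 0) (nat_lit 423431483) (nat_lit 16) (nat_lit 5) (nat_lit 18) (nat_lit 4) (nat_lit 16) (nat_lit 4) (nat_lit 353) (nat_lit 238) (nat_lit 189))))) (XT.nd (nat_lit 234) (nat_lit 76) (nat_lit 0) (XT.nd (nat_lit 78) (nat_lit 76) (nat_lit 0) (XT.lf (nat_lit 0) (nat_lit 1770430836) (nat_lit 152) (nat_lit 20933446864) (nat_lit 152) (nat_lit 1995425693) (nat_lit 14) (nat_lit 4) (nat_lit 16) (nat_lit 5) (nat_lit 16) (nat_lit 4) (nat_lit 354)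 (nat_lit 238) (nat_lit 188)) (XT.nd (nat_lit 78) (nat_lit 0) (nat_lit 0) (XT.lf (nat_lit 0) (nat_lit 983639054) (nat_lit 228) (nat_lit 17104238668) (nat_lit 76) (nat_lit 7239034350) (nat_lit 13) (nat_lit 5) (nat_lit 16) (nat_lit 5) (nat_lit 14) (nat_lit 4) (nat_lit 355) (nat_lit 238) (nat_lit 187)) (XT.lf (nat_lit 0) (nat_lit 3978361640) (nat_lit 228) (nat_lit 11183208885) (nat_lit 76) (nat_lit 10812217157) (nat_lit 13) (nat_lit 5) (nat_lit 16) (nat_lit 5) (nat_lit 14) (nat_lit 4) (nat_lit 356) (nat_lit 238) (nat_lit 186)))) (XT.nd (nat_lit 78) (nat_lit 76) (nat_lit 0) (XT.lf (nat_lit 0) (nat_lit 7030296754) (nat_lit 228) (nat_lit 5141428241) (nat_lit 76) (nat_lit 14469345896) (nat_lit 13) (nat_lit 5) (nat_lit 16) (nat_lit 5) (nat_lit 14) (nat_lit 4) (nat_lit 357) (nat_lit 238) (nat_lit 185)) (XT.nd (nat_lit 78) (nat_lit 0) (nat_lit 0) (XT.lf (nat_lit 0) (nat_lit 1046809513) (nat_lit 76) (nat_lit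 9105364195) (nat_lit 152) (nat_lit 17176869176) (nat_lit 12) (nat_lit 5) (nat_lit 13) (nat_lit 5) (nat_lit 14) (nat_lit 4) (nat_lit 358) (nat_lit 238) (nat_lit 184)) (XT.lf (nat_lit 0) (nat_lit 7471406712) (nat_lit 76) (nat_lit 5916936865) (nat_lit 152) (nat_lit 14648712530) (nat_lit 12) (nat_lit 5) (nat_lit 13) (nat_lit 5) (nat_lit 14) (nat_lit 4) (nat_lit 359) (nat_lit 238) (nat_lit 183))))))))
noncomputable def xc54 : XT := (XT.nd (nat_lit 1794) (nat_lit 152) (nat_lit 0) (XT.nd (nat_lit 858) (nat_lit 228) (nat_lit 0) (XT.nd (nat_lit 390) (nat_lit 152) (nat_lit 0) (XT.nd (nat_lit 156) (nat_lit 76) (nat_lit 0) (XT.nd (nat_lit 78) (nat_lit 0) (nat_lit 0) (XT.lf (nat_lit 0) (nat_lit 14035652576) (nat_lit 76) (nat_lit 2655575344) (nat_lit 152) (nat_lit 12076013474) (nat_lit 12) (nat_lit 5) (nat_lit 13) (nat_lit 5) (nat_lit 14) (nat_lit 4) (nat_lit 360) (nat_lit 238) (nat_lit 182)) (XT.lf (nat_lit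 0) (nat_lit 20070264425) (nat_lit 152) (nat_lit 8781505588) (nat_lit 0) (nat_lit 668270212) (nat_lit 12) (nat_lit 5) (nat_lit 14) (nat_lit 4) (nat_lit 12) (nat_lit 4) (nat_lit 361) (nat_lit 238) (nat_lit 181))) (XT.nd (nat_lit 78) (nat_lit 76) (nat_lit 0) (XT.lf (nat_lit 0) (nat_lit 23548131777) (nat_lit 152) (nat_lit 2729926733) (nat_lit 0) (nat_lit 4017460088) (nat_lit 12) (nat_lit 5) (nat_lit 14) (nat_lit 4) (nat_lit 12) (nat_lit 4) (nat_lit 362) (nat_lit 238) (nat_lit 180)) (XT.nd (nat_lit 78) (nat_lit 0) (nat_lit 0) (XT.lf (nat_lit 0) (nat_lit 3522703173) (nat_lit 76) (nat_lit 23613501081) (nat_lit 76) (nat_lit 3957899803) (nat_lit 11) (nat_lit 4) (nat_lit 12) (nat_lit 5) (nat_lit 12) (nat_lit 4) (nat_lit 363) (nat_lit 238) (nat_lit 179)) (XT.lf (nat_lit 0) (nat_lit 9970118574) (nat_lit 76) (nat_lit 20861720649) (nat_lit 76) (nat_lit 1084828506) (nat_lit 11) (nat_lit 4) (nat_lit 12) (nat_lit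 5) (nat_lit 12) (nat_lit 4) (nat_lit 364) (nat_lit 238) (nat_lit 178))))) (XT.nd (nat_lit 234) (nat_lit 76) (nat_lit 0) (XT.nd (nat_lit 78) (nat_lit 0) (nat_lit 0) (XT.lf (nat_lit 0) (nat_lit 1810733464) (nat_lit 152) (nat_lit 16218861330) (nat_lit 76) (nat_lit 14734603916) (nat_lit 10) (nat_lit 5) (nat_lit 12) (nat_lit 5) (nat_lit 11) (nat_lit 4) (nat_lit 365) (nat_lit 238) (nat_lit 177)) (XT.nd (nat_lit 78) (nat_lit 0) (nat_lit 0) (XT.lf (nat_lit 0) (nat_lit 4745023861) (nat_lit 152) (nat_lit 10376580095) (nat_lit 76) (nat_lit 18516036181) (nat_lit 10) (nat_lit 5) (nat_lit 12) (nat_lit 5) (nat_lit 11) (nat_lit 4) (nat_lit 366) (nat_lit 238) (nat_lit 176)) (XT.lf (nat_lit 0) (nat_lit 7741775538) (nat_lit 152) (nat_lit 4404172511) (nat_lit 76) (nat_lit 22392120003) (nat_lit 10) (nat_lit 5) (nat_lit 12) (nat_lit 5) (nat_lit 11) (nat_lit 4) (nat_lit 367) (nat_lit 238) (nat_lit 175)))) (XT.nd (nat_lit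 78) (nat_lit 0) (nat_lit 0) (XT.lf (nat_lit 0) (nat_lit 1737484613) (nat_lit 76) (nat_lit 9082824169) (nat_lit 152) (nat_lit 24645459404) (nat_lit 9) (nat_lit 5) (nat_lit 10) (nat_lit 5) (nat_lit 11) (nat_lit 4) (nat_lit 368) (nat_lit 238) (nat_lit 174)) (XT.nd (nat_lit 78) (nat_lit 0) (nat_lit 0) (XT.lf (nat_lit 0) (nat_lit 8110275081) (nat_lit 76) (nat_lit 5900879530) (nat_lit 152) (nat_lit 22409561307) (nat_lit 9) (nat_lit 5) (nat_lit 10) (nat_lit 5) (nat_lit 11) (nat_lit 4) (nat_lit 369) (nat_lit 238) (nat_lit 173)) (XT.lf (nat_lit 0) (nat_lit 14632115681) (nat_lit 76) (nat_lit 2641807299) (nat_lit 152) (nat_lit 20131118033) (nat_lit 9) (nat_lit 5) (nat_lit 10) (nat_lit 5) (nat_lit 11) (nat_lit 4) (nat_lit 370) (nat_lit 238) (nat_lit 172)))))) (XT.nd (nat_lit 468) (nat_lit 152) (nat_lit 0) (XT.nd (nat_lit 234) (nat_lit 76) (nat_lit 0) (XT.nd (nat_lit 78) (nat_lit 0) (nat_lit 0) (XT.lf (nat_lit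 0) (nat_lit 20618167151) (nat_lit 152) (nat_lit 17117600754) (nat_lit 0) (nat_lit 683634587) (nat_lit 9) (nat_lit 5) (nat_lit 11) (nat_lit 4) (nat_lit 9) (nat_lit 4) (nat_lit 371) (nat_lit 238) (nat_lit 171)) (XT.nd (nat_lit 78) (nat_lit 0) (nat_lit 0) (XT.lf (nat_lit 0) (nat_lit 24066292609) (nat_lit 152) (nat_lit 11359008885) (nat_lit 0) (nat_lit 4038800697) (nat_lit 9) (nat_lit 5) (nat_lit 11) (nat_lit 4) (nat_lit 9) (nat_lit 4) (nat_lit 372) (nat_lit 238) (nat_lit 170)) (XT.lf (nat_lit 0) (nat_lit 27595917610) (nat_lit 152) (nat_lit 5466723277) (nat_lit 0) (nat_lit 7478173905) (nat_lit 9) (nat_lit 5) (nat_lit 11) (nat_lit 4) (nat_lit 9) (nat_lit 4) (nat_lit 373) (nat_lit 238) (nat_lit 169)))) (XT.nd (nat_lit 78) (nat_lit 0) (nat_lit 0) (XT.lf (nat_lit 0) (nat_lit 575637425) (nat_lit 76) (nat_lit 30640022248) (nat_lit 76) (nat_lit 10434655442) (nat_lit 8) (nat_lit 4) (nat_lit 9) (nat_lit 5)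 (nat_lit 9) (nat_lit 4) (nat_lit 374) (nat_lit 238) (nat_lit 168)) (XT.nd (nat_lit 78) (nat_lit 0) (nat_lit 0) (XT.lf (nat_lit 0) (nat_lit 6873777012) (nat_lit 76) (nat_lit 28104374644) (nat_lit 76) (nat_lit 7813936867) (nat_lit 8) (nat_lit 4) (nat_lit 9) (nat_lit 5) (nat_lit 9) (nat_lit 4) (nat_lit 375) (nat_lit 238) (nat_lit 167)) (XT.lf (nat_lit 0) (nat_lit 13324400198) (nat_lit 76) (nat_lit 25508685649) (nat_lit 76) (nat_lit 5135654696) (nat_lit 8) (nat_lit 4) (nat_lit 9) (nat_lit 5) (nat_lit 9) (nat_lit 4) (nat_lit 376) (nat_lit 238) (nat_lit 166))))) (XT.nd (nat_lit 234) (nat_lit 76) (nat_lit 0) (XT.nd (nat_lit 78) (nat_lit 76) (nat_lit 0) (XT.lf (nat_lit 0) (nat_lit 19933143451) (nat_lit 76) (nat_lit 22850687185) (nat_lit 76) (nat_lit 2397468683) (nat_lit 8) (nat_lit 4) (nat_lit 9) (nat_lit 5) (nat_lit 9) (nat_lit 4) (nat_lit 377) (nat_lit 238) (nat_lit 165)) (XT.nd (nat_lit 78) (nat_lit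 0) (nat_lit 0) (XT.lf (nat_lit 0) (nat_lit 395149512) (nat_lit 152) (nat_lit 19728916981) (nat_lit 76) (nat_lit 26306641653) (nat_lit 7) (nat_lit 5) (nat_lit 9) (nat_lit 5) (nat_lit 8) (nat_lit 4) (nat_lit 378) (nat_lit 238) (nat_lit 164)) (XT.lf (nat_lit 0) (nat_lit 3204464536) (nat_lit 152) (nat_lit 14101591938) (nat_lit 76) (nat_lit 30411408541) (nat_lit 7) (nat_lit 5) (nat_lit 9) (nat_lit 5) (nat_lit 8) (nat_lit 4) (nat_lit 379) (nat_lit 238) (nat_lit 163)))) (XT.nd (nat_lit 78) (nat_lit 76) (nat_lit 0) (XT.lf (nat_lit 0) (nat_lit 6079714380) (nat_lit 152) (nat_lit 8338217723) (nat_lit 76) (nat_lit 34625453551) (nat_lit 7) (nat_lit 5) (nat_lit 9) (nat_lit 5) (nat_lit 8) (nat_lit 4) (nat_lit 380) (nat_lit 238) (nat_lit 162)) (XT.nd (nat_lit 78) (nat_lit 76) (nat_lit 0) (XT.lf (nat_lit 0) (nat_lit 9023411396) (nat_lit 152) (nat_lit 2433758379) (nat_lit 76) (nat_lit 38952458860) (nat_lit 7) (nat_lit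 5) (nat_lit 9) (nat_lit 5) (nat_lit 8) (nat_lit 4) (nat_lit 381) (nat_lit 238) (nat_lit 161)) (XT.lf (nat_lit 0) (nat_lit 3688929635) (nat_lit 76) (nat_lit 8384658362) (nat_lit 152) (nat_lit 39742735958) (nat_lit 6) (nat_lit 5) (nat_lit 7) (nat_lit 5) (nat_lit 8) (nat_lit 4) (nat_lit 382) (nat_lit 238) (nat_lit 160))))))) (XT.nd (nat_lit 936) (nat_lit 76) (nat_lit 0) (XT.nd (nat_lit 468) (nat_lit 76) (nat_lit 0) (XT.nd (nat_lit 234) (nat_lit 0) (nat_lit 0) (XT.nd (nat_lit 78) (nat_lit 0) (nat_lit 0) (XT.lf (nat_lit 0) (nat_lit 10014601374) (nat_lit 76) (nat_lit 5208162755) (nat_lit 152) (nat_lit 38042240993) (nat_lit 6) (nat_lit 5) (nat_lit 7) (nat_lit 5) (nat_lit 8) (nat_lit 4) (nat_lit 383) (nat_lit 238) (nat_lit 159)) (XT.nd (nat_lit 78) (nat_lit 0) (nat_lit 0) (XT.lf (nat_lit 0) (nat_lit 16500347560) (nat_lit 76) (nat_lit 1949483565) (nat_lit 152) (nat_lit 36307822661) (nat_lit 6) (nat_lit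 5) (nat_lit 7) (nat_lit 5) (nat_lit 8) (nat_lit 4) (nat_lit 384) (nat_lit 238) (nat_lit 158)) (XT.lf (nat_lit 0) (nat_lit 21771010911) (nat_lit 152) (nat_lit 33157141014) (nat_lit 0) (nat_lit 1367020214) (nat_lit 6) (nat_lit 5) (nat_lit 8) (nat_lit 4) (nat_lit 6) (nat_lit 4) (nat_lit 385) (nat_lit 238) (nat_lit 157)))) (XT.nd (nat_lit 78) (nat_lit 0) (nat_lit 0) (XT.lf (nat_lit 0) (nat_lit 25195376701) (nat_lit 152) (nat_lit 27951622869) (nat_lit 0) (nat_lit 4731718937) (nat_lit 6) (nat_lit 5) (nat_lit 8) (nat_lit 4) (nat_lit 6) (nat_lit 4) (nat_lit 386) (nat_lit 238) (nat_lit 156)) (XT.nd (nat_lit 78) (nat_lit 0) (nat_lit 0) (XT.lf (nat_lit 0) (nat_lit 28707181032) (nat_lit 152) (nat_lit 22617463651) (nat_lit 0) (nat_lit 8185594075) (nat_lit 6) (nat_lit 5) (nat_lit 8) (nat_lit 4) (nat_lit 6) (nat_lit 4) (nat_lit 387) (nat_lit 238) (nat_lit 155)) (XT.lf (nat_lit 0) (nat_lit 32309492470) (nat_lit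 152) (nat_lit 17150002445) (nat_lit 0) (nat_lit 11731663580) (nat_lit 6) (nat_lit 5) (nat_lit 8) (nat_lit 4) (nat_lit 6) (nat_lit 4) (nat_lit 388) (nat_lit 238) (nat_lit 154))))) (XT.nd (nat_lit 234) (nat_lit 0) (nat_lit 0) (XT.nd (nat_lit 78) (nat_lit 76) (nat_lit 0) (XT.lf (nat_lit 0) (nat_lit 36005458666) (nat_lit 152) (nat_lit 11544461857) (nat_lit 0) (nat_lit 15373025957) (nat_lit 6) (nat_lit 5) (nat_lit 8) (nat_lit 4) (nat_lit 6) (nat_lit 4) (nat_lit 389) (nat_lit 238) (nat_lit 153)) (XT.nd (nat_lit 78) (nat_lit 76) (nat_lit 0) (XT.lf (nat_lit 0) (nat_lit 39798309106) (nat_lit 152) (nat_lit 5795943844) (nat_lit 0) (nat_lit 19112862980) (nat_lit 6) (nat_lit 5) (nat_lit 8) (nat_lit 4) (nat_lit 6) (nat_lit 4) (nat_lit 390) (nat_lit 238) (nat_lit 152)) (XT.lf (nat_lit 0) (nat_lit 102576204) (nat_lit 76) (nat_lit 43589767751) (nat_lit 76) (nat_lit 22852852288) (nat_lit 5) (nat_lit 4) (nat_lit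 6) (nat_lit 5) (nat_lit 6) (nat_lit 4) (nat_lit 391) (nat_lit 238) (nat_lit 151)))) (XT.nd (nat_lit 78) (nat_lit 0) (nat_lit 0) (XT.lf (nat_lit 0) (nat_lit 6272647640) (nat_lit 76) (nat_lit 41475655718) (nat_lit 76) (nat_lit 20688770025) (nat_lit 5) (nat_lit 4) (nat_lit 6) (nat_lit 5) (nat_lit 6) (nat_lit 4) (nat_lit 392) (nat_lit 238) (nat_lit 150)) (XT.nd (nat_lit 78) (nat_lit 0) (nat_lit 0) (XT.lf (nat_lit 0) (nat_lit 12604311140) (nat_lit 76) (nat_lit 39308597237) (nat_lit 76) (nat_lit 18473196758) (nat_lit 5) (nat_lit 4) (nat_lit 6) (nat_lit 5) (nat_lit 6) (nat_lit 4) (nat_lit 393) (nat_lit 238) (nat_lit 149)) (XT.lf (nat_lit 0) (nat_lit 19103099227) (nat_lit 76) (nat_lit 37086698762) (nat_lit 76) (nat_lit 16204196549) (nat_lit 5) (nat_lit 4) (nat_lit 6) (nat_lit 5) (nat_lit 6) (nat_lit 4) (nat_lit 394) (nat_lit 238) (nat_lit 148)))))) (XT.nd (nat_lit 468) (nat_lit 76) (nat_lit 0) (XT.nd (nat_lit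 234) (nat_lit 0) (nat_lit 0) (XT.nd (nat_lit 78) (nat_lit 0) (nat_lit 0) (XT.lf (nat_lit 0) (nat_lit 25774690452) (nat_lit 76) (nat_lit 34808018828) (nat_lit 76) (nat_lit 13879786776) (nat_lit 5) (nat_lit 4) (nat_lit 6) (nat_lit 5) (nat_lit 6) (nat_lit 4) (nat_lit 395) (nat_lit 238) (nat_lit 147)) (XT.nd (nat_lit 78) (nat_lit 0) (nat_lit 0) (XT.lf (nat_lit 0) (nat_lit 32624914362) (nat_lit 76) (nat_lit 32470566356) (nat_lit 76) (nat_lit 11497936402) (nat_lit 5) (nat_lit 4) (nat_lit 6) (nat_lit 5) (nat_lit 6) (nat_lit 4) (nat_lit 396) (nat_lit 238) (nat_lit 146)) (XT.lf (nat_lit 0) (nat_lit 39659756590) (nat_lit 76) (nat_lit 30072298911) (nat_lit 76) (nat_lit 9056564198) (nat_lit 5) (nat_lit 4) (nat_lit 6) (nat_lit 5) (nat_lit 6) (nat_lit 4) (nat_lit 397) (nat_lit 238) (nat_lit 145)))) (XT.nd (nat_lit 78) (nat_lit 0) (nat_lit 0) (XT.lf (nat_lit 0) (nat_lit 46885364084) (nat_lit 76) (nat_lit 27611120921)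 (nat_lit 76) (nat_lit 6553536926) (nat_lit 5) (nat_lit 4) (nat_lit 6) (nat_lit 5) (nat_lit 6) (nat_lit 4) (nat_lit 398) (nat_lit 238) (nat_lit 144)) (XT.nd (nat_lit 78) (nat_lit 0) (nat_lit 0) (XT.lf (nat_lit 0) (nat_lit 54308050482) (nat_lit 76) (nat_lit 25084881840) (nat_lit 76) (nat_lit 3986667476) (nat_lit 5) (nat_lit 4) (nat_lit 6) (nat_lit 5) (nat_lit 6) (nat_lit 4) (nat_lit 399) (nat_lit 238) (nat_lit 143)) (XT.lf (nat_lit 0) (nat_lit 61934301628) (nat_lit 76) (nat_lit 22491374276) (nat_lit 76) (nat_lit 1353712951) (nat_lit 5) (nat_lit 4) (nat_lit 6) (nat_lit 5) (nat_lit 6) (nat_lit 4) (nat_lit 400) (nat_lit 238) (nat_lit 142))))) (XT.nd (nat_lit 32916) (nat_lit 0) (nat_lit 6308) (XT.nd (nat_lit 78) (nat_lit 0) (nat_lit 0) (XT.lf (nat_lit 0) (nat_lit 1321330225) (nat_lit 152) (nat_lit 18493658987) (nat_lit 76) (nat_lit 68436108165) (nat_lit 4) (nat_lit 5) (nat_lit 6) (nat_lit 5) (nat_lit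 5) (nat_lit 4) (nat_lit 401) (nat_lit 238) (nat_lit 141)) (XT.nd (nat_lit 78) (nat_lit 0) (nat_lit 0) (XT.lf (nat_lit 0) (nat_lit 4039323183) (nat_lit 152) (nat_lit 13013315825) (nat_lit 76) (nat_lit 73744224284) (nat_lit 4) (nat_lit 5) (nat_lit 6) (nat_lit 5) (nat_lit 5) (nat_lit 4) (nat_lit 402) (nat_lit 238) (nat_lit 140)) (XT.lf (nat_lit 0) (nat_lit 6829056685) (nat_lit 152) (nat_lit 7386256375) (nat_lit 76) (nat_lit 79203988380) (nat_lit 4) (nat_lit 5) (nat_lit 6) (nat_lit 5) (nat_lit 5) (nat_lit 4) (nat_lit 403) (nat_lit 238) (nat_lit 139)))) (XT.nd (nat_lit 78) (nat_lit 760) (nat_lit 0) (XT.lf (nat_lit 0) (nat_lit 1969206726) (nat_lit 456) (nat_lit 398055129) (nat_lit 0) (nat_lit 1969206726) (nat_lit 97) (nat_lit 5) (nat_lit 103) (nat_lit 4) (nat_lit 97) (nat_lit 4) (nat_lit 302) (nat_lit 239) (nat_lit 239)) (XT.nd (nat_lit 78) (nat_lit 380) (nat_lit 0) (XT.lf (nat_lit 0) (nat_lit 4994610691)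 (nat_lit 380) (nat_lit 2423359294) (nat_lit 380) (nat_lit 1373948587) (nat_lit 92) (nat_lit 4) (nat_lit 97) (nat_lit 5) (nat_lit 97) (nat_lit 4) (nat_lit 303) (nat_lit 239) (nat_lit 238)) (XT.lf (nat_lit 0) (nat_lit 1964792249) (nat_lit 304) (nat_lit 21931053) (nat_lit 380) (nat_lit 6929092667) (nat_lit 87) (nat_lit 5) (nat_lit 91) (nat_lit 5) (nat_lit 92) (nat_lit 4) (nat_lit 304) (nat_lit 239) (nat_lit 237))))))))
noncomputable def xc55 : XT := (XT.nd (nat_lit 1794) (nat_lit 1520) (nat_lit 0) (XT.nd (nat_lit 858) (nat_lit 1824) (nat_lit 0) (XT.nd (nat_lit 390) (nat_lit 912) (nat_lit 0) (XT.nd (nat_lit 156) (nat_lit 760) (nat_lit 0) (XT.nd (nat_lit 78) (nat_lit 380) (nat_lit 0) (XT.lf (nat_lit 0) (nat_lit 5397074100) (nat_lit 380) (nat_lit 1218099386) (nat_lit 0) (nat_lit 2428699056) (nat_lit 87) (nat_lit 5) (nat_lit 92) (nat_lit 4) (nat_lit 87) (nat_lit 4) (nat_lit 305) (nat_lit 239) (nat_lit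 236)) (XT.lf (nat_lit 0) (nat_lit 4665136809) (nat_lit 380) (nat_lit 4206342458) (nat_lit 380) (nat_lit 305579592) (nat_lit 82) (nat_lit 4) (nat_lit 87) (nat_lit 5) (nat_lit 87) (nat_lit 4) (nat_lit 306) (nat_lit 239) (nat_lit 235))) (XT.nd (nat_lit 78) (nat_lit 380) (nat_lit 0) (XT.lf (nat_lit 0) (nat_lit 1318254540) (nat_lit 304) (nat_lit 1698616544) (nat_lit 380) (nat_lit 6298332042) (nat_lit 77) (nat_lit 5) (nat_lit 81) (nat_lit 5) (nat_lit 82) (nat_lit 4) (nat_lit 307) (nat_lit 239) (nat_lit 234)) (XT.nd (nat_lit 78) (nat_lit 380) (nat_lit 0) (XT.lf (nat_lit 0) (nat_lit 6405504779) (nat_lit 380) (nat_lit 2166620605) (nat_lit 0) (nat_lit 886224480) (nat_lit 77) (nat_lit 5) (nat_lit 82) (nat_lit 4) (nat_lit 77) (nat_lit 4) (nat_lit 308) (nat_lit 239) (nat_lit 233)) (XT.lf (nat_lit 0) (nat_lit 257685350) (nat_lit 380) (nat_lit 5824593541) (nat_lit 76) (nat_lit 3524349420) (nat_lit 72) (nat_lit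 5) (nat_lit 77) (nat_lit 5) (nat_lit 73) (nat_lit 4) (nat_lit 309) (nat_lit 239) (nat_lit 232))))) (XT.nd (nat_lit 234) (nat_lit 228) (nat_lit 0) (XT.nd (nat_lit 78) (nat_lit 380) (nat_lit 0) (XT.lf (nat_lit 0) (nat_lit 53854831) (nat_lit 304) (nat_lit 3495817858) (nat_lit 380) (nat_lit 6210588182) (nat_lit 68) (nat_lit 5) (nat_lit 72) (nat_lit 5) (nat_lit 73) (nat_lit 4) (nat_lit 310) (nat_lit 239) (nat_lit 231)) (XT.nd (nat_lit 78) (nat_lit 380) (nat_lit 0) (XT.lf (nat_lit 0) (nat_lit 6117531491) (nat_lit 304) (nat_lit 803834193) (nat_lit 380) (nat_lit 2997822468) (nat_lit 68) (nat_lit 5) (nat_lit 72) (nat_lit 5) (nat_lit 73) (nat_lit 4) (nat_lit 311) (nat_lit 239) (nat_lit 230)) (XT.lf (nat_lit 0) (nat_lit 268903320) (nat_lit 380) (nat_lit 7891949049) (nat_lit 76) (nat_lit 1923139115) (nat_lit 63) (nat_lit 5) (nat_lit 68) (nat_lit 5) (nat_lit 64) (nat_lit 4) (nat_lit 312) (nat_lit 239) (nat_lit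 229)))) (XT.nd (nat_lit 78) (nat_lit 228) (nat_lit 0) (XT.lf (nat_lit 0) (nat_lit 3544522497) (nat_lit 380) (nat_lit 1957039747) (nat_lit 76) (nat_lit 4752256323) (nat_lit 63) (nat_lit 5) (nat_lit 68) (nat_lit 5) (nat_lit 64) (nat_lit 4) (nat_lit 313) (nat_lit 239) (nat_lit 228)) (XT.nd (nat_lit 78) (nat_lit 0) (nat_lit 0) (XT.lf (nat_lit 0) (nat_lit 4129790330) (nat_lit 228) (nat_lit 2754936197) (nat_lit 304) (nat_lit 3545125846) (nat_lit 60) (nat_lit 5) (nat_lit 63) (nat_lit 5) (nat_lit 64) (nat_lit 4) (nat_lit 314) (nat_lit 239) (nat_lit 227)) (XT.lf (nat_lit 0) (nat_lit 10273225466) (nat_lit 304) (nat_lit 279751971) (nat_lit 0) (nat_lit 59845541) (nat_lit 60) (nat_lit 5) (nat_lit 64) (nat_lit 4) (nat_lit 60) (nat_lit 4) (nat_lit 315) (nat_lit 239) (nat_lit 226)))))) (XT.nd (nat_lit 468) (nat_lit 760) (nat_lit 0) (XT.nd (nat_lit 234) (nat_lit 532) (nat_lit 0) (XT.nd (nat_lit 78) (nat_lit 228)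 (nat_lit 0) (XT.lf (nat_lit 0) (nat_lit 2917904355) (nat_lit 304) (nat_lit 4924944820) (nat_lit 76) (nat_lit 2957263851) (nat_lit 56) (nat_lit 5) (nat_lit 60) (nat_lit 5) (nat_lit 57) (nat_lit 4) (nat_lit 316) (nat_lit 239) (nat_lit 225)) (XT.nd (nat_lit 78) (nat_lit 0) (nat_lit 0) (XT.lf (nat_lit 0) (nat_lit 1141476786) (nat_lit 228) (nat_lit 5068466878) (nat_lit 304) (nat_lit 4784758193) (nat_lit 53) (nat_lit 5) (nat_lit 56) (nat_lit 5) (nat_lit 57) (nat_lit 4) (nat_lit 317) (nat_lit 239) (nat_lit 224)) (XT.lf (nat_lit 0) (nat_lit 7386935592) (nat_lit 228) (nat_lit 2194398746) (nat_lit 304) (nat_lit 1614463778) (nat_lit 53) (nat_lit 5) (nat_lit 56) (nat_lit 5) (nat_lit 57) (nat_lit 4) (nat_lit 318) (nat_lit 239) (nat_lit 223)))) (XT.nd (nat_lit 78) (nat_lit 228) (nat_lit 0) (XT.lf (nat_lit 0) (nat_lit 1580794638) (nat_lit 304) (nat_lit 9066915409) (nat_lit 76) (nat_lit 755961440) (nat_lit 49)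 (nat_lit 5) (nat_lit 53) (nat_lit 5) (nat_lit 50) (nat_lit 4) (nat_lit 319) (nat_lit 239) (nat_lit 222)) (XT.nd (nat_lit 78) (nat_lit 228) (nat_lit 0) (XT.lf (nat_lit 0) (nat_lit 4832827092) (nat_lit 304) (nat_lit 3012969105) (nat_lit 76) (nat_lit 3771784402) (nat_lit 49) (nat_lit 5) (nat_lit 53) (nat_lit 5) (nat_lit 50) (nat_lit 4) (nat_lit 320) (nat_lit 239) (nat_lit 221)) (XT.lf (nat_lit 0) (nat_lit 3184671284) (nat_lit 228) (nat_lit 4963115481) (nat_lit 304) (nat_lit 3691236947) (nat_lit 46) (nat_lit 5) (nat_lit 49) (nat_lit 5) (nat_lit 50) (nat_lit 4) (nat_lit 321) (nat_lit 239) (nat_lit 220))))) (XT.nd (nat_lit 234) (nat_lit 456) (nat_lit 0) (XT.nd (nat_lit 78) (nat_lit 304) (nat_lit 0) (XT.lf (nat_lit 0) (nat_lit 9530916153) (nat_lit 228) (nat_lit 1997405291) (nat_lit 304) (nat_lit 539880337) (nat_lit 46) (nat_lit 5) (nat_lit 49) (nat_lit 5) (nat_lit 50) (nat_lit 4) (nat_lit 322) (nat_lit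 239) (nat_lit 219)) (XT.nd (nat_lit 78) (nat_lit 0) (nat_lit 0) (XT.lf (nat_lit 0) (nat_lit 2636223931) (nat_lit 304) (nat_lit 8602621515) (nat_lit 76) (nat_lit 1065210179) (nat_lit 42) (nat_lit 5) (nat_lit 46) (nat_lit 5) (nat_lit 43) (nat_lit 4) (nat_lit 323) (nat_lit 239) (nat_lit 218)) (XT.lf (nat_lit 0) (nat_lit 5879875522) (nat_lit 304) (nat_lit 2490442001) (nat_lit 76) (nat_lit 4177082790) (nat_lit 42) (nat_lit 5) (nat_lit 46) (nat_lit 5) (nat_lit 43) (nat_lit 4) (nat_lit 324) (nat_lit 239) (nat_lit 217)))) (XT.nd (nat_lit 78) (nat_lit 304) (nat_lit 0) (XT.lf (nat_lit 0) (nat_lit 3783616874) (nat_lit 152) (nat_lit 5412875347) (nat_lit 228) (nat_lit 3602350490) (nat_lit 40) (nat_lit 5) (nat_lit 42) (nat_lit 5) (nat_lit 43) (nat_lit 4) (nat_lit 325) (nat_lit 239) (nat_lit 216)) (XT.nd (nat_lit 78) (nat_lit 304) (nat_lit 0) (XT.lf (nat_lit 0) (nat_lit 10202565610) (nat_lit 152) (nat_lit 2375336637)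 (nat_lit 228) (nat_lit 481032376) (nat_lit 40) (nat_lit 5) (nat_lit 42) (nat_lit 5) (nat_lit 43) (nat_lit 4) (nat_lit 326) (nat_lit 239) (nat_lit 215)) (XT.lf (nat_lit 0) (nat_lit 2662350104) (nat_lit 304) (nat_lit 9899234403) (nat_lit 76) (nat_lit 765064521) (nat_lit 36) (nat_lit 5) (nat_lit 40) (nat_lit 5) (nat_lit 37) (nat_lit 4) (nat_lit 327) (nat_lit 239) (nat_lit 214))))))) (XT.nd (nat_lit 936) (nat_lit 608) (nat_lit 0) (XT.nd (nat_lit 468) (nat_lit 532) (nat_lit 0) (XT.nd (nat_lit 234) (nat_lit 228) (nat_lit 0) (XT.nd (nat_lit 78) (nat_lit 152) (nat_lit 0) (XT.lf (nat_lit 0) (nat_lit 5884765548) (nat_lit 304) (nat_lit 3765256095) (nat_lit 76) (nat_lit 3952457911) (nat_lit 36) (nat_lit 5) (nat_lit 40) (nat_lit 5) (nat_lit 37) (nat_lit 4) (nat_lit 328) (nat_lit 239) (nat_lit 213)) (XT.nd (nat_lit 78) (nat_lit 0) (nat_lit 0) (XT.lf (nat_lit 0) (nat_lit 2511037434) (nat_lit 152) (nat_lit 6660402453)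 (nat_lit 228) (nat_lit 4716175342) (nat_lit 34) (nat_lit 5) (nat_lit 36) (nat_lit 5) (nat_lit 37) (nat_lit 4) (nat_lit 329) (nat_lit 239) (nat_lit 212)) (XT.lf (nat_lit 0) (nat_lit 8962989567) (nat_lit 152) (nat_lit 3575979173) (nat_lit 228) (nat_lit 1642924749) (nat_lit 34) (nat_lit 5) (nat_lit 36) (nat_lit 5) (nat_lit 37) (nat_lit 4) (nat_lit 330) (nat_lit 239) (nat_lit 211)))) (XT.nd (nat_lit 78) (nat_lit 0) (nat_lit 0) (XT.lf (nat_lit 0) (nat_lit 1040834655) (nat_lit 152) (nat_lit 407251288) (nat_lit 228) (nat_lit 13037869835) (nat_lit 31) (nat_lit 5) (nat_lit 33) (nat_lit 5) (nat_lit 34) (nat_lit 5) (nat_lit 331) (nat_lit 239) (nat_lit 210)) (XT.nd (nat_lit 78) (nat_lit 0) (nat_lit 0) (XT.lf (nat_lit 0) (nat_lit 4625185757) (nat_lit 228) (nat_lit 7335281496) (nat_lit 76) (nat_lit 2837444666) (nat_lit 31) (nat_lit 5) (nat_lit 34) (nat_lit 5) (nat_lit 32) (nat_lit 4) (nat_lit 332) (nat_lit 239)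 (nat_lit 209)) (XT.lf (nat_lit 0) (nat_lit 7848911027) (nat_lit 228) (nat_lit 1132415005) (nat_lit 76) (nat_lit 6139411220) (nat_lit 31) (nat_lit 5) (nat_lit 34) (nat_lit 5) (nat_lit 32) (nat_lit 4) (nat_lit 333) (nat_lit 239) (nat_lit 208))))) (XT.nd (nat_lit 234) (nat_lit 152) (nat_lit 0) (XT.nd (nat_lit 78) (nat_lit 228) (nat_lit 0) (XT.lf (nat_lit 0) (nat_lit 5275762200) (nat_lit 152) (nat_lit 5893115505) (nat_lit 228) (nat_lit 4284432179) (nat_lit 29) (nat_lit 5) (nat_lit 31) (nat_lit 5) (nat_lit 32) (nat_lit 4) (nat_lit 334) (nat_lit 239) (nat_lit 207)) (XT.nd (nat_lit 78) (nat_lit 228) (nat_lit 0) (XT.lf (nat_lit 0) (nat_lit 11816494544) (nat_lit 152) (nat_lit 2732893691) (nat_lit 228) (nat_lit 1247690133) (nat_lit 29) (nat_lit 5) (nat_lit 31) (nat_lit 5) (nat_lit 32) (nat_lit 4) (nat_lit 335) (nat_lit 239) (nat_lit 206)) (XT.lf (nat_lit 0) (nat_lit 1821605447) (nat_lit 228) (nat_lit 13808060927)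 (nat_lit 76) (nat_lit 521651461) (nat_lit 26) (nat_lit 5) (nat_lit 29) (nat_lit 5) (nat_lit 27) (nat_lit 4) (nat_lit 336) (nat_lit 239) (nat_lit 205)))) (XT.nd (nat_lit 78) (nat_lit 152) (nat_lit 0) (XT.lf (nat_lit 0) (nat_lit 4976366379) (nat_lit 228) (nat_lit 7698300996) (nat_lit 76) (nat_lit 3840635624) (nat_lit 26) (nat_lit 5) (nat_lit 29) (nat_lit 5) (nat_lit 27) (nat_lit 4) (nat_lit 337) (nat_lit 239) (nat_lit 204)) (XT.nd (nat_lit 78) (nat_lit 152) (nat_lit 0) (XT.lf (nat_lit 0) (nat_lit 8178014211) (nat_lit 228) (nat_lit 1484785761) (nat_lit 76) (nat_lit 7228882198) (nat_lit 26) (nat_lit 5) (nat_lit 29) (nat_lit 5) (nat_lit 27) (nat_lit 4) (nat_lit 338) (nat_lit 239) (nat_lit 203)) (XT.lf (nat_lit 0) (nat_lit 4934198036) (nat_lit 152) (nat_lit 6542578993) (nat_lit 228) (nat_lit 5802584281) (nat_lit 24) (nat_lit 5) (nat_lit 26) (nat_lit 5) (nat_lit 27) (nat_lit 4) (nat_lit 339) (nat_lit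 239) (nat_lit 202)))))) (XT.nd (nat_lit 468) (nat_lit 304) (nat_lit 0) (XT.nd (nat_lit 234) (nat_lit 76) (nat_lit 0) (XT.nd (nat_lit 78) (nat_lit 228) (nat_lit 0) (XT.lf (nat_lit 0) (nat_lit 11499724199) (nat_lit 152) (nat_lit 3344022399) (nat_lit 228) (nat_lit 2835886287) (nat_lit 24) (nat_lit 5) (nat_lit 26) (nat_lit 5) (nat_lit 27) (nat_lit 4) (nat_lit 340) (nat_lit 239) (nat_lit 201)) (XT.nd (nat_lit 78) (nat_lit 0) (nat_lit 0) (XT.lf (nat_lit 0) (nat_lit 94874608) (nat_lit 152) (nat_lit 76666389) (nat_lit 228) (nat_lit 17921664807) (nat_lit 21) (nat_lit 5) (nat_lit 23) (nat_lit 5) (nat_lit 24) (nat_lit 5) (nat_lit 341) (nat_lit 239) (nat_lit 200)) (XT.lf (nat_lit 0) (nat_lit 3262236736) (nat_lit 228) (nat_lit 11968545197) (nat_lit 76) (nat_lit 3286096346) (nat_lit 21) (nat_lit 5) (nat_lit 24) (nat_lit 5) (nat_lit 22) (nat_lit 4) (nat_lit 342) (nat_lit 239) (nat_lit 199)))) (XT.nd (nat_lit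 78) (nat_lit 76) (nat_lit 0) (XT.lf (nat_lit 0) (nat_lit 6403119425) (nat_lit 228) (nat_lit 5831931350) (nat_lit 76) (nat_lit 6719521158) (nat_lit 21) (nat_lit 5) (nat_lit 24) (nat_lit 5) (nat_lit 22) (nat_lit 4) (nat_lit 343) (nat_lit 239) (nat_lit 198)) (XT.nd (nat_lit 78) (nat_lit 0) (nat_lit 0) (XT.lf (nat_lit 0) (nat_lit 425920645) (nat_lit 76) (nat_lit 9174370126) (nat_lit 152) (nat_lit 9806277728) (nat_lit 20) (nat_lit 5) (nat_lit 21) (nat_lit 5) (nat_lit 22) (nat_lit 4) (nat_lit 344) (nat_lit 239) (nat_lit 197)) (XT.lf (nat_lit 0) (nat_lit 6920583322) (nat_lit 76) (nat_lit 5990199770) (nat_lit 152) (nat_lit 6960852671) (nat_lit 20) (nat_lit 5) (nat_lit 21) (nat_lit 5) (nat_lit 22) (nat_lit 4) (nat_lit 345) (nat_lit 239) (nat_lit 196))))) (XT.nd (nat_lit 234) (nat_lit 76) (nat_lit 0) (XT.nd (nat_lit 78) (nat_lit 228) (nat_lit 0) (XT.lf (nat_lit 0) (nat_lit 13541664760) (nat_lit 76) (nat_lit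 2738648494) (nat_lit 152) (nat_lit 4071582117) (nat_lit 20) (nat_lit 5) (nat_lit 21) (nat_lit 5) (nat_lit 22) (nat_lit 4) (nat_lit 346) (nat_lit 239) (nat_lit 195)) (XT.nd (nat_lit 78) (nat_lit 228) (nat_lit 0) (XT.lf (nat_lit 0) (nat_lit 19717430861) (nat_lit 152) (nat_lit 558421951) (nat_lit 0) (nat_lit 571745995) (nat_lit 20) (nat_lit 5) (nat_lit 22) (nat_lit 4) (nat_lit 20) (nat_lit 4) (nat_lit 347) (nat_lit 239) (nat_lit 194)) (XT.lf (nat_lit 0) (nat_lit 1908489770) (nat_lit 228) (nat_lit 15471925947) (nat_lit 76) (nat_lit 3975857148) (nat_lit 17) (nat_lit 5) (nat_lit 20) (nat_lit 5) (nat_lit 18) (nat_lit 4) (nat_lit 348) (nat_lit 239) (nat_lit 193)))) (XT.nd (nat_lit 78) (nat_lit 76) (nat_lit 0) (XT.lf (nat_lit 0) (nat_lit 4983155225) (nat_lit 228) (nat_lit 9424991304) (nat_lit 76) (nat_lit 7472726471) (nat_lit 17) (nat_lit 5) (nat_lit 20) (nat_lit 5) (nat_lit 18) (nat_lit 4) (nat_lit 349)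 (nat_lit 239) (nat_lit 192)) (XT.nd (nat_lit 78) (nat_lit 76) (nat_lit 0) (XT.lf (nat_lit 0) (nat_lit 8113039734) (nat_lit 228) (nat_lit 3260292964) (nat_lit 76) (nat_lit 11049016687) (nat_lit 17) (nat_lit 5) (nat_lit 20) (nat_lit 5) (nat_lit 18) (nat_lit 4) (nat_lit 350) (nat_lit 239) (nat_lit 191)) (XT.lf (nat_lit 0) (nat_lit 3087809997) (nat_lit 76) (nat_lit 8242750069) (nat_lit 152) (nat_lit 11649724630) (nat_lit 16) (nat_lit 5) (nat_lit 17) (nat_lit 5) (nat_lit 18) (nat_lit 4) (nat_lit 351) (nat_lit 239) (nat_lit 190))))))))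
noncomputable def xc56 : XT := (XT.nd (nat_lit 1794) (nat_lit 304) (nat_lit 0) (XT.nd (nat_lit 858) (nat_lit 228) (nat_lit 0) (XT.nd (nat_lit 390) (nat_lit 76) (nat_lit 0) (XT.nd (nat_lit 156) (nat_lit 228) (nat_lit 0) (XT.nd (nat_lit 78) (nat_lit 0) (nat_lit 0) (XT.lf (nat_lit 0) (nat_lit 9632004025) (nat_lit 76) (nat_lit 5010040647) (nat_lit 152) (nat_lit 8913016269) (nat_lit 16) (nat_lit 5) (nat_lit 17) (nat_lit 5) (nat_lit 18) (nat_lit 4) (nat_lit 352) (nat_lit 239) (nat_lit 189)) (XT.lf (nat_lit 0) (nat_lit 16313121123) (nat_lit 76) (nat_lit 1705302301) (nat_lit 152) (nat_lit 6129715835) (nat_lit 16) (nat_lit 5) (nat_lit 17) (nat_lit 5) (nat_lit 18) (nat_lit 4) (nat_lit 353) (nat_lit 239) (nat_lit 188))) (XT.nd (nat_lit 78) (nat_lit 228) (nat_lit 0) (XT.lf (nat_lit 0) (nat_lit 21478741459) (nat_lit 152) (nat_lit 1639133616) (nat_lit 0) (nat_lit 1641679953) (nat_lit 16) (nat_lit 5) (nat_lit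 18) (nat_lit 4) (nat_lit 16) (nat_lit 4) (nat_lit 354) (nat_lit 239) (nat_lit 187)) (XT.nd (nat_lit 78) (nat_lit 76) (nat_lit 0) (XT.lf (nat_lit 0) (nat_lit 4761900377) (nat_lit 152) (nat_lit 20310928250) (nat_lit 152) (nat_lit 315609678) (nat_lit 14) (nat_lit 4) (nat_lit 16) (nat_lit 5) (nat_lit 16) (nat_lit 4) (nat_lit 355) (nat_lit 239) (nat_lit 186)) (XT.lf (nat_lit 0) (nat_lit 2669198115) (nat_lit 228) (nat_lit 14730494033) (nat_lit 76) (nat_lit 8636206048) (nat_lit 13) (nat_lit 5) (nat_lit 16) (nat_lit 5) (nat_lit 14) (nat_lit 4) (nat_lit 356) (nat_lit 239) (nat_lit 185))))) (XT.nd (nat_lit 234) (nat_lit 0) (nat_lit 0) (XT.nd (nat_lit 78) (nat_lit 76) (nat_lit 0) (XT.lf (nat_lit 0) (nat_lit 5705527916) (nat_lit 228) (nat_lit 8715917001) (nat_lit 76) (nat_lit 12282215387) (nat_lit 13) (nat_lit 5) (nat_lit 16) (nat_lit 5) (nat_lit 14) (nat_lit 4) (nat_lit 357) (nat_lit 239) (nat_lit 184)) (XT.nd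 (nat_lit 78) (nat_lit 76) (nat_lit 0) (XT.lf (nat_lit 0) (nat_lit 8802191508) (nat_lit 228) (nat_lit 2574517544) (nat_lit 76) (nat_lit 16015690074) (nat_lit 13) (nat_lit 5) (nat_lit 16) (nat_lit 5) (nat_lit 14) (nat_lit 4) (nat_lit 358) (nat_lit 239) (nat_lit 183)) (XT.lf (nat_lit 0) (nat_lit 3772689366) (nat_lit 76) (nat_lit 8225470744) (nat_lit 152) (nat_lit 16103468399) (nat_lit 12) (nat_lit 5) (nat_lit 13) (nat_lit 5) (nat_lit 14) (nat_lit 4) (nat_lit 359) (nat_lit 239) (nat_lit 182)))) (XT.nd (nat_lit 78) (nat_lit 0) (nat_lit 0) (XT.lf (nat_lit 0) (nat_lit 10311544610) (nat_lit 76) (nat_lit 4974974702) (nat_lit 152) (nat_lit 13545740069) (nat_lit 12) (nat_lit 5) (nat_lit 13) (nat_lit 5) (nat_lit 14) (nat_lit 4) (nat_lit 360) (nat_lit 239) (nat_lit 181)) (XT.nd (nat_lit 78) (nat_lit 0) (nat_lit 0) (XT.lf (nat_lit 0) (nat_lit 16996523801) (nat_lit 76) (nat_lit 1648378266) (nat_lit 152) (nat_lit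 10940785299) (nat_lit 12) (nat_lit 5) (nat_lit 13) (nat_lit 5) (nat_lit 14) (nat_lit 4) (nat_lit 361) (nat_lit 239) (nat_lit 180)) (XT.lf (nat_lit 0) (nat_lit 22093134410) (nat_lit 152) (nat_lit 6545994141) (nat_lit 0) (nat_lit 1722935503) (nat_lit 12) (nat_lit 5) (nat_lit 14) (nat_lit 4) (nat_lit 12) (nat_lit 4) (nat_lit 362) (nat_lit 239) (nat_lit 179)))))) (XT.nd (nat_lit 468) (nat_lit 76) (nat_lit 0) (XT.nd (nat_lit 234) (nat_lit 0) (nat_lit 0) (XT.nd (nat_lit 78) (nat_lit 152) (nat_lit 0) (XT.lf (nat_lit 0) (nat_lit 25633956364) (nat_lit 152) (nat_lit 385653065) (nat_lit 0) (nat_lit 5142466594) (nat_lit 12) (nat_lit 5) (nat_lit 14) (nat_lit 4) (nat_lit 12) (nat_lit 4) (nat_lit 363) (nat_lit 239) (nat_lit 178)) (XT.nd (nat_lit 78) (nat_lit 76) (nat_lit 0) (XT.lf (nat_lit 0) (nat_lit 6030769743) (nat_lit 76) (nat_lit 23281818336) (nat_lit 76) (nat_lit 2672570446) (nat_lit 11) (nat_lit 4) (nat_lit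 12) (nat_lit 5) (nat_lit 12) (nat_lit 4) (nat_lit 364) (nat_lit 239) (nat_lit 177)) (XT.lf (nat_lit 0) (nat_lit 241001450) (nat_lit 152) (nat_lit 20234343216) (nat_lit 76) (nat_lit 12358200121) (nat_lit 10) (nat_lit 5) (nat_lit 12) (nat_lit 5) (nat_lit 11) (nat_lit 4) (nat_lit 365) (nat_lit 239) (nat_lit 176)))) (XT.nd (nat_lit 78) (nat_lit 0) (nat_lit 0) (XT.lf (nat_lit 0) (nat_lit 3162697054) (nat_lit 152) (nat_lit 14414299463) (nat_lit 76) (nat_lit 16130375533) (nat_lit 10) (nat_lit 5) (nat_lit 12) (nat_lit 5) (nat_lit 11) (nat_lit 4) (nat_lit 366) (nat_lit 239) (nat_lit 175)) (XT.nd (nat_lit 78) (nat_lit 0) (nat_lit 0) (XT.lf (nat_lit 0) (nat_lit 6147220777) (nat_lit 152) (nat_lit 8463481667) (nat_lit 76) (nat_lit 19997472120) (nat_lit 10) (nat_lit 5) (nat_lit 12) (nat_lit 5) (nat_lit 11) (nat_lit 4) (nat_lit 367) (nat_lit 239) (nat_lit 174)) (XT.lf (nat_lit 0) (nat_lit 9197180455) (nat_lit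 152) (nat_lit 2376690083) (nat_lit 76) (nat_lit 23962868898) (nat_lit 10) (nat_lit 5) (nat_lit 12) (nat_lit 5) (nat_lit 11) (nat_lit 4) (nat_lit 368) (nat_lit 239) (nat_lit 173))))) (XT.nd (nat_lit 234) (nat_lit 0) (nat_lit 0) (XT.nd (nat_lit 78) (nat_lit 0) (nat_lit 0) (XT.lf (nat_lit 0) (nat_lit 3928044132) (nat_lit 76) (nat_lit 8424955734) (nat_lit 152) (nat_lit 24139745408) (nat_lit 9) (nat_lit 5) (nat_lit 10) (nat_lit 5) (nat_lit 11) (nat_lit 4) (nat_lit 369) (nat_lit 239) (nat_lit 172)) (XT.nd (nat_lit 78) (nat_lit 0) (nat_lit 0) (XT.lf (nat_lit 0) (nat_lit 10429733800) (nat_lit 76) (nat_lit 5174650421) (nat_lit 152) (nat_lit 21873034769) (nat_lit 9) (nat_lit 5) (nat_lit 10) (nat_lit 5) (nat_lit 11) (nat_lit 4) (nat_lit 370) (nat_lit 239) (nat_lit 171)) (XT.lf (nat_lit 0) (nat_lit 17086759215) (nat_lit 76) (nat_lit 1844114435) (nat_lit 152) (nat_lit 19561446354) (nat_lit 9) (nat_lit 5) (nat_lit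 10) (nat_lit 5) (nat_lit 11) (nat_lit 4) (nat_lit 371) (nat_lit 239) (nat_lit 170)))) (XT.nd (nat_lit 78) (nat_lit 0) (nat_lit 0) (XT.lf (nat_lit 0) (nat_lit 22350462392) (nat_lit 152) (nat_lit 15648485523) (nat_lit 0) (nat_lit 1538934582) (nat_lit 9) (nat_lit 5) (nat_lit 11) (nat_lit 4) (nat_lit 9) (nat_lit 4) (nat_lit 372) (nat_lit 239) (nat_lit 169)) (XT.nd (nat_lit 78) (nat_lit 0) (nat_lit 0) (XT.lf (nat_lit 0) (nat_lit 25869592286) (nat_lit 152) (nat_lit 9774882789) (nat_lit 0) (nat_lit 4970441376) (nat_lit 9) (nat_lit 5) (nat_lit 11) (nat_lit 4) (nat_lit 9) (nat_lit 4) (nat_lit 373) (nat_lit 239) (nat_lit 168)) (XT.lf (nat_lit 0) (nat_lit 29473611546) (nat_lit 152) (nat_lit 3761893556) (nat_lit 0) (nat_lit 8489389664) (nat_lit 9) (nat_lit 5) (nat_lit 11) (nat_lit 4) (nat_lit 9) (nat_lit 4) (nat_lit 374) (nat_lit 239) (nat_lit 167))))))) (XT.nd (nat_lit 936) (nat_lit 76) (nat_lit 0) (XT.nd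 (nat_lit 468) (nat_lit 76) (nat_lit 0) (XT.nd (nat_lit 234) (nat_lit 76) (nat_lit 0) (XT.nd (nat_lit 78) (nat_lit 0) (nat_lit 0) (XT.lf (nat_lit 0) (nat_lit 2443416091) (nat_lit 76) (nat_lit 30745740832) (nat_lit 76) (nat_lit 9678925774) (nat_lit 8) (nat_lit 4) (nat_lit 9) (nat_lit 5) (nat_lit 9) (nat_lit 4) (nat_lit 375) (nat_lit 239) (nat_lit 166)) (XT.nd (nat_lit 78) (nat_lit 0) (nat_lit 0) (XT.lf (nat_lit 0) (nat_lit 8876601529) (nat_lit 76) (nat_lit 28157717453) (nat_lit 76) (nat_lit 7010714846) (nat_lit 8) (nat_lit 4) (nat_lit 9) (nat_lit 5) (nat_lit 9) (nat_lit 4) (nat_lit 376) (nat_lit 239) (nat_lit 165)) (XT.lf (nat_lit 0) (nat_lit 15468414929) (nat_lit 76) (nat_lit 25507161335) (nat_lit 76) (nat_lit 4282306738) (nat_lit 8) (nat_lit 4) (nat_lit 9) (nat_lit 5) (nat_lit 9) (nat_lit 4) (nat_lit 377) (nat_lit 239) (nat_lit 164)))) (XT.nd (nat_lit 78) (nat_lit 76) (nat_lit 0) (XT.lf (nat_lit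 0) (nat_lit 22224616129) (nat_lit 76) (nat_lit 22791756457) (nat_lit 76) (nat_lit 1491317404) (nat_lit 8) (nat_lit 4) (nat_lit 9) (nat_lit 5) (nat_lit 9) (nat_lit 4) (nat_lit 378) (nat_lit 239) (nat_lit 163)) (XT.nd (nat_lit 78) (nat_lit 0) (nat_lit 0) (XT.lf (nat_lit 0) (nat_lit 1338061829) (nat_lit 152) (nat_lit 18657556506) (nat_lit 76) (nat_lit 27799534974) (nat_lit 7) (nat_lit 5) (nat_lit 9) (nat_lit 5) (nat_lit 8) (nat_lit 4) (nat_lit 379) (nat_lit 239) (nat_lit 162)) (XT.lf (nat_lit 0) (nat_lit 4204538114) (nat_lit 152) (nat_lit 12909855246) (nat_lit 76) (nat_lit 32006948924) (nat_lit 7) (nat_lit 5) (nat_lit 9) (nat_lit 5) (nat_lit 8) (nat_lit 4) (nat_lit 380) (nat_lit 239) (nat_lit 161))))) (XT.nd (nat_lit 234) (nat_lit 0) (nat_lit 0) (XT.nd (nat_lit 78) (nat_lit 76) (nat_lit 0) (XT.lf (nat_lit 0) (nat_lit 7139717114) (nat_lit 152) (nat_lit 7020612361) (nat_lit 76) (nat_lit 36327516311)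 (nat_lit 7) (nat_lit 5) (nat_lit 9) (nat_lit 5) (nat_lit 8) (nat_lit 4) (nat_lit 381) (nat_lit 239) (nat_lit 160)) (XT.nd (nat_lit 78) (nat_lit 76) (nat_lit 0) (XT.lf (nat_lit 0) (nat_lit 10146163547) (nat_lit 152) (nat_lit 984681913) (nat_lit 76) (nat_lit 40765012386) (nat_lit 7) (nat_lit 5) (nat_lit 9) (nat_lit 5) (nat_lit 8) (nat_lit 4) (nat_lit 382) (nat_lit 239) (nat_lit 159)) (XT.lf (nat_lit 0) (nat_lit 5306764298) (nat_lit 76) (nat_lit 7970751971) (nat_lit 152) (nat_lit 40067562140) (nat_lit 6) (nat_lit 5) (nat_lit 7) (nat_lit 5) (nat_lit 8) (nat_lit 4) (nat_lit 383) (nat_lit 239) (nat_lit 158)))) (XT.nd (nat_lit 78) (nat_lit 0) (nat_lit 0) (XT.lf (nat_lit 0) (nat_lit 11778308128) (nat_lit 76) (nat_lit 4718343423) (nat_lit 152) (nat_lit 38341318032) (nat_lit 6) (nat_lit 5) (nat_lit 7) (nat_lit 5) (nat_lit 8) (nat_lit 4) (nat_lit 384) (nat_lit 239) (nat_lit 157)) (XT.nd (nat_lit 78) (nat_lit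 0) (nat_lit 0) (XT.lf (nat_lit 0) (nat_lit 18416007223) (nat_lit 76) (nat_lit 1380721262) (nat_lit 152) (nat_lit 36579396961) (nat_lit 6) (nat_lit 5) (nat_lit 7) (nat_lit 5) (nat_lit 8) (nat_lit 4) (nat_lit 385) (nat_lit 239) (nat_lit 156)) (XT.lf (nat_lit 0) (nat_lit 23200288719) (nat_lit 152) (nat_lit 32754886594) (nat_lit 0) (nat_lit 2005124962) (nat_lit 6) (nat_lit 5) (nat_lit 8) (nat_lit 4) (nat_lit 6) (nat_lit 4) (nat_lit 386) (nat_lit 239) (nat_lit 155)))))) (XT.nd (nat_lit 468) (nat_lit 0) (nat_lit 0) (XT.nd (nat_lit 234) (nat_lit 76) (nat_lit 0) (XT.nd (nat_lit 78) (nat_lit 0) (nat_lit 0) (XT.lf (nat_lit 0) (nat_lit 26704779246) (nat_lit 152) (nat_lit 27433891311) (nat_lit 0) (nat_lit 5453373555) (nat_lit 6) (nat_lit 5) (nat_lit 8) (nat_lit 4) (nat_lit 6) (nat_lit 4) (nat_lit 387) (nat_lit 239) (nat_lit 154)) (XT.nd (nat_lit 78) (nat_lit 0) (nat_lit 0) (XT.lf (nat_lit 0) (nat_lit 30299989903)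 (nat_lit 152) (nat_lit 21979210625) (nat_lit 0) (nat_lit 8993980393) (nat_lit 6) (nat_lit 5) (nat_lit 8) (nat_lit 4) (nat_lit 6) (nat_lit 4) (nat_lit 388) (nat_lit 239) (nat_lit 153)) (XT.lf (nat_lit 0) (nat_lit 33989062138) (nat_lit 152) (nat_lit 16386078309) (nat_lit 0) (nat_lit 12630039211) (nat_lit 6) (nat_lit 5) (nat_lit 8) (nat_lit 4) (nat_lit 6) (nat_lit 4) (nat_lit 389) (nat_lit 239) (nat_lit 152)))) (XT.nd (nat_lit 78) (nat_lit 76) (nat_lit 0) (XT.lf (nat_lit 0) (nat_lit 37775219410) (nat_lit 152) (nat_lit 10649607161) (nat_lit 0) (nat_lit 16364727147) (nat_lit 6) (nat_lit 5) (nat_lit 8) (nat_lit 4) (nat_lit 6) (nat_lit 4) (nat_lit 390) (nat_lit 239) (nat_lit 151)) (XT.nd (nat_lit 78) (nat_lit 76) (nat_lit 0) (XT.lf (nat_lit 0) (nat_lit 41661770014) (nat_lit 152) (nat_lit 4764784729) (nat_lit 0) (nat_lit 20201307521) (nat_lit 6) (nat_lit 5) (nat_lit 8) (nat_lit 4) (nat_lit 6) (nat_lit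 4) (nat_lit 391) (nat_lit 239) (nat_lit 150)) (XT.lf (nat_lit 0) (nat_lit 1298876827) (nat_lit 76) (nat_lit 44365718735) (nat_lit 76) (nat_lit 22856741455) (nat_lit 5) (nat_lit 4) (nat_lit 6) (nat_lit 5) (nat_lit 6) (nat_lit 4) (nat_lit 392) (nat_lit 239) (nat_lit 149))))) (XT.nd (nat_lit 234) (nat_lit 0) (nat_lit 0) (XT.nd (nat_lit 78) (nat_lit 0) (nat_lit 0) (XT.lf (nat_lit 0) (nat_lit 7619296328) (nat_lit 76) (nat_lit 42203670973) (nat_lit 76) (nat_lit 20647591960) (nat_lit 5) (nat_lit 4) (nat_lit 6) (nat_lit 5) (nat_lit 6) (nat_lit 4) (nat_lit 393) (nat_lit 239) (nat_lit 148)) (XT.nd (nat_lit 78) (nat_lit 0) (nat_lit 0) (XT.lf (nat_lit 0) (nat_lit 14107167911) (nat_lit 76) (nat_lit 39986637275) (nat_lit 76) (nat_lit 18384828422) (nat_lit 5) (nat_lit 4) (nat_lit 6) (nat_lit 5) (nat_lit 6) (nat_lit 4) (nat_lit 394) (nat_lit 239) (nat_lit 147)) (XT.lf (nat_lit 0) (nat_lit 20768160588) (nat_lit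 76) (nat_lit 37712680424) (nat_lit 76) (nat_lit 16066473670) (nat_lit 5) (nat_lit 4) (nat_lit 6) (nat_lit 5) (nat_lit 6) (nat_lit 4) (nat_lit 395) (nat_lit 239) (nat_lit 146)))) (XT.nd (nat_lit 78) (nat_lit 0) (nat_lit 0) (XT.lf (nat_lit 0) (nat_lit 27608094646) (nat_lit 76) (nat_lit 35379813470) (nat_lit 76) (nat_lit 13690501956) (nat_lit 5) (nat_lit 4) (nat_lit 6) (nat_lit 5) (nat_lit 6) (nat_lit 4) (nat_lit 396) (nat_lit 239) (nat_lit 145)) (XT.nd (nat_lit 78) (nat_lit 0) (nat_lit 0) (XT.lf (nat_lit 0) (nat_lit 34632946726) (nat_lit 76) (nat_lit 32985997985) (nat_lit 76) (nat_lit 11254837190) (nat_lit 5) (nat_lit 4) (nat_lit 6) (nat_lit 5) (nat_lit 6) (nat_lit 4) (nat_lit 397) (nat_lit 239) (nat_lit 144)) (XT.lf (nat_lit 0) (nat_lit 41848855047) (nat_lit 76) (nat_lit 30529142285) (nat_lit 76) (nat_lit 8757351120) (nat_lit 5) (nat_lit 4) (nat_lit 6) (nat_lit 5) (nat_lit 6) (nat_lit 4) (nat_lit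 398) (nat_lit 239) (nat_lit 143))))))))
noncomputable def xc57 : XT := (XT.nd (nat_lit 34320) (nat_lit 0) (nat_lit 1520) (XT.nd (nat_lit 33384) (nat_lit 0) (nat_lit 3724) (XT.nd (nat_lit 32916) (nat_lit 0) (nat_lit 6308) (XT.nd (nat_lit 156) (nat_lit 76) (nat_lit 0) (XT.nd (nat_lit 78) (nat_lit 0) (nat_lit 0) (XT.lf (nat_lit 0) (nat_lit 49262124773) (nat_lit 76) (nat_lit 28007099602) (nat_lit 76) (nat_lit 6195861477) (nat_lit 5) (nat_lit 4) (nat_lit 6) (nat_lit 5) (nat_lit 6) (nat_lit 4) (nat_lit 399) (nat_lit 239) (nat_lit 142)) (XT.lf (nat_lit 0) (nat_lit 56879233518) (nat_lit 76) (nat_lit 25417666212) (nat_lit 76) (nat_lit 3568130066) (nat_lit 5) (nat_lit 4) (nat_lit 6) (nat_lit 5) (nat_lit 6) (nat_lit 4) (nat_lit 400) (nat_lit 239) (nat_lit 141))) (XT.nd (nat_lit 78) (nat_lit 76) (nat_lit 0) (XT.lf (nat_lit 0) (nat_lit 64706837007) (nat_lit 76) (nat_lit 22758579501) (nat_lit 76) (nat_lit 871860812)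 (nat_lit 5) (nat_lit 4) (nat_lit 6) (nat_lit 5) (nat_lit 6) (nat_lit 4) (nat_lit 401) (nat_lit 239) (nat_lit 140)) (XT.nd (nat_lit 78) (nat_lit 0) (nat_lit 0) (XT.lf (nat_lit 0) (nat_lit 1858318076) (nat_lit 152) (nat_lit 18150432551) (nat_lit 76) (nat_lit 70874691450) (nat_lit 4) (nat_lit 5) (nat_lit 6) (nat_lit 5) (nat_lit 5) (nat_lit 4) (nat_lit 402) (nat_lit 239) (nat_lit 139)) (XT.lf (nat_lit 0) (nat_lit 4643364961) (nat_lit 152) (nat_lit 12531835488) (nat_lit 76) (nat_lit 76330822896) (nat_lit 4) (nat_lit 5) (nat_lit 6) (nat_lit 5) (nat_lit 5) (nat_lit 4) (nat_lit 403) (nat_lit 239) (nat_lit 138))))) (XT.nd (nat_lit 234) (nat_lit 760) (nat_lit 0) (XT.nd (nat_lit 78) (nat_lit 456) (nat_lit 0) (XT.lf (nat_lit 0) (nat_lit 2483537884) (nat_lit 456) (nat_lit 870023391) (nat_lit 456) (nat_lit 870023391) (nat_lit 103) (nat_lit 4) (nat_lit 109) (nat_lit 5) (nat_lit 109) (nat_lit 4) (nat_lit 300)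 (nat_lit 240) (nat_lit 240)) (XT.nd (nat_lit 78) (nat_lit 0) (nat_lit 0) (XT.lf (nat_lit 0) (nat_lit 1602801445) (nat_lit 456) (nat_lit 6434013589) (nat_lit 0) (nat_lit 521908416) (nat_lit 97) (nat_lit 5) (nat_lit 103) (nat_lit 4) (nat_lit 97) (nat_lit 4) (nat_lit 301) (nat_lit 240) (nat_lit 239)) (XT.lf (nat_lit 0) (nat_lit 4976225246) (nat_lit 456) (nat_lit 852160665) (nat_lit 0) (nat_lit 2845921509) (nat_lit 97) (nat_lit 5) (nat_lit 103) (nat_lit 4) (nat_lit 97) (nat_lit 4) (nat_lit 302) (nat_lit 240) (nat_lit 238)))) (XT.nd (nat_lit 78) (nat_lit 380) (nat_lit 0) (XT.lf (nat_lit 0) (nat_lit 4881943880) (nat_lit 380) (nat_lit 3530928437) (nat_lit 380) (nat_lit 381779353) (nat_lit 92) (nat_lit 4) (nat_lit 97) (nat_lit 5) (nat_lit 97) (nat_lit 4) (nat_lit 303) (nat_lit 240) (nat_lit 237)) (XT.nd (nat_lit 78) (nat_lit 0) (nat_lit 0) (XT.lf (nat_lit 0) (nat_lit 1781494600) (nat_lit 304) (nat_lit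 1134669894) (nat_lit 380) (nat_lit 6003470687) (nat_lit 87) (nat_lit 5) (nat_lit 91) (nat_lit 5) (nat_lit 92) (nat_lit 4) (nat_lit 304) (nat_lit 240) (nat_lit 236)) (XT.lf (nat_lit 0) (nat_lit 6274775891) (nat_lit 380) (nat_lit 1449934872) (nat_lit 0) (nat_lit 1324602317) (nat_lit 87) (nat_lit 5) (nat_lit 92) (nat_lit 4) (nat_lit 87) (nat_lit 4) (nat_lit 305) (nat_lit 240) (nat_lit 235)))))) (XT.nd (nat_lit 468) (nat_lit 1140) (nat_lit 0) (XT.nd (nat_lit 234) (nat_lit 684) (nat_lit 0) (XT.nd (nat_lit 78) (nat_lit 304) (nat_lit 0) (XT.lf (nat_lit 0) (nat_lit 512487580) (nat_lit 456) (nat_lit 4815054679) (nat_lit 76) (nat_lit 3856152975) (nat_lit 81) (nat_lit 5) (nat_lit 87) (nat_lit 5) (nat_lit 82) (nat_lit 4) (nat_lit 306) (nat_lit 240) (nat_lit 234)) (XT.nd (nat_lit 78) (nat_lit 0) (nat_lit 0) (XT.lf (nat_lit 0) (nat_lit 950890013) (nat_lit 304) (nat_lit 2834902808) (nat_lit 380) (nat_lit 5537317307)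 (nat_lit 77) (nat_lit 5) (nat_lit 81) (nat_lit 5) (nat_lit 82) (nat_lit 4) (nat_lit 307) (nat_lit 240) (nat_lit 233)) (XT.lf (nat_lit 0) (nat_lit 6879718632) (nat_lit 304) (nat_lit 247007962) (nat_lit 380) (nat_lit 2341022704) (nat_lit 77) (nat_lit 5) (nat_lit 81) (nat_lit 5) (nat_lit 82) (nat_lit 4) (nat_lit 308) (nat_lit 240) (nat_lit 232)))) (XT.nd (nat_lit 78) (nat_lit 304) (nat_lit 0) (XT.lf (nat_lit 0) (nat_lit 910098935) (nat_lit 380) (nat_lit 6323325235) (nat_lit 76) (nat_lit 2383821763) (nat_lit 72) (nat_lit 5) (nat_lit 77) (nat_lit 5) (nat_lit 73) (nat_lit 4) (nat_lit 309) (nat_lit 240) (nat_lit 231)) (XT.nd (nat_lit 78) (nat_lit 304) (nat_lit 0) (XT.lf (nat_lit 0) (nat_lit 4163731881) (nat_lit 380) (nat_lit 499310477) (nat_lit 76) (nat_lit 5109042988) (nat_lit 72) (nat_lit 5) (nat_lit 77) (nat_lit 5) (nat_lit 73) (nat_lit 4) (nat_lit 310) (nat_lit 240) (nat_lit 230)) (XT.lf (nat_lit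 0) (nat_lit 5501569573) (nat_lit 304) (nat_lit 1991717320) (nat_lit 380) (nat_lit 2439044458) (nat_lit 68) (nat_lit 5) (nat_lit 72) (nat_lit 5) (nat_lit 73) (nat_lit 4) (nat_lit 311) (nat_lit 240) (nat_lit 229))))) (XT.nd (nat_lit 234) (nat_lit 532) (nat_lit 0) (XT.nd (nat_lit 78) (nat_lit 228) (nat_lit 0) (XT.lf (nat_lit 0) (nat_lit 761897010) (nat_lit 380) (nat_lit 8594939726) (nat_lit 76) (nat_lit 741834671) (nat_lit 63) (nat_lit 5) (nat_lit 68) (nat_lit 5) (nat_lit 64) (nat_lit 4) (nat_lit 312) (nat_lit 240) (nat_lit 228)) (XT.nd (nat_lit 78) (nat_lit 228) (nat_lit 0) (XT.lf (nat_lit 0) (nat_lit 4001367521) (nat_lit 380) (nat_lit 2712598694) (nat_lit 76) (nat_lit 3555666686) (nat_lit 63) (nat_lit 5) (nat_lit 68) (nat_lit 5) (nat_lit 64) (nat_lit 4) (nat_lit 313) (nat_lit 240) (nat_lit 227)) (XT.lf (nat_lit 0) (nat_lit 3307141384) (nat_lit 228) (nat_lit 3991426569) (nat_lit 304) (nat_lit 3148437358)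 (nat_lit 60) (nat_lit 5) (nat_lit 63) (nat_lit 5) (nat_lit 64) (nat_lit 4) (nat_lit 314) (nat_lit 240) (nat_lit 226)))) (XT.nd (nat_lit 78) (nat_lit 456) (nat_lit 0) (XT.lf (nat_lit 0) (nat_lit 20436682) (nat_lit 304) (nat_lit 1170788148) (nat_lit 76) (nat_lit 9439846540) (nat_lit 59) (nat_lit 5) (nat_lit 63) (nat_lit 5) (nat_lit 60) (nat_lit 5) (nat_lit 315) (nat_lit 240) (nat_lit 225)) (XT.nd (nat_lit 78) (nat_lit 228) (nat_lit 0) (XT.lf (nat_lit 0) (nat_lit 3216463719) (nat_lit 304) (nat_lit 5895646957) (nat_lit 76) (nat_lit 1707842631) (nat_lit 56) (nat_lit 5) (nat_lit 60) (nat_lit 5) (nat_lit 57) (nat_lit 4) (nat_lit 316) (nat_lit 240) (nat_lit 224)) (XT.lf (nat_lit 0) (nat_lit 100267601) (nat_lit 228) (nat_lit 6364658592) (nat_lit 304) (nat_lit 4550966340) (nat_lit 53) (nat_lit 5) (nat_lit 56) (nat_lit 5) (nat_lit 57) (nat_lit 4) (nat_lit 317) (nat_lit 240) (nat_lit 223))))))) (XT.nd (nat_lit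 936) (nat_lit 760) (nat_lit 0) (XT.nd (nat_lit 468) (nat_lit 608) (nat_lit 0) (XT.nd (nat_lit 234) (nat_lit 532) (nat_lit 0) (XT.nd (nat_lit 78) (nat_lit 304) (nat_lit 0) (XT.lf (nat_lit 0) (nat_lit 6296029153) (nat_lit 228) (nat_lit 3507219610) (nat_lit 304) (nat_lit 1414773905) (nat_lit 53) (nat_lit 5) (nat_lit 56) (nat_lit 5) (nat_lit 57) (nat_lit 4) (nat_lit 318) (nat_lit 240) (nat_lit 222)) (XT.nd (nat_lit 78) (nat_lit 0) (nat_lit 0) (XT.lf (nat_lit 0) (nat_lit 1157238412) (nat_lit 228) (nat_lit 568063769) (nat_lit 304) (nat_lit 9702114272) (nat_lit 49) (nat_lit 5) (nat_lit 52) (nat_lit 5) (nat_lit 53) (nat_lit 5) (nat_lit 319) (nat_lit 240) (nat_lit 221)) (XT.lf (nat_lit 0) (nat_lit 4939732797) (nat_lit 304) (nat_lit 4260066093) (nat_lit 76) (nat_lit 2442693014) (nat_lit 49) (nat_lit 5) (nat_lit 53) (nat_lit 5) (nat_lit 50) (nat_lit 4) (nat_lit 320) (nat_lit 240) (nat_lit 220)))) (XT.nd (nat_lit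 78) (nat_lit 304) (nat_lit 0) (XT.lf (nat_lit 0) (nat_lit 1863942973) (nat_lit 228) (nat_lit 6346848738) (nat_lit 304) (nat_lit 3654497496) (nat_lit 46) (nat_lit 5) (nat_lit 49) (nat_lit 5) (nat_lit 50) (nat_lit 4) (nat_lit 321) (nat_lit 240) (nat_lit 219)) (XT.nd (nat_lit 78) (nat_lit 304) (nat_lit 0) (XT.lf (nat_lit 0) (nat_lit 8162797893) (nat_lit 228) (nat_lit 3397776734) (nat_lit 304) (nat_lit 534851289) (nat_lit 46) (nat_lit 5) (nat_lit 49) (nat_lit 5) (nat_lit 50) (nat_lit 4) (nat_lit 322) (nat_lit 240) (nat_lit 218)) (XT.lf (nat_lit 0) (nat_lit 2241456145) (nat_lit 228) (nat_lit 344931824) (nat_lit 304) (nat_lit 9746567359) (nat_lit 42) (nat_lit 5) (nat_lit 45) (nat_lit 5) (nat_lit 46) (nat_lit 5) (nat_lit 323) (nat_lit 240) (nat_lit 217))))) (XT.nd (nat_lit 234) (nat_lit 456) (nat_lit 0) (XT.nd (nat_lit 78) (nat_lit 152) (nat_lit 0) (XT.lf (nat_lit 0) (nat_lit 5796815059) (nat_lit 304)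 (nat_lit 4022958662) (nat_lit 76) (nat_lit 2757556055) (nat_lit 42) (nat_lit 5) (nat_lit 46) (nat_lit 5) (nat_lit 43) (nat_lit 4) (nat_lit 324) (nat_lit 240) (nat_lit 216)) (XT.nd (nat_lit 78) (nat_lit 0) (nat_lit 0) (XT.lf (nat_lit 0) (nat_lit 2174105779) (nat_lit 152) (nat_lit 6894816697) (nat_lit 228) (nat_lit 3761217038) (nat_lit 40) (nat_lit 5) (nat_lit 42) (nat_lit 5) (nat_lit 43) (nat_lit 4) (nat_lit 325) (nat_lit 240) (nat_lit 215)) (XT.lf (nat_lit 0) (nat_lit 8547914372) (nat_lit 152) (nat_lit 3873792296) (nat_lit 228) (nat_lit 669414660) (nat_lit 40) (nat_lit 5) (nat_lit 42) (nat_lit 5) (nat_lit 43) (nat_lit 4) (nat_lit 326) (nat_lit 240) (nat_lit 214)))) (XT.nd (nat_lit 78) (nat_lit 152) (nat_lit 0) (XT.lf (nat_lit 0) (nat_lit 1671280007) (nat_lit 228) (nat_lit 753811021) (nat_lit 304) (nat_lit 10935404955) (nat_lit 36) (nat_lit 5) (nat_lit 39) (nat_lit 5) (nat_lit 40) (nat_lit 5) (nat_lit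 327) (nat_lit 240) (nat_lit 213)) (XT.nd (nat_lit 78) (nat_lit 152) (nat_lit 0) (XT.lf (nat_lit 0) (nat_lit 5612402648) (nat_lit 304) (nat_lit 5592673109) (nat_lit 76) (nat_lit 2432332353) (nat_lit 36) (nat_lit 5) (nat_lit 40) (nat_lit 5) (nat_lit 37) (nat_lit 4) (nat_lit 328) (nat_lit 240) (nat_lit 212)) (XT.lf (nat_lit 0) (nat_lit 603007760) (nat_lit 152) (nat_lit 8250681738) (nat_lit 228) (nat_lit 5070243568) (nat_lit 34) (nat_lit 5) (nat_lit 36) (nat_lit 5) (nat_lit 37) (nat_lit 4) (nat_lit 329) (nat_lit 240) (nat_lit 211)))))) (XT.nd (nat_lit 468) (nat_lit 380) (nat_lit 0) (XT.nd (nat_lit 234) (nat_lit 152) (nat_lit 0) (XT.nd (nat_lit 78) (nat_lit 228) (nat_lit 0) (XT.lf (nat_lit 0) (nat_lit 7012005060) (nat_lit 152) (nat_lit 5182541800) (nat_lit 228) (nat_lit 2024491462) (nat_lit 34) (nat_lit 5) (nat_lit 36) (nat_lit 5) (nat_lit 37) (nat_lit 4) (nat_lit 330) (nat_lit 240) (nat_lit 210)) (XT.nd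 (nat_lit 78) (nat_lit 152) (nat_lit 0) (XT.lf (nat_lit 0) (nat_lit 1037783237) (nat_lit 228) (nat_lit 1006187261) (nat_lit 76) (nat_lit 12480350910) (nat_lit 33) (nat_lit 5) (nat_lit 36) (nat_lit 5) (nat_lit 34) (nat_lit 5) (nat_lit 331) (nat_lit 240) (nat_lit 209)) (XT.lf (nat_lit 0) (nat_lit 4163217344) (nat_lit 228) (nat_lit 9467640119) (nat_lit 76) (nat_lit 1206994629) (nat_lit 31) (nat_lit 5) (nat_lit 34) (nat_lit 5) (nat_lit 32) (nat_lit 4) (nat_lit 332) (nat_lit 240) (nat_lit 208)))) (XT.nd (nat_lit 78) (nat_lit 152) (nat_lit 0) (XT.lf (nat_lit 0) (nat_lit 7361728721) (nat_lit 228) (nat_lit 3306017177) (nat_lit 76) (nat_lit 4493711801) (nat_lit 31) (nat_lit 5) (nat_lit 34) (nat_lit 5) (nat_lit 32) (nat_lit 4) (nat_lit 333) (nat_lit 240) (nat_lit 207)) (XT.nd (nat_lit 78) (nat_lit 0) (nat_lit 0) (XT.lf (nat_lit 0) (nat_lit 3018061883) (nat_lit 152) (nat_lit 7617451611) (nat_lit 228) (nat_lit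 4859925455) (nat_lit 29) (nat_lit 5) (nat_lit 31) (nat_lit 5) (nat_lit 32) (nat_lit 4) (nat_lit 334) (nat_lit 240) (nat_lit 206)) (XT.lf (nat_lit 0) (nat_lit 9519144519) (nat_lit 152) (nat_lit 4472731856) (nat_lit 228) (nat_lit 1848077976) (nat_lit 29) (nat_lit 5) (nat_lit 31) (nat_lit 5) (nat_lit 32) (nat_lit 4) (nat_lit 335) (nat_lit 240) (nat_lit 205))))) (XT.nd (nat_lit 234) (nat_lit 152) (nat_lit 0) (XT.nd (nat_lit 78) (nat_lit 152) (nat_lit 0) (XT.lf (nat_lit 0) (nat_lit 1181545800) (nat_lit 228) (nat_lit 70746012) (nat_lit 76) (nat_lit 14943637966) (nat_lit 28) (nat_lit 5) (nat_lit 31) (nat_lit 5) (nat_lit 29) (nat_lit 5) (nat_lit 336) (nat_lit 240) (nat_lit 204)) (XT.nd (nat_lit 78) (nat_lit 0) (nat_lit 0) (XT.lf (nat_lit 0) (nat_lit 4300043394) (nat_lit 228) (nat_lit 10185481023) (nat_lit 76) (nat_lit 2075499005) (nat_lit 26) (nat_lit 5) (nat_lit 29) (nat_lit 5) (nat_lit 27) (nat_lit 4)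 (nat_lit 337) (nat_lit 240) (nat_lit 203)) (XT.lf (nat_lit 0) (nat_lit 7478851335) (nat_lit 228) (nat_lit 4010005626) (nat_lit 76) (nat_lit 5449250809) (nat_lit 26) (nat_lit 5) (nat_lit 29) (nat_lit 5) (nat_lit 27) (nat_lit 4) (nat_lit 338) (nat_lit 240) (nat_lit 202)))) (XT.nd (nat_lit 78) (nat_lit 0) (nat_lit 0) (XT.lf (nat_lit 0) (nat_lit 2321054447) (nat_lit 152) (nat_lit 8409265920) (nat_lit 228) (nat_lit 6596904753) (nat_lit 24) (nat_lit 5) (nat_lit 26) (nat_lit 5) (nat_lit 27) (nat_lit 4) (nat_lit 339) (nat_lit 240) (nat_lit 201)) (XT.nd (nat_lit 78) (nat_lit 0) (nat_lit 0) (XT.lf (nat_lit 0) (nat_lit 8850010807) (nat_lit 152) (nat_lit 5225398810) (nat_lit 228) (nat_lit 3652762321) (nat_lit 24) (nat_lit 5) (nat_lit 26) (nat_lit 5) (nat_lit 27) (nat_lit 4) (nat_lit 340) (nat_lit 240) (nat_lit 200)) (XT.lf (nat_lit 0) (nat_lit 15502761391) (nat_lit 152) (nat_lit 1974966806) (nat_lit 228) (nat_lit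 664749780) (nat_lit 24) (nat_lit 5) (nat_lit 26) (nat_lit 5) (nat_lit 27) (nat_lit 4) (nat_lit 341) (nat_lit 240) (nat_lit 199))))))))
noncomputable def xc58 : XT := (XT.nd (nat_lit 1794) (nat_lit 380) (nat_lit 0) (XT.nd (nat_lit 858) (nat_lit 380) (nat_lit 0) (XT.nd (nat_lit 390) (nat_lit 304) (nat_lit 0) (XT.nd (nat_lit 156) (nat_lit 76) (nat_lit 0) (XT.nd (nat_lit 78) (nat_lit 0) (nat_lit 0) (XT.lf (nat_lit 0) (nat_lit 2373207589) (nat_lit 228) (nat_lit 14816938303) (nat_lit 76) (nat_lit 1378184795) (nat_lit 21) (nat_lit 5) (nat_lit 24) (nat_lit 5) (nat_lit 22) (nat_lit 4) (nat_lit 342) (nat_lit 240) (nat_lit 198)) (XT.lf (nat_lit 0) (nat_lit 5493384843) (nat_lit 228) (nat_lit 8715384314) (nat_lit 76) (nat_lit 4797893079) (nat_lit 21) (nat_lit 5) (nat_lit 24) (nat_lit 5) (nat_lit 22) (nat_lit 4) (nat_lit 343) (nat_lit 240) (nat_lit 197))) (XT.nd (nat_lit 78) (nat_lit 76) (nat_lit 0) (XT.lf (nat_lit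 0) (nat_lit 8666359615) (nat_lit 228) (nat_lit 2499882262) (nat_lit 76) (nat_lit 8293159067) (nat_lit 21) (nat_lit 5) (nat_lit 24) (nat_lit 5) (nat_lit 22) (nat_lit 4) (nat_lit 344) (nat_lit 240) (nat_lit 196)) (XT.nd (nat_lit 78) (nat_lit 0) (nat_lit 0) (XT.lf (nat_lit 0) (nat_lit 3911322871) (nat_lit 76) (nat_lit 8021179564) (nat_lit 152) (nat_lit 7993312032) (nat_lit 20) (nat_lit 5) (nat_lit 21) (nat_lit 5) (nat_lit 22) (nat_lit 4) (nat_lit 345) (nat_lit 240) (nat_lit 195)) (XT.lf (nat_lit 0) (nat_lit 10499681023) (nat_lit 76) (nat_lit 4783088612) (nat_lit 152) (nat_lit 5123897642) (nat_lit 20) (nat_lit 5) (nat_lit 21) (nat_lit 5) (nat_lit 22) (nat_lit 4) (nat_lit 346) (nat_lit 240) (nat_lit 194))))) (XT.nd (nat_lit 234) (nat_lit 76) (nat_lit 0) (XT.nd (nat_lit 78) (nat_lit 228) (nat_lit 0) (XT.lf (nat_lit 0) (nat_lit 17221196451) (nat_lit 76) (nat_lit 1474383530) (nat_lit 152) (nat_lit 2207534815)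 (nat_lit 20) (nat_lit 5) (nat_lit 21) (nat_lit 5) (nat_lit 22) (nat_lit 4) (nat_lit 347) (nat_lit 240) (nat_lit 193)) (XT.nd (nat_lit 78) (nat_lit 0) (nat_lit 0) (XT.lf (nat_lit 0) (nat_lit 788263819) (nat_lit 228) (nat_lit 18721480979) (nat_lit 76) (nat_lit 1904285230) (nat_lit 17) (nat_lit 5) (nat_lit 20) (nat_lit 5) (nat_lit 18) (nat_lit 4) (nat_lit 348) (nat_lit 240) (nat_lit 192)) (XT.lf (nat_lit 0) (nat_lit 3844692373) (nat_lit 228) (nat_lit 12705898229) (nat_lit 76) (nat_lit 5388600274) (nat_lit 17) (nat_lit 5) (nat_lit 20) (nat_lit 5) (nat_lit 18) (nat_lit 4) (nat_lit 349) (nat_lit 240) (nat_lit 191)))) (XT.nd (nat_lit 78) (nat_lit 76) (nat_lit 0) (XT.lf (nat_lit 0) (nat_lit 6956871153) (nat_lit 228) (nat_lit 6571638619) (nat_lit 76) (nat_lit 8952701869) (nat_lit 17) (nat_lit 5) (nat_lit 20) (nat_lit 5) (nat_lit 18) (nat_lit 4) (nat_lit 350) (nat_lit 240) (nat_lit 190)) (XT.nd (nat_lit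 78) (nat_lit 76) (nat_lit 0) (XT.lf (nat_lit 0) (nat_lit 10127519539) (nat_lit 228) (nat_lit 313342118) (nat_lit 76) (nat_lit 12599704279) (nat_lit 17) (nat_lit 5) (nat_lit 20) (nat_lit 5) (nat_lit 18) (nat_lit 4) (nat_lit 351) (nat_lit 240) (nat_lit 189)) (XT.lf (nat_lit 0) (nat_lit 6195353348) (nat_lit 76) (nat_lit 7223608178) (nat_lit 152) (nat_lit 10196994383) (nat_lit 16) (nat_lit 5) (nat_lit 17) (nat_lit 5) (nat_lit 18) (nat_lit 4) (nat_lit 352) (nat_lit 240) (nat_lit 188)))))) (XT.nd (nat_lit 468) (nat_lit 152) (nat_lit 0) (XT.nd (nat_lit 234) (nat_lit 76) (nat_lit 0) (XT.nd (nat_lit 78) (nat_lit 152) (nat_lit 0) (XT.lf (nat_lit 0) (nat_lit 12848060311) (nat_lit 76) (nat_lit 3930803621) (nat_lit 152) (nat_lit 7430676673) (nat_lit 16) (nat_lit 5) (nat_lit 17) (nat_lit 5) (nat_lit 18) (nat_lit 4) (nat_lit 353) (nat_lit 240) (nat_lit 187)) (XT.nd (nat_lit 78) (nat_lit 152) (nat_lit 0) (XT.lf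 (nat_lit 0) (nat_lit 19644355694) (nat_lit 76) (nat_lit 562734919) (nat_lit 152) (nat_lit 4614840238) (nat_lit 16) (nat_lit 5) (nat_lit 17) (nat_lit 5) (nat_lit 18) (nat_lit 4) (nat_lit 354) (nat_lit 240) (nat_lit 186)) (XT.lf (nat_lit 0) (nat_lit 1130865156) (nat_lit 152) (nat_lit 22614360876) (nat_lit 152) (nat_lit 1707278044) (nat_lit 14) (nat_lit 4) (nat_lit 16) (nat_lit 5) (nat_lit 16) (nat_lit 4) (nat_lit 355) (nat_lit 240) (nat_lit 185)))) (XT.nd (nat_lit 78) (nat_lit 0) (nat_lit 0) (XT.lf (nat_lit 0) (nat_lit 1289080899) (nat_lit 228) (nat_lit 18439421069) (nat_lit 76) (nat_lit 6372342225) (nat_lit 13) (nat_lit 5) (nat_lit 16) (nat_lit 5) (nat_lit 14) (nat_lit 4) (nat_lit 356) (nat_lit 240) (nat_lit 184)) (XT.nd (nat_lit 78) (nat_lit 0) (nat_lit 0) (XT.lf (nat_lit 0) (nat_lit 4310259910) (nat_lit 228) (nat_lit 12451255311) (nat_lit 76) (nat_lit 10007556031) (nat_lit 13) (nat_lit 5) (nat_lit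 16) (nat_lit 5) (nat_lit 14) (nat_lit 4) (nat_lit 357) (nat_lit 240) (nat_lit 183)) (XT.lf (nat_lit 0) (nat_lit 7392213997) (nat_lit 228) (nat_lit 6335497867) (nat_lit 76) (nat_lit 13730549617) (nat_lit 13) (nat_lit 5) (nat_lit 16) (nat_lit 5) (nat_lit 14) (nat_lit 4) (nat_lit 358) (nat_lit 240) (nat_lit 182))))) (XT.nd (nat_lit 234) (nat_lit 76) (nat_lit 0) (XT.nd (nat_lit 78) (nat_lit 76) (nat_lit 0) (XT.lf (nat_lit 0) (nat_lit 10537636130) (nat_lit 228) (nat_lit 86804872) (nat_lit 76) (nat_lit 17544576085) (nat_lit 13) (nat_lit 5) (nat_lit 16) (nat_lit 5) (nat_lit 14) (nat_lit 4) (nat_lit 359) (nat_lit 240) (nat_lit 181)) (XT.nd (nat_lit 78) (nat_lit 0) (nat_lit 0) (XT.lf (nat_lit 0) (nat_lit 6425671695) (nat_lit 76) (nat_lit 7385370529) (nat_lit 152) (nat_lit 15089063872) (nat_lit 12) (nat_lit 5) (nat_lit 13) (nat_lit 5) (nat_lit 14) (nat_lit 4) (nat_lit 360) (nat_lit 240) (nat_lit 180)) (XT.lf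 (nat_lit 0) (nat_lit 13086717790) (nat_lit 76) (nat_lit 4069015848) (nat_lit 152) (nat_lit 12498220446) (nat_lit 12) (nat_lit 5) (nat_lit 13) (nat_lit 5) (nat_lit 14) (nat_lit 4) (nat_lit 361) (nat_lit 240) (nat_lit 179)))) (XT.nd (nat_lit 78) (nat_lit 76) (nat_lit 0) (XT.lf (nat_lit 0) (nat_lit 19900426158) (nat_lit 76) (nat_lit 673355735) (nat_lit 152) (nat_lit 9857463397) (nat_lit 12) (nat_lit 5) (nat_lit 13) (nat_lit 5) (nat_lit 14) (nat_lit 4) (nat_lit 362) (nat_lit 240) (nat_lit 178)) (XT.nd (nat_lit 78) (nat_lit 76) (nat_lit 0) (XT.lf (nat_lit 0) (nat_lit 24095132941) (nat_lit 152) (nat_lit 4386867684) (nat_lit 0) (nat_lit 2749849494) (nat_lit 12) (nat_lit 5) (nat_lit 14) (nat_lit 4) (nat_lit 12) (nat_lit 4) (nat_lit 363) (nat_lit 240) (nat_lit 177)) (XT.lf (nat_lit 0) (nat_lit 1927284915) (nat_lit 76) (nat_lit 25794414923) (nat_lit 76) (nat_lit 4334803205) (nat_lit 11) (nat_lit 4) (nat_lit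 12) (nat_lit 5) (nat_lit 12) (nat_lit 4) (nat_lit 364) (nat_lit 240) (nat_lit 176))))))) (XT.nd (nat_lit 936) (nat_lit 152) (nat_lit 0) (XT.nd (nat_lit 468) (nat_lit 76) (nat_lit 0) (XT.nd (nat_lit 234) (nat_lit 76) (nat_lit 0) (XT.nd (nat_lit 78) (nat_lit 76) (nat_lit 0) (XT.lf (nat_lit 0) (nat_lit 8476171557) (nat_lit 76) (nat_lit 22999890401) (nat_lit 76) (nat_lit 1429280361) (nat_lit 11) (nat_lit 4) (nat_lit 12) (nat_lit 5) (nat_lit 12) (nat_lit 4) (nat_lit 365) (nat_lit 240) (nat_lit 175)) (XT.nd (nat_lit 78) (nat_lit 0) (nat_lit 0) (XT.lf (nat_lit 0) (nat_lit 1508077694) (nat_lit 152) (nat_lit 18616977681) (nat_lit 76) (nat_lit 13654900978) (nat_lit 10) (nat_lit 5) (nat_lit 12) (nat_lit 5) (nat_lit 11) (nat_lit 4) (nat_lit 366) (nat_lit 240) (nat_lit 174)) (XT.lf (nat_lit 0) (nat_lit 4480729616) (nat_lit 152) (nat_lit 12687120843) (nat_lit 76) (nat_lit 17513272094) (nat_lit 10) (nat_lit 5)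 (nat_lit 12) (nat_lit 5) (nat_lit 11) (nat_lit 4) (nat_lit 367) (nat_lit 240) (nat_lit 173)))) (XT.nd (nat_lit 78) (nat_lit 76) (nat_lit 0) (XT.lf (nat_lit 0) (nat_lit 7519163275) (nat_lit 152) (nat_lit 6620679705) (nat_lit 76) (nat_lit 21470197541) (nat_lit 10) (nat_lit 5) (nat_lit 12) (nat_lit 5) (nat_lit 11) (nat_lit 4) (nat_lit 368) (nat_lit 240) (nat_lit 172)) (XT.nd (nat_lit 78) (nat_lit 76) (nat_lit 0) (XT.lf (nat_lit 0) (nat_lit 10626033611) (nat_lit 152) (nat_lit 412353493) (nat_lit 76) (nat_lit 25529134826) (nat_lit 10) (nat_lit 5) (nat_lit 12) (nat_lit 5) (nat_lit 11) (nat_lit 4) (nat_lit 369) (nat_lit 240) (nat_lit 171)) (XT.lf (nat_lit 0) (nat_lit 6061565520) (nat_lit 76) (nat_lit 7800757324) (nat_lit 152) (nat_lit 23690332551) (nat_lit 9) (nat_lit 5) (nat_lit 10) (nat_lit 5) (nat_lit 11) (nat_lit 4) (nat_lit 370) (nat_lit 240) (nat_lit 170))))) (XT.nd (nat_lit 234) (nat_lit 76) (nat_lit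 0) (XT.nd (nat_lit 78) (nat_lit 0) (nat_lit 0) (XT.lf (nat_lit 0) (nat_lit 12699596750) (nat_lit 76) (nat_lit 4478484999) (nat_lit 152) (nat_lit 21389803269) (nat_lit 9) (nat_lit 5) (nat_lit 10) (nat_lit 5) (nat_lit 11) (nat_lit 4) (nat_lit 371) (nat_lit 240) (nat_lit 169)) (XT.nd (nat_lit 78) (nat_lit 0) (nat_lit 0) (XT.lf (nat_lit 0) (nat_lit 19499333774) (nat_lit 76) (nat_lit 1072831136) (nat_lit 152) (nat_lit 19042054266) (nat_lit 9) (nat_lit 5) (nat_lit 10) (nat_lit 5) (nat_lit 11) (nat_lit 4) (nat_lit 372) (nat_lit 240) (nat_lit 168)) (XT.lf (nat_lit 0) (nat_lit 24070792671) (nat_lit 152) (nat_lit 14249108669) (nat_lit 0) (nat_lit 2371973161) (nat_lit 9) (nat_lit 5) (nat_lit 11) (nat_lit 4) (nat_lit 9) (nat_lit 4) (nat_lit 373) (nat_lit 240) (nat_lit 167)))) (XT.nd (nat_lit 78) (nat_lit 76) (nat_lit 0) (XT.lf (nat_lit 0) (nat_lit 27664919285) (nat_lit 152) (nat_lit 8253729836) (nat_lit 0)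 (nat_lit 5883506600) (nat_lit 9) (nat_lit 5) (nat_lit 11) (nat_lit 4) (nat_lit 9) (nat_lit 4) (nat_lit 374) (nat_lit 240) (nat_lit 166)) (XT.nd (nat_lit 78) (nat_lit 76) (nat_lit 0) (XT.lf (nat_lit 0) (nat_lit 31347372543) (nat_lit 152) (nat_lit 2113197512) (nat_lit 0) (nat_lit 9485772308) (nat_lit 9) (nat_lit 5) (nat_lit 11) (nat_lit 4) (nat_lit 9) (nat_lit 4) (nat_lit 375) (nat_lit 240) (nat_lit 165)) (XT.lf (nat_lit 0) (nat_lit 4261001299) (nat_lit 76) (nat_lit 30901328173) (nat_lit 76) (nat_lit 8961875948) (nat_lit 8) (nat_lit 4) (nat_lit 9) (nat_lit 5) (nat_lit 9) (nat_lit 4) (nat_lit 376) (nat_lit 240) (nat_lit 164)))))) (XT.nd (nat_lit 468) (nat_lit 76) (nat_lit 0) (XT.nd (nat_lit 234) (nat_lit 76) (nat_lit 0) (XT.nd (nat_lit 78) (nat_lit 0) (nat_lit 0) (XT.lf (nat_lit 0) (nat_lit 10836377949) (nat_lit 76) (nat_lit 28257997633) (nat_lit 76) (nat_lit 6242960952) (nat_lit 8) (nat_lit 4) (nat_lit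 9) (nat_lit 5) (nat_lit 9) (nat_lit 4) (nat_lit 377) (nat_lit 240) (nat_lit 163)) (XT.nd (nat_lit 78) (nat_lit 0) (nat_lit 0) (XT.lf (nat_lit 0) (nat_lit 17576621138) (nat_lit 76) (nat_lit 25549607880) (nat_lit 76) (nat_lit 3461188232) (nat_lit 8) (nat_lit 4) (nat_lit 9) (nat_lit 5) (nat_lit 9) (nat_lit 4) (nat_lit 378) (nat_lit 240) (nat_lit 162)) (XT.lf (nat_lit 0) (nat_lit 24487620400) (nat_lit 76) (nat_lit 22773792360) (nat_lit 76) (nat_lit 614127113) (nat_lit 8) (nat_lit 4) (nat_lit 9) (nat_lit 5) (nat_lit 9) (nat_lit 4) (nat_lit 379) (nat_lit 240) (nat_lit 161)))) (XT.nd (nat_lit 78) (nat_lit 0) (nat_lit 0) (XT.lf (nat_lit 0) (nat_lit 2255814987) (nat_lit 152) (nat_lit 17649531308) (nat_lit 76) (nat_lit 29296820176) (nat_lit 7) (nat_lit 5) (nat_lit 9) (nat_lit 5) (nat_lit 8) (nat_lit 4) (nat_lit 380) (nat_lit 240) (nat_lit 160)) (XT.nd (nat_lit 78) (nat_lit 0) (nat_lit 0) (XT.lf (nat_lit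 0) (nat_lit 5182724067) (nat_lit 152) (nat_lit 11775061686) (nat_lit 76) (nat_lit 33611137152) (nat_lit 7) (nat_lit 5) (nat_lit 9) (nat_lit 5) (nat_lit 8) (nat_lit 4) (nat_lit 381) (nat_lit 240) (nat_lit 159)) (XT.lf (nat_lit 0) (nat_lit 8181141451) (nat_lit 152) (nat_lit 5753474210) (nat_lit 76) (nat_lit 38042564868) (nat_lit 7) (nat_lit 5) (nat_lit 9) (nat_lit 5) (nat_lit 8) (nat_lit 4) (nat_lit 382) (nat_lit 240) (nat_lit 158))))) (XT.nd (nat_lit 234) (nat_lit 0) (nat_lit 0) (XT.nd (nat_lit 78) (nat_lit 0) (nat_lit 0) (XT.lf (nat_lit 0) (nat_lit 428861328) (nat_lit 76) (nat_lit 10828948267) (nat_lit 152) (nat_lit 42170236594) (nat_lit 6) (nat_lit 5) (nat_lit 7) (nat_lit 5) (nat_lit 8) (nat_lit 4) (nat_lit 383) (nat_lit 240) (nat_lit 157)) (XT.nd (nat_lit 78) (nat_lit 0) (nat_lit 0) (XT.lf (nat_lit 0) (nat_lit 6886616463) (nat_lit 76) (nat_lit 7582627720) (nat_lit 152) (nat_lit 40451928625) (nat_lit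 6) (nat_lit 5) (nat_lit 7) (nat_lit 5) (nat_lit 8) (nat_lit 4) (nat_lit 384) (nat_lit 240) (nat_lit 156)) (XT.lf (nat_lit 0) (nat_lit 13510928475) (nat_lit 76) (nat_lit 4250916240) (nat_lit 152) (nat_lit 38697712544) (nat_lit 6) (nat_lit 5) (nat_lit 7) (nat_lit 5) (nat_lit 8) (nat_lit 4) (nat_lit 385) (nat_lit 240) (nat_lit 155)))) (XT.nd (nat_lit 78) (nat_lit 0) (nat_lit 0) (XT.lf (nat_lit 0) (nat_lit 20307585597) (nat_lit 76) (nat_lit 830902622) (nat_lit 152) (nat_lit 36906055541) (nat_lit 6) (nat_lit 5) (nat_lit 7) (nat_lit 5) (nat_lit 8) (nat_lit 4) (nat_lit 386) (nat_lit 240) (nat_lit 154)) (XT.nd (nat_lit 78) (nat_lit 0) (nat_lit 0) (XT.lf (nat_lit 0) (nat_lit 24627890821) (nat_lit 152) (nat_lit 32420756256) (nat_lit 0) (nat_lit 2628097206) (nat_lit 6) (nat_lit 5) (nat_lit 8) (nat_lit 4) (nat_lit 6) (nat_lit 4) (nat_lit 387) (nat_lit 240) (nat_lit 153)) (XT.lf (nat_lit 0) (nat_lit 28216207517)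 (nat_lit 152) (nat_lit 26978483841) (nat_lit 0) (nat_lit 6163400485) (nat_lit 6) (nat_lit 5) (nat_lit 8) (nat_lit 4) (nat_lit 6) (nat_lit 4) (nat_lit 388) (nat_lit 240) (nat_lit 152))))))))
noncomputable def xc59 : XT := (XT.nd (nat_lit 34164) (nat_lit 0) (nat_lit 2432) (XT.nd (nat_lit 858) (nat_lit 76) (nat_lit 0) (XT.nd (nat_lit 390) (nat_lit 0) (nat_lit 0) (XT.nd (nat_lit 156) (nat_lit 76) (nat_lit 0) (XT.nd (nat_lit 78) (nat_lit 0) (nat_lit 0) (XT.lf (nat_lit 0) (nat_lit 31898586584) (nat_lit 152) (nat_lit 21397398391) (nat_lit 0) (nat_lit 9794310216) (nat_lit 6) (nat_lit 5) (nat_lit 8) (nat_lit 4) (nat_lit 6) (nat_lit 4) (nat_lit 389) (nat_lit 240) (nat_lit 151)) (XT.lf (nat_lit 0) (nat_lit 35678245637) (nat_lit 152) (nat_lit 15672623229) (nat_lit 0) (nat_lit 13523999039) (nat_lit 6) (nat_lit 5) (nat_lit 8) (nat_lit 4) (nat_lit 6) (nat_lit 4) (nat_lit 390) (nat_lit 240) (nat_lit 150))) (XT.nd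 (nat_lit 78) (nat_lit 76) (nat_lit 0) (XT.lf (nat_lit 0) (nat_lit 39558487289) (nat_lit 152) (nat_lit 9799156123) (nat_lit 0) (nat_lit 17355725905) (nat_lit 6) (nat_lit 5) (nat_lit 8) (nat_lit 4) (nat_lit 6) (nat_lit 4) (nat_lit 391) (nat_lit 240) (nat_lit 149)) (XT.nd (nat_lit 78) (nat_lit 76) (nat_lit 0) (XT.lf (nat_lit 0) (nat_lit 43542702043) (nat_lit 152) (nat_lit 3771864920) (nat_lit 0) (nat_lit 21292838924) (nat_lit 6) (nat_lit 5) (nat_lit 8) (nat_lit 4) (nat_lit 6) (nat_lit 4) (nat_lit 392) (nat_lit 240) (nat_lit 148)) (XT.lf (nat_lit 0) (nat_lit 2462570568) (nat_lit 76) (nat_lit 45195472417) (nat_lit 76) (nat_lit 22899879460) (nat_lit 5) (nat_lit 4) (nat_lit 6) (nat_lit 5) (nat_lit 6) (nat_lit 4) (nat_lit 393) (nat_lit 240) (nat_lit 147))))) (XT.nd (nat_lit 234) (nat_lit 0) (nat_lit 0) (XT.nd (nat_lit 78) (nat_lit 0) (nat_lit 0) (XT.lf (nat_lit 0) (nat_lit 8939843603) (nat_lit 76) (nat_lit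 42983161802) (nat_lit 76) (nat_lit 20643170943) (nat_lit 5) (nat_lit 4) (nat_lit 6) (nat_lit 5) (nat_lit 6) (nat_lit 4) (nat_lit 394) (nat_lit 240) (nat_lit 146)) (XT.nd (nat_lit 78) (nat_lit 0) (nat_lit 0) (XT.lf (nat_lit 0) (nat_lit 15590546428) (nat_lit 76) (nat_lit 40713790470) (nat_lit 76) (nat_lit 18330694851) (nat_lit 5) (nat_lit 4) (nat_lit 6) (nat_lit 5) (nat_lit 6) (nat_lit 4) (nat_lit 395) (nat_lit 240) (nat_lit 145)) (XT.lf (nat_lit 0) (nat_lit 22420490338) (nat_lit 76) (nat_lit 38385375475) (nat_lit 76) (nat_lit 15960430576) (nat_lit 5) (nat_lit 4) (nat_lit 6) (nat_lit 5) (nat_lit 6) (nat_lit 4) (nat_lit 396) (nat_lit 240) (nat_lit 144)))) (XT.nd (nat_lit 78) (nat_lit 0) (nat_lit 0) (XT.lf (nat_lit 0) (nat_lit 29435643245) (nat_lit 76) (nat_lit 35995882280) (nat_lit 76) (nat_lit 13530307011) (nat_lit 5) (nat_lit 4) (nat_lit 6) (nat_lit 5) (nat_lit 6) (nat_lit 4) (nat_lit 397) (nat_lit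 240) (nat_lit 143)) (XT.nd (nat_lit 78) (nat_lit 0) (nat_lit 0) (XT.lf (nat_lit 0) (nat_lit 36642134894) (nat_lit 76) (nat_lit 33543222979) (nat_lit 76) (nat_lit 11038200749) (nat_lit 5) (nat_lit 4) (nat_lit 6) (nat_lit 5) (nat_lit 6) (nat_lit 4) (nat_lit 398) (nat_lit 240) (nat_lit 142)) (XT.lf (nat_lit 0) (nat_lit 44046262220) (nat_lit 76) (nat_lit 31025254470) (nat_lit 76) (nat_lit 8481934220) (nat_lit 5) (nat_lit 4) (nat_lit 6) (nat_lit 5) (nat_lit 6) (nat_lit 4) (nat_lit 399) (nat_lit 240) (nat_lit 141)))))) (XT.nd (nat_lit 32838) (nat_lit 0) (nat_lit 6308) (XT.nd (nat_lit 234) (nat_lit 76) (nat_lit 0) (XT.nd (nat_lit 78) (nat_lit 0) (nat_lit 0) (XT.lf (nat_lit 0) (nat_lit 51654494847) (nat_lit 76) (nat_lit 28439776587) (nat_lit 76) (nat_lit 5859273793) (nat_lit 5) (nat_lit 4) (nat_lit 6) (nat_lit 5) (nat_lit 6) (nat_lit 4) (nat_lit 400) (nat_lit 240) (nat_lit 140)) (XT.nd (nat_lit 78) (nat_lit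 0) (nat_lit 0) (XT.lf (nat_lit 0) (nat_lit 59473480748) (nat_lit 76) (nat_lit 25784530176) (nat_lit 76) (nat_lit 3167927824) (nat_lit 5) (nat_lit 4) (nat_lit 6) (nat_lit 5) (nat_lit 6) (nat_lit 4) (nat_lit 401) (nat_lit 240) (nat_lit 139)) (XT.lf (nat_lit 0) (nat_lit 67510052044) (nat_lit 76) (nat_lit 23057195117) (nat_lit 76) (nat_lit 405544652) (nat_lit 5) (nat_lit 4) (nat_lit 6) (nat_lit 5) (nat_lit 6) (nat_lit 4) (nat_lit 402) (nat_lit 240) (nat_lit 138)))) (XT.nd (nat_lit 32448) (nat_lit 0) (nat_lit 7980) (XT.lf (nat_lit 0) (nat_lit 2382865756) (nat_lit 152) (nat_lit 17848460273) (nat_lit 76) (nat_lit 73364302955) (nat_lit 4) (nat_lit 5) (nat_lit 6) (nat_lit 5) (nat_lit 5) (nat_lit 4) (nat_lit 403) (nat_lit 240) (nat_lit 137)) (XT.nd (nat_lit 78) (nat_lit 0) (nat_lit 0) (XT.lf (nat_lit 0) (nat_lit 539528597) (nat_lit 456) (nat_lit 3039094640) (nat_lit 0) (nat_lit 539528597) (nat_lit 109) (nat_lit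 5) (nat_lit 115) (nat_lit 4) (nat_lit 109) (nat_lit 4) (nat_lit 298) (nat_lit 241) (nat_lit 241)) (XT.lf (nat_lit 0) (nat_lit 4414525727) (nat_lit 456) (nat_lit 657860367) (nat_lit 0) (nat_lit 3267806312) (nat_lit 109) (nat_lit 5) (nat_lit 115) (nat_lit 4) (nat_lit 109) (nat_lit 4) (nat_lit 299) (nat_lit 241) (nat_lit 240))))) (XT.nd (nat_lit 234) (nat_lit 760) (nat_lit 0) (XT.nd (nat_lit 78) (nat_lit 456) (nat_lit 0) (XT.lf (nat_lit 0) (nat_lit 4912686098) (nat_lit 456) (nat_lit 2897950595) (nat_lit 456) (nat_lit 637911360) (nat_lit 103) (nat_lit 4) (nat_lit 109) (nat_lit 5) (nat_lit 109) (nat_lit 4) (nat_lit 300) (nat_lit 241) (nat_lit 239)) (XT.nd (nat_lit 78) (nat_lit 0) (nat_lit 0) (XT.lf (nat_lit 0) (nat_lit 2007499300) (nat_lit 380) (nat_lit 627196051) (nat_lit 456) (nat_lit 5926628854) (nat_lit 97) (nat_lit 5) (nat_lit 102) (nat_lit 5) (nat_lit 103) (nat_lit 4) (nat_lit 301) (nat_lit 241)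 (nat_lit 238)) (XT.lf (nat_lit 0) (nat_lit 5960263719) (nat_lit 456) (nat_lit 1020360859) (nat_lit 0) (nat_lit 1697794815) (nat_lit 97) (nat_lit 5) (nat_lit 103) (nat_lit 4) (nat_lit 97) (nat_lit 4) (nat_lit 302) (nat_lit 241) (nat_lit 237)))) (XT.nd (nat_lit 78) (nat_lit 304) (nat_lit 0) (XT.lf (nat_lit 0) (nat_lit 543204516) (nat_lit 456) (nat_lit 4148933976) (nat_lit 76) (nat_lit 4107821994) (nat_lit 91) (nat_lit 5) (nat_lit 97) (nat_lit 5) (nat_lit 92) (nat_lit 4) (nat_lit 303) (nat_lit 241) (nat_lit 236)) (XT.nd (nat_lit 78) (nat_lit 0) (nat_lit 0) (XT.lf (nat_lit 0) (nat_lit 1482577603) (nat_lit 304) (nat_lit 2307854024) (nat_lit 380) (nat_lit 5135769422) (nat_lit 87) (nat_lit 5) (nat_lit 91) (nat_lit 5) (nat_lit 92) (nat_lit 4) (nat_lit 304) (nat_lit 241) (nat_lit 235)) (XT.lf (nat_lit 0) (nat_lit 7097918014) (nat_lit 380) (nat_lit 1797941297) (nat_lit 0) (nat_lit 161620516) (nat_lit 87)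 (nat_lit 5) (nat_lit 92) (nat_lit 4) (nat_lit 87) (nat_lit 4) (nat_lit 305) (nat_lit 241) (nat_lit 234))))))) (XT.nd (nat_lit 936) (nat_lit 1520) (nat_lit 0) (XT.nd (nat_lit 468) (nat_lit 912) (nat_lit 0) (XT.nd (nat_lit 234) (nat_lit 684) (nat_lit 0) (XT.nd (nat_lit 78) (nat_lit 304) (nat_lit 0) (XT.lf (nat_lit 0) (nat_lit 1268463098) (nat_lit 456) (nat_lit 5240182354) (nat_lit 76) (nat_lit 2684337688) (nat_lit 81) (nat_lit 5) (nat_lit 87) (nat_lit 5) (nat_lit 82) (nat_lit 4) (nat_lit 306) (nat_lit 241) (nat_lit 233)) (XT.nd (nat_lit 78) (nat_lit 0) (nat_lit 0) (XT.lf (nat_lit 0) (nat_lit 463706235) (nat_lit 304) (nat_lit 4034882739) (nat_lit 380) (nat_lit 4835165874) (nat_lit 77) (nat_lit 5) (nat_lit 81) (nat_lit 5) (nat_lit 82) (nat_lit 4) (nat_lit 307) (nat_lit 241) (nat_lit 232)) (XT.lf (nat_lit 0) (nat_lit 6340500651) (nat_lit 304) (nat_lit 1461146904) (nat_lit 380) (nat_lit 1677942361) (nat_lit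 77) (nat_lit 5) (nat_lit 81) (nat_lit 5) (nat_lit 82) (nat_lit 4) (nat_lit 308) (nat_lit 241) (nat_lit 231)))) (XT.nd (nat_lit 78) (nat_lit 304) (nat_lit 0) (XT.lf (nat_lit 0) (nat_lit 1505276412) (nat_lit 380) (nat_lit 6945385787) (nat_lit 76) (nat_lit 1179938269) (nat_lit 72) (nat_lit 5) (nat_lit 77) (nat_lit 5) (nat_lit 73) (nat_lit 4) (nat_lit 309) (nat_lit 241) (nat_lit 230)) (XT.nd (nat_lit 78) (nat_lit 304) (nat_lit 0) (XT.lf (nat_lit 0) (nat_lit 4722174691) (nat_lit 380) (nat_lit 1173198904) (nat_lit 76) (nat_lit 3891222907) (nat_lit 72) (nat_lit 5) (nat_lit 77) (nat_lit 5) (nat_lit 73) (nat_lit 4) (nat_lit 310) (nat_lit 241) (nat_lit 229)) (XT.lf (nat_lit 0) (nat_lit 4762949684) (nat_lit 304) (nat_lit 3246015226) (nat_lit 380) (nat_lit 1939213533) (nat_lit 68) (nat_lit 5) (nat_lit 72) (nat_lit 5) (nat_lit 73) (nat_lit 4) (nat_lit 311) (nat_lit 241) (nat_lit 228))))) (XT.nd (nat_lit 234)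 (nat_lit 304) (nat_lit 0) (XT.nd (nat_lit 78) (nat_lit 228) (nat_lit 0) (XT.lf (nat_lit 0) (nat_lit 685251890) (nat_lit 304) (nat_lit 516007002) (nat_lit 380) (nat_lit 8914686884) (nat_lit 63) (nat_lit 5) (nat_lit 67) (nat_lit 5) (nat_lit 68) (nat_lit 5) (nat_lit 312) (nat_lit 241) (nat_lit 227)) (XT.nd (nat_lit 78) (nat_lit 228) (nat_lit 0) (XT.lf (nat_lit 0) (nat_lit 4400673436) (nat_lit 380) (nat_lit 3594429834) (nat_lit 76) (nat_lit 2293054175) (nat_lit 63) (nat_lit 5) (nat_lit 68) (nat_lit 5) (nat_lit 64) (nat_lit 4) (nat_lit 313) (nat_lit 241) (nat_lit 226)) (XT.lf (nat_lit 0) (nat_lit 2357223284) (nat_lit 228) (nat_lit 5297445805) (nat_lit 304) (nat_lit 2812203992) (nat_lit 60) (nat_lit 5) (nat_lit 63) (nat_lit 5) (nat_lit 64) (nat_lit 4) (nat_lit 314) (nat_lit 241) (nat_lit 225)))) (XT.nd (nat_lit 78) (nat_lit 228) (nat_lit 0) (XT.lf (nat_lit 0) (nat_lit 316179106) (nat_lit 304) (nat_lit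 2193590595) (nat_lit 76) (nat_lit 8142134753) (nat_lit 59) (nat_lit 5) (nat_lit 63) (nat_lit 5) (nat_lit 60) (nat_lit 5) (nat_lit 315) (nat_lit 241) (nat_lit 224)) (XT.nd (nat_lit 78) (nat_lit 0) (nat_lit 0) (XT.lf (nat_lit 0) (nat_lit 3455836631) (nat_lit 304) (nat_lit 6997354450) (nat_lit 76) (nat_lit 389329483) (nat_lit 56) (nat_lit 5) (nat_lit 60) (nat_lit 5) (nat_lit 57) (nat_lit 4) (nat_lit 316) (nat_lit 241) (nat_lit 223)) (XT.lf (nat_lit 0) (nat_lit 6670744887) (nat_lit 304) (nat_lit 1052123955) (nat_lit 76) (nat_lit 3316639406) (nat_lit 56) (nat_lit 5) (nat_lit 60) (nat_lit 5) (nat_lit 57) (nat_lit 4) (nat_lit 317) (nat_lit 241) (nat_lit 222)))))) (XT.nd (nat_lit 468) (nat_lit 456) (nat_lit 0) (XT.nd (nat_lit 234) (nat_lit 532) (nat_lit 0) (XT.nd (nat_lit 78) (nat_lit 304) (nat_lit 0) (XT.lf (nat_lit 0) (nat_lit 5074448506) (nat_lit 228) (nat_lit 4892199054) (nat_lit 304) (nat_lit 1276304034)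 (nat_lit 53) (nat_lit 5) (nat_lit 56) (nat_lit 5) (nat_lit 57) (nat_lit 4) (nat_lit 318) (nat_lit 241) (nat_lit 221)) (XT.nd (nat_lit 78) (nat_lit 228) (nat_lit 0) (XT.lf (nat_lit 0) (nat_lit 1818428788) (nat_lit 304) (nat_lit 160694072) (nat_lit 76) (nat_lit 9474500109) (nat_lit 52) (nat_lit 5) (nat_lit 56) (nat_lit 5) (nat_lit 53) (nat_lit 5) (nat_lit 319) (nat_lit 241) (nat_lit 220)) (XT.lf (nat_lit 0) (nat_lit 4986499300) (nat_lit 304) (nat_lit 5641730078) (nat_lit 76) (nat_lit 1041897012) (nat_lit 49) (nat_lit 5) (nat_lit 53) (nat_lit 5) (nat_lit 50) (nat_lit 4) (nat_lit 320) (nat_lit 241) (nat_lit 219)))) (XT.nd (nat_lit 78) (nat_lit 304) (nat_lit 0) (XT.lf (nat_lit 0) (nat_lit 407391216) (nat_lit 228) (nat_lit 7805869509) (nat_lit 304) (nat_lit 3681027978) (nat_lit 46) (nat_lit 5) (nat_lit 49) (nat_lit 5) (nat_lit 50) (nat_lit 4) (nat_lit 321) (nat_lit 241) (nat_lit 218)) (XT.nd (nat_lit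 78) (nat_lit 304) (nat_lit 0) (XT.lf (nat_lit 0) (nat_lit 6660236477) (nat_lit 228) (nat_lit 4872951082) (nat_lit 304) (nat_lit 592168570) (nat_lit 46) (nat_lit 5) (nat_lit 49) (nat_lit 5) (nat_lit 50) (nat_lit 4) (nat_lit 322) (nat_lit 241) (nat_lit 217)) (XT.lf (nat_lit 0) (nat_lit 632839725) (nat_lit 228) (nat_lit 1852579593) (nat_lit 304) (nat_lit 9878858871) (nat_lit 42) (nat_lit 5) (nat_lit 45) (nat_lit 5) (nat_lit 46) (nat_lit 5) (nat_lit 323) (nat_lit 241) (nat_lit 216))))) (XT.nd (nat_lit 234) (nat_lit 304) (nat_lit 0) (XT.nd (nat_lit 78) (nat_lit 152) (nat_lit 0) (XT.lf (nat_lit 0) (nat_lit 5652316297) (nat_lit 304) (nat_lit 5693992585) (nat_lit 76) (nat_lit 1263681718) (nat_lit 42) (nat_lit 5) (nat_lit 46) (nat_lit 5) (nat_lit 43) (nat_lit 4) (nat_lit 324) (nat_lit 241) (nat_lit 215)) (XT.nd (nat_lit 78) (nat_lit 0) (nat_lit 0) (XT.lf (nat_lit 0) (nat_lit 424674860) (nat_lit 152) (nat_lit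 8454740335) (nat_lit 228) (nat_lit 3984766527) (nat_lit 40) (nat_lit 5) (nat_lit 42) (nat_lit 5) (nat_lit 43) (nat_lit 4) (nat_lit 325) (nat_lit 241) (nat_lit 214)) (XT.lf (nat_lit 0) (nat_lit 6754658070) (nat_lit 152) (nat_lit 5449749244) (nat_lit 228) (nat_lit 921620204) (nat_lit 40) (nat_lit 5) (nat_lit 42) (nat_lit 5) (nat_lit 43) (nat_lit 4) (nat_lit 326) (nat_lit 241) (nat_lit 213)))) (XT.nd (nat_lit 78) (nat_lit 228) (nat_lit 0) (XT.lf (nat_lit 0) (nat_lit 2134463040) (nat_lit 228) (nat_lit 230191120) (nat_lit 76) (nat_lit 11032149548) (nat_lit 39) (nat_lit 5) (nat_lit 42) (nat_lit 5) (nat_lit 40) (nat_lit 5) (nat_lit 327) (nat_lit 241) (nat_lit 212)) (XT.nd (nat_lit 78) (nat_lit 0) (nat_lit 0) (XT.lf (nat_lit 0) (nat_lit 5276964789) (nat_lit 304) (nat_lit 7562974295) (nat_lit 76) (nat_lit 835148703) (nat_lit 36) (nat_lit 5) (nat_lit 40) (nat_lit 5) (nat_lit 37) (nat_lit 4) (nat_lit 328)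 (nat_lit 241) (nat_lit 211)) (XT.lf (nat_lit 0) (nat_lit 8486196577) (nat_lit 304) (nat_lit 1421176908) (nat_lit 76) (nat_lit 4055227761) (nat_lit 36) (nat_lit 5) (nat_lit 40) (nat_lit 5) (nat_lit 37) (nat_lit 4) (nat_lit 329) (nat_lit 241) (nat_lit 210))))))))
noncomputable def xc60 : XT := (XT.nd (nat_lit 1794) (nat_lit 532) (nat_lit 0) (XT.nd (nat_lit 858) (nat_lit 608) (nat_lit 0) (XT.nd (nat_lit 390) (nat_lit 380) (nat_lit 0) (XT.nd (nat_lit 156) (nat_lit 304) (nat_lit 0) (XT.nd (nat_lit 78) (nat_lit 76) (nat_lit 0) (XT.lf (nat_lit 0) (nat_lit 4917832462) (nat_lit 152) (nat_lit 6869393717) (nat_lit 228) (nat_lit 2471701225) (nat_lit 34) (nat_lit 5) (nat_lit 36) (nat_lit 5) (nat_lit 37) (nat_lit 4) (nat_lit 330) (nat_lit 241) (nat_lit 209)) (XT.lf (nat_lit 0) (nat_lit 573885978) (nat_lit 228) (nat_lit 3176969502) (nat_lit 76) (nat_lit 10814270973) (nat_lit 33) (nat_lit 5) (nat_lit 36) (nat_lit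 5) (nat_lit 34) (nat_lit 5) (nat_lit 331) (nat_lit 241) (nat_lit 208))) (XT.nd (nat_lit 78) (nat_lit 152) (nat_lit 0) (XT.lf (nat_lit 0) (nat_lit 3127797925) (nat_lit 152) (nat_lit 513342311) (nat_lit 228) (nat_lit 11239286154) (nat_lit 31) (nat_lit 5) (nat_lit 33) (nat_lit 5) (nat_lit 34) (nat_lit 5) (nat_lit 332) (nat_lit 241) (nat_lit 207)) (XT.nd (nat_lit 78) (nat_lit 152) (nat_lit 0) (XT.lf (nat_lit 0) (nat_lit 6810237545) (nat_lit 228) (nat_lit 5626113242) (nat_lit 76) (nat_lit 2768586793) (nat_lit 31) (nat_lit 5) (nat_lit 34) (nat_lit 5) (nat_lit 32) (nat_lit 4) (nat_lit 333) (nat_lit 241) (nat_lit 206)) (XT.lf (nat_lit 0) (nat_lit 612141649) (nat_lit 152) (nat_lit 9424986980) (nat_lit 228) (nat_lit 5503219499) (nat_lit 29) (nat_lit 5) (nat_lit 31) (nat_lit 5) (nat_lit 32) (nat_lit 4) (nat_lit 334) (nat_lit 241) (nat_lit 205))))) (XT.nd (nat_lit 234) (nat_lit 152) (nat_lit 0) (XT.nd (nat_lit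 78) (nat_lit 228) (nat_lit 0) (XT.lf (nat_lit 0) (nat_lit 7074729422) (nat_lit 152) (nat_lit 6295317767) (nat_lit 228) (nat_lit 2515541502) (nat_lit 29) (nat_lit 5) (nat_lit 31) (nat_lit 5) (nat_lit 32) (nat_lit 4) (nat_lit 335) (nat_lit 241) (nat_lit 204)) (XT.nd (nat_lit 78) (nat_lit 152) (nat_lit 0) (XT.lf (nat_lit 0) (nat_lit 504099272) (nat_lit 228) (nat_lit 2592231511) (nat_lit 76) (nat_lit 13146136626) (nat_lit 28) (nat_lit 5) (nat_lit 31) (nat_lit 5) (nat_lit 29) (nat_lit 5) (nat_lit 336) (nat_lit 241) (nat_lit 203)) (XT.lf (nat_lit 0) (nat_lit 3557065741) (nat_lit 228) (nat_lit 12824497320) (nat_lit 76) (nat_lit 227983904) (nat_lit 26) (nat_lit 5) (nat_lit 29) (nat_lit 5) (nat_lit 27) (nat_lit 4) (nat_lit 337) (nat_lit 241) (nat_lit 202)))) (XT.nd (nat_lit 78) (nat_lit 152) (nat_lit 0) (XT.lf (nat_lit 0) (nat_lit 6713699031) (nat_lit 228) (nat_lit 6685953803) (nat_lit 76) (nat_lit 3587663117)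 (nat_lit 26) (nat_lit 5) (nat_lit 29) (nat_lit 5) (nat_lit 27) (nat_lit 4) (nat_lit 338) (nat_lit 241) (nat_lit 201)) (XT.nd (nat_lit 78) (nat_lit 152) (nat_lit 0) (XT.lf (nat_lit 0) (nat_lit 9921327880) (nat_lit 228) (nat_lit 436042056) (nat_lit 76) (nat_lit 7020397403) (nat_lit 26) (nat_lit 5) (nat_lit 29) (nat_lit 5) (nat_lit 27) (nat_lit 4) (nat_lit 339) (nat_lit 241) (nat_lit 200)) (XT.lf (nat_lit 0) (nat_lit 6048731547) (nat_lit 152) (nat_lit 7192167632) (nat_lit 228) (nat_lit 4538598800) (nat_lit 24) (nat_lit 5) (nat_lit 26) (nat_lit 5) (nat_lit 27) (nat_lit 4) (nat_lit 340) (nat_lit 241) (nat_lit 199)))))) (XT.nd (nat_lit 468) (nat_lit 304) (nat_lit 0) (XT.nd (nat_lit 234) (nat_lit 76) (nat_lit 0) (XT.nd (nat_lit 78) (nat_lit 228) (nat_lit 0) (XT.lf (nat_lit 0) (nat_lit 12667011584) (nat_lit 152) (nat_lit 3955581876) (nat_lit 228) (nat_lit 1571847039) (nat_lit 24) (nat_lit 5) (nat_lit 26)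 (nat_lit 5) (nat_lit 27) (nat_lit 4) (nat_lit 341) (nat_lit 241) (nat_lit 198)) (XT.nd (nat_lit 78) (nat_lit 0) (nat_lit 0) (XT.lf (nat_lit 0) (nat_lit 794458520) (nat_lit 152) (nat_lit 627044550) (nat_lit 228) (nat_lit 17200937699) (nat_lit 21) (nat_lit 5) (nat_lit 23) (nat_lit 5) (nat_lit 24) (nat_lit 5) (nat_lit 342) (nat_lit 241) (nat_lit 197)) (XT.lf (nat_lit 0) (nat_lit 4515550424) (nat_lit 228) (nat_lit 11754439423) (nat_lit 76) (nat_lit 2791582614) (nat_lit 21) (nat_lit 5) (nat_lit 24) (nat_lit 5) (nat_lit 22) (nat_lit 4) (nat_lit 343) (nat_lit 241) (nat_lit 196)))) (XT.nd (nat_lit 78) (nat_lit 76) (nat_lit 0) (XT.lf (nat_lit 0) (nat_lit 7669008337) (nat_lit 228) (nat_lit 5571984651) (nat_lit 76) (nat_lit 6273919459) (nat_lit 21) (nat_lit 5) (nat_lit 24) (nat_lit 5) (nat_lit 22) (nat_lit 4) (nat_lit 344) (nat_lit 241) (nat_lit 195)) (XT.nd (nat_lit 78) (nat_lit 0) (nat_lit 0) (XT.lf (nat_lit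 0) (nat_lit 745356334) (nat_lit 76) (nat_lit 10140413209) (nat_lit 152) (nat_lit 9097053187) (nat_lit 20) (nat_lit 5) (nat_lit 21) (nat_lit 5) (nat_lit 22) (nat_lit 4) (nat_lit 345) (nat_lit 241) (nat_lit 194)) (XT.lf (nat_lit 0) (nat_lit 7301944305) (nat_lit 76) (nat_lit 6915390532) (nat_lit 152) (nat_lit 6246916627) (nat_lit 20) (nat_lit 5) (nat_lit 21) (nat_lit 5) (nat_lit 22) (nat_lit 4) (nat_lit 346) (nat_lit 241) (nat_lit 193))))) (XT.nd (nat_lit 234) (nat_lit 76) (nat_lit 0) (XT.nd (nat_lit 78) (nat_lit 228) (nat_lit 0) (XT.lf (nat_lit 0) (nat_lit 13992614898) (nat_lit 76) (nat_lit 3619373097) (nat_lit 152) (nat_lit 3349270138) (nat_lit 20) (nat_lit 5) (nat_lit 21) (nat_lit 5) (nat_lit 22) (nat_lit 4) (nat_lit 347) (nat_lit 241) (nat_lit 192)) (XT.nd (nat_lit 78) (nat_lit 228) (nat_lit 0) (XT.lf (nat_lit 0) (nat_lit 20823214330) (nat_lit 76) (nat_lit 249480887) (nat_lit 152) (nat_lit 401581798)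 (nat_lit 20) (nat_lit 5) (nat_lit 21) (nat_lit 5) (nat_lit 22) (nat_lit 4) (nat_lit 348) (nat_lit 241) (nat_lit 191)) (XT.lf (nat_lit 0) (nat_lit 2636133005) (nat_lit 228) (nat_lit 16147022985) (nat_lit 76) (nat_lit 3217207391) (nat_lit 17) (nat_lit 5) (nat_lit 20) (nat_lit 5) (nat_lit 18) (nat_lit 4) (nat_lit 349) (nat_lit 241) (nat_lit 190)))) (XT.nd (nat_lit 78) (nat_lit 76) (nat_lit 0) (XT.lf (nat_lit 0) (nat_lit 5731121757) (nat_lit 228) (nat_lit 10042315541) (nat_lit 76) (nat_lit 6769475374) (nat_lit 17) (nat_lit 5) (nat_lit 20) (nat_lit 5) (nat_lit 18) (nat_lit 4) (nat_lit 350) (nat_lit 241) (nat_lit 189)) (XT.nd (nat_lit 78) (nat_lit 76) (nat_lit 0) (XT.lf (nat_lit 0) (nat_lit 8885080795) (nat_lit 228) (nat_lit 3812710462) (nat_lit 76) (nat_lit 10404988839) (nat_lit 17) (nat_lit 5) (nat_lit 20) (nat_lit 5) (nat_lit 18) (nat_lit 4) (nat_lit 351) (nat_lit 241) (nat_lit 188)) (XT.lf (nat_lit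 0) (nat_lit 2597930577) (nat_lit 76) (nat_lit 9527808327) (nat_lit 152) (nat_lit 11553966770) (nat_lit 16) (nat_lit 5) (nat_lit 17) (nat_lit 5) (nat_lit 18) (nat_lit 4) (nat_lit 352) (nat_lit 241) (nat_lit 187))))))) (XT.nd (nat_lit 936) (nat_lit 228) (nat_lit 0) (XT.nd (nat_lit 468) (nat_lit 76) (nat_lit 0) (XT.nd (nat_lit 234) (nat_lit 228) (nat_lit 0) (XT.nd (nat_lit 78) (nat_lit 0) (nat_lit 0) (XT.lf (nat_lit 0) (nat_lit 9223054886) (nat_lit 76) (nat_lit 6246589972) (nat_lit 152) (nat_lit 8804137142) (nat_lit 16) (nat_lit 5) (nat_lit 17) (nat_lit 5) (nat_lit 18) (nat_lit 4) (nat_lit 353) (nat_lit 241) (nat_lit 186)) (XT.nd (nat_lit 78) (nat_lit 0) (nat_lit 0) (XT.lf (nat_lit 0) (nat_lit 15992570992) (nat_lit 76) (nat_lit 2889770010) (nat_lit 152) (nat_lit 6004308554) (nat_lit 16) (nat_lit 5) (nat_lit 17) (nat_lit 5) (nat_lit 18) (nat_lit 4) (nat_lit 354) (nat_lit 241) (nat_lit 185)) (XT.lf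 (nat_lit 0) (nat_lit 22372053798) (nat_lit 152) (nat_lit 2611694343) (nat_lit 0) (nat_lit 534938380) (nat_lit 16) (nat_lit 5) (nat_lit 18) (nat_lit 4) (nat_lit 16) (nat_lit 4) (nat_lit 355) (nat_lit 241) (nat_lit 184)))) (XT.nd (nat_lit 78) (nat_lit 76) (nat_lit 0) (XT.lf (nat_lit 0) (nat_lit 3853803659) (nat_lit 152) (nat_lit 22148386906) (nat_lit 152) (nat_lit 166443855) (nat_lit 14) (nat_lit 4) (nat_lit 16) (nat_lit 5) (nat_lit 16) (nat_lit 4) (nat_lit 356) (nat_lit 241) (nat_lit 183)) (XT.nd (nat_lit 78) (nat_lit 0) (nat_lit 0) (XT.lf (nat_lit 0) (nat_lit 2843273570) (nat_lit 228) (nat_lit 16350707056) (nat_lit 76) (nat_lit 7643380260) (nat_lit 13) (nat_lit 5) (nat_lit 16) (nat_lit 5) (nat_lit 14) (nat_lit 4) (nat_lit 357) (nat_lit 241) (nat_lit 182)) (XT.lf (nat_lit 0) (nat_lit 5910946585) (nat_lit 228) (nat_lit 10259844772) (nat_lit 76) (nat_lit 11356198021) (nat_lit 13) (nat_lit 5) (nat_lit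 16) (nat_lit 5) (nat_lit 14) (nat_lit 4) (nat_lit 358) (nat_lit 241) (nat_lit 181))))) (XT.nd (nat_lit 234) (nat_lit 0) (nat_lit 0) (XT.nd (nat_lit 78) (nat_lit 76) (nat_lit 0) (XT.lf (nat_lit 0) (nat_lit 9042503599) (nat_lit 228) (nat_lit 4035321834) (nat_lit 76) (nat_lit 15160345047) (nat_lit 13) (nat_lit 5) (nat_lit 16) (nat_lit 5) (nat_lit 14) (nat_lit 4) (nat_lit 359) (nat_lit 241) (nat_lit 180)) (XT.nd (nat_lit 78) (nat_lit 0) (nat_lit 0) (XT.lf (nat_lit 0) (nat_lit 2374638408) (nat_lit 76) (nat_lit 9888868994) (nat_lit 152) (nat_lit 16707333418) (nat_lit 12) (nat_lit 5) (nat_lit 13) (nat_lit 5) (nat_lit 14) (nat_lit 4) (nat_lit 360) (nat_lit 241) (nat_lit 179)) (XT.lf (nat_lit 0) (nat_lit 9012448488) (nat_lit 76) (nat_lit 6582457765) (nat_lit 152) (nat_lit 14130190327) (nat_lit 12) (nat_lit 5) (nat_lit 13) (nat_lit 5) (nat_lit 14) (nat_lit 4) (nat_lit 361) (nat_lit 241) (nat_lit 178))))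 (XT.nd (nat_lit 78) (nat_lit 0) (nat_lit 0) (XT.lf (nat_lit 0) (nat_lit 15803597618) (nat_lit 76) (nat_lit 3196451489) (nat_lit 152) (nat_lit 11502734574) (nat_lit 12) (nat_lit 5) (nat_lit 13) (nat_lit 5) (nat_lit 14) (nat_lit 4) (nat_lit 362) (nat_lit 241) (nat_lit 177)) (XT.nd (nat_lit 78) (nat_lit 0) (nat_lit 0) (XT.lf (nat_lit 0) (nat_lit 22484527004) (nat_lit 152) (nat_lit 8553177516) (nat_lit 0) (nat_lit 266798663) (nat_lit 12) (nat_lit 5) (nat_lit 14) (nat_lit 4) (nat_lit 12) (nat_lit 4) (nat_lit 363) (nat_lit 241) (nat_lit 176)) (XT.lf (nat_lit 0) (nat_lit 26080315611) (nat_lit 152) (nat_lit 2298183129) (nat_lit 0) (nat_lit 3751588947) (nat_lit 12) (nat_lit 5) (nat_lit 14) (nat_lit 4) (nat_lit 12) (nat_lit 4) (nat_lit 364) (nat_lit 241) (nat_lit 175)))))) (XT.nd (nat_lit 468) (nat_lit 0) (nat_lit 0) (XT.nd (nat_lit 234) (nat_lit 76) (nat_lit 0) (XT.nd (nat_lit 78) (nat_lit 76) (nat_lit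 0) (XT.lf (nat_lit 0) (nat_lit 4183626493) (nat_lit 76) (nat_lit 25616419716) (nat_lit 76) (nat_lit 3179927692) (nat_lit 11) (nat_lit 4) (nat_lit 12) (nat_lit 5) (nat_lit 12) (nat_lit 4) (nat_lit 365) (nat_lit 241) (nat_lit 174)) (XT.nd (nat_lit 78) (nat_lit 76) (nat_lit 0) (XT.lf (nat_lit 0) (nat_lit 10864945082) (nat_lit 76) (nat_lit 22765782594) (nat_lit 76) (nat_lit 224664005) (nat_lit 11) (nat_lit 4) (nat_lit 12) (nat_lit 5) (nat_lit 12) (nat_lit 4) (nat_lit 366) (nat_lit 241) (nat_lit 173)) (XT.lf (nat_lit 0) (nat_lit 2740845900) (nat_lit 152) (nat_lit 17078780600) (nat_lit 76) (nat_lit 14937349265) (nat_lit 10) (nat_lit 5) (nat_lit 12) (nat_lit 5) (nat_lit 11) (nat_lit 4) (nat_lit 367) (nat_lit 241) (nat_lit 172)))) (XT.nd (nat_lit 78) (nat_lit 76) (nat_lit 0) (XT.lf (nat_lit 0) (nat_lit 5768089247) (nat_lit 152) (nat_lit 11032097176) (nat_lit 76) (nat_lit 18886050118) (nat_lit 10) (nat_lit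 5) (nat_lit 12) (nat_lit 5) (nat_lit 11) (nat_lit 4) (nat_lit 368) (nat_lit 241) (nat_lit 171)) (XT.nd (nat_lit 78) (nat_lit 76) (nat_lit 0) (XT.lf (nat_lit 0) (nat_lit 8864095204) (nat_lit 152) (nat_lit 4842953211) (nat_lit 76) (nat_lit 22937002361) (nat_lit 10) (nat_lit 5) (nat_lit 12) (nat_lit 5) (nat_lit 11) (nat_lit 4) (nat_lit 369) (nat_lit 241) (nat_lit 170)) (XT.lf (nat_lit 0) (nat_lit 1523793995) (nat_lit 76) (nat_lit 10522422664) (nat_lit 152) (nat_lit 25584599307) (nat_lit 9) (nat_lit 5) (nat_lit 10) (nat_lit 5) (nat_lit 11) (nat_lit 4) (nat_lit 370) (nat_lit 241) (nat_lit 169))))) (XT.nd (nat_lit 234) (nat_lit 0) (nat_lit 0) (XT.nd (nat_lit 78) (nat_lit 0) (nat_lit 0) (XT.lf (nat_lit 0) (nat_lit 8143384268) (nat_lit 76) (nat_lit 7208173310) (nat_lit 152) (nat_lit 23294807048) (nat_lit 9) (nat_lit 5) (nat_lit 10) (nat_lit 5) (nat_lit 11) (nat_lit 4) (nat_lit 371) (nat_lit 241) (nat_lit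 168)) (XT.nd (nat_lit 78) (nat_lit 0) (nat_lit 0) (XT.lf (nat_lit 0) (nat_lit 14925217451) (nat_lit 76) (nat_lit 3810308740) (nat_lit 152) (nat_lit 20957482339) (nat_lit 9) (nat_lit 5) (nat_lit 10) (nat_lit 5) (nat_lit 11) (nat_lit 4) (nat_lit 372) (nat_lit 241) (nat_lit 167)) (XT.lf (nat_lit 0) (nat_lit 21875219417) (nat_lit 76) (nat_lit 325859945) (nat_lit 152) (nat_lit 18570582856) (nat_lit 9) (nat_lit 5) (nat_lit 10) (nat_lit 5) (nat_lit 11) (nat_lit 4) (nat_lit 373) (nat_lit 241) (nat_lit 166)))) (XT.nd (nat_lit 78) (nat_lit 0) (nat_lit 0) (XT.lf (nat_lit 0) (nat_lit 25782469102) (nat_lit 152) (nat_lit 12915029078) (nat_lit 0) (nat_lit 3184833310) (nat_lit 9) (nat_lit 5) (nat_lit 11) (nat_lit 4) (nat_lit 9) (nat_lit 4) (nat_lit 374) (nat_lit 241) (nat_lit 165)) (XT.nd (nat_lit 78) (nat_lit 0) (nat_lit 0) (XT.lf (nat_lit 0) (nat_lit 29455597592) (nat_lit 152) (nat_lit 6791096244) (nat_lit 0)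 (nat_lit 6780109811) (nat_lit 9) (nat_lit 5) (nat_lit 11) (nat_lit 4) (nat_lit 9) (nat_lit 4) (nat_lit 375) (nat_lit 241) (nat_lit 164)) (XT.lf (nat_lit 0) (nat_lit 33220541999) (nat_lit 152) (nat_lit 516160926) (nat_lit 0) (nat_lit 10469469762) (nat_lit 9) (nat_lit 5) (nat_lit 11) (nat_lit 4) (nat_lit 9) (nat_lit 4) (nat_lit 376) (nat_lit 241) (nat_lit 163))))))))
noncomputable def xc61 : XT := (XT.nd (nat_lit 1794) (nat_lit 76) (nat_lit 0) (XT.nd (nat_lit 858) (nat_lit 76) (nat_lit 0) (XT.nd (nat_lit 390) (nat_lit 76) (nat_lit 0) (XT.nd (nat_lit 156) (nat_lit 76) (nat_lit 0) (XT.nd (nat_lit 78) (nat_lit 0) (nat_lit 0) (XT.lf (nat_lit 0) (nat_lit 6032985099) (nat_lit 76) (nat_lit 31105599724) (nat_lit 76) (nat_lit 8281144519) (nat_lit 8) (nat_lit 4) (nat_lit 9) (nat_lit 5) (nat_lit 9) (nat_lit 4) (nat_lit 377) (nat_lit 241) (nat_lit 162)) (XT.lf (nat_lit 0) (nat_lit 12757735075) (nat_lit 76) (nat_lit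 28404020772) (nat_lit 76) (nat_lit 5508319968) (nat_lit 8) (nat_lit 4) (nat_lit 9) (nat_lit 5) (nat_lit 9) (nat_lit 4) (nat_lit 378) (nat_lit 241) (nat_lit 161))) (XT.nd (nat_lit 78) (nat_lit 76) (nat_lit 0) (XT.lf (nat_lit 0) (nat_lit 19653692382) (nat_lit 76) (nat_lit 25634817679) (nat_lit 76) (nat_lit 2669946391) (nat_lit 8) (nat_lit 4) (nat_lit 9) (nat_lit 5) (nat_lit 9) (nat_lit 4) (nat_lit 379) (nat_lit 241) (nat_lit 160)) (XT.nd (nat_lit 78) (nat_lit 0) (nat_lit 0) (XT.lf (nat_lit 0) (nat_lit 231842228) (nat_lit 152) (nat_lit 22561387374) (nat_lit 76) (nat_lit 26492699233) (nat_lit 7) (nat_lit 5) (nat_lit 9) (nat_lit 5) (nat_lit 8) (nat_lit 4) (nat_lit 380) (nat_lit 241) (nat_lit 159)) (XT.lf (nat_lit 0) (nat_lit 3150722260) (nat_lit 152) (nat_lit 16701260725) (nat_lit 76) (nat_lit 30800947850) (nat_lit 7) (nat_lit 5) (nat_lit 9) (nat_lit 5) (nat_lit 8) (nat_lit 4) (nat_lit 381) (nat_lit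 241) (nat_lit 158))))) (XT.nd (nat_lit 234) (nat_lit 0) (nat_lit 0) (XT.nd (nat_lit 78) (nat_lit 76) (nat_lit 0) (XT.lf (nat_lit 0) (nat_lit 6141344453) (nat_lit 152) (nat_lit 10693598466) (nat_lit 76) (nat_lit 35226483954) (nat_lit 7) (nat_lit 5) (nat_lit 9) (nat_lit 5) (nat_lit 8) (nat_lit 4) (nat_lit 382) (nat_lit 241) (nat_lit 157)) (XT.nd (nat_lit 78) (nat_lit 76) (nat_lit 0) (XT.lf (nat_lit 0) (nat_lit 9206321971) (nat_lit 152) (nat_lit 4533151185) (nat_lit 76) (nat_lit 39773174521) (nat_lit 7) (nat_lit 5) (nat_lit 9) (nat_lit 5) (nat_lit 8) (nat_lit 4) (nat_lit 383) (nat_lit 241) (nat_lit 156)) (XT.lf (nat_lit 0) (nat_lit 1820998270) (nat_lit 76) (nat_lit 10544839229) (nat_lit 152) (nat_lit 42641498663) (nat_lit 6) (nat_lit 5) (nat_lit 7) (nat_lit 5) (nat_lit 8) (nat_lit 4) (nat_lit 384) (nat_lit 241) (nat_lit 155)))) (XT.nd (nat_lit 78) (nat_lit 0) (nat_lit 0) (XT.lf (nat_lit 0) (nat_lit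 8432313115) (nat_lit 76) (nat_lit 7218866274) (nat_lit 152) (nat_lit 40894763154) (nat_lit 6) (nat_lit 5) (nat_lit 7) (nat_lit 5) (nat_lit 8) (nat_lit 4) (nat_lit 385) (nat_lit 241) (nat_lit 154)) (XT.nd (nat_lit 78) (nat_lit 0) (nat_lit 0) (XT.lf (nat_lit 0) (nat_lit 15216351628) (nat_lit 76) (nat_lit 3804424040) (nat_lit 152) (nat_lit 39110368843) (nat_lit 6) (nat_lit 5) (nat_lit 7) (nat_lit 5) (nat_lit 8) (nat_lit 4) (nat_lit 386) (nat_lit 241) (nat_lit 153)) (XT.lf (nat_lit 0) (nat_lit 22179041611) (nat_lit 76) (nat_lit 298529034) (nat_lit 152) (nat_lit 37286756550) (nat_lit 6) (nat_lit 5) (nat_lit 7) (nat_lit 5) (nat_lit 8) (nat_lit 4) (nat_lit 387) (nat_lit 241) (nat_lit 152)))))) (XT.nd (nat_lit 468) (nat_lit 76) (nat_lit 0) (XT.nd (nat_lit 234) (nat_lit 0) (nat_lit 0) (XT.nd (nat_lit 78) (nat_lit 0) (nat_lit 0) (XT.lf (nat_lit 0) (nat_lit 26056324530) (nat_lit 152) (nat_lit 32152190392)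 (nat_lit 0) (nat_lit 3237450534) (nat_lit 6) (nat_lit 5) (nat_lit 8) (nat_lit 4) (nat_lit 6) (nat_lit 4) (nat_lit 388) (nat_lit 241) (nat_lit 151)) (XT.nd (nat_lit 78) (nat_lit 0) (nat_lit 0) (XT.lf (nat_lit 0) (nat_lit 29732205377) (nat_lit 152) (nat_lit 26582800927) (nat_lit 0) (nat_lit 6863361151) (nat_lit 6) (nat_lit 5) (nat_lit 8) (nat_lit 4) (nat_lit 6) (nat_lit 4) (nat_lit 389) (nat_lit 241) (nat_lit 150)) (XT.lf (nat_lit 0) (nat_lit 33505555478) (nat_lit 152) (nat_lit 20869381091) (nat_lit 0) (nat_lit 10588196466) (nat_lit 6) (nat_lit 5) (nat_lit 8) (nat_lit 4) (nat_lit 6) (nat_lit 4) (nat_lit 390) (nat_lit 241) (nat_lit 149)))) (XT.nd (nat_lit 78) (nat_lit 0) (nat_lit 0) (XT.lf (nat_lit 0) (nat_lit 37379671934) (nat_lit 152) (nat_lit 15006938574) (nat_lit 0) (nat_lit 14415211188) (nat_lit 6) (nat_lit 5) (nat_lit 8) (nat_lit 4) (nat_lit 6) (nat_lit 4) (nat_lit 391) (nat_lit 241) (nat_lit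 148)) (XT.nd (nat_lit 78) (nat_lit 0) (nat_lit 0) (XT.lf (nat_lit 0) (nat_lit 41357939896) (nat_lit 152) (nat_lit 8990350854) (nat_lit 0) (nat_lit 18347749311) (nat_lit 6) (nat_lit 5) (nat_lit 8) (nat_lit 4) (nat_lit 6) (nat_lit 4) (nat_lit 392) (nat_lit 241) (nat_lit 147)) (XT.lf (nat_lit 0) (nat_lit 45443835520) (nat_lit 152) (nat_lit 2814360719) (nat_lit 0) (nat_lit 22389247033) (nat_lit 6) (nat_lit 5) (nat_lit 8) (nat_lit 4) (nat_lit 6) (nat_lit 4) (nat_lit 393) (nat_lit 241) (nat_lit 146))))) (XT.nd (nat_lit 234) (nat_lit 0) (nat_lit 0) (XT.nd (nat_lit 78) (nat_lit 0) (nat_lit 0) (XT.lf (nat_lit 0) (nat_lit 3596611166) (nat_lit 76) (nat_lit 46078890667) (nat_lit 76) (nat_lit 22981197421) (nat_lit 5) (nat_lit 4) (nat_lit 6) (nat_lit 5) (nat_lit 6) (nat_lit 4) (nat_lit 394) (nat_lit 241) (nat_lit 145)) (XT.nd (nat_lit 78) (nat_lit 0) (nat_lit 0) (XT.lf (nat_lit 0) (nat_lit 10237323843) (nat_lit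 76) (nat_lit 43813971294) (nat_lit 76) (nat_lit 20674428767) (nat_lit 5) (nat_lit 4) (nat_lit 6) (nat_lit 5) (nat_lit 6) (nat_lit 4) (nat_lit 395) (nat_lit 241) (nat_lit 144)) (XT.lf (nat_lit 0) (nat_lit 17057568581) (nat_lit 76) (nat_lit 41489878590) (nat_lit 76) (nat_lit 18309705693) (nat_lit 5) (nat_lit 4) (nat_lit 6) (nat_lit 5) (nat_lit 6) (nat_lit 4) (nat_lit 396) (nat_lit 241) (nat_lit 143)))) (XT.nd (nat_lit 78) (nat_lit 0) (nat_lit 0) (XT.lf (nat_lit 0) (nat_lit 24063304815) (nat_lit 76) (nat_lit 39104581794) (nat_lit 76) (nat_lit 15884961936) (nat_lit 5) (nat_lit 4) (nat_lit 6) (nat_lit 5) (nat_lit 6) (nat_lit 4) (nat_lit 397) (nat_lit 241) (nat_lit 142)) (XT.nd (nat_lit 78) (nat_lit 0) (nat_lit 0) (XT.lf (nat_lit 0) (nat_lit 31260654064) (nat_lit 76) (nat_lit 36655996665) (nat_lit 76) (nat_lit 13398078788) (nat_lit 5) (nat_lit 4) (nat_lit 6) (nat_lit 5) (nat_lit 6) (nat_lit 4) (nat_lit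 398) (nat_lit 241) (nat_lit 141)) (XT.lf (nat_lit 0) (nat_lit 38655905272) (nat_lit 76) (nat_lit 34141983665) (nat_lit 76) (nat_lit 10846883243) (nat_lit 5) (nat_lit 4) (nat_lit 6) (nat_lit 5) (nat_lit 6) (nat_lit 4) (nat_lit 399) (nat_lit 241) (nat_lit 140))))))) (XT.nd (nat_lit 33150) (nat_lit 0) (nat_lit 4180) (XT.nd (nat_lit 32682) (nat_lit 0) (nat_lit 6612) (XT.nd (nat_lit 234) (nat_lit 76) (nat_lit 0) (XT.nd (nat_lit 78) (nat_lit 0) (nat_lit 0) (XT.lf (nat_lit 0) (nat_lit 46255520310) (nat_lit 76) (nat_lit 31560346081) (nat_lit 76) (nat_lit 8229146102) (nat_lit 5) (nat_lit 4) (nat_lit 6) (nat_lit 5) (nat_lit 6) (nat_lit 4) (nat_lit 400) (nat_lit 241) (nat_lit 139)) (XT.nd (nat_lit 78) (nat_lit 0) (nat_lit 0) (XT.lf (nat_lit 0) (nat_lit 54066139619) (nat_lit 76) (nat_lit 28908828116) (nat_lit 76) (nat_lit 5542580023) (nat_lit 5) (nat_lit 4) (nat_lit 6) (nat_lit 5) (nat_lit 6) (nat_lit 4) (nat_lit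 401) (nat_lit 241) (nat_lit 138)) (XT.lf (nat_lit 0) (nat_lit 62094588011) (nat_lit 76) (nat_lit 26185112907) (nat_lit 76) (nat_lit 2784837519) (nat_lit 5) (nat_lit 4) (nat_lit 6) (nat_lit 5) (nat_lit 6) (nat_lit 4) (nat_lit 402) (nat_lit 241) (nat_lit 137)))) (XT.nd (nat_lit 32292) (nat_lit 0) (nat_lit 8436) (XT.lf (nat_lit 0) (nat_lit 45583877) (nat_lit 152) (nat_lit 23340776324) (nat_lit 76) (nat_lit 70301836450) (nat_lit 4) (nat_lit 5) (nat_lit 6) (nat_lit 5) (nat_lit 5) (nat_lit 4) (nat_lit 403) (nat_lit 241) (nat_lit 136)) (XT.nd (nat_lit 78) (nat_lit 456) (nat_lit 0) (XT.lf (nat_lit 0) (nat_lit 1875137199) (nat_lit 532) (nat_lit 269318925) (nat_lit 0) (nat_lit 1875137199) (nat_lit 121) (nat_lit 5) (nat_lit 128) (nat_lit 4) (nat_lit 121) (nat_lit 4) (nat_lit 296) (nat_lit 242) (nat_lit 242)) (XT.lf (nat_lit 0) (nat_lit 4858053171) (nat_lit 456) (nat_lit 2247395062) (nat_lit 456) (nat_lit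 1030840435) (nat_lit 115) (nat_lit 4) (nat_lit 121) (nat_lit 5) (nat_lit 121) (nat_lit 4) (nat_lit 297) (nat_lit 242) (nat_lit 241))))) (XT.nd (nat_lit 234) (nat_lit 836) (nat_lit 0) (XT.nd (nat_lit 78) (nat_lit 532) (nat_lit 0) (XT.lf (nat_lit 0) (nat_lit 2103462935) (nat_lit 380) (nat_lit 113846699) (nat_lit 456) (nat_lit 6020365127) (nat_lit 109) (nat_lit 5) (nat_lit 114) (nat_lit 5) (nat_lit 115) (nat_lit 4) (nat_lit 298) (nat_lit 242) (nat_lit 240)) (XT.nd (nat_lit 78) (nat_lit 532) (nat_lit 0) (XT.lf (nat_lit 0) (nat_lit 5509001358) (nat_lit 456) (nat_lit 766116882) (nat_lit 0) (nat_lit 2067841126) (nat_lit 109) (nat_lit 5) (nat_lit 115) (nat_lit 4) (nat_lit 109) (nat_lit 4) (nat_lit 299) (nat_lit 242) (nat_lit 239)) (XT.lf (nat_lit 0) (nat_lit 401429469) (nat_lit 532) (nat_lit 3707151437) (nat_lit 76) (nat_lit 4343986442) (nat_lit 102) (nat_lit 5) (nat_lit 109) (nat_lit 5) (nat_lit 103)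 (nat_lit 4) (nat_lit 300) (nat_lit 242) (nat_lit 238)))) (XT.nd (nat_lit 78) (nat_lit 456) (nat_lit 0) (XT.lf (nat_lit 0) (nat_lit 1773345552) (nat_lit 380) (nat_lit 1844787216) (nat_lit 456) (nat_lit 4948405990) (nat_lit 97) (nat_lit 5) (nat_lit 102) (nat_lit 5) (nat_lit 103) (nat_lit 4) (nat_lit 301) (nat_lit 242) (nat_lit 237)) (XT.nd (nat_lit 78) (nat_lit 456) (nat_lit 0) (XT.lf (nat_lit 0) (nat_lit 6891388710) (nat_lit 456) (nat_lit 1300857812) (nat_lit 0) (nat_lit 493030151) (nat_lit 97) (nat_lit 5) (nat_lit 103) (nat_lit 4) (nat_lit 97) (nat_lit 4) (nat_lit 302) (nat_lit 242) (nat_lit 236)) (XT.lf (nat_lit 0) (nat_lit 1406265764) (nat_lit 456) (nat_lit 4503998514) (nat_lit 76) (nat_lit 2897651213) (nat_lit 91) (nat_lit 5) (nat_lit 97) (nat_lit 5) (nat_lit 92) (nat_lit 4) (nat_lit 303) (nat_lit 242) (nat_lit 235)))))) (XT.nd (nat_lit 468) (nat_lit 988) (nat_lit 0) (XT.nd (nat_lit 234) (nat_lit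 684) (nat_lit 0) (XT.nd (nat_lit 78) (nat_lit 456) (nat_lit 0) (XT.lf (nat_lit 0) (nat_lit 1067780068) (nat_lit 304) (nat_lit 3542508555) (nat_lit 380) (nat_lit 4325230688) (nat_lit 87) (nat_lit 5) (nat_lit 91) (nat_lit 5) (nat_lit 92) (nat_lit 4) (nat_lit 304) (nat_lit 242) (nat_lit 234)) (XT.nd (nat_lit 78) (nat_lit 456) (nat_lit 0) (XT.lf (nat_lit 0) (nat_lit 6795240507) (nat_lit 304) (nat_lit 1082383748) (nat_lit 380) (nat_lit 1190443531) (nat_lit 87) (nat_lit 5) (nat_lit 91) (nat_lit 5) (nat_lit 92) (nat_lit 4) (nat_lit 305) (nat_lit 242) (nat_lit 233)) (XT.lf (nat_lit 0) (nat_lit 1968970480) (nat_lit 456) (nat_lit 5784739127) (nat_lit 76) (nat_lit 1451309206) (nat_lit 81) (nat_lit 5) (nat_lit 87) (nat_lit 5) (nat_lit 82) (nat_lit 4) (nat_lit 306) (nat_lit 242) (nat_lit 232)))) (XT.nd (nat_lit 78) (nat_lit 684) (nat_lit 0) (XT.lf (nat_lit 0) (nat_lit 5157263921) (nat_lit 456) (nat_lit 140917945)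 (nat_lit 76) (nat_lit 4048923272) (nat_lit 81) (nat_lit 5) (nat_lit 87) (nat_lit 5) (nat_lit 82) (nat_lit 4) (nat_lit 307) (nat_lit 242) (nat_lit 231)) (XT.nd (nat_lit 78) (nat_lit 380) (nat_lit 0) (XT.lf (nat_lit 0) (nat_lit 5682553283) (nat_lit 304) (nat_lit 2739615640) (nat_lit 380) (nat_lit 1071973797) (nat_lit 77) (nat_lit 5) (nat_lit 81) (nat_lit 5) (nat_lit 82) (nat_lit 4) (nat_lit 308) (nat_lit 242) (nat_lit 230)) (XT.lf (nat_lit 0) (nat_lit 1954492647) (nat_lit 304) (nat_lit 90111397) (nat_lit 380) (nat_lit 7602073551) (nat_lit 72) (nat_lit 5) (nat_lit 76) (nat_lit 5) (nat_lit 77) (nat_lit 5) (nat_lit 309) (nat_lit 242) (nat_lit 229))))) (XT.nd (nat_lit 234) (nat_lit 608) (nat_lit 0) (XT.nd (nat_lit 78) (nat_lit 380) (nat_lit 0) (XT.lf (nat_lit 0) (nat_lit 5224971392) (nat_lit 380) (nat_lit 1969450187) (nat_lit 76) (nat_lit 2609400971) (nat_lit 72) (nat_lit 5) (nat_lit 77) (nat_lit 5)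 (nat_lit 73) (nat_lit 4) (nat_lit 310) (nat_lit 242) (nat_lit 228)) (XT.nd (nat_lit 78) (nat_lit 76) (nat_lit 0) (XT.lf (nat_lit 0) (nat_lit 3901026430) (nat_lit 304) (nat_lit 4567823900) (nat_lit 380) (nat_lit 1497892948) (nat_lit 68) (nat_lit 5) (nat_lit 72) (nat_lit 5) (nat_lit 73) (nat_lit 4) (nat_lit 311) (nat_lit 242) (nat_lit 227)) (XT.lf (nat_lit 0) (nat_lit 1592911814) (nat_lit 380) (nat_lit 261958464) (nat_lit 76) (nat_lit 8280793240) (nat_lit 67) (nat_lit 5) (nat_lit 72) (nat_lit 5) (nat_lit 68) (nat_lit 5) (nat_lit 312) (nat_lit 242) (nat_lit 226)))) (XT.nd (nat_lit 78) (nat_lit 304) (nat_lit 0) (XT.lf (nat_lit 0) (nat_lit 4742789151) (nat_lit 380) (nat_lit 4603303699) (nat_lit 76) (nat_lit 963315535) (nat_lit 63) (nat_lit 5) (nat_lit 68) (nat_lit 5) (nat_lit 64) (nat_lit 4) (nat_lit 313) (nat_lit 242) (nat_lit 225)) (XT.nd (nat_lit 78) (nat_lit 76) (nat_lit 0) (XT.lf (nat_lit 0) (nat_lit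 1279206006) (nat_lit 228) (nat_lit 6674135087) (nat_lit 304) (nat_lit 2536131954) (nat_lit 60) (nat_lit 5) (nat_lit 63) (nat_lit 5) (nat_lit 64) (nat_lit 4) (nat_lit 314) (nat_lit 242) (nat_lit 224)) (XT.lf (nat_lit 0) (nat_lit 553922414) (nat_lit 304) (nat_lit 3345196073) (nat_lit 76) (nat_lit 6776337652) (nat_lit 59) (nat_lit 5) (nat_lit 63) (nat_lit 5) (nat_lit 60) (nat_lit 5) (nat_lit 315) (nat_lit 242) (nat_lit 223))))))))
noncomputable def xc62 : XT := (XT.nd (nat_lit 1794) (nat_lit 1064) (nat_lit 0) (XT.nd (nat_lit 858) (nat_lit 1064) (nat_lit 0) (XT.nd (nat_lit 390) (nat_lit 684) (nat_lit 0) (XT.nd (nat_lit 156) (nat_lit 532) (nat_lit 0) (XT.nd (nat_lit 78) (nat_lit 0) (nat_lit 0) (XT.lf (nat_lit 0) (nat_lit 2626712299) (nat_lit 228) (nat_lit 1019318262) (nat_lit 304) (nat_lit 7221510004) (nat_lit 56) (nat_lit 5) (nat_lit 59) (nat_lit 5) (nat_lit 60) (nat_lit 5) (nat_lit 316) (nat_lit 242)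 (nat_lit 222)) (XT.lf (nat_lit 0) (nat_lit 6819499357) (nat_lit 304) (nat_lit 2333107694) (nat_lit 76) (nat_lit 1913204995) (nat_lit 56) (nat_lit 5) (nat_lit 60) (nat_lit 5) (nat_lit 57) (nat_lit 4) (nat_lit 317) (nat_lit 242) (nat_lit 221))) (XT.nd (nat_lit 78) (nat_lit 304) (nat_lit 0) (XT.lf (nat_lit 0) (nat_lit 3721126251) (nat_lit 228) (nat_lit 6350547256) (nat_lit 304) (nat_lit 1198933174) (nat_lit 53) (nat_lit 5) (nat_lit 56) (nat_lit 5) (nat_lit 57) (nat_lit 4) (nat_lit 318) (nat_lit 242) (nat_lit 220)) (XT.nd (nat_lit 78) (nat_lit 228) (nat_lit 0) (XT.lf (nat_lit 0) (nat_lit 1863690705) (nat_lit 304) (nat_lit 1588541328) (nat_lit 76) (nat_lit 8029978852) (nat_lit 52) (nat_lit 5) (nat_lit 56) (nat_lit 5) (nat_lit 53) (nat_lit 5) (nat_lit 319) (nat_lit 242) (nat_lit 219)) (XT.lf (nat_lit 0) (nat_lit 4536979252) (nat_lit 228) (nat_lit 440421817) (nat_lit 304) (nat_lit 6722980127) (nat_lit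 49) (nat_lit 5) (nat_lit 52) (nat_lit 5) (nat_lit 53) (nat_lit 5) (nat_lit 320) (nat_lit 242) (nat_lit 218))))) (XT.nd (nat_lit 234) (nat_lit 380) (nat_lit 0) (XT.nd (nat_lit 78) (nat_lit 304) (nat_lit 0) (XT.lf (nat_lit 0) (nat_lit 8166598989) (nat_lit 304) (nat_lit 1163108561) (nat_lit 76) (nat_lit 2595997899) (nat_lit 49) (nat_lit 5) (nat_lit 53) (nat_lit 5) (nat_lit 50) (nat_lit 4) (nat_lit 321) (nat_lit 242) (nat_lit 217)) (XT.nd (nat_lit 78) (nat_lit 76) (nat_lit 0) (XT.lf (nat_lit 0) (nat_lit 5021918986) (nat_lit 228) (nat_lit 6424217325) (nat_lit 304) (nat_lit 711882264) (nat_lit 46) (nat_lit 5) (nat_lit 49) (nat_lit 5) (nat_lit 50) (nat_lit 4) (nat_lit 322) (nat_lit 242) (nat_lit 216)) (XT.lf (nat_lit 0) (nat_lit 2333505193) (nat_lit 304) (nat_lit 1093305284) (nat_lit 76) (nat_lit 8971232836) (nat_lit 45) (nat_lit 5) (nat_lit 49) (nat_lit 5) (nat_lit 46) (nat_lit 5) (nat_lit 323) (nat_lit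 242) (nat_lit 215)))) (XT.nd (nat_lit 78) (nat_lit 152) (nat_lit 0) (XT.lf (nat_lit 0) (nat_lit 5137318988) (nat_lit 228) (nat_lit 311932474) (nat_lit 304) (nat_lit 7196069911) (nat_lit 42) (nat_lit 5) (nat_lit 45) (nat_lit 5) (nat_lit 46) (nat_lit 5) (nat_lit 324) (nat_lit 242) (nat_lit 214)) (XT.nd (nat_lit 78) (nat_lit 152) (nat_lit 0) (XT.lf (nat_lit 0) (nat_lit 8641898845) (nat_lit 304) (nat_lit 1437593580) (nat_lit 76) (nat_lit 2821083836) (nat_lit 42) (nat_lit 5) (nat_lit 46) (nat_lit 5) (nat_lit 43) (nat_lit 4) (nat_lit 325) (nat_lit 242) (nat_lit 213)) (XT.lf (nat_lit 0) (nat_lit 4821229783) (nat_lit 152) (nat_lit 7104584532) (nat_lit 228) (nat_lit 1237869382) (nat_lit 40) (nat_lit 5) (nat_lit 42) (nat_lit 5) (nat_lit 43) (nat_lit 4) (nat_lit 326) (nat_lit 242) (nat_lit 212)))))) (XT.nd (nat_lit 468) (nat_lit 380) (nat_lit 0) (XT.nd (nat_lit 234) (nat_lit 380) (nat_lit 0) (XT.nd (nat_lit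 78) (nat_lit 228) (nat_lit 0) (XT.lf (nat_lit 0) (nat_lit 1797901026) (nat_lit 228) (nat_lit 2240099971) (nat_lit 76) (nat_lit 9397372266) (nat_lit 39) (nat_lit 5) (nat_lit 42) (nat_lit 5) (nat_lit 40) (nat_lit 5) (nat_lit 327) (nat_lit 242) (nat_lit 211)) (XT.nd (nat_lit 78) (nat_lit 0) (nat_lit 0) (XT.lf (nat_lit 0) (nat_lit 4029182948) (nat_lit 228) (nat_lit 857216006) (nat_lit 304) (nat_lit 8828905353) (nat_lit 36) (nat_lit 5) (nat_lit 39) (nat_lit 5) (nat_lit 40) (nat_lit 5) (nat_lit 328) (nat_lit 242) (nat_lit 210)) (XT.lf (nat_lit 0) (nat_lit 8061896888) (nat_lit 304) (nat_lit 3576973821) (nat_lit 76) (nat_lit 2364985143) (nat_lit 36) (nat_lit 5) (nat_lit 40) (nat_lit 5) (nat_lit 37) (nat_lit 4) (nat_lit 329) (nat_lit 242) (nat_lit 209)))) (XT.nd (nat_lit 78) (nat_lit 228) (nat_lit 0) (XT.lf (nat_lit 0) (nat_lit 2678641913) (nat_lit 152) (nat_lit 8638008874) (nat_lit 228) (nat_lit 2984944802)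 (nat_lit 34) (nat_lit 5) (nat_lit 36) (nat_lit 5) (nat_lit 37) (nat_lit 4) (nat_lit 330) (nat_lit 242) (nat_lit 208)) (XT.nd (nat_lit 78) (nat_lit 152) (nat_lit 0) (XT.lf (nat_lit 0) (nat_lit 45983680) (nat_lit 228) (nat_lit 5493719299) (nat_lit 76) (nat_lit 9069003743) (nat_lit 33) (nat_lit 5) (nat_lit 36) (nat_lit 5) (nat_lit 34) (nat_lit 5) (nat_lit 331) (nat_lit 242) (nat_lit 207)) (XT.lf (nat_lit 0) (nat_lit 725506028) (nat_lit 152) (nat_lit 2340684318) (nat_lit 228) (nat_lit 11859250902) (nat_lit 31) (nat_lit 5) (nat_lit 33) (nat_lit 5) (nat_lit 34) (nat_lit 5) (nat_lit 332) (nat_lit 242) (nat_lit 206))))) (XT.nd (nat_lit 234) (nat_lit 228) (nat_lit 0) (XT.nd (nat_lit 78) (nat_lit 152) (nat_lit 0) (XT.lf (nat_lit 0) (nat_lit 6193955614) (nat_lit 228) (nat_lit 8094730468) (nat_lit 76) (nat_lit 962528805) (nat_lit 31) (nat_lit 5) (nat_lit 34) (nat_lit 5) (nat_lit 32) (nat_lit 4) (nat_lit 333)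 (nat_lit 242) (nat_lit 205)) (XT.nd (nat_lit 78) (nat_lit 152) (nat_lit 0) (XT.lf (nat_lit 0) (nat_lit 9391888135) (nat_lit 228) (nat_lit 1906164354) (nat_lit 76) (nat_lit 4289463536) (nat_lit 31) (nat_lit 5) (nat_lit 34) (nat_lit 5) (nat_lit 32) (nat_lit 4) (nat_lit 334) (nat_lit 242) (nat_lit 204)) (XT.lf (nat_lit 0) (nat_lit 4481113357) (nat_lit 152) (nat_lit 8202243976) (nat_lit 228) (nat_lit 3250663932) (nat_lit 29) (nat_lit 5) (nat_lit 31) (nat_lit 5) (nat_lit 32) (nat_lit 4) (nat_lit 335) (nat_lit 242) (nat_lit 203)))) (XT.nd (nat_lit 78) (nat_lit 228) (nat_lit 0) (XT.lf (nat_lit 0) (nat_lit 11025425148) (nat_lit 152) (nat_lit 5022533985) (nat_lit 228) (nat_lit 243772648) (nat_lit 29) (nat_lit 5) (nat_lit 31) (nat_lit 5) (nat_lit 32) (nat_lit 4) (nat_lit 336) (nat_lit 242) (nat_lit 202)) (XT.nd (nat_lit 78) (nat_lit 0) (nat_lit 0) (XT.lf (nat_lit 0) (nat_lit 1026057954) (nat_lit 152) (nat_lit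 1737427478) (nat_lit 228) (nat_lit 13896929561) (nat_lit 26) (nat_lit 5) (nat_lit 28) (nat_lit 5) (nat_lit 29) (nat_lit 5) (nat_lit 337) (nat_lit 242) (nat_lit 201)) (XT.lf (nat_lit 0) (nat_lit 5881888719) (nat_lit 228) (nat_lit 9514968501) (nat_lit 76) (nat_lit 1642492491) (nat_lit 26) (nat_lit 5) (nat_lit 29) (nat_lit 5) (nat_lit 27) (nat_lit 4) (nat_lit 338) (nat_lit 242) (nat_lit 200))))))) (XT.nd (nat_lit 936) (nat_lit 380) (nat_lit 0) (XT.nd (nat_lit 468) (nat_lit 304) (nat_lit 0) (XT.nd (nat_lit 234) (nat_lit 228) (nat_lit 0) (XT.nd (nat_lit 78) (nat_lit 152) (nat_lit 0) (XT.lf (nat_lit 0) (nat_lit 9068615832) (nat_lit 228) (nat_lit 3299868594) (nat_lit 76) (nat_lit 5061962010) (nat_lit 26) (nat_lit 5) (nat_lit 29) (nat_lit 5) (nat_lit 27) (nat_lit 4) (nat_lit 339) (nat_lit 242) (nat_lit 199)) (XT.nd (nat_lit 78) (nat_lit 0) (nat_lit 0) (XT.lf (nat_lit 0) (nat_lit 3093438699) (nat_lit 152)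 (nat_lit 9246047402) (nat_lit 228) (nat_lit 5494169757) (nat_lit 24) (nat_lit 5) (nat_lit 26) (nat_lit 5) (nat_lit 27) (nat_lit 4) (nat_lit 340) (nat_lit 242) (nat_lit 198)) (XT.lf (nat_lit 0) (nat_lit 9678252186) (nat_lit 152) (nat_lit 6022904604) (nat_lit 228) (nat_lit 2548059530) (nat_lit 24) (nat_lit 5) (nat_lit 26) (nat_lit 5) (nat_lit 27) (nat_lit 4) (nat_lit 341) (nat_lit 242) (nat_lit 197)))) (XT.nd (nat_lit 78) (nat_lit 152) (nat_lit 0) (XT.lf (nat_lit 0) (nat_lit 437053915) (nat_lit 228) (nat_lit 2288094595) (nat_lit 76) (nat_lit 15953184427) (nat_lit 23) (nat_lit 5) (nat_lit 26) (nat_lit 5) (nat_lit 24) (nat_lit 5) (nat_lit 342) (nat_lit 242) (nat_lit 196)) (XT.nd (nat_lit 78) (nat_lit 0) (nat_lit 0) (XT.lf (nat_lit 0) (nat_lit 3468761749) (nat_lit 228) (nat_lit 14951752163) (nat_lit 76) (nat_lit 698836674) (nat_lit 21) (nat_lit 5) (nat_lit 24) (nat_lit 5) (nat_lit 22) (nat_lit 4) (nat_lit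 343) (nat_lit 242) (nat_lit 195)) (XT.lf (nat_lit 0) (nat_lit 6603271256) (nat_lit 228) (nat_lit 8801382128) (nat_lit 76) (nat_lit 4168620953) (nat_lit 21) (nat_lit 5) (nat_lit 24) (nat_lit 5) (nat_lit 22) (nat_lit 4) (nat_lit 344) (nat_lit 242) (nat_lit 194))))) (XT.nd (nat_lit 234) (nat_lit 228) (nat_lit 0) (XT.nd (nat_lit 78) (nat_lit 76) (nat_lit 0) (XT.lf (nat_lit 0) (nat_lit 9794471130) (nat_lit 228) (nat_lit 2529735959) (nat_lit 76) (nat_lit 7717759238) (nat_lit 21) (nat_lit 5) (nat_lit 24) (nat_lit 5) (nat_lit 22) (nat_lit 4) (nat_lit 345) (nat_lit 242) (nat_lit 193)) (XT.nd (nat_lit 78) (nat_lit 0) (nat_lit 0) (XT.lf (nat_lit 0) (nat_lit 3945660469) (nat_lit 76) (nat_lit 9137417432) (nat_lit 152) (nat_lit 7441620349) (nat_lit 20) (nat_lit 5) (nat_lit 21) (nat_lit 5) (nat_lit 22) (nat_lit 4) (nat_lit 346) (nat_lit 242) (nat_lit 192)) (XT.lf (nat_lit 0) (nat_lit 10606384620) (nat_lit 76)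 (nat_lit 5853718099) (nat_lit 152) (nat_lit 4562145064) (nat_lit 20) (nat_lit 5) (nat_lit 21) (nat_lit 5) (nat_lit 22) (nat_lit 4) (nat_lit 347) (nat_lit 242) (nat_lit 191)))) (XT.nd (nat_lit 78) (nat_lit 228) (nat_lit 0) (XT.lf (nat_lit 0) (nat_lit 17407909836) (nat_lit 76) (nat_lit 2495785213) (nat_lit 152) (nat_lit 1632098668) (nat_lit 20) (nat_lit 5) (nat_lit 21) (nat_lit 5) (nat_lit 22) (nat_lit 4) (nat_lit 348) (nat_lit 242) (nat_lit 190)) (XT.nd (nat_lit 78) (nat_lit 0) (nat_lit 0) (XT.lf (nat_lit 0) (nat_lit 1356421099) (nat_lit 228) (nat_lit 19751372379) (nat_lit 76) (nat_lit 956650488) (nat_lit 17) (nat_lit 5) (nat_lit 20) (nat_lit 5) (nat_lit 18) (nat_lit 4) (nat_lit 349) (nat_lit 242) (nat_lit 189)) (XT.lf (nat_lit 0) (nat_lit 4434720503) (nat_lit 228) (nat_lit 13675356359) (nat_lit 76) (nat_lit 4497429526) (nat_lit 17) (nat_lit 5) (nat_lit 20) (nat_lit 5) (nat_lit 18) (nat_lit 4) (nat_lit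 350) (nat_lit 242) (nat_lit 188)))))) (XT.nd (nat_lit 468) (nat_lit 304) (nat_lit 0) (XT.nd (nat_lit 234) (nat_lit 0) (nat_lit 0) (XT.nd (nat_lit 78) (nat_lit 76) (nat_lit 0) (XT.lf (nat_lit 0) (nat_lit 7572476291) (nat_lit 228) (nat_lit 7473607030) (nat_lit 76) (nat_lit 8121788677) (nat_lit 17) (nat_lit 5) (nat_lit 20) (nat_lit 5) (nat_lit 18) (nat_lit 4) (nat_lit 351) (nat_lit 242) (nat_lit 187)) (XT.nd (nat_lit 78) (nat_lit 76) (nat_lit 0) (XT.lf (nat_lit 0) (nat_lit 10772430191) (nat_lit 228) (nat_lit 1140705391) (nat_lit 76) (nat_lit 11832894857) (nat_lit 17) (nat_lit 5) (nat_lit 20) (nat_lit 5) (nat_lit 18) (nat_lit 4) (nat_lit 352) (nat_lit 242) (nat_lit 186)) (XT.lf (nat_lit 0) (nat_lit 5434937366) (nat_lit 76) (nat_lit 8654684856) (nat_lit 152) (nat_lit 10251297354) (nat_lit 16) (nat_lit 5) (nat_lit 17) (nat_lit 5) (nat_lit 18) (nat_lit 4) (nat_lit 353) (nat_lit 242) (nat_lit 185)))) (XT.nd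 (nat_lit 78) (nat_lit 0) (nat_lit 0) (XT.lf (nat_lit 0) (nat_lit 12178454174) (nat_lit 76) (nat_lit 5308786001) (nat_lit 152) (nat_lit 7467010364) (nat_lit 16) (nat_lit 5) (nat_lit 17) (nat_lit 5) (nat_lit 18) (nat_lit 4) (nat_lit 354) (nat_lit 242) (nat_lit 184)) (XT.nd (nat_lit 78) (nat_lit 0) (nat_lit 0) (XT.lf (nat_lit 0) (nat_lit 19073035153) (nat_lit 76) (nat_lit 1884034304) (nat_lit 152) (nat_lit 4629825294) (nat_lit 16) (nat_lit 5) (nat_lit 17) (nat_lit 5) (nat_lit 18) (nat_lit 4) (nat_lit 355) (nat_lit 242) (nat_lit 183)) (XT.lf (nat_lit 0) (nat_lit 24517739022) (nat_lit 152) (nat_lit 130297379) (nat_lit 0) (nat_lit 1590900692) (nat_lit 16) (nat_lit 5) (nat_lit 18) (nat_lit 4) (nat_lit 16) (nat_lit 4) (nat_lit 356) (nat_lit 242) (nat_lit 182))))) (XT.nd (nat_lit 234) (nat_lit 76) (nat_lit 0) (XT.nd (nat_lit 78) (nat_lit 0) (nat_lit 0) (XT.lf (nat_lit 0) (nat_lit 1303287063) (nat_lit 228)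 (nat_lit 20417679527) (nat_lit 76) (nat_lit 5187622290) (nat_lit 13) (nat_lit 5) (nat_lit 16) (nat_lit 5) (nat_lit 14) (nat_lit 4) (nat_lit 357) (nat_lit 242) (nat_lit 181)) (XT.nd (nat_lit 78) (nat_lit 0) (nat_lit 0) (XT.lf (nat_lit 0) (nat_lit 4357094959) (nat_lit 228) (nat_lit 14350987299) (nat_lit 76) (nat_lit 8890560609) (nat_lit 13) (nat_lit 5) (nat_lit 16) (nat_lit 5) (nat_lit 14) (nat_lit 4) (nat_lit 358) (nat_lit 242) (nat_lit 180)) (XT.lf (nat_lit 0) (nat_lit 7475190693) (nat_lit 228) (nat_lit 8149930436) (nat_lit 76) (nat_lit 12685115943) (nat_lit 13) (nat_lit 5) (nat_lit 16) (nat_lit 5) (nat_lit 14) (nat_lit 4) (nat_lit 359) (nat_lit 242) (nat_lit 179)))) (XT.nd (nat_lit 78) (nat_lit 76) (nat_lit 0) (XT.lf (nat_lit 0) (nat_lit 10660298815) (nat_lit 228) (nat_lit 1809090538) (nat_lit 76) (nat_lit 16574603924) (nat_lit 13) (nat_lit 5) (nat_lit 16) (nat_lit 5) (nat_lit 14) (nat_lit 4)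 (nat_lit 360) (nat_lit 242) (nat_lit 178)) (XT.nd (nat_lit 78) (nat_lit 0) (nat_lit 0) (XT.lf (nat_lit 0) (nat_lit 4770155854) (nat_lit 76) (nat_lit 9190900230) (nat_lit 152) (nat_lit 15838120935) (nat_lit 12) (nat_lit 5) (nat_lit 13) (nat_lit 5) (nat_lit 14) (nat_lit 4) (nat_lit 361) (nat_lit 242) (nat_lit 177)) (XT.lf (nat_lit 0) (nat_lit 11539402811) (nat_lit 76) (nat_lit 5814266611) (nat_lit 152) (nat_lit 13223579060) (nat_lit 12) (nat_lit 5) (nat_lit 13) (nat_lit 5) (nat_lit 14) (nat_lit 4) (nat_lit 362) (nat_lit 242) (nat_lit 176))))))))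
noncomputable def xc63 : XT := (XT.nd (nat_lit 1872) (nat_lit 76) (nat_lit 0) (XT.nd (nat_lit 936) (nat_lit 228) (nat_lit 0) (XT.nd (nat_lit 468) (nat_lit 76) (nat_lit 0) (XT.nd (nat_lit 234) (nat_lit 152) (nat_lit 0) (XT.nd (nat_lit 78) (nat_lit 0) (nat_lit 0) (XT.lf (nat_lit 0) (nat_lit 18468560758) (nat_lit 76) (nat_lit 2354806309) (nat_lit 152) (nat_lit 10556052556) (nat_lit 12) (nat_lit 5) (nat_lit 13) (nat_lit 5) (nat_lit 14) (nat_lit 4) (nat_lit 363) (nat_lit 242) (nat_lit 175)) (XT.nd (nat_lit 78) (nat_lit 0) (nat_lit 0) (XT.lf (nat_lit 0) (nat_lit 24384624641) (nat_lit 152) (nat_lit 6654150914) (nat_lit 0) (nat_lit 1167272495) (nat_lit 12) (nat_lit 5) (nat_lit 14) (nat_lit 4) (nat_lit 12) (nat_lit 4) (nat_lit 364) (nat_lit 242) (nat_lit 174)) (XT.lf (nat_lit 0) (nat_lit 28052590931) (nat_lit 152) (nat_lit 274291800) (nat_lit 0) (nat_lit 4730612220) (nat_lit 12) (nat_lit 5) (nat_lit 14)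 (nat_lit 4) (nat_lit 12) (nat_lit 4) (nat_lit 365) (nat_lit 242) (nat_lit 173)))) (XT.nd (nat_lit 78) (nat_lit 76) (nat_lit 0) (XT.lf (nat_lit 0) (nat_lit 6381454102) (nat_lit 76) (nat_lit 25487723454) (nat_lit 76) (nat_lit 2064165554) (nat_lit 11) (nat_lit 4) (nat_lit 12) (nat_lit 5) (nat_lit 12) (nat_lit 4) (nat_lit 366) (nat_lit 242) (nat_lit 172)) (XT.nd (nat_lit 78) (nat_lit 0) (nat_lit 0) (XT.lf (nat_lit 0) (nat_lit 926049340) (nat_lit 152) (nat_lit 21642298309) (nat_lit 76) (nat_lit 12267452826) (nat_lit 10) (nat_lit 5) (nat_lit 12) (nat_lit 5) (nat_lit 11) (nat_lit 4) (nat_lit 367) (nat_lit 242) (nat_lit 171)) (XT.lf (nat_lit 0) (nat_lit 3942428308) (nat_lit 152) (nat_lit 15614797132) (nat_lit 76) (nat_lit 16208168637) (nat_lit 10) (nat_lit 5) (nat_lit 12) (nat_lit 5) (nat_lit 11) (nat_lit 4) (nat_lit 368) (nat_lit 242) (nat_lit 170))))) (XT.nd (nat_lit 234) (nat_lit 0) (nat_lit 0) (XT.nd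 (nat_lit 78) (nat_lit 76) (nat_lit 0) (XT.lf (nat_lit 0) (nat_lit 7027886324) (nat_lit 152) (nat_lit 9444276707) (nat_lit 76) (nat_lit 20251368412) (nat_lit 10) (nat_lit 5) (nat_lit 12) (nat_lit 5) (nat_lit 11) (nat_lit 4) (nat_lit 369) (nat_lit 242) (nat_lit 169)) (XT.nd (nat_lit 78) (nat_lit 76) (nat_lit 0) (XT.lf (nat_lit 0) (nat_lit 10185119419) (nat_lit 152) (nat_lit 3125345317) (nat_lit 76) (nat_lit 24400585045) (nat_lit 10) (nat_lit 5) (nat_lit 12) (nat_lit 5) (nat_lit 11) (nat_lit 4) (nat_lit 370) (nat_lit 242) (nat_lit 168)) (XT.lf (nat_lit 0) (nat_lit 3414140613) (nat_lit 76) (nat_lit 10035564535) (nat_lit 152) (nat_lit 25278122258) (nat_lit 9) (nat_lit 5) (nat_lit 10) (nat_lit 5) (nat_lit 11) (nat_lit 4) (nat_lit 371) (nat_lit 242) (nat_lit 167)))) (XT.nd (nat_lit 78) (nat_lit 0) (nat_lit 0) (XT.lf (nat_lit 0) (nat_lit 10178591425) (nat_lit 76) (nat_lit 6645262385) (nat_lit 152) (nat_lit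 22950918222) (nat_lit 9) (nat_lit 5) (nat_lit 10) (nat_lit 5) (nat_lit 11) (nat_lit 4) (nat_lit 372) (nat_lit 242) (nat_lit 166)) (XT.nd (nat_lit 78) (nat_lit 0) (nat_lit 0) (XT.lf (nat_lit 0) (nat_lit 17111717304) (nat_lit 76) (nat_lit 3168155745) (nat_lit 152) (nat_lit 20573844637) (nat_lit 9) (nat_lit 5) (nat_lit 10) (nat_lit 5) (nat_lit 11) (nat_lit 4) (nat_lit 373) (nat_lit 242) (nat_lit 165)) (XT.lf (nat_lit 0) (nat_lit 23824616136) (nat_lit 152) (nat_lit 17749864263) (nat_lit 0) (nat_lit 391011731) (nat_lit 9) (nat_lit 5) (nat_lit 11) (nat_lit 4) (nat_lit 9) (nat_lit 4) (nat_lit 374) (nat_lit 242) (nat_lit 164)))))) (XT.nd (nat_lit 468) (nat_lit 152) (nat_lit 0) (XT.nd (nat_lit 234) (nat_lit 0) (nat_lit 0) (XT.nd (nat_lit 78) (nat_lit 76) (nat_lit 0) (XT.lf (nat_lit 0) (nat_lit 27488691455) (nat_lit 152) (nat_lit 11642047440) (nat_lit 0) (nat_lit 3979502594) (nat_lit 9) (nat_lit 5) (nat_lit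 11) (nat_lit 4) (nat_lit 9) (nat_lit 4) (nat_lit 375) (nat_lit 242) (nat_lit 163)) (XT.nd (nat_lit 78) (nat_lit 76) (nat_lit 0) (XT.lf (nat_lit 0) (nat_lit 31244846375) (nat_lit 152) (nat_lit 5382758733) (nat_lit 0) (nat_lit 7662274547) (nat_lit 9) (nat_lit 5) (nat_lit 11) (nat_lit 4) (nat_lit 9) (nat_lit 4) (nat_lit 376) (nat_lit 242) (nat_lit 162)) (XT.lf (nat_lit 0) (nat_lit 1054039240) (nat_lit 76) (nat_lit 34052455802) (nat_lit 76) (nat_lit 10398638375) (nat_lit 8) (nat_lit 4) (nat_lit 9) (nat_lit 5) (nat_lit 9) (nat_lit 4) (nat_lit 377) (nat_lit 242) (nat_lit 161)))) (XT.nd (nat_lit 78) (nat_lit 0) (nat_lit 0) (XT.lf (nat_lit 0) (nat_lit 7763747261) (nat_lit 76) (nat_lit 31357489278) (nat_lit 76) (nat_lit 7634501366) (nat_lit 8) (nat_lit 4) (nat_lit 9) (nat_lit 5) (nat_lit 9) (nat_lit 4) (nat_lit 378) (nat_lit 242) (nat_lit 160)) (XT.nd (nat_lit 78) (nat_lit 0) (nat_lit 0) (XT.lf (nat_lit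 0) (nat_lit 14645100728) (nat_lit 76) (nat_lit 28594706018) (nat_lit 76) (nat_lit 4804562296) (nat_lit 8) (nat_lit 4) (nat_lit 9) (nat_lit 5) (nat_lit 9) (nat_lit 4) (nat_lit 379) (nat_lit 242) (nat_lit 159)) (XT.lf (nat_lit 0) (nat_lit 21704112475) (nat_lit 76) (nat_lit 25761691941) (nat_lit 76) (nat_lit 1906348403) (nat_lit 8) (nat_lit 4) (nat_lit 9) (nat_lit 5) (nat_lit 9) (nat_lit 4) (nat_lit 380) (nat_lit 242) (nat_lit 158))))) (XT.nd (nat_lit 234) (nat_lit 76) (nat_lit 0) (XT.nd (nat_lit 78) (nat_lit 0) (nat_lit 0) (XT.lf (nat_lit 0) (nat_lit 1041936159) (nat_lit 152) (nat_lit 21803513926) (nat_lit 76) (nat_lit 27894492897) (nat_lit 7) (nat_lit 5) (nat_lit 9) (nat_lit 5) (nat_lit 8) (nat_lit 4) (nat_lit 381) (nat_lit 242) (nat_lit 157)) (XT.nd (nat_lit 78) (nat_lit 0) (nat_lit 0) (XT.lf (nat_lit 0) (nat_lit 4024990204) (nat_lit 152) (nat_lit 15809371295) (nat_lit 76) (nat_lit 32314308991)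 (nat_lit 7) (nat_lit 5) (nat_lit 9) (nat_lit 5) (nat_lit 8) (nat_lit 4) (nat_lit 382) (nat_lit 242) (nat_lit 156)) (XT.lf (nat_lit 0) (nat_lit 7082620005) (nat_lit 152) (nat_lit 9662049865) (nat_lit 76) (nat_lit 36855446149) (nat_lit 7) (nat_lit 5) (nat_lit 9) (nat_lit 5) (nat_lit 8) (nat_lit 4) (nat_lit 383) (nat_lit 242) (nat_lit 155)))) (XT.nd (nat_lit 78) (nat_lit 76) (nat_lit 0) (XT.lf (nat_lit 0) (nat_lit 10217497279) (nat_lit 152) (nat_lit 3356178190) (nat_lit 76) (nat_lit 41521872354) (nat_lit 7) (nat_lit 5) (nat_lit 9) (nat_lit 5) (nat_lit 8) (nat_lit 4) (nat_lit 384) (nat_lit 242) (nat_lit 154)) (XT.nd (nat_lit 78) (nat_lit 0) (nat_lit 0) (XT.lf (nat_lit 0) (nat_lit 3175723517) (nat_lit 76) (nat_lit 10287164719) (nat_lit 152) (nat_lit 43172468546) (nat_lit 6) (nat_lit 5) (nat_lit 7) (nat_lit 5) (nat_lit 8) (nat_lit 4) (nat_lit 385) (nat_lit 242) (nat_lit 153)) (XT.lf (nat_lit 0) (nat_lit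 9947510954) (nat_lit 76) (nat_lit 6878131595) (nat_lit 152) (nat_lit 41395125392) (nat_lit 6) (nat_lit 5) (nat_lit 7) (nat_lit 5) (nat_lit 8) (nat_lit 4) (nat_lit 386) (nat_lit 242) (nat_lit 152))))))) (XT.nd (nat_lit 936) (nat_lit 0) (nat_lit 0) (XT.nd (nat_lit 468) (nat_lit 76) (nat_lit 0) (XT.nd (nat_lit 234) (nat_lit 0) (nat_lit 0) (XT.nd (nat_lit 78) (nat_lit 0) (nat_lit 0) (XT.lf (nat_lit 0) (nat_lit 16898306687) (nat_lit 76) (nat_lit 3377488153) (nat_lit 152) (nat_lit 39578358882) (nat_lit 6) (nat_lit 5) (nat_lit 7) (nat_lit 5) (nat_lit 8) (nat_lit 4) (nat_lit 387) (nat_lit 242) (nat_lit 151)) (XT.nd (nat_lit 78) (nat_lit 0) (nat_lit 0) (XT.lf (nat_lit 0) (nat_lit 23818453666) (nat_lit 152) (nat_lit 37504850990) (nat_lit 0) (nat_lit 213573884) (nat_lit 6) (nat_lit 5) (nat_lit 8) (nat_lit 4) (nat_lit 6) (nat_lit 4) (nat_lit 388) (nat_lit 242) (nat_lit 150)) (XT.lf (nat_lit 0) (nat_lit 27488025562)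 (nat_lit 152) (nat_lit 31946816851) (nat_lit 0) (nat_lit 3834630993) (nat_lit 6) (nat_lit 5) (nat_lit 8) (nat_lit 4) (nat_lit 6) (nat_lit 4) (nat_lit 389) (nat_lit 242) (nat_lit 149)))) (XT.nd (nat_lit 78) (nat_lit 0) (nat_lit 0) (XT.lf (nat_lit 0) (nat_lit 31255250467) (nat_lit 152) (nat_lit 26244421603) (nat_lit 0) (nat_lit 7554754164) (nat_lit 6) (nat_lit 5) (nat_lit 8) (nat_lit 4) (nat_lit 6) (nat_lit 4) (nat_lit 390) (nat_lit 242) (nat_lit 148)) (XT.nd (nat_lit 78) (nat_lit 0) (nat_lit 0) (XT.lf (nat_lit 0) (nat_lit 35123420131) (nat_lit 152) (nat_lit 20392682571) (nat_lit 0) (nat_lit 11377193989) (nat_lit 6) (nat_lit 5) (nat_lit 8) (nat_lit 4) (nat_lit 6) (nat_lit 4) (nat_lit 391) (nat_lit 242) (nat_lit 147)) (XT.lf (nat_lit 0) (nat_lit 39095914508) (nat_lit 152) (nat_lit 14386486583) (nat_lit 0) (nat_lit 15305290465) (nat_lit 6) (nat_lit 5) (nat_lit 8) (nat_lit 4) (nat_lit 6) (nat_lit 4)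 (nat_lit 392) (nat_lit 242) (nat_lit 146))))) (XT.nd (nat_lit 234) (nat_lit 0) (nat_lit 0) (XT.nd (nat_lit 78) (nat_lit 76) (nat_lit 0) (XT.lf (nat_lit 0) (nat_lit 43176204711) (nat_lit 152) (nat_lit 8220585508) (nat_lit 0) (nat_lit 19342475908) (nat_lit 6) (nat_lit 5) (nat_lit 8) (nat_lit 4) (nat_lit 6) (nat_lit 4) (nat_lit 393) (nat_lit 242) (nat_lit 145)) (XT.nd (nat_lit 78) (nat_lit 76) (nat_lit 0) (XT.lf (nat_lit 0) (nat_lit 47367856040) (nat_lit 152) (nat_lit 1889591664) (nat_lit 0) (nat_lit 23492277956) (nat_lit 6) (nat_lit 5) (nat_lit 8) (nat_lit 4) (nat_lit 6) (nat_lit 4) (nat_lit 394) (nat_lit 242) (nat_lit 144)) (XT.lf (nat_lit 0) (nat_lit 4703815260) (nat_lit 76) (nat_lit 47015931793) (nat_lit 76) (nat_lit 23099723340) (nat_lit 5) (nat_lit 4) (nat_lit 6) (nat_lit 5) (nat_lit 6) (nat_lit 4) (nat_lit 395) (nat_lit 242) (nat_lit 143)))) (XT.nd (nat_lit 78) (nat_lit 0) (nat_lit 0) (XT.lf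 (nat_lit 0) (nat_lit 11514643325) (nat_lit 76) (nat_lit 44696035487) (nat_lit 76) (nat_lit 20740380073) (nat_lit 5) (nat_lit 4) (nat_lit 6) (nat_lit 5) (nat_lit 6) (nat_lit 4) (nat_lit 396) (nat_lit 242) (nat_lit 142)) (XT.nd (nat_lit 78) (nat_lit 0) (nat_lit 0) (XT.lf (nat_lit 0) (nat_lit 18511237159) (nat_lit 76) (nat_lit 42314812864) (nat_lit 76) (nat_lit 18320859430) (nat_lit 5) (nat_lit 4) (nat_lit 6) (nat_lit 5) (nat_lit 6) (nat_lit 4) (nat_lit 397) (nat_lit 242) (nat_lit 141)) (XT.lf (nat_lit 0) (nat_lit 25699710291) (nat_lit 76) (nat_lit 39870183244) (nat_lit 76) (nat_lit 15839047266) (nat_lit 5) (nat_lit 4) (nat_lit 6) (nat_lit 5) (nat_lit 6) (nat_lit 4) (nat_lit 398) (nat_lit 242) (nat_lit 140)))))) (XT.nd (nat_lit 32604) (nat_lit 0) (nat_lit 6992) (XT.nd (nat_lit 234) (nat_lit 0) (nat_lit 0) (XT.nd (nat_lit 78) (nat_lit 0) (nat_lit 0) (XT.lf (nat_lit 0) (nat_lit 33086343910) (nat_lit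 76) (nat_lit 37360010543) (nat_lit 76) (nat_lit 13292775007) (nat_lit 5) (nat_lit 4) (nat_lit 6) (nat_lit 5) (nat_lit 6) (nat_lit 4) (nat_lit 399) (nat_lit 242) (nat_lit 139)) (XT.nd (nat_lit 78) (nat_lit 0) (nat_lit 0) (XT.lf (nat_lit 0) (nat_lit 40677592357) (nat_lit 76) (nat_lit 34782101405) (nat_lit 76) (nat_lit 10679817756) (nat_lit 5) (nat_lit 4) (nat_lit 6) (nat_lit 5) (nat_lit 6) (nat_lit 4) (nat_lit 400) (nat_lit 242) (nat_lit 138)) (XT.lf (nat_lit 0) (nat_lit 48480088761) (nat_lit 76) (nat_lit 32134203290) (nat_lit 76) (nat_lit 7997892345) (nat_lit 5) (nat_lit 4) (nat_lit 6) (nat_lit 5) (nat_lit 6) (nat_lit 4) (nat_lit 401) (nat_lit 242) (nat_lit 137)))) (XT.nd (nat_lit 32214) (nat_lit 0) (nat_lit 8816) (XT.lf (nat_lit 0) (nat_lit 56500650838) (nat_lit 76) (nat_lit 29414002499) (nat_lit 76) (nat_lit 5244655346) (nat_lit 5) (nat_lit 4) (nat_lit 6) (nat_lit 5) (nat_lit 6) (nat_lit 4) (nat_lit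 402) (nat_lit 242) (nat_lit 136)) (XT.nd (nat_lit 78) (nat_lit 532) (nat_lit 0) (XT.lf (nat_lit 0) (nat_lit 2402591073) (nat_lit 532) (nat_lit 762642049) (nat_lit 532) (nat_lit 762642049) (nat_lit 128) (nat_lit 4) (nat_lit 135) (nat_lit 5) (nat_lit 135) (nat_lit 4) (nat_lit 294) (nat_lit 243) (nat_lit 243)) (XT.lf (nat_lit 0) (nat_lit 1705248535) (nat_lit 532) (nat_lit 5788863648) (nat_lit 0) (nat_lit 452197270) (nat_lit 121) (nat_lit 5) (nat_lit 128) (nat_lit 4) (nat_lit 121) (nat_lit 4) (nat_lit 295) (nat_lit 243) (nat_lit 242))))) (XT.nd (nat_lit 234) (nat_lit 912) (nat_lit 0) (XT.nd (nat_lit 78) (nat_lit 912) (nat_lit 0) (XT.lf (nat_lit 0) (nat_lit 4959707838) (nat_lit 532) (nat_lit 590775616) (nat_lit 0) (nat_lit 2490101946) (nat_lit 121) (nat_lit 5) (nat_lit 128) (nat_lit 4) (nat_lit 121) (nat_lit 4) (nat_lit 296) (nat_lit 243) (nat_lit 241)) (XT.nd (nat_lit 78) (nat_lit 380) (nat_lit 0)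 (XT.lf (nat_lit 0) (nat_lit 129866593) (nat_lit 532) (nat_lit 3387097704) (nat_lit 76) (nat_lit 4622073160) (nat_lit 114) (nat_lit 5) (nat_lit 121) (nat_lit 5) (nat_lit 115) (nat_lit 4) (nat_lit 297) (nat_lit 243) (nat_lit 240)) (XT.lf (nat_lit 0) (nat_lit 1930268843) (nat_lit 380) (nat_lit 1383876549) (nat_lit 456) (nat_lit 4927376123) (nat_lit 109) (nat_lit 5) (nat_lit 114) (nat_lit 5) (nat_lit 115) (nat_lit 4) (nat_lit 298) (nat_lit 243) (nat_lit 239)))) (XT.nd (nat_lit 78) (nat_lit 912) (nat_lit 0) (XT.lf (nat_lit 0) (nat_lit 6552189543) (nat_lit 456) (nat_lit 982724504) (nat_lit 0) (nat_lit 813581655) (nat_lit 109) (nat_lit 5) (nat_lit 115) (nat_lit 4) (nat_lit 109) (nat_lit 4) (nat_lit 299) (nat_lit 243) (nat_lit 238)) (XT.nd (nat_lit 78) (nat_lit 380) (nat_lit 0) (XT.lf (nat_lit 0) (nat_lit 1375483727) (nat_lit 532) (nat_lit 3995786628) (nat_lit 76) (nat_lit 3087910126) (nat_lit 102) (nat_lit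 5) (nat_lit 109) (nat_lit 5) (nat_lit 103) (nat_lit 4) (nat_lit 300) (nat_lit 243) (nat_lit 237)) (XT.lf (nat_lit 0) (nat_lit 1427314269) (nat_lit 380) (nat_lit 3121541992) (nat_lit 456) (nat_lit 4025668907) (nat_lit 97) (nat_lit 5) (nat_lit 102) (nat_lit 5) (nat_lit 103) (nat_lit 4) (nat_lit 301) (nat_lit 243) (nat_lit 236))))))))
noncomputable def xc64 : XT := (XT.nd (nat_lit 1794) (nat_lit 1672) (nat_lit 0) (XT.nd (nat_lit 858) (nat_lit 1900) (nat_lit 0) (XT.nd (nat_lit 390) (nat_lit 1064) (nat_lit 0) (XT.nd (nat_lit 156) (nat_lit 760) (nat_lit 0) (XT.nd (nat_lit 78) (nat_lit 456) (nat_lit 0) (XT.lf (nat_lit 0) (nat_lit 6993218948) (nat_lit 380) (nat_lit 784738259) (nat_lit 456) (nat_lit 916701744) (nat_lit 97) (nat_lit 5) (nat_lit 102) (nat_lit 5) (nat_lit 103) (nat_lit 4) (nat_lit 302) (nat_lit 243) (nat_lit 235)) (XT.lf (nat_lit 0) (nat_lit 2215608412) (nat_lit 456) (nat_lit 4974541757) (nat_lit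 76) (nat_lit 1628483562) (nat_lit 91) (nat_lit 5) (nat_lit 97) (nat_lit 5) (nat_lit 92) (nat_lit 4) (nat_lit 303) (nat_lit 243) (nat_lit 234))) (XT.nd (nat_lit 78) (nat_lit 456) (nat_lit 0) (XT.lf (nat_lit 0) (nat_lit 536739552) (nat_lit 304) (nat_lit 4839712310) (nat_lit 380) (nat_lit 3571146246) (nat_lit 87) (nat_lit 5) (nat_lit 91) (nat_lit 5) (nat_lit 92) (nat_lit 4) (nat_lit 304) (nat_lit 243) (nat_lit 233)) (XT.nd (nat_lit 78) (nat_lit 456) (nat_lit 0) (XT.lf (nat_lit 0) (nat_lit 6214556749) (nat_lit 304) (nat_lit 2391787795) (nat_lit 380) (nat_lit 474988605) (nat_lit 87) (nat_lit 5) (nat_lit 91) (nat_lit 5) (nat_lit 92) (nat_lit 4) (nat_lit 305) (nat_lit 243) (nat_lit 232)) (XT.lf (nat_lit 0) (nat_lit 2614621820) (nat_lit 456) (nat_lit 6449200825) (nat_lit 76) (nat_lit 155990127) (nat_lit 81) (nat_lit 5) (nat_lit 87) (nat_lit 5) (nat_lit 82) (nat_lit 4) (nat_lit 306) (nat_lit 243) (nat_lit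 231))))) (XT.nd (nat_lit 234) (nat_lit 380) (nat_lit 0) (XT.nd (nat_lit 78) (nat_lit 684) (nat_lit 0) (XT.lf (nat_lit 0) (nat_lit 5766628847) (nat_lit 456) (nat_lit 854912486) (nat_lit 76) (nat_lit 2741504263) (nat_lit 81) (nat_lit 5) (nat_lit 87) (nat_lit 5) (nat_lit 82) (nat_lit 4) (nat_lit 307) (nat_lit 243) (nat_lit 230)) (XT.nd (nat_lit 78) (nat_lit 380) (nat_lit 0) (XT.lf (nat_lit 0) (nat_lit 4905301624) (nat_lit 304) (nat_lit 4083531278) (nat_lit 380) (nat_lit 522587524) (nat_lit 77) (nat_lit 5) (nat_lit 81) (nat_lit 5) (nat_lit 82) (nat_lit 4) (nat_lit 308) (nat_lit 243) (nat_lit 229)) (XT.lf (nat_lit 0) (nat_lit 1089432425) (nat_lit 304) (nat_lit 1450464037) (nat_lit 380) (nat_lit 7125254601) (nat_lit 72) (nat_lit 5) (nat_lit 76) (nat_lit 5) (nat_lit 77) (nat_lit 5) (nat_lit 309) (nat_lit 243) (nat_lit 228)))) (XT.nd (nat_lit 78) (nat_lit 380) (nat_lit 0) (XT.lf (nat_lit 0) (nat_lit 5672561321)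 (nat_lit 380) (nat_lit 2888760079) (nat_lit 76) (nat_lit 1262457142) (nat_lit 72) (nat_lit 5) (nat_lit 77) (nat_lit 5) (nat_lit 73) (nat_lit 4) (nat_lit 310) (nat_lit 243) (nat_lit 227)) (XT.nd (nat_lit 78) (nat_lit 76) (nat_lit 0) (XT.lf (nat_lit 0) (nat_lit 2915046673) (nat_lit 304) (nat_lit 5958298321) (nat_lit 380) (nat_lit 1114697085) (nat_lit 68) (nat_lit 5) (nat_lit 72) (nat_lit 5) (nat_lit 73) (nat_lit 4) (nat_lit 311) (nat_lit 243) (nat_lit 226)) (XT.lf (nat_lit 0) (nat_lit 1935165244) (nat_lit 380) (nat_lit 1320598485) (nat_lit 76) (nat_lit 6902139113) (nat_lit 67) (nat_lit 5) (nat_lit 72) (nat_lit 5) (nat_lit 68) (nat_lit 5) (nat_lit 312) (nat_lit 243) (nat_lit 225)))))) (XT.nd (nat_lit 468) (nat_lit 836) (nat_lit 0) (XT.nd (nat_lit 234) (nat_lit 456) (nat_lit 0) (XT.nd (nat_lit 78) (nat_lit 304) (nat_lit 0) (XT.lf (nat_lit 0) (nat_lit 4588912732) (nat_lit 304) (nat_lit 443362743) (nat_lit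 380) (nat_lit 5301000960) (nat_lit 63) (nat_lit 5) (nat_lit 67) (nat_lit 5) (nat_lit 68) (nat_lit 5) (nat_lit 313) (nat_lit 243) (nat_lit 224)) (XT.nd (nat_lit 78) (nat_lit 76) (nat_lit 0) (XT.lf (nat_lit 0) (nat_lit 72147591) (nat_lit 228) (nat_lit 8122697347) (nat_lit 304) (nat_lit 2319980014) (nat_lit 60) (nat_lit 5) (nat_lit 63) (nat_lit 5) (nat_lit 64) (nat_lit 4) (nat_lit 314) (nat_lit 243) (nat_lit 223)) (XT.lf (nat_lit 0) (nat_lit 733874344) (nat_lit 304) (nat_lit 4626610840) (nat_lit 76) (nat_lit 5341261823) (nat_lit 59) (nat_lit 5) (nat_lit 63) (nat_lit 5) (nat_lit 60) (nat_lit 5) (nat_lit 315) (nat_lit 243) (nat_lit 222)))) (XT.nd (nat_lit 78) (nat_lit 228) (nat_lit 0) (XT.lf (nat_lit 0) (nat_lit 1273328269) (nat_lit 228) (nat_lit 2508594076) (nat_lit 304) (nat_lit 7113271505) (nat_lit 56) (nat_lit 5) (nat_lit 59) (nat_lit 5) (nat_lit 60) (nat_lit 5) (nat_lit 316) (nat_lit 243) (nat_lit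 221)) (XT.nd (nat_lit 78) (nat_lit 228) (nat_lit 0) (XT.lf (nat_lit 0) (nat_lit 6910355750) (nat_lit 304) (nat_lit 3745759505) (nat_lit 76) (nat_lit 438740572) (nat_lit 56) (nat_lit 5) (nat_lit 60) (nat_lit 5) (nat_lit 57) (nat_lit 4) (nat_lit 317) (nat_lit 243) (nat_lit 220)) (XT.lf (nat_lit 0) (nat_lit 2234879872) (nat_lit 228) (nat_lit 7883538500) (nat_lit 304) (nat_lit 1182593717) (nat_lit 53) (nat_lit 5) (nat_lit 56) (nat_lit 5) (nat_lit 57) (nat_lit 4) (nat_lit 318) (nat_lit 243) (nat_lit 219))))) (XT.nd (nat_lit 234) (nat_lit 532) (nat_lit 0) (XT.nd (nat_lit 78) (nat_lit 228) (nat_lit 0) (XT.lf (nat_lit 0) (nat_lit 1850003398) (nat_lit 304) (nat_lit 3150132877) (nat_lit 76) (nat_lit 6513402629) (nat_lit 52) (nat_lit 5) (nat_lit 56) (nat_lit 5) (nat_lit 53) (nat_lit 5) (nat_lit 319) (nat_lit 243) (nat_lit 218)) (XT.nd (nat_lit 78) (nat_lit 0) (nat_lit 0) (XT.lf (nat_lit 0) (nat_lit 2899965317)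 (nat_lit 228) (nat_lit 2019169823) (nat_lit 304) (nat_lit 6813946469) (nat_lit 49) (nat_lit 5) (nat_lit 52) (nat_lit 5) (nat_lit 53) (nat_lit 5) (nat_lit 320) (nat_lit 243) (nat_lit 217)) (XT.lf (nat_lit 0) (nat_lit 8064600072) (nat_lit 304) (nat_lit 2861444925) (nat_lit 76) (nat_lit 1033706868) (nat_lit 49) (nat_lit 5) (nat_lit 53) (nat_lit 5) (nat_lit 50) (nat_lit 4) (nat_lit 321) (nat_lit 243) (nat_lit 216)))) (XT.nd (nat_lit 78) (nat_lit 304) (nat_lit 0) (XT.lf (nat_lit 0) (nat_lit 3246413881) (nat_lit 228) (nat_lit 8052930935) (nat_lit 304) (nat_lit 894096974) (nat_lit 46) (nat_lit 5) (nat_lit 49) (nat_lit 5) (nat_lit 50) (nat_lit 4) (nat_lit 322) (nat_lit 243) (nat_lit 215)) (XT.nd (nat_lit 78) (nat_lit 228) (nat_lit 0) (XT.lf (nat_lit 0) (nat_lit 2127221647) (nat_lit 304) (nat_lit 2945168312) (nat_lit 76) (nat_lit 7361988980) (nat_lit 45) (nat_lit 5) (nat_lit 49) (nat_lit 5) (nat_lit 46)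 (nat_lit 5) (nat_lit 323) (nat_lit 243) (nat_lit 214)) (XT.lf (nat_lit 0) (nat_lit 3206332482) (nat_lit 228) (nat_lit 1991253708) (nat_lit 304) (nat_lit 7485462481) (nat_lit 42) (nat_lit 5) (nat_lit 45) (nat_lit 5) (nat_lit 46) (nat_lit 5) (nat_lit 324) (nat_lit 243) (nat_lit 213))))))) (XT.nd (nat_lit 936) (nat_lit 684) (nat_lit 0) (XT.nd (nat_lit 468) (nat_lit 380) (nat_lit 0) (XT.nd (nat_lit 234) (nat_lit 380) (nat_lit 0) (XT.nd (nat_lit 78) (nat_lit 228) (nat_lit 0) (XT.lf (nat_lit 0) (nat_lit 8347517322) (nat_lit 304) (nat_lit 3431883353) (nat_lit 76) (nat_lit 1160213713) (nat_lit 42) (nat_lit 5) (nat_lit 46) (nat_lit 5) (nat_lit 43) (nat_lit 4) (nat_lit 325) (nat_lit 243) (nat_lit 212)) (XT.nd (nat_lit 78) (nat_lit 76) (nat_lit 0) (XT.lf (nat_lit 0) (nat_lit 2745940107) (nat_lit 152) (nat_lit 8839744132) (nat_lit 228) (nat_lit 1618438529) (nat_lit 40) (nat_lit 5) (nat_lit 42) (nat_lit 5)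 (nat_lit 43) (nat_lit 4) (nat_lit 326) (nat_lit 243) (nat_lit 211)) (XT.lf (nat_lit 0) (nat_lit 1399045536) (nat_lit 228) (nat_lit 4392815469) (nat_lit 76) (nat_lit 7684859305) (nat_lit 39) (nat_lit 5) (nat_lit 42) (nat_lit 5) (nat_lit 40) (nat_lit 5) (nat_lit 327) (nat_lit 243) (nat_lit 210)))) (XT.nd (nat_lit 78) (nat_lit 152) (nat_lit 0) (XT.lf (nat_lit 0) (nat_lit 1793377656) (nat_lit 228) (nat_lit 2647710173) (nat_lit 304) (nat_lit 9316983263) (nat_lit 36) (nat_lit 5) (nat_lit 39) (nat_lit 5) (nat_lit 40) (nat_lit 5) (nat_lit 328) (nat_lit 243) (nat_lit 209)) (XT.nd (nat_lit 78) (nat_lit 152) (nat_lit 0) (XT.lf (nat_lit 0) (nat_lit 7574623204) (nat_lit 304) (nat_lit 5878033536) (nat_lit 76) (nat_lit 595250082) (nat_lit 36) (nat_lit 5) (nat_lit 40) (nat_lit 5) (nat_lit 37) (nat_lit 4) (nat_lit 329) (nat_lit 243) (nat_lit 208)) (XT.lf (nat_lit 0) (nat_lit 292476840) (nat_lit 152) (nat_lit 10489932661)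 (nat_lit 228) (nat_lit 3564670660) (nat_lit 34) (nat_lit 5) (nat_lit 36) (nat_lit 5) (nat_lit 37) (nat_lit 4) (nat_lit 330) (nat_lit 243) (nat_lit 207))))) (XT.nd (nat_lit 234) (nat_lit 152) (nat_lit 0) (XT.nd (nat_lit 78) (nat_lit 228) (nat_lit 0) (XT.lf (nat_lit 0) (nat_lit 6691121882) (nat_lit 152) (nat_lit 7406558651) (nat_lit 228) (nat_lit 557259061) (nat_lit 34) (nat_lit 5) (nat_lit 36) (nat_lit 5) (nat_lit 37) (nat_lit 4) (nat_lit 331) (nat_lit 243) (nat_lit 206)) (XT.nd (nat_lit 78) (nat_lit 152) (nat_lit 0) (XT.lf (nat_lit 0) (nat_lit 2443590163) (nat_lit 228) (nat_lit 1790931480) (nat_lit 76) (nat_lit 10738242612) (nat_lit 33) (nat_lit 5) (nat_lit 36) (nat_lit 5) (nat_lit 34) (nat_lit 5) (nat_lit 332) (nat_lit 243) (nat_lit 205)) (XT.lf (nat_lit 0) (nat_lit 4576952966) (nat_lit 152) (nat_lit 944470288) (nat_lit 228) (nat_lit 9778634437) (nat_lit 31) (nat_lit 5) (nat_lit 33) (nat_lit 5)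 (nat_lit 34) (nat_lit 5) (nat_lit 333) (nat_lit 243) (nat_lit 204)))) (XT.nd (nat_lit 78) (nat_lit 152) (nat_lit 0) (XT.lf (nat_lit 0) (nat_lit 8687874732) (nat_lit 228) (nat_lit 4562104144) (nat_lit 76) (nat_lit 2387345581) (nat_lit 31) (nat_lit 5) (nat_lit 34) (nat_lit 5) (nat_lit 32) (nat_lit 4) (nat_lit 334) (nat_lit 243) (nat_lit 203)) (XT.nd (nat_lit 78) (nat_lit 0) (nat_lit 0) (XT.lf (nat_lit 0) (nat_lit 1736030058) (nat_lit 152) (nat_lit 10195176727) (nat_lit 228) (nat_lit 4054087606) (nat_lit 29) (nat_lit 5) (nat_lit 31) (nat_lit 5) (nat_lit 32) (nat_lit 4) (nat_lit 335) (nat_lit 243) (nat_lit 202)) (XT.lf (nat_lit 0) (nat_lit 8245113596) (nat_lit 152) (nat_lit 7029240115) (nat_lit 228) (nat_lit 1069314822) (nat_lit 29) (nat_lit 5) (nat_lit 31) (nat_lit 5) (nat_lit 32) (nat_lit 4) (nat_lit 336) (nat_lit 243) (nat_lit 201)))))) (XT.nd (nat_lit 468) (nat_lit 304) (nat_lit 0) (XT.nd (nat_lit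 234) (nat_lit 152) (nat_lit 0) (XT.nd (nat_lit 78) (nat_lit 152) (nat_lit 0) (XT.lf (nat_lit 0) (nat_lit 1923134232) (nat_lit 228) (nat_lit 1852916879) (nat_lit 76) (nat_lit 12937485085) (nat_lit 28) (nat_lit 5) (nat_lit 31) (nat_lit 5) (nat_lit 29) (nat_lit 5) (nat_lit 337) (nat_lit 243) (nat_lit 200)) (XT.nd (nat_lit 78) (nat_lit 0) (nat_lit 0) (XT.lf (nat_lit 0) (nat_lit 4590815200) (nat_lit 152) (nat_lit 395681910) (nat_lit 228) (nat_lit 12107643301) (nat_lit 26) (nat_lit 5) (nat_lit 28) (nat_lit 5) (nat_lit 29) (nat_lit 5) (nat_lit 338) (nat_lit 243) (nat_lit 199)) (XT.lf (nat_lit 0) (nat_lit 8149127740) (nat_lit 228) (nat_lit 6318219669) (nat_lit 76) (nat_lit 3018630372) (nat_lit 26) (nat_lit 5) (nat_lit 29) (nat_lit 5) (nat_lit 27) (nat_lit 4) (nat_lit 339) (nat_lit 243) (nat_lit 198)))) (XT.nd (nat_lit 78) (nat_lit 152) (nat_lit 0) (XT.lf (nat_lit 0) (nat_lit 11370560093) (nat_lit 228)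 (nat_lit 18090004) (nat_lit 76) (nat_lit 6502037479) (nat_lit 26) (nat_lit 5) (nat_lit 29) (nat_lit 5) (nat_lit 27) (nat_lit 4) (nat_lit 340) (nat_lit 243) (nat_lit 197)) (XT.nd (nat_lit 78) (nat_lit 0) (nat_lit 0) (XT.lf (nat_lit 0) (nat_lit 6533871658) (nat_lit 152) (nat_lit 8178741390) (nat_lit 228) (nat_lit 3594240254) (nat_lit 24) (nat_lit 5) (nat_lit 26) (nat_lit 5) (nat_lit 27) (nat_lit 4) (nat_lit 341) (nat_lit 243) (nat_lit 196)) (XT.lf (nat_lit 0) (nat_lit 13218725769) (nat_lit 152) (nat_lit 4898069962) (nat_lit 228) (nat_lit 619885203) (nat_lit 24) (nat_lit 5) (nat_lit 26) (nat_lit 5) (nat_lit 27) (nat_lit 4) (nat_lit 342) (nat_lit 243) (nat_lit 195))))) (XT.nd (nat_lit 234) (nat_lit 76) (nat_lit 0) (XT.nd (nat_lit 78) (nat_lit 0) (nat_lit 0) (XT.lf (nat_lit 0) (nat_lit 854963752) (nat_lit 152) (nat_lit 1511671508) (nat_lit 228) (nat_lit 16812975905) (nat_lit 21) (nat_lit 5) (nat_lit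 23) (nat_lit 5) (nat_lit 24) (nat_lit 5) (nat_lit 343) (nat_lit 243) (nat_lit 194)) (XT.nd (nat_lit 78) (nat_lit 0) (nat_lit 0) (XT.lf (nat_lit 0) (nat_lit 5468217145) (nat_lit 228) (nat_lit 12190896497) (nat_lit 76) (nat_lit 1975423969) (nat_lit 21) (nat_lit 5) (nat_lit 24) (nat_lit 5) (nat_lit 22) (nat_lit 4) (nat_lit 344) (nat_lit 243) (nat_lit 193)) (XT.lf (nat_lit 0) (nat_lit 8641556328) (nat_lit 228) (nat_lit 5949493270) (nat_lit 76) (nat_lit 5512730257) (nat_lit 21) (nat_lit 5) (nat_lit 24) (nat_lit 5) (nat_lit 22) (nat_lit 4) (nat_lit 345) (nat_lit 243) (nat_lit 192)))) (XT.nd (nat_lit 78) (nat_lit 0) (nat_lit 0) (XT.lf (nat_lit 0) (nat_lit 427896840) (nat_lit 76) (nat_lit 11451110887) (nat_lit 152) (nat_lit 8709052726) (nat_lit 20) (nat_lit 5) (nat_lit 21) (nat_lit 5) (nat_lit 22) (nat_lit 4) (nat_lit 346) (nat_lit 243) (nat_lit 191)) (XT.nd (nat_lit 78) (nat_lit 0) (nat_lit 0) (XT.lf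 (nat_lit 0) (nat_lit 7059546774) (nat_lit 76) (nat_lit 8179370878) (nat_lit 152) (nat_lit 5847219385) (nat_lit 20) (nat_lit 5) (nat_lit 21) (nat_lit 5) (nat_lit 22) (nat_lit 4) (nat_lit 347) (nat_lit 243) (nat_lit 190)) (XT.lf (nat_lit 0) (nat_lit 13832844596) (nat_lit 76) (nat_lit 4833048985) (nat_lit 152) (nat_lit 2934301091) (nat_lit 20) (nat_lit 5) (nat_lit 21) (nat_lit 5) (nat_lit 22) (nat_lit 4) (nat_lit 348) (nat_lit 243) (nat_lit 189))))))))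
noncomputable def xc65 : XT := (XT.nd (nat_lit 1794) (nat_lit 304) (nat_lit 0) (XT.nd (nat_lit 858) (nat_lit 228) (nat_lit 0) (XT.nd (nat_lit 390) (nat_lit 228) (nat_lit 0) (XT.nd (nat_lit 156) (nat_lit 76) (nat_lit 0) (XT.nd (nat_lit 78) (nat_lit 152) (nat_lit 0) (XT.lf (nat_lit 0) (nat_lit 31618160) (nat_lit 152) (nat_lit 1377283796) (nat_lit 76) (nat_lit 20721771278) (nat_lit 19) (nat_lit 5) (nat_lit 21) (nat_lit 5) (nat_lit 20) (nat_lit 5) (nat_lit 349) (nat_lit 243) (nat_lit 188)) (XT.lf (nat_lit 0) (nat_lit 3066534613) (nat_lit 228) (nat_lit 17473935575) (nat_lit 76) (nat_lit 2134579045) (nat_lit 17) (nat_lit 5) (nat_lit 20) (nat_lit 5) (nat_lit 18) (nat_lit 4) (nat_lit 350) (nat_lit 243) (nat_lit 187))) (XT.nd (nat_lit 78) (nat_lit 76) (nat_lit 0) (XT.lf (nat_lit 0) (nat_lit 6188559090) (nat_lit 228) (nat_lit 11299230664) (nat_lit 76) (nat_lit 5748108764) (nat_lit 17) (nat_lit 5) (nat_lit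 20) (nat_lit 5) (nat_lit 18) (nat_lit 4) (nat_lit 351) (nat_lit 243) (nat_lit 186)) (XT.nd (nat_lit 78) (nat_lit 76) (nat_lit 0) (XT.lf (nat_lit 0) (nat_lit 9373239873) (nat_lit 228) (nat_lit 4992585742) (nat_lit 76) (nat_lit 9448700932) (nat_lit 17) (nat_lit 5) (nat_lit 20) (nat_lit 5) (nat_lit 18) (nat_lit 4) (nat_lit 352) (nat_lit 243) (nat_lit 185)) (XT.lf (nat_lit 0) (nat_lit 1480397746) (nat_lit 76) (nat_lit 11157192435) (nat_lit 152) (nat_lit 11773421818) (nat_lit 16) (nat_lit 5) (nat_lit 17) (nat_lit 5) (nat_lit 18) (nat_lit 4) (nat_lit 353) (nat_lit 243) (nat_lit 184))))) (XT.nd (nat_lit 234) (nat_lit 228) (nat_lit 0) (XT.nd (nat_lit 78) (nat_lit 0) (nat_lit 0) (XT.lf (nat_lit 0) (nat_lit 8198672518) (nat_lit 76) (nat_lit 7821896596) (nat_lit 152) (nat_lit 9004223758) (nat_lit 16) (nat_lit 5) (nat_lit 17) (nat_lit 5) (nat_lit 18) (nat_lit 4) (nat_lit 354) (nat_lit 243) (nat_lit 183)) (XT.nd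 (nat_lit 78) (nat_lit 0) (nat_lit 0) (XT.lf (nat_lit 0) (nat_lit 15068746665) (nat_lit 76) (nat_lit 4407439090) (nat_lit 152) (nat_lit 6181688135) (nat_lit 16) (nat_lit 5) (nat_lit 17) (nat_lit 5) (nat_lit 18) (nat_lit 4) (nat_lit 355) (nat_lit 243) (nat_lit 182)) (XT.lf (nat_lit 0) (nat_lit 22096623164) (nat_lit 76) (nat_lit 910836410) (nat_lit 152) (nat_lit 3303348654) (nat_lit 16) (nat_lit 5) (nat_lit 17) (nat_lit 5) (nat_lit 18) (nat_lit 4) (nat_lit 356) (nat_lit 243) (nat_lit 181)))) (XT.nd (nat_lit 78) (nat_lit 76) (nat_lit 0) (XT.lf (nat_lit 0) (nat_lit 2323950136) (nat_lit 152) (nat_lit 24341540210) (nat_lit 152) (nat_lit 317235639) (nat_lit 14) (nat_lit 4) (nat_lit 16) (nat_lit 5) (nat_lit 16) (nat_lit 4) (nat_lit 357) (nat_lit 243) (nat_lit 180)) (XT.nd (nat_lit 78) (nat_lit 0) (nat_lit 0) (XT.lf (nat_lit 0) (nat_lit 2729301386) (nat_lit 228) (nat_lit 18612500233) (nat_lit 76) (nat_lit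 6331482940) (nat_lit 13) (nat_lit 5) (nat_lit 16) (nat_lit 5) (nat_lit 14) (nat_lit 4) (nat_lit 358) (nat_lit 243) (nat_lit 179)) (XT.lf (nat_lit 0) (nat_lit 5834327916) (nat_lit 228) (nat_lit 12434225967) (nat_lit 76) (nat_lit 10116725953) (nat_lit 13) (nat_lit 5) (nat_lit 16) (nat_lit 5) (nat_lit 14) (nat_lit 4) (nat_lit 359) (nat_lit 243) (nat_lit 178)))))) (XT.nd (nat_lit 468) (nat_lit 152) (nat_lit 0) (XT.nd (nat_lit 234) (nat_lit 0) (nat_lit 0) (XT.nd (nat_lit 78) (nat_lit 76) (nat_lit 0) (XT.lf (nat_lit 0) (nat_lit 9006747489) (nat_lit 228) (nat_lit 6115505096) (nat_lit 76) (nat_lit 13997172844) (nat_lit 13) (nat_lit 5) (nat_lit 16) (nat_lit 5) (nat_lit 14) (nat_lit 4) (nat_lit 360) (nat_lit 243) (nat_lit 177)) (XT.nd (nat_lit 78) (nat_lit 0) (nat_lit 0) (XT.lf (nat_lit 0) (nat_lit 356133030) (nat_lit 76) (nat_lit 11896622462) (nat_lit 152) (nat_lit 17623504635) (nat_lit 12) (nat_lit 5)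 (nat_lit 13) (nat_lit 5) (nat_lit 14) (nat_lit 4) (nat_lit 361) (nat_lit 243) (nat_lit 176)) (XT.lf (nat_lit 0) (nat_lit 7104115742) (nat_lit 76) (nat_lit 8529088511) (nat_lit 152) (nat_lit 15021500507) (nat_lit 12) (nat_lit 5) (nat_lit 13) (nat_lit 5) (nat_lit 14) (nat_lit 4) (nat_lit 362) (nat_lit 243) (nat_lit 175)))) (XT.nd (nat_lit 78) (nat_lit 0) (nat_lit 0) (XT.lf (nat_lit 0) (nat_lit 14012628790) (nat_lit 76) (nat_lit 5078462837) (nat_lit 152) (nat_lit 12366146572) (nat_lit 12) (nat_lit 5) (nat_lit 13) (nat_lit 5) (nat_lit 14) (nat_lit 4) (nat_lit 363) (nat_lit 243) (nat_lit 174)) (XT.nd (nat_lit 78) (nat_lit 0) (nat_lit 0) (XT.lf (nat_lit 0) (nat_lit 21087708741) (nat_lit 76) (nat_lit 1541730330) (nat_lit 152) (nat_lit 9655122618) (nat_lit 12) (nat_lit 5) (nat_lit 13) (nat_lit 5) (nat_lit 14) (nat_lit 4) (nat_lit 364) (nat_lit 243) (nat_lit 173)) (XT.lf (nat_lit 0) (nat_lit 26271372945)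 (nat_lit 152) (nat_lit 4821895031) (nat_lit 0) (nat_lit 2043529120) (nat_lit 12) (nat_lit 5) (nat_lit 14) (nat_lit 4) (nat_lit 12) (nat_lit 4) (nat_lit 365) (nat_lit 243) (nat_lit 172))))) (XT.nd (nat_lit 234) (nat_lit 0) (nat_lit 0) (XT.nd (nat_lit 78) (nat_lit 76) (nat_lit 0) (XT.lf (nat_lit 0) (nat_lit 1723816746) (nat_lit 76) (nat_lit 28308484978) (nat_lit 76) (nat_lit 3982020581) (nat_lit 11) (nat_lit 4) (nat_lit 12) (nat_lit 5) (nat_lit 12) (nat_lit 4) (nat_lit 366) (nat_lit 243) (nat_lit 171)) (XT.nd (nat_lit 78) (nat_lit 76) (nat_lit 0) (XT.lf (nat_lit 0) (nat_lit 8526256962) (nat_lit 76) (nat_lit 25406668614) (nat_lit 76) (nat_lit 984456090) (nat_lit 11) (nat_lit 4) (nat_lit 12) (nat_lit 5) (nat_lit 12) (nat_lit 4) (nat_lit 367) (nat_lit 243) (nat_lit 170)) (XT.lf (nat_lit 0) (nat_lit 2040585220) (nat_lit 152) (nat_lit 20372783874) (nat_lit 76) (nat_lit 13434213201) (nat_lit 10) (nat_lit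 5) (nat_lit 12) (nat_lit 5) (nat_lit 11) (nat_lit 4) (nat_lit 368) (nat_lit 243) (nat_lit 169)))) (XT.nd (nat_lit 78) (nat_lit 0) (nat_lit 0) (XT.lf (nat_lit 0) (nat_lit 5115802516) (nat_lit 152) (nat_lit 14220344557) (nat_lit 76) (nat_lit 17469886309) (nat_lit 10) (nat_lit 5) (nat_lit 12) (nat_lit 5) (nat_lit 11) (nat_lit 4) (nat_lit 369) (nat_lit 243) (nat_lit 168)) (XT.nd (nat_lit 78) (nat_lit 0) (nat_lit 0) (XT.lf (nat_lit 0) (nat_lit 8263093165) (nat_lit 152) (nat_lit 7918967640) (nat_lit 76) (nat_lit 21611795496) (nat_lit 10) (nat_lit 5) (nat_lit 12) (nat_lit 5) (nat_lit 11) (nat_lit 4) (nat_lit 370) (nat_lit 243) (nat_lit 167)) (XT.lf (nat_lit 0) (nat_lit 11485207226) (nat_lit 152) (nat_lit 1463147067) (nat_lit 76) (nat_lit 25863559908) (nat_lit 10) (nat_lit 5) (nat_lit 12) (nat_lit 5) (nat_lit 11) (nat_lit 4) (nat_lit 371) (nat_lit 243) (nat_lit 166))))))) (XT.nd (nat_lit 936) (nat_lit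 76) (nat_lit 0) (XT.nd (nat_lit 468) (nat_lit 152) (nat_lit 0) (XT.nd (nat_lit 234) (nat_lit 0) (nat_lit 0) (XT.nd (nat_lit 78) (nat_lit 0) (nat_lit 0) (XT.lf (nat_lit 0) (nat_lit 5255308161) (nat_lit 76) (nat_lit 9580169214) (nat_lit 152) (nat_lit 25024103754) (nat_lit 9) (nat_lit 5) (nat_lit 10) (nat_lit 5) (nat_lit 11) (nat_lit 4) (nat_lit 372) (nat_lit 243) (nat_lit 165)) (XT.nd (nat_lit 78) (nat_lit 0) (nat_lit 0) (XT.lf (nat_lit 0) (nat_lit 12172049488) (nat_lit 76) (nat_lit 6110190881) (nat_lit 152) (nat_lit 22656569874) (nat_lit 9) (nat_lit 5) (nat_lit 10) (nat_lit 5) (nat_lit 11) (nat_lit 4) (nat_lit 373) (nat_lit 243) (nat_lit 164)) (XT.lf (nat_lit 0) (nat_lit 19264001173) (nat_lit 76) (nat_lit 2550162189) (nat_lit 152) (nat_lit 20236811534) (nat_lit 9) (nat_lit 5) (nat_lit 10) (nat_lit 5) (nat_lit 11) (nat_lit 4) (nat_lit 374) (nat_lit 243) (nat_lit 163)))) (XT.nd (nat_lit 78) (nat_lit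 0) (nat_lit 0) (XT.lf (nat_lit 0) (nat_lit 25444935475) (nat_lit 152) (nat_lit 16670289792) (nat_lit 0) (nat_lit 1081503525) (nat_lit 9) (nat_lit 5) (nat_lit 11) (nat_lit 4) (nat_lit 9) (nat_lit 4) (nat_lit 375) (nat_lit 243) (nat_lit 162)) (XT.nd (nat_lit 78) (nat_lit 0) (nat_lit 0) (XT.lf (nat_lit 0) (nat_lit 29192556912) (nat_lit 152) (nat_lit 10426191970) (nat_lit 0) (nat_lit 4757879363) (nat_lit 9) (nat_lit 5) (nat_lit 11) (nat_lit 4) (nat_lit 9) (nat_lit 4) (nat_lit 376) (nat_lit 243) (nat_lit 161)) (XT.lf (nat_lit 0) (nat_lit 33035788575) (nat_lit 152) (nat_lit 4024710531) (nat_lit 0) (nat_lit 8531940542) (nat_lit 9) (nat_lit 5) (nat_lit 11) (nat_lit 4) (nat_lit 9) (nat_lit 4) (nat_lit 377) (nat_lit 243) (nat_lit 160))))) (XT.nd (nat_lit 234) (nat_lit 76) (nat_lit 0) (XT.nd (nat_lit 78) (nat_lit 0) (nat_lit 0) (XT.lf (nat_lit 0) (nat_lit 2590294018) (nat_lit 76) (nat_lit 34412594100) (nat_lit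 76) (nat_lit 9841590256) (nat_lit 8) (nat_lit 4) (nat_lit 9) (nat_lit 5) (nat_lit 9) (nat_lit 4) (nat_lit 378) (nat_lit 243) (nat_lit 159)) (XT.nd (nat_lit 78) (nat_lit 0) (nat_lit 0) (XT.lf (nat_lit 0) (nat_lit 9457469000) (nat_lit 76) (nat_lit 31656043688) (nat_lit 76) (nat_lit 7019840028) (nat_lit 8) (nat_lit 4) (nat_lit 9) (nat_lit 5) (nat_lit 9) (nat_lit 4) (nat_lit 379) (nat_lit 243) (nat_lit 158)) (XT.lf (nat_lit 0) (nat_lit 16502715227) (nat_lit 76) (nat_lit 28829080919) (nat_lit 76) (nat_lit 4129576467) (nat_lit 8) (nat_lit 4) (nat_lit 9) (nat_lit 5) (nat_lit 9) (nat_lit 4) (nat_lit 380) (nat_lit 243) (nat_lit 157)))) (XT.nd (nat_lit 78) (nat_lit 76) (nat_lit 0) (XT.lf (nat_lit 0) (nat_lit 23732188739) (nat_lit 76) (nat_lit 25929235631) (nat_lit 76) (nat_lit 1168274100) (nat_lit 8) (nat_lit 4) (nat_lit 9) (nat_lit 5) (nat_lit 9) (nat_lit 4) (nat_lit 381) (nat_lit 243) (nat_lit 156)) (XT.nd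 (nat_lit 78) (nat_lit 0) (nat_lit 0) (XT.lf (nat_lit 0) (nat_lit 1830229463) (nat_lit 152) (nat_lit 21105262788) (nat_lit 76) (nat_lit 29303495360) (nat_lit 7) (nat_lit 5) (nat_lit 9) (nat_lit 5) (nat_lit 8) (nat_lit 4) (nat_lit 382) (nat_lit 243) (nat_lit 155)) (XT.lf (nat_lit 0) (nat_lit 4880725559) (nat_lit 152) (nat_lit 14970684904) (nat_lit 76) (nat_lit 33839240859) (nat_lit 7) (nat_lit 5) (nat_lit 9) (nat_lit 5) (nat_lit 8) (nat_lit 4) (nat_lit 383) (nat_lit 243) (nat_lit 154)))))) (XT.nd (nat_lit 468) (nat_lit 0) (nat_lit 0) (XT.nd (nat_lit 234) (nat_lit 0) (nat_lit 0) (XT.nd (nat_lit 78) (nat_lit 76) (nat_lit 0) (XT.lf (nat_lit 0) (nat_lit 8008676906) (nat_lit 152) (nat_lit 8677185604) (nat_lit 76) (nat_lit 38500432444) (nat_lit 7) (nat_lit 5) (nat_lit 9) (nat_lit 5) (nat_lit 8) (nat_lit 4) (nat_lit 384) (nat_lit 243) (nat_lit 153)) (XT.nd (nat_lit 78) (nat_lit 76) (nat_lit 0) (XT.lf (nat_lit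 0) (nat_lit 11216816664) (nat_lit 152) (nat_lit 2219265714) (nat_lit 76) (nat_lit 43291143001) (nat_lit 7) (nat_lit 5) (nat_lit 9) (nat_lit 5) (nat_lit 8) (nat_lit 4) (nat_lit 385) (nat_lit 243) (nat_lit 152)) (XT.lf (nat_lit 0) (nat_lit 4496459733) (nat_lit 76) (nat_lit 10054711052) (nat_lit 152) (nat_lit 43762321576) (nat_lit 6) (nat_lit 5) (nat_lit 7) (nat_lit 5) (nat_lit 8) (nat_lit 4) (nat_lit 386) (nat_lit 243) (nat_lit 151)))) (XT.nd (nat_lit 78) (nat_lit 0) (nat_lit 0) (XT.lf (nat_lit 0) (nat_lit 11435707651) (nat_lit 76) (nat_lit 6559166214) (nat_lit 152) (nat_lit 41952201458) (nat_lit 6) (nat_lit 5) (nat_lit 7) (nat_lit 5) (nat_lit 8) (nat_lit 4) (nat_lit 387) (nat_lit 243) (nat_lit 150)) (XT.nd (nat_lit 78) (nat_lit 0) (nat_lit 0) (XT.lf (nat_lit 0) (nat_lit 18560373722) (nat_lit 76) (nat_lit 2968803740) (nat_lit 152) (nat_lit 40100876934) (nat_lit 6) (nat_lit 5) (nat_lit 7) (nat_lit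 5) (nat_lit 8) (nat_lit 4) (nat_lit 388) (nat_lit 243) (nat_lit 149)) (XT.lf (nat_lit 0) (nat_lit 25164086204) (nat_lit 152) (nat_lit 37494133168) (nat_lit 0) (nat_lit 705473278) (nat_lit 6) (nat_lit 5) (nat_lit 8) (nat_lit 4) (nat_lit 6) (nat_lit 4) (nat_lit 389) (nat_lit 243) (nat_lit 148))))) (XT.nd (nat_lit 234) (nat_lit 0) (nat_lit 0) (XT.nd (nat_lit 78) (nat_lit 0) (nat_lit 0) (XT.lf (nat_lit 0) (nat_lit 28925364317) (nat_lit 152) (nat_lit 31802441404) (nat_lit 0) (nat_lit 4421021552) (nat_lit 6) (nat_lit 5) (nat_lit 8) (nat_lit 4) (nat_lit 6) (nat_lit 4) (nat_lit 390) (nat_lit 243) (nat_lit 147)) (XT.nd (nat_lit 78) (nat_lit 0) (nat_lit 0) (XT.lf (nat_lit 0) (nat_lit 32787760397) (nat_lit 152) (nat_lit 25961094103) (nat_lit 0) (nat_lit 8239019730) (nat_lit 6) (nat_lit 5) (nat_lit 8) (nat_lit 4) (nat_lit 6) (nat_lit 4) (nat_lit 391) (nat_lit 243) (nat_lit 146)) (XT.lf (nat_lit 0) (nat_lit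 36754649352) (nat_lit 152) (nat_lit 19964987175) (nat_lit 0) (nat_lit 12162803926) (nat_lit 6) (nat_lit 5) (nat_lit 8) (nat_lit 4) (nat_lit 6) (nat_lit 4) (nat_lit 392) (nat_lit 243) (nat_lit 145)))) (XT.nd (nat_lit 78) (nat_lit 0) (nat_lit 0) (XT.lf (nat_lit 0) (nat_lit 40829497397) (nat_lit 152) (nat_lit 13808881304) (nat_lit 0) (nat_lit 16195802691) (nat_lit 6) (nat_lit 5) (nat_lit 8) (nat_lit 4) (nat_lit 6) (nat_lit 4) (nat_lit 393) (nat_lit 243) (nat_lit 144)) (XT.nd (nat_lit 78) (nat_lit 0) (nat_lit 0) (XT.lf (nat_lit 0) (nat_lit 45015865079) (nat_lit 152) (nat_lit 7487397368) (nat_lit 0) (nat_lit 20341540002) (nat_lit 6) (nat_lit 5) (nat_lit 8) (nat_lit 4) (nat_lit 6) (nat_lit 4) (nat_lit 394) (nat_lit 243) (nat_lit 143)) (XT.lf (nat_lit 0) (nat_lit 49317410388) (nat_lit 152) (nat_lit 995011740) (nat_lit 0) (nat_lit 24603638351) (nat_lit 6) (nat_lit 5) (nat_lit 8) (nat_lit 4) (nat_lit 6)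 (nat_lit 4) (nat_lit 395) (nat_lit 243) (nat_lit 142))))))))
noncomputable def xc66 : XT := (XT.nd (nat_lit 33774) (nat_lit 0) (nat_lit 2204) (XT.nd (nat_lit 32838) (nat_lit 0) (nat_lit 5776) (XT.nd (nat_lit 390) (nat_lit 0) (nat_lit 0) (XT.nd (nat_lit 156) (nat_lit 0) (nat_lit 0) (XT.nd (nat_lit 78) (nat_lit 0) (nat_lit 0) (XT.lf (nat_lit 0) (nat_lit 5786871239) (nat_lit 76) (nat_lit 48006647664) (nat_lit 76) (nat_lit 23254577606) (nat_lit 5) (nat_lit 4) (nat_lit 6) (nat_lit 5) (nat_lit 6) (nat_lit 4) (nat_lit 396) (nat_lit 243) (nat_lit 141)) (XT.lf (nat_lit 0) (nat_lit 12774588956) (nat_lit 76) (nat_lit 45629380549) (nat_lit 76) (nat_lit 20840127947) (nat_lit 5) (nat_lit 4) (nat_lit 6) (nat_lit 5) (nat_lit 6) (nat_lit 4) (nat_lit 397) (nat_lit 243) (nat_lit 140))) (XT.nd (nat_lit 78) (nat_lit 0) (nat_lit 0) (XT.lf (nat_lit 0) (nat_lit 19954444498) (nat_lit 76) (nat_lit 43188591228) (nat_lit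 76) (nat_lit 18363239069) (nat_lit 5) (nat_lit 4) (nat_lit 6) (nat_lit 5) (nat_lit 6) (nat_lit 4) (nat_lit 398) (nat_lit 243) (nat_lit 139)) (XT.nd (nat_lit 78) (nat_lit 0) (nat_lit 0) (XT.lf (nat_lit 0) (nat_lit 27332711526) (nat_lit 76) (nat_lit 40682146972) (nat_lit 76) (nat_lit 15821746700) (nat_lit 5) (nat_lit 4) (nat_lit 6) (nat_lit 5) (nat_lit 6) (nat_lit 4) (nat_lit 399) (nat_lit 243) (nat_lit 138)) (XT.lf (nat_lit 0) (nat_lit 34915837068) (nat_lit 76) (nat_lit 38107857685) (nat_lit 76) (nat_lit 13213430117) (nat_lit 5) (nat_lit 4) (nat_lit 6) (nat_lit 5) (nat_lit 6) (nat_lit 4) (nat_lit 400) (nat_lit 243) (nat_lit 137))))) (XT.nd (nat_lit 32214) (nat_lit 0) (nat_lit 8816) (XT.nd (nat_lit 78) (nat_lit 0) (nat_lit 0) (XT.lf (nat_lit 0) (nat_lit 42710447158) (nat_lit 76) (nat_lit 35463473987) (nat_lit 76) (nat_lit 10536010211) (nat_lit 5) (nat_lit 4) (nat_lit 6) (nat_lit 5) (nat_lit 6) (nat_lit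 4) (nat_lit 401) (nat_lit 243) (nat_lit 136)) (XT.nd (nat_lit 32058) (nat_lit 0) (nat_lit 9880) (XT.lf (nat_lit 0) (nat_lit 50723352618) (nat_lit 76) (nat_lit 32746685252) (nat_lit 76) (nat_lit 7787147487) (nat_lit 5) (nat_lit 4) (nat_lit 6) (nat_lit 5) (nat_lit 6) (nat_lit 4) (nat_lit 402) (nat_lit 243) (nat_lit 135)) (XT.lf (nat_lit 0) (nat_lit 563057241) (nat_lit 608) (nat_lit 2716568630) (nat_lit 0) (nat_lit 563057241) (nat_lit 135) (nat_lit 5) (nat_lit 143) (nat_lit 4) (nat_lit 135) (nat_lit 4) (nat_lit 292) (nat_lit 244) (nat_lit 244)))) (XT.nd (nat_lit 78) (nat_lit 1064) (nat_lit 0) (XT.lf (nat_lit 0) (nat_lit 4343928986) (nat_lit 608) (nat_lit 410777755) (nat_lit 0) (nat_lit 3014566898) (nat_lit 135) (nat_lit 5) (nat_lit 143) (nat_lit 4) (nat_lit 135) (nat_lit 4) (nat_lit 293) (nat_lit 244) (nat_lit 243)) (XT.nd (nat_lit 78) (nat_lit 532) (nat_lit 0) (XT.lf (nat_lit 0) (nat_lit 4754843746)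 (nat_lit 532) (nat_lit 2861160953) (nat_lit 532) (nat_lit 241156062) (nat_lit 128) (nat_lit 4) (nat_lit 135) (nat_lit 5) (nat_lit 135) (nat_lit 4) (nat_lit 294) (nat_lit 244) (nat_lit 242)) (XT.lf (nat_lit 0) (nat_lit 2045832974) (nat_lit 456) (nat_lit 869875957) (nat_lit 532) (nat_lit 5033189133) (nat_lit 121) (nat_lit 5) (nat_lit 127) (nat_lit 5) (nat_lit 128) (nat_lit 4) (nat_lit 295) (nat_lit 244) (nat_lit 241)))))) (XT.nd (nat_lit 468) (nat_lit 1216) (nat_lit 0) (XT.nd (nat_lit 234) (nat_lit 912) (nat_lit 0) (XT.nd (nat_lit 78) (nat_lit 912) (nat_lit 0) (XT.lf (nat_lit 0) (nat_lit 6119459050) (nat_lit 532) (nat_lit 747234469) (nat_lit 0) (nat_lit 1178089357) (nat_lit 121) (nat_lit 5) (nat_lit 128) (nat_lit 4) (nat_lit 121) (nat_lit 4) (nat_lit 296) (nat_lit 244) (nat_lit 240)) (XT.nd (nat_lit 78) (nat_lit 380) (nat_lit 0) (XT.lf (nat_lit 0) (nat_lit 1219231202) (nat_lit 532) (nat_lit 3613049767)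 (nat_lit 76) (nat_lit 3312012492) (nat_lit 114) (nat_lit 5) (nat_lit 121) (nat_lit 5) (nat_lit 115) (nat_lit 4) (nat_lit 297) (nat_lit 244) (nat_lit 239)) (XT.lf (nat_lit 0) (nat_lit 1649277136) (nat_lit 380) (nat_lit 2710666737) (nat_lit 456) (nat_lit 3888220785) (nat_lit 109) (nat_lit 5) (nat_lit 114) (nat_lit 5) (nat_lit 115) (nat_lit 4) (nat_lit 298) (nat_lit 244) (nat_lit 238)))) (XT.nd (nat_lit 78) (nat_lit 912) (nat_lit 0) (XT.lf (nat_lit 0) (nat_lit 7043924436) (nat_lit 380) (nat_lit 505940781) (nat_lit 456) (nat_lit 806795133) (nat_lit 109) (nat_lit 5) (nat_lit 114) (nat_lit 5) (nat_lit 115) (nat_lit 4) (nat_lit 299) (nat_lit 244) (nat_lit 237)) (XT.nd (nat_lit 78) (nat_lit 380) (nat_lit 0) (XT.lf (nat_lit 0) (nat_lit 2297550477) (nat_lit 532) (nat_lit 4395887739) (nat_lit 76) (nat_lit 1775138975) (nat_lit 102) (nat_lit 5) (nat_lit 109) (nat_lit 5) (nat_lit 103) (nat_lit 4) (nat_lit 300)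 (nat_lit 244) (nat_lit 236)) (XT.lf (nat_lit 0) (nat_lit 969103093) (nat_lit 380) (nat_lit 4458575991) (nat_lit 456) (nat_lit 3157611330) (nat_lit 97) (nat_lit 5) (nat_lit 102) (nat_lit 5) (nat_lit 103) (nat_lit 4) (nat_lit 301) (nat_lit 244) (nat_lit 235))))) (XT.nd (nat_lit 234) (nat_lit 760) (nat_lit 0) (XT.nd (nat_lit 78) (nat_lit 456) (nat_lit 0) (XT.lf (nat_lit 0) (nat_lit 6486321104) (nat_lit 380) (nat_lit 2132282841) (nat_lit 456) (nat_lit 88034677) (nat_lit 97) (nat_lit 5) (nat_lit 102) (nat_lit 5) (nat_lit 103) (nat_lit 4) (nat_lit 302) (nat_lit 244) (nat_lit 234)) (XT.nd (nat_lit 78) (nat_lit 0) (nat_lit 0) (XT.lf (nat_lit 0) (nat_lit 2971939653) (nat_lit 456) (nat_lit 5560974860) (nat_lit 76) (nat_lit 299210061) (nat_lit 91) (nat_lit 5) (nat_lit 97) (nat_lit 5) (nat_lit 92) (nat_lit 4) (nat_lit 303) (nat_lit 244) (nat_lit 233)) (XT.lf (nat_lit 0) (nat_lit 6090657885) (nat_lit 456) (nat_lit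 108841796) (nat_lit 76) (nat_lit 2762916303) (nat_lit 91) (nat_lit 5) (nat_lit 97) (nat_lit 5) (nat_lit 92) (nat_lit 4) (nat_lit 304) (nat_lit 244) (nat_lit 232)))) (XT.nd (nat_lit 78) (nat_lit 380) (nat_lit 0) (XT.lf (nat_lit 0) (nat_lit 182170518) (nat_lit 380) (nat_lit 3580509114) (nat_lit 76) (nat_lit 5334601829) (nat_lit 86) (nat_lit 5) (nat_lit 91) (nat_lit 5) (nat_lit 87) (nat_lit 5) (nat_lit 305) (nat_lit 244) (nat_lit 231)) (XT.nd (nat_lit 78) (nat_lit 0) (nat_lit 0) (XT.lf (nat_lit 0) (nat_lit 1991084467) (nat_lit 380) (nat_lit 1226688493) (nat_lit 456) (nat_lit 6019251232) (nat_lit 81) (nat_lit 5) (nat_lit 86) (nat_lit 5) (nat_lit 87) (nat_lit 5) (nat_lit 306) (nat_lit 244) (nat_lit 230)) (XT.lf (nat_lit 0) (nat_lit 6322758778) (nat_lit 456) (nat_lit 1687949844) (nat_lit 76) (nat_lit 1371015248) (nat_lit 81) (nat_lit 5) (nat_lit 87) (nat_lit 5) (nat_lit 82) (nat_lit 4) (nat_lit 307)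 (nat_lit 244) (nat_lit 229))))))) (XT.nd (nat_lit 936) (nat_lit 1368) (nat_lit 0) (XT.nd (nat_lit 468) (nat_lit 836) (nat_lit 0) (XT.nd (nat_lit 234) (nat_lit 684) (nat_lit 0) (XT.nd (nat_lit 78) (nat_lit 380) (nat_lit 0) (XT.lf (nat_lit 0) (nat_lit 4008066521) (nat_lit 304) (nat_lit 5494068114) (nat_lit 380) (nat_lit 29303495) (nat_lit 77) (nat_lit 5) (nat_lit 81) (nat_lit 5) (nat_lit 82) (nat_lit 4) (nat_lit 308) (nat_lit 244) (nat_lit 228)) (XT.nd (nat_lit 78) (nat_lit 0) (nat_lit 0) (XT.lf (nat_lit 0) (nat_lit 101193201) (nat_lit 304) (nat_lit 2878825223) (nat_lit 380) (nat_lit 6706365630) (nat_lit 72) (nat_lit 5) (nat_lit 76) (nat_lit 5) (nat_lit 77) (nat_lit 5) (nat_lit 309) (nat_lit 244) (nat_lit 227)) (XT.lf (nat_lit 0) (nat_lit 5913027415) (nat_lit 304) (nat_lit 153786449) (nat_lit 380) (nat_lit 3779623701) (nat_lit 72) (nat_lit 5) (nat_lit 76) (nat_lit 5) (nat_lit 77) (nat_lit 5) (nat_lit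 310) (nat_lit 244) (nat_lit 226)))) (XT.nd (nat_lit 78) (nat_lit 380) (nat_lit 0) (XT.lf (nat_lit 0) (nat_lit 1804148877) (nat_lit 304) (nat_lit 7418653466) (nat_lit 380) (nat_lit 789291110) (nat_lit 68) (nat_lit 5) (nat_lit 72) (nat_lit 5) (nat_lit 73) (nat_lit 4) (nat_lit 311) (nat_lit 244) (nat_lit 225)) (XT.nd (nat_lit 78) (nat_lit 304) (nat_lit 0) (XT.lf (nat_lit 0) (nat_lit 2221731180) (nat_lit 380) (nat_lit 2504964929) (nat_lit 76) (nat_lit 5456184686) (nat_lit 67) (nat_lit 5) (nat_lit 72) (nat_lit 5) (nat_lit 68) (nat_lit 5) (nat_lit 312) (nat_lit 244) (nat_lit 224)) (XT.lf (nat_lit 0) (nat_lit 3335139617) (nat_lit 304) (nat_lit 1940105880) (nat_lit 380) (nat_lit 5084361149) (nat_lit 63) (nat_lit 5) (nat_lit 67) (nat_lit 5) (nat_lit 68) (nat_lit 5) (nat_lit 313) (nat_lit 244) (nat_lit 223))))) (XT.nd (nat_lit 234) (nat_lit 532) (nat_lit 0) (XT.nd (nat_lit 78) (nat_lit 304) (nat_lit 0) (XT.lf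 (nat_lit 0) (nat_lit 8391551666) (nat_lit 380) (nat_lit 1240321834) (nat_lit 76) (nat_lit 910712649) (nat_lit 63) (nat_lit 5) (nat_lit 68) (nat_lit 5) (nat_lit 64) (nat_lit 4) (nat_lit 314) (nat_lit 244) (nat_lit 222)) (XT.nd (nat_lit 78) (nat_lit 0) (nat_lit 0) (XT.lf (nat_lit 0) (nat_lit 856192135) (nat_lit 304) (nat_lit 6038954578) (nat_lit 76) (nat_lit 3835653317) (nat_lit 59) (nat_lit 5) (nat_lit 63) (nat_lit 5) (nat_lit 60) (nat_lit 5) (nat_lit 315) (nat_lit 244) (nat_lit 221)) (XT.lf (nat_lit 0) (nat_lit 3861853923) (nat_lit 304) (nat_lit 208095568) (nat_lit 76) (nat_lit 6855608399) (nat_lit 59) (nat_lit 5) (nat_lit 63) (nat_lit 5) (nat_lit 60) (nat_lit 5) (nat_lit 316) (nat_lit 244) (nat_lit 220)))) (XT.nd (nat_lit 78) (nat_lit 304) (nat_lit 0) (XT.lf (nat_lit 0) (nat_lit 5824162169) (nat_lit 228) (nat_lit 1130094442) (nat_lit 304) (nat_lit 4172082459) (nat_lit 56) (nat_lit 5) (nat_lit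 59) (nat_lit 5) (nat_lit 60) (nat_lit 5) (nat_lit 317) (nat_lit 244) (nat_lit 219)) (XT.nd (nat_lit 78) (nat_lit 76) (nat_lit 0) (XT.lf (nat_lit 0) (nat_lit 614410708) (nat_lit 228) (nat_lit 9492512292) (nat_lit 304) (nat_lit 1227271388) (nat_lit 53) (nat_lit 5) (nat_lit 56) (nat_lit 5) (nat_lit 57) (nat_lit 4) (nat_lit 318) (nat_lit 244) (nat_lit 218)) (XT.lf (nat_lit 0) (nat_lit 1777354907) (nat_lit 304) (nat_lit 4846833218) (nat_lit 76) (nat_lit 4923446276) (nat_lit 52) (nat_lit 5) (nat_lit 56) (nat_lit 5) (nat_lit 53) (nat_lit 5) (nat_lit 319) (nat_lit 244) (nat_lit 217)))))) (XT.nd (nat_lit 468) (nat_lit 608) (nat_lit 0) (XT.nd (nat_lit 234) (nat_lit 304) (nat_lit 0) (XT.nd (nat_lit 78) (nat_lit 228) (nat_lit 0) (XT.lf (nat_lit 0) (nat_lit 1126445223) (nat_lit 228) (nat_lit 3674990700) (nat_lit 304) (nat_lit 6967126718) (nat_lit 49) (nat_lit 5) (nat_lit 52) (nat_lit 5) (nat_lit 53) (nat_lit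 5) (nat_lit 320) (nat_lit 244) (nat_lit 216)) (XT.nd (nat_lit 78) (nat_lit 228) (nat_lit 0) (XT.lf (nat_lit 0) (nat_lit 7293427115) (nat_lit 228) (nat_lit 615750613) (nat_lit 304) (nat_lit 4087219887) (nat_lit 49) (nat_lit 5) (nat_lit 52) (nat_lit 5) (nat_lit 53) (nat_lit 5) (nat_lit 321) (nat_lit 244) (nat_lit 215)) (XT.lf (nat_lit 0) (nat_lit 1332169750) (nat_lit 228) (nat_lit 9760515063) (nat_lit 304) (nat_lit 1138971918) (nat_lit 46) (nat_lit 5) (nat_lit 49) (nat_lit 5) (nat_lit 50) (nat_lit 4) (nat_lit 322) (nat_lit 244) (nat_lit 214)))) (XT.nd (nat_lit 78) (nat_lit 228) (nat_lit 0) (XT.lf (nat_lit 0) (nat_lit 1860305193) (nat_lit 304) (nat_lit 4936716472) (nat_lit 76) (nat_lit 5676477650) (nat_lit 45) (nat_lit 5) (nat_lit 49) (nat_lit 5) (nat_lit 46) (nat_lit 5) (nat_lit 323) (nat_lit 244) (nat_lit 213)) (XT.nd (nat_lit 78) (nat_lit 0) (nat_lit 0) (XT.lf (nat_lit 0) (nat_lit 1134111937) (nat_lit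 228) (nat_lit 3750599606) (nat_lit 304) (nat_lit 7838865591) (nat_lit 42) (nat_lit 5) (nat_lit 45) (nat_lit 5) (nat_lit 46) (nat_lit 5) (nat_lit 324) (nat_lit 244) (nat_lit 212)) (XT.lf (nat_lit 0) (nat_lit 7407384944) (nat_lit 228) (nat_lit 590219775) (nat_lit 304) (nat_lit 4983677756) (nat_lit 42) (nat_lit 5) (nat_lit 45) (nat_lit 5) (nat_lit 46) (nat_lit 5) (nat_lit 325) (nat_lit 244) (nat_lit 211))))) (XT.nd (nat_lit 234) (nat_lit 380) (nat_lit 0) (XT.nd (nat_lit 78) (nat_lit 76) (nat_lit 0) (XT.lf (nat_lit 0) (nat_lit 526975682) (nat_lit 152) (nat_lit 10656744202) (nat_lit 228) (nat_lit 2063660180) (nat_lit 40) (nat_lit 5) (nat_lit 42) (nat_lit 5) (nat_lit 43) (nat_lit 4) (nat_lit 326) (nat_lit 244) (nat_lit 210)) (XT.nd (nat_lit 78) (nat_lit 0) (nat_lit 0) (XT.lf (nat_lit 0) (nat_lit 937548056) (nat_lit 228) (nat_lit 6690218627) (nat_lit 76) (nat_lit 5893114295) (nat_lit 39) (nat_lit 5) (nat_lit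 42) (nat_lit 5) (nat_lit 40) (nat_lit 5) (nat_lit 327) (nat_lit 244) (nat_lit 209)) (XT.lf (nat_lit 0) (nat_lit 3938114698) (nat_lit 228) (nat_lit 577332584) (nat_lit 76) (nat_lit 9288054058) (nat_lit 39) (nat_lit 5) (nat_lit 42) (nat_lit 5) (nat_lit 40) (nat_lit 5) (nat_lit 328) (nat_lit 244) (nat_lit 208)))) (XT.nd (nat_lit 78) (nat_lit 152) (nat_lit 0) (XT.lf (nat_lit 0) (nat_lit 5755747636) (nat_lit 228) (nat_lit 1280511174) (nat_lit 304) (nat_lit 7058164571) (nat_lit 36) (nat_lit 5) (nat_lit 39) (nat_lit 5) (nat_lit 40) (nat_lit 5) (nat_lit 329) (nat_lit 244) (nat_lit 207)) (XT.nd (nat_lit 78) (nat_lit 152) (nat_lit 0) (XT.lf (nat_lit 0) (nat_lit 10205594173) (nat_lit 304) (nat_lit 2198983668) (nat_lit 76) (nat_lit 1990196261) (nat_lit 36) (nat_lit 5) (nat_lit 40) (nat_lit 5) (nat_lit 37) (nat_lit 4) (nat_lit 330) (nat_lit 244) (nat_lit 206)) (XT.lf (nat_lit 0) (nat_lit 4118844069) (nat_lit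 152) (nat_lit 9357455409) (nat_lit 228) (nat_lit 1227694192) (nat_lit 34) (nat_lit 5) (nat_lit 36) (nat_lit 5) (nat_lit 37) (nat_lit 4) (nat_lit 331) (nat_lit 244) (nat_lit 205))))))))
noncomputable def xc67 : XT := (XT.nd (nat_lit 1794) (nat_lit 532) (nat_lit 0) (XT.nd (nat_lit 858) (nat_lit 608) (nat_lit 0) (XT.nd (nat_lit 390) (nat_lit 380) (nat_lit 0) (XT.nd (nat_lit 156) (nat_lit 152) (nat_lit 0) (XT.nd (nat_lit 78) (nat_lit 152) (nat_lit 0) (XT.lf (nat_lit 0) (nat_lit 1763657475) (nat_lit 228) (nat_lit 4442263955) (nat_lit 76) (nat_lit 8816789477) (nat_lit 33) (nat_lit 5) (nat_lit 36) (nat_lit 5) (nat_lit 34) (nat_lit 5) (nat_lit 332) (nat_lit 244) (nat_lit 204)) (XT.lf (nat_lit 0) (nat_lit 1836765863) (nat_lit 152) (nat_lit 2956461862) (nat_lit 228) (nat_lit 10558245699) (nat_lit 31) (nat_lit 5) (nat_lit 33) (nat_lit 5) (nat_lit 34) (nat_lit 5) (nat_lit 333) (nat_lit 244) (nat_lit 203)))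 (XT.nd (nat_lit 78) (nat_lit 152) (nat_lit 0) (XT.lf (nat_lit 0) (nat_lit 7918588985) (nat_lit 228) (nat_lit 7369943533) (nat_lit 76) (nat_lit 401460959) (nat_lit 31) (nat_lit 5) (nat_lit 34) (nat_lit 5) (nat_lit 32) (nat_lit 4) (nat_lit 334) (nat_lit 244) (nat_lit 202)) (XT.nd (nat_lit 78) (nat_lit 152) (nat_lit 0) (XT.lf (nat_lit 0) (nat_lit 11124117016) (nat_lit 228) (nat_lit 1140226352) (nat_lit 76) (nat_lit 3774774142) (nat_lit 31) (nat_lit 5) (nat_lit 34) (nat_lit 5) (nat_lit 32) (nat_lit 4) (nat_lit 335) (nat_lit 244) (nat_lit 201)) (XT.lf (nat_lit 0) (nat_lit 5311962259) (nat_lit 152) (nat_lit 9123293020) (nat_lit 228) (nat_lit 1963216032) (nat_lit 29) (nat_lit 5) (nat_lit 31) (nat_lit 5) (nat_lit 32) (nat_lit 4) (nat_lit 336) (nat_lit 244) (nat_lit 200))))) (XT.nd (nat_lit 234) (nat_lit 152) (nat_lit 0) (XT.nd (nat_lit 78) (nat_lit 152) (nat_lit 0) (XT.lf (nat_lit 0) (nat_lit 1026234282)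 (nat_lit 228) (nat_lit 4865909394) (nat_lit 76) (nat_lit 10877084622) (nat_lit 28) (nat_lit 5) (nat_lit 31) (nat_lit 5) (nat_lit 29) (nat_lit 5) (nat_lit 337) (nat_lit 244) (nat_lit 199)) (XT.nd (nat_lit 78) (nat_lit 0) (nat_lit 0) (XT.lf (nat_lit 0) (nat_lit 1484556816) (nat_lit 152) (nat_lit 2555334512) (nat_lit 228) (nat_lit 13111450110) (nat_lit 26) (nat_lit 5) (nat_lit 28) (nat_lit 5) (nat_lit 29) (nat_lit 5) (nat_lit 338) (nat_lit 244) (nat_lit 198)) (XT.lf (nat_lit 0) (nat_lit 7162060166) (nat_lit 228) (nat_lit 9493732677) (nat_lit 76) (nat_lit 888617055) (nat_lit 26) (nat_lit 5) (nat_lit 29) (nat_lit 5) (nat_lit 27) (nat_lit 4) (nat_lit 339) (nat_lit 244) (nat_lit 197)))) (XT.nd (nat_lit 78) (nat_lit 152) (nat_lit 0) (XT.lf (nat_lit 0) (nat_lit 10364364471) (nat_lit 228) (nat_lit 3225460776) (nat_lit 76) (nat_lit 4359885020) (nat_lit 26) (nat_lit 5) (nat_lit 29) (nat_lit 5) (nat_lit 27)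 (nat_lit 4) (nat_lit 340) (nat_lit 244) (nat_lit 196)) (XT.nd (nat_lit 78) (nat_lit 0) (nat_lit 0) (XT.lf (nat_lit 0) (nat_lit 3231122485) (nat_lit 152) (nat_lit 10424975974) (nat_lit 228) (nat_lit 4711303349) (nat_lit 24) (nat_lit 5) (nat_lit 26) (nat_lit 5) (nat_lit 27) (nat_lit 4) (nat_lit 341) (nat_lit 244) (nat_lit 195)) (XT.lf (nat_lit 0) (nat_lit 9885349961) (nat_lit 152) (nat_lit 7156606758) (nat_lit 228) (nat_lit 1755838226) (nat_lit 24) (nat_lit 5) (nat_lit 26) (nat_lit 5) (nat_lit 27) (nat_lit 4) (nat_lit 342) (nat_lit 244) (nat_lit 194)))))) (XT.nd (nat_lit 468) (nat_lit 304) (nat_lit 0) (XT.nd (nat_lit 234) (nat_lit 76) (nat_lit 0) (XT.nd (nat_lit 78) (nat_lit 152) (nat_lit 0) (XT.lf (nat_lit 0) (nat_lit 1226648477) (nat_lit 228) (nat_lit 2575397349) (nat_lit 76) (nat_lit 15439807808) (nat_lit 23) (nat_lit 5) (nat_lit 26) (nat_lit 5) (nat_lit 24) (nat_lit 5) (nat_lit 343) (nat_lit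 244) (nat_lit 193)) (XT.nd (nat_lit 78) (nat_lit 0) (nat_lit 0) (XT.lf (nat_lit 0) (nat_lit 3952160296) (nat_lit 152) (nat_lit 313709479) (nat_lit 228) (nat_lit 15432795557) (nat_lit 21) (nat_lit 5) (nat_lit 23) (nat_lit 5) (nat_lit 24) (nat_lit 5) (nat_lit 344) (nat_lit 244) (nat_lit 192)) (XT.lf (nat_lit 0) (nat_lit 7418852916) (nat_lit 228) (nat_lit 9531448322) (nat_lit 76) (nat_lit 3218231033) (nat_lit 21) (nat_lit 5) (nat_lit 24) (nat_lit 5) (nat_lit 22) (nat_lit 4) (nat_lit 345) (nat_lit 244) (nat_lit 191)))) (XT.nd (nat_lit 78) (nat_lit 76) (nat_lit 0) (XT.lf (nat_lit 0) (nat_lit 10635355695) (nat_lit 228) (nat_lit 3190914893) (nat_lit 76) (nat_lit 6827184344) (nat_lit 21) (nat_lit 5) (nat_lit 24) (nat_lit 5) (nat_lit 22) (nat_lit 4) (nat_lit 346) (nat_lit 244) (nat_lit 190)) (XT.nd (nat_lit 78) (nat_lit 0) (nat_lit 0) (XT.lf (nat_lit 0) (nat_lit 3349002182) (nat_lit 76) (nat_lit 10598363557)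 (nat_lit 152) (nat_lit 7205615983) (nat_lit 20) (nat_lit 5) (nat_lit 21) (nat_lit 5) (nat_lit 22) (nat_lit 4) (nat_lit 347) (nat_lit 244) (nat_lit 189)) (XT.lf (nat_lit 0) (nat_lit 10094894767) (nat_lit 76) (nat_lit 7263314473) (nat_lit 152) (nat_lit 4309326914) (nat_lit 20) (nat_lit 5) (nat_lit 21) (nat_lit 5) (nat_lit 22) (nat_lit 4) (nat_lit 348) (nat_lit 244) (nat_lit 188))))) (XT.nd (nat_lit 234) (nat_lit 76) (nat_lit 0) (XT.nd (nat_lit 78) (nat_lit 228) (nat_lit 0) (XT.lf (nat_lit 0) (nat_lit 16989151865) (nat_lit 76) (nat_lit 3850431201) (nat_lit 152) (nat_lit 1358923277) (nat_lit 20) (nat_lit 5) (nat_lit 21) (nat_lit 5) (nat_lit 22) (nat_lit 4) (nat_lit 349) (nat_lit 244) (nat_lit 187)) (XT.nd (nat_lit 78) (nat_lit 0) (nat_lit 0) (XT.lf (nat_lit 0) (nat_lit 1300984997) (nat_lit 152) (nat_lit 327532026) (nat_lit 228) (nat_lit 21116988747) (nat_lit 17) (nat_lit 5) (nat_lit 19) (nat_lit 5)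 (nat_lit 20) (nat_lit 5) (nat_lit 350) (nat_lit 244) (nat_lit 186)) (XT.lf (nat_lit 0) (nat_lit 4732119945) (nat_lit 228) (nat_lit 15292924142) (nat_lit 76) (nat_lit 3281875010) (nat_lit 17) (nat_lit 5) (nat_lit 20) (nat_lit 5) (nat_lit 18) (nat_lit 4) (nat_lit 351) (nat_lit 244) (nat_lit 185)))) (XT.nd (nat_lit 78) (nat_lit 76) (nat_lit 0) (XT.lf (nat_lit 0) (nat_lit 7901972458) (nat_lit 228) (nat_lit 9011771177) (nat_lit 76) (nat_lit 6972259400) (nat_lit 17) (nat_lit 5) (nat_lit 20) (nat_lit 5) (nat_lit 18) (nat_lit 4) (nat_lit 352) (nat_lit 244) (nat_lit 184)) (XT.nd (nat_lit 78) (nat_lit 76) (nat_lit 0) (XT.lf (nat_lit 0) (nat_lit 11137695900) (nat_lit 228) (nat_lit 2592425054) (nat_lit 76) (nat_lit 10753237079) (nat_lit 17) (nat_lit 5) (nat_lit 20) (nat_lit 5) (nat_lit 18) (nat_lit 4) (nat_lit 353) (nat_lit 244) (nat_lit 183)) (XT.lf (nat_lit 0) (nat_lit 4049748543) (nat_lit 76) (nat_lit 10431297717)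 (nat_lit 152) (nat_lit 10617291931) (nat_lit 16) (nat_lit 5) (nat_lit 17) (nat_lit 5) (nat_lit 18) (nat_lit 4) (nat_lit 354) (nat_lit 244) (nat_lit 182))))))) (XT.nd (nat_lit 936) (nat_lit 228) (nat_lit 0) (XT.nd (nat_lit 468) (nat_lit 76) (nat_lit 0) (XT.nd (nat_lit 234) (nat_lit 228) (nat_lit 0) (XT.nd (nat_lit 78) (nat_lit 0) (nat_lit 0) (XT.lf (nat_lit 0) (nat_lit 10896029650) (nat_lit 76) (nat_lit 7026834571) (nat_lit 152) (nat_lit 7808979072) (nat_lit 16) (nat_lit 5) (nat_lit 17) (nat_lit 5) (nat_lit 18) (nat_lit 4) (nat_lit 355) (nat_lit 244) (nat_lit 181)) (XT.nd (nat_lit 78) (nat_lit 0) (nat_lit 0) (XT.lf (nat_lit 0) (nat_lit 17900806110) (nat_lit 76) (nat_lit 3539935153) (nat_lit 152) (nat_lit 4944448100) (nat_lit 16) (nat_lit 5) (nat_lit 17) (nat_lit 5) (nat_lit 18) (nat_lit 4) (nat_lit 356) (nat_lit 244) (nat_lit 180)) (XT.lf (nat_lit 0) (nat_lit 25038063163) (nat_lit 152) (nat_lit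 1989060589) (nat_lit 0) (nat_lit 31814177) (nat_lit 16) (nat_lit 5) (nat_lit 18) (nat_lit 4) (nat_lit 16) (nat_lit 4) (nat_lit 357) (nat_lit 244) (nat_lit 179)))) (XT.nd (nat_lit 78) (nat_lit 0) (nat_lit 0) (XT.lf (nat_lit 0) (nat_lit 1026143520) (nat_lit 228) (nat_lit 23048107228) (nat_lit 76) (nat_lit 3676728928) (nat_lit 13) (nat_lit 5) (nat_lit 16) (nat_lit 5) (nat_lit 14) (nat_lit 4) (nat_lit 358) (nat_lit 244) (nat_lit 178)) (XT.nd (nat_lit 78) (nat_lit 0) (nat_lit 0) (XT.lf (nat_lit 0) (nat_lit 4118481503) (nat_lit 228) (nat_lit 16891951988) (nat_lit 76) (nat_lit 7452930851) (nat_lit 13) (nat_lit 5) (nat_lit 16) (nat_lit 5) (nat_lit 14) (nat_lit 4) (nat_lit 359) (nat_lit 244) (nat_lit 177)) (XT.lf (nat_lit 0) (nat_lit 7278582098) (nat_lit 228) (nat_lit 10594705899) (nat_lit 76) (nat_lit 11324599987) (nat_lit 13) (nat_lit 5) (nat_lit 16) (nat_lit 5) (nat_lit 14) (nat_lit 4) (nat_lit 360)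 (nat_lit 244) (nat_lit 176))))) (XT.nd (nat_lit 234) (nat_lit 0) (nat_lit 0) (XT.nd (nat_lit 78) (nat_lit 76) (nat_lit 0) (XT.lf (nat_lit 0) (nat_lit 10509206560) (nat_lit 228) (nat_lit 4150866513) (nat_lit 76) (nat_lit 15295119346) (nat_lit 13) (nat_lit 5) (nat_lit 16) (nat_lit 5) (nat_lit 14) (nat_lit 4) (nat_lit 361) (nat_lit 244) (nat_lit 175)) (XT.nd (nat_lit 78) (nat_lit 0) (nat_lit 0) (XT.lf (nat_lit 0) (nat_lit 2493860916) (nat_lit 76) (nat_lit 11343289364) (nat_lit 152) (nat_lit 16898069914) (nat_lit 12) (nat_lit 5) (nat_lit 13) (nat_lit 5) (nat_lit 14) (nat_lit 4) (nat_lit 362) (nat_lit 244) (nat_lit 174)) (XT.lf (nat_lit 0) (nat_lit 9382330374) (nat_lit 76) (nat_lit 7901240999) (nat_lit 152) (nat_lit 14254534008) (nat_lit 12) (nat_lit 5) (nat_lit 13) (nat_lit 5) (nat_lit 14) (nat_lit 4) (nat_lit 363) (nat_lit 244) (nat_lit 173)))) (XT.nd (nat_lit 78) (nat_lit 0) (nat_lit 0) (XT.lf (nat_lit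 0) (nat_lit 16437950528) (nat_lit 76) (nat_lit 4372835977) (nat_lit 152) (nat_lit 11554983869) (nat_lit 12) (nat_lit 5) (nat_lit 13) (nat_lit 5) (nat_lit 14) (nat_lit 4) (nat_lit 364) (nat_lit 244) (nat_lit 172)) (XT.nd (nat_lit 78) (nat_lit 0) (nat_lit 0) (XT.lf (nat_lit 0) (nat_lit 23666886483) (nat_lit 76) (nat_lit 754991226) (nat_lit 152) (nat_lit 8797060665) (nat_lit 12) (nat_lit 5) (nat_lit 13) (nat_lit 5) (nat_lit 14) (nat_lit 4) (nat_lit 365) (nat_lit 244) (nat_lit 171)) (XT.lf (nat_lit 0) (nat_lit 28148409943) (nat_lit 152) (nat_lit 3051309719) (nat_lit 0) (nat_lit 2897782916) (nat_lit 12) (nat_lit 5) (nat_lit 14) (nat_lit 4) (nat_lit 12) (nat_lit 4) (nat_lit 366) (nat_lit 244) (nat_lit 170)))))) (XT.nd (nat_lit 468) (nat_lit 0) (nat_lit 0) (XT.nd (nat_lit 234) (nat_lit 76) (nat_lit 0) (XT.nd (nat_lit 78) (nat_lit 76) (nat_lit 0) (XT.lf (nat_lit 0) (nat_lit 3671996527) (nat_lit 76) (nat_lit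 28336684631) (nat_lit 76) (nat_lit 2993098256) (nat_lit 11) (nat_lit 4) (nat_lit 12) (nat_lit 5) (nat_lit 12) (nat_lit 4) (nat_lit 367) (nat_lit 244) (nat_lit 169)) (XT.nd (nat_lit 78) (nat_lit 0) (nat_lit 0) (XT.lf (nat_lit 0) (nat_lit 60898178) (nat_lit 152) (nat_lit 25310214866) (nat_lit 76) (nat_lit 10561759966) (nat_lit 10) (nat_lit 5) (nat_lit 12) (nat_lit 5) (nat_lit 11) (nat_lit 4) (nat_lit 368) (nat_lit 244) (nat_lit 168)) (XT.lf (nat_lit 0) (nat_lit 3126173027) (nat_lit 152) (nat_lit 19175330022) (nat_lit 76) (nat_lit 14590125629) (nat_lit 10) (nat_lit 5) (nat_lit 12) (nat_lit 5) (nat_lit 11) (nat_lit 4) (nat_lit 369) (nat_lit 244) (nat_lit 167)))) (XT.nd (nat_lit 78) (nat_lit 76) (nat_lit 0) (XT.lf (nat_lit 0) (nat_lit 6263810816) (nat_lit 152) (nat_lit 12890996283) (nat_lit 76) (nat_lit 18724940210) (nat_lit 10) (nat_lit 5) (nat_lit 12) (nat_lit 5) (nat_lit 11) (nat_lit 4) (nat_lit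 370) (nat_lit 244) (nat_lit 166)) (XT.nd (nat_lit 78) (nat_lit 76) (nat_lit 0) (XT.lf (nat_lit 0) (nat_lit 9476553168) (nat_lit 152) (nat_lit 6451722484) (nat_lit 76) (nat_lit 22969816654) (nat_lit 10) (nat_lit 5) (nat_lit 12) (nat_lit 5) (nat_lit 11) (nat_lit 4) (nat_lit 371) (nat_lit 244) (nat_lit 165)) (XT.lf (nat_lit 0) (nat_lit 151065760) (nat_lit 76) (nat_lit 12617593710) (nat_lit 152) (nat_lit 27178850453) (nat_lit 9) (nat_lit 5) (nat_lit 10) (nat_lit 5) (nat_lit 11) (nat_lit 4) (nat_lit 372) (nat_lit 244) (nat_lit 164))))) (XT.nd (nat_lit 234) (nat_lit 0) (nat_lit 0) (XT.nd (nat_lit 78) (nat_lit 0) (nat_lit 0) (XT.lf (nat_lit 0) (nat_lit 7051899756) (nat_lit 76) (nat_lit 9154536062) (nat_lit 152) (nat_lit 24820578424) (nat_lit 9) (nat_lit 5) (nat_lit 10) (nat_lit 5) (nat_lit 11) (nat_lit 4) (nat_lit 373) (nat_lit 244) (nat_lit 163)) (XT.nd (nat_lit 78) (nat_lit 0) (nat_lit 0) (XT.lf (nat_lit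 0) (nat_lit 14128407429) (nat_lit 76) (nat_lit 5601226482) (nat_lit 152) (nat_lit 22409812172) (nat_lit 9) (nat_lit 5) (nat_lit 10) (nat_lit 5) (nat_lit 11) (nat_lit 4) (nat_lit 374) (nat_lit 244) (nat_lit 162)) (XT.lf (nat_lit 0) (nat_lit 21386772136) (nat_lit 76) (nat_lit 1954560137) (nat_lit 152) (nat_lit 19944445203) (nat_lit 9) (nat_lit 5) (nat_lit 10) (nat_lit 5) (nat_lit 11) (nat_lit 4) (nat_lit 375) (nat_lit 244) (nat_lit 161)))) (XT.nd (nat_lit 78) (nat_lit 0) (nat_lit 0) (XT.lf (nat_lit 0) (nat_lit 27061880348) (nat_lit 152) (nat_lit 15650867522) (nat_lit 0) (nat_lit 1753746389) (nat_lit 9) (nat_lit 5) (nat_lit 11) (nat_lit 4) (nat_lit 9) (nat_lit 4) (nat_lit 376) (nat_lit 244) (nat_lit 160)) (XT.nd (nat_lit 78) (nat_lit 0) (nat_lit 0) (XT.lf (nat_lit 0) (nat_lit 30897068385) (nat_lit 152) (nat_lit 9263704949) (nat_lit 0) (nat_lit 5521778616) (nat_lit 9) (nat_lit 5) (nat_lit 11) (nat_lit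 4) (nat_lit 9) (nat_lit 4) (nat_lit 377) (nat_lit 244) (nat_lit 159)) (XT.lf (nat_lit 0) (nat_lit 34831459093) (nat_lit 152) (nat_lit 2713148177) (nat_lit 0) (nat_lit 9390969507) (nat_lit 9) (nat_lit 5) (nat_lit 11) (nat_lit 4) (nat_lit 9) (nat_lit 4) (nat_lit 378) (nat_lit 244) (nat_lit 158))))))))
noncomputable def xc68 : XT := (XT.nd (nat_lit 1794) (nat_lit 0) (nat_lit 0) (XT.nd (nat_lit 858) (nat_lit 76) (nat_lit 0) (XT.nd (nat_lit 390) (nat_lit 76) (nat_lit 0) (XT.nd (nat_lit 156) (nat_lit 76) (nat_lit 0) (XT.nd (nat_lit 78) (nat_lit 0) (nat_lit 0) (XT.lf (nat_lit 0) (nat_lit 4086264316) (nat_lit 76) (nat_lit 34821505643) (nat_lit 76) (nat_lit 9317715265) (nat_lit 8) (nat_lit 4) (nat_lit 9) (nat_lit 5) (nat_lit 9) (nat_lit 4) (nat_lit 379) (nat_lit 244) (nat_lit 157)) (XT.lf (nat_lit 0) (nat_lit 11118145961) (nat_lit 76) (nat_lit 32000417931) (nat_lit 76) (nat_lit 6435170473) (nat_lit 8) (nat_lit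 4) (nat_lit 9) (nat_lit 5) (nat_lit 9) (nat_lit 4) (nat_lit 380) (nat_lit 244) (nat_lit 156))) (XT.nd (nat_lit 78) (nat_lit 76) (nat_lit 0) (XT.lf (nat_lit 0) (nat_lit 18334644151) (nat_lit 76) (nat_lit 29106276581) (nat_lit 76) (nat_lit 3481362057) (nat_lit 8) (nat_lit 4) (nat_lit 9) (nat_lit 5) (nat_lit 9) (nat_lit 4) (nat_lit 381) (nat_lit 244) (nat_lit 155)) (XT.nd (nat_lit 78) (nat_lit 76) (nat_lit 0) (XT.lf (nat_lit 0) (nat_lit 25742064563) (nat_lit 76) (nat_lit 26136552734) (nat_lit 76) (nat_lit 453709018) (nat_lit 8) (nat_lit 4) (nat_lit 9) (nat_lit 5) (nat_lit 9) (nat_lit 4) (nat_lit 382) (nat_lit 244) (nat_lit 154)) (XT.lf (nat_lit 0) (nat_lit 2598714647) (nat_lit 152) (nat_lit 20463694915) (nat_lit 76) (nat_lit 30721923132) (nat_lit 7) (nat_lit 5) (nat_lit 9) (nat_lit 5) (nat_lit 8) (nat_lit 4) (nat_lit 383) (nat_lit 244) (nat_lit 153))))) (XT.nd (nat_lit 234) (nat_lit 76) (nat_lit 0)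 (XT.nd (nat_lit 78) (nat_lit 0) (nat_lit 0) (XT.lf (nat_lit 0) (nat_lit 5719941793) (nat_lit 152) (nat_lit 14182207629) (nat_lit 76) (nat_lit 35378032561) (nat_lit 7) (nat_lit 5) (nat_lit 9) (nat_lit 5) (nat_lit 8) (nat_lit 4) (nat_lit 384) (nat_lit 244) (nat_lit 152)) (XT.nd (nat_lit 78) (nat_lit 0) (nat_lit 0) (XT.lf (nat_lit 0) (nat_lit 8921553200) (nat_lit 152) (nat_lit 7735949889) (nat_lit 76) (nat_lit 40163808987) (nat_lit 7) (nat_lit 5) (nat_lit 9) (nat_lit 5) (nat_lit 8) (nat_lit 4) (nat_lit 385) (nat_lit 244) (nat_lit 151)) (XT.lf (nat_lit 0) (nat_lit 12206346394) (nat_lit 152) (nat_lit 1119289041) (nat_lit 76) (nat_lit 45083434155) (nat_lit 7) (nat_lit 5) (nat_lit 9) (nat_lit 5) (nat_lit 8) (nat_lit 4) (nat_lit 386) (nat_lit 244) (nat_lit 150)))) (XT.nd (nat_lit 78) (nat_lit 0) (nat_lit 0) (XT.lf (nat_lit 0) (nat_lit 5786471359) (nat_lit 76) (nat_lit 9846343326) (nat_lit 152) (nat_lit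 44410358510) (nat_lit 6) (nat_lit 5) (nat_lit 7) (nat_lit 5) (nat_lit 8) (nat_lit 4) (nat_lit 387) (nat_lit 244) (nat_lit 149)) (XT.nd (nat_lit 78) (nat_lit 0) (nat_lit 0) (XT.lf (nat_lit 0) (nat_lit 12900252506) (nat_lit 76) (nat_lit 6260786777) (nat_lit 152) (nat_lit 42565298847) (nat_lit 6) (nat_lit 5) (nat_lit 7) (nat_lit 5) (nat_lit 8) (nat_lit 4) (nat_lit 388) (nat_lit 244) (nat_lit 148)) (XT.lf (nat_lit 0) (nat_lit 20205994278) (nat_lit 76) (nat_lit 2577135402) (nat_lit 152) (nat_lit 40677234646) (nat_lit 6) (nat_lit 5) (nat_lit 7) (nat_lit 5) (nat_lit 8) (nat_lit 4) (nat_lit 389) (nat_lit 244) (nat_lit 147)))))) (XT.nd (nat_lit 468) (nat_lit 76) (nat_lit 0) (XT.nd (nat_lit 234) (nat_lit 0) (nat_lit 0) (XT.nd (nat_lit 78) (nat_lit 0) (nat_lit 0) (XT.lf (nat_lit 0) (nat_lit 26513861207) (nat_lit 152) (nat_lit 37548297014) (nat_lit 0) (nat_lit 1184260418) (nat_lit 6) (nat_lit 5) (nat_lit 8)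 (nat_lit 4) (nat_lit 6) (nat_lit 4) (nat_lit 390) (nat_lit 244) (nat_lit 146)) (XT.nd (nat_lit 78) (nat_lit 0) (nat_lit 0) (XT.lf (nat_lit 0) (nat_lit 30370651864) (nat_lit 152) (nat_lit 31717038774) (nat_lit 0) (nat_lit 4997946316) (nat_lit 6) (nat_lit 5) (nat_lit 8) (nat_lit 4) (nat_lit 6) (nat_lit 4) (nat_lit 391) (nat_lit 244) (nat_lit 145)) (XT.lf (nat_lit 0) (nat_lit 34332098663) (nat_lit 152) (nat_lit 25730727050) (nat_lit 0) (nat_lit 8917543834) (nat_lit 6) (nat_lit 5) (nat_lit 8) (nat_lit 4) (nat_lit 6) (nat_lit 4) (nat_lit 392) (nat_lit 244) (nat_lit 144)))) (XT.nd (nat_lit 78) (nat_lit 0) (nat_lit 0) (XT.lf (nat_lit 0) (nat_lit 38401663060) (nat_lit 152) (nat_lit 19584131086) (nat_lit 0) (nat_lit 12946477862) (nat_lit 6) (nat_lit 5) (nat_lit 8) (nat_lit 4) (nat_lit 6) (nat_lit 4) (nat_lit 393) (nat_lit 244) (nat_lit 143)) (XT.nd (nat_lit 78) (nat_lit 0) (nat_lit 0) (XT.lf (nat_lit 0)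 (nat_lit 42582900987) (nat_lit 152) (nat_lit 13271880069) (nat_lit 0) (nat_lit 17088268827) (nat_lit 6) (nat_lit 5) (nat_lit 8) (nat_lit 4) (nat_lit 6) (nat_lit 4) (nat_lit 394) (nat_lit 244) (nat_lit 142)) (XT.lf (nat_lit 0) (nat_lit 46879465951) (nat_lit 152) (nat_lit 6788458440) (nat_lit 0) (nat_lit 21346535771) (nat_lit 6) (nat_lit 5) (nat_lit 8) (nat_lit 4) (nat_lit 6) (nat_lit 4) (nat_lit 395) (nat_lit 244) (nat_lit 141))))) (XT.nd (nat_lit 234) (nat_lit 0) (nat_lit 0) (XT.nd (nat_lit 78) (nat_lit 76) (nat_lit 0) (XT.lf (nat_lit 0) (nat_lit 51295112233) (nat_lit 152) (nat_lit 128201073) (nat_lit 0) (nat_lit 25724999510) (nat_lit 6) (nat_lit 5) (nat_lit 8) (nat_lit 4) (nat_lit 6) (nat_lit 4) (nat_lit 396) (nat_lit 244) (nat_lit 140)) (XT.nd (nat_lit 78) (nat_lit 0) (nat_lit 0) (XT.lf (nat_lit 0) (nat_lit 6848347601) (nat_lit 76) (nat_lit 49051181071) (nat_lit 76) (nat_lit 23444968790) (nat_lit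 5) (nat_lit 4) (nat_lit 6) (nat_lit 5) (nat_lit 6) (nat_lit 4) (nat_lit 397) (nat_lit 244) (nat_lit 139)) (XT.lf (nat_lit 0) (nat_lit 14019836551) (nat_lit 76) (nat_lit 46614120196) (nat_lit 76) (nat_lit 20972859801) (nat_lit 5) (nat_lit 4) (nat_lit 6) (nat_lit 5) (nat_lit 6) (nat_lit 4) (nat_lit 398) (nat_lit 244) (nat_lit 138)))) (XT.nd (nat_lit 78) (nat_lit 0) (nat_lit 0) (XT.lf (nat_lit 0) (nat_lit 21389980674) (nat_lit 76) (nat_lit 44111295790) (nat_lit 76) (nat_lit 18436008101) (nat_lit 5) (nat_lit 4) (nat_lit 6) (nat_lit 5) (nat_lit 6) (nat_lit 4) (nat_lit 399) (nat_lit 244) (nat_lit 137)) (XT.nd (nat_lit 78) (nat_lit 0) (nat_lit 0) (XT.lf (nat_lit 0) (nat_lit 28965219902) (nat_lit 76) (nat_lit 41540520921) (nat_lit 76) (nat_lit 15832197023) (nat_lit 5) (nat_lit 4) (nat_lit 6) (nat_lit 5) (nat_lit 6) (nat_lit 4) (nat_lit 400) (nat_lit 244) (nat_lit 136)) (XT.lf (nat_lit 0) (nat_lit 36752173375)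 (nat_lit 76) (nat_lit 38899549279) (nat_lit 76) (nat_lit 13159151392) (nat_lit 5) (nat_lit 4) (nat_lit 6) (nat_lit 5) (nat_lit 6) (nat_lit 4) (nat_lit 401) (nat_lit 244) (nat_lit 135))))))) (XT.nd (nat_lit 32760) (nat_lit 0) (nat_lit 4712) (XT.nd (nat_lit 32292) (nat_lit 0) (nat_lit 7372) (XT.nd (nat_lit 32058) (nat_lit 0) (nat_lit 9272) (XT.nd (nat_lit 31902) (nat_lit 0) (nat_lit 10488) (XT.lf (nat_lit 0) (nat_lit 44757645227) (nat_lit 76) (nat_lit 36186073220) (nat_lit 76) (nat_lit 10414535538) (nat_lit 5) (nat_lit 4) (nat_lit 6) (nat_lit 5) (nat_lit 6) (nat_lit 4) (nat_lit 402) (nat_lit 244) (nat_lit 134)) (XT.nd (nat_lit 78) (nat_lit 532) (nat_lit 0) (XT.lf (nat_lit 0) (nat_lit 1843503608) (nat_lit 608) (nat_lit 76638477) (nat_lit 0) (nat_lit 1843503608) (nat_lit 150) (nat_lit 5) (nat_lit 158) (nat_lit 4) (nat_lit 150) (nat_lit 4) (nat_lit 290) (nat_lit 245) (nat_lit 245)) (XT.lf (nat_lit 0)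 (nat_lit 4829917986) (nat_lit 532) (nat_lit 2092757018) (nat_lit 532) (nat_lit 682436779) (nat_lit 143) (nat_lit 4) (nat_lit 150) (nat_lit 5) (nat_lit 150) (nat_lit 4) (nat_lit 291) (nat_lit 245) (nat_lit 244)))) (XT.nd (nat_lit 78) (nat_lit 608) (nat_lit 0) (XT.lf (nat_lit 0) (nat_lit 2200326768) (nat_lit 532) (nat_lit 252820994) (nat_lit 608) (nat_lit 5233583337) (nat_lit 135) (nat_lit 5) (nat_lit 142) (nat_lit 5) (nat_lit 143) (nat_lit 4) (nat_lit 292) (nat_lit 245) (nat_lit 243)) (XT.nd (nat_lit 78) (nat_lit 608) (nat_lit 0) (XT.lf (nat_lit 0) (nat_lit 5625192246) (nat_lit 608) (nat_lit 510970672) (nat_lit 0) (nat_lit 1635944404) (nat_lit 135) (nat_lit 5) (nat_lit 143) (nat_lit 4) (nat_lit 135) (nat_lit 4) (nat_lit 293) (nat_lit 245) (nat_lit 242)) (XT.lf (nat_lit 0) (nat_lit 972980978) (nat_lit 608) (nat_lit 3267147722) (nat_lit 76) (nat_lit 3620978382) (nat_lit 127) (nat_lit 5) (nat_lit 135)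 (nat_lit 5) (nat_lit 128) (nat_lit 4) (nat_lit 294) (nat_lit 245) (nat_lit 241))))) (XT.nd (nat_lit 234) (nat_lit 912) (nat_lit 0) (XT.nd (nat_lit 78) (nat_lit 532) (nat_lit 0) (XT.lf (nat_lit 0) (nat_lit 1826026545) (nat_lit 456) (nat_lit 2255195267) (nat_lit 532) (nat_lit 3872958168) (nat_lit 121) (nat_lit 5) (nat_lit 127) (nat_lit 5) (nat_lit 128) (nat_lit 4) (nat_lit 295) (nat_lit 245) (nat_lit 240)) (XT.nd (nat_lit 78) (nat_lit 532) (nat_lit 0) (XT.lf (nat_lit 0) (nat_lit 7041744202) (nat_lit 456) (nat_lit 190629656) (nat_lit 532) (nat_lit 819353913) (nat_lit 121) (nat_lit 5) (nat_lit 127) (nat_lit 5) (nat_lit 128) (nat_lit 4) (nat_lit 296) (nat_lit 245) (nat_lit 239)) (XT.lf (nat_lit 0) (nat_lit 2258320671) (nat_lit 532) (nat_lit 3946380053) (nat_lit 76) (nat_lit 1947657820) (nat_lit 114) (nat_lit 5) (nat_lit 121) (nat_lit 5) (nat_lit 115) (nat_lit 4) (nat_lit 297) (nat_lit 245) (nat_lit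 238)))) (XT.nd (nat_lit 78) (nat_lit 532) (nat_lit 0) (XT.lf (nat_lit 0) (nat_lit 1260242289) (nat_lit 380) (nat_lit 4095376594) (nat_lit 456) (nat_lit 2901991113) (nat_lit 109) (nat_lit 5) (nat_lit 114) (nat_lit 5) (nat_lit 115) (nat_lit 4) (nat_lit 298) (nat_lit 245) (nat_lit 237)) (XT.nd (nat_lit 78) (nat_lit 456) (nat_lit 0) (XT.lf (nat_lit 0) (nat_lit 136495931) (nat_lit 456) (nat_lit 1761440559) (nat_lit 76) (nat_lit 6469373923) (nat_lit 108) (nat_lit 5) (nat_lit 114) (nat_lit 5) (nat_lit 109) (nat_lit 5) (nat_lit 299) (nat_lit 245) (nat_lit 236)) (XT.lf (nat_lit 0) (nat_lit 3168435408) (nat_lit 532) (nat_lit 4907804374) (nat_lit 76) (nat_lit 404525907) (nat_lit 102) (nat_lit 5) (nat_lit 109) (nat_lit 5) (nat_lit 103) (nat_lit 4) (nat_lit 300) (nat_lit 245) (nat_lit 235)))))) (XT.nd (nat_lit 468) (nat_lit 1064) (nat_lit 0) (XT.nd (nat_lit 234) (nat_lit 760) (nat_lit 0) (XT.nd (nat_lit 78)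 (nat_lit 456) (nat_lit 0) (XT.lf (nat_lit 0) (nat_lit 398311646) (nat_lit 380) (nat_lit 5857057494) (nat_lit 456) (nat_lit 2343474761) (nat_lit 97) (nat_lit 5) (nat_lit 102) (nat_lit 5) (nat_lit 103) (nat_lit 4) (nat_lit 301) (nat_lit 245) (nat_lit 234)) (XT.nd (nat_lit 78) (nat_lit 380) (nat_lit 0) (XT.lf (nat_lit 0) (nat_lit 674436076) (nat_lit 456) (nat_lit 2859722236) (nat_lit 76) (nat_lit 5187014489) (nat_lit 96) (nat_lit 5) (nat_lit 102) (nat_lit 5) (nat_lit 97) (nat_lit 5) (nat_lit 302) (nat_lit 245) (nat_lit 233)) (XT.lf (nat_lit 0) (nat_lit 2573569266) (nat_lit 380) (nat_lit 1113050414) (nat_lit 456) (nat_lit 5161459147) (nat_lit 91) (nat_lit 5) (nat_lit 96) (nat_lit 5) (nat_lit 97) (nat_lit 5) (nat_lit 303) (nat_lit 245) (nat_lit 232)))) (XT.nd (nat_lit 78) (nat_lit 760) (nat_lit 0) (XT.lf (nat_lit 0) (nat_lit 6758749513) (nat_lit 456) (nat_lit 858933995) (nat_lit 76) (nat_lit 1362145813)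 (nat_lit 91) (nat_lit 5) (nat_lit 97) (nat_lit 5) (nat_lit 92) (nat_lit 4) (nat_lit 304) (nat_lit 245) (nat_lit 231)) (XT.nd (nat_lit 78) (nat_lit 380) (nat_lit 0) (XT.lf (nat_lit 0) (nat_lit 777023582) (nat_lit 380) (nat_lit 4416907433) (nat_lit 76) (nat_lit 3921927893) (nat_lit 86) (nat_lit 5) (nat_lit 91) (nat_lit 5) (nat_lit 87) (nat_lit 5) (nat_lit 305) (nat_lit 245) (nat_lit 230)) (XT.lf (nat_lit 0) (nat_lit 1090944522) (nat_lit 380) (nat_lit 2678367162) (nat_lit 456) (nat_lit 5487645605) (nat_lit 81) (nat_lit 5) (nat_lit 86) (nat_lit 5) (nat_lit 87) (nat_lit 5) (nat_lit 306) (nat_lit 245) (nat_lit 229))))) (XT.nd (nat_lit 234) (nat_lit 684) (nat_lit 0) (XT.nd (nat_lit 78) (nat_lit 380) (nat_lit 0) (XT.lf (nat_lit 0) (nat_lit 6761754706) (nat_lit 380) (nat_lit 65009861) (nat_lit 456) (nat_lit 2576372971) (nat_lit 81) (nat_lit 5) (nat_lit 86) (nat_lit 5) (nat_lit 87) (nat_lit 5) (nat_lit 307)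 (nat_lit 245) (nat_lit 228)) (XT.nd (nat_lit 78) (nat_lit 0) (nat_lit 0) (XT.lf (nat_lit 0) (nat_lit 400341728) (nat_lit 380) (nat_lit 6568074260) (nat_lit 76) (nat_lit 2585679588) (nat_lit 76) (nat_lit 5) (nat_lit 81) (nat_lit 5) (nat_lit 77) (nat_lit 5) (nat_lit 308) (nat_lit 245) (nat_lit 227)) (XT.lf (nat_lit 0) (nat_lit 3375073702) (nat_lit 380) (nat_lit 991358555) (nat_lit 76) (nat_lit 5343671286) (nat_lit 76) (nat_lit 5) (nat_lit 81) (nat_lit 5) (nat_lit 77) (nat_lit 5) (nat_lit 309) (nat_lit 245) (nat_lit 226)))) (XT.nd (nat_lit 78) (nat_lit 380) (nat_lit 0) (XT.lf (nat_lit 0) (nat_lit 4755599888) (nat_lit 304) (nat_lit 1664033174) (nat_lit 380) (nat_lit 3451839572) (nat_lit 72) (nat_lit 5) (nat_lit 76) (nat_lit 5) (nat_lit 77) (nat_lit 5) (nat_lit 310) (nat_lit 245) (nat_lit 225)) (XT.nd (nat_lit 78) (nat_lit 76) (nat_lit 0) (XT.lf (nat_lit 0) (nat_lit 567362356) (nat_lit 304) (nat_lit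 8950165374) (nat_lit 380) (nat_lit 521390690) (nat_lit 68) (nat_lit 5) (nat_lit 72) (nat_lit 5) (nat_lit 73) (nat_lit 4) (nat_lit 311) (nat_lit 245) (nat_lit 224)) (XT.lf (nat_lit 0) (nat_lit 2452860019) (nat_lit 380) (nat_lit 3816092680) (nat_lit 76) (nat_lit 3941666501) (nat_lit 67) (nat_lit 5) (nat_lit 72) (nat_lit 5) (nat_lit 68) (nat_lit 5) (nat_lit 312) (nat_lit 245) (nat_lit 223))))))))
noncomputable def xc69 : XT := (XT.nd (nat_lit 1794) (nat_lit 1368) (nat_lit 0) (XT.nd (nat_lit 858) (nat_lit 1064) (nat_lit 0) (XT.nd (nat_lit 390) (nat_lit 836) (nat_lit 0) (XT.nd (nat_lit 156) (nat_lit 532) (nat_lit 0) (XT.nd (nat_lit 78) (nat_lit 0) (nat_lit 0) (XT.lf (nat_lit 0) (nat_lit 1953417410) (nat_lit 304) (nat_lit 3509049842) (nat_lit 380) (nat_lit 4926238101) (nat_lit 63) (nat_lit 5) (nat_lit 67) (nat_lit 5) (nat_lit 68) (nat_lit 5) (nat_lit 313) (nat_lit 245) (nat_lit 222)) (XT.lf (nat_lit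 0) (nat_lit 7886534207) (nat_lit 304) (nat_lit 653162219) (nat_lit 380) (nat_lit 2033202572) (nat_lit 63) (nat_lit 5) (nat_lit 67) (nat_lit 5) (nat_lit 68) (nat_lit 5) (nat_lit 314) (nat_lit 245) (nat_lit 221))) (XT.nd (nat_lit 78) (nat_lit 228) (nat_lit 0) (XT.lf (nat_lit 0) (nat_lit 920982666) (nat_lit 304) (nat_lit 7583461373) (nat_lit 76) (nat_lit 2258196552) (nat_lit 59) (nat_lit 5) (nat_lit 63) (nat_lit 5) (nat_lit 60) (nat_lit 5) (nat_lit 315) (nat_lit 245) (nat_lit 220)) (XT.nd (nat_lit 78) (nat_lit 228) (nat_lit 0) (XT.lf (nat_lit 0) (nat_lit 3897376296) (nat_lit 304) (nat_lit 1795546907) (nat_lit 76) (nat_lit 5265391577) (nat_lit 59) (nat_lit 5) (nat_lit 63) (nat_lit 5) (nat_lit 60) (nat_lit 5) (nat_lit 316) (nat_lit 245) (nat_lit 219)) (XT.lf (nat_lit 0) (nat_lit 4162593917) (nat_lit 228) (nat_lit 2782797368) (nat_lit 304) (nat_lit 4215073474) (nat_lit 56) (nat_lit 5) (nat_lit 59) (nat_lit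 5) (nat_lit 60) (nat_lit 5) (nat_lit 317) (nat_lit 245) (nat_lit 218))))) (XT.nd (nat_lit 234) (nat_lit 532) (nat_lit 0) (XT.nd (nat_lit 78) (nat_lit 304) (nat_lit 0) (XT.lf (nat_lit 0) (nat_lit 10048152040) (nat_lit 304) (nat_lit 1119418560) (nat_lit 76) (nat_lit 202282732) (nat_lit 56) (nat_lit 5) (nat_lit 60) (nat_lit 5) (nat_lit 57) (nat_lit 4) (nat_lit 318) (nat_lit 245) (nat_lit 217)) (XT.nd (nat_lit 78) (nat_lit 0) (nat_lit 0) (XT.lf (nat_lit 0) (nat_lit 1645681753) (nat_lit 304) (nat_lit 6680124905) (nat_lit 76) (nat_lit 3258720510) (nat_lit 52) (nat_lit 5) (nat_lit 56) (nat_lit 5) (nat_lit 53) (nat_lit 5) (nat_lit 319) (nat_lit 245) (nat_lit 216)) (XT.lf (nat_lit 0) (nat_lit 4631747732) (nat_lit 304) (nat_lit 769809978) (nat_lit 76) (nat_lit 6405071172) (nat_lit 52) (nat_lit 5) (nat_lit 56) (nat_lit 5) (nat_lit 53) (nat_lit 5) (nat_lit 320) (nat_lit 245) (nat_lit 215)))) (XT.nd (nat_lit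 78) (nat_lit 304) (nat_lit 0) (XT.lf (nat_lit 0) (nat_lit 5341270462) (nat_lit 228) (nat_lit 2363886727) (nat_lit 304) (nat_lit 4330368699) (nat_lit 49) (nat_lit 5) (nat_lit 52) (nat_lit 5) (nat_lit 53) (nat_lit 5) (nat_lit 321) (nat_lit 245) (nat_lit 214)) (XT.nd (nat_lit 78) (nat_lit 304) (nat_lit 0) (XT.lf (nat_lit 0) (nat_lit 10832920703) (nat_lit 304) (nat_lit 708387741) (nat_lit 76) (nat_lit 731179996) (nat_lit 49) (nat_lit 5) (nat_lit 53) (nat_lit 5) (nat_lit 50) (nat_lit 4) (nat_lit 322) (nat_lit 245) (nat_lit 213)) (XT.lf (nat_lit 0) (nat_lit 1532522600) (nat_lit 304) (nat_lit 7069689951) (nat_lit 76) (nat_lit 3913226070) (nat_lit 45) (nat_lit 5) (nat_lit 49) (nat_lit 5) (nat_lit 46) (nat_lit 5) (nat_lit 323) (nat_lit 245) (nat_lit 212)))))) (XT.nd (nat_lit 468) (nat_lit 380) (nat_lit 0) (XT.nd (nat_lit 234) (nat_lit 456) (nat_lit 0) (XT.nd (nat_lit 78) (nat_lit 228) (nat_lit 0) (XT.lf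 (nat_lit 0) (nat_lit 4520746842) (nat_lit 304) (nat_lit 1060056131) (nat_lit 76) (nat_lit 7185827417) (nat_lit 45) (nat_lit 5) (nat_lit 49) (nat_lit 5) (nat_lit 46) (nat_lit 5) (nat_lit 324) (nat_lit 245) (nat_lit 211)) (XT.nd (nat_lit 78) (nat_lit 0) (nat_lit 0) (XT.lf (nat_lit 0) (nat_lit 5153438680) (nat_lit 228) (nat_lit 2444892795) (nat_lit 304) (nat_lit 5427091170) (nat_lit 42) (nat_lit 5) (nat_lit 45) (nat_lit 5) (nat_lit 46) (nat_lit 5) (nat_lit 325) (nat_lit 245) (nat_lit 210)) (XT.lf (nat_lit 0) (nat_lit 10737234179) (nat_lit 304) (nat_lit 1801744151) (nat_lit 76) (nat_lit 753985129) (nat_lit 42) (nat_lit 5) (nat_lit 46) (nat_lit 5) (nat_lit 43) (nat_lit 4) (nat_lit 326) (nat_lit 245) (nat_lit 209)))) (XT.nd (nat_lit 78) (nat_lit 228) (nat_lit 0) (XT.lf (nat_lit 0) (nat_lit 413005337) (nat_lit 228) (nat_lit 9134316885) (nat_lit 76) (nat_lit 4020571633) (nat_lit 39) (nat_lit 5) (nat_lit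 42) (nat_lit 5) (nat_lit 40) (nat_lit 5) (nat_lit 327) (nat_lit 245) (nat_lit 208)) (XT.nd (nat_lit 78) (nat_lit 228) (nat_lit 0) (XT.lf (nat_lit 0) (nat_lit 3390041291) (nat_lit 228) (nat_lit 3058626789) (nat_lit 76) (nat_lit 7402576630) (nat_lit 39) (nat_lit 5) (nat_lit 42) (nat_lit 5) (nat_lit 40) (nat_lit 5) (nat_lit 328) (nat_lit 245) (nat_lit 207)) (XT.lf (nat_lit 0) (nat_lit 3188239530) (nat_lit 228) (nat_lit 3252420085) (nat_lit 304) (nat_lit 7702956765) (nat_lit 36) (nat_lit 5) (nat_lit 39) (nat_lit 5) (nat_lit 40) (nat_lit 5) (nat_lit 329) (nat_lit 245) (nat_lit 206))))) (XT.nd (nat_lit 234) (nat_lit 152) (nat_lit 0) (XT.nd (nat_lit 78) (nat_lit 228) (nat_lit 0) (XT.lf (nat_lit 0) (nat_lit 9568388899) (nat_lit 304) (nat_lit 4833059754) (nat_lit 76) (nat_lit 43789794) (nat_lit 36) (nat_lit 5) (nat_lit 40) (nat_lit 5) (nat_lit 37) (nat_lit 4) (nat_lit 330) (nat_lit 245) (nat_lit 205)) (XT.nd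 (nat_lit 78) (nat_lit 76) (nat_lit 0) (XT.lf (nat_lit 0) (nat_lit 1396370708) (nat_lit 152) (nat_lit 11394562266) (nat_lit 228) (nat_lit 1964992363) (nat_lit 34) (nat_lit 5) (nat_lit 36) (nat_lit 5) (nat_lit 37) (nat_lit 4) (nat_lit 331) (nat_lit 245) (nat_lit 204)) (XT.lf (nat_lit 0) (nat_lit 1018824161) (nat_lit 228) (nat_lit 7244965330) (nat_lit 76) (nat_lit 6811744576) (nat_lit 33) (nat_lit 5) (nat_lit 36) (nat_lit 5) (nat_lit 34) (nat_lit 5) (nat_lit 332) (nat_lit 245) (nat_lit 203)))) (XT.nd (nat_lit 78) (nat_lit 152) (nat_lit 0) (XT.lf (nat_lit 0) (nat_lit 4009454327) (nat_lit 228) (nat_lit 1036130543) (nat_lit 76) (nat_lit 10359900496) (nat_lit 33) (nat_lit 5) (nat_lit 36) (nat_lit 5) (nat_lit 34) (nat_lit 5) (nat_lit 333) (nat_lit 245) (nat_lit 202)) (XT.nd (nat_lit 78) (nat_lit 0) (nat_lit 0) (XT.lf (nat_lit 0) (nat_lit 5396570157) (nat_lit 152) (nat_lit 1703160362) (nat_lit 228) (nat_lit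 8645347430) (nat_lit 31) (nat_lit 5) (nat_lit 33) (nat_lit 5) (nat_lit 34) (nat_lit 5) (nat_lit 334) (nat_lit 245) (nat_lit 201)) (XT.lf (nat_lit 0) (nat_lit 10268385530) (nat_lit 228) (nat_lit 4135953571) (nat_lit 76) (nat_lit 1690988470) (nat_lit 31) (nat_lit 5) (nat_lit 34) (nat_lit 5) (nat_lit 32) (nat_lit 4) (nat_lit 335) (nat_lit 245) (nat_lit 200))))))) (XT.nd (nat_lit 936) (nat_lit 608) (nat_lit 0) (XT.nd (nat_lit 468) (nat_lit 380) (nat_lit 0) (XT.nd (nat_lit 234) (nat_lit 152) (nat_lit 0) (XT.nd (nat_lit 78) (nat_lit 76) (nat_lit 0) (XT.lf (nat_lit 0) (nat_lit 2223408188) (nat_lit 152) (nat_lit 11306522454) (nat_lit 228) (nat_lit 2926257358) (nat_lit 29) (nat_lit 5) (nat_lit 31) (nat_lit 5) (nat_lit 32) (nat_lit 4) (nat_lit 336) (nat_lit 245) (nat_lit 199)) (XT.nd (nat_lit 78) (nat_lit 0) (nat_lit 0) (XT.lf (nat_lit 0) (nat_lit 62138786) (nat_lit 228) (nat_lit 8035574390) (nat_lit 76)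 (nat_lit 8730122679) (nat_lit 28) (nat_lit 5) (nat_lit 31) (nat_lit 5) (nat_lit 29) (nat_lit 5) (nat_lit 337) (nat_lit 245) (nat_lit 198)) (XT.lf (nat_lit 0) (nat_lit 3042256846) (nat_lit 228) (nat_lit 1745777791) (nat_lit 76) (nat_lit 12422937764) (nat_lit 28) (nat_lit 5) (nat_lit 31) (nat_lit 5) (nat_lit 29) (nat_lit 5) (nat_lit 338) (nat_lit 245) (nat_lit 197)))) (XT.nd (nat_lit 78) (nat_lit 0) (nat_lit 0) (XT.lf (nat_lit 0) (nat_lit 4763181730) (nat_lit 152) (nat_lit 1356407514) (nat_lit 228) (nat_lit 11485813441) (nat_lit 26) (nat_lit 5) (nat_lit 28) (nat_lit 5) (nat_lit 29) (nat_lit 5) (nat_lit 339) (nat_lit 245) (nat_lit 196)) (XT.nd (nat_lit 78) (nat_lit 0) (nat_lit 0) (XT.lf (nat_lit 0) (nat_lit 9290284009) (nat_lit 228) (nat_lit 6591840305) (nat_lit 76) (nat_lit 2129543272) (nat_lit 26) (nat_lit 5) (nat_lit 29) (nat_lit 5) (nat_lit 27) (nat_lit 4) (nat_lit 340) (nat_lit 245) (nat_lit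 195)) (XT.lf (nat_lit 0) (nat_lit 12532928451) (nat_lit 228) (nat_lit 228336879) (nat_lit 76) (nat_lit 5669582255) (nat_lit 26) (nat_lit 5) (nat_lit 29) (nat_lit 5) (nat_lit 27) (nat_lit 4) (nat_lit 341) (nat_lit 245) (nat_lit 194))))) (XT.nd (nat_lit 234) (nat_lit 0) (nat_lit 0) (XT.nd (nat_lit 78) (nat_lit 228) (nat_lit 0) (XT.lf (nat_lit 0) (nat_lit 6391611648) (nat_lit 152) (nat_lit 9507145764) (nat_lit 228) (nat_lit 2963099502) (nat_lit 24) (nat_lit 5) (nat_lit 26) (nat_lit 5) (nat_lit 27) (nat_lit 4) (nat_lit 342) (nat_lit 245) (nat_lit 193)) (XT.nd (nat_lit 78) (nat_lit 152) (nat_lit 0) (XT.lf (nat_lit 0) (nat_lit 25487099) (nat_lit 228) (nat_lit 6150823123) (nat_lit 76) (nat_lit 13130491707) (nat_lit 23) (nat_lit 5) (nat_lit 26) (nat_lit 5) (nat_lit 24) (nat_lit 5) (nat_lit 343) (nat_lit 245) (nat_lit 192)) (XT.lf (nat_lit 0) (nat_lit 276632687) (nat_lit 152) (nat_lit 2735794661) (nat_lit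 228) (nat_lit 16752768722) (nat_lit 21) (nat_lit 5) (nat_lit 23) (nat_lit 5) (nat_lit 24) (nat_lit 5) (nat_lit 344) (nat_lit 245) (nat_lit 191)))) (XT.nd (nat_lit 78) (nat_lit 0) (nat_lit 0) (XT.lf (nat_lit 0) (nat_lit 6125292511) (nat_lit 228) (nat_lit 13278730979) (nat_lit 76) (nat_lit 832256665) (nat_lit 21) (nat_lit 5) (nat_lit 24) (nat_lit 5) (nat_lit 22) (nat_lit 4) (nat_lit 345) (nat_lit 245) (nat_lit 190)) (XT.nd (nat_lit 78) (nat_lit 0) (nat_lit 0) (XT.lf (nat_lit 0) (nat_lit 9325450228) (nat_lit 228) (nat_lit 6965874126) (nat_lit 76) (nat_lit 4430382022) (nat_lit 21) (nat_lit 5) (nat_lit 24) (nat_lit 5) (nat_lit 22) (nat_lit 4) (nat_lit 346) (nat_lit 245) (nat_lit 189)) (XT.lf (nat_lit 0) (nat_lit 12589398623) (nat_lit 228) (nat_lit 518178607) (nat_lit 76) (nat_lit 8115110610) (nat_lit 21) (nat_lit 5) (nat_lit 24) (nat_lit 5) (nat_lit 22) (nat_lit 4) (nat_lit 347) (nat_lit 245) (nat_lit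 188)))))) (XT.nd (nat_lit 468) (nat_lit 304) (nat_lit 0) (XT.nd (nat_lit 234) (nat_lit 152) (nat_lit 0) (XT.nd (nat_lit 78) (nat_lit 76) (nat_lit 0) (XT.lf (nat_lit 0) (nat_lit 6190794180) (nat_lit 76) (nat_lit 9788705210) (nat_lit 152) (nat_lit 5758377615) (nat_lit 20) (nat_lit 5) (nat_lit 21) (nat_lit 5) (nat_lit 22) (nat_lit 4) (nat_lit 348) (nat_lit 245) (nat_lit 187)) (XT.nd (nat_lit 78) (nat_lit 76) (nat_lit 0) (XT.lf (nat_lit 0) (nat_lit 13059219214) (nat_lit 76) (nat_lit 6386447642) (nat_lit 152) (nat_lit 2823648617) (nat_lit 20) (nat_lit 5) (nat_lit 21) (nat_lit 5) (nat_lit 22) (nat_lit 4) (nat_lit 349) (nat_lit 245) (nat_lit 186)) (XT.lf (nat_lit 0) (nat_lit 164946750) (nat_lit 152) (nat_lit 2736451878) (nat_lit 76) (nat_lit 19916172871) (nat_lit 19) (nat_lit 5) (nat_lit 21) (nat_lit 5) (nat_lit 20) (nat_lit 5) (nat_lit 350) (nat_lit 245) (nat_lit 185)))) (XT.nd (nat_lit 78) (nat_lit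 0) (nat_lit 0) (XT.lf (nat_lit 0) (nat_lit 3201886239) (nat_lit 228) (nat_lit 19458177098) (nat_lit 76) (nat_lit 720932455) (nat_lit 17) (nat_lit 5) (nat_lit 20) (nat_lit 5) (nat_lit 18) (nat_lit 4) (nat_lit 351) (nat_lit 245) (nat_lit 184)) (XT.nd (nat_lit 78) (nat_lit 0) (nat_lit 0) (XT.lf (nat_lit 0) (nat_lit 6357342374) (nat_lit 228) (nat_lit 13201773606) (nat_lit 76) (nat_lit 4401406380) (nat_lit 17) (nat_lit 5) (nat_lit 20) (nat_lit 5) (nat_lit 18) (nat_lit 4) (nat_lit 352) (nat_lit 245) (nat_lit 183)) (XT.lf (nat_lit 0) (nat_lit 9579088749) (nat_lit 228) (nat_lit 6806456099) (nat_lit 76) (nat_lit 8172762249) (nat_lit 17) (nat_lit 5) (nat_lit 20) (nat_lit 5) (nat_lit 18) (nat_lit 4) (nat_lit 353) (nat_lit 245) (nat_lit 182))))) (XT.nd (nat_lit 234) (nat_lit 228) (nat_lit 0) (XT.nd (nat_lit 78) (nat_lit 76) (nat_lit 0) (XT.lf (nat_lit 0) (nat_lit 12869940482) (nat_lit 228) (nat_lit 266636433)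 (nat_lit 76) (nat_lit 12038295422) (nat_lit 17) (nat_lit 5) (nat_lit 20) (nat_lit 5) (nat_lit 18) (nat_lit 4) (nat_lit 354) (nat_lit 245) (nat_lit 181)) (XT.nd (nat_lit 78) (nat_lit 0) (nat_lit 0) (XT.lf (nat_lit 0) (nat_lit 6551238045) (nat_lit 76) (nat_lit 9744509538) (nat_lit 152) (nat_lit 9513120011) (nat_lit 16) (nat_lit 5) (nat_lit 17) (nat_lit 5) (nat_lit 18) (nat_lit 4) (nat_lit 355) (nat_lit 245) (nat_lit 180)) (XT.lf (nat_lit 0) (nat_lit 13533587282) (nat_lit 76) (nat_lit 6267030763) (nat_lit 152) (nat_lit 6661995358) (nat_lit 16) (nat_lit 5) (nat_lit 17) (nat_lit 5) (nat_lit 18) (nat_lit 4) (nat_lit 356) (nat_lit 245) (nat_lit 179)))) (XT.nd (nat_lit 78) (nat_lit 228) (nat_lit 0) (XT.lf (nat_lit 0) (nat_lit 20681205771) (nat_lit 76) (nat_lit 2703794523) (nat_lit 152) (nat_lit 3751759130) (nat_lit 16) (nat_lit 5) (nat_lit 17) (nat_lit 5) (nat_lit 18) (nat_lit 4) (nat_lit 357) (nat_lit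 245) (nat_lit 178)) (XT.nd (nat_lit 78) (nat_lit 76) (nat_lit 0) (XT.lf (nat_lit 0) (nat_lit 162499476) (nat_lit 152) (nat_lit 26900204646) (nat_lit 152) (nat_lit 768870260) (nat_lit 14) (nat_lit 4) (nat_lit 16) (nat_lit 5) (nat_lit 16) (nat_lit 4) (nat_lit 358) (nat_lit 245) (nat_lit 177)) (XT.lf (nat_lit 0) (nat_lit 2326152171) (nat_lit 228) (nat_lit 21527003597) (nat_lit 76) (nat_lit 4691403051) (nat_lit 13) (nat_lit 5) (nat_lit 16) (nat_lit 5) (nat_lit 14) (nat_lit 4) (nat_lit 359) (nat_lit 245) (nat_lit 176))))))))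
noncomputable def xc70 : XT := (XT.nd (nat_lit 1794) (nat_lit 228) (nat_lit 0) (XT.nd (nat_lit 858) (nat_lit 152) (nat_lit 0) (XT.nd (nat_lit 390) (nat_lit 152) (nat_lit 0) (XT.nd (nat_lit 156) (nat_lit 76) (nat_lit 0) (XT.nd (nat_lit 78) (nat_lit 0) (nat_lit 0) (XT.lf (nat_lit 0) (nat_lit 5474292593) (nat_lit 228) (nat_lit 15250606812) (nat_lit 76) (nat_lit 8554550093) (nat_lit 13) (nat_lit 5) (nat_lit 16) (nat_lit 5) (nat_lit 14) (nat_lit 4) (nat_lit 360) (nat_lit 245) (nat_lit 175)) (XT.lf (nat_lit 0) (nat_lit 8693305236) (nat_lit 228) (nat_lit 8827009469) (nat_lit 76) (nat_lit 12516795574) (nat_lit 13) (nat_lit 5) (nat_lit 16) (nat_lit 5) (nat_lit 14) (nat_lit 4) (nat_lit 361) (nat_lit 245) (nat_lit 174))) (XT.nd (nat_lit 78) (nat_lit 76) (nat_lit 0) (XT.lf (nat_lit 0) (nat_lit 11986002830) (nat_lit 228) (nat_lit 2250598715) (nat_lit 76) (nat_lit 16581601652) (nat_lit 13) (nat_lit 5) (nat_lit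 16) (nat_lit 5) (nat_lit 14) (nat_lit 4) (nat_lit 362) (nat_lit 245) (nat_lit 173)) (XT.nd (nat_lit 78) (nat_lit 0) (nat_lit 0) (XT.lf (nat_lit 0) (nat_lit 4573619617) (nat_lit 76) (nat_lit 10825607299) (nat_lit 152) (nat_lit 16222864911) (nat_lit 12) (nat_lit 5) (nat_lit 13) (nat_lit 5) (nat_lit 14) (nat_lit 4) (nat_lit 363) (nat_lit 245) (nat_lit 172)) (XT.lf (nat_lit 0) (nat_lit 11610346765) (nat_lit 76) (nat_lit 7305287214) (nat_lit 152) (nat_lit 13534454397) (nat_lit 12) (nat_lit 5) (nat_lit 13) (nat_lit 5) (nat_lit 14) (nat_lit 4) (nat_lit 364) (nat_lit 245) (nat_lit 171))))) (XT.nd (nat_lit 234) (nat_lit 152) (nat_lit 0) (XT.nd (nat_lit 78) (nat_lit 0) (nat_lit 0) (XT.lf (nat_lit 0) (nat_lit 18820939995) (nat_lit 76) (nat_lit 3695291916) (nat_lit 152) (nat_lit 10787346363) (nat_lit 12) (nat_lit 5) (nat_lit 13) (nat_lit 5) (nat_lit 14) (nat_lit 4) (nat_lit 365) (nat_lit 245) (nat_lit 170))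 (XT.nd (nat_lit 78) (nat_lit 0) (nat_lit 0) (XT.lf (nat_lit 0) (nat_lit 26204239278) (nat_lit 152) (nat_lit 7971679877) (nat_lit 0) (nat_lit 7385964) (nat_lit 12) (nat_lit 5) (nat_lit 14) (nat_lit 4) (nat_lit 12) (nat_lit 4) (nat_lit 366) (nat_lit 245) (nat_lit 169)) (XT.lf (nat_lit 0) (nat_lit 30019250978) (nat_lit 152) (nat_lit 1337549583) (nat_lit 0) (nat_lit 3732145870) (nat_lit 12) (nat_lit 5) (nat_lit 14) (nat_lit 4) (nat_lit 12) (nat_lit 4) (nat_lit 367) (nat_lit 245) (nat_lit 168)))) (XT.nd (nat_lit 78) (nat_lit 76) (nat_lit 0) (XT.lf (nat_lit 0) (nat_lit 5569756836) (nat_lit 76) (nat_lit 28412862183) (nat_lit 76) (nat_lit 2038133976) (nat_lit 11) (nat_lit 4) (nat_lit 12) (nat_lit 5) (nat_lit 12) (nat_lit 4) (nat_lit 368) (nat_lit 245) (nat_lit 167)) (XT.nd (nat_lit 78) (nat_lit 0) (nat_lit 0) (XT.lf (nat_lit 0) (nat_lit 1057259347) (nat_lit 152) (nat_lit 24313562702) (nat_lit 76) (nat_lit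 11609570077) (nat_lit 10) (nat_lit 5) (nat_lit 12) (nat_lit 5) (nat_lit 11) (nat_lit 4) (nat_lit 369) (nat_lit 245) (nat_lit 166)) (XT.lf (nat_lit 0) (nat_lit 4185525426) (nat_lit 152) (nat_lit 18045775738) (nat_lit 76) (nat_lit 15737496691) (nat_lit 10) (nat_lit 5) (nat_lit 12) (nat_lit 5) (nat_lit 11) (nat_lit 4) (nat_lit 370) (nat_lit 245) (nat_lit 165)))))) (XT.nd (nat_lit 468) (nat_lit 76) (nat_lit 0) (XT.nd (nat_lit 234) (nat_lit 0) (nat_lit 0) (XT.nd (nat_lit 78) (nat_lit 76) (nat_lit 0) (XT.lf (nat_lit 0) (nat_lit 7389169031) (nat_lit 152) (nat_lit 11622566769) (nat_lit 76) (nat_lit 19975685788) (nat_lit 10) (nat_lit 5) (nat_lit 12) (nat_lit 5) (nat_lit 11) (nat_lit 4) (nat_lit 371) (nat_lit 245) (nat_lit 164)) (XT.nd (nat_lit 78) (nat_lit 76) (nat_lit 0) (XT.lf (nat_lit 0) (nat_lit 10670989463) (nat_lit 152) (nat_lit 5038323283) (nat_lit 76) (nat_lit 24327840641) (nat_lit 10) (nat_lit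 5) (nat_lit 12) (nat_lit 5) (nat_lit 11) (nat_lit 4) (nat_lit 372) (nat_lit 245) (nat_lit 163)) (XT.lf (nat_lit 0) (nat_lit 1746794189) (nat_lit 76) (nat_lit 12303851396) (nat_lit 152) (nat_lit 27067761169) (nat_lit 9) (nat_lit 5) (nat_lit 10) (nat_lit 5) (nat_lit 11) (nat_lit 4) (nat_lit 373) (nat_lit 245) (nat_lit 162)))) (XT.nd (nat_lit 78) (nat_lit 0) (nat_lit 0) (XT.lf (nat_lit 0) (nat_lit 8808307677) (nat_lit 76) (nat_lit 8757065226) (nat_lit 152) (nat_lit 24665725099) (nat_lit 9) (nat_lit 5) (nat_lit 10) (nat_lit 5) (nat_lit 11) (nat_lit 4) (nat_lit 374) (nat_lit 245) (nat_lit 161)) (XT.nd (nat_lit 78) (nat_lit 0) (nat_lit 0) (XT.lf (nat_lit 0) (nat_lit 16052114922) (nat_lit 76) (nat_lit 5116732288) (nat_lit 152) (nat_lit 22208834035) (nat_lit 9) (nat_lit 5) (nat_lit 10) (nat_lit 5) (nat_lit 11) (nat_lit 4) (nat_lit 375) (nat_lit 245) (nat_lit 160)) (XT.lf (nat_lit 0) (nat_lit 23484545465)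 (nat_lit 76) (nat_lit 1379671710) (nat_lit 152) (nat_lit 19694941178) (nat_lit 9) (nat_lit 5) (nat_lit 10) (nat_lit 5) (nat_lit 11) (nat_lit 4) (nat_lit 376) (nat_lit 245) (nat_lit 159))))) (XT.nd (nat_lit 234) (nat_lit 76) (nat_lit 0) (XT.nd (nat_lit 78) (nat_lit 0) (nat_lit 0) (XT.lf (nat_lit 0) (nat_lit 28678333619) (nat_lit 152) (nat_lit 14688089878) (nat_lit 0) (nat_lit 2409429530) (nat_lit 9) (nat_lit 5) (nat_lit 11) (nat_lit 4) (nat_lit 9) (nat_lit 4) (nat_lit 377) (nat_lit 245) (nat_lit 158)) (XT.nd (nat_lit 78) (nat_lit 0) (nat_lit 0) (XT.lf (nat_lit 0) (nat_lit 32605142437) (nat_lit 152) (nat_lit 8151030010) (nat_lit 0) (nat_lit 6272937556) (nat_lit 9) (nat_lit 5) (nat_lit 11) (nat_lit 4) (nat_lit 9) (nat_lit 4) (nat_lit 378) (nat_lit 245) (nat_lit 157)) (XT.lf (nat_lit 0) (nat_lit 36634812575) (nat_lit 152) (nat_lit 1444459042) (nat_lit 0) (nat_lit 10241150614) (nat_lit 9) (nat_lit 5)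 (nat_lit 11) (nat_lit 4) (nat_lit 9) (nat_lit 4) (nat_lit 379) (nat_lit 245) (nat_lit 156)))) (XT.nd (nat_lit 78) (nat_lit 0) (nat_lit 0) (XT.lf (nat_lit 0) (nat_lit 5545699712) (nat_lit 76) (nat_lit 35278474047) (nat_lit 76) (nat_lit 8825145019) (nat_lit 8) (nat_lit 4) (nat_lit 9) (nat_lit 5) (nat_lit 9) (nat_lit 4) (nat_lit 380) (nat_lit 245) (nat_lit 155)) (XT.nd (nat_lit 78) (nat_lit 0) (nat_lit 0) (XT.lf (nat_lit 0) (nat_lit 12749600501) (nat_lit 76) (nat_lit 32389870502) (nat_lit 76) (nat_lit 5878612282) (nat_lit 8) (nat_lit 4) (nat_lit 9) (nat_lit 5) (nat_lit 9) (nat_lit 4) (nat_lit 381) (nat_lit 245) (nat_lit 154)) (XT.lf (nat_lit 0) (nat_lit 20144790428) (nat_lit 76) (nat_lit 29425523164) (nat_lit 76) (nat_lit 2858023010) (nat_lit 8) (nat_lit 4) (nat_lit 9) (nat_lit 5) (nat_lit 9) (nat_lit 4) (nat_lit 382) (nat_lit 245) (nat_lit 153))))))) (XT.nd (nat_lit 936) (nat_lit 76) (nat_lit 0)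 (XT.nd (nat_lit 468) (nat_lit 0) (nat_lit 0) (XT.nd (nat_lit 234) (nat_lit 76) (nat_lit 0) (XT.nd (nat_lit 78) (nat_lit 0) (nat_lit 0) (XT.lf (nat_lit 0) (nat_lit 234593279) (nat_lit 152) (nat_lit 26145879615) (nat_lit 76) (nat_lit 27500769097) (nat_lit 7) (nat_lit 5) (nat_lit 9) (nat_lit 5) (nat_lit 8) (nat_lit 4) (nat_lit 383) (nat_lit 245) (nat_lit 152)) (XT.nd (nat_lit 78) (nat_lit 0) (nat_lit 0) (XT.lf (nat_lit 0) (nat_lit 3349292074) (nat_lit 152) (nat_lit 19876054479) (nat_lit 76) (nat_lit 32151944395) (nat_lit 7) (nat_lit 5) (nat_lit 9) (nat_lit 5) (nat_lit 8) (nat_lit 4) (nat_lit 384) (nat_lit 245) (nat_lit 151)) (XT.lf (nat_lit 0) (nat_lit 6544565277) (nat_lit 152) (nat_lit 13441119214) (nat_lit 76) (nat_lit 36932930402) (nat_lit 7) (nat_lit 5) (nat_lit 9) (nat_lit 5) (nat_lit 8) (nat_lit 4) (nat_lit 385) (nat_lit 245) (nat_lit 150)))) (XT.nd (nat_lit 78) (nat_lit 76) (nat_lit 0) (XT.lf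 (nat_lit 0) (nat_lit 9823204874) (nat_lit 152) (nat_lit 6835451061) (nat_lit 76) (nat_lit 41847904677) (nat_lit 7) (nat_lit 5) (nat_lit 9) (nat_lit 5) (nat_lit 8) (nat_lit 4) (nat_lit 386) (nat_lit 245) (nat_lit 149)) (XT.nd (nat_lit 78) (nat_lit 76) (nat_lit 0) (XT.lf (nat_lit 0) (nat_lit 13188075697) (nat_lit 152) (nat_lit 53278077) (nat_lit 76) (nat_lit 46901161860) (nat_lit 7) (nat_lit 5) (nat_lit 9) (nat_lit 5) (nat_lit 8) (nat_lit 4) (nat_lit 387) (nat_lit 245) (nat_lit 148)) (XT.lf (nat_lit 0) (nat_lit 7048874845) (nat_lit 76) (nat_lit 9661001175) (nat_lit 152) (nat_lit 45116000669) (nat_lit 6) (nat_lit 5) (nat_lit 7) (nat_lit 5) (nat_lit 8) (nat_lit 4) (nat_lit 388) (nat_lit 245) (nat_lit 147))))) (XT.nd (nat_lit 234) (nat_lit 0) (nat_lit 0) (XT.nd (nat_lit 78) (nat_lit 0) (nat_lit 0) (XT.lf (nat_lit 0) (nat_lit 14344356533) (nat_lit 76) (nat_lit 5981879845) (nat_lit 152) (nat_lit 43233841700)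 (nat_lit 6) (nat_lit 5) (nat_lit 7) (nat_lit 5) (nat_lit 8) (nat_lit 4) (nat_lit 389) (nat_lit 245) (nat_lit 146)) (XT.nd (nat_lit 78) (nat_lit 0) (nat_lit 0) (XT.lf (nat_lit 0) (nat_lit 21838481341) (nat_lit 76) (nat_lit 2201313022) (nat_lit 152) (nat_lit 41306856430) (nat_lit 6) (nat_lit 5) (nat_lit 7) (nat_lit 5) (nat_lit 8) (nat_lit 4) (nat_lit 390) (nat_lit 245) (nat_lit 145)) (XT.lf (nat_lit 0) (nat_lit 27869982497) (nat_lit 152) (nat_lit 37665546049) (nat_lit 0) (nat_lit 1651141742) (nat_lit 6) (nat_lit 5) (nat_lit 8) (nat_lit 4) (nat_lit 6) (nat_lit 4) (nat_lit 391) (nat_lit 245) (nat_lit 144)))) (XT.nd (nat_lit 78) (nat_lit 0) (nat_lit 0) (XT.lf (nat_lit 0) (nat_lit 31826145648) (nat_lit 152) (nat_lit 31688744232) (nat_lit 0) (nat_lit 5566674523) (nat_lit 6) (nat_lit 5) (nat_lit 8) (nat_lit 4) (nat_lit 6) (nat_lit 4) (nat_lit 392) (nat_lit 245) (nat_lit 143)) (XT.nd (nat_lit 78) (nat_lit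 0) (nat_lit 0) (XT.lf (nat_lit 0) (nat_lit 35890580290) (nat_lit 152) (nat_lit 25551381187) (nat_lit 0) (nat_lit 9591662205) (nat_lit 6) (nat_lit 5) (nat_lit 8) (nat_lit 4) (nat_lit 6) (nat_lit 4) (nat_lit 393) (nat_lit 245) (nat_lit 142)) (XT.lf (nat_lit 0) (nat_lit 40066837871) (nat_lit 152) (nat_lit 19248094169) (nat_lit 0) (nat_lit 13729621766) (nat_lit 6) (nat_lit 5) (nat_lit 8) (nat_lit 4) (nat_lit 6) (nat_lit 4) (nat_lit 394) (nat_lit 245) (nat_lit 141)))))) (XT.nd (nat_lit 468) (nat_lit 0) (nat_lit 0) (XT.nd (nat_lit 234) (nat_lit 0) (nat_lit 0) (XT.nd (nat_lit 78) (nat_lit 76) (nat_lit 0) (XT.lf (nat_lit 0) (nat_lit 44358567550) (nat_lit 152) (nat_lit 12773375452) (nat_lit 0) (nat_lit 17984168900) (nat_lit 6) (nat_lit 5) (nat_lit 8) (nat_lit 4) (nat_lit 6) (nat_lit 4) (nat_lit 395) (nat_lit 245) (nat_lit 140)) (XT.nd (nat_lit 78) (nat_lit 76) (nat_lit 0) (XT.lf (nat_lit 0) (nat_lit 48769519380)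 (nat_lit 152) (nat_lit 6121567515) (nat_lit 0) (nat_lit 22359021173) (nat_lit 6) (nat_lit 5) (nat_lit 8) (nat_lit 4) (nat_lit 6) (nat_lit 4) (nat_lit 396) (nat_lit 245) (nat_lit 139)) (XT.lf (nat_lit 0) (nat_lit 727334824) (nat_lit 76) (nat_lit 52583204354) (nat_lit 76) (nat_lit 26137658034) (nat_lit 5) (nat_lit 4) (nat_lit 6) (nat_lit 5) (nat_lit 6) (nat_lit 4) (nat_lit 397) (nat_lit 245) (nat_lit 138)))) (XT.nd (nat_lit 78) (nat_lit 0) (nat_lit 0) (XT.lf (nat_lit 0) (nat_lit 7890700870) (nat_lit 76) (nat_lit 50149763329) (nat_lit 76) (nat_lit 23670189714) (nat_lit 5) (nat_lit 4) (nat_lit 6) (nat_lit 5) (nat_lit 6) (nat_lit 4) (nat_lit 398) (nat_lit 245) (nat_lit 137)) (XT.nd (nat_lit 78) (nat_lit 0) (nat_lit 0) (XT.lf (nat_lit 0) (nat_lit 15252958678) (nat_lit 76) (nat_lit 47650453341) (nat_lit 76) (nat_lit 21137843517) (nat_lit 5) (nat_lit 4) (nat_lit 6) (nat_lit 5) (nat_lit 6) (nat_lit 4) (nat_lit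 399) (nat_lit 245) (nat_lit 136)) (XT.lf (nat_lit 0) (nat_lit 22820541289) (nat_lit 76) (nat_lit 45083090528) (nat_lit 76) (nat_lit 18538406715) (nat_lit 5) (nat_lit 4) (nat_lit 6) (nat_lit 5) (nat_lit 6) (nat_lit 4) (nat_lit 400) (nat_lit 245) (nat_lit 135))))) (XT.nd (nat_lit 31902) (nat_lit 0) (nat_lit 10412) (XT.nd (nat_lit 78) (nat_lit 0) (nat_lit 0) (XT.lf (nat_lit 0) (nat_lit 30600061154) (nat_lit 76) (nat_lit 42445431562) (nat_lit 76) (nat_lit 15869607954) (nat_lit 5) (nat_lit 4) (nat_lit 6) (nat_lit 5) (nat_lit 6) (nat_lit 4) (nat_lit 401) (nat_lit 245) (nat_lit 134)) (XT.nd (nat_lit 31746) (nat_lit 0) (nat_lit 11628) (XT.lf (nat_lit 0) (nat_lit 38598315911) (nat_lit 76) (nat_lit 39735171693) (nat_lit 76) (nat_lit 13129115274) (nat_lit 5) (nat_lit 4) (nat_lit 6) (nat_lit 5) (nat_lit 6) (nat_lit 4) (nat_lit 402) (nat_lit 245) (nat_lit 133)) (XT.lf (nat_lit 0) (nat_lit 2522394109) (nat_lit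 1064) (nat_lit 584145874) (nat_lit 1064) (nat_lit 584145874) (nat_lit 158) (nat_lit 4) (nat_lit 172) (nat_lit 5) (nat_lit 172) (nat_lit 4) (nat_lit 288) (nat_lit 246) (nat_lit 246)))) (XT.nd (nat_lit 78) (nat_lit 608) (nat_lit 0) (XT.lf (nat_lit 0) (nat_lit 1955733563) (nat_lit 608) (nat_lit 4994380808) (nat_lit 0) (nat_lit 503103717) (nat_lit 150) (nat_lit 5) (nat_lit 158) (nat_lit 4) (nat_lit 150) (nat_lit 4) (nat_lit 289) (nat_lit 246) (nat_lit 245)) (XT.nd (nat_lit 78) (nat_lit 608) (nat_lit 0) (XT.lf (nat_lit 0) (nat_lit 5095212952) (nat_lit 608) (nat_lit 201252878) (nat_lit 0) (nat_lit 2232262867) (nat_lit 150) (nat_lit 5) (nat_lit 158) (nat_lit 4) (nat_lit 150) (nat_lit 4) (nat_lit 290) (nat_lit 246) (nat_lit 244)) (XT.lf (nat_lit 0) (nat_lit 665604350) (nat_lit 608) (nat_lit 2881016203) (nat_lit 76) (nat_lit 4061156027) (nat_lit 142) (nat_lit 5) (nat_lit 150) (nat_lit 5) (nat_lit 143) (nat_lit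 4) (nat_lit 291) (nat_lit 246) (nat_lit 243))))))))
noncomputable def xc71 : XT := (XT.nd (nat_lit 1794) (nat_lit 2660) (nat_lit 0) (XT.nd (nat_lit 858) (nat_lit 2508) (nat_lit 0) (XT.nd (nat_lit 390) (nat_lit 1824) (nat_lit 0) (XT.nd (nat_lit 156) (nat_lit 1140) (nat_lit 0) (XT.nd (nat_lit 78) (nat_lit 0) (nat_lit 0) (XT.lf (nat_lit 0) (nat_lit 2037700860) (nat_lit 532) (nat_lit 1705774993) (nat_lit 608) (nat_lit 3947150841) (nat_lit 135) (nat_lit 5) (nat_lit 142) (nat_lit 5) (nat_lit 143) (nat_lit 4) (nat_lit 292) (nat_lit 246) (nat_lit 242)) (XT.lf (nat_lit 0) (nat_lit 6859476229) (nat_lit 608) (nat_lit 711444053) (nat_lit 0) (nat_lit 206856882) (nat_lit 135) (nat_lit 5) (nat_lit 143) (nat_lit 4) (nat_lit 135) (nat_lit 4) (nat_lit 293) (nat_lit 246) (nat_lit 241))) (XT.nd (nat_lit 78) (nat_lit 532) (nat_lit 0) (XT.lf (nat_lit 0) (nat_lit 2133830124) (nat_lit 608) (nat_lit 3537498821) (nat_lit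 76) (nat_lit 2196494971) (nat_lit 127) (nat_lit 5) (nat_lit 135) (nat_lit 5) (nat_lit 128) (nat_lit 4) (nat_lit 294) (nat_lit 246) (nat_lit 240)) (XT.nd (nat_lit 78) (nat_lit 76) (nat_lit 0) (XT.lf (nat_lit 0) (nat_lit 1502400759) (nat_lit 456) (nat_lit 3695971521) (nat_lit 532) (nat_lit 2763920532) (nat_lit 121) (nat_lit 5) (nat_lit 127) (nat_lit 5) (nat_lit 128) (nat_lit 4) (nat_lit 295) (nat_lit 246) (nat_lit 239)) (XT.lf (nat_lit 0) (nat_lit 243702820) (nat_lit 532) (nat_lit 1391888763) (nat_lit 76) (nat_lit 6425455481) (nat_lit 120) (nat_lit 5) (nat_lit 127) (nat_lit 5) (nat_lit 121) (nat_lit 5) (nat_lit 296) (nat_lit 246) (nat_lit 238))))) (XT.nd (nat_lit 234) (nat_lit 912) (nat_lit 0) (XT.nd (nat_lit 78) (nat_lit 456) (nat_lit 0) (XT.lf (nat_lit 0) (nat_lit 3248042943) (nat_lit 532) (nat_lit 4387379820) (nat_lit 76) (nat_lit 527816989) (nat_lit 114) (nat_lit 5) (nat_lit 121) (nat_lit 5)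 (nat_lit 115) (nat_lit 4) (nat_lit 297) (nat_lit 246) (nat_lit 237)) (XT.nd (nat_lit 78) (nat_lit 76) (nat_lit 0) (XT.lf (nat_lit 0) (nat_lit 762824369) (nat_lit 380) (nat_lit 5539216060) (nat_lit 456) (nat_lit 1967825353) (nat_lit 109) (nat_lit 5) (nat_lit 114) (nat_lit 5) (nat_lit 115) (nat_lit 4) (nat_lit 298) (nat_lit 246) (nat_lit 236)) (XT.lf (nat_lit 0) (nat_lit 1014144216) (nat_lit 456) (nat_lit 2327181053) (nat_lit 76) (nat_lit 5039191411) (nat_lit 108) (nat_lit 5) (nat_lit 114) (nat_lit 5) (nat_lit 109) (nat_lit 5) (nat_lit 299) (nat_lit 246) (nat_lit 235)))) (XT.nd (nat_lit 78) (nat_lit 456) (nat_lit 0) (XT.lf (nat_lit 0) (nat_lit 2953421018) (nat_lit 456) (nat_lit 1045528730) (nat_lit 532) (nat_lit 4496505369) (nat_lit 102) (nat_lit 5) (nat_lit 108) (nat_lit 5) (nat_lit 109) (nat_lit 5) (nat_lit 300) (nat_lit 246) (nat_lit 234)) (XT.nd (nat_lit 78) (nat_lit 456) (nat_lit 0) (XT.lf (nat_lit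 0) (nat_lit 7035394619) (nat_lit 532) (nat_lit 279986540) (nat_lit 76) (nat_lit 1299733965) (nat_lit 102) (nat_lit 5) (nat_lit 109) (nat_lit 5) (nat_lit 103) (nat_lit 4) (nat_lit 301) (nat_lit 246) (nat_lit 233)) (XT.lf (nat_lit 0) (nat_lit 1384109784) (nat_lit 456) (nat_lit 3613940429) (nat_lit 76) (nat_lit 3740412146) (nat_lit 96) (nat_lit 5) (nat_lit 102) (nat_lit 5) (nat_lit 97) (nat_lit 5) (nat_lit 302) (nat_lit 246) (nat_lit 232)))))) (XT.nd (nat_lit 468) (nat_lit 988) (nat_lit 0) (XT.nd (nat_lit 234) (nat_lit 760) (nat_lit 0) (XT.nd (nat_lit 78) (nat_lit 380) (nat_lit 0) (XT.lf (nat_lit 0) (nat_lit 1758118638) (nat_lit 380) (nat_lit 2594991666) (nat_lit 456) (nat_lit 4513615005) (nat_lit 91) (nat_lit 5) (nat_lit 96) (nat_lit 5) (nat_lit 97) (nat_lit 5) (nat_lit 303) (nat_lit 246) (nat_lit 231)) (XT.nd (nat_lit 78) (nat_lit 380) (nat_lit 0) (XT.lf (nat_lit 0) (nat_lit 7274323960) (nat_lit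 380) (nat_lit 102815412) (nat_lit 456) (nat_lit 1622839099) (nat_lit 91) (nat_lit 5) (nat_lit 96) (nat_lit 5) (nat_lit 97) (nat_lit 5) (nat_lit 304) (nat_lit 246) (nat_lit 230)) (XT.lf (nat_lit 0) (nat_lit 1319359100) (nat_lit 380) (nat_lit 5372136308) (nat_lit 76) (nat_lit 2445723290) (nat_lit 86) (nat_lit 5) (nat_lit 91) (nat_lit 5) (nat_lit 87) (nat_lit 5) (nat_lit 305) (nat_lit 246) (nat_lit 229)))) (XT.nd (nat_lit 78) (nat_lit 380) (nat_lit 0) (XT.lf (nat_lit 0) (nat_lit 70980777) (nat_lit 380) (nat_lit 4197209827) (nat_lit 456) (nat_lit 5011484755) (nat_lit 81) (nat_lit 5) (nat_lit 86) (nat_lit 5) (nat_lit 87) (nat_lit 5) (nat_lit 306) (nat_lit 246) (nat_lit 228)) (XT.nd (nat_lit 78) (nat_lit 380) (nat_lit 0) (XT.lf (nat_lit 0) (nat_lit 5697398785) (nat_lit 380) (nat_lit 1595146054) (nat_lit 456) (nat_lit 2134356723) (nat_lit 81) (nat_lit 5) (nat_lit 86) (nat_lit 5) (nat_lit 87) (nat_lit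 5) (nat_lit 307) (nat_lit 246) (nat_lit 227)) (XT.lf (nat_lit 0) (nat_lit 775205180) (nat_lit 380) (nat_lit 7736961466) (nat_lit 76) (nat_lit 1067371261) (nat_lit 76) (nat_lit 5) (nat_lit 81) (nat_lit 5) (nat_lit 77) (nat_lit 5) (nat_lit 308) (nat_lit 246) (nat_lit 226))))) (XT.nd (nat_lit 234) (nat_lit 684) (nat_lit 0) (XT.nd (nat_lit 78) (nat_lit 304) (nat_lit 0) (XT.lf (nat_lit 0) (nat_lit 3717854243) (nat_lit 380) (nat_lit 2204510596) (nat_lit 76) (nat_lit 3814192018) (nat_lit 76) (nat_lit 5) (nat_lit 81) (nat_lit 5) (nat_lit 77) (nat_lit 5) (nat_lit 309) (nat_lit 246) (nat_lit 225)) (XT.nd (nat_lit 78) (nat_lit 0) (nat_lit 0) (XT.lf (nat_lit 0) (nat_lit 3474472878) (nat_lit 304) (nat_lit 3244477292) (nat_lit 380) (nat_lit 3180326763) (nat_lit 72) (nat_lit 5) (nat_lit 76) (nat_lit 5) (nat_lit 77) (nat_lit 5) (nat_lit 310) (nat_lit 246) (nat_lit 224)) (XT.lf (nat_lit 0) (nat_lit 9282631058)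 (nat_lit 304) (nat_lit 487489088) (nat_lit 380) (nat_lit 298050026) (nat_lit 72) (nat_lit 5) (nat_lit 76) (nat_lit 5) (nat_lit 77) (nat_lit 5) (nat_lit 311) (nat_lit 246) (nat_lit 223)))) (XT.nd (nat_lit 78) (nat_lit 304) (nat_lit 0) (XT.lf (nat_lit 0) (nat_lit 2628753718) (nat_lit 380) (nat_lit 5255127384) (nat_lit 76) (nat_lit 2357261195) (nat_lit 67) (nat_lit 5) (nat_lit 72) (nat_lit 5) (nat_lit 68) (nat_lit 5) (nat_lit 312) (nat_lit 246) (nat_lit 222)) (XT.nd (nat_lit 78) (nat_lit 0) (nat_lit 0) (XT.lf (nat_lit 0) (nat_lit 442538781) (nat_lit 304) (nat_lit 5151565549) (nat_lit 380) (nat_lit 4826493651) (nat_lit 63) (nat_lit 5) (nat_lit 67) (nat_lit 5) (nat_lit 68) (nat_lit 5) (nat_lit 313) (nat_lit 246) (nat_lit 221)) (XT.lf (nat_lit 0) (nat_lit 6333709642) (nat_lit 304) (nat_lit 2308353534) (nat_lit 380) (nat_lit 1963647175) (nat_lit 63) (nat_lit 5) (nat_lit 67) (nat_lit 5) (nat_lit 68) (nat_lit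 5) (nat_lit 314) (nat_lit 246) (nat_lit 220))))))) (XT.nd (nat_lit 936) (nat_lit 1064) (nat_lit 0) (XT.nd (nat_lit 468) (nat_lit 760) (nat_lit 0) (XT.nd (nat_lit 234) (nat_lit 304) (nat_lit 0) (XT.nd (nat_lit 78) (nat_lit 228) (nat_lit 0) (XT.lf (nat_lit 0) (nat_lit 928302551) (nat_lit 304) (nat_lit 9261480796) (nat_lit 76) (nat_lit 607513168) (nat_lit 59) (nat_lit 5) (nat_lit 63) (nat_lit 5) (nat_lit 60) (nat_lit 5) (nat_lit 315) (nat_lit 246) (nat_lit 219)) (XT.nd (nat_lit 78) (nat_lit 228) (nat_lit 0) (XT.lf (nat_lit 0) (nat_lit 3876280492) (nat_lit 304) (nat_lit 3515260061) (nat_lit 76) (nat_lit 3602319789) (nat_lit 59) (nat_lit 5) (nat_lit 63) (nat_lit 5) (nat_lit 60) (nat_lit 5) (nat_lit 316) (nat_lit 246) (nat_lit 218)) (XT.lf (nat_lit 0) (nat_lit 2367370130) (nat_lit 228) (nat_lit 4512080516) (nat_lit 304) (nat_lit 4317941106) (nat_lit 56) (nat_lit 5) (nat_lit 59) (nat_lit 5) (nat_lit 60)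 (nat_lit 5) (nat_lit 317) (nat_lit 246) (nat_lit 217)))) (XT.nd (nat_lit 78) (nat_lit 304) (nat_lit 0) (XT.lf (nat_lit 0) (nat_lit 8417171149) (nat_lit 228) (nat_lit 1535887278) (nat_lit 304) (nat_lit 1454631521) (nat_lit 56) (nat_lit 5) (nat_lit 59) (nat_lit 5) (nat_lit 60) (nat_lit 5) (nat_lit 318) (nat_lit 246) (nat_lit 216)) (XT.nd (nat_lit 78) (nat_lit 0) (nat_lit 0) (XT.lf (nat_lit 0) (nat_lit 1454868881) (nat_lit 304) (nat_lit 8651609841) (nat_lit 76) (nat_lit 1517770717) (nat_lit 52) (nat_lit 5) (nat_lit 56) (nat_lit 5) (nat_lit 53) (nat_lit 5) (nat_lit 319) (nat_lit 246) (nat_lit 215)) (XT.lf (nat_lit 0) (nat_lit 4414539757) (nat_lit 304) (nat_lit 2781083761) (nat_lit 76) (nat_lit 4651551551) (nat_lit 52) (nat_lit 5) (nat_lit 56) (nat_lit 5) (nat_lit 53) (nat_lit 5) (nat_lit 320) (nat_lit 246) (nat_lit 214))))) (XT.nd (nat_lit 234) (nat_lit 228) (nat_lit 0) (XT.nd (nat_lit 78) (nat_lit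 304) (nat_lit 0) (XT.lf (nat_lit 0) (nat_lit 3250569626) (nat_lit 228) (nat_lit 4191656177) (nat_lit 304) (nat_lit 4635249101) (nat_lit 49) (nat_lit 5) (nat_lit 52) (nat_lit 5) (nat_lit 53) (nat_lit 5) (nat_lit 321) (nat_lit 246) (nat_lit 213)) (XT.nd (nat_lit 78) (nat_lit 304) (nat_lit 0) (XT.lf (nat_lit 0) (nat_lit 9442532124) (nat_lit 228) (nat_lit 1095041151) (nat_lit 304) (nat_lit 1777866883) (nat_lit 49) (nat_lit 5) (nat_lit 52) (nat_lit 5) (nat_lit 53) (nat_lit 5) (nat_lit 322) (nat_lit 246) (nat_lit 212)) (XT.lf (nat_lit 0) (nat_lit 1143587458) (nat_lit 304) (nat_lit 9345952515) (nat_lit 76) (nat_lit 2070693535) (nat_lit 45) (nat_lit 5) (nat_lit 49) (nat_lit 5) (nat_lit 46) (nat_lit 5) (nat_lit 323) (nat_lit 246) (nat_lit 211)))) (XT.nd (nat_lit 78) (nat_lit 228) (nat_lit 0) (XT.lf (nat_lit 0) (nat_lit 4107267690) (nat_lit 304) (nat_lit 3374244888) (nat_lit 76) (nat_lit 5330676676) (nat_lit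 45) (nat_lit 5) (nat_lit 49) (nat_lit 5) (nat_lit 46) (nat_lit 5) (nat_lit 324) (nat_lit 246) (nat_lit 210)) (XT.nd (nat_lit 78) (nat_lit 0) (nat_lit 0) (XT.lf (nat_lit 0) (nat_lit 2755638661) (nat_lit 228) (nat_lit 4382335405) (nat_lit 304) (nat_lit 5934440641) (nat_lit 42) (nat_lit 5) (nat_lit 45) (nat_lit 5) (nat_lit 46) (nat_lit 5) (nat_lit 325) (nat_lit 246) (nat_lit 209)) (XT.lf (nat_lit 0) (nat_lit 9064572508) (nat_lit 228) (nat_lit 1181426684) (nat_lit 304) (nat_lit 3094908724) (nat_lit 42) (nat_lit 5) (nat_lit 45) (nat_lit 5) (nat_lit 46) (nat_lit 5) (nat_lit 326) (nat_lit 246) (nat_lit 208)))))) (XT.nd (nat_lit 468) (nat_lit 380) (nat_lit 0) (XT.nd (nat_lit 234) (nat_lit 228) (nat_lit 0) (XT.nd (nat_lit 78) (nat_lit 304) (nat_lit 0) (XT.lf (nat_lit 0) (nat_lit 1888786585) (nat_lit 152) (nat_lit 11550437331) (nat_lit 228) (nat_lit 178524619) (nat_lit 40) (nat_lit 5) (nat_lit 42) (nat_lit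 5) (nat_lit 43) (nat_lit 4) (nat_lit 327) (nat_lit 246) (nat_lit 207)) (XT.nd (nat_lit 78) (nat_lit 228) (nat_lit 0) (XT.lf (nat_lit 0) (nat_lit 2779149664) (nat_lit 228) (nat_lit 5687668336) (nat_lit 76) (nat_lit 5435042089) (nat_lit 39) (nat_lit 5) (nat_lit 42) (nat_lit 5) (nat_lit 40) (nat_lit 5) (nat_lit 328) (nat_lit 246) (nat_lit 206)) (XT.lf (nat_lit 0) (nat_lit 471116376) (nat_lit 228) (nat_lit 5310353032) (nat_lit 304) (nat_lit 8414234471) (nat_lit 36) (nat_lit 5) (nat_lit 39) (nat_lit 5) (nat_lit 40) (nat_lit 5) (nat_lit 329) (nat_lit 246) (nat_lit 205)))) (XT.nd (nat_lit 78) (nat_lit 228) (nat_lit 0) (XT.lf (nat_lit 0) (nat_lit 6860780716) (nat_lit 228) (nat_lit 2026121030) (nat_lit 304) (nat_lit 5611115595) (nat_lit 36) (nat_lit 5) (nat_lit 39) (nat_lit 5) (nat_lit 40) (nat_lit 5) (nat_lit 330) (nat_lit 246) (nat_lit 204)) (XT.nd (nat_lit 78) (nat_lit 228) (nat_lit 0) (XT.lf (nat_lit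 0) (nat_lit 12055196107) (nat_lit 304) (nat_lit 1449822745) (nat_lit 76) (nat_lit 1305334704) (nat_lit 36) (nat_lit 5) (nat_lit 40) (nat_lit 5) (nat_lit 37) (nat_lit 4) (nat_lit 331) (nat_lit 246) (nat_lit 203)) (XT.lf (nat_lit 0) (nat_lit 208439393) (nat_lit 228) (nat_lit 10201484568) (nat_lit 76) (nat_lit 4721355929) (nat_lit 33) (nat_lit 5) (nat_lit 36) (nat_lit 5) (nat_lit 34) (nat_lit 5) (nat_lit 332) (nat_lit 246) (nat_lit 202))))) (XT.nd (nat_lit 234) (nat_lit 228) (nat_lit 0) (XT.nd (nat_lit 78) (nat_lit 152) (nat_lit 0) (XT.lf (nat_lit 0) (nat_lit 3178405514) (nat_lit 228) (nat_lit 4026002318) (nat_lit 76) (nat_lit 8257463258) (nat_lit 33) (nat_lit 5) (nat_lit 36) (nat_lit 5) (nat_lit 34) (nat_lit 5) (nat_lit 333) (nat_lit 246) (nat_lit 201)) (XT.nd (nat_lit 78) (nat_lit 0) (nat_lit 0) (XT.lf (nat_lit 0) (nat_lit 2314168519) (nat_lit 152) (nat_lit 3904821077) (nat_lit 228) (nat_lit 9583984239)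 (nat_lit 31) (nat_lit 5) (nat_lit 33) (nat_lit 5) (nat_lit 34) (nat_lit 5) (nat_lit 334) (nat_lit 246) (nat_lit 200)) (XT.lf (nat_lit 0) (nat_lit 8861984387) (nat_lit 152) (nat_lit 489295840) (nat_lit 228) (nat_lit 6803052993) (nat_lit 31) (nat_lit 5) (nat_lit 33) (nat_lit 5) (nat_lit 34) (nat_lit 5) (nat_lit 335) (nat_lit 246) (nat_lit 199)))) (XT.nd (nat_lit 78) (nat_lit 228) (nat_lit 0) (XT.lf (nat_lit 0) (nat_lit 12567424819) (nat_lit 228) (nat_lit 1003280111) (nat_lit 76) (nat_lit 2945869018) (nat_lit 31) (nat_lit 5) (nat_lit 34) (nat_lit 5) (nat_lit 32) (nat_lit 4) (nat_lit 336) (nat_lit 246) (nat_lit 198)) (XT.nd (nat_lit 78) (nat_lit 76) (nat_lit 0) (XT.lf (nat_lit 0) (nat_lit 5514933559) (nat_lit 152) (nat_lit 10384891764) (nat_lit 228) (nat_lit 989299463) (nat_lit 29) (nat_lit 5) (nat_lit 31) (nat_lit 5) (nat_lit 32) (nat_lit 4) (nat_lit 337) (nat_lit 246) (nat_lit 197)) (XT.lf (nat_lit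 0) (nat_lit 1991416092) (nat_lit 228) (nat_lit 5105662121) (nat_lit 76) (nat_lit 10176046362) (nat_lit 28) (nat_lit 5) (nat_lit 31) (nat_lit 5) (nat_lit 29) (nat_lit 5) (nat_lit 338) (nat_lit 246) (nat_lit 196))))))))
noncomputable def xc72 : XT := (XT.nd (nat_lit 1794) (nat_lit 456) (nat_lit 0) (XT.nd (nat_lit 858) (nat_lit 532) (nat_lit 0) (XT.nd (nat_lit 390) (nat_lit 304) (nat_lit 0) (XT.nd (nat_lit 156) (nat_lit 152) (nat_lit 0) (XT.nd (nat_lit 78) (nat_lit 0) (nat_lit 0) (XT.lf (nat_lit 0) (nat_lit 1305953607) (nat_lit 152) (nat_lit 3711399464) (nat_lit 228) (nat_lit 12651759898) (nat_lit 26) (nat_lit 5) (nat_lit 28) (nat_lit 5) (nat_lit 29) (nat_lit 5) (nat_lit 339) (nat_lit 246) (nat_lit 195)) (XT.lf (nat_lit 0) (nat_lit 7954515499) (nat_lit 152) (nat_lit 194736620) (nat_lit 228) (nat_lit 9927305394) (nat_lit 26) (nat_lit 5) (nat_lit 28) (nat_lit 5) (nat_lit 29) (nat_lit 5) (nat_lit 340)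 (nat_lit 246) (nat_lit 194))) (XT.nd (nat_lit 78) (nat_lit 152) (nat_lit 0) (XT.lf (nat_lit 0) (nat_lit 11372519759) (nat_lit 228) (nat_lit 3785821028) (nat_lit 76) (nat_lit 3337993342) (nat_lit 26) (nat_lit 5) (nat_lit 29) (nat_lit 5) (nat_lit 27) (nat_lit 4) (nat_lit 341) (nat_lit 246) (nat_lit 193)) (XT.nd (nat_lit 78) (nat_lit 0) (nat_lit 0) (XT.lf (nat_lit 0) (nat_lit 2734458048) (nat_lit 152) (nat_lit 11951740849) (nat_lit 228) (nat_lit 4242723920) (nat_lit 24) (nat_lit 5) (nat_lit 26) (nat_lit 5) (nat_lit 27) (nat_lit 4) (nat_lit 342) (nat_lit 246) (nat_lit 192)) (XT.lf (nat_lit 0) (nat_lit 9471054868) (nat_lit 152) (nat_lit 8632420944) (nat_lit 228) (nat_lit 1270917035) (nat_lit 24) (nat_lit 5) (nat_lit 26) (nat_lit 5) (nat_lit 27) (nat_lit 4) (nat_lit 343) (nat_lit 246) (nat_lit 191))))) (XT.nd (nat_lit 234) (nat_lit 76) (nat_lit 0) (XT.nd (nat_lit 78) (nat_lit 152) (nat_lit 0) (XT.lf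 (nat_lit 0) (nat_lit 1721708270) (nat_lit 228) (nat_lit 3496615915) (nat_lit 76) (nat_lit 14615416366) (nat_lit 23) (nat_lit 5) (nat_lit 26) (nat_lit 5) (nat_lit 24) (nat_lit 5) (nat_lit 344) (nat_lit 246) (nat_lit 190)) (XT.nd (nat_lit 78) (nat_lit 0) (nat_lit 0) (XT.lf (nat_lit 0) (nat_lit 3095832864) (nat_lit 152) (nat_lit 1680061735) (nat_lit 228) (nat_lit 15530703610) (nat_lit 21) (nat_lit 5) (nat_lit 23) (nat_lit 5) (nat_lit 24) (nat_lit 5) (nat_lit 345) (nat_lit 246) (nat_lit 189)) (XT.lf (nat_lit 0) (nat_lit 7944033544) (nat_lit 228) (nat_lit 10908629175) (nat_lit 76) (nat_lit 1940335100) (nat_lit 21) (nat_lit 5) (nat_lit 24) (nat_lit 5) (nat_lit 22) (nat_lit 4) (nat_lit 346) (nat_lit 246) (nat_lit 188)))) (XT.nd (nat_lit 78) (nat_lit 76) (nat_lit 0) (XT.lf (nat_lit 0) (nat_lit 11192575150) (nat_lit 228) (nat_lit 4487021483) (nat_lit 76) (nat_lit 5614857303) (nat_lit 21) (nat_lit 5) (nat_lit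 24) (nat_lit 5) (nat_lit 22) (nat_lit 4) (nat_lit 347) (nat_lit 246) (nat_lit 187)) (XT.nd (nat_lit 78) (nat_lit 0) (nat_lit 0) (XT.lf (nat_lit 0) (nat_lit 2117131484) (nat_lit 76) (nat_lit 12411427848) (nat_lit 152) (nat_lit 7282719355) (nat_lit 20) (nat_lit 5) (nat_lit 21) (nat_lit 5) (nat_lit 22) (nat_lit 4) (nat_lit 348) (nat_lit 246) (nat_lit 186)) (XT.lf (nat_lit 0) (nat_lit 8960476844) (nat_lit 76) (nat_lit 9019486497) (nat_lit 152) (nat_lit 4363208454) (nat_lit 20) (nat_lit 5) (nat_lit 21) (nat_lit 5) (nat_lit 22) (nat_lit 4) (nat_lit 349) (nat_lit 246) (nat_lit 185)))))) (XT.nd (nat_lit 468) (nat_lit 228) (nat_lit 0) (XT.nd (nat_lit 234) (nat_lit 76) (nat_lit 0) (XT.nd (nat_lit 78) (nat_lit 228) (nat_lit 0) (XT.lf (nat_lit 0) (nat_lit 15959693692) (nat_lit 76) (nat_lit 5546118868) (nat_lit 152) (nat_lit 1386105173) (nat_lit 20) (nat_lit 5) (nat_lit 21) (nat_lit 5) (nat_lit 22) (nat_lit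 4) (nat_lit 350) (nat_lit 246) (nat_lit 184)) (XT.nd (nat_lit 78) (nat_lit 152) (nat_lit 0) (XT.lf (nat_lit 0) (nat_lit 1618971138) (nat_lit 152) (nat_lit 352970406) (nat_lit 76) (nat_lit 21485578275) (nat_lit 19) (nat_lit 5) (nat_lit 21) (nat_lit 5) (nat_lit 20) (nat_lit 5) (nat_lit 351) (nat_lit 246) (nat_lit 183)) (XT.lf (nat_lit 0) (nat_lit 4737999943) (nat_lit 228) (nat_lit 17566254198) (nat_lit 76) (nat_lit 1733895496) (nat_lit 17) (nat_lit 5) (nat_lit 20) (nat_lit 5) (nat_lit 18) (nat_lit 4) (nat_lit 352) (nat_lit 246) (nat_lit 182)))) (XT.nd (nat_lit 78) (nat_lit 76) (nat_lit 0) (XT.lf (nat_lit 0) (nat_lit 7946176351) (nat_lit 228) (nat_lit 11194265442) (nat_lit 76) (nat_lit 5495909802) (nat_lit 17) (nat_lit 5) (nat_lit 20) (nat_lit 5) (nat_lit 18) (nat_lit 4) (nat_lit 353) (nat_lit 246) (nat_lit 181)) (XT.nd (nat_lit 78) (nat_lit 76) (nat_lit 0) (XT.lf (nat_lit 0) (nat_lit 11223853359)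 (nat_lit 228) (nat_lit 4677095051) (nat_lit 76) (nat_lit 9352373496) (nat_lit 17) (nat_lit 5) (nat_lit 20) (nat_lit 5) (nat_lit 18) (nat_lit 4) (nat_lit 354) (nat_lit 246) (nat_lit 180)) (XT.lf (nat_lit 0) (nat_lit 2030575430) (nat_lit 76) (nat_lit 12562838660) (nat_lit 152) (nat_lit 11295600006) (nat_lit 16) (nat_lit 5) (nat_lit 17) (nat_lit 5) (nat_lit 18) (nat_lit 4) (nat_lit 355) (nat_lit 246) (nat_lit 179))))) (XT.nd (nat_lit 234) (nat_lit 228) (nat_lit 0) (XT.nd (nat_lit 78) (nat_lit 0) (nat_lit 0) (XT.lf (nat_lit 0) (nat_lit 8991150665) (nat_lit 76) (nat_lit 9094506140) (nat_lit 152) (nat_lit 8457491198) (nat_lit 16) (nat_lit 5) (nat_lit 17) (nat_lit 5) (nat_lit 18) (nat_lit 4) (nat_lit 356) (nat_lit 246) (nat_lit 178)) (XT.nd (nat_lit 78) (nat_lit 0) (nat_lit 0) (XT.lf (nat_lit 0) (nat_lit 16117629346) (nat_lit 76) (nat_lit 5540149760) (nat_lit 152) (nat_lit 5559891711) (nat_lit 16) (nat_lit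 5) (nat_lit 17) (nat_lit 5) (nat_lit 18) (nat_lit 4) (nat_lit 357) (nat_lit 246) (nat_lit 177)) (XT.lf (nat_lit 0) (nat_lit 23416238493) (nat_lit 76) (nat_lit 1896663770) (nat_lit 152) (nat_lit 2600269663) (nat_lit 16) (nat_lit 5) (nat_lit 17) (nat_lit 5) (nat_lit 18) (nat_lit 4) (nat_lit 358) (nat_lit 246) (nat_lit 176)))) (XT.nd (nat_lit 78) (nat_lit 0) (nat_lit 0) (XT.lf (nat_lit 0) (nat_lit 455773808) (nat_lit 228) (nat_lit 26343430841) (nat_lit 76) (nat_lit 1829729567) (nat_lit 13) (nat_lit 5) (nat_lit 16) (nat_lit 5) (nat_lit 14) (nat_lit 4) (nat_lit 359) (nat_lit 246) (nat_lit 175)) (XT.nd (nat_lit 78) (nat_lit 0) (nat_lit 0) (XT.lf (nat_lit 0) (nat_lit 3592302411) (nat_lit 228) (nat_lit 20087276098) (nat_lit 76) (nat_lit 5684602731) (nat_lit 13) (nat_lit 5) (nat_lit 16) (nat_lit 5) (nat_lit 14) (nat_lit 4) (nat_lit 360) (nat_lit 246) (nat_lit 174)) (XT.lf (nat_lit 0) (nat_lit 6800041444)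 (nat_lit 228) (nat_lit 13683331223) (nat_lit 76) (nat_lit 9638815322) (nat_lit 13) (nat_lit 5) (nat_lit 16) (nat_lit 5) (nat_lit 14) (nat_lit 4) (nat_lit 361) (nat_lit 246) (nat_lit 173))))))) (XT.nd (nat_lit 936) (nat_lit 228) (nat_lit 0) (XT.nd (nat_lit 468) (nat_lit 152) (nat_lit 0) (XT.nd (nat_lit 234) (nat_lit 0) (nat_lit 0) (XT.nd (nat_lit 78) (nat_lit 76) (nat_lit 0) (XT.lf (nat_lit 0) (nat_lit 10081793785) (nat_lit 228) (nat_lit 7126000536) (nat_lit 76) (nat_lit 13695822477) (nat_lit 13) (nat_lit 5) (nat_lit 16) (nat_lit 5) (nat_lit 14) (nat_lit 4) (nat_lit 362) (nat_lit 246) (nat_lit 172)) (XT.nd (nat_lit 78) (nat_lit 76) (nat_lit 0) (XT.lf (nat_lit 0) (nat_lit 13440426984) (nat_lit 228) (nat_lit 409554330) (nat_lit 76) (nat_lit 17859169154) (nat_lit 13) (nat_lit 5) (nat_lit 16) (nat_lit 5) (nat_lit 14) (nat_lit 4) (nat_lit 363) (nat_lit 246) (nat_lit 171)) (XT.lf (nat_lit 0) (nat_lit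 6600679157) (nat_lit 76) (nat_lit 10341646378) (nat_lit 152) (nat_lit 15595263837) (nat_lit 12) (nat_lit 5) (nat_lit 13) (nat_lit 5) (nat_lit 14) (nat_lit 4) (nat_lit 364) (nat_lit 246) (nat_lit 170)))) (XT.nd (nat_lit 78) (nat_lit 0) (nat_lit 0) (XT.lf (nat_lit 0) (nat_lit 13793463916) (nat_lit 76) (nat_lit 6739271908) (nat_lit 152) (nat_lit 12858655969) (nat_lit 12) (nat_lit 5) (nat_lit 13) (nat_lit 5) (nat_lit 14) (nat_lit 4) (nat_lit 365) (nat_lit 246) (nat_lit 169)) (XT.nd (nat_lit 78) (nat_lit 0) (nat_lit 0) (XT.lf (nat_lit 0) (nat_lit 21166933970) (nat_lit 76) (nat_lit 3043845894) (nat_lit 152) (nat_lit 10060644366) (nat_lit 12) (nat_lit 5) (nat_lit 13) (nat_lit 5) (nat_lit 14) (nat_lit 4) (nat_lit 366) (nat_lit 246) (nat_lit 168)) (XT.lf (nat_lit 0) (nat_lit 27986860374) (nat_lit 152) (nat_lit 6458112382) (nat_lit 0) (nat_lit 733267220) (nat_lit 12) (nat_lit 5) (nat_lit 14) (nat_lit 4)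 (nat_lit 12) (nat_lit 4) (nat_lit 367) (nat_lit 246) (nat_lit 167))))) (XT.nd (nat_lit 234) (nat_lit 0) (nat_lit 0) (XT.nd (nat_lit 78) (nat_lit 76) (nat_lit 0) (XT.lf (nat_lit 0) (nat_lit 330439855) (nat_lit 76) (nat_lit 31560034865) (nat_lit 76) (nat_lit 4221370739) (nat_lit 11) (nat_lit 4) (nat_lit 12) (nat_lit 5) (nat_lit 12) (nat_lit 4) (nat_lit 368) (nat_lit 246) (nat_lit 166)) (XT.nd (nat_lit 78) (nat_lit 76) (nat_lit 0) (XT.lf (nat_lit 0) (nat_lit 7421834378) (nat_lit 76) (nat_lit 28535751407) (nat_lit 76) (nat_lit 1114494106) (nat_lit 11) (nat_lit 4) (nat_lit 12) (nat_lit 5) (nat_lit 12) (nat_lit 4) (nat_lit 369) (nat_lit 246) (nat_lit 165)) (XT.lf (nat_lit 0) (nat_lit 2026421019) (nat_lit 152) (nat_lit 23387810180) (nat_lit 76) (nat_lit 12646854552) (nat_lit 10) (nat_lit 5) (nat_lit 12) (nat_lit 5) (nat_lit 11) (nat_lit 4) (nat_lit 370) (nat_lit 246) (nat_lit 164)))) (XT.nd (nat_lit 78)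 (nat_lit 0) (nat_lit 0) (XT.lf (nat_lit 0) (nat_lit 5221230890) (nat_lit 152) (nat_lit 16980198133) (nat_lit 76) (nat_lit 16878551079) (nat_lit 10) (nat_lit 5) (nat_lit 12) (nat_lit 5) (nat_lit 11) (nat_lit 4) (nat_lit 371) (nat_lit 246) (nat_lit 163)) (XT.nd (nat_lit 78) (nat_lit 0) (nat_lit 0) (XT.lf (nat_lit 0) (nat_lit 8494474880) (nat_lit 152) (nat_lit 10411097290) (nat_lit 76) (nat_lit 21224402466) (nat_lit 10) (nat_lit 5) (nat_lit 12) (nat_lit 5) (nat_lit 11) (nat_lit 4) (nat_lit 372) (nat_lit 246) (nat_lit 162)) (XT.lf (nat_lit 0) (nat_lit 11849013105) (nat_lit 152) (nat_lit 3674767659) (nat_lit 76) (nat_lit 25688206059) (nat_lit 10) (nat_lit 5) (nat_lit 12) (nat_lit 5) (nat_lit 11) (nat_lit 4) (nat_lit 373) (nat_lit 246) (nat_lit 161)))))) (XT.nd (nat_lit 468) (nat_lit 152) (nat_lit 0) (XT.nd (nat_lit 234) (nat_lit 0) (nat_lit 0) (XT.nd (nat_lit 78) (nat_lit 0) (nat_lit 0) (XT.lf (nat_lit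 0) (nat_lit 3299053285) (nat_lit 76) (nat_lit 12020435950) (nat_lit 152) (nat_lit 27006521502) (nat_lit 9) (nat_lit 5) (nat_lit 10) (nat_lit 5) (nat_lit 11) (nat_lit 4) (nat_lit 374) (nat_lit 246) (nat_lit 160)) (XT.nd (nat_lit 78) (nat_lit 0) (nat_lit 0) (XT.lf (nat_lit 0) (nat_lit 10528727072) (nat_lit 76) (nat_lit 8386251952) (nat_lit 152) (nat_lit 24557859471) (nat_lit 9) (nat_lit 5) (nat_lit 10) (nat_lit 5) (nat_lit 11) (nat_lit 4) (nat_lit 375) (nat_lit 246) (nat_lit 159)) (XT.lf (nat_lit 0) (nat_lit 17947435812) (nat_lit 76) (nat_lit 4655161217) (nat_lit 152) (nat_lit 22051955968) (nat_lit 9) (nat_lit 5) (nat_lit 10) (nat_lit 5) (nat_lit 11) (nat_lit 4) (nat_lit 376) (nat_lit 246) (nat_lit 158)))) (XT.nd (nat_lit 78) (nat_lit 0) (nat_lit 0) (XT.lf (nat_lit 0) (nat_lit 25561661870) (nat_lit 76) (nat_lit 823903570) (nat_lit 152) (nat_lit 19486621366) (nat_lit 9) (nat_lit 5) (nat_lit 10) (nat_lit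 5) (nat_lit 11) (nat_lit 4) (nat_lit 377) (nat_lit 246) (nat_lit 157)) (XT.nd (nat_lit 78) (nat_lit 0) (nat_lit 0) (XT.lf (nat_lit 0) (nat_lit 30297093336) (nat_lit 152) (nat_lit 13778648995) (nat_lit 0) (nat_lit 3050164437) (nat_lit 9) (nat_lit 5) (nat_lit 11) (nat_lit 4) (nat_lit 9) (nat_lit 4) (nat_lit 378) (nat_lit 246) (nat_lit 156)) (XT.lf (nat_lit 0) (nat_lit 34319616816) (nat_lit 152) (nat_lit 7084800154) (nat_lit 0) (nat_lit 7013020850) (nat_lit 9) (nat_lit 5) (nat_lit 11) (nat_lit 4) (nat_lit 9) (nat_lit 4) (nat_lit 379) (nat_lit 246) (nat_lit 155))))) (XT.nd (nat_lit 234) (nat_lit 76) (nat_lit 0) (XT.nd (nat_lit 78) (nat_lit 76) (nat_lit 0) (XT.lf (nat_lit 0) (nat_lit 38448730841) (nat_lit 152) (nat_lit 215209554) (nat_lit 0) (nat_lit 11084205682) (nat_lit 9) (nat_lit 5) (nat_lit 11) (nat_lit 4) (nat_lit 9) (nat_lit 4) (nat_lit 380) (nat_lit 246) (nat_lit 154)) (XT.nd (nat_lit 78) (nat_lit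 0) (nat_lit 0) (XT.lf (nat_lit 0) (nat_lit 6972177656) (nat_lit 76) (nat_lit 35782886554) (nat_lit 76) (nat_lit 8362119462) (nat_lit 8) (nat_lit 4) (nat_lit 9) (nat_lit 5) (nat_lit 9) (nat_lit 4) (nat_lit 381) (nat_lit 246) (nat_lit 153)) (XT.lf (nat_lit 0) (nat_lit 14355493325) (nat_lit 76) (nat_lit 32823759128) (nat_lit 76) (nat_lit 5348388216) (nat_lit 8) (nat_lit 4) (nat_lit 9) (nat_lit 5) (nat_lit 9) (nat_lit 4) (nat_lit 382) (nat_lit 246) (nat_lit 152)))) (XT.nd (nat_lit 78) (nat_lit 76) (nat_lit 0) (XT.lf (nat_lit 0) (nat_lit 21936905800) (nat_lit 76) (nat_lit 29786145665) (nat_lit 76) (nat_lit 2257761337) (nat_lit 8) (nat_lit 4) (nat_lit 9) (nat_lit 5) (nat_lit 9) (nat_lit 4) (nat_lit 383) (nat_lit 246) (nat_lit 151)) (XT.nd (nat_lit 78) (nat_lit 0) (nat_lit 0) (XT.lf (nat_lit 0) (nat_lit 894656308) (nat_lit 152) (nat_lit 25763701359) (nat_lit 76) (nat_lit 28819349033) (nat_lit 7) (nat_lit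 5) (nat_lit 9) (nat_lit 5) (nat_lit 8) (nat_lit 4) (nat_lit 384) (nat_lit 246) (nat_lit 150)) (XT.lf (nat_lit 0) (nat_lit 4083775914) (nat_lit 152) (nat_lit 19339758788) (nat_lit 76) (nat_lit 33595684148) (nat_lit 7) (nat_lit 5) (nat_lit 9) (nat_lit 5) (nat_lit 8) (nat_lit 4) (nat_lit 385) (nat_lit 246) (nat_lit 149))))))))
noncomputable def xc73 : XT := (XT.nd (nat_lit 33306) (nat_lit 0) (nat_lit 4332) (XT.nd (nat_lit 858) (nat_lit 76) (nat_lit 0) (XT.nd (nat_lit 390) (nat_lit 0) (nat_lit 0) (XT.nd (nat_lit 156) (nat_lit 76) (nat_lit 0) (XT.nd (nat_lit 78) (nat_lit 0) (nat_lit 0) (XT.lf (nat_lit 0) (nat_lit 7356441146) (nat_lit 152) (nat_lit 12744763154) (nat_lit 76) (nat_lit 38506142994) (nat_lit 7) (nat_lit 5) (nat_lit 9) (nat_lit 5) (nat_lit 8) (nat_lit 4) (nat_lit 386) (nat_lit 246) (nat_lit 148)) (XT.lf (nat_lit 0) (nat_lit 10715511613) (nat_lit 152) (nat_lit 5972951840) (nat_lit 76) (nat_lit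 43555016265) (nat_lit 7) (nat_lit 5) (nat_lit 9) (nat_lit 5) (nat_lit 8) (nat_lit 4) (nat_lit 387) (nat_lit 246) (nat_lit 147))) (XT.nd (nat_lit 78) (nat_lit 0) (nat_lit 0) (XT.lf (nat_lit 0) (nat_lit 1001127883) (nat_lit 76) (nat_lit 13172417997) (nat_lit 152) (nat_lit 47755211166) (nat_lit 6) (nat_lit 5) (nat_lit 7) (nat_lit 5) (nat_lit 8) (nat_lit 4) (nat_lit 388) (nat_lit 246) (nat_lit 146)) (XT.nd (nat_lit 78) (nat_lit 0) (nat_lit 0) (XT.lf (nat_lit 0) (nat_lit 8286648325) (nat_lit 76) (nat_lit 9497694769) (nat_lit 152) (nat_lit 45878785433) (nat_lit 6) (nat_lit 5) (nat_lit 7) (nat_lit 5) (nat_lit 8) (nat_lit 4) (nat_lit 389) (nat_lit 246) (nat_lit 145)) (XT.lf (nat_lit 0) (nat_lit 15771102020) (nat_lit 76) (nat_lit 5721397948) (nat_lit 152) (nat_lit 43957366411) (nat_lit 6) (nat_lit 5) (nat_lit 7) (nat_lit 5) (nat_lit 8) (nat_lit 4) (nat_lit 390) (nat_lit 246) (nat_lit 144))))) (XT.nd (nat_lit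 234) (nat_lit 0) (nat_lit 0) (XT.nd (nat_lit 78) (nat_lit 0) (nat_lit 0) (XT.lf (nat_lit 0) (nat_lit 23461028782) (nat_lit 76) (nat_lit 1840227857) (nat_lit 152) (nat_lit 41989275192) (nat_lit 6) (nat_lit 5) (nat_lit 7) (nat_lit 5) (nat_lit 8) (nat_lit 4) (nat_lit 391) (nat_lit 246) (nat_lit 143)) (XT.nd (nat_lit 78) (nat_lit 0) (nat_lit 0) (XT.lf (nat_lit 0) (nat_lit 29234600639) (nat_lit 152) (nat_lit 37844244756) (nat_lit 0) (nat_lit 2107268051) (nat_lit 6) (nat_lit 5) (nat_lit 8) (nat_lit 4) (nat_lit 6) (nat_lit 4) (nat_lit 392) (nat_lit 246) (nat_lit 142)) (XT.lf (nat_lit 0) (nat_lit 33294054936) (nat_lit 152) (nat_lit 31715845710) (nat_lit 0) (nat_lit 6128424328) (nat_lit 6) (nat_lit 5) (nat_lit 8) (nat_lit 4) (nat_lit 6) (nat_lit 4) (nat_lit 393) (nat_lit 246) (nat_lit 141)))) (XT.nd (nat_lit 78) (nat_lit 0) (nat_lit 0) (XT.lf (nat_lit 0) (nat_lit 37465477232) (nat_lit 152) (nat_lit 25421261604)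 (nat_lit 0) (nat_lit 10262664079) (nat_lit 6) (nat_lit 5) (nat_lit 8) (nat_lit 4) (nat_lit 6) (nat_lit 4) (nat_lit 394) (nat_lit 246) (nat_lit 140)) (XT.nd (nat_lit 78) (nat_lit 0) (nat_lit 0) (XT.lf (nat_lit 0) (nat_lit 41752512458) (nat_lit 152) (nat_lit 18954992316) (nat_lit 0) (nat_lit 14513599748) (nat_lit 6) (nat_lit 5) (nat_lit 8) (nat_lit 4) (nat_lit 6) (nat_lit 4) (nat_lit 395) (nat_lit 246) (nat_lit 139)) (XT.lf (nat_lit 0) (nat_lit 46158906567) (nat_lit 152) (nat_lit 12311387708) (nat_lit 0) (nat_lit 18884945743) (nat_lit 6) (nat_lit 5) (nat_lit 8) (nat_lit 4) (nat_lit 6) (nat_lit 4) (nat_lit 396) (nat_lit 246) (nat_lit 138)))))) (XT.nd (nat_lit 31980) (nat_lit 0) (nat_lit 10412) (XT.nd (nat_lit 234) (nat_lit 0) (nat_lit 0) (XT.nd (nat_lit 78) (nat_lit 76) (nat_lit 0) (XT.lf (nat_lit 0) (nat_lit 50688509806) (nat_lit 152) (nat_lit 5484642688) (nat_lit 0) (nat_lit 23380521687) (nat_lit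 6) (nat_lit 5) (nat_lit 8) (nat_lit 4) (nat_lit 6) (nat_lit 4) (nat_lit 397) (nat_lit 246) (nat_lit 137)) (XT.nd (nat_lit 78) (nat_lit 0) (nat_lit 0) (XT.lf (nat_lit 0) (nat_lit 1561681899) (nat_lit 76) (nat_lit 53798610024) (nat_lit 76) (nat_lit 26457585697) (nat_lit 5) (nat_lit 4) (nat_lit 6) (nat_lit 5) (nat_lit 6) (nat_lit 4) (nat_lit 398) (nat_lit 246) (nat_lit 136)) (XT.lf (nat_lit 0) (nat_lit 8916283090) (nat_lit 76) (nat_lit 51302712093) (nat_lit 76) (nat_lit 23929613776) (nat_lit 5) (nat_lit 4) (nat_lit 6) (nat_lit 5) (nat_lit 6) (nat_lit 4) (nat_lit 399) (nat_lit 246) (nat_lit 135)))) (XT.nd (nat_lit 78) (nat_lit 0) (nat_lit 0) (XT.lf (nat_lit 0) (nat_lit 16476432093) (nat_lit 76) (nat_lit 48738661955) (nat_lit 76) (nat_lit 21334423843) (nat_lit 5) (nat_lit 4) (nat_lit 6) (nat_lit 5) (nat_lit 6) (nat_lit 4) (nat_lit 400) (nat_lit 246) (nat_lit 134)) (XT.nd (nat_lit 78) (nat_lit 0) (nat_lit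 0) (XT.lf (nat_lit 0) (nat_lit 24248734863) (nat_lit 76) (nat_lit 46104219179) (nat_lit 76) (nat_lit 18669748257) (nat_lit 5) (nat_lit 4) (nat_lit 6) (nat_lit 5) (nat_lit 6) (nat_lit 4) (nat_lit 401) (nat_lit 246) (nat_lit 133)) (XT.lf (nat_lit 0) (nat_lit 32239982731) (nat_lit 76) (nat_lit 43397081825) (nat_lit 76) (nat_lit 15933258659) (nat_lit 5) (nat_lit 4) (nat_lit 6) (nat_lit 5) (nat_lit 6) (nat_lit 4) (nat_lit 402) (nat_lit 246) (nat_lit 132))))) (XT.nd (nat_lit 234) (nat_lit 1140) (nat_lit 0) (XT.nd (nat_lit 78) (nat_lit 1140) (nat_lit 0) (XT.lf (nat_lit 0) (nat_lit 720973621) (nat_lit 1140) (nat_lit 2181543012) (nat_lit 0) (nat_lit 720973621) (nat_lit 172) (nat_lit 5) (nat_lit 187) (nat_lit 4) (nat_lit 172) (nat_lit 4) (nat_lit 286) (nat_lit 247) (nat_lit 247)) (XT.nd (nat_lit 78) (nat_lit 76) (nat_lit 0) (XT.lf (nat_lit 0) (nat_lit 250622252) (nat_lit 1064) (nat_lit 4301784942) (nat_lit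 1064) (nat_lit 2760689938) (nat_lit 158) (nat_lit 4) (nat_lit 172) (nat_lit 5) (nat_lit 172) (nat_lit 4) (nat_lit 287) (nat_lit 247) (nat_lit 246)) (XT.lf (nat_lit 0) (nat_lit 320254028) (nat_lit 1140) (nat_lit 2387188067) (nat_lit 76) (nat_lit 4675288069) (nat_lit 157) (nat_lit 5) (nat_lit 172) (nat_lit 5) (nat_lit 158) (nat_lit 4) (nat_lit 288) (nat_lit 247) (nat_lit 245)))) (XT.nd (nat_lit 78) (nat_lit 608) (nat_lit 0) (XT.lf (nat_lit 0) (nat_lit 2354292134) (nat_lit 532) (nat_lit 1017247631) (nat_lit 608) (nat_lit 4084302707) (nat_lit 150) (nat_lit 5) (nat_lit 157) (nat_lit 5) (nat_lit 158) (nat_lit 4) (nat_lit 289) (nat_lit 247) (nat_lit 244)) (XT.nd (nat_lit 78) (nat_lit 608) (nat_lit 0) (XT.lf (nat_lit 0) (nat_lit 6458110545) (nat_lit 608) (nat_lit 345222568) (nat_lit 0) (nat_lit 729708768) (nat_lit 150) (nat_lit 5) (nat_lit 158) (nat_lit 4) (nat_lit 150) (nat_lit 4) (nat_lit 290) (nat_lit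 247) (nat_lit 243)) (XT.lf (nat_lit 0) (nat_lit 1953419463) (nat_lit 608) (nat_lit 3092322353) (nat_lit 76) (nat_lit 2567379624) (nat_lit 142) (nat_lit 5) (nat_lit 150) (nat_lit 5) (nat_lit 143) (nat_lit 4) (nat_lit 291) (nat_lit 247) (nat_lit 242))))))) (XT.nd (nat_lit 936) (nat_lit 2204) (nat_lit 0) (XT.nd (nat_lit 468) (nat_lit 1748) (nat_lit 0) (XT.nd (nat_lit 234) (nat_lit 988) (nat_lit 0) (XT.nd (nat_lit 78) (nat_lit 608) (nat_lit 0) (XT.lf (nat_lit 0) (nat_lit 1775580691) (nat_lit 532) (nat_lit 3211605200) (nat_lit 608) (nat_lit 2710201739) (nat_lit 135) (nat_lit 5) (nat_lit 142) (nat_lit 5) (nat_lit 143) (nat_lit 4) (nat_lit 292) (nat_lit 247) (nat_lit 241)) (XT.nd (nat_lit 78) (nat_lit 532) (nat_lit 0) (XT.lf (nat_lit 0) (nat_lit 269080426) (nat_lit 608) (nat_lit 1027500763) (nat_lit 76) (nat_lit 6489253099) (nat_lit 134) (nat_lit 5) (nat_lit 142) (nat_lit 5) (nat_lit 135) (nat_lit 5)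 (nat_lit 293) (nat_lit 247) (nat_lit 240)) (XT.lf (nat_lit 0) (nat_lit 3247111533) (nat_lit 608) (nat_lit 3911288404) (nat_lit 76) (nat_lit 718986742) (nat_lit 127) (nat_lit 5) (nat_lit 135) (nat_lit 5) (nat_lit 128) (nat_lit 4) (nat_lit 294) (nat_lit 247) (nat_lit 239)))) (XT.nd (nat_lit 78) (nat_lit 532) (nat_lit 0) (XT.lf (nat_lit 0) (nat_lit 1074672838) (nat_lit 456) (nat_lit 5193463649) (nat_lit 532) (nat_lit 1705107165) (nat_lit 121) (nat_lit 5) (nat_lit 127) (nat_lit 5) (nat_lit 128) (nat_lit 4) (nat_lit 295) (nat_lit 247) (nat_lit 238)) (XT.nd (nat_lit 78) (nat_lit 456) (nat_lit 0) (XT.lf (nat_lit 0) (nat_lit 1242701402) (nat_lit 532) (nat_lit 1886747387) (nat_lit 76) (nat_lit 4943496204) (nat_lit 120) (nat_lit 5) (nat_lit 127) (nat_lit 5) (nat_lit 121) (nat_lit 5) (nat_lit 296) (nat_lit 247) (nat_lit 237)) (XT.lf (nat_lit 0) (nat_lit 3230931667) (nat_lit 456) (nat_lit 967632634) (nat_lit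 532) (nat_lit 3978103251) (nat_lit 114) (nat_lit 5) (nat_lit 120) (nat_lit 5) (nat_lit 121) (nat_lit 5) (nat_lit 297) (nat_lit 247) (nat_lit 236))))) (XT.nd (nat_lit 234) (nat_lit 836) (nat_lit 0) (XT.nd (nat_lit 78) (nat_lit 532) (nat_lit 0) (XT.lf (nat_lit 0) (nat_lit 156588737) (nat_lit 380) (nat_lit 7043446743) (nat_lit 456) (nat_lit 1084907244) (nat_lit 109) (nat_lit 5) (nat_lit 114) (nat_lit 5) (nat_lit 115) (nat_lit 4) (nat_lit 298) (nat_lit 247) (nat_lit 235)) (XT.nd (nat_lit 78) (nat_lit 456) (nat_lit 0) (XT.lf (nat_lit 0) (nat_lit 1842660076) (nat_lit 456) (nat_lit 3002696323) (nat_lit 76) (nat_lit 3551166952) (nat_lit 108) (nat_lit 5) (nat_lit 114) (nat_lit 5) (nat_lit 109) (nat_lit 5) (nat_lit 299) (nat_lit 247) (nat_lit 234)) (XT.lf (nat_lit 0) (nat_lit 2219194313) (nat_lit 456) (nat_lit 2565122842) (nat_lit 532) (nat_lit 3728506217) (nat_lit 102) (nat_lit 5) (nat_lit 108) (nat_lit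 5) (nat_lit 109) (nat_lit 5) (nat_lit 300) (nat_lit 247) (nat_lit 233)))) (XT.nd (nat_lit 78) (nat_lit 836) (nat_lit 0) (XT.lf (nat_lit 0) (nat_lit 7570077754) (nat_lit 456) (nat_lit 202479883) (nat_lit 532) (nat_lit 861437048) (nat_lit 102) (nat_lit 5) (nat_lit 108) (nat_lit 5) (nat_lit 109) (nat_lit 5) (nat_lit 301) (nat_lit 247) (nat_lit 232)) (XT.nd (nat_lit 78) (nat_lit 380) (nat_lit 0) (XT.lf (nat_lit 0) (nat_lit 2043324424) (nat_lit 456) (nat_lit 4482784880) (nat_lit 76) (nat_lit 2232438486) (nat_lit 96) (nat_lit 5) (nat_lit 102) (nat_lit 5) (nat_lit 97) (nat_lit 5) (nat_lit 302) (nat_lit 247) (nat_lit 231)) (XT.lf (nat_lit 0) (nat_lit 827106737) (nat_lit 380) (nat_lit 4141953729) (nat_lit 456) (nat_lit 3919107853) (nat_lit 91) (nat_lit 5) (nat_lit 96) (nat_lit 5) (nat_lit 97) (nat_lit 5) (nat_lit 303) (nat_lit 247) (nat_lit 230)))))) (XT.nd (nat_lit 468) (nat_lit 1064) (nat_lit 0) (XT.nd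 (nat_lit 234) (nat_lit 760) (nat_lit 0) (XT.nd (nat_lit 78) (nat_lit 380) (nat_lit 0) (XT.lf (nat_lit 0) (nat_lit 6299743378) (nat_lit 380) (nat_lit 1659611791) (nat_lit 456) (nat_lit 1063136249) (nat_lit 91) (nat_lit 5) (nat_lit 96) (nat_lit 5) (nat_lit 97) (nat_lit 5) (nat_lit 304) (nat_lit 247) (nat_lit 229)) (XT.nd (nat_lit 78) (nat_lit 0) (nat_lit 0) (XT.lf (nat_lit 0) (nat_lit 1809650958) (nat_lit 380) (nat_lit 6447030407) (nat_lit 76) (nat_lit 904698132) (nat_lit 86) (nat_lit 5) (nat_lit 91) (nat_lit 5) (nat_lit 87) (nat_lit 5) (nat_lit 305) (nat_lit 247) (nat_lit 228)) (XT.lf (nat_lit 0) (nat_lit 4725128227) (nat_lit 380) (nat_lit 1048824336) (nat_lit 76) (nat_lit 3530937214) (nat_lit 86) (nat_lit 5) (nat_lit 91) (nat_lit 5) (nat_lit 87) (nat_lit 5) (nat_lit 306) (nat_lit 247) (nat_lit 227)))) (XT.nd (nat_lit 78) (nat_lit 380) (nat_lit 0) (XT.lf (nat_lit 0) (nat_lit 4513620810) (nat_lit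 380) (nat_lit 3193444450) (nat_lit 456) (nat_lit 1746374686) (nat_lit 81) (nat_lit 5) (nat_lit 86) (nat_lit 5) (nat_lit 87) (nat_lit 5) (nat_lit 307) (nat_lit 247) (nat_lit 226)) (XT.nd (nat_lit 78) (nat_lit 0) (nat_lit 0) (XT.lf (nat_lit 0) (nat_lit 571780369) (nat_lit 304) (nat_lit 529495694) (nat_lit 380) (nat_lit 8506367044) (nat_lit 76) (nat_lit 5) (nat_lit 80) (nat_lit 5) (nat_lit 81) (nat_lit 5) (nat_lit 308) (nat_lit 247) (nat_lit 225)) (XT.lf (nat_lit 0) (nat_lit 4007686833) (nat_lit 380) (nat_lit 3541297599) (nat_lit 76) (nat_lit 2216811856) (nat_lit 76) (nat_lit 5) (nat_lit 81) (nat_lit 5) (nat_lit 77) (nat_lit 5) (nat_lit 309) (nat_lit 247) (nat_lit 224))))) (XT.nd (nat_lit 234) (nat_lit 380) (nat_lit 0) (XT.nd (nat_lit 78) (nat_lit 380) (nat_lit 0) (XT.lf (nat_lit 0) (nat_lit 2068526953) (nat_lit 304) (nat_lit 4896499774) (nat_lit 380) (nat_lit 2964848031) (nat_lit 72) (nat_lit 5)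 (nat_lit 76) (nat_lit 5) (nat_lit 77) (nat_lit 5) (nat_lit 310) (nat_lit 247) (nat_lit 223)) (XT.nd (nat_lit 78) (nat_lit 380) (nat_lit 0) (XT.lf (nat_lit 0) (nat_lit 7835370339) (nat_lit 304) (nat_lit 2151068813) (nat_lit 380) (nat_lit 113265952) (nat_lit 72) (nat_lit 5) (nat_lit 76) (nat_lit 5) (nat_lit 77) (nat_lit 5) (nat_lit 311) (nat_lit 247) (nat_lit 222)) (XT.lf (nat_lit 0) (nat_lit 2749565971) (nat_lit 380) (nat_lit 6823326449) (nat_lit 76) (nat_lit 701584336) (nat_lit 67) (nat_lit 5) (nat_lit 72) (nat_lit 5) (nat_lit 68) (nat_lit 5) (nat_lit 312) (nat_lit 247) (nat_lit 221)))) (XT.nd (nat_lit 78) (nat_lit 380) (nat_lit 0) (XT.lf (nat_lit 0) (nat_lit 5681795511) (nat_lit 380) (nat_lit 1175423228) (nat_lit 76) (nat_lit 3597747946) (nat_lit 67) (nat_lit 5) (nat_lit 72) (nat_lit 5) (nat_lit 68) (nat_lit 5) (nat_lit 313) (nat_lit 247) (nat_lit 220)) (XT.nd (nat_lit 78) (nat_lit 76) (nat_lit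 0) (XT.lf (nat_lit 0) (nat_lit 4651630196) (nat_lit 304) (nat_lit 4038182609) (nat_lit 380) (nat_lit 1951503928) (nat_lit 63) (nat_lit 5) (nat_lit 67) (nat_lit 5) (nat_lit 68) (nat_lit 5) (nat_lit 314) (nat_lit 247) (nat_lit 219)) (XT.lf (nat_lit 0) (nat_lit 891529861) (nat_lit 380) (nat_lit 246071666) (nat_lit 76) (nat_lit 9696795407) (nat_lit 62) (nat_lit 5) (nat_lit 67) (nat_lit 5) (nat_lit 63) (nat_lit 5) (nat_lit 315) (nat_lit 247) (nat_lit 218))))))))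
noncomputable def xc74 : XT := (XT.nd (nat_lit 1794) (nat_lit 1140) (nat_lit 0) (XT.nd (nat_lit 858) (nat_lit 1064) (nat_lit 0) (XT.nd (nat_lit 390) (nat_lit 760) (nat_lit 0) (XT.nd (nat_lit 156) (nat_lit 304) (nat_lit 0) (XT.nd (nat_lit 78) (nat_lit 228) (nat_lit 0) (XT.lf (nat_lit 0) (nat_lit 3798548080) (nat_lit 304) (nat_lit 5368737693) (nat_lit 76) (nat_lit 1864939865) (nat_lit 59) (nat_lit 5) (nat_lit 63) (nat_lit 5) (nat_lit 60) (nat_lit 5) (nat_lit 316) (nat_lit 247) (nat_lit 217)) (XT.lf (nat_lit 0) (nat_lit 436922165) (nat_lit 228) (nat_lit 6319454911) (nat_lit 304) (nat_lit 4480775241) (nat_lit 56) (nat_lit 5) (nat_lit 59) (nat_lit 5) (nat_lit 60) (nat_lit 5) (nat_lit 317) (nat_lit 247) (nat_lit 216))) (XT.nd (nat_lit 78) (nat_lit 304) (nat_lit 0) (XT.lf (nat_lit 0) (nat_lit 6447808141) (nat_lit 228) (nat_lit 3355798261) (nat_lit 304) (nat_lit 1644669478) (nat_lit 56) (nat_lit 5) (nat_lit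 59) (nat_lit 5) (nat_lit 60) (nat_lit 5) (nat_lit 318) (nat_lit 247) (nat_lit 215)) (XT.nd (nat_lit 78) (nat_lit 0) (nat_lit 0) (XT.lf (nat_lit 0) (nat_lit 900786496) (nat_lit 228) (nat_lit 306913304) (nat_lit 304) (nat_lit 10459047619) (nat_lit 52) (nat_lit 5) (nat_lit 55) (nat_lit 5) (nat_lit 56) (nat_lit 5) (nat_lit 319) (nat_lit 247) (nat_lit 214)) (XT.lf (nat_lit 0) (nat_lit 4138794124) (nat_lit 304) (nat_lit 4931114554) (nat_lit 76) (nat_lit 2820652795) (nat_lit 52) (nat_lit 5) (nat_lit 56) (nat_lit 5) (nat_lit 53) (nat_lit 5) (nat_lit 320) (nat_lit 247) (nat_lit 213))))) (XT.nd (nat_lit 234) (nat_lit 228) (nat_lit 0) (XT.nd (nat_lit 78) (nat_lit 304) (nat_lit 0) (XT.lf (nat_lit 0) (nat_lit 1019497782) (nat_lit 228) (nat_lit 6100656044) (nat_lit 304) (nat_lit 5002127493) (nat_lit 49) (nat_lit 5) (nat_lit 52) (nat_lit 5) (nat_lit 53) (nat_lit 5) (nat_lit 321) (nat_lit 247) (nat_lit 212)) (XT.nd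 (nat_lit 78) (nat_lit 304) (nat_lit 0) (XT.lf (nat_lit 0) (nat_lit 7174323169) (nat_lit 228) (nat_lit 3016665884) (nat_lit 304) (nat_lit 2170022227) (nat_lit 49) (nat_lit 5) (nat_lit 52) (nat_lit 5) (nat_lit 53) (nat_lit 5) (nat_lit 322) (nat_lit 247) (nat_lit 211)) (XT.lf (nat_lit 0) (nat_lit 693159920) (nat_lit 304) (nat_lit 11767493129) (nat_lit 76) (nat_lit 147270064) (nat_lit 45) (nat_lit 5) (nat_lit 49) (nat_lit 5) (nat_lit 46) (nat_lit 5) (nat_lit 323) (nat_lit 247) (nat_lit 210)))) (XT.nd (nat_lit 78) (nat_lit 228) (nat_lit 0) (XT.lf (nat_lit 0) (nat_lit 3633011016) (nat_lit 304) (nat_lit 5832607050) (nat_lit 76) (nat_lit 3395002519) (nat_lit 45) (nat_lit 5) (nat_lit 49) (nat_lit 5) (nat_lit 46) (nat_lit 5) (nat_lit 324) (nat_lit 247) (nat_lit 209)) (XT.nd (nat_lit 78) (nat_lit 0) (nat_lit 0) (XT.lf (nat_lit 0) (nat_lit 211889720) (nat_lit 228) (nat_lit 6404240516) (nat_lit 304) (nat_lit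 6506169484) (nat_lit 42) (nat_lit 5) (nat_lit 45) (nat_lit 5) (nat_lit 46) (nat_lit 5) (nat_lit 325) (nat_lit 247) (nat_lit 208)) (XT.lf (nat_lit 0) (nat_lit 6485424974) (nat_lit 228) (nat_lit 3215928870) (nat_lit 304) (nat_lit 3690148441) (nat_lit 42) (nat_lit 5) (nat_lit 45) (nat_lit 5) (nat_lit 46) (nat_lit 5) (nat_lit 326) (nat_lit 247) (nat_lit 207)))))) (XT.nd (nat_lit 468) (nat_lit 456) (nat_lit 0) (XT.nd (nat_lit 234) (nat_lit 380) (nat_lit 0) (XT.nd (nat_lit 78) (nat_lit 228) (nat_lit 0) (XT.lf (nat_lit 0) (nat_lit 12834610555) (nat_lit 304) (nat_lit 793194165) (nat_lit 76) (nat_lit 42361797) (nat_lit 42) (nat_lit 5) (nat_lit 46) (nat_lit 5) (nat_lit 43) (nat_lit 4) (nat_lit 327) (nat_lit 247) (nat_lit 206)) (XT.nd (nat_lit 78) (nat_lit 0) (nat_lit 0) (XT.lf (nat_lit 0) (nat_lit 2104906030) (nat_lit 228) (nat_lit 8466754447) (nat_lit 76) (nat_lit 3383731229) (nat_lit 39) (nat_lit 5) (nat_lit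 42) (nat_lit 5) (nat_lit 40) (nat_lit 5) (nat_lit 328) (nat_lit 247) (nat_lit 205)) (XT.lf (nat_lit 0) (nat_lit 5081163203) (nat_lit 228) (nat_lit 2351202471) (nat_lit 76) (nat_lit 6817674186) (nat_lit 39) (nat_lit 5) (nat_lit 42) (nat_lit 5) (nat_lit 40) (nat_lit 5) (nat_lit 329) (nat_lit 247) (nat_lit 204)))) (XT.nd (nat_lit 78) (nat_lit 152) (nat_lit 0) (XT.lf (nat_lit 0) (nat_lit 3957962489) (nat_lit 228) (nat_lit 4184351334) (nat_lit 304) (nat_lit 6411389784) (nat_lit 36) (nat_lit 5) (nat_lit 39) (nat_lit 5) (nat_lit 40) (nat_lit 5) (nat_lit 330) (nat_lit 247) (nat_lit 203)) (XT.nd (nat_lit 78) (nat_lit 152) (nat_lit 0) (XT.lf (nat_lit 0) (nat_lit 10438169789) (nat_lit 228) (nat_lit 839028652) (nat_lit 304) (nat_lit 3589864869) (nat_lit 36) (nat_lit 5) (nat_lit 39) (nat_lit 5) (nat_lit 40) (nat_lit 5) (nat_lit 331) (nat_lit 247) (nat_lit 202)) (XT.lf (nat_lit 0) (nat_lit 1868844494) (nat_lit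 152) (nat_lit 12639452546) (nat_lit 228) (nat_lit 681503517) (nat_lit 34) (nat_lit 5) (nat_lit 36) (nat_lit 5) (nat_lit 37) (nat_lit 4) (nat_lit 332) (nat_lit 247) (nat_lit 201))))) (XT.nd (nat_lit 234) (nat_lit 228) (nat_lit 0) (XT.nd (nat_lit 78) (nat_lit 152) (nat_lit 0) (XT.lf (nat_lit 0) (nat_lit 2281699011) (nat_lit 228) (nat_lit 7171303889) (nat_lit 76) (nat_lit 6068206650) (nat_lit 33) (nat_lit 5) (nat_lit 36) (nat_lit 5) (nat_lit 34) (nat_lit 5) (nat_lit 333) (nat_lit 247) (nat_lit 200)) (XT.nd (nat_lit 78) (nat_lit 152) (nat_lit 0) (XT.lf (nat_lit 0) (nat_lit 5280560045) (nat_lit 228) (nat_lit 907728780) (nat_lit 76) (nat_lit 9675293994) (nat_lit 33) (nat_lit 5) (nat_lit 36) (nat_lit 5) (nat_lit 34) (nat_lit 5) (nat_lit 334) (nat_lit 247) (nat_lit 199)) (XT.lf (nat_lit 0) (nat_lit 5590891754) (nat_lit 152) (nat_lit 2793849852) (nat_lit 228) (nat_lit 7831062155) (nat_lit 31) (nat_lit 5)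 (nat_lit 33) (nat_lit 5) (nat_lit 34) (nat_lit 5) (nat_lit 335) (nat_lit 247) (nat_lit 198)))) (XT.nd (nat_lit 78) (nat_lit 228) (nat_lit 0) (XT.lf (nat_lit 0) (nat_lit 11559971911) (nat_lit 228) (nat_lit 4344379575) (nat_lit 76) (nat_lit 674938183) (nat_lit 31) (nat_lit 5) (nat_lit 34) (nat_lit 5) (nat_lit 32) (nat_lit 4) (nat_lit 336) (nat_lit 247) (nat_lit 197)) (XT.nd (nat_lit 78) (nat_lit 76) (nat_lit 0) (XT.lf (nat_lit 0) (nat_lit 2076951464) (nat_lit 152) (nat_lit 12764157911) (nat_lit 228) (nat_lit 2112286257) (nat_lit 29) (nat_lit 5) (nat_lit 31) (nat_lit 5) (nat_lit 32) (nat_lit 4) (nat_lit 337) (nat_lit 247) (nat_lit 196)) (XT.lf (nat_lit 0) (nat_lit 872180387) (nat_lit 228) (nat_lit 8627001046) (nat_lit 76) (nat_lit 7839098952) (nat_lit 28) (nat_lit 5) (nat_lit 31) (nat_lit 5) (nat_lit 29) (nat_lit 5) (nat_lit 338) (nat_lit 247) (nat_lit 195))))))) (XT.nd (nat_lit 936) (nat_lit 532)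 (nat_lit 0) (XT.nd (nat_lit 468) (nat_lit 228) (nat_lit 0) (XT.nd (nat_lit 234) (nat_lit 228) (nat_lit 0) (XT.nd (nat_lit 78) (nat_lit 152) (nat_lit 0) (XT.lf (nat_lit 0) (nat_lit 3867930317) (nat_lit 228) (nat_lit 2269879680) (nat_lit 76) (nat_lit 11597380165) (nat_lit 28) (nat_lit 5) (nat_lit 31) (nat_lit 5) (nat_lit 29) (nat_lit 5) (nat_lit 339) (nat_lit 247) (nat_lit 194)) (XT.nd (nat_lit 78) (nat_lit 0) (nat_lit 0) (XT.lf (nat_lit 0) (nat_lit 4304781066) (nat_lit 152) (nat_lit 2655398613) (nat_lit 228) (nat_lit 11183659830) (nat_lit 26) (nat_lit 5) (nat_lit 28) (nat_lit 5) (nat_lit 29) (nat_lit 5) (nat_lit 340) (nat_lit 247) (nat_lit 193)) (XT.lf (nat_lit 0) (nat_lit 10142798907) (nat_lit 228) (nat_lit 7507489280) (nat_lit 76) (nat_lit 914562257) (nat_lit 26) (nat_lit 5) (nat_lit 29) (nat_lit 5) (nat_lit 27) (nat_lit 4) (nat_lit 341) (nat_lit 247) (nat_lit 192)))) (XT.nd (nat_lit 78) (nat_lit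 228) (nat_lit 0) (XT.lf (nat_lit 0) (nat_lit 13413692740) (nat_lit 228) (nat_lit 1068050116) (nat_lit 76) (nat_lit 4516994271) (nat_lit 26) (nat_lit 5) (nat_lit 29) (nat_lit 5) (nat_lit 27) (nat_lit 4) (nat_lit 342) (nat_lit 247) (nat_lit 191)) (XT.nd (nat_lit 78) (nat_lit 76) (nat_lit 0) (XT.lf (nat_lit 0) (nat_lit 5620079043) (nat_lit 152) (nat_lit 11184138519) (nat_lit 228) (nat_lit 2640806169) (nat_lit 24) (nat_lit 5) (nat_lit 26) (nat_lit 5) (nat_lit 27) (nat_lit 4) (nat_lit 343) (nat_lit 247) (nat_lit 190)) (XT.lf (nat_lit 0) (nat_lit 362573956) (nat_lit 228) (nat_lit 7431804392) (nat_lit 76) (nat_lit 12110880643) (nat_lit 23) (nat_lit 5) (nat_lit 26) (nat_lit 5) (nat_lit 24) (nat_lit 5) (nat_lit 344) (nat_lit 247) (nat_lit 189))))) (XT.nd (nat_lit 234) (nat_lit 76) (nat_lit 0) (XT.nd (nat_lit 78) (nat_lit 152) (nat_lit 0) (XT.lf (nat_lit 0) (nat_lit 3371489935) (nat_lit 228) (nat_lit 925737316)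 (nat_lit 76) (nat_lit 16082260333) (nat_lit 23) (nat_lit 5) (nat_lit 26) (nat_lit 5) (nat_lit 24) (nat_lit 5) (nat_lit 345) (nat_lit 247) (nat_lit 188)) (XT.nd (nat_lit 78) (nat_lit 0) (nat_lit 0) (XT.lf (nat_lit 0) (nat_lit 5838251818) (nat_lit 152) (nat_lit 657971585) (nat_lit 228) (nat_lit 14370978405) (nat_lit 21) (nat_lit 5) (nat_lit 23) (nat_lit 5) (nat_lit 24) (nat_lit 5) (nat_lit 346) (nat_lit 247) (nat_lit 187)) (XT.lf (nat_lit 0) (nat_lit 9723482137) (nat_lit 228) (nat_lit 8626345461) (nat_lit 76) (nat_lit 3019480902) (nat_lit 21) (nat_lit 5) (nat_lit 24) (nat_lit 5) (nat_lit 22) (nat_lit 4) (nat_lit 347) (nat_lit 247) (nat_lit 186)))) (XT.nd (nat_lit 78) (nat_lit 76) (nat_lit 0) (XT.lf (nat_lit 0) (nat_lit 13024592781) (nat_lit 228) (nat_lit 2088095633) (nat_lit 76) (nat_lit 6774502778) (nat_lit 21) (nat_lit 5) (nat_lit 24) (nat_lit 5) (nat_lit 22) (nat_lit 4) (nat_lit 348) (nat_lit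 247) (nat_lit 185)) (XT.nd (nat_lit 78) (nat_lit 0) (nat_lit 0) (XT.lf (nat_lit 0) (nat_lit 4689343330) (nat_lit 76) (nat_lit 11751848480) (nat_lit 152) (nat_lit 5978948033) (nat_lit 20) (nat_lit 5) (nat_lit 21) (nat_lit 5) (nat_lit 22) (nat_lit 4) (nat_lit 349) (nat_lit 247) (nat_lit 184)) (XT.lf (nat_lit 0) (nat_lit 11664920179) (nat_lit 76) (nat_lit 8288204875) (nat_lit 152) (nat_lit 3016189268) (nat_lit 20) (nat_lit 5) (nat_lit 21) (nat_lit 5) (nat_lit 22) (nat_lit 4) (nat_lit 350) (nat_lit 247) (nat_lit 183)))))) (XT.nd (nat_lit 468) (nat_lit 228) (nat_lit 0) (XT.nd (nat_lit 234) (nat_lit 76) (nat_lit 0) (XT.nd (nat_lit 78) (nat_lit 152) (nat_lit 0) (XT.lf (nat_lit 0) (nat_lit 7040902) (nat_lit 152) (nat_lit 4732704785) (nat_lit 76) (nat_lit 18796060880) (nat_lit 19) (nat_lit 5) (nat_lit 21) (nat_lit 5) (nat_lit 20) (nat_lit 5) (nat_lit 351) (nat_lit 247) (nat_lit 182)) (XT.nd (nat_lit 78)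 (nat_lit 0) (nat_lit 0) (XT.lf (nat_lit 0) (nat_lit 1999498841) (nat_lit 152) (nat_lit 1053154933) (nat_lit 228) (nat_lit 21065995210) (nat_lit 17) (nat_lit 5) (nat_lit 19) (nat_lit 5) (nat_lit 20) (nat_lit 5) (nat_lit 352) (nat_lit 247) (nat_lit 181)) (XT.lf (nat_lit 0) (nat_lit 6237531888) (nat_lit 228) (nat_lit 15759687093) (nat_lit 76) (nat_lit 2720340740) (nat_lit 17) (nat_lit 5) (nat_lit 20) (nat_lit 5) (nat_lit 18) (nat_lit 4) (nat_lit 353) (nat_lit 247) (nat_lit 180)))) (XT.nd (nat_lit 78) (nat_lit 76) (nat_lit 0) (XT.lf (nat_lit 0) (nat_lit 9502417901) (nat_lit 228) (nat_lit 9264506289) (nat_lit 76) (nat_lit 6567999115) (nat_lit 17) (nat_lit 5) (nat_lit 20) (nat_lit 5) (nat_lit 18) (nat_lit 4) (nat_lit 354) (nat_lit 247) (nat_lit 179)) (XT.nd (nat_lit 78) (nat_lit 76) (nat_lit 0) (XT.lf (nat_lit 0) (nat_lit 12840041057) (nat_lit 228) (nat_lit 2617808760) (nat_lit 76) (nat_lit 10513733068)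 (nat_lit 17) (nat_lit 5) (nat_lit 20) (nat_lit 5) (nat_lit 18) (nat_lit 4) (nat_lit 355) (nat_lit 247) (nat_lit 178)) (XT.lf (nat_lit 0) (nat_lit 4269527138) (nat_lit 76) (nat_lit 12024831893) (nat_lit 152) (nat_lit 10332504498) (nat_lit 16) (nat_lit 5) (nat_lit 17) (nat_lit 5) (nat_lit 18) (nat_lit 4) (nat_lit 356) (nat_lit 247) (nat_lit 177))))) (XT.nd (nat_lit 234) (nat_lit 228) (nat_lit 0) (XT.nd (nat_lit 78) (nat_lit 0) (nat_lit 0) (XT.lf (nat_lit 0) (nat_lit 11375481733) (nat_lit 76) (nat_lit 8479096735) (nat_lit 152) (nat_lit 7447173693) (nat_lit 16) (nat_lit 5) (nat_lit 17) (nat_lit 5) (nat_lit 18) (nat_lit 4) (nat_lit 357) (nat_lit 247) (nat_lit 176)) (XT.nd (nat_lit 78) (nat_lit 0) (nat_lit 0) (XT.lf (nat_lit 0) (nat_lit 18654164584) (nat_lit 76) (nat_lit 4843980865) (nat_lit 152) (nat_lit 4499462986) (nat_lit 16) (nat_lit 5) (nat_lit 17) (nat_lit 5) (nat_lit 18) (nat_lit 4) (nat_lit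 358) (nat_lit 247) (nat_lit 175)) (XT.lf (nat_lit 0) (nat_lit 26111935704) (nat_lit 76) (nat_lit 1116307968) (nat_lit 152) (nat_lit 1486796707) (nat_lit 16) (nat_lit 5) (nat_lit 17) (nat_lit 5) (nat_lit 18) (nat_lit 4) (nat_lit 359) (nat_lit 247) (nat_lit 174)))) (XT.nd (nat_lit 78) (nat_lit 0) (nat_lit 0) (XT.lf (nat_lit 0) (nat_lit 1630967095) (nat_lit 228) (nat_lit 25108939973) (nat_lit 76) (nat_lit 2712250181) (nat_lit 13) (nat_lit 5) (nat_lit 16) (nat_lit 5) (nat_lit 14) (nat_lit 4) (nat_lit 360) (nat_lit 247) (nat_lit 173)) (XT.nd (nat_lit 78) (nat_lit 0) (nat_lit 0) (XT.lf (nat_lit 0) (nat_lit 4827760875) (nat_lit 228) (nat_lit 18724075164) (nat_lit 76) (nat_lit 6658663849) (nat_lit 13) (nat_lit 5) (nat_lit 16) (nat_lit 5) (nat_lit 14) (nat_lit 4) (nat_lit 361) (nat_lit 247) (nat_lit 172)) (XT.lf (nat_lit 0) (nat_lit 8098886757) (nat_lit 228) (nat_lit 12185268813) (nat_lit 76) (nat_lit 10708099234)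 (nat_lit 13) (nat_lit 5) (nat_lit 16) (nat_lit 5) (nat_lit 14) (nat_lit 4) (nat_lit 362) (nat_lit 247) (nat_lit 171))))))))
noncomputable def xc75 : XT := (XT.nd (nat_lit 1794) (nat_lit 152) (nat_lit 0) (XT.nd (nat_lit 858) (nat_lit 228) (nat_lit 0) (XT.nd (nat_lit 390) (nat_lit 152) (nat_lit 0) (XT.nd (nat_lit 156) (nat_lit 0) (nat_lit 0) (XT.nd (nat_lit 78) (nat_lit 76) (nat_lit 0) (XT.lf (nat_lit 0) (nat_lit 11447203005) (nat_lit 228) (nat_lit 5486807400) (nat_lit 76) (nat_lit 14864094678) (nat_lit 13) (nat_lit 5) (nat_lit 16) (nat_lit 5) (nat_lit 14) (nat_lit 4) (nat_lit 363) (nat_lit 247) (nat_lit 170)) (XT.lf (nat_lit 0) (nat_lit 1404570325) (nat_lit 76) (nat_lit 13484566598) (nat_lit 152) (nat_lit 17739212896) (nat_lit 12) (nat_lit 5) (nat_lit 13) (nat_lit 5) (nat_lit 14) (nat_lit 4) (nat_lit 364) (nat_lit 247) (nat_lit 169))) (XT.nd (nat_lit 78) (nat_lit 0) (nat_lit 0) (XT.lf (nat_lit 0)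 (nat_lit 8580065307) (nat_lit 76) (nat_lit 9889590990) (nat_lit 152) (nat_lit 15012799364) (nat_lit 12) (nat_lit 5) (nat_lit 13) (nat_lit 5) (nat_lit 14) (nat_lit 4) (nat_lit 365) (nat_lit 247) (nat_lit 168)) (XT.nd (nat_lit 78) (nat_lit 0) (nat_lit 0) (XT.lf (nat_lit 0) (nat_lit 15936749169) (nat_lit 76) (nat_lit 6201348338) (nat_lit 152) (nat_lit 12224685174) (nat_lit 12) (nat_lit 5) (nat_lit 13) (nat_lit 5) (nat_lit 14) (nat_lit 4) (nat_lit 366) (nat_lit 247) (nat_lit 167)) (XT.lf (nat_lit 0) (nat_lit 23481050081) (nat_lit 76) (nat_lit 2416615904) (nat_lit 152) (nat_lit 9372434111) (nat_lit 12) (nat_lit 5) (nat_lit 13) (nat_lit 5) (nat_lit 14) (nat_lit 4) (nat_lit 367) (nat_lit 247) (nat_lit 166))))) (XT.nd (nat_lit 234) (nat_lit 76) (nat_lit 0) (XT.nd (nat_lit 78) (nat_lit 76) (nat_lit 0) (XT.lf (nat_lit 0) (nat_lit 29765757276) (nat_lit 152) (nat_lit 4999751040) (nat_lit 0) (nat_lit 1439269080)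 (nat_lit 12) (nat_lit 5) (nat_lit 14) (nat_lit 4) (nat_lit 12) (nat_lit 4) (nat_lit 368) (nat_lit 247) (nat_lit 165)) (XT.nd (nat_lit 78) (nat_lit 0) (nat_lit 0) (XT.lf (nat_lit 0) (nat_lit 1976260659) (nat_lit 76) (nat_lit 31798586745) (nat_lit 76) (nat_lit 3391910999) (nat_lit 11) (nat_lit 4) (nat_lit 12) (nat_lit 5) (nat_lit 12) (nat_lit 4) (nat_lit 369) (nat_lit 247) (nat_lit 164)) (XT.lf (nat_lit 0) (nat_lit 9232749224) (nat_lit 76) (nat_lit 28704203400) (nat_lit 76) (nat_lit 219675664) (nat_lit 11) (nat_lit 4) (nat_lit 12) (nat_lit 5) (nat_lit 12) (nat_lit 4) (nat_lit 370) (nat_lit 247) (nat_lit 163)))) (XT.nd (nat_lit 78) (nat_lit 0) (nat_lit 0) (XT.lf (nat_lit 0) (nat_lit 2970844427) (nat_lit 152) (nat_lit 22529298004) (nat_lit 76) (nat_lit 13675706293) (nat_lit 10) (nat_lit 5) (nat_lit 12) (nat_lit 5) (nat_lit 11) (nat_lit 4) (nat_lit 371) (nat_lit 247) (nat_lit 162)) (XT.nd (nat_lit 78)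 (nat_lit 0) (nat_lit 0) (XT.lf (nat_lit 0) (nat_lit 6235761775) (nat_lit 152) (nat_lit 15974898755) (nat_lit 76) (nat_lit 18015437810) (nat_lit 10) (nat_lit 5) (nat_lit 12) (nat_lit 5) (nat_lit 11) (nat_lit 4) (nat_lit 372) (nat_lit 247) (nat_lit 161)) (XT.lf (nat_lit 0) (nat_lit 9582215882) (nat_lit 152) (nat_lit 9252842517) (nat_lit 76) (nat_lit 22473299781) (nat_lit 10) (nat_lit 5) (nat_lit 12) (nat_lit 5) (nat_lit 11) (nat_lit 4) (nat_lit 373) (nat_lit 247) (nat_lit 160)))))) (XT.nd (nat_lit 468) (nat_lit 152) (nat_lit 0) (XT.nd (nat_lit 234) (nat_lit 0) (nat_lit 0) (XT.nd (nat_lit 78) (nat_lit 76) (nat_lit 0) (XT.lf (nat_lit 0) (nat_lit 13013130834) (nat_lit 152) (nat_lit 2357255648) (nat_lit 76) (nat_lit 27053187426) (nat_lit 10) (nat_lit 5) (nat_lit 12) (nat_lit 5) (nat_lit 11) (nat_lit 4) (nat_lit 374) (nat_lit 247) (nat_lit 159)) (XT.nd (nat_lit 78) (nat_lit 0) (nat_lit 0) (XT.lf (nat_lit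 0) (nat_lit 4811782325) (nat_lit 76) (nat_lit 11765975989) (nat_lit 152) (nat_lit 26993574058) (nat_lit 9) (nat_lit 5) (nat_lit 10) (nat_lit 5) (nat_lit 11) (nat_lit 4) (nat_lit 375) (nat_lit 247) (nat_lit 158)) (XT.lf (nat_lit 0) (nat_lit 12217168925) (nat_lit 76) (nat_lit 8040681219) (nat_lit 152) (nat_lit 24495427209) (nat_lit 9) (nat_lit 5) (nat_lit 10) (nat_lit 5) (nat_lit 11) (nat_lit 4) (nat_lit 376) (nat_lit 247) (nat_lit 157)))) (XT.nd (nat_lit 78) (nat_lit 0) (nat_lit 0) (XT.lf (nat_lit 0) (nat_lit 19818460867) (nat_lit 76) (nat_lit 4215050722) (nat_lit 152) (nat_lit 21937623339) (nat_lit 9) (nat_lit 5) (nat_lit 10) (nat_lit 5) (nat_lit 11) (nat_lit 4) (nat_lit 377) (nat_lit 247) (nat_lit 156)) (XT.nd (nat_lit 78) (nat_lit 0) (nat_lit 0) (XT.lf (nat_lit 0) (nat_lit 27622300057) (nat_lit 76) (nat_lit 285741714) (nat_lit 152) (nat_lit 19317927475) (nat_lit 9) (nat_lit 5) (nat_lit 10) (nat_lit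 5) (nat_lit 11) (nat_lit 4) (nat_lit 378) (nat_lit 247) (nat_lit 155)) (XT.lf (nat_lit 0) (nat_lit 31920880026) (nat_lit 152) (nat_lit 12919425205) (nat_lit 0) (nat_lit 3677489920) (nat_lit 9) (nat_lit 5) (nat_lit 11) (nat_lit 4) (nat_lit 9) (nat_lit 4) (nat_lit 379) (nat_lit 247) (nat_lit 154))))) (XT.nd (nat_lit 234) (nat_lit 76) (nat_lit 0) (XT.nd (nat_lit 78) (nat_lit 76) (nat_lit 0) (XT.lf (nat_lit 0) (nat_lit 36043257640) (nat_lit 152) (nat_lit 6061826431) (nat_lit 0) (nat_lit 7743625601) (nat_lit 9) (nat_lit 5) (nat_lit 11) (nat_lit 4) (nat_lit 9) (nat_lit 4) (nat_lit 380) (nat_lit 247) (nat_lit 153)) (XT.nd (nat_lit 78) (nat_lit 0) (nat_lit 0) (XT.lf (nat_lit 0) (nat_lit 997327382) (nat_lit 76) (nat_lit 39288289508) (nat_lit 76) (nat_lit 10934053650) (nat_lit 8) (nat_lit 4) (nat_lit 9) (nat_lit 5) (nat_lit 9) (nat_lit 4) (nat_lit 381) (nat_lit 247) (nat_lit 152)) (XT.lf (nat_lit 0) (nat_lit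 8369114645) (nat_lit 76) (nat_lit 36334229957) (nat_lit 76) (nat_lit 7926980682) (nat_lit 8) (nat_lit 4) (nat_lit 9) (nat_lit 5) (nat_lit 9) (nat_lit 4) (nat_lit 382) (nat_lit 247) (nat_lit 151)))) (XT.nd (nat_lit 78) (nat_lit 76) (nat_lit 0) (XT.lf (nat_lit 0) (nat_lit 15939334493) (nat_lit 76) (nat_lit 33301536762) (nat_lit 76) (nat_lit 4842818150) (nat_lit 8) (nat_lit 4) (nat_lit 9) (nat_lit 5) (nat_lit 9) (nat_lit 4) (nat_lit 383) (nat_lit 247) (nat_lit 150)) (XT.nd (nat_lit 78) (nat_lit 76) (nat_lit 0) (XT.lf (nat_lit 0) (nat_lit 23714601681) (nat_lit 76) (nat_lit 30187559997) (nat_lit 76) (nat_lit 1678871155) (nat_lit 8) (nat_lit 4) (nat_lit 9) (nat_lit 5) (nat_lit 9) (nat_lit 4) (nat_lit 384) (nat_lit 247) (nat_lit 149)) (XT.lf (nat_lit 0) (nat_lit 1537034908) (nat_lit 152) (nat_lit 25437022764) (nat_lit 76) (nat_lit 30149154185) (nat_lit 7) (nat_lit 5) (nat_lit 9) (nat_lit 5) (nat_lit 8)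 (nat_lit 4) (nat_lit 385) (nat_lit 247) (nat_lit 148))))))) (XT.nd (nat_lit 936) (nat_lit 76) (nat_lit 0) (XT.nd (nat_lit 468) (nat_lit 0) (nat_lit 0) (XT.nd (nat_lit 234) (nat_lit 76) (nat_lit 0) (XT.nd (nat_lit 78) (nat_lit 0) (nat_lit 0) (XT.lf (nat_lit 0) (nat_lit 4803899784) (nat_lit 152) (nat_lit 18852388799) (nat_lit 76) (nat_lit 35055229119) (nat_lit 7) (nat_lit 5) (nat_lit 9) (nat_lit 5) (nat_lit 8) (nat_lit 4) (nat_lit 386) (nat_lit 247) (nat_lit 147)) (XT.nd (nat_lit 78) (nat_lit 0) (nat_lit 0) (XT.lf (nat_lit 0) (nat_lit 8157338839) (nat_lit 152) (nat_lit 12090637357) (nat_lit 76) (nat_lit 40099846164) (nat_lit 7) (nat_lit 5) (nat_lit 9) (nat_lit 5) (nat_lit 8) (nat_lit 4) (nat_lit 387) (nat_lit 247) (nat_lit 146)) (XT.lf (nat_lit 0) (nat_lit 11600282261) (nat_lit 152) (nat_lit 5145860111) (nat_lit 76) (nat_lit 45287413239) (nat_lit 7) (nat_lit 5) (nat_lit 9) (nat_lit 5) (nat_lit 8)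 (nat_lit 4) (nat_lit 388) (nat_lit 247) (nat_lit 145)))) (XT.nd (nat_lit 78) (nat_lit 0) (nat_lit 0) (XT.lf (nat_lit 0) (nat_lit 2027576510) (nat_lit 76) (nat_lit 13127652244) (nat_lit 152) (nat_lit 48614376962) (nat_lit 6) (nat_lit 5) (nat_lit 7) (nat_lit 5) (nat_lit 8) (nat_lit 4) (nat_lit 389) (nat_lit 247) (nat_lit 144)) (XT.nd (nat_lit 78) (nat_lit 0) (nat_lit 0) (XT.lf (nat_lit 0) (nat_lit 9502640775) (nat_lit 76) (nat_lit 9355501056) (nat_lit 152) (nat_lit 46698362065) (nat_lit 6) (nat_lit 5) (nat_lit 7) (nat_lit 5) (nat_lit 8) (nat_lit 4) (nat_lit 390) (nat_lit 247) (nat_lit 143)) (XT.lf (nat_lit 0) (nat_lit 17183451586) (nat_lit 76) (nat_lit 5478355851) (nat_lit 152) (nat_lit 44735517568) (nat_lit 6) (nat_lit 5) (nat_lit 7) (nat_lit 5) (nat_lit 8) (nat_lit 4) (nat_lit 391) (nat_lit 247) (nat_lit 142))))) (XT.nd (nat_lit 234) (nat_lit 0) (nat_lit 0) (XT.nd (nat_lit 78) (nat_lit 0) (nat_lit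 0) (XT.lf (nat_lit 0) (nat_lit 25076720331) (nat_lit 76) (nat_lit 1492828833) (nat_lit 152) (nat_lit 42724128364) (nat_lit 6) (nat_lit 5) (nat_lit 7) (nat_lit 5) (nat_lit 8) (nat_lit 4) (nat_lit 392) (nat_lit 247) (nat_lit 141)) (XT.nd (nat_lit 78) (nat_lit 0) (nat_lit 0) (XT.lf (nat_lit 0) (nat_lit 30609818192) (nat_lit 152) (nat_lit 38082911080) (nat_lit 0) (nat_lit 2553738101) (nat_lit 6) (nat_lit 5) (nat_lit 8) (nat_lit 4) (nat_lit 6) (nat_lit 4) (nat_lit 393) (nat_lit 247) (nat_lit 140)) (XT.lf (nat_lit 0) (nat_lit 34776546035) (nat_lit 152) (nat_lit 31796776403) (nat_lit 0) (nat_lit 6684366386) (nat_lit 6) (nat_lit 5) (nat_lit 8) (nat_lit 4) (nat_lit 6) (nat_lit 4) (nat_lit 394) (nat_lit 247) (nat_lit 139)))) (XT.nd (nat_lit 78) (nat_lit 0) (nat_lit 0) (XT.lf (nat_lit 0) (nat_lit 39059023539) (nat_lit 152) (nat_lit 25338710444) (nat_lit 0) (nat_lit 10931795777) (nat_lit 6) (nat_lit 5) (nat_lit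 8) (nat_lit 4) (nat_lit 6) (nat_lit 4) (nat_lit 395) (nat_lit 247) (nat_lit 138)) (XT.nd (nat_lit 78) (nat_lit 0) (nat_lit 0) (XT.lf (nat_lit 0) (nat_lit 43460992676) (nat_lit 152) (nat_lit 18703070233) (nat_lit 0) (nat_lit 15299737619) (nat_lit 6) (nat_lit 5) (nat_lit 8) (nat_lit 4) (nat_lit 6) (nat_lit 4) (nat_lit 396) (nat_lit 247) (nat_lit 137)) (XT.lf (nat_lit 0) (nat_lit 47986299827) (nat_lit 152) (nat_lit 11884057638) (nat_lit 0) (nat_lit 19792008561) (nat_lit 6) (nat_lit 5) (nat_lit 8) (nat_lit 4) (nat_lit 6) (nat_lit 4) (nat_lit 397) (nat_lit 247) (nat_lit 136)))))) (XT.nd (nat_lit 31902) (nat_lit 0) (nat_lit 10412) (XT.nd (nat_lit 312) (nat_lit 0) (nat_lit 0) (XT.nd (nat_lit 78) (nat_lit 76) (nat_lit 0) (XT.lf (nat_lit 0) (nat_lit 52638899142) (nat_lit 152) (nat_lit 4875714297) (nat_lit 0) (nat_lit 24412533887) (nat_lit 6) (nat_lit 5) (nat_lit 8) (nat_lit 4) (nat_lit 6) (nat_lit 4) (nat_lit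 398) (nat_lit 247) (nat_lit 135)) (XT.nd (nat_lit 78) (nat_lit 0) (nat_lit 0) (XT.lf (nat_lit 0) (nat_lit 2374417011) (nat_lit 76) (nat_lit 55071263338) (nat_lit 76) (nat_lit 26813758288) (nat_lit 5) (nat_lit 4) (nat_lit 6) (nat_lit 5) (nat_lit 6) (nat_lit 4) (nat_lit 399) (nat_lit 247) (nat_lit 134)) (XT.lf (nat_lit 0) (nat_lit 9927348918) (nat_lit 76) (nat_lit 52510429391) (nat_lit 76) (nat_lit 24222691530) (nat_lit 5) (nat_lit 4) (nat_lit 6) (nat_lit 5) (nat_lit 6) (nat_lit 4) (nat_lit 400) (nat_lit 247) (nat_lit 133)))) (XT.nd (nat_lit 31434) (nat_lit 0) (nat_lit 13832) (XT.lf (nat_lit 0) (nat_lit 25677089863) (nat_lit 76) (nat_lit 47175003342) (nat_lit 76) (nat_lit 18829415914) (nat_lit 5) (nat_lit 4) (nat_lit 6) (nat_lit 5) (nat_lit 6) (nat_lit 4) (nat_lit 402) (nat_lit 247) (nat_lit 131)) (XT.nd (nat_lit 78) (nat_lit 0) (nat_lit 0) (XT.lf (nat_lit 0) (nat_lit 452099805) (nat_lit 988) (nat_lit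 1554932669) (nat_lit 988) (nat_lit 1554932669) (nat_lit 187) (nat_lit 4) (nat_lit 200) (nat_lit 5) (nat_lit 200) (nat_lit 4) (nat_lit 284) (nat_lit 248) (nat_lit 248)) (XT.lf (nat_lit 0) (nat_lit 5458117803) (nat_lit 988) (nat_lit 1680730273) (nat_lit 988) (nat_lit 45782583) (nat_lit 187) (nat_lit 4) (nat_lit 200) (nat_lit 5) (nat_lit 200) (nat_lit 4) (nat_lit 285) (nat_lit 248) (nat_lit 247))))) (XT.nd (nat_lit 234) (nat_lit 1140) (nat_lit 0) (XT.nd (nat_lit 78) (nat_lit 1140) (nat_lit 0) (XT.lf (nat_lit 0) (nat_lit 2837447532) (nat_lit 1064) (nat_lit 147637726) (nat_lit 1140) (nat_lit 4263335231) (nat_lit 172) (nat_lit 5) (nat_lit 186) (nat_lit 5) (nat_lit 187) (nat_lit 4) (nat_lit 286) (nat_lit 248) (nat_lit 246)) (XT.nd (nat_lit 78) (nat_lit 76) (nat_lit 0) (XT.lf (nat_lit 0) (nat_lit 157217523) (nat_lit 1064) (nat_lit 5891730036) (nat_lit 1064) (nat_lit 1267098436) (nat_lit 158) (nat_lit 4)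 (nat_lit 172) (nat_lit 5) (nat_lit 172) (nat_lit 4) (nat_lit 287) (nat_lit 248) (nat_lit 245)) (XT.lf (nat_lit 0) (nat_lit 1740744362) (nat_lit 1140) (nat_lit 2543550389) (nat_lit 76) (nat_lit 3102376817) (nat_lit 157) (nat_lit 5) (nat_lit 172) (nat_lit 5) (nat_lit 158) (nat_lit 4) (nat_lit 288) (nat_lit 248) (nat_lit 244)))) (XT.nd (nat_lit 78) (nat_lit 608) (nat_lit 0) (XT.lf (nat_lit 0) (nat_lit 2149614045) (nat_lit 532) (nat_lit 2597773013) (nat_lit 608) (nat_lit 2713837648) (nat_lit 150) (nat_lit 5) (nat_lit 157) (nat_lit 5) (nat_lit 158) (nat_lit 4) (nat_lit 289) (nat_lit 248) (nat_lit 243)) (XT.nd (nat_lit 78) (nat_lit 532) (nat_lit 0) (XT.lf (nat_lit 0) (nat_lit 240176451) (nat_lit 608) (nat_lit 595725004) (nat_lit 76) (nat_lit 6704020854) (nat_lit 149) (nat_lit 5) (nat_lit 157) (nat_lit 5) (nat_lit 150) (nat_lit 5) (nat_lit 290) (nat_lit 248) (nat_lit 242)) (XT.lf (nat_lit 0) (nat_lit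 3195450635) (nat_lit 608) (nat_lit 3402736882) (nat_lit 76) (nat_lit 1023160314) (nat_lit 142) (nat_lit 5) (nat_lit 150) (nat_lit 5) (nat_lit 143) (nat_lit 4) (nat_lit 291) (nat_lit 248) (nat_lit 241))))))))
noncomputable def xc76 : XT := (XT.nd (nat_lit 1794) (nat_lit 2584) (nat_lit 0) (XT.nd (nat_lit 858) (nat_lit 2508) (nat_lit 0) (XT.nd (nat_lit 390) (nat_lit 1824) (nat_lit 0) (XT.nd (nat_lit 156) (nat_lit 1064) (nat_lit 0) (XT.nd (nat_lit 78) (nat_lit 76) (nat_lit 0) (XT.lf (nat_lit 0) (nat_lit 1413737224) (nat_lit 532) (nat_lit 4771627387) (nat_lit 608) (nat_lit 1521655199) (nat_lit 135) (nat_lit 5) (nat_lit 142) (nat_lit 5) (nat_lit 143) (nat_lit 4) (nat_lit 292) (nat_lit 248) (nat_lit 240)) (XT.lf (nat_lit 0) (nat_lit 1394335425) (nat_lit 608) (nat_lit 1455217616) (nat_lit 76) (nat_lit 4946858676) (nat_lit 134) (nat_lit 5) (nat_lit 142) (nat_lit 5) (nat_lit 135) (nat_lit 5) (nat_lit 293)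 (nat_lit 248) (nat_lit 239))) (XT.nd (nat_lit 78) (nat_lit 532) (nat_lit 0) (XT.lf (nat_lit 0) (nat_lit 3492752580) (nat_lit 532) (nat_lit 829014388) (nat_lit 608) (nat_lit 3567797687) (nat_lit 127) (nat_lit 5) (nat_lit 134) (nat_lit 5) (nat_lit 135) (nat_lit 5) (nat_lit 294) (nat_lit 248) (nat_lit 238)) (XT.nd (nat_lit 78) (nat_lit 76) (nat_lit 0) (XT.lf (nat_lit 0) (nat_lit 542469037) (nat_lit 456) (nat_lit 6748980140) (nat_lit 532) (nat_lit 695592889) (nat_lit 121) (nat_lit 5) (nat_lit 127) (nat_lit 5) (nat_lit 128) (nat_lit 4) (nat_lit 295) (nat_lit 248) (nat_lit 237)) (XT.lf (nat_lit 0) (nat_lit 2194503289) (nat_lit 532) (nat_lit 2487115710) (nat_lit 76) (nat_lit 3406049235) (nat_lit 120) (nat_lit 5) (nat_lit 127) (nat_lit 5) (nat_lit 121) (nat_lit 5) (nat_lit 296) (nat_lit 248) (nat_lit 236))))) (XT.nd (nat_lit 234) (nat_lit 912) (nat_lit 0) (XT.nd (nat_lit 78) (nat_lit 456) (nat_lit 0) (XT.lf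 (nat_lit 0) (nat_lit 2574390659) (nat_lit 456) (nat_lit 2532758503) (nat_lit 532) (nat_lit 3085611495) (nat_lit 114) (nat_lit 5) (nat_lit 120) (nat_lit 5) (nat_lit 121) (nat_lit 5) (nat_lit 297) (nat_lit 248) (nat_lit 235)) (XT.nd (nat_lit 78) (nat_lit 456) (nat_lit 0) (XT.lf (nat_lit 0) (nat_lit 7751565384) (nat_lit 456) (nat_lit 307149212) (nat_lit 532) (nat_lit 243889625) (nat_lit 114) (nat_lit 5) (nat_lit 120) (nat_lit 5) (nat_lit 121) (nat_lit 5) (nat_lit 298) (nat_lit 248) (nat_lit 234)) (XT.lf (nat_lit 0) (nat_lit 2622767458) (nat_lit 456) (nat_lit 3788576628) (nat_lit 76) (nat_lit 2004000329) (nat_lit 108) (nat_lit 5) (nat_lit 114) (nat_lit 5) (nat_lit 109) (nat_lit 5) (nat_lit 299) (nat_lit 248) (nat_lit 233)))) (XT.nd (nat_lit 78) (nat_lit 456) (nat_lit 0) (XT.lf (nat_lit 0) (nat_lit 1373724560) (nat_lit 456) (nat_lit 4147533369) (nat_lit 532) (nat_lit 3011746678) (nat_lit 102) (nat_lit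 5) (nat_lit 108) (nat_lit 5) (nat_lit 109) (nat_lit 5) (nat_lit 300) (nat_lit 248) (nat_lit 232)) (XT.nd (nat_lit 78) (nat_lit 456) (nat_lit 0) (XT.lf (nat_lit 0) (nat_lit 6681939176) (nat_lit 456) (nat_lit 1793130208) (nat_lit 532) (nat_lit 180202684) (nat_lit 102) (nat_lit 5) (nat_lit 108) (nat_lit 5) (nat_lit 109) (nat_lit 5) (nat_lit 301) (nat_lit 248) (nat_lit 231)) (XT.lf (nat_lit 0) (nat_lit 2652656007) (nat_lit 456) (nat_lit 5467014775) (nat_lit 76) (nat_lit 661775864) (nat_lit 96) (nat_lit 5) (nat_lit 102) (nat_lit 5) (nat_lit 97) (nat_lit 5) (nat_lit 302) (nat_lit 248) (nat_lit 230)))))) (XT.nd (nat_lit 468) (nat_lit 1292) (nat_lit 0) (XT.nd (nat_lit 234) (nat_lit 456) (nat_lit 0) (XT.nd (nat_lit 78) (nat_lit 760) (nat_lit 0) (XT.lf (nat_lit 0) (nat_lit 5537125839) (nat_lit 456) (nat_lit 215981486) (nat_lit 76) (nat_lit 3159255743) (nat_lit 96) (nat_lit 5) (nat_lit 102) (nat_lit 5) (nat_lit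 97) (nat_lit 5) (nat_lit 303) (nat_lit 248) (nat_lit 229)) (XT.nd (nat_lit 78) (nat_lit 380) (nat_lit 0) (XT.lf (nat_lit 0) (nat_lit 5210057008) (nat_lit 380) (nat_lit 3282494258) (nat_lit 456) (nat_lit 555237199) (nat_lit 91) (nat_lit 5) (nat_lit 96) (nat_lit 5) (nat_lit 97) (nat_lit 5) (nat_lit 304) (nat_lit 248) (nat_lit 228)) (XT.lf (nat_lit 0) (nat_lit 1538739646) (nat_lit 304) (nat_lit 716475115) (nat_lit 380) (nat_lit 6932941038) (nat_lit 86) (nat_lit 5) (nat_lit 90) (nat_lit 5) (nat_lit 91) (nat_lit 5) (nat_lit 305) (nat_lit 248) (nat_lit 227)))) (XT.nd (nat_lit 78) (nat_lit 456) (nat_lit 0) (XT.lf (nat_lit 0) (nat_lit 5132084519) (nat_lit 380) (nat_lit 2286581066) (nat_lit 76) (nat_lit 1914210170) (nat_lit 86) (nat_lit 5) (nat_lit 91) (nat_lit 5) (nat_lit 87) (nat_lit 5) (nat_lit 306) (nat_lit 248) (nat_lit 226)) (XT.nd (nat_lit 78) (nat_lit 76) (nat_lit 0) (XT.lf (nat_lit 0) (nat_lit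 3209386411) (nat_lit 380) (nat_lit 4861301619) (nat_lit 456) (nat_lit 1412087848) (nat_lit 81) (nat_lit 5) (nat_lit 86) (nat_lit 5) (nat_lit 87) (nat_lit 5) (nat_lit 307) (nat_lit 248) (nat_lit 225)) (XT.lf (nat_lit 0) (nat_lit 1392906056) (nat_lit 456) (nat_lit 817442783) (nat_lit 76) (nat_lit 7427664893) (nat_lit 80) (nat_lit 5) (nat_lit 86) (nat_lit 5) (nat_lit 81) (nat_lit 5) (nat_lit 308) (nat_lit 248) (nat_lit 224))))) (XT.nd (nat_lit 234) (nat_lit 608) (nat_lit 0) (XT.nd (nat_lit 78) (nat_lit 380) (nat_lit 0) (XT.lf (nat_lit 0) (nat_lit 4244824725) (nat_lit 380) (nat_lit 5002887632) (nat_lit 76) (nat_lit 550135033) (nat_lit 76) (nat_lit 5) (nat_lit 81) (nat_lit 5) (nat_lit 77) (nat_lit 5) (nat_lit 309) (nat_lit 248) (nat_lit 223)) (XT.nd (nat_lit 78) (nat_lit 76) (nat_lit 0) (XT.lf (nat_lit 0) (nat_lit 536533618) (nat_lit 304) (nat_lit 6621544135) (nat_lit 380) (nat_lit 2805215092) (nat_lit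 72) (nat_lit 5) (nat_lit 76) (nat_lit 5) (nat_lit 77) (nat_lit 5) (nat_lit 310) (nat_lit 248) (nat_lit 222)) (XT.lf (nat_lit 0) (nat_lit 16243078) (nat_lit 380) (nat_lit 3870926697) (nat_lit 76) (nat_lit 6246858452) (nat_lit 71) (nat_lit 5) (nat_lit 76) (nat_lit 5) (nat_lit 72) (nat_lit 5) (nat_lit 311) (nat_lit 248) (nat_lit 221)))) (XT.nd (nat_lit 78) (nat_lit 304) (nat_lit 0) (XT.lf (nat_lit 0) (nat_lit 1778222781) (nat_lit 304) (nat_lit 1047246333) (nat_lit 380) (nat_lit 7484880586) (nat_lit 67) (nat_lit 5) (nat_lit 71) (nat_lit 5) (nat_lit 72) (nat_lit 5) (nat_lit 312) (nat_lit 248) (nat_lit 220)) (XT.nd (nat_lit 78) (nat_lit 304) (nat_lit 0) (XT.lf (nat_lit 0) (nat_lit 5719605553) (nat_lit 380) (nat_lit 2914086459) (nat_lit 76) (nat_lit 1858329841) (nat_lit 67) (nat_lit 5) (nat_lit 72) (nat_lit 5) (nat_lit 68) (nat_lit 5) (nat_lit 313) (nat_lit 248) (nat_lit 219)) (XT.lf (nat_lit 0) (nat_lit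 2838826091) (nat_lit 304) (nat_lit 5844160947) (nat_lit 380) (nat_lit 1996762220) (nat_lit 63) (nat_lit 5) (nat_lit 67) (nat_lit 5) (nat_lit 68) (nat_lit 5) (nat_lit 314) (nat_lit 248) (nat_lit 218))))))) (XT.nd (nat_lit 936) (nat_lit 988) (nat_lit 0) (XT.nd (nat_lit 468) (nat_lit 760) (nat_lit 0) (XT.nd (nat_lit 234) (nat_lit 532) (nat_lit 0) (XT.nd (nat_lit 78) (nat_lit 228) (nat_lit 0) (XT.lf (nat_lit 0) (nat_lit 820066569) (nat_lit 380) (nat_lit 2135834911) (nat_lit 76) (nat_lit 7917789761) (nat_lit 62) (nat_lit 5) (nat_lit 67) (nat_lit 5) (nat_lit 63) (nat_lit 5) (nat_lit 315) (nat_lit 248) (nat_lit 217)) (XT.nd (nat_lit 78) (nat_lit 0) (nat_lit 0) (XT.lf (nat_lit 0) (nat_lit 3664111138) (nat_lit 304) (nat_lit 7357599344) (nat_lit 76) (nat_lit 51733707) (nat_lit 59) (nat_lit 5) (nat_lit 63) (nat_lit 5) (nat_lit 60) (nat_lit 5) (nat_lit 316) (nat_lit 248) (nat_lit 216)) (XT.lf (nat_lit 0) (nat_lit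 6591735791) (nat_lit 304) (nat_lit 1598621081) (nat_lit 76) (nat_lit 3088954139) (nat_lit 59) (nat_lit 5) (nat_lit 63) (nat_lit 5) (nat_lit 60) (nat_lit 5) (nat_lit 317) (nat_lit 248) (nat_lit 215)))) (XT.nd (nat_lit 78) (nat_lit 304) (nat_lit 0) (XT.lf (nat_lit 0) (nat_lit 4342667604) (nat_lit 228) (nat_lit 5255014606) (nat_lit 304) (nat_lit 1894023876) (nat_lit 56) (nat_lit 5) (nat_lit 59) (nat_lit 5) (nat_lit 60) (nat_lit 5) (nat_lit 318) (nat_lit 248) (nat_lit 214)) (XT.nd (nat_lit 78) (nat_lit 228) (nat_lit 0) (XT.lf (nat_lit 0) (nat_lit 929410455) (nat_lit 304) (nat_lit 1300177547) (nat_lit 76) (nat_lit 9481706681) (nat_lit 55) (nat_lit 5) (nat_lit 59) (nat_lit 5) (nat_lit 56) (nat_lit 5) (nat_lit 319) (nat_lit 248) (nat_lit 213)) (XT.lf (nat_lit 0) (nat_lit 3804269891) (nat_lit 304) (nat_lit 7221781022) (nat_lit 76) (nat_lit 910775091) (nat_lit 52) (nat_lit 5) (nat_lit 56) (nat_lit 5) (nat_lit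 53) (nat_lit 5) (nat_lit 320) (nat_lit 248) (nat_lit 212))))) (XT.nd (nat_lit 234) (nat_lit 456) (nat_lit 0) (XT.nd (nat_lit 78) (nat_lit 304) (nat_lit 0) (XT.lf (nat_lit 0) (nat_lit 6751674298) (nat_lit 304) (nat_lit 1327475191) (nat_lit 76) (nat_lit 4090444362) (nat_lit 52) (nat_lit 5) (nat_lit 56) (nat_lit 5) (nat_lit 53) (nat_lit 5) (nat_lit 321) (nat_lit 248) (nat_lit 211)) (XT.nd (nat_lit 78) (nat_lit 76) (nat_lit 0) (XT.lf (nat_lit 0) (nat_lit 4764875390) (nat_lit 228) (nat_lit 5020821378) (nat_lit 304) (nat_lit 2623759914) (nat_lit 49) (nat_lit 5) (nat_lit 52) (nat_lit 5) (nat_lit 53) (nat_lit 5) (nat_lit 322) (nat_lit 248) (nat_lit 210)) (XT.lf (nat_lit 0) (nat_lit 215378423) (nat_lit 304) (nat_lit 1663540355) (nat_lit 76) (nat_lit 10778594371) (nat_lit 48) (nat_lit 5) (nat_lit 52) (nat_lit 5) (nat_lit 49) (nat_lit 5) (nat_lit 323) (nat_lit 248) (nat_lit 209)))) (XT.nd (nat_lit 78) (nat_lit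 228) (nat_lit 0) (XT.lf (nat_lit 0) (nat_lit 3097562421) (nat_lit 304) (nat_lit 8437290699) (nat_lit 76) (nat_lit 1377113582) (nat_lit 45) (nat_lit 5) (nat_lit 49) (nat_lit 5) (nat_lit 46) (nat_lit 5) (nat_lit 324) (nat_lit 248) (nat_lit 208)) (XT.nd (nat_lit 78) (nat_lit 228) (nat_lit 0) (XT.lf (nat_lit 0) (nat_lit 6056183582) (nat_lit 304) (nat_lit 2431636500) (nat_lit 76) (nat_lit 4686586007) (nat_lit 45) (nat_lit 5) (nat_lit 49) (nat_lit 5) (nat_lit 46) (nat_lit 5) (nat_lit 325) (nat_lit 248) (nat_lit 207)) (XT.lf (nat_lit 0) (nat_lit 3759136851) (nat_lit 228) (nat_lit 5336293366) (nat_lit 304) (nat_lit 4349582317) (nat_lit 42) (nat_lit 5) (nat_lit 45) (nat_lit 5) (nat_lit 46) (nat_lit 5) (nat_lit 326) (nat_lit 248) (nat_lit 206)))))) (XT.nd (nat_lit 468) (nat_lit 532) (nat_lit 0) (XT.nd (nat_lit 234) (nat_lit 228) (nat_lit 0) (XT.nd (nat_lit 78) (nat_lit 228) (nat_lit 0) (XT.lf (nat_lit 0)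 (nat_lit 10117745431) (nat_lit 228) (nat_lit 2089033566) (nat_lit 304) (nat_lit 1517578864) (nat_lit 42) (nat_lit 5) (nat_lit 45) (nat_lit 5) (nat_lit 46) (nat_lit 5) (nat_lit 327) (nat_lit 248) (nat_lit 205)) (XT.nd (nat_lit 78) (nat_lit 0) (nat_lit 0) (XT.lf (nat_lit 0) (nat_lit 1366721245) (nat_lit 228) (nat_lit 11398313449) (nat_lit 76) (nat_lit 1246851644) (nat_lit 39) (nat_lit 5) (nat_lit 42) (nat_lit 5) (nat_lit 40) (nat_lit 5) (nat_lit 328) (nat_lit 248) (nat_lit 204)) (XT.lf (nat_lit 0) (nat_lit 4322071706) (nat_lit 228) (nat_lit 5315809590) (nat_lit 76) (nat_lit 4669302229) (nat_lit 39) (nat_lit 5) (nat_lit 42) (nat_lit 5) (nat_lit 40) (nat_lit 5) (nat_lit 329) (nat_lit 248) (nat_lit 203)))) (XT.nd (nat_lit 78) (nat_lit 0) (nat_lit 0) (XT.lf (nat_lit 0) (nat_lit 901629760) (nat_lit 228) (nat_lit 6431915448) (nat_lit 304) (nat_lit 7278813574) (nat_lit 36) (nat_lit 5) (nat_lit 39) (nat_lit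 5) (nat_lit 40) (nat_lit 5) (nat_lit 330) (nat_lit 248) (nat_lit 202)) (XT.nd (nat_lit 78) (nat_lit 0) (nat_lit 0) (XT.lf (nat_lit 0) (nat_lit 7350066074) (nat_lit 228) (nat_lit 3098351769) (nat_lit 304) (nat_lit 4477921580) (nat_lit 36) (nat_lit 5) (nat_lit 39) (nat_lit 5) (nat_lit 40) (nat_lit 5) (nat_lit 331) (nat_lit 248) (nat_lit 201)) (XT.lf (nat_lit 0) (nat_lit 13620295117) (nat_lit 304) (nat_lit 1324623953) (nat_lit 76) (nat_lit 305954219) (nat_lit 36) (nat_lit 5) (nat_lit 40) (nat_lit 5) (nat_lit 37) (nat_lit 4) (nat_lit 332) (nat_lit 248) (nat_lit 200))))) (XT.nd (nat_lit 234) (nat_lit 152) (nat_lit 0) (XT.nd (nat_lit 78) (nat_lit 152) (nat_lit 0) (XT.lf (nat_lit 0) (nat_lit 1318551287) (nat_lit 228) (nat_lit 10474783578) (nat_lit 76) (nat_lit 3790217730) (nat_lit 33) (nat_lit 5) (nat_lit 36) (nat_lit 5) (nat_lit 34) (nat_lit 5) (nat_lit 333) (nat_lit 248) (nat_lit 199)) (XT.nd (nat_lit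 78) (nat_lit 152) (nat_lit 0) (XT.lf (nat_lit 0) (nat_lit 4298501792) (nat_lit 228) (nat_lit 4241730766) (nat_lit 76) (nat_lit 7386278906) (nat_lit 33) (nat_lit 5) (nat_lit 36) (nat_lit 5) (nat_lit 34) (nat_lit 5) (nat_lit 334) (nat_lit 248) (nat_lit 198)) (XT.lf (nat_lit 0) (nat_lit 2160313533) (nat_lit 152) (nat_lit 5191033267) (nat_lit 228) (nat_lit 8928943455) (nat_lit 31) (nat_lit 5) (nat_lit 33) (nat_lit 5) (nat_lit 34) (nat_lit 5) (nat_lit 335) (nat_lit 248) (nat_lit 197)))) (XT.nd (nat_lit 78) (nat_lit 152) (nat_lit 0) (XT.lf (nat_lit 0) (nat_lit 8781804650) (nat_lit 152) (nat_lit 1720048365) (nat_lit 228) (nat_lit 6142682104) (nat_lit 31) (nat_lit 5) (nat_lit 33) (nat_lit 5) (nat_lit 34) (nat_lit 5) (nat_lit 336) (nat_lit 248) (nat_lit 196)) (XT.nd (nat_lit 78) (nat_lit 152) (nat_lit 0) (XT.lf (nat_lit 0) (nat_lit 13728806878) (nat_lit 228) (nat_lit 1494321471) (nat_lit 76) (nat_lit 1797154975)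 (nat_lit 31) (nat_lit 5) (nat_lit 34) (nat_lit 5) (nat_lit 32) (nat_lit 4) (nat_lit 337) (nat_lit 248) (nat_lit 195)) (XT.lf (nat_lit 0) (nat_lit 5090429994) (nat_lit 152) (nat_lit 11993247918) (nat_lit 228) (nat_lit 322725783) (nat_lit 29) (nat_lit 5) (nat_lit 31) (nat_lit 5) (nat_lit 32) (nat_lit 4) (nat_lit 338) (nat_lit 248) (nat_lit 194))))))))
noncomputable def xc77 : XT := (XT.nd (nat_lit 1794) (nat_lit 380) (nat_lit 0) (XT.nd (nat_lit 858) (nat_lit 532) (nat_lit 0) (XT.nd (nat_lit 390) (nat_lit 304) (nat_lit 0) (XT.nd (nat_lit 156) (nat_lit 152) (nat_lit 0) (XT.nd (nat_lit 78) (nat_lit 152) (nat_lit 0) (XT.lf (nat_lit 0) (nat_lit 2662201859) (nat_lit 228) (nat_lit 5983915636) (nat_lit 76) (nat_lit 9157817951) (nat_lit 28) (nat_lit 5) (nat_lit 31) (nat_lit 5) (nat_lit 29) (nat_lit 5) (nat_lit 339) (nat_lit 248) (nat_lit 193)) (XT.lf (nat_lit 0) (nat_lit 488939106) (nat_lit 152) (nat_lit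 5212210714) (nat_lit 228) (nat_lit 12513048882) (nat_lit 26) (nat_lit 5) (nat_lit 28) (nat_lit 5) (nat_lit 29) (nat_lit 5) (nat_lit 340) (nat_lit 248) (nat_lit 192))) (XT.nd (nat_lit 78) (nat_lit 152) (nat_lit 0) (XT.lf (nat_lit 0) (nat_lit 7223677397) (nat_lit 152) (nat_lit 1634727991) (nat_lit 228) (nat_lit 9777579593) (nat_lit 26) (nat_lit 5) (nat_lit 28) (nat_lit 5) (nat_lit 29) (nat_lit 5) (nat_lit 341) (nat_lit 248) (nat_lit 191)) (XT.nd (nat_lit 78) (nat_lit 152) (nat_lit 0) (XT.lf (nat_lit 0) (nat_lit 12097565776) (nat_lit 228) (nat_lit 4983834791) (nat_lit 76) (nat_lit 1989437113) (nat_lit 26) (nat_lit 5) (nat_lit 29) (nat_lit 5) (nat_lit 27) (nat_lit 4) (nat_lit 342) (nat_lit 248) (nat_lit 190)) (XT.lf (nat_lit 0) (nat_lit 1599943771) (nat_lit 152) (nat_lit 13833949973) (nat_lit 228) (nat_lit 4084870052) (nat_lit 24) (nat_lit 5) (nat_lit 26) (nat_lit 5) (nat_lit 27) (nat_lit 4) (nat_lit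 343) (nat_lit 248) (nat_lit 189))))) (XT.nd (nat_lit 234) (nat_lit 76) (nat_lit 0) (XT.nd (nat_lit 78) (nat_lit 228) (nat_lit 0) (XT.lf (nat_lit 0) (nat_lit 8431331290) (nat_lit 152) (nat_lit 10458153997) (nat_lit 228) (nat_lit 1090094010) (nat_lit 24) (nat_lit 5) (nat_lit 26) (nat_lit 5) (nat_lit 27) (nat_lit 4) (nat_lit 344) (nat_lit 248) (nat_lit 188)) (XT.nd (nat_lit 78) (nat_lit 152) (nat_lit 0) (XT.lf (nat_lit 0) (nat_lit 1925034103) (nat_lit 228) (nat_lit 5056916701) (nat_lit 76) (nat_lit 13472635680) (nat_lit 23) (nat_lit 5) (nat_lit 26) (nat_lit 5) (nat_lit 24) (nat_lit 5) (nat_lit 345) (nat_lit 248) (nat_lit 187)) (XT.lf (nat_lit 0) (nat_lit 1599886641) (nat_lit 152) (nat_lit 3394518272) (nat_lit 228) (nat_lit 15949568763) (nat_lit 21) (nat_lit 5) (nat_lit 23) (nat_lit 5) (nat_lit 24) (nat_lit 5) (nat_lit 346) (nat_lit 248) (nat_lit 186)))) (XT.nd (nat_lit 78) (nat_lit 76) (nat_lit 0)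 (XT.lf (nat_lit 0) (nat_lit 8180835911) (nat_lit 228) (nat_lit 12939767425) (nat_lit 76) (nat_lit 326713600) (nat_lit 21) (nat_lit 5) (nat_lit 24) (nat_lit 5) (nat_lit 22) (nat_lit 4) (nat_lit 347) (nat_lit 248) (nat_lit 185)) (XT.nd (nat_lit 78) (nat_lit 76) (nat_lit 0) (XT.lf (nat_lit 0) (nat_lit 11467847161) (nat_lit 228) (nat_lit 6425391655) (nat_lit 76) (nat_lit 4072395189) (nat_lit 21) (nat_lit 5) (nat_lit 24) (nat_lit 5) (nat_lit 22) (nat_lit 4) (nat_lit 348) (nat_lit 248) (nat_lit 184)) (XT.lf (nat_lit 0) (nat_lit 242086614) (nat_lit 76) (nat_lit 14585921091) (nat_lit 152) (nat_lit 7672279167) (nat_lit 20) (nat_lit 5) (nat_lit 21) (nat_lit 5) (nat_lit 22) (nat_lit 4) (nat_lit 349) (nat_lit 248) (nat_lit 183)))))) (XT.nd (nat_lit 468) (nat_lit 304) (nat_lit 0) (XT.nd (nat_lit 234) (nat_lit 152) (nat_lit 0) (XT.nd (nat_lit 78) (nat_lit 76) (nat_lit 0) (XT.lf (nat_lit 0) (nat_lit 7194712009)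 (nat_lit 76) (nat_lit 11131718287) (nat_lit 152) (nat_lit 4723447116) (nat_lit 20) (nat_lit 5) (nat_lit 21) (nat_lit 5) (nat_lit 22) (nat_lit 4) (nat_lit 350) (nat_lit 248) (nat_lit 182)) (XT.nd (nat_lit 78) (nat_lit 76) (nat_lit 0) (XT.lf (nat_lit 0) (nat_lit 14310681745) (nat_lit 76) (nat_lit 7592496024) (nat_lit 152) (nat_lit 1713597899) (nat_lit 20) (nat_lit 5) (nat_lit 21) (nat_lit 5) (nat_lit 22) (nat_lit 4) (nat_lit 351) (nat_lit 248) (nat_lit 181)) (XT.lf (nat_lit 0) (nat_lit 1333361931) (nat_lit 152) (nat_lit 2618335505) (nat_lit 76) (nat_lit 20249387388) (nat_lit 19) (nat_lit 5) (nat_lit 21) (nat_lit 5) (nat_lit 20) (nat_lit 5) (nat_lit 352) (nat_lit 248) (nat_lit 180)))) (XT.nd (nat_lit 78) (nat_lit 0) (nat_lit 0) (XT.lf (nat_lit 0) (nat_lit 4293713147) (nat_lit 152) (nat_lit 159482265) (nat_lit 228) (nat_lit 20348761030) (nat_lit 17) (nat_lit 5) (nat_lit 19) (nat_lit 5) (nat_lit 20)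 (nat_lit 5) (nat_lit 353) (nat_lit 248) (nat_lit 179)) (XT.nd (nat_lit 78) (nat_lit 0) (nat_lit 0) (XT.lf (nat_lit 0) (nat_lit 7704129942) (nat_lit 228) (nat_lit 14032878563) (nat_lit 76) (nat_lit 3682739329) (nat_lit 17) (nat_lit 5) (nat_lit 20) (nat_lit 5) (nat_lit 18) (nat_lit 4) (nat_lit 354) (nat_lit 248) (nat_lit 178)) (XT.lf (nat_lit 0) (nat_lit 11029696357) (nat_lit 228) (nat_lit 7406908329) (nat_lit 76) (nat_lit 7620173425) (nat_lit 17) (nat_lit 5) (nat_lit 20) (nat_lit 5) (nat_lit 18) (nat_lit 4) (nat_lit 355) (nat_lit 248) (nat_lit 177))))) (XT.nd (nat_lit 234) (nat_lit 228) (nat_lit 0) (XT.nd (nat_lit 78) (nat_lit 76) (nat_lit 0) (XT.lf (nat_lit 0) (nat_lit 14431267452) (nat_lit 228) (nat_lit 623009870) (nat_lit 76) (nat_lit 11659372572) (nat_lit 17) (nat_lit 5) (nat_lit 20) (nat_lit 5) (nat_lit 18) (nat_lit 4) (nat_lit 356) (nat_lit 248) (nat_lit 176)) (XT.nd (nat_lit 78) (nat_lit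 0) (nat_lit 0) (XT.lf (nat_lit 0) (nat_lit 6450619310) (nat_lit 76) (nat_lit 11523203463) (nat_lit 152) (nat_lit 9415254157) (nat_lit 16) (nat_lit 5) (nat_lit 17) (nat_lit 5) (nat_lit 18) (nat_lit 4) (nat_lit 357) (nat_lit 248) (nat_lit 175)) (XT.lf (nat_lit 0) (nat_lit 13709956241) (nat_lit 76) (nat_lit 7896213922) (nat_lit 152) (nat_lit 6479107858) (nat_lit 16) (nat_lit 5) (nat_lit 17) (nat_lit 5) (nat_lit 18) (nat_lit 4) (nat_lit 358) (nat_lit 248) (nat_lit 174)))) (XT.nd (nat_lit 78) (nat_lit 228) (nat_lit 0) (XT.lf (nat_lit 0) (nat_lit 21148944916) (nat_lit 76) (nat_lit 4176430664) (nat_lit 152) (nat_lit 3477669161) (nat_lit 16) (nat_lit 5) (nat_lit 17) (nat_lit 5) (nat_lit 18) (nat_lit 4) (nat_lit 359) (nat_lit 248) (nat_lit 173)) (XT.nd (nat_lit 78) (nat_lit 228) (nat_lit 0) (XT.lf (nat_lit 0) (nat_lit 28774085420) (nat_lit 76) (nat_lit 360603394) (nat_lit 152) (nat_lit 408315449) (nat_lit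 16) (nat_lit 5) (nat_lit 17) (nat_lit 5) (nat_lit 18) (nat_lit 4) (nat_lit 360) (nat_lit 248) (nat_lit 172)) (XT.lf (nat_lit 0) (nat_lit 2774740177) (nat_lit 228) (nat_lit 23953645826) (nat_lit 76) (nat_lit 3573737138) (nat_lit 13) (nat_lit 5) (nat_lit 16) (nat_lit 5) (nat_lit 14) (nat_lit 4) (nat_lit 361) (nat_lit 248) (nat_lit 171))))))) (XT.nd (nat_lit 936) (nat_lit 152) (nat_lit 0) (XT.nd (nat_lit 468) (nat_lit 152) (nat_lit 0) (XT.nd (nat_lit 234) (nat_lit 76) (nat_lit 0) (XT.nd (nat_lit 78) (nat_lit 0) (nat_lit 0) (XT.lf (nat_lit 0) (nat_lit 6035549109) (nat_lit 228) (nat_lit 17432824267) (nat_lit 76) (nat_lit 7615821290) (nat_lit 13) (nat_lit 5) (nat_lit 16) (nat_lit 5) (nat_lit 14) (nat_lit 4) (nat_lit 362) (nat_lit 248) (nat_lit 170)) (XT.nd (nat_lit 78) (nat_lit 0) (nat_lit 0) (XT.lf (nat_lit 0) (nat_lit 9373848900) (nat_lit 228) (nat_lit 10751823817) (nat_lit 76) (nat_lit 11764679615)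 (nat_lit 13) (nat_lit 5) (nat_lit 16) (nat_lit 5) (nat_lit 14) (nat_lit 4) (nat_lit 363) (nat_lit 248) (nat_lit 169)) (XT.lf (nat_lit 0) (nat_lit 12792556514) (nat_lit 228) (nat_lit 3904806709) (nat_lit 76) (nat_lit 16023937327) (nat_lit 13) (nat_lit 5) (nat_lit 16) (nat_lit 5) (nat_lit 14) (nat_lit 4) (nat_lit 364) (nat_lit 248) (nat_lit 168)))) (XT.nd (nat_lit 78) (nat_lit 0) (nat_lit 0) (XT.lf (nat_lit 0) (nat_lit 3176188770) (nat_lit 76) (nat_lit 13149001868) (nat_lit 152) (nat_lit 17251658809) (nat_lit 12) (nat_lit 5) (nat_lit 13) (nat_lit 5) (nat_lit 14) (nat_lit 4) (nat_lit 365) (nat_lit 248) (nat_lit 167)) (XT.nd (nat_lit 78) (nat_lit 0) (nat_lit 0) (XT.lf (nat_lit 0) (nat_lit 10516575358) (nat_lit 76) (nat_lit 9467733353) (nat_lit 152) (nat_lit 14473153759) (nat_lit 12) (nat_lit 5) (nat_lit 13) (nat_lit 5) (nat_lit 14) (nat_lit 4) (nat_lit 366) (nat_lit 248) (nat_lit 166)) (XT.lf (nat_lit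 0) (nat_lit 18045053675) (nat_lit 76) (nat_lit 5689771927) (nat_lit 152) (nat_lit 11630231957) (nat_lit 12) (nat_lit 5) (nat_lit 13) (nat_lit 5) (nat_lit 14) (nat_lit 4) (nat_lit 367) (nat_lit 248) (nat_lit 165))))) (XT.nd (nat_lit 234) (nat_lit 76) (nat_lit 0) (XT.nd (nat_lit 78) (nat_lit 76) (nat_lit 0) (XT.lf (nat_lit 0) (nat_lit 25768202003) (nat_lit 76) (nat_lit 1811816458) (nat_lit 152) (nat_lit 8720409297) (nat_lit 12) (nat_lit 5) (nat_lit 13) (nat_lit 5) (nat_lit 14) (nat_lit 4) (nat_lit 368) (nat_lit 248) (nat_lit 164)) (XT.nd (nat_lit 78) (nat_lit 76) (nat_lit 0) (XT.lf (nat_lit 0) (nat_lit 31544101934) (nat_lit 152) (nat_lit 3592476427) (nat_lit 0) (nat_lit 2127186376) (nat_lit 12) (nat_lit 5) (nat_lit 14) (nat_lit 4) (nat_lit 12) (nat_lit 4) (nat_lit 369) (nat_lit 248) (nat_lit 163)) (XT.lf (nat_lit 0) (nat_lit 3577548299) (nat_lit 76) (nat_lit 32084951581) (nat_lit 76) (nat_lit 2592451567)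 (nat_lit 11) (nat_lit 4) (nat_lit 12) (nat_lit 5) (nat_lit 12) (nat_lit 4) (nat_lit 370) (nat_lit 248) (nat_lit 162)))) (XT.nd (nat_lit 78) (nat_lit 0) (nat_lit 0) (XT.lf (nat_lit 0) (nat_lit 636043286) (nat_lit 152) (nat_lit 28274715108) (nat_lit 76) (nat_lit 10364352827) (nat_lit 10) (nat_lit 5) (nat_lit 12) (nat_lit 5) (nat_lit 11) (nat_lit 4) (nat_lit 371) (nat_lit 248) (nat_lit 161)) (XT.nd (nat_lit 78) (nat_lit 0) (nat_lit 0) (XT.lf (nat_lit 0) (nat_lit 3892876515) (nat_lit 152) (nat_lit 21734589253) (nat_lit 76) (nat_lit 14698142723) (nat_lit 10) (nat_lit 5) (nat_lit 12) (nat_lit 5) (nat_lit 11) (nat_lit 4) (nat_lit 372) (nat_lit 248) (nat_lit 160)) (XT.lf (nat_lit 0) (nat_lit 7231481963) (nat_lit 152) (nat_lit 15026390678) (nat_lit 76) (nat_lit 19150236130) (nat_lit 10) (nat_lit 5) (nat_lit 12) (nat_lit 5) (nat_lit 11) (nat_lit 4) (nat_lit 373) (nat_lit 248) (nat_lit 159)))))) (XT.nd (nat_lit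 468) (nat_lit 76) (nat_lit 0) (XT.nd (nat_lit 234) (nat_lit 0) (nat_lit 0) (XT.nd (nat_lit 78) (nat_lit 76) (nat_lit 0) (XT.lf (nat_lit 0) (nat_lit 10654776859) (nat_lit 152) (nat_lit 8144257851) (nat_lit 76) (nat_lit 23724523227) (nat_lit 10) (nat_lit 5) (nat_lit 12) (nat_lit 5) (nat_lit 11) (nat_lit 4) (nat_lit 374) (nat_lit 248) (nat_lit 158)) (XT.nd (nat_lit 78) (nat_lit 76) (nat_lit 0) (XT.lf (nat_lit 0) (nat_lit 14165752429) (nat_lit 152) (nat_lit 1082177258) (nat_lit 76) (nat_lit 28425000964) (nat_lit 10) (nat_lit 5) (nat_lit 12) (nat_lit 5) (nat_lit 11) (nat_lit 4) (nat_lit 375) (nat_lit 248) (nat_lit 157)) (XT.lf (nat_lit 0) (nat_lit 6288737776) (nat_lit 76) (nat_lit 11539189937) (nat_lit 152) (nat_lit 27027489972) (nat_lit 9) (nat_lit 5) (nat_lit 10) (nat_lit 5) (nat_lit 11) (nat_lit 4) (nat_lit 376) (nat_lit 248) (nat_lit 156)))) (XT.nd (nat_lit 78) (nat_lit 0) (nat_lit 0) (XT.lf (nat_lit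 0) (nat_lit 13877472324) (nat_lit 76) (nat_lit 7719022693) (nat_lit 152) (nat_lit 24476997493) (nat_lit 9) (nat_lit 5) (nat_lit 10) (nat_lit 5) (nat_lit 11) (nat_lit 4) (nat_lit 377) (nat_lit 248) (nat_lit 155)) (XT.nd (nat_lit 78) (nat_lit 0) (nat_lit 0) (XT.lf (nat_lit 0) (nat_lit 21669119869) (nat_lit 76) (nat_lit 3795017815) (nat_lit 152) (nat_lit 21864400066) (nat_lit 9) (nat_lit 5) (nat_lit 10) (nat_lit 5) (nat_lit 11) (nat_lit 4) (nat_lit 378) (nat_lit 248) (nat_lit 154)) (XT.lf (nat_lit 0) (nat_lit 29436506219) (nat_lit 152) (nat_lit 18953432412) (nat_lit 0) (nat_lit 231643285) (nat_lit 9) (nat_lit 5) (nat_lit 11) (nat_lit 4) (nat_lit 9) (nat_lit 4) (nat_lit 379) (nat_lit 248) (nat_lit 153))))) (XT.nd (nat_lit 234) (nat_lit 0) (nat_lit 0) (XT.nd (nat_lit 78) (nat_lit 76) (nat_lit 0) (XT.lf (nat_lit 0) (nat_lit 33552343630) (nat_lit 152) (nat_lit 12107476187) (nat_lit 0) (nat_lit 4292876876)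 (nat_lit 9) (nat_lit 5) (nat_lit 11) (nat_lit 4) (nat_lit 9) (nat_lit 4) (nat_lit 380) (nat_lit 248) (nat_lit 152)) (XT.nd (nat_lit 78) (nat_lit 76) (nat_lit 0) (XT.lf (nat_lit 0) (nat_lit 37778766247) (nat_lit 152) (nat_lit 5079087268) (nat_lit 0) (nat_lit 8466286076) (nat_lit 9) (nat_lit 5) (nat_lit 11) (nat_lit 4) (nat_lit 9) (nat_lit 4) (nat_lit 381) (nat_lit 248) (nat_lit 151)) (XT.lf (nat_lit 0) (nat_lit 2180423571) (nat_lit 76) (nat_lit 39960003053) (nat_lit 76) (nat_lit 10596053546) (nat_lit 8) (nat_lit 4) (nat_lit 9) (nat_lit 5) (nat_lit 9) (nat_lit 4) (nat_lit 382) (nat_lit 248) (nat_lit 150)))) (XT.nd (nat_lit 78) (nat_lit 0) (nat_lit 0) (XT.lf (nat_lit 0) (nat_lit 9739776791) (nat_lit 76) (nat_lit 36932086817) (nat_lit 76) (nat_lit 7518167080) (nat_lit 8) (nat_lit 4) (nat_lit 9) (nat_lit 5) (nat_lit 9) (nat_lit 4) (nat_lit 383) (nat_lit 248) (nat_lit 149)) (XT.nd (nat_lit 78) (nat_lit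 0) (nat_lit 0) (XT.lf (nat_lit 0) (nat_lit 17504493854) (nat_lit 76) (nat_lit 33822747876) (nat_lit 76) (nat_lit 4360313352) (nat_lit 8) (nat_lit 4) (nat_lit 9) (nat_lit 5) (nat_lit 9) (nat_lit 4) (nat_lit 384) (nat_lit 248) (nat_lit 148)) (XT.lf (nat_lit 0) (nat_lit 25481359466) (nat_lit 76) (nat_lit 30629269331) (nat_lit 76) (nat_lit 1119733074) (nat_lit 8) (nat_lit 4) (nat_lit 9) (nat_lit 5) (nat_lit 9) (nat_lit 4) (nat_lit 385) (nat_lit 248) (nat_lit 147))))))))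
noncomputable def xc78 : XT := (XT.nd (nat_lit 33072) (nat_lit 0) (nat_lit 5016) (XT.nd (nat_lit 858) (nat_lit 76) (nat_lit 0) (XT.nd (nat_lit 390) (nat_lit 0) (nat_lit 0) (XT.nd (nat_lit 156) (nat_lit 76) (nat_lit 0) (XT.nd (nat_lit 78) (nat_lit 0) (nat_lit 0) (XT.lf (nat_lit 0) (nat_lit 2163350414) (nat_lit 152) (nat_lit 25163664755) (nat_lit 76) (nat_lit 31492147691) (nat_lit 7) (nat_lit 5) (nat_lit 9) (nat_lit 5) (nat_lit 8) (nat_lit 4) (nat_lit 386) (nat_lit 248) (nat_lit 146)) (XT.lf (nat_lit 0) (nat_lit 5511322078) (nat_lit 152) (nat_lit 18411680179) (nat_lit 76) (nat_lit 36532632479) (nat_lit 7) (nat_lit 5) (nat_lit 9) (nat_lit 5) (nat_lit 8) (nat_lit 4) (nat_lit 387) (nat_lit 248) (nat_lit 145))) (XT.nd (nat_lit 78) (nat_lit 76) (nat_lit 0) (XT.lf (nat_lit 0) (nat_lit 8948957353) (nat_lit 152) (nat_lit 11476385328) (nat_lit 76) (nat_lit 41716187652) (nat_lit 7) (nat_lit 5) (nat_lit 9)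 (nat_lit 5) (nat_lit 8) (nat_lit 4) (nat_lit 388) (nat_lit 248) (nat_lit 144)) (XT.nd (nat_lit 78) (nat_lit 76) (nat_lit 0) (XT.lf (nat_lit 0) (nat_lit 12479260001) (nat_lit 152) (nat_lit 4351720236) (nat_lit 76) (nat_lit 47047342532) (nat_lit 7) (nat_lit 5) (nat_lit 9) (nat_lit 5) (nat_lit 8) (nat_lit 4) (nat_lit 389) (nat_lit 248) (nat_lit 143)) (XT.lf (nat_lit 0) (nat_lit 3027620311) (nat_lit 76) (nat_lit 13106797776) (nat_lit 152) (nat_lit 49532238435) (nat_lit 6) (nat_lit 5) (nat_lit 7) (nat_lit 5) (nat_lit 8) (nat_lit 4) (nat_lit 390) (nat_lit 248) (nat_lit 142))))) (XT.nd (nat_lit 234) (nat_lit 0) (nat_lit 0) (XT.nd (nat_lit 78) (nat_lit 0) (nat_lit 0) (XT.lf (nat_lit 0) (nat_lit 10699580683) (nat_lit 76) (nat_lit 9233560228) (nat_lit 152) (nat_lit 47574487843) (nat_lit 6) (nat_lit 5) (nat_lit 7) (nat_lit 5) (nat_lit 8) (nat_lit 4) (nat_lit 391) (nat_lit 248) (nat_lit 141)) (XT.nd (nat_lit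 78) (nat_lit 0) (nat_lit 0) (XT.lf (nat_lit 0) (nat_lit 18584256769) (nat_lit 76) (nat_lit 5251827052) (nat_lit 152) (nat_lit 45568044178) (nat_lit 6) (nat_lit 5) (nat_lit 7) (nat_lit 5) (nat_lit 8) (nat_lit 4) (nat_lit 392) (nat_lit 248) (nat_lit 140)) (XT.lf (nat_lit 0) (nat_lit 26688538092) (nat_lit 76) (nat_lit 1158119062) (nat_lit 152) (nat_lit 43511154238) (nat_lit 6) (nat_lit 5) (nat_lit 7) (nat_lit 5) (nat_lit 8) (nat_lit 4) (nat_lit 393) (nat_lit 248) (nat_lit 139)))) (XT.nd (nat_lit 78) (nat_lit 0) (nat_lit 0) (XT.lf (nat_lit 0) (nat_lit 31997694728) (nat_lit 152) (nat_lit 38380209404) (nat_lit 0) (nat_lit 2991602019) (nat_lit 6) (nat_lit 5) (nat_lit 8) (nat_lit 4) (nat_lit 6) (nat_lit 4) (nat_lit 394) (nat_lit 248) (nat_lit 138)) (XT.nd (nat_lit 78) (nat_lit 0) (nat_lit 0) (XT.lf (nat_lit 0) (nat_lit 36275747261) (nat_lit 152) (nat_lit 31930107843) (nat_lit 0) (nat_lit 7235627257) (nat_lit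 6) (nat_lit 5) (nat_lit 8) (nat_lit 4) (nat_lit 6) (nat_lit 4) (nat_lit 395) (nat_lit 248) (nat_lit 137)) (XT.lf (nat_lit 0) (nat_lit 40673420309) (nat_lit 152) (nat_lit 25302200056) (nat_lit 0) (nat_lit 11600264096) (nat_lit 6) (nat_lit 5) (nat_lit 8) (nat_lit 4) (nat_lit 6) (nat_lit 4) (nat_lit 396) (nat_lit 248) (nat_lit 136)))))) (XT.nd (nat_lit 31746) (nat_lit 0) (nat_lit 11552) (XT.nd (nat_lit 234) (nat_lit 76) (nat_lit 0) (XT.nd (nat_lit 78) (nat_lit 0) (nat_lit 0) (XT.lf (nat_lit 0) (nat_lit 45194556499) (nat_lit 152) (nat_lit 18490694669) (nat_lit 0) (nat_lit 16089326297) (nat_lit 6) (nat_lit 5) (nat_lit 8) (nat_lit 4) (nat_lit 6) (nat_lit 4) (nat_lit 397) (nat_lit 248) (nat_lit 135)) (XT.nd (nat_lit 78) (nat_lit 0) (nat_lit 0) (XT.lf (nat_lit 0) (nat_lit 49843106338) (nat_lit 152) (nat_lit 11489639880) (nat_lit 0) (nat_lit 20706736341) (nat_lit 6) (nat_lit 5) (nat_lit 8) (nat_lit 4) (nat_lit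 6) (nat_lit 4) (nat_lit 398) (nat_lit 248) (nat_lit 134)) (XT.lf (nat_lit 0) (nat_lit 54623131666) (nat_lit 152) (nat_lit 4292918263) (nat_lit 0) (nat_lit 25456528859) (nat_lit 6) (nat_lit 5) (nat_lit 8) (nat_lit 4) (nat_lit 6) (nat_lit 4) (nat_lit 399) (nat_lit 248) (nat_lit 133)))) (XT.nd (nat_lit 156) (nat_lit 0) (nat_lit 0) (XT.lf (nat_lit 0) (nat_lit 3167569263) (nat_lit 76) (nat_lit 56401688554) (nat_lit 76) (nat_lit 27205733503) (nat_lit 5) (nat_lit 4) (nat_lit 6) (nat_lit 5) (nat_lit 6) (nat_lit 4) (nat_lit 400) (nat_lit 248) (nat_lit 132)) (XT.nd (nat_lit 31278) (nat_lit 0) (nat_lit 15808) (XT.lf (nat_lit 0) (nat_lit 18903902739) (nat_lit 76) (nat_lit 51072237343) (nat_lit 76) (nat_lit 21820117664) (nat_lit 5) (nat_lit 4) (nat_lit 6) (nat_lit 5) (nat_lit 6) (nat_lit 4) (nat_lit 402) (nat_lit 248) (nat_lit 130)) (XT.lf (nat_lit 0) (nat_lit 3081881748) (nat_lit 836) (nat_lit 212133614) (nat_lit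 836) (nat_lit 212133614) (nat_lit 213) (nat_lit 4) (nat_lit 224) (nat_lit 5) (nat_lit 224) (nat_lit 4) (nat_lit 282) (nat_lit 249) (nat_lit 249))))) (XT.nd (nat_lit 234) (nat_lit 2204) (nat_lit 0) (XT.nd (nat_lit 78) (nat_lit 1064) (nat_lit 0) (XT.lf (nat_lit 0) (nat_lit 2608350357) (nat_lit 988) (nat_lit 3534210470) (nat_lit 0) (nat_lit 924354236) (nat_lit 200) (nat_lit 5) (nat_lit 213) (nat_lit 4) (nat_lit 200) (nat_lit 4) (nat_lit 283) (nat_lit 249) (nat_lit 248)) (XT.nd (nat_lit 78) (nat_lit 76) (nat_lit 0) (XT.lf (nat_lit 0) (nat_lit 859819295) (nat_lit 988) (nat_lit 4792277487) (nat_lit 988) (nat_lit 1473333677) (nat_lit 187) (nat_lit 4) (nat_lit 200) (nat_lit 5) (nat_lit 200) (nat_lit 4) (nat_lit 284) (nat_lit 249) (nat_lit 247)) (XT.lf (nat_lit 0) (nat_lit 1514525059) (nat_lit 1064) (nat_lit 1831785792) (nat_lit 76) (nat_lit 3840831009) (nat_lit 186) (nat_lit 5) (nat_lit 200) (nat_lit 5)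 (nat_lit 187) (nat_lit 4) (nat_lit 285) (nat_lit 249) (nat_lit 246)))) (XT.nd (nat_lit 78) (nat_lit 1140) (nat_lit 0) (XT.lf (nat_lit 0) (nat_lit 2685961780) (nat_lit 1064) (nat_lit 1813214794) (nat_lit 1140) (nat_lit 2753212556) (nat_lit 172) (nat_lit 5) (nat_lit 186) (nat_lit 5) (nat_lit 187) (nat_lit 4) (nat_lit 286) (nat_lit 249) (nat_lit 245)) (XT.nd (nat_lit 78) (nat_lit 1064) (nat_lit 0) (XT.lf (nat_lit 0) (nat_lit 179140577) (nat_lit 1140) (nat_lit 32906509) (nat_lit 76) (nat_lit 7109776295) (nat_lit 171) (nat_lit 5) (nat_lit 186) (nat_lit 5) (nat_lit 172) (nat_lit 5) (nat_lit 287) (nat_lit 249) (nat_lit 244)) (XT.lf (nat_lit 0) (nat_lit 3117218038) (nat_lit 1140) (nat_lit 2794576755) (nat_lit 76) (nat_lit 1481741487) (nat_lit 157) (nat_lit 5) (nat_lit 172) (nat_lit 5) (nat_lit 158) (nat_lit 4) (nat_lit 288) (nat_lit 249) (nat_lit 243))))))) (XT.nd (nat_lit 936) (nat_lit 2356) (nat_lit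 0) (XT.nd (nat_lit 468) (nat_lit 1900) (nat_lit 0) (XT.nd (nat_lit 234) (nat_lit 1140) (nat_lit 0) (XT.nd (nat_lit 78) (nat_lit 608) (nat_lit 0) (XT.lf (nat_lit 0) (nat_lit 1849704528) (nat_lit 532) (nat_lit 4229840719) (nat_lit 608) (nat_lit 1389972218) (nat_lit 150) (nat_lit 5) (nat_lit 157) (nat_lit 5) (nat_lit 158) (nat_lit 4) (nat_lit 289) (nat_lit 249) (nat_lit 242)) (XT.nd (nat_lit 78) (nat_lit 532) (nat_lit 0) (XT.lf (nat_lit 0) (nat_lit 1497076942) (nat_lit 608) (nat_lit 960173570) (nat_lit 76) (nat_lit 5091909651) (nat_lit 149) (nat_lit 5) (nat_lit 157) (nat_lit 5) (nat_lit 150) (nat_lit 5) (nat_lit 290) (nat_lit 249) (nat_lit 241)) (XT.lf (nat_lit 0) (nat_lit 3814147240) (nat_lit 532) (nat_lit 584252083) (nat_lit 608) (nat_lit 3233895132) (nat_lit 142) (nat_lit 5) (nat_lit 149) (nat_lit 5) (nat_lit 150) (nat_lit 5) (nat_lit 291) (nat_lit 249) (nat_lit 240)))) (XT.nd (nat_lit 78) (nat_lit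 608) (nat_lit 0) (XT.lf (nat_lit 0) (nat_lit 951854284) (nat_lit 532) (nat_lit 6387204683) (nat_lit 608) (nat_lit 380472687) (nat_lit 135) (nat_lit 5) (nat_lit 142) (nat_lit 5) (nat_lit 143) (nat_lit 4) (nat_lit 292) (nat_lit 249) (nat_lit 239)) (XT.nd (nat_lit 78) (nat_lit 532) (nat_lit 0) (XT.lf (nat_lit 0) (nat_lit 2474318562) (nat_lit 608) (nat_lit 1984092987) (nat_lit 76) (nat_lit 3351433403) (nat_lit 134) (nat_lit 5) (nat_lit 142) (nat_lit 5) (nat_lit 135) (nat_lit 5) (nat_lit 293) (nat_lit 249) (nat_lit 238)) (XT.lf (nat_lit 0) (nat_lit 2910267286) (nat_lit 532) (nat_lit 2448086728) (nat_lit 608) (nat_lit 2546025915) (nat_lit 127) (nat_lit 5) (nat_lit 134) (nat_lit 5) (nat_lit 135) (nat_lit 5) (nat_lit 294) (nat_lit 249) (nat_lit 237))))) (XT.nd (nat_lit 234) (nat_lit 912) (nat_lit 0) (XT.nd (nat_lit 78) (nat_lit 912) (nat_lit 0) (XT.lf (nat_lit 0) (nat_lit 264799666) (nat_lit 608) (nat_lit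 98946540) (nat_lit 76) (nat_lit 7639743054) (nat_lit 126) (nat_lit 5) (nat_lit 134) (nat_lit 5) (nat_lit 127) (nat_lit 5) (nat_lit 295) (nat_lit 249) (nat_lit 236)) (XT.nd (nat_lit 78) (nat_lit 456) (nat_lit 0) (XT.lf (nat_lit 0) (nat_lit 3099940152) (nat_lit 532) (nat_lit 3193518328) (nat_lit 76) (nat_lit 1811771174) (nat_lit 120) (nat_lit 5) (nat_lit 127) (nat_lit 5) (nat_lit 121) (nat_lit 5) (nat_lit 296) (nat_lit 249) (nat_lit 235)) (XT.lf (nat_lit 0) (nat_lit 1810993151) (nat_lit 456) (nat_lit 4158423611) (nat_lit 532) (nat_lit 2242271611) (nat_lit 114) (nat_lit 5) (nat_lit 120) (nat_lit 5) (nat_lit 121) (nat_lit 5) (nat_lit 297) (nat_lit 249) (nat_lit 234)))) (XT.nd (nat_lit 78) (nat_lit 836) (nat_lit 0) (XT.lf (nat_lit 0) (nat_lit 552148528) (nat_lit 532) (nat_lit 1381587597) (nat_lit 76) (nat_lit 6388758201) (nat_lit 113) (nat_lit 5) (nat_lit 120) (nat_lit 5) (nat_lit 114) (nat_lit 5) (nat_lit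 298) (nat_lit 249) (nat_lit 233)) (XT.nd (nat_lit 78) (nat_lit 456) (nat_lit 0) (XT.lf (nat_lit 0) (nat_lit 3355148009) (nat_lit 456) (nat_lit 4685508657) (nat_lit 76) (nat_lit 396339649) (nat_lit 108) (nat_lit 5) (nat_lit 114) (nat_lit 5) (nat_lit 109) (nat_lit 5) (nat_lit 299) (nat_lit 249) (nat_lit 232)) (XT.lf (nat_lit 0) (nat_lit 416273000) (nat_lit 456) (nat_lit 5794143001) (nat_lit 532) (nat_lit 2345600457) (nat_lit 102) (nat_lit 5) (nat_lit 108) (nat_lit 5) (nat_lit 109) (nat_lit 5) (nat_lit 300) (nat_lit 249) (nat_lit 231)))))) (XT.nd (nat_lit 468) (nat_lit 1140) (nat_lit 0) (XT.nd (nat_lit 234) (nat_lit 760) (nat_lit 0) (XT.nd (nat_lit 78) (nat_lit 380) (nat_lit 0) (XT.lf (nat_lit 0) (nat_lit 442643600) (nat_lit 532) (nat_lit 3000626210) (nat_lit 76) (nat_lit 5235948139) (nat_lit 101) (nat_lit 5) (nat_lit 108) (nat_lit 5) (nat_lit 102) (nat_lit 5) (nat_lit 301) (nat_lit 249) (nat_lit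 230)) (XT.nd (nat_lit 78) (nat_lit 0) (nat_lit 0) (XT.lf (nat_lit 0) (nat_lit 2229863949) (nat_lit 380) (nat_lit 992311719) (nat_lit 456) (nat_lit 5584717106) (nat_lit 96) (nat_lit 5) (nat_lit 101) (nat_lit 5) (nat_lit 102) (nat_lit 5) (nat_lit 302) (nat_lit 249) (nat_lit 229)) (XT.lf (nat_lit 0) (nat_lit 6064761594) (nat_lit 456) (nat_lit 1357931101) (nat_lit 76) (nat_lit 1516429239) (nat_lit 96) (nat_lit 5) (nat_lit 102) (nat_lit 5) (nat_lit 97) (nat_lit 5) (nat_lit 303) (nat_lit 249) (nat_lit 228)))) (XT.nd (nat_lit 78) (nat_lit 380) (nat_lit 0) (XT.lf (nat_lit 0) (nat_lit 4004312697) (nat_lit 380) (nat_lit 4972880865) (nat_lit 456) (nat_lit 98698154) (nat_lit 91) (nat_lit 5) (nat_lit 96) (nat_lit 5) (nat_lit 97) (nat_lit 5) (nat_lit 304) (nat_lit 249) (nat_lit 227)) (XT.nd (nat_lit 78) (nat_lit 0) (nat_lit 0) (XT.lf (nat_lit 0) (nat_lit 234508820) (nat_lit 304) (nat_lit 2424569858) (nat_lit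 380) (nat_lit 6558413157) (nat_lit 86) (nat_lit 5) (nat_lit 90) (nat_lit 5) (nat_lit 91) (nat_lit 5) (nat_lit 305) (nat_lit 249) (nat_lit 226)) (XT.lf (nat_lit 0) (nat_lit 5488732763) (nat_lit 380) (nat_lit 3644756035) (nat_lit 76) (nat_lit 230189414) (nat_lit 86) (nat_lit 5) (nat_lit 91) (nat_lit 5) (nat_lit 87) (nat_lit 5) (nat_lit 306) (nat_lit 249) (nat_lit 225))))) (XT.nd (nat_lit 234) (nat_lit 380) (nat_lit 0) (XT.nd (nat_lit 78) (nat_lit 380) (nat_lit 0) (XT.lf (nat_lit 0) (nat_lit 1783555967) (nat_lit 380) (nat_lit 6600174914) (nat_lit 456) (nat_lit 1131204112) (nat_lit 81) (nat_lit 5) (nat_lit 86) (nat_lit 5) (nat_lit 87) (nat_lit 5) (nat_lit 307) (nat_lit 249) (nat_lit 224)) (XT.nd (nat_lit 78) (nat_lit 304) (nat_lit 0) (XT.lf (nat_lit 0) (nat_lit 1638563687) (nat_lit 456) (nat_lit 2318211940) (nat_lit 76) (nat_lit 5714254283) (nat_lit 80) (nat_lit 5) (nat_lit 86) (nat_lit 5) (nat_lit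 81) (nat_lit 5) (nat_lit 308) (nat_lit 249) (nat_lit 223)) (XT.lf (nat_lit 0) (nat_lit 3230191005) (nat_lit 304) (nat_lit 1210924264) (nat_lit 380) (nat_lit 5391273692) (nat_lit 76) (nat_lit 5) (nat_lit 80) (nat_lit 5) (nat_lit 81) (nat_lit 5) (nat_lit 309) (nat_lit 249) (nat_lit 222)))) (XT.nd (nat_lit 78) (nat_lit 380) (nat_lit 0) (XT.lf (nat_lit 0) (nat_lit 7309065414) (nat_lit 380) (nat_lit 1100934996) (nat_lit 76) (nat_lit 1589236181) (nat_lit 76) (nat_lit 5) (nat_lit 81) (nat_lit 5) (nat_lit 77) (nat_lit 5) (nat_lit 310) (nat_lit 249) (nat_lit 221)) (XT.nd (nat_lit 78) (nat_lit 0) (nat_lit 0) (XT.lf (nat_lit 0) (nat_lit 89773647) (nat_lit 380) (nat_lit 5607120985) (nat_lit 76) (nat_lit 4474262832) (nat_lit 71) (nat_lit 5) (nat_lit 76) (nat_lit 5) (nat_lit 72) (nat_lit 5) (nat_lit 311) (nat_lit 249) (nat_lit 220)) (XT.lf (nat_lit 0) (nat_lit 2854364493) (nat_lit 380) (nat_lit 31067495) (nat_lit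 76) (nat_lit 7463425435) (nat_lit 71) (nat_lit 5) (nat_lit 76) (nat_lit 5) (nat_lit 72) (nat_lit 5) (nat_lit 312) (nat_lit 249) (nat_lit 219))))))))
noncomputable def xc79 : XT := (XT.nd (nat_lit 1872) (nat_lit 1140) (nat_lit 0) (XT.nd (nat_lit 936) (nat_lit 1064) (nat_lit 0) (XT.nd (nat_lit 468) (nat_lit 836) (nat_lit 0) (XT.nd (nat_lit 234) (nat_lit 456) (nat_lit 0) (XT.nd (nat_lit 78) (nat_lit 380) (nat_lit 0) (XT.lf (nat_lit 0) (nat_lit 5703313541) (nat_lit 380) (nat_lit 4783605656) (nat_lit 76) (nat_lit 45004284) (nat_lit 67) (nat_lit 5) (nat_lit 72) (nat_lit 5) (nat_lit 68) (nat_lit 5) (nat_lit 313) (nat_lit 249) (nat_lit 218)) (XT.nd (nat_lit 78) (nat_lit 76) (nat_lit 0) (XT.lf (nat_lit 0) (nat_lit 893713323) (nat_lit 304) (nat_lit 7727866587) (nat_lit 380) (nat_lit 2099461598) (nat_lit 63) (nat_lit 5) (nat_lit 67) (nat_lit 5) (nat_lit 68) (nat_lit 5) (nat_lit 314) (nat_lit 249) (nat_lit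 217)) (XT.lf (nat_lit 0) (nat_lit 693072048) (nat_lit 380) (nat_lit 4159079580) (nat_lit 76) (nat_lit 6063685489) (nat_lit 62) (nat_lit 5) (nat_lit 67) (nat_lit 5) (nat_lit 63) (nat_lit 5) (nat_lit 315) (nat_lit 249) (nat_lit 216)))) (XT.nd (nat_lit 78) (nat_lit 228) (nat_lit 0) (XT.lf (nat_lit 0) (nat_lit 1615400042) (nat_lit 228) (nat_lit 1875480419) (nat_lit 304) (nat_lit 7626130703) (nat_lit 59) (nat_lit 5) (nat_lit 62) (nat_lit 5) (nat_lit 63) (nat_lit 5) (nat_lit 316) (nat_lit 249) (nat_lit 215)) (XT.nd (nat_lit 78) (nat_lit 228) (nat_lit 0) (XT.lf (nat_lit 0) (nat_lit 6375229878) (nat_lit 304) (nat_lit 3761648935) (nat_lit 76) (nat_lit 1187330454) (nat_lit 59) (nat_lit 5) (nat_lit 63) (nat_lit 5) (nat_lit 60) (nat_lit 5) (nat_lit 317) (nat_lit 249) (nat_lit 214)) (XT.lf (nat_lit 0) (nat_lit 2099910095) (nat_lit 228) (nat_lit 7235195823) (nat_lit 304) (nat_lit 2202912595) (nat_lit 56) (nat_lit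 5) (nat_lit 59) (nat_lit 5) (nat_lit 60) (nat_lit 5) (nat_lit 318) (nat_lit 249) (nat_lit 213))))) (XT.nd (nat_lit 234) (nat_lit 532) (nat_lit 0) (XT.nd (nat_lit 78) (nat_lit 228) (nat_lit 0) (XT.lf (nat_lit 0) (nat_lit 602139713) (nat_lit 304) (nat_lit 3622407053) (nat_lit 76) (nat_lit 7533911929) (nat_lit 55) (nat_lit 5) (nat_lit 59) (nat_lit 5) (nat_lit 56) (nat_lit 5) (nat_lit 319) (nat_lit 249) (nat_lit 212)) (XT.nd (nat_lit 78) (nat_lit 0) (nat_lit 0) (XT.lf (nat_lit 0) (nat_lit 2320021006) (nat_lit 228) (nat_lit 1101239535) (nat_lit 304) (nat_lit 8564430973) (nat_lit 52) (nat_lit 5) (nat_lit 55) (nat_lit 5) (nat_lit 56) (nat_lit 5) (nat_lit 320) (nat_lit 249) (nat_lit 211)) (XT.lf (nat_lit 0) (nat_lit 6334627454) (nat_lit 304) (nat_lit 3796130764) (nat_lit 76) (nat_lit 2088750754) (nat_lit 52) (nat_lit 5) (nat_lit 56) (nat_lit 5) (nat_lit 53) (nat_lit 5) (nat_lit 321) (nat_lit 249) (nat_lit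 210)))) (XT.nd (nat_lit 78) (nat_lit 304) (nat_lit 0) (XT.lf (nat_lit 0) (nat_lit 2212083442) (nat_lit 228) (nat_lit 7109258835) (nat_lit 304) (nat_lit 3139476412) (nat_lit 49) (nat_lit 5) (nat_lit 52) (nat_lit 5) (nat_lit 53) (nat_lit 5) (nat_lit 322) (nat_lit 249) (nat_lit 209)) (XT.nd (nat_lit 78) (nat_lit 304) (nat_lit 0) (XT.lf (nat_lit 0) (nat_lit 8409370029) (nat_lit 228) (nat_lit 3981084677) (nat_lit 304) (nat_lit 319183613) (nat_lit 49) (nat_lit 5) (nat_lit 52) (nat_lit 5) (nat_lit 53) (nat_lit 5) (nat_lit 323) (nat_lit 249) (nat_lit 208)) (XT.lf (nat_lit 0) (nat_lit 1768382110) (nat_lit 228) (nat_lit 739177352) (nat_lit 304) (nat_lit 10458499845) (nat_lit 45) (nat_lit 5) (nat_lit 48) (nat_lit 5) (nat_lit 49) (nat_lit 5) (nat_lit 324) (nat_lit 249) (nat_lit 207)))))) (XT.nd (nat_lit 468) (nat_lit 608) (nat_lit 0) (XT.nd (nat_lit 234) (nat_lit 228) (nat_lit 0) (XT.nd (nat_lit 78) (nat_lit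 228) (nat_lit 0) (XT.lf (nat_lit 0) (nat_lit 5437268163) (nat_lit 304) (nat_lit 5218614506) (nat_lit 76) (nat_lit 2573507972) (nat_lit 45) (nat_lit 5) (nat_lit 49) (nat_lit 5) (nat_lit 46) (nat_lit 5) (nat_lit 325) (nat_lit 249) (nat_lit 206)) (XT.nd (nat_lit 78) (nat_lit 0) (nat_lit 0) (XT.lf (nat_lit 0) (nat_lit 883325949) (nat_lit 228) (nat_lit 7544372918) (nat_lit 304) (nat_lit 5073786556) (nat_lit 42) (nat_lit 5) (nat_lit 45) (nat_lit 5) (nat_lit 46) (nat_lit 5) (nat_lit 326) (nat_lit 249) (nat_lit 205)) (XT.lf (nat_lit 0) (nat_lit 7209539800) (nat_lit 228) (nat_lit 4308641225) (nat_lit 304) (nat_lit 2263298883) (nat_lit 42) (nat_lit 5) (nat_lit 45) (nat_lit 5) (nat_lit 46) (nat_lit 5) (nat_lit 327) (nat_lit 249) (nat_lit 204)))) (XT.nd (nat_lit 78) (nat_lit 152) (nat_lit 0) (XT.lf (nat_lit 0) (nat_lit 577603096) (nat_lit 304) (nat_lit 415122273) (nat_lit 76) (nat_lit 13078258392) (nat_lit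 41) (nat_lit 5) (nat_lit 45) (nat_lit 5) (nat_lit 42) (nat_lit 5) (nat_lit 328) (nat_lit 249) (nat_lit 203)) (XT.nd (nat_lit 78) (nat_lit 0) (nat_lit 0) (XT.lf (nat_lit 0) (nat_lit 3499002974) (nat_lit 228) (nat_lit 8434488590) (nat_lit 76) (nat_lit 2433829099) (nat_lit 39) (nat_lit 5) (nat_lit 42) (nat_lit 5) (nat_lit 40) (nat_lit 5) (nat_lit 329) (nat_lit 249) (nat_lit 202)) (XT.lf (nat_lit 0) (nat_lit 6482102878) (nat_lit 228) (nat_lit 2265794303) (nat_lit 76) (nat_lit 5925470524) (nat_lit 39) (nat_lit 5) (nat_lit 42) (nat_lit 5) (nat_lit 40) (nat_lit 5) (nat_lit 330) (nat_lit 249) (nat_lit 201))))) (XT.nd (nat_lit 234) (nat_lit 152) (nat_lit 0) (XT.nd (nat_lit 78) (nat_lit 228) (nat_lit 0) (XT.lf (nat_lit 0) (nat_lit 4106702643) (nat_lit 228) (nat_lit 5448630091) (nat_lit 304) (nat_lit 5433284876) (nat_lit 36) (nat_lit 5) (nat_lit 39) (nat_lit 5) (nat_lit 40) (nat_lit 5) (nat_lit 331) (nat_lit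 249) (nat_lit 200)) (XT.nd (nat_lit 78) (nat_lit 228) (nat_lit 0) (XT.lf (nat_lit 0) (nat_lit 10656028241) (nat_lit 228) (nat_lit 2049319001) (nat_lit 304) (nat_lit 2608479514) (nat_lit 36) (nat_lit 5) (nat_lit 39) (nat_lit 5) (nat_lit 40) (nat_lit 5) (nat_lit 332) (nat_lit 249) (nat_lit 199)) (XT.lf (nat_lit 0) (nat_lit 288120758) (nat_lit 228) (nat_lit 13939327920) (nat_lit 76) (nat_lit 1421506022) (nat_lit 33) (nat_lit 5) (nat_lit 36) (nat_lit 5) (nat_lit 34) (nat_lit 5) (nat_lit 333) (nat_lit 249) (nat_lit 198)))) (XT.nd (nat_lit 78) (nat_lit 152) (nat_lit 0) (XT.lf (nat_lit 0) (nat_lit 3249711525) (nat_lit 228) (nat_lit 7735908406) (nat_lit 76) (nat_lit 5006862181) (nat_lit 33) (nat_lit 5) (nat_lit 36) (nat_lit 5) (nat_lit 34) (nat_lit 5) (nat_lit 334) (nat_lit 249) (nat_lit 197)) (XT.nd (nat_lit 78) (nat_lit 152) (nat_lit 0) (XT.lf (nat_lit 0) (nat_lit 6263965292) (nat_lit 228) (nat_lit 1404789796)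 (nat_lit 76) (nat_lit 8678680787) (nat_lit 33) (nat_lit 5) (nat_lit 36) (nat_lit 5) (nat_lit 34) (nat_lit 5) (nat_lit 335) (nat_lit 249) (nat_lit 196)) (XT.lf (nat_lit 0) (nat_lit 5160255117) (nat_lit 152) (nat_lit 4222864282) (nat_lit 228) (nat_lit 7329518637) (nat_lit 31) (nat_lit 5) (nat_lit 33) (nat_lit 5) (nat_lit 34) (nat_lit 5) (nat_lit 336) (nat_lit 249) (nat_lit 195))))))) (XT.nd (nat_lit 936) (nat_lit 380) (nat_lit 0) (XT.nd (nat_lit 468) (nat_lit 380) (nat_lit 0) (XT.nd (nat_lit 234) (nat_lit 152) (nat_lit 0) (XT.nd (nat_lit 78) (nat_lit 228) (nat_lit 0) (XT.lf (nat_lit 0) (nat_lit 11894901681) (nat_lit 152) (nat_lit 680484784) (nat_lit 228) (nat_lit 4514056624) (nat_lit 31) (nat_lit 5) (nat_lit 33) (nat_lit 5) (nat_lit 34) (nat_lit 5) (nat_lit 337) (nat_lit 249) (nat_lit 194)) (XT.nd (nat_lit 78) (nat_lit 76) (nat_lit 0) (XT.lf (nat_lit 0) (nat_lit 1295430337) (nat_lit 152) (nat_lit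 14575136715) (nat_lit 228) (nat_lit 1606802894) (nat_lit 29) (nat_lit 5) (nat_lit 31) (nat_lit 5) (nat_lit 32) (nat_lit 4) (nat_lit 338) (nat_lit 249) (nat_lit 193)) (XT.lf (nat_lit 0) (nat_lit 1386560524) (nat_lit 228) (nat_lit 9864883393) (nat_lit 76) (nat_lit 6624341584) (nat_lit 28) (nat_lit 5) (nat_lit 31) (nat_lit 5) (nat_lit 29) (nat_lit 5) (nat_lit 339) (nat_lit 249) (nat_lit 192)))) (XT.nd (nat_lit 78) (nat_lit 152) (nat_lit 0) (XT.lf (nat_lit 0) (nat_lit 4404671422) (nat_lit 228) (nat_lit 3428118334) (nat_lit 76) (nat_lit 10453898545) (nat_lit 28) (nat_lit 5) (nat_lit 31) (nat_lit 5) (nat_lit 29) (nat_lit 5) (nat_lit 340) (nat_lit 249) (nat_lit 191)) (XT.nd (nat_lit 78) (nat_lit 0) (nat_lit 0) (XT.lf (nat_lit 0) (nat_lit 3212105240) (nat_lit 152) (nat_lit 4300292976) (nat_lit 228) (nat_lit 11197576240) (nat_lit 26) (nat_lit 5) (nat_lit 28) (nat_lit 5) (nat_lit 29) (nat_lit 5) (nat_lit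 341) (nat_lit 249) (nat_lit 190)) (XT.lf (nat_lit 0) (nat_lit 10069997389) (nat_lit 152) (nat_lit 646600841) (nat_lit 228) (nat_lit 8429291341) (nat_lit 26) (nat_lit 5) (nat_lit 28) (nat_lit 5) (nat_lit 29) (nat_lit 5) (nat_lit 342) (nat_lit 249) (nat_lit 189))))) (XT.nd (nat_lit 234) (nat_lit 152) (nat_lit 0) (XT.nd (nat_lit 78) (nat_lit 228) (nat_lit 0) (XT.lf (nat_lit 0) (nat_lit 14016231180) (nat_lit 228) (nat_lit 2542267576) (nat_lit 76) (nat_lit 3036430990) (nat_lit 26) (nat_lit 5) (nat_lit 29) (nat_lit 5) (nat_lit 27) (nat_lit 4) (nat_lit 343) (nat_lit 249) (nat_lit 188)) (XT.nd (nat_lit 78) (nat_lit 76) (nat_lit 0) (XT.lf (nat_lit 0) (nat_lit 4213621575) (nat_lit 152) (nat_lit 13218377523) (nat_lit 228) (nat_lit 2624953683) (nat_lit 24) (nat_lit 5) (nat_lit 26) (nat_lit 5) (nat_lit 27) (nat_lit 4) (nat_lit 344) (nat_lit 249) (nat_lit 187)) (XT.lf (nat_lit 0) (nat_lit 405504172) (nat_lit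 228) (nat_lit 9361725911) (nat_lit 76) (nat_lit 10765623221) (nat_lit 23) (nat_lit 5) (nat_lit 26) (nat_lit 5) (nat_lit 24) (nat_lit 5) (nat_lit 345) (nat_lit 249) (nat_lit 186)))) (XT.nd (nat_lit 78) (nat_lit 152) (nat_lit 0) (XT.lf (nat_lit 0) (nat_lit 3445300847) (nat_lit 228) (nat_lit 2759909128) (nat_lit 76) (nat_lit 14817929481) (nat_lit 23) (nat_lit 5) (nat_lit 26) (nat_lit 5) (nat_lit 24) (nat_lit 5) (nat_lit 346) (nat_lit 249) (nat_lit 185)) (XT.nd (nat_lit 78) (nat_lit 0) (nat_lit 0) (XT.lf (nat_lit 0) (nat_lit 4072591305) (nat_lit 152) (nat_lit 2514871709) (nat_lit 228) (nat_lit 14940359161) (nat_lit 21) (nat_lit 5) (nat_lit 23) (nat_lit 5) (nat_lit 24) (nat_lit 5) (nat_lit 347) (nat_lit 249) (nat_lit 184)) (XT.lf (nat_lit 0) (nat_lit 9836611046) (nat_lit 228) (nat_lit 10939859312) (nat_lit 76) (nat_lit 1270815843) (nat_lit 21) (nat_lit 5) (nat_lit 24) (nat_lit 5) (nat_lit 22) (nat_lit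 4) (nat_lit 348) (nat_lit 249) (nat_lit 183)))))) (XT.nd (nat_lit 468) (nat_lit 76) (nat_lit 0) (XT.nd (nat_lit 234) (nat_lit 228) (nat_lit 0) (XT.nd (nat_lit 78) (nat_lit 76) (nat_lit 0) (XT.lf (nat_lit 0) (nat_lit 13181154476) (nat_lit 228) (nat_lit 4299608613) (nat_lit 76) (nat_lit 5101655234) (nat_lit 21) (nat_lit 5) (nat_lit 24) (nat_lit 5) (nat_lit 22) (nat_lit 4) (nat_lit 349) (nat_lit 249) (nat_lit 182)) (XT.nd (nat_lit 78) (nat_lit 0) (nat_lit 0) (XT.lf (nat_lit 0) (nat_lit 2545163173) (nat_lit 76) (nat_lit 14079143727) (nat_lit 152) (nat_lit 6509370494) (nat_lit 20) (nat_lit 5) (nat_lit 21) (nat_lit 5) (nat_lit 22) (nat_lit 4) (nat_lit 350) (nat_lit 249) (nat_lit 181)) (XT.lf (nat_lit 0) (nat_lit 9639498962) (nat_lit 76) (nat_lit 10548820323) (nat_lit 152) (nat_lit 3512648541) (nat_lit 20) (nat_lit 5) (nat_lit 21) (nat_lit 5) (nat_lit 22) (nat_lit 4) (nat_lit 351) (nat_lit 249) (nat_lit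 180)))) (XT.nd (nat_lit 78) (nat_lit 228) (nat_lit 0) (XT.lf (nat_lit 0) (nat_lit 16904027045) (nat_lit 76) (nat_lit 6930125747) (nat_lit 152) (nat_lit 451897110) (nat_lit 20) (nat_lit 5) (nat_lit 21) (nat_lit 5) (nat_lit 22) (nat_lit 4) (nat_lit 352) (nat_lit 249) (nat_lit 179)) (XT.nd (nat_lit 78) (nat_lit 152) (nat_lit 0) (XT.lf (nat_lit 0) (nat_lit 2623348464) (nat_lit 152) (nat_lit 570058892) (nat_lit 76) (nat_lit 21695255928) (nat_lit 19) (nat_lit 5) (nat_lit 21) (nat_lit 5) (nat_lit 20) (nat_lit 5) (nat_lit 353) (nat_lit 249) (nat_lit 178)) (XT.lf (nat_lit 0) (nat_lit 5827418162) (nat_lit 228) (nat_lit 18986378414) (nat_lit 76) (nat_lit 694073039) (nat_lit 17) (nat_lit 5) (nat_lit 20) (nat_lit 5) (nat_lit 18) (nat_lit 4) (nat_lit 354) (nat_lit 249) (nat_lit 177))))) (XT.nd (nat_lit 234) (nat_lit 0) (nat_lit 0) (XT.nd (nat_lit 78) (nat_lit 76) (nat_lit 0) (XT.lf (nat_lit 0) (nat_lit 9141279004)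 (nat_lit 228) (nat_lit 12380531767) (nat_lit 76) (nat_lit 4623449021) (nat_lit 17) (nat_lit 5) (nat_lit 20) (nat_lit 5) (nat_lit 18) (nat_lit 4) (nat_lit 355) (nat_lit 249) (nat_lit 176)) (XT.nd (nat_lit 78) (nat_lit 76) (nat_lit 0) (XT.lf (nat_lit 0) (nat_lit 12531485466) (nat_lit 228) (nat_lit 5616170770) (nat_lit 76) (nat_lit 8654824756) (nat_lit 17) (nat_lit 5) (nat_lit 20) (nat_lit 5) (nat_lit 18) (nat_lit 4) (nat_lit 356) (nat_lit 249) (nat_lit 175)) (XT.lf (nat_lit 0) (nat_lit 1338738798) (nat_lit 76) (nat_lit 14675129840) (nat_lit 152) (nat_lit 11465852784) (nat_lit 16) (nat_lit 5) (nat_lit 17) (nat_lit 5) (nat_lit 18) (nat_lit 4) (nat_lit 357) (nat_lit 249) (nat_lit 174)))) (XT.nd (nat_lit 78) (nat_lit 0) (nat_lit 0) (XT.lf (nat_lit 0) (nat_lit 8579293283) (nat_lit 76) (nat_lit 11056029940) (nat_lit 152) (nat_lit 8540934067) (nat_lit 16) (nat_lit 5) (nat_lit 17) (nat_lit 5) (nat_lit 18)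 (nat_lit 4) (nat_lit 358) (nat_lit 249) (nat_lit 173)) (XT.nd (nat_lit 78) (nat_lit 0) (nat_lit 0) (XT.lf (nat_lit 0) (nat_lit 16000046574) (nat_lit 76) (nat_lit 7343906527) (nat_lit 152) (nat_lit 5550395935) (nat_lit 16) (nat_lit 5) (nat_lit 17) (nat_lit 5) (nat_lit 18) (nat_lit 4) (nat_lit 359) (nat_lit 249) (nat_lit 172)) (XT.lf (nat_lit 0) (nat_lit 23607482821) (nat_lit 76) (nat_lit 3535515999) (nat_lit 152) (nat_lit 2491625295) (nat_lit 16) (nat_lit 5) (nat_lit 17) (nat_lit 5) (nat_lit 18) (nat_lit 4) (nat_lit 360) (nat_lit 249) (nat_lit 171))))))))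
noncomputable def xc80 : XT := (XT.nd (nat_lit 1794) (nat_lit 228) (nat_lit 0) (XT.nd (nat_lit 858) (nat_lit 228) (nat_lit 0) (XT.nd (nat_lit 390) (nat_lit 152) (nat_lit 0) (XT.nd (nat_lit 156) (nat_lit 0) (nat_lit 0) (XT.nd (nat_lit 78) (nat_lit 0) (nat_lit 0) (XT.lf (nat_lit 0) (nat_lit 639185449) (nat_lit 228) (nat_lit 29376612736) (nat_lit 76) (nat_lit 381339623) (nat_lit 13) (nat_lit 5) (nat_lit 16) (nat_lit 5) (nat_lit 14) (nat_lit 4) (nat_lit 361) (nat_lit 249) (nat_lit 170)) (XT.lf (nat_lit 0) (nat_lit 3889977924) (nat_lit 228) (nat_lit 22873252140) (nat_lit 76) (nat_lit 4416286656) (nat_lit 13) (nat_lit 5) (nat_lit 16) (nat_lit 5) (nat_lit 14) (nat_lit 4) (nat_lit 362) (nat_lit 249) (nat_lit 169))) (XT.nd (nat_lit 78) (nat_lit 0) (nat_lit 0) (XT.lf (nat_lit 0) (nat_lit 7218553000) (nat_lit 228) (nat_lit 16209204082) (nat_lit 76) (nat_lit 8558215739) (nat_lit 13) (nat_lit 5) (nat_lit 16)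 (nat_lit 5) (nat_lit 14) (nat_lit 4) (nat_lit 363) (nat_lit 249) (nat_lit 168)) (XT.nd (nat_lit 78) (nat_lit 0) (nat_lit 0) (XT.lf (nat_lit 0) (nat_lit 10627819142) (nat_lit 228) (nat_lit 9378645607) (nat_lit 76) (nat_lit 12810746032) (nat_lit 13) (nat_lit 5) (nat_lit 16) (nat_lit 5) (nat_lit 14) (nat_lit 4) (nat_lit 364) (nat_lit 249) (nat_lit 167)) (XT.lf (nat_lit 0) (nat_lit 14120755321) (nat_lit 228) (nat_lit 2375608265) (nat_lit 76) (nat_lit 17177593339) (nat_lit 13) (nat_lit 5) (nat_lit 16) (nat_lit 5) (nat_lit 14) (nat_lit 4) (nat_lit 365) (nat_lit 249) (nat_lit 166))))) (XT.nd (nat_lit 234) (nat_lit 76) (nat_lit 0) (XT.nd (nat_lit 78) (nat_lit 0) (nat_lit 0) (XT.lf (nat_lit 0) (nat_lit 4901676464) (nat_lit 76) (nat_lit 12845855064) (nat_lit 152) (nat_lit 16808014801) (nat_lit 12) (nat_lit 5) (nat_lit 13) (nat_lit 5) (nat_lit 14) (nat_lit 4) (nat_lit 366) (nat_lit 249) (nat_lit 165)) (XT.nd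 (nat_lit 78) (nat_lit 0) (nat_lit 0) (XT.lf (nat_lit 0) (nat_lit 12414793038) (nat_lit 76) (nat_lit 9074467431) (nat_lit 152) (nat_lit 13974150534) (nat_lit 12) (nat_lit 5) (nat_lit 13) (nat_lit 5) (nat_lit 14) (nat_lit 4) (nat_lit 367) (nat_lit 249) (nat_lit 164)) (XT.lf (nat_lit 0) (nat_lit 20123027051) (nat_lit 76) (nat_lit 5202894286) (nat_lit 152) (nat_lit 11073121597) (nat_lit 12) (nat_lit 5) (nat_lit 13) (nat_lit 5) (nat_lit 14) (nat_lit 4) (nat_lit 368) (nat_lit 249) (nat_lit 163)))) (XT.nd (nat_lit 78) (nat_lit 76) (nat_lit 0) (XT.lf (nat_lit 0) (nat_lit 28033113855) (nat_lit 76) (nat_lit 1227752701) (nat_lit 152) (nat_lit 8102393111) (nat_lit 12) (nat_lit 5) (nat_lit 13) (nat_lit 5) (nat_lit 14) (nat_lit 4) (nat_lit 369) (nat_lit 249) (nat_lit 162)) (XT.nd (nat_lit 78) (nat_lit 76) (nat_lit 0) (XT.lf (nat_lit 0) (nat_lit 33324972961) (nat_lit 152) (nat_lit 2232377080) (nat_lit 0) (nat_lit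 2798730523) (nat_lit 12) (nat_lit 5) (nat_lit 14) (nat_lit 4) (nat_lit 12) (nat_lit 4) (nat_lit 370) (nat_lit 249) (nat_lit 161)) (XT.lf (nat_lit 0) (nat_lit 5138357470) (nat_lit 76) (nat_lit 32418229917) (nat_lit 76) (nat_lit 1820741880) (nat_lit 11) (nat_lit 4) (nat_lit 12) (nat_lit 5) (nat_lit 12) (nat_lit 4) (nat_lit 371) (nat_lit 249) (nat_lit 160)))))) (XT.nd (nat_lit 468) (nat_lit 76) (nat_lit 0) (XT.nd (nat_lit 234) (nat_lit 76) (nat_lit 0) (XT.nd (nat_lit 78) (nat_lit 0) (nat_lit 0) (XT.lf (nat_lit 0) (nat_lit 1463771921) (nat_lit 152) (nat_lit 27695201521) (nat_lit 76) (nat_lit 11269618597) (nat_lit 10) (nat_lit 5) (nat_lit 12) (nat_lit 5) (nat_lit 11) (nat_lit 4) (nat_lit 372) (nat_lit 249) (nat_lit 159)) (XT.nd (nat_lit 78) (nat_lit 0) (nat_lit 0) (XT.lf (nat_lit 0) (nat_lit 4794757311) (nat_lit 152) (nat_lit 21000456988) (nat_lit 76) (nat_lit 15716111456) (nat_lit 10) (nat_lit 5) (nat_lit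 12) (nat_lit 5) (nat_lit 11) (nat_lit 4) (nat_lit 373) (nat_lit 249) (nat_lit 158)) (XT.lf (nat_lit 0) (nat_lit 8210654093) (nat_lit 152) (nat_lit 14131386338) (nat_lit 76) (nat_lit 20284961128) (nat_lit 10) (nat_lit 5) (nat_lit 12) (nat_lit 5) (nat_lit 11) (nat_lit 4) (nat_lit 374) (nat_lit 249) (nat_lit 157)))) (XT.nd (nat_lit 78) (nat_lit 76) (nat_lit 0) (XT.lf (nat_lit 0) (nat_lit 11714447029) (nat_lit 152) (nat_lit 7081987470) (nat_lit 76) (nat_lit 24980159812) (nat_lit 10) (nat_lit 5) (nat_lit 12) (nat_lit 5) (nat_lit 11) (nat_lit 4) (nat_lit 375) (nat_lit 249) (nat_lit 156)) (XT.nd (nat_lit 78) (nat_lit 0) (nat_lit 0) (XT.lf (nat_lit 0) (nat_lit 156962182) (nat_lit 76) (nat_lit 15153744320) (nat_lit 152) (nat_lit 29650356741) (nat_lit 9) (nat_lit 5) (nat_lit 10) (nat_lit 5) (nat_lit 11) (nat_lit 4) (nat_lit 376) (nat_lit 249) (nat_lit 155)) (XT.lf (nat_lit 0) (nat_lit 7733505085) (nat_lit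 76) (nat_lit 11338881206) (nat_lit 152) (nat_lit 27106962699) (nat_lit 9) (nat_lit 5) (nat_lit 10) (nat_lit 5) (nat_lit 11) (nat_lit 4) (nat_lit 377) (nat_lit 249) (nat_lit 154))))) (XT.nd (nat_lit 234) (nat_lit 76) (nat_lit 0) (XT.nd (nat_lit 78) (nat_lit 0) (nat_lit 0) (XT.lf (nat_lit 0) (nat_lit 15513316082) (nat_lit 76) (nat_lit 7420025967) (nat_lit 152) (nat_lit 24501256959) (nat_lit 9) (nat_lit 5) (nat_lit 10) (nat_lit 5) (nat_lit 11) (nat_lit 4) (nat_lit 378) (nat_lit 249) (nat_lit 153)) (XT.nd (nat_lit 78) (nat_lit 0) (nat_lit 0) (XT.lf (nat_lit 0) (nat_lit 23503193065) (nat_lit 76) (nat_lit 3393754361) (nat_lit 152) (nat_lit 21830962691) (nat_lit 9) (nat_lit 5) (nat_lit 10) (nat_lit 5) (nat_lit 11) (nat_lit 4) (nat_lit 379) (nat_lit 249) (nat_lit 152)) (XT.lf (nat_lit 0) (nat_lit 30973812283) (nat_lit 152) (nat_lit 18357441429) (nat_lit 0) (nat_lit 728944290) (nat_lit 9) (nat_lit 5) (nat_lit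 11) (nat_lit 4) (nat_lit 9) (nat_lit 4) (nat_lit 380) (nat_lit 249) (nat_lit 151)))) (XT.nd (nat_lit 78) (nat_lit 76) (nat_lit 0) (XT.lf (nat_lit 0) (nat_lit 35194070130) (nat_lit 152) (nat_lit 11340026729) (nat_lit 0) (nat_lit 4897732801) (nat_lit 9) (nat_lit 5) (nat_lit 11) (nat_lit 4) (nat_lit 9) (nat_lit 4) (nat_lit 381) (nat_lit 249) (nat_lit 150)) (XT.nd (nat_lit 78) (nat_lit 76) (nat_lit 0) (XT.lf (nat_lit 0) (nat_lit 39528785731) (nat_lit 152) (nat_lit 4133718387) (nat_lit 0) (nat_lit 9182478172) (nat_lit 9) (nat_lit 5) (nat_lit 11) (nat_lit 4) (nat_lit 9) (nat_lit 4) (nat_lit 382) (nat_lit 249) (nat_lit 149)) (XT.lf (nat_lit 0) (nat_lit 3332815606) (nat_lit 76) (nat_lit 40680968156) (nat_lit 76) (nat_lit 10286145811) (nat_lit 8) (nat_lit 4) (nat_lit 9) (nat_lit 5) (nat_lit 9) (nat_lit 4) (nat_lit 383) (nat_lit 249) (nat_lit 148))))))) (XT.nd (nat_lit 936) (nat_lit 76) (nat_lit 0) (XT.nd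 (nat_lit 468) (nat_lit 76) (nat_lit 0) (XT.nd (nat_lit 234) (nat_lit 76) (nat_lit 0) (XT.nd (nat_lit 78) (nat_lit 0) (nat_lit 0) (XT.lf (nat_lit 0) (nat_lit 11087289830) (nat_lit 76) (nat_lit 37576131956) (nat_lit 76) (nat_lit 7134207877) (nat_lit 8) (nat_lit 4) (nat_lit 9) (nat_lit 5) (nat_lit 9) (nat_lit 4) (nat_lit 384) (nat_lit 249) (nat_lit 147)) (XT.nd (nat_lit 78) (nat_lit 0) (nat_lit 0) (XT.lf (nat_lit 0) (nat_lit 19054210937) (nat_lit 76) (nat_lit 34387025006) (nat_lit 76) (nat_lit 3899371088) (nat_lit 8) (nat_lit 4) (nat_lit 9) (nat_lit 5) (nat_lit 9) (nat_lit 4) (nat_lit 385) (nat_lit 249) (nat_lit 146)) (XT.lf (nat_lit 0) (nat_lit 27240540315) (nat_lit 76) (nat_lit 31110860707) (nat_lit 76) (nat_lit 578808886) (nat_lit 8) (nat_lit 4) (nat_lit 9) (nat_lit 5) (nat_lit 9) (nat_lit 4) (nat_lit 386) (nat_lit 249) (nat_lit 145)))) (XT.nd (nat_lit 78) (nat_lit 0) (nat_lit 0) (XT.lf (nat_lit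 0) (nat_lit 2775149276) (nat_lit 152) (nat_lit 24941603548) (nat_lit 76) (nat_lit 32850258224) (nat_lit 7) (nat_lit 5) (nat_lit 9) (nat_lit 5) (nat_lit 8) (nat_lit 4) (nat_lit 387) (nat_lit 249) (nat_lit 144)) (XT.nd (nat_lit 78) (nat_lit 0) (nat_lit 0) (XT.lf (nat_lit 0) (nat_lit 6207631011) (nat_lit 152) (nat_lit 18015514906) (nat_lit 76) (nat_lit 38029918349) (nat_lit 7) (nat_lit 5) (nat_lit 9) (nat_lit 5) (nat_lit 8) (nat_lit 4) (nat_lit 388) (nat_lit 249) (nat_lit 143)) (XT.lf (nat_lit 0) (nat_lit 9732930221) (nat_lit 152) (nat_lit 10899787880) (nat_lit 76) (nat_lit 43357291628) (nat_lit 7) (nat_lit 5) (nat_lit 9) (nat_lit 5) (nat_lit 8) (nat_lit 4) (nat_lit 389) (nat_lit 249) (nat_lit 142))))) (XT.nd (nat_lit 234) (nat_lit 0) (nat_lit 0) (XT.nd (nat_lit 78) (nat_lit 76) (nat_lit 0) (XT.lf (nat_lit 0) (nat_lit 13354127264) (nat_lit 152) (nat_lit 3588204844) (nat_lit 76) (nat_lit 48837033046)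 (nat_lit 7) (nat_lit 5) (nat_lit 9) (nat_lit 5) (nat_lit 8) (nat_lit 4) (nat_lit 390) (nat_lit 249) (nat_lit 141)) (XT.nd (nat_lit 78) (nat_lit 0) (nat_lit 0) (XT.lf (nat_lit 0) (nat_lit 4003750556) (nat_lit 76) (nat_lit 13109122235) (nat_lit 152) (nat_lit 50508666672) (nat_lit 6) (nat_lit 5) (nat_lit 7) (nat_lit 5) (nat_lit 8) (nat_lit 4) (nat_lit 391) (nat_lit 249) (nat_lit 140)) (XT.lf (nat_lit 0) (nat_lit 11880084255) (nat_lit 76) (nat_lit 9131072399) (nat_lit 152) (nat_lit 48507024501) (nat_lit 6) (nat_lit 5) (nat_lit 7) (nat_lit 5) (nat_lit 8) (nat_lit 4) (nat_lit 392) (nat_lit 249) (nat_lit 139)))) (XT.nd (nat_lit 78) (nat_lit 0) (nat_lit 0) (XT.lf (nat_lit 0) (nat_lit 19976266173) (nat_lit 76) (nat_lit 5040940469) (nat_lit 152) (nat_lit 46454796206) (nat_lit 6) (nat_lit 5) (nat_lit 7) (nat_lit 5) (nat_lit 8) (nat_lit 4) (nat_lit 393) (nat_lit 249) (nat_lit 138)) (XT.nd (nat_lit 78) (nat_lit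 0) (nat_lit 0) (XT.lf (nat_lit 0) (nat_lit 28299370643) (nat_lit 76) (nat_lit 835152543) (nat_lit 152) (nat_lit 44350188575) (nat_lit 6) (nat_lit 5) (nat_lit 7) (nat_lit 5) (nat_lit 8) (nat_lit 4) (nat_lit 394) (nat_lit 249) (nat_lit 137)) (XT.lf (nat_lit 0) (nat_lit 33400251633) (nat_lit 152) (nat_lit 38734943985) (nat_lit 0) (nat_lit 3421864525) (nat_lit 6) (nat_lit 5) (nat_lit 8) (nat_lit 4) (nat_lit 6) (nat_lit 4) (nat_lit 395) (nat_lit 249) (nat_lit 136)))))) (XT.nd (nat_lit 31590) (nat_lit 0) (nat_lit 13756) (XT.nd (nat_lit 234) (nat_lit 76) (nat_lit 0) (XT.nd (nat_lit 78) (nat_lit 0) (nat_lit 0) (XT.lf (nat_lit 0) (nat_lit 37793753720) (nat_lit 152) (nat_lit 32114543407) (nat_lit 0) (nat_lit 7783292624) (nat_lit 6) (nat_lit 5) (nat_lit 8) (nat_lit 4) (nat_lit 6) (nat_lit 4) (nat_lit 396) (nat_lit 249) (nat_lit 135)) (XT.nd (nat_lit 78) (nat_lit 0) (nat_lit 0) (XT.lf (nat_lit 0) (nat_lit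 42310840434) (nat_lit 152) (nat_lit 25310326571) (nat_lit 0) (nat_lit 12269239543) (nat_lit 6) (nat_lit 5) (nat_lit 8) (nat_lit 4) (nat_lit 6) (nat_lit 4) (nat_lit 397) (nat_lit 249) (nat_lit 134)) (XT.lf (nat_lit 0) (nat_lit 46955458743) (nat_lit 152) (nat_lit 18316348046) (nat_lit 0) (nat_lit 16883625041) (nat_lit 6) (nat_lit 5) (nat_lit 8) (nat_lit 4) (nat_lit 6) (nat_lit 4) (nat_lit 398) (nat_lit 249) (nat_lit 133)))) (XT.nd (nat_lit 78) (nat_lit 76) (nat_lit 0) (XT.lf (nat_lit 0) (nat_lit 51731667052) (nat_lit 152) (nat_lit 11126496589) (nat_lit 0) (nat_lit 21630481106) (nat_lit 6) (nat_lit 5) (nat_lit 8) (nat_lit 4) (nat_lit 6) (nat_lit 4) (nat_lit 399) (nat_lit 249) (nat_lit 132)) (XT.nd (nat_lit 156) (nat_lit 76) (nat_lit 0) (XT.lf (nat_lit 0) (nat_lit 56643638746) (nat_lit 152) (nat_lit 3734489803) (nat_lit 0) (nat_lit 26513955476) (nat_lit 6) (nat_lit 5) (nat_lit 8) (nat_lit 4) (nat_lit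 6) (nat_lit 4) (nat_lit 400) (nat_lit 249) (nat_lit 131)) (XT.lf (nat_lit 0) (nat_lit 11914503041) (nat_lit 76) (nat_lit 55092189177) (nat_lit 76) (nat_lit 24907977141) (nat_lit 5) (nat_lit 4) (nat_lit 6) (nat_lit 5) (nat_lit 6) (nat_lit 4) (nat_lit 402) (nat_lit 249) (nat_lit 129))))) (XT.nd (nat_lit 234) (nat_lit 1976) (nat_lit 0) (XT.nd (nat_lit 78) (nat_lit 912) (nat_lit 0) (XT.lf (nat_lit 0) (nat_lit 1123709853) (nat_lit 836) (nat_lit 1207840846) (nat_lit 0) (nat_lit 1123709853) (nat_lit 224) (nat_lit 5) (nat_lit 235) (nat_lit 4) (nat_lit 224) (nat_lit 4) (nat_lit 280) (nat_lit 250) (nat_lit 250)) (XT.nd (nat_lit 78) (nat_lit 76) (nat_lit 0) (XT.lf (nat_lit 0) (nat_lit 1807236146) (nat_lit 836) (nat_lit 3469784367) (nat_lit 836) (nat_lit 1683232883) (nat_lit 213) (nat_lit 4) (nat_lit 224) (nat_lit 5) (nat_lit 224) (nat_lit 4) (nat_lit 281) (nat_lit 250) (nat_lit 249)) (XT.lf (nat_lit 0) (nat_lit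 1289177680) (nat_lit 912) (nat_lit 904036796) (nat_lit 76) (nat_lit 4820211211) (nat_lit 212) (nat_lit 5) (nat_lit 224) (nat_lit 5) (nat_lit 213) (nat_lit 4) (nat_lit 282) (nat_lit 250) (nat_lit 248)))) (XT.nd (nat_lit 78) (nat_lit 1064) (nat_lit 0) (XT.lf (nat_lit 0) (nat_lit 3439280863) (nat_lit 912) (nat_lit 819016905) (nat_lit 988) (nat_lit 2811400476) (nat_lit 200) (nat_lit 5) (nat_lit 212) (nat_lit 5) (nat_lit 213) (nat_lit 4) (nat_lit 283) (nat_lit 250) (nat_lit 247)) (XT.nd (nat_lit 78) (nat_lit 0) (nat_lit 0) (XT.lf (nat_lit 0) (nat_lit 116430283) (nat_lit 1064) (nat_lit 6404434191) (nat_lit 76) (nat_lit 609033567) (nat_lit 186) (nat_lit 5) (nat_lit 200) (nat_lit 5) (nat_lit 187) (nat_lit 4) (nat_lit 284) (nat_lit 250) (nat_lit 246)) (XT.lf (nat_lit 0) (nat_lit 3031672204) (nat_lit 1064) (nat_lit 2027588096) (nat_lit 76) (nat_lit 2133351223) (nat_lit 186) (nat_lit 5) (nat_lit 200) (nat_lit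 5) (nat_lit 187) (nat_lit 4) (nat_lit 285) (nat_lit 250) (nat_lit 245))))))))
noncomputable def xc81 : XT := (XT.nd (nat_lit 1794) (nat_lit 3344) (nat_lit 0) (XT.nd (nat_lit 858) (nat_lit 3040) (nat_lit 0) (XT.nd (nat_lit 390) (nat_lit 2204) (nat_lit 0) (XT.nd (nat_lit 156) (nat_lit 1672) (nat_lit 0) (XT.nd (nat_lit 78) (nat_lit 76) (nat_lit 0) (XT.lf (nat_lit 0) (nat_lit 2443865704) (nat_lit 1064) (nat_lit 3527541742) (nat_lit 1140) (nat_lit 1287906558) (nat_lit 172) (nat_lit 5) (nat_lit 186) (nat_lit 5) (nat_lit 187) (nat_lit 4) (nat_lit 286) (nat_lit 250) (nat_lit 244)) (XT.lf (nat_lit 0) (nat_lit 1573593009) (nat_lit 1140) (nat_lit 338117536) (nat_lit 76) (nat_lit 5417984491) (nat_lit 171) (nat_lit 5) (nat_lit 186) (nat_lit 5) (nat_lit 172) (nat_lit 5) (nat_lit 287) (nat_lit 250) (nat_lit 243))) (XT.nd (nat_lit 78) (nat_lit 608) (nat_lit 0) (XT.lf (nat_lit 0) (nat_lit 4260945014) (nat_lit 1064)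 (nat_lit 191776256) (nat_lit 1140) (nat_lit 2950553723) (nat_lit 157) (nat_lit 5) (nat_lit 171) (nat_lit 5) (nat_lit 172) (nat_lit 5) (nat_lit 288) (nat_lit 250) (nat_lit 242)) (XT.nd (nat_lit 78) (nat_lit 76) (nat_lit 0) (XT.lf (nat_lit 0) (nat_lit 1454301526) (nat_lit 532) (nat_lit 5914876827) (nat_lit 608) (nat_lit 111549640) (nat_lit 150) (nat_lit 5) (nat_lit 157) (nat_lit 5) (nat_lit 158) (nat_lit 4) (nat_lit 289) (nat_lit 250) (nat_lit 241)) (XT.lf (nat_lit 0) (nat_lit 2710619342) (nat_lit 608) (nat_lit 1421328980) (nat_lit 76) (nat_lit 3429341924) (nat_lit 149) (nat_lit 5) (nat_lit 157) (nat_lit 5) (nat_lit 150) (nat_lit 5) (nat_lit 290) (nat_lit 250) (nat_lit 240))))) (XT.nd (nat_lit 234) (nat_lit 1064) (nat_lit 0) (XT.nd (nat_lit 78) (nat_lit 608) (nat_lit 0) (XT.lf (nat_lit 0) (nat_lit 3301975278) (nat_lit 532) (nat_lit 2266272697) (nat_lit 608) (nat_lit 2077574963) (nat_lit 142) (nat_lit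 5) (nat_lit 149) (nat_lit 5) (nat_lit 150) (nat_lit 5) (nat_lit 291) (nat_lit 250) (nat_lit 239)) (XT.nd (nat_lit 78) (nat_lit 0) (nat_lit 0) (XT.lf (nat_lit 0) (nat_lit 379244931) (nat_lit 532) (nat_lit 324275749) (nat_lit 608) (nat_lit 7031113896) (nat_lit 134) (nat_lit 5) (nat_lit 141) (nat_lit 5) (nat_lit 142) (nat_lit 5) (nat_lit 292) (nat_lit 250) (nat_lit 238)) (XT.lf (nat_lit 0) (nat_lit 3509973514) (nat_lit 608) (nat_lit 2614588999) (nat_lit 76) (nat_lit 1701583219) (nat_lit 134) (nat_lit 5) (nat_lit 142) (nat_lit 5) (nat_lit 135) (nat_lit 5) (nat_lit 293) (nat_lit 250) (nat_lit 237)))) (XT.nd (nat_lit 78) (nat_lit 532) (nat_lit 0) (XT.lf (nat_lit 0) (nat_lit 2225393783) (nat_lit 532) (nat_lit 4125335753) (nat_lit 608) (nat_lit 1571327377) (nat_lit 127) (nat_lit 5) (nat_lit 134) (nat_lit 5) (nat_lit 135) (nat_lit 5) (nat_lit 294) (nat_lit 250) (nat_lit 236)) (XT.nd (nat_lit 78) (nat_lit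 456) (nat_lit 0) (XT.lf (nat_lit 0) (nat_lit 1184030066) (nat_lit 608) (nat_lit 852276225) (nat_lit 76) (nat_lit 5985745674) (nat_lit 126) (nat_lit 5) (nat_lit 134) (nat_lit 5) (nat_lit 127) (nat_lit 5) (nat_lit 295) (nat_lit 250) (nat_lit 235)) (XT.lf (nat_lit 0) (nat_lit 3959803151) (nat_lit 532) (nat_lit 4006572483) (nat_lit 76) (nat_lit 159268963) (nat_lit 120) (nat_lit 5) (nat_lit 127) (nat_lit 5) (nat_lit 121) (nat_lit 5) (nat_lit 296) (nat_lit 250) (nat_lit 234)))))) (XT.nd (nat_lit 468) (nat_lit 1216) (nat_lit 0) (XT.nd (nat_lit 234) (nat_lit 912) (nat_lit 0) (XT.nd (nat_lit 78) (nat_lit 456) (nat_lit 0) (XT.lf (nat_lit 0) (nat_lit 940072095) (nat_lit 456) (nat_lit 5846048441) (nat_lit 532) (nat_lit 1447346701) (nat_lit 114) (nat_lit 5) (nat_lit 120) (nat_lit 5) (nat_lit 121) (nat_lit 5) (nat_lit 297) (nat_lit 250) (nat_lit 233)) (XT.nd (nat_lit 78) (nat_lit 380) (nat_lit 0) (XT.lf (nat_lit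 0) (nat_lit 1296994313) (nat_lit 532) (nat_lit 2323153339) (nat_lit 76) (nat_lit 4724998492) (nat_lit 113) (nat_lit 5) (nat_lit 120) (nat_lit 5) (nat_lit 114) (nat_lit 5) (nat_lit 298) (nat_lit 250) (nat_lit 232)) (XT.lf (nat_lit 0) (nat_lit 2754364811) (nat_lit 380) (nat_lit 1298559409) (nat_lit 456) (nat_lit 4408199275) (nat_lit 108) (nat_lit 5) (nat_lit 113) (nat_lit 5) (nat_lit 114) (nat_lit 5) (nat_lit 299) (nat_lit 250) (nat_lit 231)))) (XT.nd (nat_lit 78) (nat_lit 912) (nat_lit 0) (XT.lf (nat_lit 0) (nat_lit 6858680167) (nat_lit 456) (nat_lit 641235138) (nat_lit 76) (nat_lit 1081775128) (nat_lit 108) (nat_lit 5) (nat_lit 114) (nat_lit 5) (nat_lit 109) (nat_lit 5) (nat_lit 300) (nat_lit 250) (nat_lit 230)) (XT.nd (nat_lit 78) (nat_lit 380) (nat_lit 0) (XT.lf (nat_lit 0) (nat_lit 1013903497) (nat_lit 532) (nat_lit 4143612029) (nat_lit 76) (nat_lit 3548430202) (nat_lit 101) (nat_lit 5) (nat_lit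 108) (nat_lit 5) (nat_lit 102) (nat_lit 5) (nat_lit 301) (nat_lit 250) (nat_lit 229)) (XT.lf (nat_lit 0) (nat_lit 1023600956) (nat_lit 380) (nat_lit 2726363102) (nat_lit 456) (nat_lit 5085016860) (nat_lit 96) (nat_lit 5) (nat_lit 101) (nat_lit 5) (nat_lit 102) (nat_lit 5) (nat_lit 302) (nat_lit 250) (nat_lit 228))))) (XT.nd (nat_lit 234) (nat_lit 760) (nat_lit 0) (XT.nd (nat_lit 78) (nat_lit 456) (nat_lit 0) (XT.lf (nat_lit 0) (nat_lit 6350891760) (nat_lit 380) (nat_lit 195465286) (nat_lit 456) (nat_lit 2422293402) (nat_lit 96) (nat_lit 5) (nat_lit 101) (nat_lit 5) (nat_lit 102) (nat_lit 5) (nat_lit 303) (nat_lit 250) (nat_lit 227)) (XT.nd (nat_lit 78) (nat_lit 0) (nat_lit 0) (XT.lf (nat_lit 0) (nat_lit 300891472) (nat_lit 456) (nat_lit 6428318764) (nat_lit 76) (nat_lit 2377526995) (nat_lit 90) (nat_lit 5) (nat_lit 96) (nat_lit 5) (nat_lit 91) (nat_lit 5) (nat_lit 304) (nat_lit 250) (nat_lit 226))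 (XT.lf (nat_lit 0) (nat_lit 3024168358) (nat_lit 456) (nat_lit 1167119363) (nat_lit 76) (nat_lit 5058048336) (nat_lit 90) (nat_lit 5) (nat_lit 96) (nat_lit 5) (nat_lit 91) (nat_lit 5) (nat_lit 305) (nat_lit 250) (nat_lit 225)))) (XT.nd (nat_lit 78) (nat_lit 456) (nat_lit 0) (XT.lf (nat_lit 0) (nat_lit 4257412826) (nat_lit 304) (nat_lit 1552899183) (nat_lit 380) (nat_lit 3586564233) (nat_lit 86) (nat_lit 5) (nat_lit 90) (nat_lit 5) (nat_lit 91) (nat_lit 5) (nat_lit 306) (nat_lit 250) (nat_lit 224)) (XT.nd (nat_lit 78) (nat_lit 76) (nat_lit 0) (XT.lf (nat_lit 0) (nat_lit 234883605) (nat_lit 380) (nat_lit 8411583738) (nat_lit 456) (nat_lit 903478048) (nat_lit 81) (nat_lit 5) (nat_lit 86) (nat_lit 5) (nat_lit 87) (nat_lit 5) (nat_lit 307) (nat_lit 250) (nat_lit 223)) (XT.lf (nat_lit 0) (nat_lit 1832967305) (nat_lit 456) (nat_lit 3942995946) (nat_lit 76) (nat_lit 3930922127) (nat_lit 80) (nat_lit 5)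 (nat_lit 86) (nat_lit 5) (nat_lit 81) (nat_lit 5) (nat_lit 308) (nat_lit 250) (nat_lit 222))))))) (XT.nd (nat_lit 936) (nat_lit 1444) (nat_lit 0) (XT.nd (nat_lit 468) (nat_lit 912) (nat_lit 0) (XT.nd (nat_lit 234) (nat_lit 304) (nat_lit 0) (XT.nd (nat_lit 78) (nat_lit 380) (nat_lit 0) (XT.lf (nat_lit 0) (nat_lit 1534539899) (nat_lit 304) (nat_lit 3056641789) (nat_lit 380) (nat_lit 5278435944) (nat_lit 76) (nat_lit 5) (nat_lit 80) (nat_lit 5) (nat_lit 81) (nat_lit 5) (nat_lit 309) (nat_lit 250) (nat_lit 221)) (XT.nd (nat_lit 78) (nat_lit 380) (nat_lit 0) (XT.lf (nat_lit 0) (nat_lit 7181290201) (nat_lit 304) (nat_lit 234680357) (nat_lit 380) (nat_lit 2621831376) (nat_lit 76) (nat_lit 5) (nat_lit 80) (nat_lit 5) (nat_lit 81) (nat_lit 5) (nat_lit 310) (nat_lit 250) (nat_lit 220)) (XT.lf (nat_lit 0) (nat_lit 109600229) (nat_lit 380) (nat_lit 7473345909) (nat_lit 76) (nat_lit 2628211781) (nat_lit 71)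 (nat_lit 5) (nat_lit 76) (nat_lit 5) (nat_lit 72) (nat_lit 5) (nat_lit 311) (nat_lit 250) (nat_lit 219)))) (XT.nd (nat_lit 78) (nat_lit 304) (nat_lit 0) (XT.lf (nat_lit 0) (nat_lit 2847451441) (nat_lit 380) (nat_lit 1934570533) (nat_lit 76) (nat_lit 5607676377) (nat_lit 71) (nat_lit 5) (nat_lit 76) (nat_lit 5) (nat_lit 72) (nat_lit 5) (nat_lit 312) (nat_lit 250) (nat_lit 218)) (XT.nd (nat_lit 78) (nat_lit 0) (nat_lit 0) (XT.lf (nat_lit 0) (nat_lit 3770473157) (nat_lit 304) (nat_lit 1880508681) (nat_lit 380) (nat_lit 4923182300) (nat_lit 67) (nat_lit 5) (nat_lit 71) (nat_lit 5) (nat_lit 72) (nat_lit 5) (nat_lit 313) (nat_lit 250) (nat_lit 217)) (XT.lf (nat_lit 0) (nat_lit 8516932628) (nat_lit 380) (nat_lit 1162276146) (nat_lit 76) (nat_lit 1085678943) (nat_lit 67) (nat_lit 5) (nat_lit 72) (nat_lit 5) (nat_lit 68) (nat_lit 5) (nat_lit 314) (nat_lit 250) (nat_lit 216))))) (XT.nd (nat_lit 234) (nat_lit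 304) (nat_lit 0) (XT.nd (nat_lit 78) (nat_lit 228) (nat_lit 0) (XT.lf (nat_lit 0) (nat_lit 510435334) (nat_lit 380) (nat_lit 6317573554) (nat_lit 76) (nat_lit 4132862499) (nat_lit 62) (nat_lit 5) (nat_lit 67) (nat_lit 5) (nat_lit 63) (nat_lit 5) (nat_lit 315) (nat_lit 250) (nat_lit 215)) (XT.nd (nat_lit 78) (nat_lit 228) (nat_lit 0) (XT.lf (nat_lit 0) (nat_lit 3267926037) (nat_lit 380) (nat_lit 610271648) (nat_lit 76) (nat_lit 7285090304) (nat_lit 62) (nat_lit 5) (nat_lit 67) (nat_lit 5) (nat_lit 63) (nat_lit 5) (nat_lit 316) (nat_lit 250) (nat_lit 214)) (XT.lf (nat_lit 0) (nat_lit 5301426868) (nat_lit 228) (nat_lit 808818181) (nat_lit 304) (nat_lit 5261534016) (nat_lit 59) (nat_lit 5) (nat_lit 62) (nat_lit 5) (nat_lit 63) (nat_lit 5) (nat_lit 317) (nat_lit 250) (nat_lit 213)))) (XT.nd (nat_lit 78) (nat_lit 304) (nat_lit 0) (XT.lf (nat_lit 0) (nat_lit 9018362923) (nat_lit 304) (nat_lit 276912965)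 (nat_lit 76) (nat_lit 2291896296) (nat_lit 59) (nat_lit 5) (nat_lit 63) (nat_lit 5) (nat_lit 60) (nat_lit 5) (nat_lit 318) (nat_lit 250) (nat_lit 212)) (XT.nd (nat_lit 78) (nat_lit 0) (nat_lit 0) (XT.lf (nat_lit 0) (nat_lit 216942700) (nat_lit 304) (nat_lit 6085508741) (nat_lit 76) (nat_lit 5506088993) (nat_lit 55) (nat_lit 5) (nat_lit 59) (nat_lit 5) (nat_lit 56) (nat_lit 5) (nat_lit 319) (nat_lit 250) (nat_lit 211)) (XT.lf (nat_lit 0) (nat_lit 2990753723) (nat_lit 304) (nat_lit 222407502) (nat_lit 76) (nat_lit 8823999809) (nat_lit 55) (nat_lit 5) (nat_lit 59) (nat_lit 5) (nat_lit 56) (nat_lit 5) (nat_lit 320) (nat_lit 250) (nat_lit 210)))))) (XT.nd (nat_lit 468) (nat_lit 684) (nat_lit 0) (XT.nd (nat_lit 234) (nat_lit 304) (nat_lit 0) (XT.nd (nat_lit 78) (nat_lit 228) (nat_lit 0) (XT.lf (nat_lit 0) (nat_lit 5858848848) (nat_lit 304) (nat_lit 6408520089) (nat_lit 76) (nat_lit 4995364) (nat_lit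 52) (nat_lit 5) (nat_lit 56) (nat_lit 5) (nat_lit 53) (nat_lit 5) (nat_lit 321) (nat_lit 250) (nat_lit 209)) (XT.nd (nat_lit 78) (nat_lit 228) (nat_lit 0) (XT.lf (nat_lit 0) (nat_lit 8802194288) (nat_lit 304) (nat_lit 476794130) (nat_lit 76) (nat_lit 3236013531) (nat_lit 52) (nat_lit 5) (nat_lit 56) (nat_lit 5) (nat_lit 53) (nat_lit 5) (nat_lit 322) (nat_lit 250) (nat_lit 208)) (XT.lf (nat_lit 0) (nat_lit 5678007477) (nat_lit 228) (nat_lit 6166845977) (nat_lit 304) (nat_lit 919787793) (nat_lit 49) (nat_lit 5) (nat_lit 52) (nat_lit 5) (nat_lit 53) (nat_lit 5) (nat_lit 323) (nat_lit 250) (nat_lit 207)))) (XT.nd (nat_lit 78) (nat_lit 228) (nat_lit 0) (XT.lf (nat_lit 0) (nat_lit 1880297818) (nat_lit 304) (nat_lit 1079202346) (nat_lit 76) (nat_lit 10062911167) (nat_lit 48) (nat_lit 5) (nat_lit 52) (nat_lit 5) (nat_lit 49) (nat_lit 5) (nat_lit 324) (nat_lit 250) (nat_lit 206)) (XT.nd (nat_lit 78) (nat_lit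 0) (nat_lit 0) (XT.lf (nat_lit 0) (nat_lit 4756806367) (nat_lit 304) (nat_lit 8155614252) (nat_lit 76) (nat_lit 374941908) (nat_lit 45) (nat_lit 5) (nat_lit 49) (nat_lit 5) (nat_lit 46) (nat_lit 5) (nat_lit 325) (nat_lit 250) (nat_lit 205)) (XT.lf (nat_lit 0) (nat_lit 7718190779) (nat_lit 304) (nat_lit 2102673258) (nat_lit 76) (nat_lit 3739487821) (nat_lit 45) (nat_lit 5) (nat_lit 49) (nat_lit 5) (nat_lit 46) (nat_lit 5) (nat_lit 326) (nat_lit 250) (nat_lit 204))))) (XT.nd (nat_lit 234) (nat_lit 228) (nat_lit 0) (XT.nd (nat_lit 78) (nat_lit 228) (nat_lit 0) (XT.lf (nat_lit 0) (nat_lit 4150242080) (nat_lit 228) (nat_lit 6617557559) (nat_lit 304) (nat_lit 3073795392) (nat_lit 42) (nat_lit 5) (nat_lit 45) (nat_lit 5) (nat_lit 46) (nat_lit 5) (nat_lit 327) (nat_lit 250) (nat_lit 203)) (XT.nd (nat_lit 78) (nat_lit 228) (nat_lit 0) (XT.lf (nat_lit 0) (nat_lit 10571861288) (nat_lit 228) (nat_lit 3318340709)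 (nat_lit 304) (nat_lit 241678665) (nat_lit 42) (nat_lit 5) (nat_lit 45) (nat_lit 5) (nat_lit 46) (nat_lit 5) (nat_lit 328) (nat_lit 250) (nat_lit 202)) (XT.lf (nat_lit 0) (nat_lit 2611237820) (nat_lit 228) (nat_lit 11709964530) (nat_lit 76) (nat_lit 109301470) (nat_lit 39) (nat_lit 5) (nat_lit 42) (nat_lit 5) (nat_lit 40) (nat_lit 5) (nat_lit 329) (nat_lit 250) (nat_lit 201)))) (XT.nd (nat_lit 78) (nat_lit 228) (nat_lit 0) (XT.lf (nat_lit 0) (nat_lit 5575205122) (nat_lit 228) (nat_lit 5571513952) (nat_lit 76) (nat_lit 3590425747) (nat_lit 39) (nat_lit 5) (nat_lit 42) (nat_lit 5) (nat_lit 40) (nat_lit 5) (nat_lit 330) (nat_lit 250) (nat_lit 200)) (XT.nd (nat_lit 78) (nat_lit 0) (nat_lit 0) (XT.lf (nat_lit 0) (nat_lit 705245490) (nat_lit 228) (nat_lit 7891917258) (nat_lit 304) (nat_lit 6456789542) (nat_lit 36) (nat_lit 5) (nat_lit 39) (nat_lit 5) (nat_lit 40) (nat_lit 5) (nat_lit 331) (nat_lit 250)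 (nat_lit 199)) (XT.lf (nat_lit 0) (nat_lit 7225496135) (nat_lit 228) (nat_lit 4503367323) (nat_lit 304) (nat_lit 3650866225) (nat_lit 36) (nat_lit 5) (nat_lit 39) (nat_lit 5) (nat_lit 40) (nat_lit 5) (nat_lit 332) (nat_lit 250) (nat_lit 198))))))))
noncomputable def xc82 : XT := (XT.nd (nat_lit 1794) (nat_lit 608) (nat_lit 0) (XT.nd (nat_lit 858) (nat_lit 684) (nat_lit 0) (XT.nd (nat_lit 390) (nat_lit 380) (nat_lit 0) (XT.nd (nat_lit 156) (nat_lit 152) (nat_lit 0) (XT.nd (nat_lit 78) (nat_lit 228) (nat_lit 0) (XT.lf (nat_lit 0) (nat_lit 13884051237) (nat_lit 228) (nat_lit 1034369765) (nat_lit 304) (nat_lit 797979339) (nat_lit 36) (nat_lit 5) (nat_lit 39) (nat_lit 5) (nat_lit 40) (nat_lit 5) (nat_lit 333) (nat_lit 250) (nat_lit 197)) (XT.lf (nat_lit 0) (nat_lit 2133272827) (nat_lit 228) (nat_lit 11393314865) (nat_lit 76) (nat_lit 2534964717) (nat_lit 33) (nat_lit 5) (nat_lit 36) (nat_lit 5) (nat_lit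 34) (nat_lit 5) (nat_lit 334) (nat_lit 250) (nat_lit 196))) (XT.nd (nat_lit 78) (nat_lit 152) (nat_lit 0) (XT.lf (nat_lit 0) (nat_lit 5130220780) (nat_lit 228) (nat_lit 5090128481) (nat_lit 76) (nat_lit 6196692817) (nat_lit 33) (nat_lit 5) (nat_lit 36) (nat_lit 5) (nat_lit 34) (nat_lit 5) (nat_lit 335) (nat_lit 250) (nat_lit 195)) (XT.nd (nat_lit 78) (nat_lit 0) (nat_lit 0) (XT.lf (nat_lit 0) (nat_lit 1373912587) (nat_lit 152) (nat_lit 6822263900) (nat_lit 228) (nat_lit 8587679949) (nat_lit 31) (nat_lit 5) (nat_lit 33) (nat_lit 5) (nat_lit 34) (nat_lit 5) (nat_lit 336) (nat_lit 250) (nat_lit 194)) (XT.lf (nat_lit 0) (nat_lit 8081706355) (nat_lit 152) (nat_lit 3290166684) (nat_lit 228) (nat_lit 5789301338) (nat_lit 31) (nat_lit 5) (nat_lit 33) (nat_lit 5) (nat_lit 34) (nat_lit 5) (nat_lit 337) (nat_lit 250) (nat_lit 193))))) (XT.nd (nat_lit 234) (nat_lit 152) (nat_lit 0) (XT.nd (nat_lit 78) (nat_lit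 228) (nat_lit 0) (XT.lf (nat_lit 0) (nat_lit 14613331460) (nat_lit 228) (nat_lit 2616161593) (nat_lit 76) (nat_lit 321235158) (nat_lit 31) (nat_lit 5) (nat_lit 34) (nat_lit 5) (nat_lit 32) (nat_lit 4) (nat_lit 338) (nat_lit 250) (nat_lit 192)) (XT.nd (nat_lit 78) (nat_lit 0) (nat_lit 0) (XT.lf (nat_lit 0) (nat_lit 39891673) (nat_lit 228) (nat_lit 13916174086) (nat_lit 76) (nat_lit 3994737344) (nat_lit 28) (nat_lit 5) (nat_lit 31) (nat_lit 5) (nat_lit 29) (nat_lit 5) (nat_lit 339) (nat_lit 250) (nat_lit 191)) (XT.lf (nat_lit 0) (nat_lit 3042335502) (nat_lit 228) (nat_lit 7505184485) (nat_lit 76) (nat_lit 7814669943) (nat_lit 28) (nat_lit 5) (nat_lit 31) (nat_lit 5) (nat_lit 29) (nat_lit 5) (nat_lit 340) (nat_lit 250) (nat_lit 190)))) (XT.nd (nat_lit 78) (nat_lit 152) (nat_lit 0) (XT.lf (nat_lit 0) (nat_lit 6103974829) (nat_lit 228) (nat_lit 952665370) (nat_lit 76) (nat_lit 11730232116) (nat_lit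 28) (nat_lit 5) (nat_lit 31) (nat_lit 5) (nat_lit 29) (nat_lit 5) (nat_lit 341) (nat_lit 250) (nat_lit 189)) (XT.nd (nat_lit 78) (nat_lit 0) (nat_lit 0) (XT.lf (nat_lit 0) (nat_lit 5861487494) (nat_lit 152) (nat_lit 3422341582) (nat_lit 228) (nat_lit 9939701935) (nat_lit 26) (nat_lit 5) (nat_lit 28) (nat_lit 5) (nat_lit 29) (nat_lit 5) (nat_lit 342) (nat_lit 250) (nat_lit 188)) (XT.lf (nat_lit 0) (nat_lit 12542119851) (nat_lit 228) (nat_lit 6826153117) (nat_lit 76) (nat_lit 305551308) (nat_lit 26) (nat_lit 5) (nat_lit 29) (nat_lit 5) (nat_lit 27) (nat_lit 4) (nat_lit 343) (nat_lit 250) (nat_lit 187)))))) (XT.nd (nat_lit 468) (nat_lit 304) (nat_lit 0) (XT.nd (nat_lit 234) (nat_lit 152) (nat_lit 0) (XT.nd (nat_lit 78) (nat_lit 228) (nat_lit 0) (XT.lf (nat_lit 0) (nat_lit 15903150796) (nat_lit 228) (nat_lit 176192067) (nat_lit 76) (nat_lit 4058159007) (nat_lit 26) (nat_lit 5) (nat_lit 29) (nat_lit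 5) (nat_lit 27) (nat_lit 4) (nat_lit 344) (nat_lit 250) (nat_lit 186)) (XT.nd (nat_lit 78) (nat_lit 76) (nat_lit 0) (XT.lf (nat_lit 0) (nat_lit 6758429215) (nat_lit 152) (nat_lit 12643498036) (nat_lit 228) (nat_lit 1212079642) (nat_lit 24) (nat_lit 5) (nat_lit 26) (nat_lit 5) (nat_lit 27) (nat_lit 4) (nat_lit 345) (nat_lit 250) (nat_lit 185)) (XT.lf (nat_lit 0) (nat_lit 1837587472) (nat_lit 228) (nat_lit 7265184412) (nat_lit 76) (nat_lit 12002295540) (nat_lit 23) (nat_lit 5) (nat_lit 26) (nat_lit 5) (nat_lit 24) (nat_lit 5) (nat_lit 346) (nat_lit 250) (nat_lit 184)))) (XT.nd (nat_lit 78) (nat_lit 152) (nat_lit 0) (XT.lf (nat_lit 0) (nat_lit 4927221208) (nat_lit 228) (nat_lit 534557590) (nat_lit 76) (nat_lit 16149558261) (nat_lit 23) (nat_lit 5) (nat_lit 26) (nat_lit 5) (nat_lit 24) (nat_lit 5) (nat_lit 347) (nat_lit 250) (nat_lit 183)) (XT.nd (nat_lit 78) (nat_lit 0) (nat_lit 0) (XT.lf (nat_lit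 0) (nat_lit 6480288946) (nat_lit 152) (nat_lit 1665176838) (nat_lit 228) (nat_lit 13986273146) (nat_lit 21) (nat_lit 5) (nat_lit 23) (nat_lit 5) (nat_lit 24) (nat_lit 5) (nat_lit 348) (nat_lit 250) (nat_lit 182)) (XT.lf (nat_lit 0) (nat_lit 11461099572) (nat_lit 228) (nat_lit 9017040731) (nat_lit 76) (nat_lit 2189608463) (nat_lit 21) (nat_lit 5) (nat_lit 24) (nat_lit 5) (nat_lit 22) (nat_lit 4) (nat_lit 349) (nat_lit 250) (nat_lit 181))))) (XT.nd (nat_lit 234) (nat_lit 228) (nat_lit 0) (XT.nd (nat_lit 78) (nat_lit 76) (nat_lit 0) (XT.lf (nat_lit 0) (nat_lit 14867259202) (nat_lit 228) (nat_lit 2243146036) (nat_lit 76) (nat_lit 6109722507) (nat_lit 21) (nat_lit 5) (nat_lit 24) (nat_lit 5) (nat_lit 22) (nat_lit 4) (nat_lit 350) (nat_lit 250) (nat_lit 180)) (XT.nd (nat_lit 78) (nat_lit 0) (nat_lit 0) (XT.lf (nat_lit 0) (nat_lit 4785542915) (nat_lit 76) (nat_lit 13611372881) (nat_lit 152) (nat_lit 5391542883)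 (nat_lit 20) (nat_lit 5) (nat_lit 21) (nat_lit 5) (nat_lit 22) (nat_lit 4) (nat_lit 351) (nat_lit 250) (nat_lit 179)) (XT.lf (nat_lit 0) (nat_lit 12029678928) (nat_lit 76) (nat_lit 10001066333) (nat_lit 152) (nat_lit 2343165157) (nat_lit 20) (nat_lit 5) (nat_lit 21) (nat_lit 5) (nat_lit 22) (nat_lit 4) (nat_lit 352) (nat_lit 250) (nat_lit 178)))) (XT.nd (nat_lit 78) (nat_lit 152) (nat_lit 0) (XT.lf (nat_lit 0) (nat_lit 757206985) (nat_lit 152) (nat_lit 5534129044) (nat_lit 76) (nat_lit 18686095533) (nat_lit 19) (nat_lit 5) (nat_lit 21) (nat_lit 5) (nat_lit 20) (nat_lit 5) (nat_lit 353) (nat_lit 250) (nat_lit 177)) (XT.nd (nat_lit 78) (nat_lit 0) (nat_lit 0) (XT.lf (nat_lit 0) (nat_lit 1445790038) (nat_lit 152) (nat_lit 2448388081) (nat_lit 228) (nat_lit 21704481464) (nat_lit 17) (nat_lit 5) (nat_lit 19) (nat_lit 5) (nat_lit 20) (nat_lit 5) (nat_lit 354) (nat_lit 250) (nat_lit 176)) (XT.lf (nat_lit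 0) (nat_lit 7173138924) (nat_lit 228) (nat_lit 17543024957) (nat_lit 76) (nat_lit 1520941359) (nat_lit 17) (nat_lit 5) (nat_lit 20) (nat_lit 5) (nat_lit 18) (nat_lit 4) (nat_lit 355) (nat_lit 250) (nat_lit 175))))))) (XT.nd (nat_lit 936) (nat_lit 228) (nat_lit 0) (XT.nd (nat_lit 468) (nat_lit 304) (nat_lit 0) (XT.nd (nat_lit 234) (nat_lit 0) (nat_lit 0) (XT.nd (nat_lit 78) (nat_lit 76) (nat_lit 0) (XT.lf (nat_lit 0) (nat_lit 10552311761) (nat_lit 228) (nat_lit 10797632371) (nat_lit 76) (nat_lit 5544721548) (nat_lit 17) (nat_lit 5) (nat_lit 20) (nat_lit 5) (nat_lit 18) (nat_lit 4) (nat_lit 356) (nat_lit 250) (nat_lit 174)) (XT.nd (nat_lit 78) (nat_lit 76) (nat_lit 0) (XT.lf (nat_lit 0) (nat_lit 14011113900) (nat_lit 228) (nat_lit 3887262351) (nat_lit 76) (nat_lit 9674245282) (nat_lit 17) (nat_lit 5) (nat_lit 20) (nat_lit 5) (nat_lit 18) (nat_lit 4) (nat_lit 357) (nat_lit 250) (nat_lit 173)) (XT.lf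 (nat_lit 0) (nat_lit 3257692607) (nat_lit 76) (nat_lit 14326189923) (nat_lit 152) (nat_lit 10686743209) (nat_lit 16) (nat_lit 5) (nat_lit 17) (nat_lit 5) (nat_lit 18) (nat_lit 4) (nat_lit 358) (nat_lit 250) (nat_lit 172)))) (XT.nd (nat_lit 78) (nat_lit 0) (nat_lit 0) (XT.lf (nat_lit 0) (nat_lit 10660741640) (nat_lit 76) (nat_lit 10621503253) (nat_lit 152) (nat_lit 7706788148) (nat_lit 16) (nat_lit 5) (nat_lit 17) (nat_lit 5) (nat_lit 18) (nat_lit 4) (nat_lit 359) (nat_lit 250) (nat_lit 171)) (XT.nd (nat_lit 78) (nat_lit 0) (nat_lit 0) (XT.lf (nat_lit 0) (nat_lit 18250989289) (nat_lit 76) (nat_lit 6820332864) (nat_lit 152) (nat_lit 4658292336) (nat_lit 16) (nat_lit 5) (nat_lit 17) (nat_lit 5) (nat_lit 18) (nat_lit 4) (nat_lit 360) (nat_lit 250) (nat_lit 170)) (XT.lf (nat_lit 0) (nat_lit 26035067810) (nat_lit 76) (nat_lit 2919357344) (nat_lit 152) (nat_lit 1538592038) (nat_lit 16) (nat_lit 5) (nat_lit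 17) (nat_lit 5) (nat_lit 18) (nat_lit 4) (nat_lit 361) (nat_lit 250) (nat_lit 169))))) (XT.nd (nat_lit 234) (nat_lit 76) (nat_lit 0) (XT.nd (nat_lit 78) (nat_lit 0) (nat_lit 0) (XT.lf (nat_lit 0) (nat_lit 1660298431) (nat_lit 228) (nat_lit 28511306205) (nat_lit 76) (nat_lit 1106699622) (nat_lit 13) (nat_lit 5) (nat_lit 16) (nat_lit 5) (nat_lit 14) (nat_lit 4) (nat_lit 362) (nat_lit 250) (nat_lit 168)) (XT.nd (nat_lit 78) (nat_lit 0) (nat_lit 0) (XT.lf (nat_lit 0) (nat_lit 4979432036) (nat_lit 228) (nat_lit 21863716780) (nat_lit 76) (nat_lit 5241901285) (nat_lit 13) (nat_lit 5) (nat_lit 16) (nat_lit 5) (nat_lit 14) (nat_lit 4) (nat_lit 363) (nat_lit 250) (nat_lit 167)) (XT.lf (nat_lit 0) (nat_lit 8379531702) (nat_lit 228) (nat_lit 15049137559) (nat_lit 76) (nat_lit 9487900103) (nat_lit 13) (nat_lit 5) (nat_lit 16) (nat_lit 5) (nat_lit 14) (nat_lit 4) (nat_lit 364) (nat_lit 250) (nat_lit 166))))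 (XT.nd (nat_lit 78) (nat_lit 76) (nat_lit 0) (XT.lf (nat_lit 0) (nat_lit 11863568388) (nat_lit 228) (nat_lit 8061614057) (nat_lit 76) (nat_lit 13848406172) (nat_lit 13) (nat_lit 5) (nat_lit 16) (nat_lit 5) (nat_lit 14) (nat_lit 4) (nat_lit 365) (nat_lit 250) (nat_lit 165)) (XT.nd (nat_lit 78) (nat_lit 76) (nat_lit 0) (XT.lf (nat_lit 0) (nat_lit 15434586400) (nat_lit 228) (nat_lit 895040670) (nat_lit 76) (nat_lit 18327229644) (nat_lit 13) (nat_lit 5) (nat_lit 16) (nat_lit 5) (nat_lit 14) (nat_lit 4) (nat_lit 366) (nat_lit 250) (nat_lit 164)) (XT.lf (nat_lit 0) (nat_lit 6585348524) (nat_lit 76) (nat_lit 12573659917) (nat_lit 152) (nat_lit 16406237926) (nat_lit 12) (nat_lit 5) (nat_lit 13) (nat_lit 5) (nat_lit 14) (nat_lit 4) (nat_lit 367) (nat_lit 250) (nat_lit 163)))))) (XT.nd (nat_lit 468) (nat_lit 76) (nat_lit 0) (XT.nd (nat_lit 234) (nat_lit 152) (nat_lit 0) (XT.nd (nat_lit 78) (nat_lit 0) (nat_lit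 0) (XT.lf (nat_lit 0) (nat_lit 14279102621) (nat_lit 76) (nat_lit 8708283202) (nat_lit 152) (nat_lit 13513746585) (nat_lit 12) (nat_lit 5) (nat_lit 13) (nat_lit 5) (nat_lit 14) (nat_lit 4) (nat_lit 368) (nat_lit 250) (nat_lit 162)) (XT.nd (nat_lit 78) (nat_lit 0) (nat_lit 0) (XT.lf (nat_lit 0) (nat_lit 22175131253) (nat_lit 76) (nat_lit 4739157569) (nat_lit 152) (nat_lit 10551307027) (nat_lit 12) (nat_lit 5) (nat_lit 13) (nat_lit 5) (nat_lit 14) (nat_lit 4) (nat_lit 369) (nat_lit 250) (nat_lit 161)) (XT.lf (nat_lit 0) (nat_lit 30280333863) (nat_lit 76) (nat_lit 662814850) (nat_lit 152) (nat_lit 7516330712) (nat_lit 12) (nat_lit 5) (nat_lit 13) (nat_lit 5) (nat_lit 14) (nat_lit 4) (nat_lit 370) (nat_lit 250) (nat_lit 160)))) (XT.nd (nat_lit 78) (nat_lit 152) (nat_lit 0) (XT.lf (nat_lit 0) (nat_lit 35111363650) (nat_lit 152) (nat_lit 915736704) (nat_lit 0) (nat_lit 3455534889) (nat_lit 12) (nat_lit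 5) (nat_lit 14) (nat_lit 4) (nat_lit 12) (nat_lit 4) (nat_lit 371) (nat_lit 250) (nat_lit 159)) (XT.nd (nat_lit 78) (nat_lit 76) (nat_lit 0) (XT.lf (nat_lit 0) (nat_lit 6662555061) (nat_lit 76) (nat_lit 32797629288) (nat_lit 76) (nat_lit 1074644716) (nat_lit 11) (nat_lit 4) (nat_lit 12) (nat_lit 5) (nat_lit 12) (nat_lit 4) (nat_lit 372) (nat_lit 250) (nat_lit 158)) (XT.lf (nat_lit 0) (nat_lit 2269912749) (nat_lit 152) (nat_lit 27180261506) (nat_lit 76) (nat_lit 12167925070) (nat_lit 10) (nat_lit 5) (nat_lit 12) (nat_lit 5) (nat_lit 11) (nat_lit 4) (nat_lit 373) (nat_lit 250) (nat_lit 157))))) (XT.nd (nat_lit 234) (nat_lit 76) (nat_lit 0) (XT.nd (nat_lit 78) (nat_lit 0) (nat_lit 0) (XT.lf (nat_lit 0) (nat_lit 5678626895) (nat_lit 152) (nat_lit 20323872581) (nat_lit 76) (nat_lit 16731495688) (nat_lit 10) (nat_lit 5) (nat_lit 12) (nat_lit 5) (nat_lit 11) (nat_lit 4) (nat_lit 374) (nat_lit 250) (nat_lit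 156)) (XT.nd (nat_lit 78) (nat_lit 0) (nat_lit 0) (XT.lf (nat_lit 0) (nat_lit 9175446399) (nat_lit 152) (nat_lit 13286786067) (nat_lit 76) (nat_lit 21421569077) (nat_lit 10) (nat_lit 5) (nat_lit 12) (nat_lit 5) (nat_lit 11) (nat_lit 4) (nat_lit 375) (nat_lit 250) (nat_lit 155)) (XT.lf (nat_lit 0) (nat_lit 12763426735) (nat_lit 152) (nat_lit 6062853054) (nat_lit 76) (nat_lit 26242243358) (nat_lit 10) (nat_lit 5) (nat_lit 12) (nat_lit 5) (nat_lit 11) (nat_lit 4) (nat_lit 376) (nat_lit 250) (nat_lit 154)))) (XT.nd (nat_lit 78) (nat_lit 0) (nat_lit 0) (XT.lf (nat_lit 0) (nat_lit 1381190636) (nat_lit 76) (nat_lit 15077789243) (nat_lit 152) (nat_lit 29829816985) (nat_lit 9) (nat_lit 5) (nat_lit 10) (nat_lit 5) (nat_lit 11) (nat_lit 4) (nat_lit 377) (nat_lit 250) (nat_lit 153)) (XT.nd (nat_lit 78) (nat_lit 0) (nat_lit 0) (XT.lf (nat_lit 0) (nat_lit 9149509838) (nat_lit 76) (nat_lit 11163933654) (nat_lit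 152) (nat_lit 27230802202) (nat_lit 9) (nat_lit 5) (nat_lit 10) (nat_lit 5) (nat_lit 11) (nat_lit 4) (nat_lit 378) (nat_lit 250) (nat_lit 152)) (XT.lf (nat_lit 0) (nat_lit 17128229739) (nat_lit 76) (nat_lit 7142516078) (nat_lit 152) (nat_lit 24567004010) (nat_lit 9) (nat_lit 5) (nat_lit 10) (nat_lit 5) (nat_lit 11) (nat_lit 4) (nat_lit 379) (nat_lit 250) (nat_lit 151))))))))
noncomputable def xc83 : XT := (XT.nd (nat_lit 32760) (nat_lit 0) (nat_lit 7296) (XT.nd (nat_lit 858) (nat_lit 152) (nat_lit 0) (XT.nd (nat_lit 390) (nat_lit 76) (nat_lit 0) (XT.nd (nat_lit 156) (nat_lit 76) (nat_lit 0) (XT.nd (nat_lit 78) (nat_lit 0) (nat_lit 0) (XT.lf (nat_lit 0) (nat_lit 25324322037) (nat_lit 76) (nat_lit 3010022655) (nat_lit 152) (nat_lit 21836094817) (nat_lit 9) (nat_lit 5) (nat_lit 10) (nat_lit 5) (nat_lit 11) (nat_lit 4) (nat_lit 380) (nat_lit 250) (nat_lit 150)) (XT.lf (nat_lit 0) (nat_lit 32519683148)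 (nat_lit 152) (nat_lit 17810423174) (nat_lit 0) (nat_lit 1213016132) (nat_lit 9) (nat_lit 5) (nat_lit 11) (nat_lit 4) (nat_lit 9) (nat_lit 4) (nat_lit 381) (nat_lit 250) (nat_lit 149))) (XT.nd (nat_lit 78) (nat_lit 76) (nat_lit 0) (XT.lf (nat_lit 0) (nat_lit 36848587862) (nat_lit 152) (nat_lit 10614459086) (nat_lit 0) (nat_lit 5493406060) (nat_lit 9) (nat_lit 5) (nat_lit 11) (nat_lit 4) (nat_lit 9) (nat_lit 4) (nat_lit 382) (nat_lit 250) (nat_lit 148)) (XT.nd (nat_lit 78) (nat_lit 76) (nat_lit 0) (XT.lf (nat_lit 0) (nat_lit 41295907193) (nat_lit 152) (nat_lit 3223003293) (nat_lit 0) (nat_lit 9893623658) (nat_lit 9) (nat_lit 5) (nat_lit 11) (nat_lit 4) (nat_lit 9) (nat_lit 4) (nat_lit 383) (nat_lit 250) (nat_lit 147)) (XT.lf (nat_lit 0) (nat_lit 4457382341) (nat_lit 76) (nat_lit 41450991895) (nat_lit 76) (nat_lit 10002978520) (nat_lit 8) (nat_lit 4) (nat_lit 9) (nat_lit 5) (nat_lit 9) (nat_lit 4)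 (nat_lit 384) (nat_lit 250) (nat_lit 146))))) (XT.nd (nat_lit 234) (nat_lit 76) (nat_lit 0) (XT.nd (nat_lit 78) (nat_lit 0) (nat_lit 0) (XT.lf (nat_lit 0) (nat_lit 12414648590) (nat_lit 76) (nat_lit 38266129210) (nat_lit 76) (nat_lit 6773717934) (nat_lit 8) (nat_lit 4) (nat_lit 9) (nat_lit 5) (nat_lit 9) (nat_lit 4) (nat_lit 385) (nat_lit 250) (nat_lit 145)) (XT.nd (nat_lit 78) (nat_lit 0) (nat_lit 0) (XT.lf (nat_lit 0) (nat_lit 20591604318) (nat_lit 76) (nat_lit 34994085557) (nat_lit 76) (nat_lit 3458569521) (nat_lit 8) (nat_lit 4) (nat_lit 9) (nat_lit 5) (nat_lit 9) (nat_lit 4) (nat_lit 386) (nat_lit 250) (nat_lit 144)) (XT.lf (nat_lit 0) (nat_lit 28995394440) (nat_lit 76) (nat_lit 31632001869) (nat_lit 76) (nat_lit 54636552) (nat_lit 8) (nat_lit 4) (nat_lit 9) (nat_lit 5) (nat_lit 9) (nat_lit 4) (nat_lit 387) (nat_lit 250) (nat_lit 143)))) (XT.nd (nat_lit 78) (nat_lit 0) (nat_lit 0) (XT.lf (nat_lit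 0) (nat_lit 3373907901) (nat_lit 152) (nat_lit 24768962646) (nat_lit 76) (nat_lit 34225384317) (nat_lit 7) (nat_lit 5) (nat_lit 9) (nat_lit 5) (nat_lit 8) (nat_lit 4) (nat_lit 388) (nat_lit 250) (nat_lit 142)) (XT.nd (nat_lit 78) (nat_lit 0) (nat_lit 0) (XT.lf (nat_lit 0) (nat_lit 6894349405) (nat_lit 152) (nat_lit 17661913354) (nat_lit 76) (nat_lit 39549086138) (nat_lit 7) (nat_lit 5) (nat_lit 9) (nat_lit 5) (nat_lit 8) (nat_lit 4) (nat_lit 389) (nat_lit 250) (nat_lit 141)) (XT.lf (nat_lit 0) (nat_lit 10510830228) (nat_lit 152) (nat_lit 10358755304) (nat_lit 76) (nat_lit 45025263035) (nat_lit 7) (nat_lit 5) (nat_lit 9) (nat_lit 5) (nat_lit 8) (nat_lit 4) (nat_lit 390) (nat_lit 250) (nat_lit 140)))))) (XT.nd (nat_lit 468) (nat_lit 76) (nat_lit 0) (XT.nd (nat_lit 234) (nat_lit 0) (nat_lit 0) (XT.nd (nat_lit 78) (nat_lit 76) (nat_lit 0) (XT.lf (nat_lit 0) (nat_lit 14226510402) (nat_lit 152) (nat_lit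 2853107094) (nat_lit 76) (nat_lit 50658700017) (nat_lit 7) (nat_lit 5) (nat_lit 9) (nat_lit 5) (nat_lit 8) (nat_lit 4) (nat_lit 391) (nat_lit 250) (nat_lit 139)) (XT.nd (nat_lit 78) (nat_lit 0) (nat_lit 0) (XT.lf (nat_lit 0) (nat_lit 4958344773) (nat_lit 76) (nat_lit 13133954508) (nat_lit 152) (nat_lit 51543637374) (nat_lit 6) (nat_lit 5) (nat_lit 7) (nat_lit 5) (nat_lit 8) (nat_lit 4) (nat_lit 392) (nat_lit 250) (nat_lit 138)) (XT.lf (nat_lit 0) (nat_lit 13046663191) (nat_lit 76) (nat_lit 9047294480) (nat_lit 152) (nat_lit 49495934947) (nat_lit 6) (nat_lit 5) (nat_lit 7) (nat_lit 5) (nat_lit 8) (nat_lit 4) (nat_lit 393) (nat_lit 250) (nat_lit 137)))) (XT.nd (nat_lit 78) (nat_lit 0) (nat_lit 0) (XT.lf (nat_lit 0) (nat_lit 21362133195) (nat_lit 76) (nat_lit 4844877333) (nat_lit 152) (nat_lit 47395721364) (nat_lit 6) (nat_lit 5) (nat_lit 7) (nat_lit 5) (nat_lit 8) (nat_lit 4) (nat_lit 394) (nat_lit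 250) (nat_lit 136)) (XT.nd (nat_lit 78) (nat_lit 0) (nat_lit 0) (XT.lf (nat_lit 0) (nat_lit 29912020730) (nat_lit 76) (nat_lit 523031051) (nat_lit 152) (nat_lit 45241161487) (nat_lit 6) (nat_lit 5) (nat_lit 7) (nat_lit 5) (nat_lit 8) (nat_lit 4) (nat_lit 395) (nat_lit 250) (nat_lit 135)) (XT.lf (nat_lit 0) (nat_lit 34819476698) (nat_lit 152) (nat_lit 39146052818) (nat_lit 0) (nat_lit 3845487985) (nat_lit 6) (nat_lit 5) (nat_lit 8) (nat_lit 4) (nat_lit 6) (nat_lit 4) (nat_lit 396) (nat_lit 250) (nat_lit 134))))) (XT.nd (nat_lit 234) (nat_lit 76) (nat_lit 0) (XT.nd (nat_lit 78) (nat_lit 0) (nat_lit 0) (XT.lf (nat_lit 0) (nat_lit 39332631882) (nat_lit 152) (nat_lit 32348912246) (nat_lit 0) (nat_lit 8328410357) (nat_lit 6) (nat_lit 5) (nat_lit 8) (nat_lit 4) (nat_lit 6) (nat_lit 4) (nat_lit 397) (nat_lit 250) (nat_lit 133)) (XT.nd (nat_lit 78) (nat_lit 0) (nat_lit 0) (XT.lf (nat_lit 0) (nat_lit 43973433171)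 (nat_lit 152) (nat_lit 25361803880) (nat_lit 0) (nat_lit 12939859404) (nat_lit 6) (nat_lit 5) (nat_lit 8) (nat_lit 4) (nat_lit 6) (nat_lit 4) (nat_lit 398) (nat_lit 250) (nat_lit 132)) (XT.lf (nat_lit 0) (nat_lit 48745935636) (nat_lit 152) (nat_lit 18178622480) (nat_lit 0) (nat_lit 17683864544) (nat_lit 6) (nat_lit 5) (nat_lit 8) (nat_lit 4) (nat_lit 6) (nat_lit 4) (nat_lit 399) (nat_lit 250) (nat_lit 131)))) (XT.nd (nat_lit 156) (nat_lit 76) (nat_lit 0) (XT.lf (nat_lit 0) (nat_lit 53654309423) (nat_lit 152) (nat_lit 10793091479) (nat_lit 0) (nat_lit 22564571027) (nat_lit 6) (nat_lit 5) (nat_lit 8) (nat_lit 4) (nat_lit 6) (nat_lit 4) (nat_lit 400) (nat_lit 250) (nat_lit 130)) (XT.nd (nat_lit 30966) (nat_lit 0) (nat_lit 17480) (XT.lf (nat_lit 0) (nat_lit 4702783526) (nat_lit 76) (nat_lit 59238371422) (nat_lit 76) (nat_lit 28095692477) (nat_lit 5) (nat_lit 4) (nat_lit 6) (nat_lit 5) (nat_lit 6) (nat_lit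 4) (nat_lit 402) (nat_lit 250) (nat_lit 128)) (XT.lf (nat_lit 0) (nat_lit 1523146187) (nat_lit 684) (nat_lit 943345582) (nat_lit 684) (nat_lit 943345582) (nat_lit 235) (nat_lit 4) (nat_lit 244) (nat_lit 5) (nat_lit 244) (nat_lit 4) (nat_lit 278) (nat_lit 251) (nat_lit 251))))))) (XT.nd (nat_lit 936) (nat_lit 3648) (nat_lit 0) (XT.nd (nat_lit 468) (nat_lit 2812) (nat_lit 0) (XT.nd (nat_lit 234) (nat_lit 1976) (nat_lit 0) (XT.nd (nat_lit 78) (nat_lit 912) (nat_lit 0) (XT.lf (nat_lit 0) (nat_lit 293316667) (nat_lit 760) (nat_lit 784845468) (nat_lit 836) (nat_lit 5786377674) (nat_lit 224) (nat_lit 5) (nat_lit 234) (nat_lit 5) (nat_lit 235) (nat_lit 4) (nat_lit 279) (nat_lit 251) (nat_lit 250)) (XT.nd (nat_lit 78) (nat_lit 912) (nat_lit 0) (XT.lf (nat_lit 0) (nat_lit 4040656421) (nat_lit 836) (nat_lit 2457447601) (nat_lit 0) (nat_lit 413956909) (nat_lit 224) (nat_lit 5) (nat_lit 235) (nat_lit 4) (nat_lit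 224) (nat_lit 4) (nat_lit 280) (nat_lit 251) (nat_lit 249)) (XT.lf (nat_lit 0) (nat_lit 59410457) (nat_lit 912) (nat_lit 5240612286) (nat_lit 76) (nat_lit 1663272190) (nat_lit 212) (nat_lit 5) (nat_lit 224) (nat_lit 5) (nat_lit 213) (nat_lit 4) (nat_lit 281) (nat_lit 251) (nat_lit 248)))) (XT.nd (nat_lit 78) (nat_lit 1976) (nat_lit 0) (XT.lf (nat_lit 0) (nat_lit 2953806637) (nat_lit 912) (nat_lit 1048984162) (nat_lit 76) (nat_lit 3014667314) (nat_lit 212) (nat_lit 5) (nat_lit 224) (nat_lit 5) (nat_lit 213) (nat_lit 4) (nat_lit 282) (nat_lit 251) (nat_lit 247)) (XT.nd (nat_lit 78) (nat_lit 1064) (nat_lit 0) (XT.lf (nat_lit 0) (nat_lit 3250680342) (nat_lit 912) (nat_lit 2626580578) (nat_lit 988) (nat_lit 1197957438) (nat_lit 200) (nat_lit 5) (nat_lit 212) (nat_lit 5) (nat_lit 213) (nat_lit 4) (nat_lit 283) (nat_lit 251) (nat_lit 246)) (XT.lf (nat_lit 0) (nat_lit 476447089) (nat_lit 988) (nat_lit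 1170024978) (nat_lit 1064) (nat_lit 5490149275) (nat_lit 186) (nat_lit 5) (nat_lit 199) (nat_lit 5) (nat_lit 200) (nat_lit 5) (nat_lit 284) (nat_lit 251) (nat_lit 245))))) (XT.nd (nat_lit 234) (nat_lit 1672) (nat_lit 0) (XT.nd (nat_lit 78) (nat_lit 1140) (nat_lit 0) (XT.lf (nat_lit 0) (nat_lit 4507877895) (nat_lit 1064) (nat_lit 2313650768) (nat_lit 76) (nat_lit 379528966) (nat_lit 186) (nat_lit 5) (nat_lit 200) (nat_lit 5) (nat_lit 187) (nat_lit 4) (nat_lit 285) (nat_lit 251) (nat_lit 244)) (XT.nd (nat_lit 78) (nat_lit 0) (nat_lit 0) (XT.lf (nat_lit 0) (nat_lit 131250973) (nat_lit 1140) (nat_lit 5159540174) (nat_lit 76) (nat_lit 1978371412) (nat_lit 171) (nat_lit 5) (nat_lit 186) (nat_lit 5) (nat_lit 172) (nat_lit 5) (nat_lit 286) (nat_lit 251) (nat_lit 243)) (XT.lf (nat_lit 0) (nat_lit 2926589557) (nat_lit 1140) (nat_lit 735467865) (nat_lit 76) (nat_lit 3678444225) (nat_lit 171) (nat_lit 5) (nat_lit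 186) (nat_lit 5) (nat_lit 172) (nat_lit 5) (nat_lit 287) (nat_lit 251) (nat_lit 242)))) (XT.nd (nat_lit 78) (nat_lit 608) (nat_lit 0) (XT.lf (nat_lit 0) (nat_lit 3815209092) (nat_lit 1064) (nat_lit 1946389778) (nat_lit 1140) (nat_lit 1653902013) (nat_lit 157) (nat_lit 5) (nat_lit 171) (nat_lit 5) (nat_lit 172) (nat_lit 5) (nat_lit 288) (nat_lit 251) (nat_lit 241)) (XT.nd (nat_lit 78) (nat_lit 0) (nat_lit 0) (XT.lf (nat_lit 0) (nat_lit 950443666) (nat_lit 532) (nat_lit 151656363) (nat_lit 608) (nat_lit 6392398605) (nat_lit 149) (nat_lit 5) (nat_lit 156) (nat_lit 5) (nat_lit 157) (nat_lit 5) (nat_lit 289) (nat_lit 251) (nat_lit 240)) (XT.lf (nat_lit 0) (nat_lit 3881864026) (nat_lit 608) (nat_lit 1979594184) (nat_lit 76) (nat_lit 1714864945) (nat_lit 149) (nat_lit 5) (nat_lit 157) (nat_lit 5) (nat_lit 150) (nat_lit 5) (nat_lit 290) (nat_lit 251) (nat_lit 239)))))) (XT.nd (nat_lit 468) (nat_lit 1444)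 (nat_lit 0) (XT.nd (nat_lit 234) (nat_lit 1064) (nat_lit 0) (XT.nd (nat_lit 78) (nat_lit 608) (nat_lit 0) (XT.lf (nat_lit 0) (nat_lit 2691979448) (nat_lit 532) (nat_lit 4004008357) (nat_lit 608) (nat_lit 966258225) (nat_lit 142) (nat_lit 5) (nat_lit 149) (nat_lit 5) (nat_lit 150) (nat_lit 5) (nat_lit 291) (nat_lit 251) (nat_lit 238)) (XT.nd (nat_lit 78) (nat_lit 532) (nat_lit 0) (XT.lf (nat_lit 0) (nat_lit 1752135611) (nat_lit 608) (nat_lit 305517929) (nat_lit 76) (nat_lit 5694394285) (nat_lit 141) (nat_lit 5) (nat_lit 149) (nat_lit 5) (nat_lit 142) (nat_lit 5) (nat_lit 292) (nat_lit 251) (nat_lit 237)) (XT.lf (nat_lit 0) (nat_lit 4498029988) (nat_lit 532) (nat_lit 4215756) (nat_lit 608) (nat_lit 3343081340) (nat_lit 134) (nat_lit 5) (nat_lit 141) (nat_lit 5) (nat_lit 142) (nat_lit 5) (nat_lit 293) (nat_lit 251) (nat_lit 236)))) (XT.nd (nat_lit 78) (nat_lit 532) (nat_lit 0) (XT.lf (nat_lit 0) (nat_lit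 1437533635) (nat_lit 532) (nat_lit 5862227022) (nat_lit 608) (nat_lit 642850395) (nat_lit 127) (nat_lit 5) (nat_lit 134) (nat_lit 5) (nat_lit 135) (nat_lit 5) (nat_lit 294) (nat_lit 251) (nat_lit 235)) (XT.nd (nat_lit 78) (nat_lit 456) (nat_lit 0) (XT.lf (nat_lit 0) (nat_lit 2059002458) (nat_lit 608) (nat_lit 1709819289) (nat_lit 76) (nat_lit 4274649422) (nat_lit 126) (nat_lit 5) (nat_lit 134) (nat_lit 5) (nat_lit 127) (nat_lit 5) (nat_lit 295) (nat_lit 251) (nat_lit 234)) (XT.lf (nat_lit 0) (nat_lit 3206261031) (nat_lit 456) (nat_lit 1583807112) (nat_lit 532) (nat_lit 3358406024) (nat_lit 120) (nat_lit 5) (nat_lit 126) (nat_lit 5) (nat_lit 127) (nat_lit 5) (nat_lit 296) (nat_lit 251) (nat_lit 233))))) (XT.nd (nat_lit 234) (nat_lit 532) (nat_lit 0) (XT.nd (nat_lit 78) (nat_lit 912) (nat_lit 0) (XT.lf (nat_lit 0) (nat_lit 7558350286) (nat_lit 532) (nat_lit 38369871) (nat_lit 76) (nat_lit 661384837)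 (nat_lit 120) (nat_lit 5) (nat_lit 127) (nat_lit 5) (nat_lit 121) (nat_lit 5) (nat_lit 297) (nat_lit 251) (nat_lit 232)) (XT.nd (nat_lit 78) (nat_lit 380) (nat_lit 0) (XT.lf (nat_lit 0) (nat_lit 1996057730) (nat_lit 532) (nat_lit 3374214373) (nat_lit 76) (nat_lit 3000377695) (nat_lit 113) (nat_lit 5) (nat_lit 120) (nat_lit 5) (nat_lit 114) (nat_lit 5) (nat_lit 298) (nat_lit 251) (nat_lit 231)) (XT.lf (nat_lit 0) (nat_lit 1642754187) (nat_lit 380) (nat_lit 3065964993) (nat_lit 456) (nat_lit 3779267456) (nat_lit 108) (nat_lit 5) (nat_lit 113) (nat_lit 5) (nat_lit 114) (nat_lit 5) (nat_lit 299) (nat_lit 251) (nat_lit 230)))) (XT.nd (nat_lit 78) (nat_lit 532) (nat_lit 0) (XT.lf (nat_lit 0) (nat_lit 6801291379) (nat_lit 380) (nat_lit 670574287) (nat_lit 456) (nat_lit 1138025834) (nat_lit 108) (nat_lit 5) (nat_lit 113) (nat_lit 5) (nat_lit 114) (nat_lit 5) (nat_lit 300) (nat_lit 251) (nat_lit 229)) (XT.nd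 (nat_lit 78) (nat_lit 0) (nat_lit 0) (XT.lf (nat_lit 0) (nat_lit 1537592568) (nat_lit 532) (nat_lit 5401556857) (nat_lit 76) (nat_lit 1796381301) (nat_lit 101) (nat_lit 5) (nat_lit 108) (nat_lit 5) (nat_lit 102) (nat_lit 5) (nat_lit 301) (nat_lit 251) (nat_lit 228)) (XT.lf (nat_lit 0) (nat_lit 4232865914) (nat_lit 532) (nat_lit 292899213) (nat_lit 76) (nat_lit 4340078988) (nat_lit 101) (nat_lit 5) (nat_lit 108) (nat_lit 5) (nat_lit 102) (nat_lit 5) (nat_lit 302) (nat_lit 251) (nat_lit 227))))))))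
noncomputable def xc84 : XT := (XT.nd (nat_lit 1794) (nat_lit 1824) (nat_lit 0) (XT.nd (nat_lit 858) (nat_lit 1672) (nat_lit 0) (XT.nd (nat_lit 390) (nat_lit 1444) (nat_lit 0) (XT.nd (nat_lit 156) (nat_lit 304) (nat_lit 0) (XT.nd (nat_lit 78) (nat_lit 456) (nat_lit 0) (XT.lf (nat_lit 0) (nat_lit 4990359366) (nat_lit 380) (nat_lit 2005614398) (nat_lit 456) (nat_lit 2004591427) (nat_lit 96) (nat_lit 5) (nat_lit 101) (nat_lit 5) (nat_lit 102) (nat_lit 5) (nat_lit 303) (nat_lit 251) (nat_lit 226)) (XT.lf (nat_lit 0) (nat_lit 648935962) (nat_lit 456) (nat_lit 7906645981) (nat_lit 76) (nat_lit 584844724) (nat_lit 90) (nat_lit 5) (nat_lit 96) (nat_lit 5) (nat_lit 91) (nat_lit 5) (nat_lit 304) (nat_lit 251) (nat_lit 225))) (XT.nd (nat_lit 78) (nat_lit 304) (nat_lit 0) (XT.lf (nat_lit 0) (nat_lit 3342776199) (nat_lit 456) (nat_lit 2683663649) (nat_lit 76) (nat_lit 3257517241) (nat_lit 90) (nat_lit 5) (nat_lit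 96) (nat_lit 5) (nat_lit 91) (nat_lit 5) (nat_lit 305) (nat_lit 251) (nat_lit 224)) (XT.nd (nat_lit 78) (nat_lit 0) (nat_lit 0) (XT.lf (nat_lit 0) (nat_lit 2672843943) (nat_lit 304) (nat_lit 3412264791) (nat_lit 380) (nat_lit 3347749957) (nat_lit 86) (nat_lit 5) (nat_lit 90) (nat_lit 5) (nat_lit 91) (nat_lit 5) (nat_lit 306) (nat_lit 251) (nat_lit 223)) (XT.lf (nat_lit 0) (nat_lit 8170476658) (nat_lit 304) (nat_lit 709291257) (nat_lit 380) (nat_lit 707450520) (nat_lit 86) (nat_lit 5) (nat_lit 90) (nat_lit 5) (nat_lit 91) (nat_lit 5) (nat_lit 307) (nat_lit 251) (nat_lit 222))))) (XT.nd (nat_lit 234) (nat_lit 684) (nat_lit 0) (XT.nd (nat_lit 78) (nat_lit 304) (nat_lit 0) (XT.lf (nat_lit 0) (nat_lit 1976286779) (nat_lit 456) (nat_lit 5693214515) (nat_lit 76) (nat_lit 2076110172) (nat_lit 80) (nat_lit 5) (nat_lit 86) (nat_lit 5) (nat_lit 81) (nat_lit 5) (nat_lit 308) (nat_lit 251) (nat_lit 221)) (XT.nd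 (nat_lit 78) (nat_lit 304) (nat_lit 0) (XT.lf (nat_lit 0) (nat_lit 4692529290) (nat_lit 456) (nat_lit 282301555) (nat_lit 76) (nat_lit 4934813864) (nat_lit 80) (nat_lit 5) (nat_lit 86) (nat_lit 5) (nat_lit 81) (nat_lit 5) (nat_lit 309) (nat_lit 251) (nat_lit 220)) (XT.lf (nat_lit 0) (nat_lit 5322511500) (nat_lit 304) (nat_lit 2165261786) (nat_lit 380) (nat_lit 2590982686) (nat_lit 76) (nat_lit 5) (nat_lit 80) (nat_lit 5) (nat_lit 81) (nat_lit 5) (nat_lit 310) (nat_lit 251) (nat_lit 219)))) (XT.nd (nat_lit 78) (nat_lit 304) (nat_lit 0) (XT.lf (nat_lit 0) (nat_lit 75740151) (nat_lit 380) (nat_lit 9471232153) (nat_lit 76) (nat_lit 707092244) (nat_lit 71) (nat_lit 5) (nat_lit 76) (nat_lit 5) (nat_lit 72) (nat_lit 5) (nat_lit 311) (nat_lit 251) (nat_lit 218)) (XT.nd (nat_lit 78) (nat_lit 304) (nat_lit 0) (XT.lf (nat_lit 0) (nat_lit 2787630552) (nat_lit 380) (nat_lit 3968649121) (nat_lit 76) (nat_lit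 3677141299) (nat_lit 71) (nat_lit 5) (nat_lit 76) (nat_lit 5) (nat_lit 72) (nat_lit 5) (nat_lit 312) (nat_lit 251) (nat_lit 217)) (XT.lf (nat_lit 0) (nat_lit 1660074901) (nat_lit 304) (nat_lit 3885594938) (nat_lit 380) (nat_lit 5073617738) (nat_lit 67) (nat_lit 5) (nat_lit 71) (nat_lit 5) (nat_lit 72) (nat_lit 5) (nat_lit 313) (nat_lit 251) (nat_lit 216)))))) (XT.nd (nat_lit 468) (nat_lit 836) (nat_lit 0) (XT.nd (nat_lit 234) (nat_lit 456) (nat_lit 0) (XT.nd (nat_lit 78) (nat_lit 380) (nat_lit 0) (XT.lf (nat_lit 0) (nat_lit 7468382838) (nat_lit 304) (nat_lit 907788867) (nat_lit 380) (nat_lit 2434937953) (nat_lit 67) (nat_lit 5) (nat_lit 71) (nat_lit 5) (nat_lit 72) (nat_lit 5) (nat_lit 314) (nat_lit 251) (nat_lit 215)) (XT.nd (nat_lit 78) (nat_lit 0) (nat_lit 0) (XT.lf (nat_lit 0) (nat_lit 271996841) (nat_lit 380) (nat_lit 8613202898) (nat_lit 76) (nat_lit 2123633666) (nat_lit 62) (nat_lit 5) (nat_lit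 67) (nat_lit 5) (nat_lit 63) (nat_lit 5) (nat_lit 315) (nat_lit 251) (nat_lit 214)) (XT.lf (nat_lit 0) (nat_lit 3005420071) (nat_lit 380) (nat_lit 2940517927) (nat_lit 76) (nat_lit 5266066093) (nat_lit 62) (nat_lit 5) (nat_lit 67) (nat_lit 5) (nat_lit 63) (nat_lit 5) (nat_lit 316) (nat_lit 251) (nat_lit 213)))) (XT.nd (nat_lit 78) (nat_lit 228) (nat_lit 0) (XT.lf (nat_lit 0) (nat_lit 2890526566) (nat_lit 228) (nat_lit 2910670991) (nat_lit 304) (nat_lit 5620724984) (nat_lit 59) (nat_lit 5) (nat_lit 62) (nat_lit 5) (nat_lit 63) (nat_lit 5) (nat_lit 317) (nat_lit 251) (nat_lit 212)) (XT.nd (nat_lit 78) (nat_lit 228) (nat_lit 0) (XT.lf (nat_lit 0) (nat_lit 8666006581) (nat_lit 304) (nat_lit 2751653268) (nat_lit 76) (nat_lit 220985298) (nat_lit 59) (nat_lit 5) (nat_lit 63) (nat_lit 5) (nat_lit 60) (nat_lit 5) (nat_lit 318) (nat_lit 251) (nat_lit 211)) (XT.lf (nat_lit 0) (nat_lit 3167661445) (nat_lit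 228) (nat_lit 8462830293) (nat_lit 304) (nat_lit 231025299) (nat_lit 56) (nat_lit 5) (nat_lit 59) (nat_lit 5) (nat_lit 60) (nat_lit 5) (nat_lit 319) (nat_lit 251) (nat_lit 210))))) (XT.nd (nat_lit 234) (nat_lit 532) (nat_lit 0) (XT.nd (nat_lit 78) (nat_lit 228) (nat_lit 0) (XT.lf (nat_lit 0) (nat_lit 2524955659) (nat_lit 304) (nat_lit 2861596564) (nat_lit 76) (nat_lit 6704349839) (nat_lit 55) (nat_lit 5) (nat_lit 59) (nat_lit 5) (nat_lit 56) (nat_lit 5) (nat_lit 320) (nat_lit 251) (nat_lit 209)) (XT.nd (nat_lit 78) (nat_lit 0) (nat_lit 0) (XT.lf (nat_lit 0) (nat_lit 3139441737) (nat_lit 228) (nat_lit 2205683392) (nat_lit 304) (nat_lit 6982444821) (nat_lit 52) (nat_lit 5) (nat_lit 55) (nat_lit 5) (nat_lit 56) (nat_lit 5) (nat_lit 321) (nat_lit 251) (nat_lit 208)) (XT.lf (nat_lit 0) (nat_lit 8245806557) (nat_lit 304) (nat_lit 3267551850) (nat_lit 76) (nat_lit 1058155181) (nat_lit 52) (nat_lit 5)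 (nat_lit 56) (nat_lit 5) (nat_lit 53) (nat_lit 5) (nat_lit 322) (nat_lit 251) (nat_lit 207)))) (XT.nd (nat_lit 78) (nat_lit 304) (nat_lit 0) (XT.lf (nat_lit 0) (nat_lit 2799673409) (nat_lit 228) (nat_lit 8440287466) (nat_lit 304) (nat_lit 1582672464) (nat_lit 49) (nat_lit 5) (nat_lit 52) (nat_lit 5) (nat_lit 53) (nat_lit 5) (nat_lit 323) (nat_lit 251) (nat_lit 206)) (XT.nd (nat_lit 78) (nat_lit 228) (nat_lit 0) (XT.lf (nat_lit 0) (nat_lit 1209592450) (nat_lit 304) (nat_lit 4040695139) (nat_lit 76) (nat_lit 7830953531) (nat_lit 48) (nat_lit 5) (nat_lit 52) (nat_lit 5) (nat_lit 49) (nat_lit 5) (nat_lit 324) (nat_lit 251) (nat_lit 205)) (XT.lf (nat_lit 0) (nat_lit 2083872662) (nat_lit 228) (nat_lit 1949066572) (nat_lit 304) (nat_lit 9314871096) (nat_lit 45) (nat_lit 5) (nat_lit 48) (nat_lit 5) (nat_lit 49) (nat_lit 5) (nat_lit 325) (nat_lit 251) (nat_lit 204))))))) (XT.nd (nat_lit 936) (nat_lit 760)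 (nat_lit 0) (XT.nd (nat_lit 468) (nat_lit 608) (nat_lit 0) (XT.nd (nat_lit 234) (nat_lit 228) (nat_lit 0) (XT.nd (nat_lit 78) (nat_lit 228) (nat_lit 0) (XT.lf (nat_lit 0) (nat_lit 6955631500) (nat_lit 304) (nat_lit 5223098521) (nat_lit 76) (nat_lit 1443252893) (nat_lit 45) (nat_lit 5) (nat_lit 49) (nat_lit 5) (nat_lit 46) (nat_lit 5) (nat_lit 326) (nat_lit 251) (nat_lit 203)) (XT.nd (nat_lit 78) (nat_lit 0) (nat_lit 0) (XT.lf (nat_lit 0) (nat_lit 937179097) (nat_lit 228) (nat_lit 9017800068) (nat_lit 304) (nat_lit 3949776590) (nat_lit 42) (nat_lit 5) (nat_lit 45) (nat_lit 5) (nat_lit 46) (nat_lit 5) (nat_lit 327) (nat_lit 251) (nat_lit 202)) (XT.lf (nat_lit 0) (nat_lit 7329152540) (nat_lit 228) (nat_lit 5729133069) (nat_lit 304) (nat_lit 1137349851) (nat_lit 42) (nat_lit 5) (nat_lit 45) (nat_lit 5) (nat_lit 46) (nat_lit 5) (nat_lit 328) (nat_lit 251) (nat_lit 201)))) (XT.nd (nat_lit 78) (nat_lit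 152) (nat_lit 0) (XT.lf (nat_lit 0) (nat_lit 1687067264) (nat_lit 304) (nat_lit 658495151) (nat_lit 76) (nat_lit 12150353790) (nat_lit 41) (nat_lit 5) (nat_lit 45) (nat_lit 5) (nat_lit 42) (nat_lit 5) (nat_lit 329) (nat_lit 251) (nat_lit 200)) (XT.nd (nat_lit 78) (nat_lit 0) (nat_lit 0) (XT.lf (nat_lit 0) (nat_lit 4603392488) (nat_lit 228) (nat_lit 9036011722) (nat_lit 76) (nat_lit 1164601655) (nat_lit 39) (nat_lit 5) (nat_lit 42) (nat_lit 5) (nat_lit 40) (nat_lit 5) (nat_lit 330) (nat_lit 251) (nat_lit 199)) (XT.lf (nat_lit 0) (nat_lit 7600536551) (nat_lit 228) (nat_lit 2801521755) (nat_lit 76) (nat_lit 4719518268) (nat_lit 39) (nat_lit 5) (nat_lit 42) (nat_lit 5) (nat_lit 40) (nat_lit 5) (nat_lit 331) (nat_lit 251) (nat_lit 198))))) (XT.nd (nat_lit 234) (nat_lit 152) (nat_lit 0) (XT.nd (nat_lit 78) (nat_lit 228) (nat_lit 0) (XT.lf (nat_lit 0) (nat_lit 3634745003) (nat_lit 228) (nat_lit 7052245969)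 (nat_lit 304) (nat_lit 4761738667) (nat_lit 36) (nat_lit 5) (nat_lit 39) (nat_lit 5) (nat_lit 40) (nat_lit 5) (nat_lit 332) (nat_lit 251) (nat_lit 197)) (XT.nd (nat_lit 78) (nat_lit 228) (nat_lit 0) (XT.lf (nat_lit 0) (nat_lit 10265894173) (nat_lit 228) (nat_lit 3593391831) (nat_lit 304) (nat_lit 1926649920) (nat_lit 36) (nat_lit 5) (nat_lit 39) (nat_lit 5) (nat_lit 40) (nat_lit 5) (nat_lit 333) (nat_lit 251) (nat_lit 196)) (XT.lf (nat_lit 0) (nat_lit 916317940) (nat_lit 152) (nat_lit 32201769) (nat_lit 228) (nat_lit 15185253709) (nat_lit 33) (nat_lit 5) (nat_lit 35) (nat_lit 5) (nat_lit 36) (nat_lit 5) (nat_lit 334) (nat_lit 251) (nat_lit 195)))) (XT.nd (nat_lit 78) (nat_lit 152) (nat_lit 0) (XT.lf (nat_lit 0) (nat_lit 3928356360) (nat_lit 228) (nat_lit 8941078216) (nat_lit 76) (nat_lit 3620358096) (nat_lit 33) (nat_lit 5) (nat_lit 36) (nat_lit 5) (nat_lit 34) (nat_lit 5) (nat_lit 335) (nat_lit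 251) (nat_lit 194)) (XT.nd (nat_lit 78) (nat_lit 152) (nat_lit 0) (XT.lf (nat_lit 0) (nat_lit 6964792790) (nat_lit 228) (nat_lit 2530175932) (nat_lit 76) (nat_lit 7362539657) (nat_lit 33) (nat_lit 5) (nat_lit 36) (nat_lit 5) (nat_lit 34) (nat_lit 5) (nat_lit 336) (nat_lit 251) (nat_lit 193)) (XT.lf (nat_lit 0) (nat_lit 4101191696) (nat_lit 152) (nat_lit 5998404121) (nat_lit 228) (nat_lit 7136472622) (nat_lit 31) (nat_lit 5) (nat_lit 33) (nat_lit 5) (nat_lit 34) (nat_lit 5) (nat_lit 337) (nat_lit 251) (nat_lit 192)))))) (XT.nd (nat_lit 468) (nat_lit 380) (nat_lit 0) (XT.nd (nat_lit 234) (nat_lit 152) (nat_lit 0) (XT.nd (nat_lit 78) (nat_lit 228) (nat_lit 0) (XT.lf (nat_lit 0) (nat_lit 10931984470) (nat_lit 152) (nat_lit 2390301106) (nat_lit 228) (nat_lit 4303914625) (nat_lit 31) (nat_lit 5) (nat_lit 33) (nat_lit 5) (nat_lit 34) (nat_lit 5) (nat_lit 338) (nat_lit 251) (nat_lit 191)) (XT.nd (nat_lit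 78) (nat_lit 228) (nat_lit 0) (XT.lf (nat_lit 0) (nat_lit 16623435498) (nat_lit 228) (nat_lit 123736285) (nat_lit 76) (nat_lit 1281440048) (nat_lit 31) (nat_lit 5) (nat_lit 34) (nat_lit 5) (nat_lit 32) (nat_lit 4) (nat_lit 339) (nat_lit 251) (nat_lit 190)) (XT.lf (nat_lit 0) (nat_lit 1608251687) (nat_lit 228) (nat_lit 11755362795) (nat_lit 76) (nat_lit 5077296079) (nat_lit 28) (nat_lit 5) (nat_lit 31) (nat_lit 5) (nat_lit 29) (nat_lit 5) (nat_lit 340) (nat_lit 251) (nat_lit 189)))) (XT.nd (nat_lit 78) (nat_lit 152) (nat_lit 0) (XT.lf (nat_lit 0) (nat_lit 4655123299) (nat_lit 228) (nat_lit 5227139520) (nat_lit 76) (nat_lit 8983786366) (nat_lit 28) (nat_lit 5) (nat_lit 31) (nat_lit 5) (nat_lit 29) (nat_lit 5) (nat_lit 341) (nat_lit 251) (nat_lit 188)) (XT.nd (nat_lit 78) (nat_lit 0) (nat_lit 0) (XT.lf (nat_lit 0) (nat_lit 1477885280) (nat_lit 152) (nat_lit 6300616812) (nat_lit 228) (nat_lit 11525912878)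 (nat_lit 26) (nat_lit 5) (nat_lit 28) (nat_lit 5) (nat_lit 29) (nat_lit 5) (nat_lit 342) (nat_lit 251) (nat_lit 187)) (XT.lf (nat_lit 0) (nat_lit 8443797476) (nat_lit 152) (nat_lit 2575855280) (nat_lit 228) (nat_lit 8735582133) (nat_lit 26) (nat_lit 5) (nat_lit 28) (nat_lit 5) (nat_lit 29) (nat_lit 5) (nat_lit 343) (nat_lit 251) (nat_lit 186))))) (XT.nd (nat_lit 234) (nat_lit 152) (nat_lit 0) (XT.nd (nat_lit 78) (nat_lit 228) (nat_lit 0) (XT.lf (nat_lit 0) (nat_lit 14342104495) (nat_lit 228) (nat_lit 4659730393) (nat_lit 76) (nat_lit 1218247058) (nat_lit 26) (nat_lit 5) (nat_lit 29) (nat_lit 5) (nat_lit 27) (nat_lit 4) (nat_lit 344) (nat_lit 251) (nat_lit 185)) (XT.nd (nat_lit 78) (nat_lit 76) (nat_lit 0) (XT.lf (nat_lit 0) (nat_lit 2162870592) (nat_lit 152) (nat_lit 15620419008) (nat_lit 228) (nat_lit 2915036845) (nat_lit 24) (nat_lit 5) (nat_lit 26) (nat_lit 5) (nat_lit 27) (nat_lit 4) (nat_lit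 345) (nat_lit 251) (nat_lit 184)) (XT.lf (nat_lit 0) (nat_lit 154480904) (nat_lit 228) (nat_lit 11951095408) (nat_lit 76) (nat_lit 9084714229) (nat_lit 23) (nat_lit 5) (nat_lit 26) (nat_lit 5) (nat_lit 24) (nat_lit 5) (nat_lit 346) (nat_lit 251) (nat_lit 183)))) (XT.nd (nat_lit 78) (nat_lit 152) (nat_lit 0) (XT.lf (nat_lit 0) (nat_lit 3231124160) (nat_lit 228) (nat_lit 5242218768) (nat_lit 76) (nat_lit 13223617702) (nat_lit 23) (nat_lit 5) (nat_lit 26) (nat_lit 5) (nat_lit 24) (nat_lit 5) (nat_lit 347) (nat_lit 251) (nat_lit 182)) (XT.nd (nat_lit 78) (nat_lit 0) (nat_lit 0) (XT.lf (nat_lit 0) (nat_lit 1657399136) (nat_lit 152) (nat_lit 4732996917) (nat_lit 228) (nat_lit 15828746055) (nat_lit 21) (nat_lit 5) (nat_lit 23) (nat_lit 5) (nat_lit 24) (nat_lit 5) (nat_lit 348) (nat_lit 251) (nat_lit 181)) (XT.lf (nat_lit 0) (nat_lit 8829019324) (nat_lit 152) (nat_lit 843097999) (nat_lit 228) (nat_lit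 13084062122) (nat_lit 21) (nat_lit 5) (nat_lit 23) (nat_lit 5) (nat_lit 24) (nat_lit 5) (nat_lit 349) (nat_lit 251) (nat_lit 180))))))))
noncomputable def xc85 : XT := (XT.nd (nat_lit 1794) (nat_lit 380) (nat_lit 0) (XT.nd (nat_lit 858) (nat_lit 380) (nat_lit 0) (XT.nd (nat_lit 390) (nat_lit 228) (nat_lit 0) (XT.nd (nat_lit 156) (nat_lit 152) (nat_lit 0) (XT.nd (nat_lit 78) (nat_lit 0) (nat_lit 0) (XT.lf (nat_lit 0) (nat_lit 13058010319) (nat_lit 228) (nat_lit 7165755025) (nat_lit 76) (nat_lit 3085410908) (nat_lit 21) (nat_lit 5) (nat_lit 24) (nat_lit 5) (nat_lit 22) (nat_lit 4) (nat_lit 350) (nat_lit 251) (nat_lit 179)) (XT.lf (nat_lit 0) (nat_lit 16529857327) (nat_lit 228) (nat_lit 250443399) (nat_lit 76) (nat_lit 7098950290) (nat_lit 21) (nat_lit 5) (nat_lit 24) (nat_lit 5) (nat_lit 22) (nat_lit 4) (nat_lit 351) (nat_lit 251) (nat_lit 178))) (XT.nd (nat_lit 78) (nat_lit 76) (nat_lit 0) (XT.lf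 (nat_lit 0) (nat_lit 6968910171) (nat_lit 76) (nat_lit 13180666884) (nat_lit 152) (nat_lit 4315558257) (nat_lit 20) (nat_lit 5) (nat_lit 21) (nat_lit 5) (nat_lit 22) (nat_lit 4) (nat_lit 352) (nat_lit 251) (nat_lit 177)) (XT.nd (nat_lit 78) (nat_lit 76) (nat_lit 0) (XT.lf (nat_lit 0) (nat_lit 14370958585) (nat_lit 76) (nat_lit 9486489407) (nat_lit 152) (nat_lit 1211779614) (nat_lit 20) (nat_lit 5) (nat_lit 21) (nat_lit 5) (nat_lit 22) (nat_lit 4) (nat_lit 353) (nat_lit 251) (nat_lit 176)) (XT.lf (nat_lit 0) (nat_lit 1923837159) (nat_lit 152) (nat_lit 3753805219) (nat_lit 76) (nat_lit 20013921194) (nat_lit 19) (nat_lit 5) (nat_lit 21) (nat_lit 5) (nat_lit 20) (nat_lit 5) (nat_lit 354) (nat_lit 251) (nat_lit 175))))) (XT.nd (nat_lit 234) (nat_lit 76) (nat_lit 0) (XT.nd (nat_lit 78) (nat_lit 0) (nat_lit 0) (XT.lf (nat_lit 0) (nat_lit 3416429595) (nat_lit 152) (nat_lit 1723696008) (nat_lit 228) (nat_lit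 21191772029) (nat_lit 17) (nat_lit 5) (nat_lit 19) (nat_lit 5) (nat_lit 20) (nat_lit 5) (nat_lit 355) (nat_lit 251) (nat_lit 174)) (XT.nd (nat_lit 78) (nat_lit 0) (nat_lit 0) (XT.lf (nat_lit 0) (nat_lit 8492016962) (nat_lit 228) (nat_lit 16171922163) (nat_lit 76) (nat_lit 2326345382) (nat_lit 17) (nat_lit 5) (nat_lit 20) (nat_lit 5) (nat_lit 18) (nat_lit 4) (nat_lit 356) (nat_lit 251) (nat_lit 173)) (XT.lf (nat_lit 0) (nat_lit 11940418851) (nat_lit 228) (nat_lit 9279431689) (nat_lit 76) (nat_lit 6448709586) (nat_lit 17) (nat_lit 5) (nat_lit 20) (nat_lit 5) (nat_lit 18) (nat_lit 4) (nat_lit 357) (nat_lit 251) (nat_lit 172)))) (XT.nd (nat_lit 78) (nat_lit 76) (nat_lit 0) (XT.lf (nat_lit 0) (nat_lit 15471775218) (nat_lit 228) (nat_lit 2215404830) (nat_lit 76) (nat_lit 10680634185) (nat_lit 17) (nat_lit 5) (nat_lit 20) (nat_lit 5) (nat_lit 18) (nat_lit 4) (nat_lit 358) (nat_lit 251) (nat_lit 171))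 (XT.nd (nat_lit 78) (nat_lit 0) (nat_lit 0) (XT.lf (nat_lit 0) (nat_lit 5126364704) (nat_lit 76) (nat_lit 14012084761) (nat_lit 152) (nat_lit 9948730028) (nat_lit 16) (nat_lit 5) (nat_lit 17) (nat_lit 5) (nat_lit 18) (nat_lit 4) (nat_lit 359) (nat_lit 251) (nat_lit 170)) (XT.lf (nat_lit 0) (nat_lit 12699924393) (nat_lit 76) (nat_lit 10217924215) (nat_lit 152) (nat_lit 6910209777) (nat_lit 16) (nat_lit 5) (nat_lit 17) (nat_lit 5) (nat_lit 18) (nat_lit 4) (nat_lit 360) (nat_lit 251) (nat_lit 169)))))) (XT.nd (nat_lit 468) (nat_lit 152) (nat_lit 0) (XT.nd (nat_lit 234) (nat_lit 0) (nat_lit 0) (XT.nd (nat_lit 78) (nat_lit 228) (nat_lit 0) (XT.lf (nat_lit 0) (nat_lit 20467801010) (nat_lit 76) (nat_lit 6323754369) (nat_lit 152) (nat_lit 3800194489) (nat_lit 16) (nat_lit 5) (nat_lit 17) (nat_lit 5) (nat_lit 18) (nat_lit 4) (nat_lit 361) (nat_lit 251) (nat_lit 168)) (XT.nd (nat_lit 78) (nat_lit 228) (nat_lit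 0) (XT.lf (nat_lit 0) (nat_lit 28436782021) (nat_lit 76) (nat_lit 2326172549) (nat_lit 152) (nat_lit 615966675) (nat_lit 16) (nat_lit 5) (nat_lit 17) (nat_lit 5) (nat_lit 18) (nat_lit 4) (nat_lit 362) (nat_lit 251) (nat_lit 167)) (XT.lf (nat_lit 0) (nat_lit 2654529496) (nat_lit 228) (nat_lit 27720302745) (nat_lit 76) (nat_lit 1812838502) (nat_lit 13) (nat_lit 5) (nat_lit 16) (nat_lit 5) (nat_lit 14) (nat_lit 4) (nat_lit 363) (nat_lit 251) (nat_lit 166)))) (XT.nd (nat_lit 78) (nat_lit 0) (nat_lit 0) (XT.lf (nat_lit 0) (nat_lit 6045729669) (nat_lit 228) (nat_lit 20921237365) (nat_lit 76) (nat_lit 6052496082) (nat_lit 13) (nat_lit 5) (nat_lit 16) (nat_lit 5) (nat_lit 14) (nat_lit 4) (nat_lit 364) (nat_lit 251) (nat_lit 165)) (XT.nd (nat_lit 78) (nat_lit 0) (nat_lit 0) (XT.lf (nat_lit 0) (nat_lit 9521126072) (nat_lit 228) (nat_lit 13948775843) (nat_lit 76) (nat_lit 10406845610) (nat_lit 13) (nat_lit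 5) (nat_lit 16) (nat_lit 5) (nat_lit 14) (nat_lit 4) (nat_lit 365) (nat_lit 251) (nat_lit 164)) (XT.lf (nat_lit 0) (nat_lit 13083755458) (nat_lit 228) (nat_lit 6796825738) (nat_lit 76) (nat_lit 14879691856) (nat_lit 13) (nat_lit 5) (nat_lit 16) (nat_lit 5) (nat_lit 14) (nat_lit 4) (nat_lit 366) (nat_lit 251) (nat_lit 163))))) (XT.nd (nat_lit 234) (nat_lit 76) (nat_lit 0) (XT.nd (nat_lit 78) (nat_lit 0) (nat_lit 0) (XT.lf (nat_lit 0) (nat_lit 551626445) (nat_lit 76) (nat_lit 16190406931) (nat_lit 152) (nat_lit 18928619260) (nat_lit 12) (nat_lit 5) (nat_lit 13) (nat_lit 5) (nat_lit 14) (nat_lit 4) (nat_lit 367) (nat_lit 251) (nat_lit 162)) (XT.nd (nat_lit 78) (nat_lit 0) (nat_lit 0) (XT.lf (nat_lit 0) (nat_lit 8231322370) (nat_lit 76) (nat_lit 12331046169) (nat_lit 152) (nat_lit 16044416846) (nat_lit 12) (nat_lit 5) (nat_lit 13) (nat_lit 5) (nat_lit 14) (nat_lit 4) (nat_lit 368) (nat_lit 251) (nat_lit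 161)) (XT.lf (nat_lit 0) (nat_lit 16113702293) (nat_lit 76) (nat_lit 8367761266) (nat_lit 152) (nat_lit 13090024791) (nat_lit 12) (nat_lit 5) (nat_lit 13) (nat_lit 5) (nat_lit 14) (nat_lit 4) (nat_lit 369) (nat_lit 251) (nat_lit 160)))) (XT.nd (nat_lit 78) (nat_lit 76) (nat_lit 0) (XT.lf (nat_lit 0) (nat_lit 24205653728) (nat_lit 76) (nat_lit 4297089158) (nat_lit 152) (nat_lit 10062861585) (nat_lit 12) (nat_lit 5) (nat_lit 13) (nat_lit 5) (nat_lit 14) (nat_lit 4) (nat_lit 370) (nat_lit 251) (nat_lit 159)) (XT.nd (nat_lit 78) (nat_lit 76) (nat_lit 0) (XT.lf (nat_lit 0) (nat_lit 32514247313) (nat_lit 76) (nat_lit 115472947) (nat_lit 152) (nat_lit 6960282136) (nat_lit 12) (nat_lit 5) (nat_lit 13) (nat_lit 5) (nat_lit 14) (nat_lit 4) (nat_lit 371) (nat_lit 251) (nat_lit 158)) (XT.lf (nat_lit 0) (nat_lit 368162079) (nat_lit 76) (nat_lit 36541566540) (nat_lit 76) (nat_lit 3734536805) (nat_lit 11) (nat_lit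 4) (nat_lit 12) (nat_lit 5) (nat_lit 12) (nat_lit 4) (nat_lit 372) (nat_lit 251) (nat_lit 157))))))) (XT.nd (nat_lit 936) (nat_lit 228) (nat_lit 0) (XT.nd (nat_lit 468) (nat_lit 0) (nat_lit 0) (XT.nd (nat_lit 234) (nat_lit 76) (nat_lit 0) (XT.nd (nat_lit 78) (nat_lit 76) (nat_lit 0) (XT.lf (nat_lit 0) (nat_lit 8153832286) (nat_lit 76) (nat_lit 33222459735) (nat_lit 76) (nat_lit 352129208) (nat_lit 11) (nat_lit 4) (nat_lit 12) (nat_lit 5) (nat_lit 12) (nat_lit 4) (nat_lit 373) (nat_lit 251) (nat_lit 156)) (XT.nd (nat_lit 78) (nat_lit 0) (nat_lit 0) (XT.lf (nat_lit 0) (nat_lit 3056482815) (nat_lit 152) (nat_lit 26727127491) (nat_lit 76) (nat_lit 13061021936) (nat_lit 10) (nat_lit 5) (nat_lit 12) (nat_lit 5) (nat_lit 11) (nat_lit 4) (nat_lit 374) (nat_lit 251) (nat_lit 155)) (XT.lf (nat_lit 0) (nat_lit 6546531997) (nat_lit 152) (nat_lit 19701994719) (nat_lit 76) (nat_lit 17746119311) (nat_lit 10)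 (nat_lit 5) (nat_lit 12) (nat_lit 5) (nat_lit 11) (nat_lit 4) (nat_lit 375) (nat_lit 251) (nat_lit 154)))) (XT.nd (nat_lit 78) (nat_lit 76) (nat_lit 0) (XT.lf (nat_lit 0) (nat_lit 10127939204) (nat_lit 152) (nat_lit 12489667280) (nat_lit 76) (nat_lit 22561962510) (nat_lit 10) (nat_lit 5) (nat_lit 12) (nat_lit 5) (nat_lit 11) (nat_lit 4) (nat_lit 376) (nat_lit 251) (nat_lit 153)) (XT.nd (nat_lit 78) (nat_lit 76) (nat_lit 0) (XT.lf (nat_lit 0) (nat_lit 13803833821) (nat_lit 152) (nat_lit 5083843142) (nat_lit 76) (nat_lit 27512759553) (nat_lit 10) (nat_lit 5) (nat_lit 12) (nat_lit 5) (nat_lit 11) (nat_lit 4) (nat_lit 377) (nat_lit 251) (nat_lit 152)) (XT.lf (nat_lit 0) (nat_lit 2572140530) (nat_lit 76) (nat_lit 15030012252) (nat_lit 152) (nat_lit 30055420836) (nat_lit 9) (nat_lit 5) (nat_lit 10) (nat_lit 5) (nat_lit 11) (nat_lit 4) (nat_lit 378) (nat_lit 251) (nat_lit 151))))) (XT.nd (nat_lit 234)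 (nat_lit 0) (nat_lit 0) (XT.nd (nat_lit 78) (nat_lit 0) (nat_lit 0) (XT.lf (nat_lit 0) (nat_lit 10540028313) (nat_lit 76) (nat_lit 11013307326) (nat_lit 152) (nat_lit 27397929513) (nat_lit 9) (nat_lit 5) (nat_lit 10) (nat_lit 5) (nat_lit 11) (nat_lit 4) (nat_lit 379) (nat_lit 251) (nat_lit 150)) (XT.nd (nat_lit 78) (nat_lit 0) (nat_lit 0) (XT.lf (nat_lit 0) (nat_lit 18725603991) (nat_lit 76) (nat_lit 6885389291) (nat_lit 152) (nat_lit 24673143494) (nat_lit 9) (nat_lit 5) (nat_lit 10) (nat_lit 5) (nat_lit 11) (nat_lit 4) (nat_lit 380) (nat_lit 251) (nat_lit 149)) (XT.lf (nat_lit 0) (nat_lit 27136020008) (nat_lit 76) (nat_lit 2642651228) (nat_lit 152) (nat_lit 21878681898) (nat_lit 9) (nat_lit 5) (nat_lit 10) (nat_lit 5) (nat_lit 11) (nat_lit 4) (nat_lit 381) (nat_lit 251) (nat_lit 148)))) (XT.nd (nat_lit 78) (nat_lit 0) (nat_lit 0) (XT.lf (nat_lit 0) (nat_lit 34076531533) (nat_lit 152) (nat_lit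 17310009223) (nat_lit 0) (nat_lit 1685077757) (nat_lit 9) (nat_lit 5) (nat_lit 11) (nat_lit 4) (nat_lit 9) (nat_lit 4) (nat_lit 382) (nat_lit 251) (nat_lit 147)) (XT.nd (nat_lit 78) (nat_lit 0) (nat_lit 0) (XT.lf (nat_lit 0) (nat_lit 38518373547) (nat_lit 152) (nat_lit 9928303882) (nat_lit 0) (nat_lit 6081189932) (nat_lit 9) (nat_lit 5) (nat_lit 11) (nat_lit 4) (nat_lit 9) (nat_lit 4) (nat_lit 383) (nat_lit 251) (nat_lit 146)) (XT.lf (nat_lit 0) (nat_lit 43082675719) (nat_lit 152) (nat_lit 2344364289) (nat_lit 0) (nat_lit 10601094202) (nat_lit 9) (nat_lit 5) (nat_lit 11) (nat_lit 4) (nat_lit 9) (nat_lit 4) (nat_lit 384) (nat_lit 251) (nat_lit 145)))))) (XT.nd (nat_lit 468) (nat_lit 76) (nat_lit 0) (XT.nd (nat_lit 234) (nat_lit 76) (nat_lit 0) (XT.nd (nat_lit 78) (nat_lit 0) (nat_lit 0) (XT.lf (nat_lit 0) (nat_lit 5556870864) (nat_lit 76) (nat_lit 42269971453) (nat_lit 76) (nat_lit 9745285177) (nat_lit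 8) (nat_lit 4) (nat_lit 9) (nat_lit 5) (nat_lit 9) (nat_lit 4) (nat_lit 385) (nat_lit 251) (nat_lit 144)) (XT.nd (nat_lit 78) (nat_lit 0) (nat_lit 0) (XT.lf (nat_lit 0) (nat_lit 13724725963) (nat_lit 76) (nat_lit 39001928428) (nat_lit 76) (nat_lit 6435392871) (nat_lit 8) (nat_lit 4) (nat_lit 9) (nat_lit 5) (nat_lit 9) (nat_lit 4) (nat_lit 386) (nat_lit 251) (nat_lit 143)) (XT.lf (nat_lit 0) (nat_lit 22119680522) (nat_lit 76) (nat_lit 35643728843) (nat_lit 76) (nat_lit 3036562917) (nat_lit 8) (nat_lit 4) (nat_lit 9) (nat_lit 5) (nat_lit 9) (nat_lit 4) (nat_lit 387) (nat_lit 251) (nat_lit 142)))) (XT.nd (nat_lit 78) (nat_lit 0) (nat_lit 0) (XT.lf (nat_lit 0) (nat_lit 445311954) (nat_lit 152) (nat_lit 31742629620) (nat_lit 76) (nat_lit 30299261205) (nat_lit 7) (nat_lit 5) (nat_lit 9) (nat_lit 5) (nat_lit 8) (nat_lit 4) (nat_lit 388) (nat_lit 251) (nat_lit 141)) (XT.nd (nat_lit 78) (nat_lit 0) (nat_lit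 0) (XT.lf (nat_lit 0) (nat_lit 3961037238) (nat_lit 152) (nat_lit 24644005313) (nat_lit 76) (nat_lit 35619398505) (nat_lit 7) (nat_lit 5) (nat_lit 9) (nat_lit 5) (nat_lit 8) (nat_lit 4) (nat_lit 389) (nat_lit 251) (nat_lit 140)) (XT.lf (nat_lit 0) (nat_lit 7572939207) (nat_lit 152) (nat_lit 17349026860) (nat_lit 76) (nat_lit 41092114702) (nat_lit 7) (nat_lit 5) (nat_lit 9) (nat_lit 5) (nat_lit 8) (nat_lit 4) (nat_lit 390) (nat_lit 251) (nat_lit 139))))) (XT.nd (nat_lit 234) (nat_lit 0) (nat_lit 0) (XT.nd (nat_lit 78) (nat_lit 76) (nat_lit 0) (XT.lf (nat_lit 0) (nat_lit 11284173892) (nat_lit 152) (nat_lit 9851320006) (nat_lit 76) (nat_lit 46722191780) (nat_lit 7) (nat_lit 5) (nat_lit 9) (nat_lit 5) (nat_lit 8) (nat_lit 4) (nat_lit 391) (nat_lit 251) (nat_lit 138)) (XT.nd (nat_lit 78) (nat_lit 76) (nat_lit 0) (XT.lf (nat_lit 0) (nat_lit 15097984119) (nat_lit 152) (nat_lit 2144333359) (nat_lit 76)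 (nat_lit 52514549225) (nat_lit 7) (nat_lit 5) (nat_lit 9) (nat_lit 5) (nat_lit 8) (nat_lit 4) (nat_lit 392) (nat_lit 251) (nat_lit 137)) (XT.lf (nat_lit 0) (nat_lit 5893674154) (nat_lit 76) (nat_lit 13180681792) (nat_lit 152) (nat_lit 52637227767) (nat_lit 6) (nat_lit 5) (nat_lit 7) (nat_lit 5) (nat_lit 8) (nat_lit 4) (nat_lit 393) (nat_lit 251) (nat_lit 136)))) (XT.nd (nat_lit 78) (nat_lit 0) (nat_lit 0) (XT.lf (nat_lit 0) (nat_lit 14201732055) (nat_lit 76) (nat_lit 8981537246) (nat_lit 152) (nat_lit 50541280250) (nat_lit 6) (nat_lit 5) (nat_lit 7) (nat_lit 5) (nat_lit 8) (nat_lit 4) (nat_lit 394) (nat_lit 251) (nat_lit 135)) (XT.nd (nat_lit 78) (nat_lit 0) (nat_lit 0) (XT.lf (nat_lit 0) (nat_lit 22744423373) (nat_lit 76) (nat_lit 4662868246) (nat_lit 152) (nat_lit 48390862185) (nat_lit 6) (nat_lit 5) (nat_lit 7) (nat_lit 5) (nat_lit 8) (nat_lit 4) (nat_lit 395) (nat_lit 251) (nat_lit 134)) (XT.lf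 (nat_lit 0) (nat_lit 31529212597) (nat_lit 76) (nat_lit 220901199) (nat_lit 152) (nat_lit 46184094565) (nat_lit 6) (nat_lit 5) (nat_lit 7) (nat_lit 5) (nat_lit 8) (nat_lit 4) (nat_lit 396) (nat_lit 251) (nat_lit 133))))))))
noncomputable def xc86 : XT := (XT.nd (nat_lit 32604) (nat_lit 0) (nat_lit 4028) (XT.nd (nat_lit 31668) (nat_lit 0) (nat_lit 9728) (XT.nd (nat_lit 31200) (nat_lit 0) (nat_lit 15656) (XT.nd (nat_lit 156) (nat_lit 0) (nat_lit 0) (XT.nd (nat_lit 78) (nat_lit 0) (nat_lit 0) (XT.lf (nat_lit 0) (nat_lit 36257328523) (nat_lit 152) (nat_lit 39612601914) (nat_lit 0) (nat_lit 4263395299) (nat_lit 6) (nat_lit 5) (nat_lit 8) (nat_lit 4) (nat_lit 6) (nat_lit 4) (nat_lit 397) (nat_lit 251) (nat_lit 132)) (XT.lf (nat_lit 0) (nat_lit 40894423969) (nat_lit 152) (nat_lit 32632163606) (nat_lit 0) (nat_lit 8871993420) (nat_lit 6) (nat_lit 5) (nat_lit 8) (nat_lit 4) (nat_lit 6) (nat_lit 4) (nat_lit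 398) (nat_lit 251) (nat_lit 131))) (XT.nd (nat_lit 78) (nat_lit 0) (nat_lit 0) (XT.lf (nat_lit 0) (nat_lit 45663328526) (nat_lit 152) (nat_lit 25455457989) (nat_lit 0) (nat_lit 13613230673) (nat_lit 6) (nat_lit 5) (nat_lit 8) (nat_lit 4) (nat_lit 6) (nat_lit 4) (nat_lit 399) (nat_lit 251) (nat_lit 130)) (XT.nd (nat_lit 156) (nat_lit 0) (nat_lit 0) (XT.lf (nat_lit 0) (nat_lit 50568209200) (nat_lit 152) (nat_lit 18076214156) (nat_lit 0) (nat_lit 18491249886) (nat_lit 6) (nat_lit 5) (nat_lit 8) (nat_lit 4) (nat_lit 6) (nat_lit 4) (nat_lit 400) (nat_lit 251) (nat_lit 129)) (XT.lf (nat_lit 0) (nat_lit 60803164726) (nat_lit 152) (nat_lit 2684137703) (nat_lit 0) (nat_lit 28674806821) (nat_lit 6) (nat_lit 5) (nat_lit 8) (nat_lit 4) (nat_lit 6) (nat_lit 4) (nat_lit 402) (nat_lit 251) (nat_lit 127))))) (XT.nd (nat_lit 234) (nat_lit 1672) (nat_lit 0) (XT.nd (nat_lit 78) (nat_lit 760) (nat_lit 0) (XT.lf (nat_lit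 0) (nat_lit 453366267) (nat_lit 684) (nat_lit 2462887587) (nat_lit 0) (nat_lit 453366267) (nat_lit 244) (nat_lit 5) (nat_lit 253) (nat_lit 4) (nat_lit 244) (nat_lit 4) (nat_lit 276) (nat_lit 252) (nat_lit 252)) (XT.nd (nat_lit 78) (nat_lit 760) (nat_lit 0) (XT.lf (nat_lit 0) (nat_lit 3861212114) (nat_lit 684) (nat_lit 1008297927) (nat_lit 0) (nat_lit 1908999071) (nat_lit 244) (nat_lit 5) (nat_lit 253) (nat_lit 4) (nat_lit 244) (nat_lit 4) (nat_lit 277) (nat_lit 252) (nat_lit 251)) (XT.lf (nat_lit 0) (nat_lit 16254759) (nat_lit 760) (nat_lit 3814568350) (nat_lit 76) (nat_lit 2990408816) (nat_lit 234) (nat_lit 5) (nat_lit 244) (nat_lit 5) (nat_lit 235) (nat_lit 4) (nat_lit 278) (nat_lit 252) (nat_lit 250)))) (XT.nd (nat_lit 78) (nat_lit 912) (nat_lit 0) (XT.lf (nat_lit 0) (nat_lit 192655416) (nat_lit 760) (nat_lit 2704078060) (nat_lit 836) (nat_lit 3970378713) (nat_lit 224) (nat_lit 5) (nat_lit 234)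 (nat_lit 5) (nat_lit 235) (nat_lit 4) (nat_lit 279) (nat_lit 252) (nat_lit 249)) (XT.nd (nat_lit 78) (nat_lit 912) (nat_lit 0) (XT.lf (nat_lit 0) (nat_lit 4319143325) (nat_lit 760) (nat_lit 1490417438) (nat_lit 836) (nat_lit 1106691185) (nat_lit 224) (nat_lit 5) (nat_lit 234) (nat_lit 5) (nat_lit 235) (nat_lit 4) (nat_lit 280) (nat_lit 252) (nat_lit 248)) (XT.lf (nat_lit 0) (nat_lit 1535916115) (nat_lit 836) (nat_lit 194765928) (nat_lit 912) (nat_lit 5238186420) (nat_lit 212) (nat_lit 5) (nat_lit 223) (nat_lit 5) (nat_lit 224) (nat_lit 5) (nat_lit 281) (nat_lit 252) (nat_lit 247)))))) (XT.nd (nat_lit 468) (nat_lit 2812) (nat_lit 0) (XT.nd (nat_lit 234) (nat_lit 1140) (nat_lit 0) (XT.nd (nat_lit 78) (nat_lit 1976) (nat_lit 0) (XT.lf (nat_lit 0) (nat_lit 4579353152) (nat_lit 912) (nat_lit 1279424895) (nat_lit 76) (nat_lit 1165743060) (nat_lit 212) (nat_lit 5) (nat_lit 224) (nat_lit 5) (nat_lit 213)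 (nat_lit 4) (nat_lit 282) (nat_lit 252) (nat_lit 246)) (XT.nd (nat_lit 78) (nat_lit 988) (nat_lit 0) (XT.lf (nat_lit 0) (nat_lit 366545080) (nat_lit 988) (nat_lit 4111273275) (nat_lit 76) (nat_lit 2605825931) (nat_lit 199) (nat_lit 5) (nat_lit 212) (nat_lit 5) (nat_lit 200) (nat_lit 5) (nat_lit 283) (nat_lit 252) (nat_lit 245)) (XT.lf (nat_lit 0) (nat_lit 132100630) (nat_lit 988) (nat_lit 3009960790) (nat_lit 1064) (nat_lit 4004114210) (nat_lit 186) (nat_lit 5) (nat_lit 199) (nat_lit 5) (nat_lit 200) (nat_lit 5) (nat_lit 284) (nat_lit 252) (nat_lit 244)))) (XT.nd (nat_lit 78) (nat_lit 1140) (nat_lit 0) (XT.lf (nat_lit 0) (nat_lit 4507902683) (nat_lit 988) (nat_lit 1450472164) (nat_lit 1064) (nat_lit 1253694428) (nat_lit 186) (nat_lit 5) (nat_lit 199) (nat_lit 5) (nat_lit 200) (nat_lit 5) (nat_lit 285) (nat_lit 252) (nat_lit 243)) (XT.nd (nat_lit 78) (nat_lit 0) (nat_lit 0) (XT.lf (nat_lit 0) (nat_lit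 1483808128) (nat_lit 1140) (nat_lit 5609689323) (nat_lit 76) (nat_lit 188125377) (nat_lit 171) (nat_lit 5) (nat_lit 186) (nat_lit 5) (nat_lit 172) (nat_lit 5) (nat_lit 286) (nat_lit 252) (nat_lit 242)) (XT.lf (nat_lit 0) (nat_lit 4239312450) (nat_lit 1140) (nat_lit 1225304695) (nat_lit 76) (nat_lit 1889635510) (nat_lit 171) (nat_lit 5) (nat_lit 186) (nat_lit 5) (nat_lit 172) (nat_lit 5) (nat_lit 287) (nat_lit 252) (nat_lit 241))))) (XT.nd (nat_lit 234) (nat_lit 1140) (nat_lit 0) (XT.nd (nat_lit 78) (nat_lit 608) (nat_lit 0) (XT.lf (nat_lit 0) (nat_lit 3276324964) (nat_lit 1064) (nat_lit 3754142676) (nat_lit 1140) (nat_lit 400192798) (nat_lit 157) (nat_lit 5) (nat_lit 171) (nat_lit 5) (nat_lit 172) (nat_lit 5) (nat_lit 288) (nat_lit 252) (nat_lit 240)) (XT.nd (nat_lit 78) (nat_lit 0) (nat_lit 0) (XT.lf (nat_lit 0) (nat_lit 333300521) (nat_lit 532) (nat_lit 1953733766) (nat_lit 608) (nat_lit 5223679265)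 (nat_lit 149) (nat_lit 5) (nat_lit 156) (nat_lit 5) (nat_lit 157) (nat_lit 5) (nat_lit 289) (nat_lit 252) (nat_lit 239)) (XT.lf (nat_lit 0) (nat_lit 4958279648) (nat_lit 532) (nat_lit 54074562) (nat_lit 608) (nat_lit 2581902222) (nat_lit 149) (nat_lit 5) (nat_lit 156) (nat_lit 5) (nat_lit 157) (nat_lit 5) (nat_lit 290) (nat_lit 252) (nat_lit 238)))) (XT.nd (nat_lit 78) (nat_lit 532) (nat_lit 0) (XT.lf (nat_lit 0) (nat_lit 99054750) (nat_lit 608) (nat_lit 5698922463) (nat_lit 76) (nat_lit 1883571734) (nat_lit 141) (nat_lit 5) (nat_lit 149) (nat_lit 5) (nat_lit 142) (nat_lit 5) (nat_lit 291) (nat_lit 252) (nat_lit 237)) (XT.nd (nat_lit 78) (nat_lit 532) (nat_lit 0) (XT.lf (nat_lit 0) (nat_lit 2762311389) (nat_lit 608) (nat_lit 1082550276) (nat_lit 76) (nat_lit 3927376712) (nat_lit 141) (nat_lit 5) (nat_lit 149) (nat_lit 5) (nat_lit 142) (nat_lit 5) (nat_lit 292) (nat_lit 252) (nat_lit 236)) (XT.lf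 (nat_lit 0) (nat_lit 3666828189) (nat_lit 532) (nat_lit 1802378050) (nat_lit 608) (nat_lit 2397683409) (nat_lit 134) (nat_lit 5) (nat_lit 141) (nat_lit 5) (nat_lit 142) (nat_lit 5) (nat_lit 293) (nat_lit 252) (nat_lit 235))))))) (XT.nd (nat_lit 936) (nat_lit 2356) (nat_lit 0) (XT.nd (nat_lit 468) (nat_lit 1368) (nat_lit 0) (XT.nd (nat_lit 234) (nat_lit 912) (nat_lit 0) (XT.nd (nat_lit 78) (nat_lit 456) (nat_lit 0) (XT.lf (nat_lit 0) (nat_lit 235528835) (nat_lit 608) (nat_lit 7422370991) (nat_lit 76) (nat_lit 308091209) (nat_lit 126) (nat_lit 5) (nat_lit 134) (nat_lit 5) (nat_lit 127) (nat_lit 5) (nat_lit 294) (nat_lit 252) (nat_lit 234)) (XT.nd (nat_lit 78) (nat_lit 456) (nat_lit 0) (XT.lf (nat_lit 0) (nat_lit 2890481382) (nat_lit 608) (nat_lit 2672325041) (nat_lit 76) (nat_lit 2504959166) (nat_lit 126) (nat_lit 5) (nat_lit 134) (nat_lit 5) (nat_lit 127) (nat_lit 5) (nat_lit 295) (nat_lit 252)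 (nat_lit 233)) (XT.lf (nat_lit 0) (nat_lit 2185949494) (nat_lit 456) (nat_lit 3392434395) (nat_lit 532) (nat_lit 2595746724) (nat_lit 120) (nat_lit 5) (nat_lit 126) (nat_lit 5) (nat_lit 127) (nat_lit 5) (nat_lit 296) (nat_lit 252) (nat_lit 232)))) (XT.nd (nat_lit 78) (nat_lit 836) (nat_lit 0) (XT.lf (nat_lit 0) (nat_lit 21996112) (nat_lit 532) (nat_lit 1116641151) (nat_lit 76) (nat_lit 7146359741) (nat_lit 119) (nat_lit 5) (nat_lit 126) (nat_lit 5) (nat_lit 120) (nat_lit 5) (nat_lit 297) (nat_lit 252) (nat_lit 231)) (XT.nd (nat_lit 78) (nat_lit 380) (nat_lit 0) (XT.lf (nat_lit 0) (nat_lit 2649949610) (nat_lit 532) (nat_lit 4535689104) (nat_lit 76) (nat_lit 1213388860) (nat_lit 113) (nat_lit 5) (nat_lit 120) (nat_lit 5) (nat_lit 114) (nat_lit 5) (nat_lit 298) (nat_lit 252) (nat_lit 230)) (XT.lf (nat_lit 0) (nat_lit 419686732) (nat_lit 380) (nat_lit 4899533500) (nat_lit 456) (nat_lit 3198505548)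 (nat_lit 108) (nat_lit 5) (nat_lit 113) (nat_lit 5) (nat_lit 114) (nat_lit 5) (nat_lit 299) (nat_lit 252) (nat_lit 229))))) (XT.nd (nat_lit 234) (nat_lit 836) (nat_lit 0) (XT.nd (nat_lit 78) (nat_lit 532) (nat_lit 0) (XT.lf (nat_lit 0) (nat_lit 5540867516) (nat_lit 380) (nat_lit 2510427531) (nat_lit 456) (nat_lit 589325654) (nat_lit 108) (nat_lit 5) (nat_lit 113) (nat_lit 5) (nat_lit 114) (nat_lit 5) (nat_lit 300) (nat_lit 252) (nat_lit 228)) (XT.nd (nat_lit 78) (nat_lit 0) (nat_lit 0) (XT.lf (nat_lit 0) (nat_lit 1992219500) (nat_lit 456) (nat_lit 22161939) (nat_lit 532) (nat_lit 6753610963) (nat_lit 101) (nat_lit 5) (nat_lit 107) (nat_lit 5) (nat_lit 108) (nat_lit 5) (nat_lit 301) (nat_lit 252) (nat_lit 227)) (XT.lf (nat_lit 0) (nat_lit 4679395405) (nat_lit 532) (nat_lit 1704359702) (nat_lit 76) (nat_lit 2515511458) (nat_lit 101) (nat_lit 5) (nat_lit 108) (nat_lit 5) (nat_lit 102) (nat_lit 5)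 (nat_lit 302) (nat_lit 252) (nat_lit 226)))) (XT.nd (nat_lit 78) (nat_lit 456) (nat_lit 0) (XT.lf (nat_lit 0) (nat_lit 3513717799) (nat_lit 380) (nat_lit 3885419864) (nat_lit 456) (nat_lit 1636202395) (nat_lit 96) (nat_lit 5) (nat_lit 101) (nat_lit 5) (nat_lit 102) (nat_lit 5) (nat_lit 303) (nat_lit 252) (nat_lit 225)) (XT.nd (nat_lit 78) (nat_lit 380) (nat_lit 0) (XT.lf (nat_lit 0) (nat_lit 963485473) (nat_lit 456) (nat_lit 336097502) (nat_lit 76) (nat_lit 7876960346) (nat_lit 95) (nat_lit 5) (nat_lit 101) (nat_lit 5) (nat_lit 96) (nat_lit 5) (nat_lit 304) (nat_lit 252) (nat_lit 224)) (XT.lf (nat_lit 0) (nat_lit 3612926355) (nat_lit 456) (nat_lit 4321025285) (nat_lit 76) (nat_lit 1387501168) (nat_lit 90) (nat_lit 5) (nat_lit 96) (nat_lit 5) (nat_lit 91) (nat_lit 5) (nat_lit 305) (nat_lit 252) (nat_lit 223)))))) (XT.nd (nat_lit 468) (nat_lit 1216) (nat_lit 0) (XT.nd (nat_lit 234) (nat_lit 380)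 (nat_lit 0) (XT.nd (nat_lit 78) (nat_lit 456) (nat_lit 0) (XT.lf (nat_lit 0) (nat_lit 966155413) (nat_lit 304) (nat_lit 5344950876) (nat_lit 380) (nat_lit 3160618410) (nat_lit 86) (nat_lit 5) (nat_lit 90) (nat_lit 5) (nat_lit 91) (nat_lit 5) (nat_lit 306) (nat_lit 252) (nat_lit 222)) (XT.nd (nat_lit 78) (nat_lit 456) (nat_lit 0) (XT.lf (nat_lit 0) (nat_lit 6428118045) (nat_lit 304) (nat_lit 2650365840) (nat_lit 380) (nat_lit 548463388) (nat_lit 86) (nat_lit 5) (nat_lit 90) (nat_lit 5) (nat_lit 91) (nat_lit 5) (nat_lit 307) (nat_lit 252) (nat_lit 221)) (XT.lf (nat_lit 0) (nat_lit 2068647338) (nat_lit 456) (nat_lit 7570396966) (nat_lit 76) (nat_lit 148197708) (nat_lit 80) (nat_lit 5) (nat_lit 86) (nat_lit 5) (nat_lit 81) (nat_lit 5) (nat_lit 308) (nat_lit 252) (nat_lit 220)))) (XT.nd (nat_lit 78) (nat_lit 380) (nat_lit 0) (XT.lf (nat_lit 0) (nat_lit 4758461757) (nat_lit 456) (nat_lit 2195094184)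 (nat_lit 76) (nat_lit 2998552771) (nat_lit 80) (nat_lit 5) (nat_lit 86) (nat_lit 5) (nat_lit 81) (nat_lit 5) (nat_lit 309) (nat_lit 252) (nat_lit 219)) (XT.nd (nat_lit 78) (nat_lit 76) (nat_lit 0) (XT.lf (nat_lit 0) (nat_lit 3336389487) (nat_lit 304) (nat_lit 4172566103) (nat_lit 380) (nat_lit 2613646321) (nat_lit 76) (nat_lit 5) (nat_lit 80) (nat_lit 5) (nat_lit 81) (nat_lit 5) (nat_lit 310) (nat_lit 252) (nat_lit 218)) (XT.lf (nat_lit 0) (nat_lit 13465259) (nat_lit 380) (nat_lit 1289971921) (nat_lit 76) (nat_lit 8995718617) (nat_lit 75) (nat_lit 5) (nat_lit 80) (nat_lit 5) (nat_lit 76) (nat_lit 5) (nat_lit 311) (nat_lit 252) (nat_lit 217))))) (XT.nd (nat_lit 234) (nat_lit 608) (nat_lit 0) (XT.nd (nat_lit 78) (nat_lit 304) (nat_lit 0) (XT.lf (nat_lit 0) (nat_lit 2674849555) (nat_lit 380) (nat_lit 6135080607) (nat_lit 76) (nat_lit 1670133327) (nat_lit 71) (nat_lit 5) (nat_lit 76) (nat_lit 5) (nat_lit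 72) (nat_lit 5) (nat_lit 312) (nat_lit 252) (nat_lit 216)) (XT.nd (nat_lit 78) (nat_lit 304) (nat_lit 0) (XT.lf (nat_lit 0) (nat_lit 5392460634) (nat_lit 380) (nat_lit 572865380) (nat_lit 76) (nat_lit 4701851961) (nat_lit 71) (nat_lit 5) (nat_lit 76) (nat_lit 5) (nat_lit 72) (nat_lit 5) (nat_lit 313) (nat_lit 252) (nat_lit 215)) (XT.lf (nat_lit 0) (nat_lit 5190261115) (nat_lit 304) (nat_lit 3003002521) (nat_lit 380) (nat_lit 2666661400) (nat_lit 67) (nat_lit 5) (nat_lit 71) (nat_lit 5) (nat_lit 72) (nat_lit 5) (nat_lit 314) (nat_lit 252) (nat_lit 214)))) (XT.nd (nat_lit 78) (nat_lit 304) (nat_lit 0) (XT.lf (nat_lit 0) (nat_lit 11564856) (nat_lit 304) (nat_lit 11025295005) (nat_lit 380) (nat_lit 22898610) (nat_lit 63) (nat_lit 5) (nat_lit 67) (nat_lit 5) (nat_lit 68) (nat_lit 5) (nat_lit 315) (nat_lit 252) (nat_lit 213)) (XT.nd (nat_lit 78) (nat_lit 228) (nat_lit 0) (XT.lf (nat_lit 0) (nat_lit 2687604976)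 (nat_lit 380) (nat_lit 5408897205) (nat_lit 76) (nat_lit 3167165704) (nat_lit 62) (nat_lit 5) (nat_lit 67) (nat_lit 5) (nat_lit 63) (nat_lit 5) (nat_lit 316) (nat_lit 252) (nat_lit 212)) (XT.lf (nat_lit 0) (nat_lit 339742523) (nat_lit 228) (nat_lit 5096434341) (nat_lit 304) (nat_lit 6038855859) (nat_lit 59) (nat_lit 5) (nat_lit 62) (nat_lit 5) (nat_lit 63) (nat_lit 5) (nat_lit 317) (nat_lit 252) (nat_lit 211))))))))
noncomputable def xc87 : XT := (XT.nd (nat_lit 1794) (nat_lit 1140) (nat_lit 0) (XT.nd (nat_lit 858) (nat_lit 1064) (nat_lit 0) (XT.nd (nat_lit 390) (nat_lit 760) (nat_lit 0) (XT.nd (nat_lit 156) (nat_lit 304) (nat_lit 0) (XT.nd (nat_lit 78) (nat_lit 228) (nat_lit 0) (XT.lf (nat_lit 0) (nat_lit 6306129473) (nat_lit 228) (nat_lit 1970354163) (nat_lit 304) (nat_lit 3416036101) (nat_lit 59) (nat_lit 5) (nat_lit 62) (nat_lit 5) (nat_lit 63) (nat_lit 5) (nat_lit 318) (nat_lit 252) (nat_lit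 210)) (XT.lf (nat_lit 0) (nat_lit 467214477) (nat_lit 228) (nat_lit 10707077459) (nat_lit 304) (nat_lit 743128482) (nat_lit 56) (nat_lit 5) (nat_lit 59) (nat_lit 5) (nat_lit 60) (nat_lit 5) (nat_lit 319) (nat_lit 252) (nat_lit 209))) (XT.nd (nat_lit 78) (nat_lit 228) (nat_lit 0) (XT.lf (nat_lit 0) (nat_lit 2001157881) (nat_lit 304) (nat_lit 5645124232) (nat_lit 76) (nat_lit 4501348488) (nat_lit 55) (nat_lit 5) (nat_lit 59) (nat_lit 5) (nat_lit 56) (nat_lit 5) (nat_lit 320) (nat_lit 252) (nat_lit 208)) (XT.nd (nat_lit 78) (nat_lit 0) (nat_lit 0) (XT.lf (nat_lit 0) (nat_lit 268731149) (nat_lit 228) (nat_lit 4503945281) (nat_lit 304) (nat_lit 7613107656) (nat_lit 52) (nat_lit 5) (nat_lit 55) (nat_lit 5) (nat_lit 56) (nat_lit 5) (nat_lit 321) (nat_lit 252) (nat_lit 207)) (XT.lf (nat_lit 0) (nat_lit 6413076965) (nat_lit 228) (nat_lit 1229167565) (nat_lit 304) (nat_lit 4988441903) (nat_lit 52) (nat_lit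 5) (nat_lit 55) (nat_lit 5) (nat_lit 56) (nat_lit 5) (nat_lit 322) (nat_lit 252) (nat_lit 206))))) (XT.nd (nat_lit 234) (nat_lit 456) (nat_lit 0) (XT.nd (nat_lit 78) (nat_lit 304) (nat_lit 0) (XT.lf (nat_lit 0) (nat_lit 10577441516) (nat_lit 304) (nat_lit 223695248) (nat_lit 76) (nat_lit 2082462713) (nat_lit 52) (nat_lit 5) (nat_lit 56) (nat_lit 5) (nat_lit 53) (nat_lit 5) (nat_lit 323) (nat_lit 252) (nat_lit 205)) (XT.nd (nat_lit 78) (nat_lit 0) (nat_lit 0) (XT.lf (nat_lit 0) (nat_lit 477858534) (nat_lit 304) (nat_lit 7153191487) (nat_lit 76) (nat_lit 5512060024) (nat_lit 48) (nat_lit 5) (nat_lit 52) (nat_lit 5) (nat_lit 49) (nat_lit 5) (nat_lit 324) (nat_lit 252) (nat_lit 204)) (XT.lf (nat_lit 0) (nat_lit 3261609373) (nat_lit 304) (nat_lit 1099015782) (nat_lit 76) (nat_lit 9050264466) (nat_lit 48) (nat_lit 5) (nat_lit 52) (nat_lit 5) (nat_lit 49) (nat_lit 5) (nat_lit 325) (nat_lit 252) (nat_lit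 203)))) (XT.nd (nat_lit 78) (nat_lit 228) (nat_lit 0) (XT.lf (nat_lit 0) (nat_lit 5179260620) (nat_lit 228) (nat_lit 960839202) (nat_lit 304) (nat_lit 7546310268) (nat_lit 45) (nat_lit 5) (nat_lit 48) (nat_lit 5) (nat_lit 49) (nat_lit 5) (nat_lit 326) (nat_lit 252) (nat_lit 202)) (XT.nd (nat_lit 78) (nat_lit 228) (nat_lit 0) (XT.lf (nat_lit 0) (nat_lit 9102391635) (nat_lit 304) (nat_lit 2384990687) (nat_lit 76) (nat_lit 2482933482) (nat_lit 45) (nat_lit 5) (nat_lit 49) (nat_lit 5) (nat_lit 46) (nat_lit 5) (nat_lit 327) (nat_lit 252) (nat_lit 201)) (XT.lf (nat_lit 0) (nat_lit 3930734468) (nat_lit 228) (nat_lit 8233041627) (nat_lit 304) (nat_lit 2098697652) (nat_lit 42) (nat_lit 5) (nat_lit 45) (nat_lit 5) (nat_lit 46) (nat_lit 5) (nat_lit 328) (nat_lit 252) (nat_lit 200)))))) (XT.nd (nat_lit 468) (nat_lit 608) (nat_lit 0) (XT.nd (nat_lit 234) (nat_lit 228) (nat_lit 0) (XT.nd (nat_lit 78) (nat_lit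 152) (nat_lit 0) (XT.lf (nat_lit 0) (nat_lit 726281285) (nat_lit 304) (nat_lit 4142835988) (nat_lit 76) (nat_lit 9694479773) (nat_lit 41) (nat_lit 5) (nat_lit 45) (nat_lit 5) (nat_lit 42) (nat_lit 5) (nat_lit 329) (nat_lit 252) (nat_lit 199)) (XT.nd (nat_lit 78) (nat_lit 0) (nat_lit 0) (XT.lf (nat_lit 0) (nat_lit 2198020445) (nat_lit 152) (nat_lit 1381071075) (nat_lit 228) (nat_lit 11294519471) (nat_lit 39) (nat_lit 5) (nat_lit 41) (nat_lit 5) (nat_lit 42) (nat_lit 5) (nat_lit 330) (nat_lit 252) (nat_lit 198)) (XT.lf (nat_lit 0) (nat_lit 6545450841) (nat_lit 228) (nat_lit 6455502156) (nat_lit 76) (nat_lit 2191170528) (nat_lit 39) (nat_lit 5) (nat_lit 42) (nat_lit 5) (nat_lit 40) (nat_lit 5) (nat_lit 331) (nat_lit 252) (nat_lit 197)))) (XT.nd (nat_lit 78) (nat_lit 228) (nat_lit 0) (XT.lf (nat_lit 0) (nat_lit 9579966801) (nat_lit 228) (nat_lit 117033507) (nat_lit 76) (nat_lit 5823852189) (nat_lit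 39) (nat_lit 5) (nat_lit 42) (nat_lit 5) (nat_lit 40) (nat_lit 5) (nat_lit 332) (nat_lit 252) (nat_lit 196)) (XT.nd (nat_lit 78) (nat_lit 0) (nat_lit 0) (XT.lf (nat_lit 0) (nat_lit 6485178765) (nat_lit 228) (nat_lit 6249175959) (nat_lit 304) (nat_lit 3124258505) (nat_lit 36) (nat_lit 5) (nat_lit 39) (nat_lit 5) (nat_lit 40) (nat_lit 5) (nat_lit 333) (nat_lit 252) (nat_lit 195)) (XT.lf (nat_lit 0) (nat_lit 13235416058) (nat_lit 228) (nat_lit 2716108742) (nat_lit 304) (nat_lit 255971435) (nat_lit 36) (nat_lit 5) (nat_lit 39) (nat_lit 5) (nat_lit 40) (nat_lit 5) (nat_lit 334) (nat_lit 252) (nat_lit 194))))) (XT.nd (nat_lit 234) (nat_lit 380) (nat_lit 0) (XT.nd (nat_lit 78) (nat_lit 0) (nat_lit 0) (XT.lf (nat_lit 0) (nat_lit 2657321858) (nat_lit 228) (nat_lit 12961003911) (nat_lit 76) (nat_lit 947425456) (nat_lit 33) (nat_lit 5) (nat_lit 36) (nat_lit 5) (nat_lit 34) (nat_lit 5) (nat_lit 335) (nat_lit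 252) (nat_lit 193)) (XT.nd (nat_lit 78) (nat_lit 0) (nat_lit 0) (XT.lf (nat_lit 0) (nat_lit 5677921018) (nat_lit 228) (nat_lit 6575663570) (nat_lit 76) (nat_lit 4680372776) (nat_lit 33) (nat_lit 5) (nat_lit 36) (nat_lit 5) (nat_lit 34) (nat_lit 5) (nat_lit 336) (nat_lit 252) (nat_lit 192)) (XT.lf (nat_lit 0) (nat_lit 8757924892) (nat_lit 228) (nat_lit 49142382) (nat_lit 76) (nat_lit 8507108990) (nat_lit 33) (nat_lit 5) (nat_lit 36) (nat_lit 5) (nat_lit 34) (nat_lit 5) (nat_lit 337) (nat_lit 252) (nat_lit 191)))) (XT.nd (nat_lit 78) (nat_lit 228) (nat_lit 0) (XT.lf (nat_lit 0) (nat_lit 6756098248) (nat_lit 152) (nat_lit 5208870246) (nat_lit 228) (nat_lit 5739823351) (nat_lit 31) (nat_lit 5) (nat_lit 33) (nat_lit 5) (nat_lit 34) (nat_lit 5) (nat_lit 338) (nat_lit 252) (nat_lit 190)) (XT.nd (nat_lit 78) (nat_lit 228) (nat_lit 0) (XT.lf (nat_lit 0) (nat_lit 13718070995) (nat_lit 152) (nat_lit 1520761597)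 (nat_lit 228) (nat_lit 2869203472) (nat_lit 31) (nat_lit 5) (nat_lit 33) (nat_lit 5) (nat_lit 34) (nat_lit 5) (nat_lit 339) (nat_lit 252) (nat_lit 189)) (XT.lf (nat_lit 0) (nat_lit 101166896) (nat_lit 228) (nat_lit 16182367011) (nat_lit 76) (nat_lit 2239385071) (nat_lit 28) (nat_lit 5) (nat_lit 31) (nat_lit 5) (nat_lit 29) (nat_lit 5) (nat_lit 340) (nat_lit 252) (nat_lit 188))))))) (XT.nd (nat_lit 936) (nat_lit 532) (nat_lit 0) (XT.nd (nat_lit 468) (nat_lit 304) (nat_lit 0) (XT.nd (nat_lit 234) (nat_lit 152) (nat_lit 0) (XT.nd (nat_lit 78) (nat_lit 152) (nat_lit 0) (XT.lf (nat_lit 0) (nat_lit 3133700920) (nat_lit 228) (nat_lit 9677731932) (nat_lit 76) (nat_lit 6137067703) (nat_lit 28) (nat_lit 5) (nat_lit 31) (nat_lit 5) (nat_lit 29) (nat_lit 5) (nat_lit 341) (nat_lit 252) (nat_lit 187)) (XT.nd (nat_lit 78) (nat_lit 152) (nat_lit 0) (XT.lf (nat_lit 0) (nat_lit 6228953388) (nat_lit 228) (nat_lit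 3024447156) (nat_lit 76) (nat_lit 10134322036) (nat_lit 28) (nat_lit 5) (nat_lit 31) (nat_lit 5) (nat_lit 29) (nat_lit 5) (nat_lit 342) (nat_lit 252) (nat_lit 186)) (XT.lf (nat_lit 0) (nat_lit 3858595972) (nat_lit 152) (nat_lit 5568124103) (nat_lit 228) (nat_lit 10413136031) (nat_lit 26) (nat_lit 5) (nat_lit 28) (nat_lit 5) (nat_lit 29) (nat_lit 5) (nat_lit 343) (nat_lit 252) (nat_lit 185)))) (XT.nd (nat_lit 78) (nat_lit 152) (nat_lit 0) (XT.lf (nat_lit 0) (nat_lit 10965435801) (nat_lit 152) (nat_lit 1758459857) (nat_lit 228) (nat_lit 7581577526) (nat_lit 26) (nat_lit 5) (nat_lit 28) (nat_lit 5) (nat_lit 29) (nat_lit 5) (nat_lit 344) (nat_lit 252) (nat_lit 184)) (XT.nd (nat_lit 78) (nat_lit 152) (nat_lit 0) (XT.lf (nat_lit 0) (nat_lit 16114361267) (nat_lit 228) (nat_lit 2564431988) (nat_lit 76) (nat_lit 2106457407) (nat_lit 26) (nat_lit 5) (nat_lit 29) (nat_lit 5) (nat_lit 27) (nat_lit 4) (nat_lit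 345) (nat_lit 252) (nat_lit 183)) (XT.lf (nat_lit 0) (nat_lit 4440934377) (nat_lit 152) (nat_lit 15200034773) (nat_lit 228) (nat_lit 1637441923) (nat_lit 24) (nat_lit 5) (nat_lit 26) (nat_lit 5) (nat_lit 27) (nat_lit 4) (nat_lit 346) (nat_lit 252) (nat_lit 182))))) (XT.nd (nat_lit 234) (nat_lit 76) (nat_lit 0) (XT.nd (nat_lit 78) (nat_lit 152) (nat_lit 0) (XT.lf (nat_lit 0) (nat_lit 1458541606) (nat_lit 228) (nat_lit 10133976643) (nat_lit 76) (nat_lit 10193423905) (nat_lit 23) (nat_lit 5) (nat_lit 26) (nat_lit 5) (nat_lit 24) (nat_lit 5) (nat_lit 347) (nat_lit 252) (nat_lit 181)) (XT.nd (nat_lit 78) (nat_lit 152) (nat_lit 0) (XT.lf (nat_lit 0) (nat_lit 4589636793) (nat_lit 228) (nat_lit 3287202197) (nat_lit 76) (nat_lit 14432140067) (nat_lit 23) (nat_lit 5) (nat_lit 26) (nat_lit 5) (nat_lit 24) (nat_lit 5) (nat_lit 348) (nat_lit 252) (nat_lit 180)) (XT.lf (nat_lit 0) (nat_lit 3798695585) (nat_lit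 152) (nat_lit 4028351734) (nat_lit 228) (nat_lit 15020308226) (nat_lit 21) (nat_lit 5) (nat_lit 23) (nat_lit 5) (nat_lit 24) (nat_lit 5) (nat_lit 349) (nat_lit 252) (nat_lit 179)))) (XT.nd (nat_lit 78) (nat_lit 76) (nat_lit 0) (XT.lf (nat_lit 0) (nat_lit 11124544734) (nat_lit 152) (nat_lit 46415123) (nat_lit 228) (nat_lit 12230661450) (nat_lit 21) (nat_lit 5) (nat_lit 23) (nat_lit 5) (nat_lit 24) (nat_lit 5) (nat_lit 350) (nat_lit 252) (nat_lit 178)) (XT.nd (nat_lit 78) (nat_lit 76) (nat_lit 0) (XT.lf (nat_lit 0) (nat_lit 14630896598) (nat_lit 228) (nat_lit 5380730571) (nat_lit 76) (nat_lit 3960435475) (nat_lit 21) (nat_lit 5) (nat_lit 24) (nat_lit 5) (nat_lit 22) (nat_lit 4) (nat_lit 351) (nat_lit 252) (nat_lit 177)) (XT.lf (nat_lit 0) (nat_lit 1717298743) (nat_lit 76) (nat_lit 16471705689) (nat_lit 152) (nat_lit 6370799859) (nat_lit 20) (nat_lit 5) (nat_lit 21) (nat_lit 5) (nat_lit 22) (nat_lit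 4) (nat_lit 352) (nat_lit 252) (nat_lit 176)))))) (XT.nd (nat_lit 468) (nat_lit 304) (nat_lit 0) (XT.nd (nat_lit 234) (nat_lit 152) (nat_lit 0) (XT.nd (nat_lit 78) (nat_lit 76) (nat_lit 0) (XT.lf (nat_lit 0) (nat_lit 9100685524) (nat_lit 76) (nat_lit 12785204447) (nat_lit 152) (nat_lit 3278344909) (nat_lit 20) (nat_lit 5) (nat_lit 21) (nat_lit 5) (nat_lit 22) (nat_lit 4) (nat_lit 353) (nat_lit 252) (nat_lit 175)) (XT.nd (nat_lit 78) (nat_lit 76) (nat_lit 0) (XT.lf (nat_lit 0) (nat_lit 16668794186) (nat_lit 76) (nat_lit 9003237057) (nat_lit 152) (nat_lit 115433880) (nat_lit 20) (nat_lit 5) (nat_lit 21) (nat_lit 5) (nat_lit 22) (nat_lit 4) (nat_lit 354) (nat_lit 252) (nat_lit 174)) (XT.lf (nat_lit 0) (nat_lit 3059800897) (nat_lit 152) (nat_lit 2031800000) (nat_lit 76) (nat_lit 21337538751) (nat_lit 19) (nat_lit 5) (nat_lit 21) (nat_lit 5) (nat_lit 20) (nat_lit 5) (nat_lit 355) (nat_lit 252) (nat_lit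 173)))) (XT.nd (nat_lit 78) (nat_lit 0) (nat_lit 0) (XT.lf (nat_lit 0) (nat_lit 5335555394) (nat_lit 152) (nat_lit 1023079887) (nat_lit 228) (nat_lit 20730490710) (nat_lit 17) (nat_lit 5) (nat_lit 19) (nat_lit 5) (nat_lit 20) (nat_lit 5) (nat_lit 356) (nat_lit 252) (nat_lit 172)) (XT.nd (nat_lit 78) (nat_lit 0) (nat_lit 0) (XT.lf (nat_lit 0) (nat_lit 9787105372) (nat_lit 228) (nat_lit 14868604437) (nat_lit 76) (nat_lit 3112297289) (nat_lit 17) (nat_lit 5) (nat_lit 20) (nat_lit 5) (nat_lit 18) (nat_lit 4) (nat_lit 357) (nat_lit 252) (nat_lit 171)) (XT.lf (nat_lit 0) (nat_lit 13308658505) (nat_lit 228) (nat_lit 7821430765) (nat_lit 76) (nat_lit 7337473344) (nat_lit 17) (nat_lit 5) (nat_lit 20) (nat_lit 5) (nat_lit 18) (nat_lit 4) (nat_lit 358) (nat_lit 252) (nat_lit 170))))) (XT.nd (nat_lit 234) (nat_lit 228) (nat_lit 0) (XT.nd (nat_lit 78) (nat_lit 76) (nat_lit 0) (XT.lf (nat_lit 0) (nat_lit 16916537298)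 (nat_lit 228) (nat_lit 596057388) (nat_lit 76) (nat_lit 11676104153) (nat_lit 17) (nat_lit 5) (nat_lit 20) (nat_lit 5) (nat_lit 18) (nat_lit 4) (nat_lit 359) (nat_lit 252) (nat_lit 169)) (XT.nd (nat_lit 78) (nat_lit 0) (nat_lit 0) (XT.lf (nat_lit 0) (nat_lit 6949437687) (nat_lit 76) (nat_lit 13731258824) (nat_lit 152) (nat_lit 9249345312) (nat_lit 16) (nat_lit 5) (nat_lit 17) (nat_lit 5) (nat_lit 18) (nat_lit 4) (nat_lit 360) (nat_lit 252) (nat_lit 168)) (XT.lf (nat_lit 0) (nat_lit 14701584302) (nat_lit 76) (nat_lit 9843696427) (nat_lit 152) (nat_lit 6148732946) (nat_lit 16) (nat_lit 5) (nat_lit 17) (nat_lit 5) (nat_lit 18) (nat_lit 4) (nat_lit 361) (nat_lit 252) (nat_lit 167)))) (XT.nd (nat_lit 78) (nat_lit 228) (nat_lit 0) (XT.lf (nat_lit 0) (nat_lit 22655293465) (nat_lit 76) (nat_lit 5852529607) (nat_lit 152) (nat_lit 2973634184) (nat_lit 16) (nat_lit 5) (nat_lit 17) (nat_lit 5) (nat_lit 18)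 (nat_lit 4) (nat_lit 362) (nat_lit 252) (nat_lit 166)) (XT.nd (nat_lit 78) (nat_lit 152) (nat_lit 0) (XT.lf (nat_lit 0) (nat_lit 273286398) (nat_lit 152) (nat_lit 1478224881) (nat_lit 76) (nat_lit 30541468965) (nat_lit 15) (nat_lit 5) (nat_lit 17) (nat_lit 5) (nat_lit 16) (nat_lit 5) (nat_lit 363) (nat_lit 252) (nat_lit 165)) (XT.lf (nat_lit 0) (nat_lit 3624373800) (nat_lit 228) (nat_lit 27000075985) (nat_lit 76) (nat_lit 2501532162) (nat_lit 13) (nat_lit 5) (nat_lit 16) (nat_lit 5) (nat_lit 14) (nat_lit 4) (nat_lit 364) (nat_lit 252) (nat_lit 164))))))))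
noncomputable def xc88 : XT := (XT.nd (nat_lit 1794) (nat_lit 152) (nat_lit 0) (XT.nd (nat_lit 858) (nat_lit 152) (nat_lit 0) (XT.nd (nat_lit 390) (nat_lit 152) (nat_lit 0) (XT.nd (nat_lit 156) (nat_lit 76) (nat_lit 0) (XT.nd (nat_lit 78) (nat_lit 0) (nat_lit 0) (XT.lf (nat_lit 0) (nat_lit 7091381578) (nat_lit 228) (nat_lit 20042237745) (nat_lit 76) (nat_lit 6849904464) (nat_lit 13) (nat_lit 5) (nat_lit 16) (nat_lit 5) (nat_lit 14) (nat_lit 4) (nat_lit 365) (nat_lit 252) (nat_lit 163)) (XT.lf (nat_lit 0) (nat_lit 10645866668) (nat_lit 228) (nat_lit 12904485001) (nat_lit 76) (nat_lit 11316947579) (nat_lit 13) (nat_lit 5) (nat_lit 16) (nat_lit 5) (nat_lit 14) (nat_lit 4) (nat_lit 366) (nat_lit 252) (nat_lit 162))) (XT.nd (nat_lit 78) (nat_lit 76) (nat_lit 0) (XT.lf (nat_lit 0) (nat_lit 14290934932) (nat_lit 228) (nat_lit 5580580882) (nat_lit 76) (nat_lit 15906564749) (nat_lit 13) (nat_lit 5) (nat_lit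 16) (nat_lit 5) (nat_lit 14) (nat_lit 4) (nat_lit 367) (nat_lit 252) (nat_lit 161)) (XT.nd (nat_lit 78) (nat_lit 0) (nat_lit 0) (XT.lf (nat_lit 0) (nat_lit 1974401831) (nat_lit 76) (nat_lit 16074348707) (nat_lit 152) (nat_lit 18667343646) (nat_lit 12) (nat_lit 5) (nat_lit 13) (nat_lit 5) (nat_lit 14) (nat_lit 4) (nat_lit 368) (nat_lit 252) (nat_lit 160)) (XT.lf (nat_lit 0) (nat_lit 9843530578) (nat_lit 76) (nat_lit 12116734416) (nat_lit 152) (nat_lit 15720764699) (nat_lit 12) (nat_lit 5) (nat_lit 13) (nat_lit 5) (nat_lit 14) (nat_lit 4) (nat_lit 369) (nat_lit 252) (nat_lit 159))))) (XT.nd (nat_lit 234) (nat_lit 152) (nat_lit 0) (XT.nd (nat_lit 78) (nat_lit 0) (nat_lit 0) (XT.lf (nat_lit 0) (nat_lit 17922616795) (nat_lit 76) (nat_lit 8051567757) (nat_lit 152) (nat_lit 12701187037) (nat_lit 12) (nat_lit 5) (nat_lit 13) (nat_lit 5) (nat_lit 14) (nat_lit 4) (nat_lit 370) (nat_lit 252) (nat_lit 158))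 (XT.nd (nat_lit 78) (nat_lit 0) (nat_lit 0) (XT.lf (nat_lit 0) (nat_lit 26218719877) (nat_lit 76) (nat_lit 3875296641) (nat_lit 152) (nat_lit 9605972193) (nat_lit 12) (nat_lit 5) (nat_lit 13) (nat_lit 5) (nat_lit 14) (nat_lit 4) (nat_lit 371) (nat_lit 252) (nat_lit 157)) (XT.lf (nat_lit 0) (nat_lit 34327356980) (nat_lit 152) (nat_lit 6020683744) (nat_lit 0) (nat_lit 407615745) (nat_lit 12) (nat_lit 5) (nat_lit 14) (nat_lit 4) (nat_lit 12) (nat_lit 4) (nat_lit 372) (nat_lit 252) (nat_lit 156)))) (XT.nd (nat_lit 78) (nat_lit 76) (nat_lit 0) (XT.lf (nat_lit 0) (nat_lit 1632993905) (nat_lit 76) (nat_lit 37094999525) (nat_lit 76) (nat_lit 3113801210) (nat_lit 11) (nat_lit 4) (nat_lit 12) (nat_lit 5) (nat_lit 12) (nat_lit 4) (nat_lit 373) (nat_lit 252) (nat_lit 155)) (XT.nd (nat_lit 78) (nat_lit 0) (nat_lit 0) (XT.lf (nat_lit 0) (nat_lit 341930659) (nat_lit 152) (nat_lit 33346746144) (nat_lit 76) (nat_lit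 9270332663) (nat_lit 10) (nat_lit 5) (nat_lit 12) (nat_lit 5) (nat_lit 11) (nat_lit 4) (nat_lit 374) (nat_lit 252) (nat_lit 154)) (XT.lf (nat_lit 0) (nat_lit 3825406712) (nat_lit 152) (nat_lit 26333218947) (nat_lit 76) (nat_lit 13950598956) (nat_lit 10) (nat_lit 5) (nat_lit 12) (nat_lit 5) (nat_lit 11) (nat_lit 4) (nat_lit 375) (nat_lit 252) (nat_lit 153)))))) (XT.nd (nat_lit 468) (nat_lit 76) (nat_lit 0) (XT.nd (nat_lit 234) (nat_lit 76) (nat_lit 0) (XT.nd (nat_lit 78) (nat_lit 0) (nat_lit 0) (XT.lf (nat_lit 0) (nat_lit 7400432241) (nat_lit 152) (nat_lit 19132159057) (nat_lit 76) (nat_lit 18761751784) (nat_lit 10) (nat_lit 5) (nat_lit 12) (nat_lit 5) (nat_lit 11) (nat_lit 4) (nat_lit 376) (nat_lit 252) (nat_lit 152)) (XT.nd (nat_lit 78) (nat_lit 0) (nat_lit 0) (XT.lf (nat_lit 0) (nat_lit 11070131054) (nat_lit 152) (nat_lit 11737274286) (nat_lit 76) (nat_lit 23707995069) (nat_lit 10) (nat_lit 5)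 (nat_lit 12) (nat_lit 5) (nat_lit 11) (nat_lit 4) (nat_lit 377) (nat_lit 252) (nat_lit 151)) (XT.lf (nat_lit 0) (nat_lit 14837709684) (nat_lit 152) (nat_lit 4142103084) (nat_lit 76) (nat_lit 28793650771) (nat_lit 10) (nat_lit 5) (nat_lit 12) (nat_lit 5) (nat_lit 11) (nat_lit 4) (nat_lit 378) (nat_lit 252) (nat_lit 150)))) (XT.nd (nat_lit 78) (nat_lit 0) (nat_lit 0) (XT.lf (nat_lit 0) (nat_lit 3732832105) (nat_lit 76) (nat_lit 15009510351) (nat_lit 152) (nat_lit 30326212825) (nat_lit 9) (nat_lit 5) (nat_lit 10) (nat_lit 5) (nat_lit 11) (nat_lit 4) (nat_lit 379) (nat_lit 252) (nat_lit 149)) (XT.nd (nat_lit 78) (nat_lit 0) (nat_lit 0) (XT.lf (nat_lit 0) (nat_lit 11908197472) (nat_lit 76) (nat_lit 10886034440) (nat_lit 152) (nat_lit 27607371635) (nat_lit 9) (nat_lit 5) (nat_lit 10) (nat_lit 5) (nat_lit 11) (nat_lit 4) (nat_lit 380) (nat_lit 252) (nat_lit 148)) (XT.lf (nat_lit 0) (nat_lit 20308700566)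 (nat_lit 76) (nat_lit 6647609119) (nat_lit 152) (nat_lit 24818681718) (nat_lit 9) (nat_lit 5) (nat_lit 10) (nat_lit 5) (nat_lit 11) (nat_lit 4) (nat_lit 381) (nat_lit 252) (nat_lit 147))))) (XT.nd (nat_lit 234) (nat_lit 76) (nat_lit 0) (XT.nd (nat_lit 78) (nat_lit 0) (nat_lit 0) (XT.lf (nat_lit 0) (nat_lit 28941681633) (nat_lit 76) (nat_lit 2290530910) (nat_lit 152) (nat_lit 21957706354) (nat_lit 9) (nat_lit 5) (nat_lit 10) (nat_lit 5) (nat_lit 11) (nat_lit 4) (nat_lit 382) (nat_lit 252) (nat_lit 146)) (XT.nd (nat_lit 78) (nat_lit 0) (nat_lit 0) (XT.lf (nat_lit 0) (nat_lit 35646718789) (nat_lit 152) (nat_lit 16853980396) (nat_lit 0) (nat_lit 2146291925) (nat_lit 9) (nat_lit 5) (nat_lit 11) (nat_lit 4) (nat_lit 9) (nat_lit 4) (nat_lit 383) (nat_lit 252) (nat_lit 145)) (XT.lf (nat_lit 0) (nat_lit 40205858064) (nat_lit 152) (nat_lit 9279231539) (nat_lit 0) (nat_lit 6662326441) (nat_lit 9) (nat_lit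 5) (nat_lit 11) (nat_lit 4) (nat_lit 9) (nat_lit 4) (nat_lit 384) (nat_lit 252) (nat_lit 144)))) (XT.nd (nat_lit 78) (nat_lit 76) (nat_lit 0) (XT.lf (nat_lit 0) (nat_lit 44891596099) (nat_lit 152) (nat_lit 1495353994) (nat_lit 0) (nat_lit 11306215194) (nat_lit 9) (nat_lit 5) (nat_lit 11) (nat_lit 4) (nat_lit 9) (nat_lit 4) (nat_lit 385) (nat_lit 252) (nat_lit 143)) (XT.nd (nat_lit 78) (nat_lit 0) (nat_lit 0) (XT.lf (nat_lit 0) (nat_lit 6633905064) (nat_lit 76) (nat_lit 43137891316) (nat_lit 76) (nat_lit 9511880042) (nat_lit 8) (nat_lit 4) (nat_lit 9) (nat_lit 5) (nat_lit 9) (nat_lit 4) (nat_lit 386) (nat_lit 252) (nat_lit 142)) (XT.lf (nat_lit 0) (nat_lit 15020281406) (nat_lit 76) (nat_lit 39783462707) (nat_lit 76) (nat_lit 6118004472) (nat_lit 8) (nat_lit 4) (nat_lit 9) (nat_lit 5) (nat_lit 9) (nat_lit 4) (nat_lit 387) (nat_lit 252) (nat_lit 141))))))) (XT.nd (nat_lit 936) (nat_lit 0) (nat_lit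 0) (XT.nd (nat_lit 468) (nat_lit 76) (nat_lit 0) (XT.nd (nat_lit 234) (nat_lit 0) (nat_lit 0) (XT.nd (nat_lit 78) (nat_lit 76) (nat_lit 0) (XT.lf (nat_lit 0) (nat_lit 23641342456) (nat_lit 76) (nat_lit 36335833356) (nat_lit 76) (nat_lit 2632077101) (nat_lit 8) (nat_lit 4) (nat_lit 9) (nat_lit 5) (nat_lit 9) (nat_lit 4) (nat_lit 388) (nat_lit 252) (nat_lit 140)) (XT.nd (nat_lit 78) (nat_lit 0) (nat_lit 0) (XT.lf (nat_lit 0) (nat_lit 930430633) (nat_lit 152) (nat_lit 31852164613) (nat_lit 76) (nat_lit 31564795021) (nat_lit 7) (nat_lit 5) (nat_lit 9) (nat_lit 5) (nat_lit 8) (nat_lit 4) (nat_lit 389) (nat_lit 252) (nat_lit 139)) (XT.lf (nat_lit 0) (nat_lit 4537887113) (nat_lit 152) (nat_lit 24565127516) (nat_lit 76) (nat_lit 37034151314) (nat_lit 7) (nat_lit 5) (nat_lit 9) (nat_lit 5) (nat_lit 8) (nat_lit 4) (nat_lit 390) (nat_lit 252) (nat_lit 138)))) (XT.nd (nat_lit 78) (nat_lit 0) (nat_lit 0) (XT.lf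 (nat_lit 0) (nat_lit 8244805789) (nat_lit 152) (nat_lit 17075130717) (nat_lit 76) (nat_lit 42660966350) (nat_lit 7) (nat_lit 5) (nat_lit 9) (nat_lit 5) (nat_lit 8) (nat_lit 4) (nat_lit 391) (nat_lit 252) (nat_lit 137)) (XT.nd (nat_lit 78) (nat_lit 0) (nat_lit 0) (XT.lf (nat_lit 0) (nat_lit 12054425716) (nat_lit 152) (nat_lit 9375629560) (nat_lit 76) (nat_lit 48450156764) (nat_lit 7) (nat_lit 5) (nat_lit 9) (nat_lit 5) (nat_lit 8) (nat_lit 4) (nat_lit 392) (nat_lit 252) (nat_lit 136)) (XT.lf (nat_lit 0) (nat_lit 15970075689) (nat_lit 152) (nat_lit 1459896324) (nat_lit 76) (nat_lit 54406781071) (nat_lit 7) (nat_lit 5) (nat_lit 9) (nat_lit 5) (nat_lit 8) (nat_lit 4) (nat_lit 393) (nat_lit 252) (nat_lit 135))))) (XT.nd (nat_lit 234) (nat_lit 0) (nat_lit 0) (XT.nd (nat_lit 78) (nat_lit 0) (nat_lit 0) (XT.lf (nat_lit 0) (nat_lit 6811910561) (nat_lit 76) (nat_lit 13248746839) (nat_lit 152) (nat_lit 53789613780)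 (nat_lit 6) (nat_lit 5) (nat_lit 7) (nat_lit 5) (nat_lit 8) (nat_lit 4) (nat_lit 394) (nat_lit 252) (nat_lit 134)) (XT.nd (nat_lit 78) (nat_lit 0) (nat_lit 0) (XT.lf (nat_lit 0) (nat_lit 15347615261) (nat_lit 76) (nat_lit 8933162580) (nat_lit 152) (nat_lit 51643216890) (nat_lit 6) (nat_lit 5) (nat_lit 7) (nat_lit 5) (nat_lit 8) (nat_lit 4) (nat_lit 395) (nat_lit 252) (nat_lit 133)) (XT.lf (nat_lit 0) (nat_lit 24125621361) (nat_lit 76) (nat_lit 4494190426) (nat_lit 152) (nat_lit 49440353325) (nat_lit 6) (nat_lit 5) (nat_lit 7) (nat_lit 5) (nat_lit 8) (nat_lit 4) (nat_lit 396) (nat_lit 252) (nat_lit 132)))) (XT.nd (nat_lit 78) (nat_lit 0) (nat_lit 0) (XT.lf (nat_lit 0) (nat_lit 33082243200) (nat_lit 152) (nat_lit 47107742489) (nat_lit 0) (nat_lit 70642411) (nat_lit 6) (nat_lit 5) (nat_lit 8) (nat_lit 4) (nat_lit 6) (nat_lit 4) (nat_lit 397) (nat_lit 252) (nat_lit 131)) (XT.nd (nat_lit 78) (nat_lit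 0) (nat_lit 0) (XT.lf (nat_lit 0) (nat_lit 37715740738) (nat_lit 152) (nat_lit 40133779964) (nat_lit 0) (nat_lit 4676472645) (nat_lit 6) (nat_lit 5) (nat_lit 8) (nat_lit 4) (nat_lit 6) (nat_lit 4) (nat_lit 398) (nat_lit 252) (nat_lit 130)) (XT.lf (nat_lit 0) (nat_lit 42481152182) (nat_lit 152) (nat_lit 32963361516) (nat_lit 0) (nat_lit 9415022628) (nat_lit 6) (nat_lit 5) (nat_lit 8) (nat_lit 4) (nat_lit 6) (nat_lit 4) (nat_lit 399) (nat_lit 252) (nat_lit 129)))))) (XT.nd (nat_lit 31122) (nat_lit 0) (nat_lit 14668) (XT.nd (nat_lit 30888) (nat_lit 0) (nat_lit 18088) (XT.nd (nat_lit 156) (nat_lit 0) (nat_lit 0) (XT.lf (nat_lit 0) (nat_lit 47382641483) (nat_lit 152) (nat_lit 25590221731) (nat_lit 0) (nat_lit 14290432841) (nat_lit 6) (nat_lit 5) (nat_lit 8) (nat_lit 4) (nat_lit 6) (nat_lit 4) (nat_lit 400) (nat_lit 252) (nat_lit 128)) (XT.nd (nat_lit 30654) (nat_lit 0) (nat_lit 18772) (XT.lf (nat_lit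 0) (nat_lit 57611107722) (nat_lit 152) (nat_lit 10209825187) (nat_lit 0) (nat_lit 24468997535) (nat_lit 6) (nat_lit 5) (nat_lit 8) (nat_lit 4) (nat_lit 6) (nat_lit 4) (nat_lit 402) (nat_lit 252) (nat_lit 126)) (XT.lf (nat_lit 0) (nat_lit 391109984) (nat_lit 532) (nat_lit 1471558904) (nat_lit 532) (nat_lit 1471558904) (nat_lit 253) (nat_lit 4) (nat_lit 260) (nat_lit 5) (nat_lit 260) (nat_lit 4) (nat_lit 274) (nat_lit 253) (nat_lit 253)))) (XT.nd (nat_lit 78) (nat_lit 684) (nat_lit 0) (XT.lf (nat_lit 0) (nat_lit 4620227330) (nat_lit 532) (nat_lit 2076959540) (nat_lit 532) (nat_lit 5856723) (nat_lit 253) (nat_lit 4) (nat_lit 260) (nat_lit 5) (nat_lit 260) (nat_lit 4) (nat_lit 275) (nat_lit 253) (nat_lit 252)) (XT.nd (nat_lit 78) (nat_lit 0) (nat_lit 0) (XT.lf (nat_lit 0) (nat_lit 1764160641) (nat_lit 608) (nat_lit 1115663444) (nat_lit 684) (nat_lit 3860691566) (nat_lit 244) (nat_lit 5) (nat_lit 252)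 (nat_lit 5) (nat_lit 253) (nat_lit 4) (nat_lit 276) (nat_lit 253) (nat_lit 251)) (XT.lf (nat_lit 0) (nat_lit 5693983295) (nat_lit 608) (nat_lit 83395321) (nat_lit 684) (nat_lit 1004254210) (nat_lit 244) (nat_lit 5) (nat_lit 252) (nat_lit 5) (nat_lit 253) (nat_lit 4) (nat_lit 277) (nat_lit 253) (nat_lit 250))))) (XT.nd (nat_lit 234) (nat_lit 1824) (nat_lit 0) (XT.nd (nat_lit 78) (nat_lit 836) (nat_lit 0) (XT.lf (nat_lit 0) (nat_lit 1843789060) (nat_lit 760) (nat_lit 3955601183) (nat_lit 76) (nat_lit 1025991545) (nat_lit 234) (nat_lit 5) (nat_lit 244) (nat_lit 5) (nat_lit 235) (nat_lit 4) (nat_lit 278) (nat_lit 253) (nat_lit 249)) (XT.nd (nat_lit 78) (nat_lit 76) (nat_lit 0) (XT.lf (nat_lit 0) (nat_lit 9826845) (nat_lit 760) (nat_lit 4667449659) (nat_lit 836) (nat_lit 2195523913) (nat_lit 224) (nat_lit 5) (nat_lit 234) (nat_lit 5) (nat_lit 235) (nat_lit 4) (nat_lit 279) (nat_lit 253) (nat_lit 248))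 (XT.lf (nat_lit 0) (nat_lit 610284283) (nat_lit 836) (nat_lit 2830915196) (nat_lit 76) (nat_lit 3482014488) (nat_lit 223) (nat_lit 5) (nat_lit 234) (nat_lit 5) (nat_lit 224) (nat_lit 5) (nat_lit 280) (nat_lit 253) (nat_lit 247)))) (XT.nd (nat_lit 78) (nat_lit 988) (nat_lit 0) (XT.lf (nat_lit 0) (nat_lit 1248120492) (nat_lit 836) (nat_lit 2131640019) (nat_lit 912) (nat_lit 3597257582) (nat_lit 212) (nat_lit 5) (nat_lit 223) (nat_lit 5) (nat_lit 224) (nat_lit 5) (nat_lit 281) (nat_lit 253) (nat_lit 246)) (XT.nd (nat_lit 78) (nat_lit 988) (nat_lit 0) (XT.lf (nat_lit 0) (nat_lit 5431707330) (nat_lit 836) (nat_lit 742669267) (nat_lit 912) (nat_lit 860030073) (nat_lit 212) (nat_lit 5) (nat_lit 223) (nat_lit 5) (nat_lit 224) (nat_lit 5) (nat_lit 282) (nat_lit 253) (nat_lit 245)) (XT.lf (nat_lit 0) (nat_lit 1868184852) (nat_lit 988) (nat_lit 4498405365) (nat_lit 76) (nat_lit 728167228) (nat_lit 199) (nat_lit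 5) (nat_lit 212) (nat_lit 5) (nat_lit 200) (nat_lit 5) (nat_lit 283) (nat_lit 253) (nat_lit 244))))))))
noncomputable def xc89 : XT := (XT.nd (nat_lit 1794) (nat_lit 3724) (nat_lit 0) (XT.nd (nat_lit 858) (nat_lit 3268) (nat_lit 0) (XT.nd (nat_lit 390) (nat_lit 1748) (nat_lit 0) (XT.nd (nat_lit 156) (nat_lit 2204) (nat_lit 0) (XT.nd (nat_lit 78) (nat_lit 1064) (nat_lit 0) (XT.lf (nat_lit 0) (nat_lit 4601434629) (nat_lit 988) (nat_lit 295838596) (nat_lit 76) (nat_lit 2261388145) (nat_lit 199) (nat_lit 5) (nat_lit 212) (nat_lit 5) (nat_lit 200) (nat_lit 5) (nat_lit 284) (nat_lit 253) (nat_lit 243)) (XT.lf (nat_lit 0) (nat_lit 145830273) (nat_lit 1064) (nat_lit 3191157164) (nat_lit 76) (nat_lit 3888918234) (nat_lit 185) (nat_lit 5) (nat_lit 199) (nat_lit 5) (nat_lit 186) (nat_lit 5) (nat_lit 285) (nat_lit 253) (nat_lit 242))) (XT.nd (nat_lit 78) (nat_lit 1140) (nat_lit 0) (XT.lf (nat_lit 0) (nat_lit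 1126477015) (nat_lit 1064) (nat_lit 1685806434) (nat_lit 1140) (nat_lit 4484307505) (nat_lit 171) (nat_lit 5) (nat_lit 185) (nat_lit 5) (nat_lit 186) (nat_lit 5) (nat_lit 286) (nat_lit 253) (nat_lit 241)) (XT.nd (nat_lit 78) (nat_lit 1140) (nat_lit 0) (XT.lf (nat_lit 0) (nat_lit 5512908729) (nat_lit 1140) (nat_lit 1808056038) (nat_lit 76) (nat_lit 49995309) (nat_lit 171) (nat_lit 5) (nat_lit 186) (nat_lit 5) (nat_lit 172) (nat_lit 5) (nat_lit 287) (nat_lit 253) (nat_lit 240)) (XT.lf (nat_lit 0) (nat_lit 795830801) (nat_lit 1140) (nat_lit 4812747407) (nat_lit 76) (nat_lit 1839954628) (nat_lit 156) (nat_lit 5) (nat_lit 171) (nat_lit 5) (nat_lit 157) (nat_lit 5) (nat_lit 288) (nat_lit 253) (nat_lit 239))))) (XT.nd (nat_lit 234) (nat_lit 608) (nat_lit 0) (XT.nd (nat_lit 78) (nat_lit 1140) (nat_lit 0) (XT.lf (nat_lit 0) (nat_lit 3434784392) (nat_lit 1140) (nat_lit 373331480) (nat_lit 76) (nat_lit 3721653638)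 (nat_lit 156) (nat_lit 5) (nat_lit 171) (nat_lit 5) (nat_lit 157) (nat_lit 5) (nat_lit 289) (nat_lit 253) (nat_lit 238)) (XT.nd (nat_lit 78) (nat_lit 608) (nat_lit 0) (XT.lf (nat_lit 0) (nat_lit 4206719607) (nat_lit 532) (nat_lit 1913188991) (nat_lit 608) (nat_lit 1494692224) (nat_lit 149) (nat_lit 5) (nat_lit 156) (nat_lit 5) (nat_lit 157) (nat_lit 5) (nat_lit 290) (nat_lit 253) (nat_lit 237)) (XT.lf (nat_lit 0) (nat_lit 1103253782) (nat_lit 608) (nat_lit 6538353983) (nat_lit 76) (nat_lit 61903735) (nat_lit 141) (nat_lit 5) (nat_lit 149) (nat_lit 5) (nat_lit 142) (nat_lit 5) (nat_lit 291) (nat_lit 253) (nat_lit 236)))) (XT.nd (nat_lit 78) (nat_lit 608) (nat_lit 0) (XT.lf (nat_lit 0) (nat_lit 3731285158) (nat_lit 608) (nat_lit 1959931506) (nat_lit 76) (nat_lit 2104116577) (nat_lit 141) (nat_lit 5) (nat_lit 149) (nat_lit 5) (nat_lit 142) (nat_lit 5) (nat_lit 292) (nat_lit 253) (nat_lit 235)) (XT.nd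 (nat_lit 78) (nat_lit 76) (nat_lit 0) (XT.lf (nat_lit 0) (nat_lit 2734407699) (nat_lit 532) (nat_lit 3660610030) (nat_lit 608) (nat_lit 1496335006) (nat_lit 134) (nat_lit 5) (nat_lit 141) (nat_lit 5) (nat_lit 142) (nat_lit 5) (nat_lit 293) (nat_lit 253) (nat_lit 234)) (XT.lf (nat_lit 0) (nat_lit 1077056737) (nat_lit 608) (nat_lit 466713513) (nat_lit 76) (nat_lit 6447760044) (nat_lit 133) (nat_lit 5) (nat_lit 141) (nat_lit 5) (nat_lit 134) (nat_lit 5) (nat_lit 294) (nat_lit 253) (nat_lit 233)))))) (XT.nd (nat_lit 468) (nat_lit 1368) (nat_lit 0) (XT.nd (nat_lit 234) (nat_lit 836) (nat_lit 0) (XT.nd (nat_lit 78) (nat_lit 532) (nat_lit 0) (XT.lf (nat_lit 0) (nat_lit 3679193374) (nat_lit 608) (nat_lit 3740634506) (nat_lit 76) (nat_lit 675128575) (nat_lit 126) (nat_lit 5) (nat_lit 134) (nat_lit 5) (nat_lit 127) (nat_lit 5) (nat_lit 295) (nat_lit 253) (nat_lit 232)) (XT.nd (nat_lit 78) (nat_lit 76) (nat_lit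 0) (XT.lf (nat_lit 0) (nat_lit 1058854272) (nat_lit 456) (nat_lit 5265023473) (nat_lit 532) (nat_lit 1878805451) (nat_lit 120) (nat_lit 5) (nat_lit 126) (nat_lit 5) (nat_lit 127) (nat_lit 5) (nat_lit 296) (nat_lit 253) (nat_lit 231)) (XT.lf (nat_lit 0) (nat_lit 692779688) (nat_lit 532) (nat_lit 2316313630) (nat_lit 76) (nat_lit 5305275981) (nat_lit 119) (nat_lit 5) (nat_lit 126) (nat_lit 5) (nat_lit 120) (nat_lit 5) (nat_lit 297) (nat_lit 253) (nat_lit 230)))) (XT.nd (nat_lit 78) (nat_lit 380) (nat_lit 0) (XT.lf (nat_lit 0) (nat_lit 2615274059) (nat_lit 456) (nat_lit 650217545) (nat_lit 532) (nat_lit 5164625154) (nat_lit 113) (nat_lit 5) (nat_lit 119) (nat_lit 5) (nat_lit 120) (nat_lit 5) (nat_lit 298) (nat_lit 253) (nat_lit 229)) (XT.nd (nat_lit 78) (nat_lit 380) (nat_lit 0) (XT.lf (nat_lit 0) (nat_lit 5893765075) (nat_lit 532) (nat_lit 898033623) (nat_lit 76) (nat_lit 1758304088) (nat_lit 113)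 (nat_lit 5) (nat_lit 120) (nat_lit 5) (nat_lit 114) (nat_lit 5) (nat_lit 299) (nat_lit 253) (nat_lit 228)) (XT.lf (nat_lit 0) (nat_lit 4169006172) (nat_lit 380) (nat_lit 4417862794) (nat_lit 456) (nat_lit 87354088) (nat_lit 108) (nat_lit 5) (nat_lit 113) (nat_lit 5) (nat_lit 114) (nat_lit 5) (nat_lit 300) (nat_lit 253) (nat_lit 227))))) (XT.nd (nat_lit 234) (nat_lit 456) (nat_lit 0) (XT.nd (nat_lit 78) (nat_lit 380) (nat_lit 0) (XT.lf (nat_lit 0) (nat_lit 517294735) (nat_lit 456) (nat_lit 1945453590) (nat_lit 532) (nat_lit 6340068948) (nat_lit 101) (nat_lit 5) (nat_lit 107) (nat_lit 5) (nat_lit 108) (nat_lit 5) (nat_lit 301) (nat_lit 253) (nat_lit 226)) (XT.nd (nat_lit 78) (nat_lit 380) (nat_lit 0) (XT.lf (nat_lit 0) (nat_lit 5080103225) (nat_lit 532) (nat_lit 3231987964) (nat_lit 76) (nat_lit 623481467) (nat_lit 101) (nat_lit 5) (nat_lit 108) (nat_lit 5) (nat_lit 102) (nat_lit 5) (nat_lit 302)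 (nat_lit 253) (nat_lit 225)) (XT.lf (nat_lit 0) (nat_lit 1919676791) (nat_lit 380) (nat_lit 5836524232) (nat_lit 456) (nat_lit 1316804412) (nat_lit 96) (nat_lit 5) (nat_lit 101) (nat_lit 5) (nat_lit 102) (nat_lit 5) (nat_lit 303) (nat_lit 253) (nat_lit 224)))) (XT.nd (nat_lit 78) (nat_lit 380) (nat_lit 0) (XT.lf (nat_lit 0) (nat_lit 1248494999) (nat_lit 456) (nat_lit 2006442691) (nat_lit 76) (nat_lit 5960070659) (nat_lit 95) (nat_lit 5) (nat_lit 101) (nat_lit 5) (nat_lit 96) (nat_lit 5) (nat_lit 304) (nat_lit 253) (nat_lit 223)) (XT.nd (nat_lit 78) (nat_lit 0) (nat_lit 0) (XT.lf (nat_lit 0) (nat_lit 3275630388) (nat_lit 380) (nat_lit 564652273) (nat_lit 456) (nat_lit 5521410483) (nat_lit 90) (nat_lit 5) (nat_lit 95) (nat_lit 5) (nat_lit 96) (nat_lit 5) (nat_lit 305) (nat_lit 253) (nat_lit 222)) (XT.lf (nat_lit 0) (nat_lit 6496808833) (nat_lit 456) (nat_lit 847281479) (nat_lit 76) (nat_lit 2169168717)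 (nat_lit 90) (nat_lit 5) (nat_lit 96) (nat_lit 5) (nat_lit 91) (nat_lit 5) (nat_lit 306) (nat_lit 253) (nat_lit 221))))))) (XT.nd (nat_lit 936) (nat_lit 1368) (nat_lit 0) (XT.nd (nat_lit 468) (nat_lit 912) (nat_lit 0) (XT.nd (nat_lit 234) (nat_lit 684) (nat_lit 0) (XT.nd (nat_lit 78) (nat_lit 456) (nat_lit 0) (XT.lf (nat_lit 0) (nat_lit 4563187439) (nat_lit 304) (nat_lit 4666205330) (nat_lit 380) (nat_lit 440175731) (nat_lit 86) (nat_lit 5) (nat_lit 90) (nat_lit 5) (nat_lit 91) (nat_lit 5) (nat_lit 307) (nat_lit 253) (nat_lit 220)) (XT.nd (nat_lit 78) (nat_lit 0) (nat_lit 0) (XT.lf (nat_lit 0) (nat_lit 236903027) (nat_lit 380) (nat_lit 1891408029) (nat_lit 456) (nat_lit 7702956895) (nat_lit 80) (nat_lit 5) (nat_lit 85) (nat_lit 5) (nat_lit 86) (nat_lit 5) (nat_lit 308) (nat_lit 253) (nat_lit 219)) (XT.lf (nat_lit 0) (nat_lit 4774285762) (nat_lit 456) (nat_lit 4235453762) (nat_lit 76) (nat_lit 987749751)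 (nat_lit 80) (nat_lit 5) (nat_lit 86) (nat_lit 5) (nat_lit 81) (nat_lit 5) (nat_lit 309) (nat_lit 253) (nat_lit 218)))) (XT.nd (nat_lit 78) (nat_lit 380) (nat_lit 0) (XT.lf (nat_lit 0) (nat_lit 1221188714) (nat_lit 304) (nat_lit 6258347265) (nat_lit 380) (nat_lit 2689842085) (nat_lit 76) (nat_lit 5) (nat_lit 80) (nat_lit 5) (nat_lit 81) (nat_lit 5) (nat_lit 310) (nat_lit 253) (nat_lit 217)) (XT.nd (nat_lit 78) (nat_lit 380) (nat_lit 0) (XT.lf (nat_lit 0) (nat_lit 6860882146) (nat_lit 304) (nat_lit 3398086304) (nat_lit 380) (nat_lit 87739777) (nat_lit 76) (nat_lit 5) (nat_lit 80) (nat_lit 5) (nat_lit 81) (nat_lit 5) (nat_lit 311) (nat_lit 253) (nat_lit 216)) (XT.lf (nat_lit 0) (nat_lit 2089716960) (nat_lit 304) (nat_lit 423362564) (nat_lit 380) (nat_lit 8016465046) (nat_lit 71) (nat_lit 5) (nat_lit 75) (nat_lit 5) (nat_lit 76) (nat_lit 5) (nat_lit 312) (nat_lit 253) (nat_lit 215))))) (XT.nd (nat_lit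 234) (nat_lit 608) (nat_lit 0) (XT.nd (nat_lit 78) (nat_lit 304) (nat_lit 0) (XT.lf (nat_lit 0) (nat_lit 5202863163) (nat_lit 380) (nat_lit 2906663885) (nat_lit 76) (nat_lit 2608000844) (nat_lit 71) (nat_lit 5) (nat_lit 76) (nat_lit 5) (nat_lit 72) (nat_lit 5) (nat_lit 313) (nat_lit 253) (nat_lit 214)) (XT.nd (nat_lit 78) (nat_lit 0) (nat_lit 0) (XT.lf (nat_lit 0) (nat_lit 2777219039) (nat_lit 304) (nat_lit 5180185646) (nat_lit 380) (nat_lit 2954291137) (nat_lit 67) (nat_lit 5) (nat_lit 71) (nat_lit 5) (nat_lit 72) (nat_lit 5) (nat_lit 314) (nat_lit 253) (nat_lit 213)) (XT.lf (nat_lit 0) (nat_lit 8626564638) (nat_lit 304) (nat_lit 2151288217) (nat_lit 380) (nat_lit 334402905) (nat_lit 67) (nat_lit 5) (nat_lit 71) (nat_lit 5) (nat_lit 72) (nat_lit 5) (nat_lit 315) (nat_lit 253) (nat_lit 212)))) (XT.nd (nat_lit 78) (nat_lit 228) (nat_lit 0) (XT.lf (nat_lit 0) (nat_lit 2314203049) (nat_lit 380) (nat_lit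 8017566317) (nat_lit 76) (nat_lit 986555145) (nat_lit 62) (nat_lit 5) (nat_lit 67) (nat_lit 5) (nat_lit 63) (nat_lit 5) (nat_lit 316) (nat_lit 253) (nat_lit 211)) (XT.nd (nat_lit 78) (nat_lit 228) (nat_lit 0) (XT.lf (nat_lit 0) (nat_lit 5037483978) (nat_lit 380) (nat_lit 2307235588) (nat_lit 76) (nat_lit 4185757853) (nat_lit 62) (nat_lit 5) (nat_lit 67) (nat_lit 5) (nat_lit 63) (nat_lit 5) (nat_lit 317) (nat_lit 253) (nat_lit 210)) (XT.lf (nat_lit 0) (nat_lit 3581864032) (nat_lit 228) (nat_lit 4251621587) (nat_lit 304) (nat_lit 3915836454) (nat_lit 59) (nat_lit 5) (nat_lit 62) (nat_lit 5) (nat_lit 63) (nat_lit 5) (nat_lit 318) (nat_lit 253) (nat_lit 209)))))) (XT.nd (nat_lit 468) (nat_lit 608) (nat_lit 0) (XT.nd (nat_lit 234) (nat_lit 456) (nat_lit 0) (XT.nd (nat_lit 78) (nat_lit 304) (nat_lit 0) (XT.lf (nat_lit 0) (nat_lit 9633108730) (nat_lit 228) (nat_lit 1060818395) (nat_lit 304) (nat_lit 1281444290)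 (nat_lit 59) (nat_lit 5) (nat_lit 62) (nat_lit 5) (nat_lit 63) (nat_lit 5) (nat_lit 319) (nat_lit 253) (nat_lit 208)) (XT.nd (nat_lit 78) (nat_lit 0) (nat_lit 0) (XT.lf (nat_lit 0) (nat_lit 1418902703) (nat_lit 304) (nat_lit 8575422714) (nat_lit 76) (nat_lit 2213070804) (nat_lit 55) (nat_lit 5) (nat_lit 59) (nat_lit 5) (nat_lit 56) (nat_lit 5) (nat_lit 320) (nat_lit 253) (nat_lit 207)) (XT.lf (nat_lit 0) (nat_lit 4167395427) (nat_lit 304) (nat_lit 2697068543) (nat_lit 76) (nat_lit 5581801819) (nat_lit 55) (nat_lit 5) (nat_lit 59) (nat_lit 5) (nat_lit 56) (nat_lit 5) (nat_lit 321) (nat_lit 253) (nat_lit 206)))) (XT.nd (nat_lit 78) (nat_lit 228) (nat_lit 0) (XT.lf (nat_lit 0) (nat_lit 3363639662) (nat_lit 228) (nat_lit 3626746815) (nat_lit 304) (nat_lit 5702203544) (nat_lit 52) (nat_lit 5) (nat_lit 55) (nat_lit 5) (nat_lit 56) (nat_lit 5) (nat_lit 322) (nat_lit 253) (nat_lit 205)) (XT.nd (nat_lit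 78) (nat_lit 228) (nat_lit 0) (XT.lf (nat_lit 0) (nat_lit 9602407700) (nat_lit 228) (nat_lit 283210723) (nat_lit 304) (nat_lit 3061107450) (nat_lit 52) (nat_lit 5) (nat_lit 55) (nat_lit 5) (nat_lit 56) (nat_lit 5) (nat_lit 323) (nat_lit 253) (nat_lit 204)) (XT.lf (nat_lit 0) (nat_lit 2785474750) (nat_lit 228) (nat_lit 10100681367) (nat_lit 304) (nat_lit 321823239) (nat_lit 49) (nat_lit 5) (nat_lit 52) (nat_lit 5) (nat_lit 53) (nat_lit 5) (nat_lit 324) (nat_lit 253) (nat_lit 203))))) (XT.nd (nat_lit 234) (nat_lit 304) (nat_lit 0) (XT.nd (nat_lit 78) (nat_lit 228) (nat_lit 0) (XT.lf (nat_lit 0) (nat_lit 2449212881) (nat_lit 304) (nat_lit 4394097705) (nat_lit 76) (nat_lit 6633132823) (nat_lit 48) (nat_lit 5) (nat_lit 52) (nat_lit 5) (nat_lit 49) (nat_lit 5) (nat_lit 325) (nat_lit 253) (nat_lit 202)) (XT.nd (nat_lit 78) (nat_lit 0) (nat_lit 0) (XT.lf (nat_lit 0) (nat_lit 1790020704) (nat_lit 228) (nat_lit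 3486661773) (nat_lit 304) (nat_lit 8476833225) (nat_lit 45) (nat_lit 5) (nat_lit 48) (nat_lit 5) (nat_lit 49) (nat_lit 5) (nat_lit 326) (nat_lit 253) (nat_lit 201)) (XT.lf (nat_lit 0) (nat_lit 8193410970) (nat_lit 228) (nat_lit 3049836) (nat_lit 304) (nat_lit 5842256593) (nat_lit 45) (nat_lit 5) (nat_lit 48) (nat_lit 5) (nat_lit 49) (nat_lit 5) (nat_lit 327) (nat_lit 253) (nat_lit 200)))) (XT.nd (nat_lit 78) (nat_lit 76) (nat_lit 0) (XT.lf (nat_lit 0) (nat_lit 373637580) (nat_lit 228) (nat_lit 10832254263) (nat_lit 304) (nat_lit 3126562082) (nat_lit 42) (nat_lit 5) (nat_lit 45) (nat_lit 5) (nat_lit 46) (nat_lit 5) (nat_lit 328) (nat_lit 253) (nat_lit 199)) (XT.nd (nat_lit 78) (nat_lit 76) (nat_lit 0) (XT.lf (nat_lit 0) (nat_lit 6843868113) (nat_lit 228) (nat_lit 7485318536) (nat_lit 304) (nat_lit 305147849) (nat_lit 42) (nat_lit 5) (nat_lit 45) (nat_lit 5) (nat_lit 46) (nat_lit 5) (nat_lit 329)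 (nat_lit 253) (nat_lit 198)) (XT.lf (nat_lit 0) (nat_lit 2515335279) (nat_lit 304) (nat_lit 1516267519) (nat_lit 76) (nat_lit 10914000375) (nat_lit 41) (nat_lit 5) (nat_lit 45) (nat_lit 5) (nat_lit 42) (nat_lit 5) (nat_lit 330) (nat_lit 253) (nat_lit 197))))))))
noncomputable def xc90 : XT := (XT.nd (nat_lit 1794) (nat_lit 760) (nat_lit 0) (XT.nd (nat_lit 858) (nat_lit 608) (nat_lit 0) (XT.nd (nat_lit 390) (nat_lit 532) (nat_lit 0) (XT.nd (nat_lit 156) (nat_lit 304) (nat_lit 0) (XT.nd (nat_lit 78) (nat_lit 0) (nat_lit 0) (XT.lf (nat_lit 0) (nat_lit 4987845455) (nat_lit 152) (nat_lit 440594254) (nat_lit 228) (nat_lit 9837291398) (nat_lit 39) (nat_lit 5) (nat_lit 41) (nat_lit 5) (nat_lit 42) (nat_lit 5) (nat_lit 331) (nat_lit 253) (nat_lit 196)) (XT.lf (nat_lit 0) (nat_lit 8442216456) (nat_lit 228) (nat_lit 3961270230) (nat_lit 76) (nat_lit 3191612802) (nat_lit 39) (nat_lit 5) (nat_lit 42) (nat_lit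 5) (nat_lit 40) (nat_lit 5) (nat_lit 332) (nat_lit 253) (nat_lit 195))) (XT.nd (nat_lit 78) (nat_lit 76) (nat_lit 0) (XT.lf (nat_lit 0) (nat_lit 2538601474) (nat_lit 228) (nat_lit 9004042736) (nat_lit 304) (nat_lit 4391851548) (nat_lit 36) (nat_lit 5) (nat_lit 39) (nat_lit 5) (nat_lit 40) (nat_lit 5) (nat_lit 333) (nat_lit 253) (nat_lit 194)) (XT.nd (nat_lit 78) (nat_lit 76) (nat_lit 0) (XT.lf (nat_lit 0) (nat_lit 9263758457) (nat_lit 228) (nat_lit 5480258185) (nat_lit 304) (nat_lit 1539852296) (nat_lit 36) (nat_lit 5) (nat_lit 39) (nat_lit 5) (nat_lit 40) (nat_lit 5) (nat_lit 334) (nat_lit 253) (nat_lit 193)) (XT.lf (nat_lit 0) (nat_lit 1338957811) (nat_lit 304) (nat_lit 516576400) (nat_lit 76) (nat_lit 14788761365) (nat_lit 35) (nat_lit 5) (nat_lit 39) (nat_lit 5) (nat_lit 36) (nat_lit 5) (nat_lit 335) (nat_lit 253) (nat_lit 192))))) (XT.nd (nat_lit 234) (nat_lit 228) (nat_lit 0) (XT.nd (nat_lit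 78) (nat_lit 152) (nat_lit 0) (XT.lf (nat_lit 0) (nat_lit 4321229832) (nat_lit 228) (nat_lit 10792895200) (nat_lit 76) (nat_lit 1899541363) (nat_lit 33) (nat_lit 5) (nat_lit 36) (nat_lit 5) (nat_lit 34) (nat_lit 5) (nat_lit 336) (nat_lit 253) (nat_lit 191)) (XT.nd (nat_lit 78) (nat_lit 152) (nat_lit 0) (XT.lf (nat_lit 0) (nat_lit 7386305560) (nat_lit 228) (nat_lit 4290468596) (nat_lit 76) (nat_lit 5717573419) (nat_lit 33) (nat_lit 5) (nat_lit 36) (nat_lit 5) (nat_lit 34) (nat_lit 5) (nat_lit 337) (nat_lit 253) (nat_lit 190)) (XT.lf (nat_lit 0) (nat_lit 2406502965) (nat_lit 152) (nat_lit 8130541880) (nat_lit 228) (nat_lit 7249621452) (nat_lit 31) (nat_lit 5) (nat_lit 33) (nat_lit 5) (nat_lit 34) (nat_lit 5) (nat_lit 338) (nat_lit 253) (nat_lit 189)))) (XT.nd (nat_lit 78) (nat_lit 228) (nat_lit 0) (XT.lf (nat_lit 0) (nat_lit 9345312254) (nat_lit 152) (nat_lit 4451302817) (nat_lit 228) (nat_lit 4393737865)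 (nat_lit 31) (nat_lit 5) (nat_lit 33) (nat_lit 5) (nat_lit 34) (nat_lit 5) (nat_lit 339) (nat_lit 253) (nat_lit 188)) (XT.nd (nat_lit 78) (nat_lit 228) (nat_lit 0) (XT.lf (nat_lit 0) (nat_lit 16446633570) (nat_lit 152) (nat_lit 679167419) (nat_lit 228) (nat_lit 1481221142) (nat_lit 31) (nat_lit 5) (nat_lit 33) (nat_lit 5) (nat_lit 34) (nat_lit 5) (nat_lit 340) (nat_lit 253) (nat_lit 187)) (XT.lf (nat_lit 0) (nat_lit 1538378293) (nat_lit 228) (nat_lit 14308331471) (nat_lit 76) (nat_lit 3187588703) (nat_lit 28) (nat_lit 5) (nat_lit 31) (nat_lit 5) (nat_lit 29) (nat_lit 5) (nat_lit 341) (nat_lit 253) (nat_lit 186)))))) (XT.nd (nat_lit 468) (nat_lit 304) (nat_lit 0) (XT.nd (nat_lit 234) (nat_lit 152) (nat_lit 0) (XT.nd (nat_lit 78) (nat_lit 152) (nat_lit 0) (XT.lf (nat_lit 0) (nat_lit 4620116210) (nat_lit 228) (nat_lit 7677280831) (nat_lit 76) (nat_lit 7176540976) (nat_lit 28) (nat_lit 5) (nat_lit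 31) (nat_lit 5) (nat_lit 29) (nat_lit 5) (nat_lit 342) (nat_lit 253) (nat_lit 185)) (XT.nd (nat_lit 78) (nat_lit 152) (nat_lit 0) (XT.lf (nat_lit 0) (nat_lit 7767670788) (nat_lit 228) (nat_lit 891119349) (nat_lit 76) (nat_lit 11268799505) (nat_lit 28) (nat_lit 5) (nat_lit 31) (nat_lit 5) (nat_lit 29) (nat_lit 5) (nat_lit 343) (nat_lit 253) (nat_lit 184)) (XT.lf (nat_lit 0) (nat_lit 6176610551) (nat_lit 152) (nat_lit 4866555127) (nat_lit 228) (nat_lit 9350702858) (nat_lit 26) (nat_lit 5) (nat_lit 28) (nat_lit 5) (nat_lit 29) (nat_lit 5) (nat_lit 344) (nat_lit 253) (nat_lit 183)))) (XT.nd (nat_lit 78) (nat_lit 152) (nat_lit 0) (XT.lf (nat_lit 0) (nat_lit 13432512176) (nat_lit 152) (nat_lit 967900352) (nat_lit 228) (nat_lit 6474241110) (nat_lit 26) (nat_lit 5) (nat_lit 28) (nat_lit 5) (nat_lit 29) (nat_lit 5) (nat_lit 345) (nat_lit 253) (nat_lit 182)) (XT.nd (nat_lit 78) (nat_lit 152) (nat_lit 0)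 (XT.lf (nat_lit 0) (nat_lit 17862749817) (nat_lit 228) (nat_lit 534577959) (nat_lit 76) (nat_lit 2972425131) (nat_lit 26) (nat_lit 5) (nat_lit 29) (nat_lit 5) (nat_lit 27) (nat_lit 4) (nat_lit 346) (nat_lit 253) (nat_lit 181)) (XT.lf (nat_lit 0) (nat_lit 6660294623) (nat_lit 152) (nat_lit 14818071064) (nat_lit 228) (nat_lit 399878378) (nat_lit 24) (nat_lit 5) (nat_lit 26) (nat_lit 5) (nat_lit 27) (nat_lit 4) (nat_lit 347) (nat_lit 253) (nat_lit 180))))) (XT.nd (nat_lit 234) (nat_lit 76) (nat_lit 0) (XT.nd (nat_lit 78) (nat_lit 152) (nat_lit 0) (XT.lf (nat_lit 0) (nat_lit 2727131746) (nat_lit 228) (nat_lit 8387235618) (nat_lit 76) (nat_lit 11287395392) (nat_lit 23) (nat_lit 5) (nat_lit 26) (nat_lit 5) (nat_lit 24) (nat_lit 5) (nat_lit 348) (nat_lit 253) (nat_lit 179)) (XT.nd (nat_lit 78) (nat_lit 152) (nat_lit 0) (XT.lf (nat_lit 0) (nat_lit 5916485014) (nat_lit 228) (nat_lit 1394788823) (nat_lit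 76) (nat_lit 15630316667) (nat_lit 23) (nat_lit 5) (nat_lit 26) (nat_lit 5) (nat_lit 24) (nat_lit 5) (nat_lit 349) (nat_lit 253) (nat_lit 178)) (XT.lf (nat_lit 0) (nat_lit 5884165997) (nat_lit 152) (nat_lit 3351167513) (nat_lit 228) (nat_lit 14261283943) (nat_lit 21) (nat_lit 5) (nat_lit 23) (nat_lit 5) (nat_lit 24) (nat_lit 5) (nat_lit 350) (nat_lit 253) (nat_lit 177)))) (XT.nd (nat_lit 78) (nat_lit 76) (nat_lit 0) (XT.lf (nat_lit 0) (nat_lit 12652372757) (nat_lit 228) (nat_lit 10703184554) (nat_lit 76) (nat_lit 712797398) (nat_lit 21) (nat_lit 5) (nat_lit 24) (nat_lit 5) (nat_lit 22) (nat_lit 4) (nat_lit 351) (nat_lit 253) (nat_lit 176)) (XT.nd (nat_lit 78) (nat_lit 76) (nat_lit 0) (XT.lf (nat_lit 0) (nat_lit 16183166855) (nat_lit 228) (nat_lit 3656963400) (nat_lit 76) (nat_lit 4816794246) (nat_lit 21) (nat_lit 5) (nat_lit 24) (nat_lit 5) (nat_lit 22) (nat_lit 4) (nat_lit 352) (nat_lit 253) (nat_lit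 175)) (XT.lf (nat_lit 0) (nat_lit 3635524548) (nat_lit 76) (nat_lit 16198009827) (nat_lit 152) (nat_lit 5429224733) (nat_lit 20) (nat_lit 5) (nat_lit 21) (nat_lit 5) (nat_lit 22) (nat_lit 4) (nat_lit 353) (nat_lit 253) (nat_lit 174))))))) (XT.nd (nat_lit 936) (nat_lit 228) (nat_lit 0) (XT.nd (nat_lit 468) (nat_lit 304) (nat_lit 0) (XT.nd (nat_lit 234) (nat_lit 152) (nat_lit 0) (XT.nd (nat_lit 78) (nat_lit 76) (nat_lit 0) (XT.lf (nat_lit 0) (nat_lit 11186042831) (nat_lit 76) (nat_lit 12423278025) (nat_lit 152) (nat_lit 2276987371) (nat_lit 20) (nat_lit 5) (nat_lit 21) (nat_lit 5) (nat_lit 22) (nat_lit 4) (nat_lit 354) (nat_lit 253) (nat_lit 173)) (XT.nd (nat_lit 78) (nat_lit 0) (nat_lit 0) (XT.lf (nat_lit 0) (nat_lit 930266533) (nat_lit 152) (nat_lit 7609904296) (nat_lit 76) (nat_lit 17988747844) (nat_lit 19) (nat_lit 5) (nat_lit 21) (nat_lit 5) (nat_lit 20) (nat_lit 5) (nat_lit 355) (nat_lit 253)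 (nat_lit 172)) (XT.lf (nat_lit 0) (nat_lit 4167947666) (nat_lit 152) (nat_lit 363449282) (nat_lit 76) (nat_lit 22659350200) (nat_lit 19) (nat_lit 5) (nat_lit 21) (nat_lit 5) (nat_lit 20) (nat_lit 5) (nat_lit 356) (nat_lit 253) (nat_lit 171)))) (XT.nd (nat_lit 78) (nat_lit 0) (nat_lit 0) (XT.lf (nat_lit 0) (nat_lit 7207972807) (nat_lit 152) (nat_lit 344631931) (nat_lit 228) (nat_lit 20318345219) (nat_lit 17) (nat_lit 5) (nat_lit 19) (nat_lit 5) (nat_lit 20) (nat_lit 5) (nat_lit 357) (nat_lit 253) (nat_lit 170)) (XT.nd (nat_lit 78) (nat_lit 0) (nat_lit 0) (XT.lf (nat_lit 0) (nat_lit 11061327356) (nat_lit 228) (nat_lit 13628852983) (nat_lit 76) (nat_lit 3880717150) (nat_lit 17) (nat_lit 5) (nat_lit 20) (nat_lit 5) (nat_lit 18) (nat_lit 4) (nat_lit 358) (nat_lit 253) (nat_lit 169)) (XT.lf (nat_lit 0) (nat_lit 14659965662) (nat_lit 228) (nat_lit 6419365351) (nat_lit 76) (nat_lit 8212986809) (nat_lit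 17) (nat_lit 5) (nat_lit 20) (nat_lit 5) (nat_lit 18) (nat_lit 4) (nat_lit 359) (nat_lit 253) (nat_lit 168))))) (XT.nd (nat_lit 234) (nat_lit 228) (nat_lit 0) (XT.nd (nat_lit 78) (nat_lit 0) (nat_lit 0) (XT.lf (nat_lit 0) (nat_lit 994504474) (nat_lit 76) (nat_lit 17363406593) (nat_lit 152) (nat_lit 11677742845) (nat_lit 16) (nat_lit 5) (nat_lit 17) (nat_lit 5) (nat_lit 18) (nat_lit 4) (nat_lit 360) (nat_lit 253) (nat_lit 167)) (XT.nd (nat_lit 78) (nat_lit 0) (nat_lit 0) (XT.lf (nat_lit 0) (nat_lit 8731379242) (nat_lit 76) (nat_lit 13482259195) (nat_lit 152) (nat_lit 8586259531) (nat_lit 16) (nat_lit 5) (nat_lit 17) (nat_lit 5) (nat_lit 18) (nat_lit 4) (nat_lit 361) (nat_lit 253) (nat_lit 166)) (XT.lf (nat_lit 0) (nat_lit 16670261369) (nat_lit 76) (nat_lit 9497320530) (nat_lit 152) (nat_lit 5420023925) (nat_lit 16) (nat_lit 5) (nat_lit 17) (nat_lit 5) (nat_lit 18) (nat_lit 4) (nat_lit 362) (nat_lit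 253) (nat_lit 165)))) (XT.nd (nat_lit 78) (nat_lit 228) (nat_lit 0) (XT.lf (nat_lit 0) (nat_lit 24818087743) (nat_lit 76) (nat_lit 5405108612) (nat_lit 152) (nat_lit 2176269414) (nat_lit 16) (nat_lit 5) (nat_lit 17) (nat_lit 5) (nat_lit 18) (nat_lit 4) (nat_lit 363) (nat_lit 253) (nat_lit 164)) (XT.nd (nat_lit 78) (nat_lit 152) (nat_lit 0) (XT.lf (nat_lit 0) (nat_lit 1125439890) (nat_lit 152) (nat_lit 65243095) (nat_lit 76) (nat_lit 32045173197) (nat_lit 15) (nat_lit 5) (nat_lit 17) (nat_lit 5) (nat_lit 16) (nat_lit 5) (nat_lit 364) (nat_lit 253) (nat_lit 163)) (XT.lf (nat_lit 0) (nat_lit 4572211828) (nat_lit 228) (nat_lit 26347324148) (nat_lit 76) (nat_lit 3174474728) (nat_lit 13) (nat_lit 5) (nat_lit 16) (nat_lit 5) (nat_lit 14) (nat_lit 4) (nat_lit 365) (nat_lit 253) (nat_lit 162)))))) (XT.nd (nat_lit 468) (nat_lit 152) (nat_lit 0) (XT.nd (nat_lit 234) (nat_lit 76) (nat_lit 0) (XT.nd (nat_lit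 78) (nat_lit 0) (nat_lit 0) (XT.lf (nat_lit 0) (nat_lit 8118789835) (nat_lit 228) (nat_lit 19223355249) (nat_lit 76) (nat_lit 7635883735) (nat_lit 13) (nat_lit 5) (nat_lit 16) (nat_lit 5) (nat_lit 14) (nat_lit 4) (nat_lit 366) (nat_lit 253) (nat_lit 161)) (XT.nd (nat_lit 78) (nat_lit 0) (nat_lit 0) (XT.lf (nat_lit 0) (nat_lit 11756181318) (nat_lit 228) (nat_lit 11912833505) (nat_lit 76) (nat_lit 12220030897) (nat_lit 13) (nat_lit 5) (nat_lit 16) (nat_lit 5) (nat_lit 14) (nat_lit 4) (nat_lit 367) (nat_lit 253) (nat_lit 160)) (XT.lf (nat_lit 0) (nat_lit 15487564582) (nat_lit 228) (nat_lit 4409371079) (nat_lit 76) (nat_lit 16930921779) (nat_lit 13) (nat_lit 5) (nat_lit 16) (nat_lit 5) (nat_lit 14) (nat_lit 4) (nat_lit 368) (nat_lit 253) (nat_lit 159)))) (XT.nd (nat_lit 78) (nat_lit 0) (nat_lit 0) (XT.lf (nat_lit 0) (nat_lit 3359137319) (nat_lit 76) (nat_lit 15989352821) (nat_lit 152) (nat_lit 18445825457)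 (nat_lit 12) (nat_lit 5) (nat_lit 13) (nat_lit 5) (nat_lit 14) (nat_lit 4) (nat_lit 369) (nat_lit 253) (nat_lit 158)) (XT.nd (nat_lit 78) (nat_lit 0) (nat_lit 0) (XT.lf (nat_lit 0) (nat_lit 11425733033) (nat_lit 76) (nat_lit 11929531257) (nat_lit 152) (nat_lit 15433612400) (nat_lit 12) (nat_lit 5) (nat_lit 13) (nat_lit 5) (nat_lit 14) (nat_lit 4) (nat_lit 370) (nat_lit 253) (nat_lit 157)) (XT.lf (nat_lit 0) (nat_lit 19709709413) (nat_lit 76) (nat_lit 7758449554) (nat_lit 152) (nat_lit 12345547657) (nat_lit 12) (nat_lit 5) (nat_lit 13) (nat_lit 5) (nat_lit 14) (nat_lit 4) (nat_lit 371) (nat_lit 253) (nat_lit 156))))) (XT.nd (nat_lit 234) (nat_lit 76) (nat_lit 0) (XT.nd (nat_lit 78) (nat_lit 76) (nat_lit 0) (XT.lf (nat_lit 0) (nat_lit 28218304885) (nat_lit 76) (nat_lit 3472463080) (nat_lit 152) (nat_lit 9178932921) (nat_lit 12) (nat_lit 5) (nat_lit 13) (nat_lit 5) (nat_lit 14) (nat_lit 4) (nat_lit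 372) (nat_lit 253) (nat_lit 155)) (XT.nd (nat_lit 78) (nat_lit 76) (nat_lit 0) (XT.lf (nat_lit 0) (nat_lit 36035741559) (nat_lit 152) (nat_lit 5007788660) (nat_lit 0) (nat_lit 913983147) (nat_lit 12) (nat_lit 5) (nat_lit 14) (nat_lit 4) (nat_lit 12) (nat_lit 4) (nat_lit 373) (nat_lit 253) (nat_lit 154)) (XT.lf (nat_lit 0) (nat_lit 2863798186) (nat_lit 76) (nat_lit 37696195244) (nat_lit 76) (nat_lit 2516507640) (nat_lit 11) (nat_lit 4) (nat_lit 12) (nat_lit 5) (nat_lit 12) (nat_lit 4) (nat_lit 374) (nat_lit 253) (nat_lit 153)))) (XT.nd (nat_lit 78) (nat_lit 0) (nat_lit 0) (XT.lf (nat_lit 0) (nat_lit 1009692863) (nat_lit 152) (nat_lit 33186253025) (nat_lit 76) (nat_lit 10031691537) (nat_lit 10) (nat_lit 5) (nat_lit 12) (nat_lit 5) (nat_lit 11) (nat_lit 4) (nat_lit 375) (nat_lit 253) (nat_lit 152)) (XT.nd (nat_lit 78) (nat_lit 0) (nat_lit 0) (XT.lf (nat_lit 0) (nat_lit 4578522588) (nat_lit 152) (nat_lit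 25996132502) (nat_lit 76) (nat_lit 14838290608) (nat_lit 10) (nat_lit 5) (nat_lit 12) (nat_lit 5) (nat_lit 11) (nat_lit 4) (nat_lit 376) (nat_lit 253) (nat_lit 151)) (XT.lf (nat_lit 0) (nat_lit 8242206057) (nat_lit 152) (nat_lit 18611868476) (nat_lit 76) (nat_lit 19780112769) (nat_lit 10) (nat_lit 5) (nat_lit 12) (nat_lit 5) (nat_lit 11) (nat_lit 4) (nat_lit 377) (nat_lit 253) (nat_lit 150))))))))
noncomputable def xc91 : XT := (XT.nd (nat_lit 1872) (nat_lit 0) (nat_lit 0) (XT.nd (nat_lit 858) (nat_lit 152) (nat_lit 0) (XT.nd (nat_lit 390) (nat_lit 76) (nat_lit 0) (XT.nd (nat_lit 156) (nat_lit 76) (nat_lit 0) (XT.nd (nat_lit 78) (nat_lit 0) (nat_lit 0) (XT.lf (nat_lit 0) (nat_lit 12003944548) (nat_lit 152) (nat_lit 11027008677) (nat_lit 76) (nat_lit 24861476116) (nat_lit 10) (nat_lit 5) (nat_lit 12) (nat_lit 5) (nat_lit 11) (nat_lit 4) (nat_lit 378) (nat_lit 253) (nat_lit 149)) (XT.lf (nat_lit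 0) (nat_lit 15867025015) (nat_lit 152) (nat_lit 3234925557) (nat_lit 76) (nat_lit 30086820677) (nat_lit 10) (nat_lit 5) (nat_lit 12) (nat_lit 5) (nat_lit 11) (nat_lit 4) (nat_lit 379) (nat_lit 253) (nat_lit 148))) (XT.nd (nat_lit 78) (nat_lit 0) (nat_lit 0) (XT.lf (nat_lit 0) (nat_lit 4866145524) (nat_lit 76) (nat_lit 15015453810) (nat_lit 152) (nat_lit 30641343129) (nat_lit 9) (nat_lit 5) (nat_lit 10) (nat_lit 5) (nat_lit 11) (nat_lit 4) (nat_lit 380) (nat_lit 253) (nat_lit 147)) (XT.nd (nat_lit 78) (nat_lit 0) (nat_lit 0) (XT.lf (nat_lit 0) (nat_lit 13257024421) (nat_lit 76) (nat_lit 10781215618) (nat_lit 152) (nat_lit 27858256784) (nat_lit 9) (nat_lit 5) (nat_lit 10) (nat_lit 5) (nat_lit 11) (nat_lit 4) (nat_lit 381) (nat_lit 253) (nat_lit 146)) (XT.lf (nat_lit 0) (nat_lit 21880661608) (nat_lit 76) (nat_lit 6428202582) (nat_lit 152) (nat_lit 25002721781) (nat_lit 9) (nat_lit 5) (nat_lit 10)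 (nat_lit 5) (nat_lit 11) (nat_lit 4) (nat_lit 382) (nat_lit 253) (nat_lit 145))))) (XT.nd (nat_lit 234) (nat_lit 76) (nat_lit 0) (XT.nd (nat_lit 78) (nat_lit 0) (nat_lit 0) (XT.lf (nat_lit 0) (nat_lit 30744592300) (nat_lit 76) (nat_lit 1952611099) (nat_lit 152) (nat_lit 22072242992) (nat_lit 9) (nat_lit 5) (nat_lit 10) (nat_lit 5) (nat_lit 11) (nat_lit 4) (nat_lit 383) (nat_lit 253) (nat_lit 144)) (XT.nd (nat_lit 78) (nat_lit 0) (nat_lit 0) (XT.lf (nat_lit 0) (nat_lit 37232560461) (nat_lit 152) (nat_lit 16440258585) (nat_lit 0) (nat_lit 2597768848) (nat_lit 9) (nat_lit 5) (nat_lit 11) (nat_lit 4) (nat_lit 9) (nat_lit 4) (nat_lit 384) (nat_lit 253) (nat_lit 143)) (XT.lf (nat_lit 0) (nat_lit 41913431969) (nat_lit 152) (nat_lit 8665044191) (nat_lit 0) (nat_lit 7238009987) (nat_lit 9) (nat_lit 5) (nat_lit 11) (nat_lit 4) (nat_lit 9) (nat_lit 4) (nat_lit 385) (nat_lit 253) (nat_lit 142)))) (XT.nd (nat_lit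 78) (nat_lit 76) (nat_lit 0) (XT.lf (nat_lit 0) (nat_lit 46725138314) (nat_lit 152) (nat_lit 673647338) (nat_lit 0) (nat_lit 12010269372) (nat_lit 9) (nat_lit 5) (nat_lit 11) (nat_lit 4) (nat_lit 9) (nat_lit 4) (nat_lit 386) (nat_lit 253) (nat_lit 141)) (XT.nd (nat_lit 78) (nat_lit 0) (nat_lit 0) (XT.lf (nat_lit 0) (nat_lit 7690993734) (nat_lit 76) (nat_lit 44054820703) (nat_lit 76) (nat_lit 9301653740) (nat_lit 8) (nat_lit 4) (nat_lit 9) (nat_lit 5) (nat_lit 9) (nat_lit 4) (nat_lit 387) (nat_lit 253) (nat_lit 140)) (XT.lf (nat_lit 0) (nat_lit 16303968992) (nat_lit 76) (nat_lit 40610745857) (nat_lit 76) (nat_lit 5820396350) (nat_lit 8) (nat_lit 4) (nat_lit 9) (nat_lit 5) (nat_lit 9) (nat_lit 4) (nat_lit 388) (nat_lit 253) (nat_lit 139)))))) (XT.nd (nat_lit 468) (nat_lit 76) (nat_lit 0) (XT.nd (nat_lit 234) (nat_lit 0) (nat_lit 0) (XT.nd (nat_lit 78) (nat_lit 76) (nat_lit 0) (XT.lf (nat_lit 0) (nat_lit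 25159397432) (nat_lit 76) (nat_lit 37070354249) (nat_lit 76) (nat_lit 2243905185) (nat_lit 8) (nat_lit 4) (nat_lit 9) (nat_lit 5) (nat_lit 9) (nat_lit 4) (nat_lit 389) (nat_lit 253) (nat_lit 138)) (XT.nd (nat_lit 78) (nat_lit 0) (nat_lit 0) (XT.lf (nat_lit 0) (nat_lit 1403021957) (nat_lit 152) (nat_lit 32013362603) (nat_lit 76) (nat_lit 32847827079) (nat_lit 7) (nat_lit 5) (nat_lit 9) (nat_lit 5) (nat_lit 8) (nat_lit 4) (nat_lit 390) (nat_lit 253) (nat_lit 137)) (XT.lf (nat_lit 0) (nat_lit 5105750333) (nat_lit 152) (nat_lit 24530851294) (nat_lit 76) (nat_lit 38471475084) (nat_lit 7) (nat_lit 5) (nat_lit 9) (nat_lit 5) (nat_lit 8) (nat_lit 4) (nat_lit 391) (nat_lit 253) (nat_lit 136)))) (XT.nd (nat_lit 78) (nat_lit 0) (nat_lit 0) (XT.lf (nat_lit 0) (nat_lit 8911302008) (nat_lit 152) (nat_lit 16838617603) (nat_lit 76) (nat_lit 44257590710) (nat_lit 7) (nat_lit 5) (nat_lit 9) (nat_lit 5) (nat_lit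 8) (nat_lit 4) (nat_lit 392) (nat_lit 253) (nat_lit 135)) (XT.nd (nat_lit 78) (nat_lit 0) (nat_lit 0) (XT.lf (nat_lit 0) (nat_lit 12823002222) (nat_lit 152) (nat_lit 8929940159) (nat_lit 76) (nat_lit 50211229787) (nat_lit 7) (nat_lit 5) (nat_lit 9) (nat_lit 5) (nat_lit 8) (nat_lit 4) (nat_lit 393) (nat_lit 253) (nat_lit 134)) (XT.lf (nat_lit 0) (nat_lit 16844268963) (nat_lit 152) (nat_lit 797908468) (nat_lit 76) (nat_lit 56337594523) (nat_lit 7) (nat_lit 5) (nat_lit 9) (nat_lit 5) (nat_lit 8) (nat_lit 4) (nat_lit 394) (nat_lit 253) (nat_lit 133))))) (XT.nd (nat_lit 234) (nat_lit 0) (nat_lit 0) (XT.nd (nat_lit 78) (nat_lit 0) (nat_lit 0) (XT.lf (nat_lit 0) (nat_lit 7715133164) (nat_lit 76) (nat_lit 13337645377) (nat_lit 152) (nat_lit 55001067468) (nat_lit 6) (nat_lit 5) (nat_lit 7) (nat_lit 5) (nat_lit 8) (nat_lit 4) (nat_lit 395) (nat_lit 253) (nat_lit 132)) (XT.nd (nat_lit 78) (nat_lit 0) (nat_lit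 0) (XT.lf (nat_lit 0) (nat_lit 16486553706) (nat_lit 76) (nat_lit 8901580887) (nat_lit 152) (nat_lit 52801994246) (nat_lit 6) (nat_lit 5) (nat_lit 7) (nat_lit 5) (nat_lit 8) (nat_lit 4) (nat_lit 396) (nat_lit 253) (nat_lit 131)) (XT.lf (nat_lit 0) (nat_lit 25508137562) (nat_lit 76) (nat_lit 4338165100) (nat_lit 152) (nat_lit 50544419117) (nat_lit 6) (nat_lit 5) (nat_lit 7) (nat_lit 5) (nat_lit 8) (nat_lit 4) (nat_lit 397) (nat_lit 253) (nat_lit 130)))) (XT.nd (nat_lit 78) (nat_lit 0) (nat_lit 0) (XT.lf (nat_lit 0) (nat_lit 34434605991) (nat_lit 152) (nat_lit 47873207765) (nat_lit 0) (nat_lit 349631089) (nat_lit 6) (nat_lit 5) (nat_lit 8) (nat_lit 4) (nat_lit 6) (nat_lit 4) (nat_lit 398) (nat_lit 253) (nat_lit 129)) (XT.nd (nat_lit 78) (nat_lit 0) (nat_lit 0) (XT.lf (nat_lit 0) (nat_lit 39196626062) (nat_lit 152) (nat_lit 40708893365) (nat_lit 0) (nat_lit 5085572072) (nat_lit 6) (nat_lit 5) (nat_lit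 8) (nat_lit 4) (nat_lit 6) (nat_lit 4) (nat_lit 399) (nat_lit 253) (nat_lit 128)) (XT.lf (nat_lit 0) (nat_lit 44094822769) (nat_lit 152) (nat_lit 33341679839) (nat_lit 0) (nat_lit 9958449276) (nat_lit 6) (nat_lit 5) (nat_lit 8) (nat_lit 4) (nat_lit 6) (nat_lit 4) (nat_lit 400) (nat_lit 253) (nat_lit 127))))))) (XT.nd (nat_lit 31356) (nat_lit 0) (nat_lit 9652) (XT.nd (nat_lit 30888) (nat_lit 0) (nat_lit 15580) (XT.nd (nat_lit 30654) (nat_lit 0) (nat_lit 18088) (XT.nd (nat_lit 30498) (nat_lit 0) (nat_lit 19304) (XT.lf (nat_lit 0) (nat_lit 54316988727) (nat_lit 152) (nat_lit 17972623013) (nat_lit 0) (nat_lit 20132167132) (nat_lit 6) (nat_lit 5) (nat_lit 8) (nat_lit 4) (nat_lit 6) (nat_lit 4) (nat_lit 402) (nat_lit 253) (nat_lit 125)) (XT.nd (nat_lit 78) (nat_lit 532) (nat_lit 0) (XT.lf (nat_lit 0) (nat_lit 3301898620) (nat_lit 380) (nat_lit 1112788) (nat_lit 380) (nat_lit 1112788) (nat_lit 267) (nat_lit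 4) (nat_lit 272) (nat_lit 5) (nat_lit 272) (nat_lit 4) (nat_lit 272) (nat_lit 254) (nat_lit 254)) (XT.lf (nat_lit 0) (nat_lit 2905808857) (nat_lit 532) (nat_lit 2958820120) (nat_lit 0) (nat_lit 772572955) (nat_lit 260) (nat_lit 5) (nat_lit 267) (nat_lit 4) (nat_lit 260) (nat_lit 4) (nat_lit 273) (nat_lit 254) (nat_lit 253)))) (XT.nd (nat_lit 78) (nat_lit 684) (nat_lit 0) (XT.lf (nat_lit 0) (nat_lit 744822509) (nat_lit 532) (nat_lit 5064797004) (nat_lit 532) (nat_lit 860458284) (nat_lit 253) (nat_lit 4) (nat_lit 260) (nat_lit 5) (nat_lit 260) (nat_lit 4) (nat_lit 274) (nat_lit 254) (nat_lit 252)) (XT.nd (nat_lit 78) (nat_lit 608) (nat_lit 0) (XT.lf (nat_lit 0) (nat_lit 1988131801) (nat_lit 608) (nat_lit 2179210598) (nat_lit 76) (nat_lit 2538313626) (nat_lit 252) (nat_lit 5) (nat_lit 260) (nat_lit 5) (nat_lit 253) (nat_lit 4) (nat_lit 275) (nat_lit 254) (nat_lit 251)) (XT.lf (nat_lit 0) (nat_lit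 1628746063) (nat_lit 608) (nat_lit 3196907760) (nat_lit 684) (nat_lit 1919054460) (nat_lit 244) (nat_lit 5) (nat_lit 252) (nat_lit 5) (nat_lit 253) (nat_lit 4) (nat_lit 276) (nat_lit 254) (nat_lit 250))))) (XT.nd (nat_lit 234) (nat_lit 1748) (nat_lit 0) (XT.nd (nat_lit 78) (nat_lit 684) (nat_lit 0) (XT.lf (nat_lit 0) (nat_lit 872777543) (nat_lit 684) (nat_lit 1273287083) (nat_lit 76) (nat_lit 4641012404) (nat_lit 243) (nat_lit 5) (nat_lit 252) (nat_lit 5) (nat_lit 244) (nat_lit 5) (nat_lit 277) (nat_lit 254) (nat_lit 249)) (XT.nd (nat_lit 78) (nat_lit 0) (nat_lit 0) (XT.lf (nat_lit 0) (nat_lit 2644306670) (nat_lit 684) (nat_lit 999627108) (nat_lit 760) (nat_lit 3188449950) (nat_lit 234) (nat_lit 5) (nat_lit 243) (nat_lit 5) (nat_lit 244) (nat_lit 5) (nat_lit 278) (nat_lit 254) (nat_lit 248)) (XT.lf (nat_lit 0) (nat_lit 6423801412) (nat_lit 760) (nat_lit 250346413) (nat_lit 76) (nat_lit 207388007)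 (nat_lit 234) (nat_lit 5) (nat_lit 244) (nat_lit 5) (nat_lit 235) (nat_lit 4) (nat_lit 279) (nat_lit 254) (nat_lit 247)))) (XT.nd (nat_lit 78) (nat_lit 912) (nat_lit 0) (XT.lf (nat_lit 0) (nat_lit 2268149563) (nat_lit 836) (nat_lit 3159295209) (nat_lit 76) (nat_lit 1505501590) (nat_lit 223) (nat_lit 5) (nat_lit 234) (nat_lit 5) (nat_lit 224) (nat_lit 5) (nat_lit 280) (nat_lit 254) (nat_lit 246)) (XT.nd (nat_lit 78) (nat_lit 76) (nat_lit 0) (XT.lf (nat_lit 0) (nat_lit 875840093) (nat_lit 836) (nat_lit 4115940118) (nat_lit 912) (nat_lit 1996459929) (nat_lit 212) (nat_lit 5) (nat_lit 223) (nat_lit 5) (nat_lit 224) (nat_lit 5) (nat_lit 281) (nat_lit 254) (nat_lit 245)) (XT.lf (nat_lit 0) (nat_lit 684409368) (nat_lit 912) (nat_lit 2030540854) (nat_lit 76) (nat_lit 4331829693) (nat_lit 211) (nat_lit 5) (nat_lit 223) (nat_lit 5) (nat_lit 212) (nat_lit 5) (nat_lit 282) (nat_lit 254) (nat_lit 244))))))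 (XT.nd (nat_lit 468) (nat_lit 1748) (nat_lit 0) (XT.nd (nat_lit 234) (nat_lit 2204) (nat_lit 0) (XT.nd (nat_lit 78) (nat_lit 1064) (nat_lit 0) (XT.lf (nat_lit 0) (nat_lit 2122063605) (nat_lit 912) (nat_lit 1221326989) (nat_lit 988) (nat_lit 3765170208) (nat_lit 199) (nat_lit 5) (nat_lit 211) (nat_lit 5) (nat_lit 212) (nat_lit 5) (nat_lit 283) (nat_lit 254) (nat_lit 243)) (XT.nd (nat_lit 78) (nat_lit 1064) (nat_lit 0) (XT.lf (nat_lit 0) (nat_lit 6025097579) (nat_lit 988) (nat_lit 809306188) (nat_lit 76) (nat_lit 339708785) (nat_lit 199) (nat_lit 5) (nat_lit 212) (nat_lit 5) (nat_lit 200) (nat_lit 5) (nat_lit 284) (nat_lit 254) (nat_lit 242)) (XT.lf (nat_lit 0) (nat_lit 1481999522) (nat_lit 1064) (nat_lit 3781566168) (nat_lit 76) (nat_lit 1978817671) (nat_lit 185) (nat_lit 5) (nat_lit 199) (nat_lit 5) (nat_lit 186) (nat_lit 5) (nat_lit 285) (nat_lit 254) (nat_lit 241)))) (XT.nd (nat_lit 78) (nat_lit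 1140) (nat_lit 0) (XT.lf (nat_lit 0) (nat_lit 487053221) (nat_lit 1064) (nat_lit 3616923434) (nat_lit 1140) (nat_lit 3210519196) (nat_lit 171) (nat_lit 5) (nat_lit 185) (nat_lit 5) (nat_lit 186) (nat_lit 5) (nat_lit 286) (nat_lit 254) (nat_lit 240)) (XT.nd (nat_lit 78) (nat_lit 1140) (nat_lit 0) (XT.lf (nat_lit 0) (nat_lit 4887805980) (nat_lit 1064) (nat_lit 1878744909) (nat_lit 1140) (nat_lit 623545830) (nat_lit 171) (nat_lit 5) (nat_lit 185) (nat_lit 5) (nat_lit 186) (nat_lit 5) (nat_lit 287) (nat_lit 254) (nat_lit 239)) (XT.lf (nat_lit 0) (nat_lit 1897045749) (nat_lit 1064) (nat_lit 47463507) (nat_lit 1140) (nat_lit 5524741378) (nat_lit 156) (nat_lit 5) (nat_lit 170) (nat_lit 5) (nat_lit 171) (nat_lit 5) (nat_lit 288) (nat_lit 254) (nat_lit 238))))) (XT.nd (nat_lit 234) (nat_lit 608) (nat_lit 0) (XT.nd (nat_lit 78) (nat_lit 1140) (nat_lit 0) (XT.lf (nat_lit 0) (nat_lit 4546831449) (nat_lit 1140)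 (nat_lit 1169099000) (nat_lit 76) (nat_lit 1835738361) (nat_lit 156) (nat_lit 5) (nat_lit 171) (nat_lit 5) (nat_lit 157) (nat_lit 5) (nat_lit 289) (nat_lit 254) (nat_lit 237)) (XT.nd (nat_lit 78) (nat_lit 608) (nat_lit 0) (XT.lf (nat_lit 0) (nat_lit 3358708917) (nat_lit 532) (nat_lit 3829973635) (nat_lit 608) (nat_lit 449195920) (nat_lit 149) (nat_lit 5) (nat_lit 156) (nat_lit 5) (nat_lit 157) (nat_lit 5) (nat_lit 290) (nat_lit 254) (nat_lit 236)) (XT.lf (nat_lit 0) (nat_lit 230070498) (nat_lit 532) (nat_lit 1853821065) (nat_lit 608) (nat_lit 5644005356) (nat_lit 141) (nat_lit 5) (nat_lit 148) (nat_lit 5) (nat_lit 149) (nat_lit 5) (nat_lit 291) (nat_lit 254) (nat_lit 235)))) (XT.nd (nat_lit 78) (nat_lit 608) (nat_lit 0) (XT.lf (nat_lit 0) (nat_lit 4659903594) (nat_lit 608) (nat_lit 2938428261) (nat_lit 76) (nat_lit 223020740) (nat_lit 141) (nat_lit 5) (nat_lit 149) (nat_lit 5) (nat_lit 142) (nat_lit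 5) (nat_lit 292) (nat_lit 254) (nat_lit 234)) (XT.nd (nat_lit 78) (nat_lit 76) (nat_lit 0) (XT.lf (nat_lit 0) (nat_lit 1699953781) (nat_lit 532) (nat_lit 5580535393) (nat_lit 608) (nat_lit 638248544) (nat_lit 134) (nat_lit 5) (nat_lit 141) (nat_lit 5) (nat_lit 142) (nat_lit 5) (nat_lit 293) (nat_lit 254) (nat_lit 233)) (XT.lf (nat_lit 0) (nat_lit 1885431918) (nat_lit 608) (nat_lit 1572944645) (nat_lit 76) (nat_lit 4561347397) (nat_lit 133) (nat_lit 5) (nat_lit 141) (nat_lit 5) (nat_lit 134) (nat_lit 5) (nat_lit 294) (nat_lit 254) (nat_lit 232))))))))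
noncomputable def xc92 : XT := (XT.nd (nat_lit 1794) (nat_lit 2356) (nat_lit 0) (XT.nd (nat_lit 858) (nat_lit 2128) (nat_lit 0) (XT.nd (nat_lit 390) (nat_lit 1748) (nat_lit 0) (XT.nd (nat_lit 156) (nat_lit 988) (nat_lit 0) (XT.nd (nat_lit 78) (nat_lit 0) (nat_lit 0) (XT.lf (nat_lit 0) (nat_lit 3197102696) (nat_lit 532) (nat_lit 1240650796) (nat_lit 608) (nat_lit 3686956255) (nat_lit 126) (nat_lit 5) (nat_lit 133) (nat_lit 5) (nat_lit 134) (nat_lit 5) (nat_lit 295) (nat_lit 254) (nat_lit 231)) (XT.lf (nat_lit 0) (nat_lit 7028893026) (nat_lit 608) (nat_lit 172574896) (nat_lit 76) (nat_lit 1032638188) (nat_lit 126) (nat_lit 5) (nat_lit 134) (nat_lit 5) (nat_lit 127) (nat_lit 5) (nat_lit 296) (nat_lit 254) (nat_lit 230))) (XT.nd (nat_lit 78) (nat_lit 456) (nat_lit 0) (XT.lf (nat_lit 0) (nat_lit 1320288509) (nat_lit 532) (nat_lit 3625160729) (nat_lit 76) (nat_lit 3401196547) (nat_lit 119) (nat_lit 5)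 (nat_lit 126) (nat_lit 5) (nat_lit 120) (nat_lit 5) (nat_lit 297) (nat_lit 254) (nat_lit 229)) (XT.nd (nat_lit 78) (nat_lit 0) (nat_lit 0) (XT.lf (nat_lit 0) (nat_lit 1244680331) (nat_lit 456) (nat_lit 2604824070) (nat_lit 532) (nat_lit 4614251632) (nat_lit 113) (nat_lit 5) (nat_lit 119) (nat_lit 5) (nat_lit 120) (nat_lit 5) (nat_lit 298) (nat_lit 254) (nat_lit 228)) (XT.lf (nat_lit 0) (nat_lit 6264572601) (nat_lit 456) (nat_lit 166195936) (nat_lit 532) (nat_lit 2154440024) (nat_lit 113) (nat_lit 5) (nat_lit 119) (nat_lit 5) (nat_lit 120) (nat_lit 5) (nat_lit 299) (nat_lit 254) (nat_lit 227))))) (XT.nd (nat_lit 234) (nat_lit 836) (nat_lit 0) (XT.nd (nat_lit 78) (nat_lit 456) (nat_lit 0) (XT.lf (nat_lit 0) (nat_lit 361140083) (nat_lit 456) (nat_lit 6029759879) (nat_lit 76) (nat_lit 2319721744) (nat_lit 107) (nat_lit 5) (nat_lit 113) (nat_lit 5) (nat_lit 108) (nat_lit 5) (nat_lit 300) (nat_lit 254)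 (nat_lit 226)) (XT.nd (nat_lit 78) (nat_lit 456) (nat_lit 0) (XT.lf (nat_lit 0) (nat_lit 2875796877) (nat_lit 456) (nat_lit 1052992647) (nat_lit 76) (nat_lit 4911464887) (nat_lit 107) (nat_lit 5) (nat_lit 113) (nat_lit 5) (nat_lit 108) (nat_lit 5) (nat_lit 301) (nat_lit 254) (nat_lit 225)) (XT.lf (nat_lit 0) (nat_lit 4084167507) (nat_lit 456) (nat_lit 1364286354) (nat_lit 532) (nat_lit 3525946823) (nat_lit 101) (nat_lit 5) (nat_lit 107) (nat_lit 5) (nat_lit 108) (nat_lit 5) (nat_lit 302) (nat_lit 254) (nat_lit 224)))) (XT.nd (nat_lit 78) (nat_lit 456) (nat_lit 0) (XT.lf (nat_lit 0) (nat_lit 206843488) (nat_lit 380) (nat_lit 7860632351) (nat_lit 456) (nat_lit 1046118393) (nat_lit 96) (nat_lit 5) (nat_lit 101) (nat_lit 5) (nat_lit 102) (nat_lit 5) (nat_lit 303) (nat_lit 254) (nat_lit 223)) (XT.nd (nat_lit 78) (nat_lit 380) (nat_lit 0) (XT.lf (nat_lit 0) (nat_lit 1486563180) (nat_lit 456) (nat_lit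 3796999368) (nat_lit 76) (nat_lit 3972822323) (nat_lit 95) (nat_lit 5) (nat_lit 101) (nat_lit 5) (nat_lit 96) (nat_lit 5) (nat_lit 304) (nat_lit 254) (nat_lit 222)) (XT.lf (nat_lit 0) (nat_lit 1415244099) (nat_lit 380) (nat_lit 2618683981) (nat_lit 456) (nat_lit 5370518650) (nat_lit 90) (nat_lit 5) (nat_lit 95) (nat_lit 5) (nat_lit 96) (nat_lit 5) (nat_lit 305) (nat_lit 254) (nat_lit 221)))))) (XT.nd (nat_lit 468) (nat_lit 1064) (nat_lit 0) (XT.nd (nat_lit 234) (nat_lit 684) (nat_lit 0) (XT.nd (nat_lit 78) (nat_lit 380) (nat_lit 0) (XT.lf (nat_lit 0) (nat_lit 6644555561) (nat_lit 456) (nat_lit 2764632116) (nat_lit 76) (nat_lit 148244987) (nat_lit 90) (nat_lit 5) (nat_lit 96) (nat_lit 5) (nat_lit 91) (nat_lit 5) (nat_lit 306) (nat_lit 254) (nat_lit 220)) (XT.nd (nat_lit 78) (nat_lit 76) (nat_lit 0) (XT.lf (nat_lit 0) (nat_lit 2574055289) (nat_lit 304) (nat_lit 6758571141) (nat_lit 380) (nat_lit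 382492929) (nat_lit 86) (nat_lit 5) (nat_lit 90) (nat_lit 5) (nat_lit 91) (nat_lit 5) (nat_lit 307) (nat_lit 254) (nat_lit 219)) (XT.lf (nat_lit 0) (nat_lit 2157337470) (nat_lit 380) (nat_lit 1836142501) (nat_lit 76) (nat_lit 5884187560) (nat_lit 85) (nat_lit 5) (nat_lit 90) (nat_lit 5) (nat_lit 86) (nat_lit 5) (nat_lit 308) (nat_lit 254) (nat_lit 218)))) (XT.nd (nat_lit 78) (nat_lit 304) (nat_lit 0) (XT.lf (nat_lit 0) (nat_lit 3629561623) (nat_lit 380) (nat_lit 1121231473) (nat_lit 456) (nat_lit 5294709614) (nat_lit 80) (nat_lit 5) (nat_lit 85) (nat_lit 5) (nat_lit 86) (nat_lit 5) (nat_lit 309) (nat_lit 254) (nat_lit 217)) (XT.nd (nat_lit 78) (nat_lit 304) (nat_lit 0) (XT.lf (nat_lit 0) (nat_lit 7409341090) (nat_lit 456) (nat_lit 1004938797) (nat_lit 76) (nat_lit 1804549848) (nat_lit 80) (nat_lit 5) (nat_lit 86) (nat_lit 5) (nat_lit 81) (nat_lit 5) (nat_lit 310) (nat_lit 254) (nat_lit 216)) (XT.lf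 (nat_lit 0) (nat_lit 4582485516) (nat_lit 304) (nat_lit 5572644496) (nat_lit 380) (nat_lit 242075276) (nat_lit 76) (nat_lit 5) (nat_lit 80) (nat_lit 5) (nat_lit 81) (nat_lit 5) (nat_lit 311) (nat_lit 254) (nat_lit 215))))) (XT.nd (nat_lit 234) (nat_lit 380) (nat_lit 0) (XT.nd (nat_lit 78) (nat_lit 608) (nat_lit 0) (XT.lf (nat_lit 0) (nat_lit 2318306724) (nat_lit 380) (nat_lit 310299013) (nat_lit 76) (nat_lit 7952817884) (nat_lit 75) (nat_lit 5) (nat_lit 80) (nat_lit 5) (nat_lit 76) (nat_lit 5) (nat_lit 312) (nat_lit 254) (nat_lit 214)) (XT.nd (nat_lit 78) (nat_lit 304) (nat_lit 0) (XT.lf (nat_lit 0) (nat_lit 4960754105) (nat_lit 380) (nat_lit 5375753896) (nat_lit 76) (nat_lit 434352054) (nat_lit 71) (nat_lit 5) (nat_lit 76) (nat_lit 5) (nat_lit 72) (nat_lit 5) (nat_lit 313) (nat_lit 254) (nat_lit 213)) (XT.lf (nat_lit 0) (nat_lit 227148127) (nat_lit 304) (nat_lit 7441240635) (nat_lit 380) (nat_lit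 3298078489) (nat_lit 67) (nat_lit 5) (nat_lit 71) (nat_lit 5) (nat_lit 72) (nat_lit 5) (nat_lit 314) (nat_lit 254) (nat_lit 212)))) (XT.nd (nat_lit 78) (nat_lit 380) (nat_lit 0) (XT.lf (nat_lit 0) (nat_lit 6045579969) (nat_lit 304) (nat_lit 4421218031) (nat_lit 380) (nat_lit 700921485) (nat_lit 67) (nat_lit 5) (nat_lit 71) (nat_lit 5) (nat_lit 72) (nat_lit 5) (nat_lit 315) (nat_lit 254) (nat_lit 211)) (XT.nd (nat_lit 78) (nat_lit 0) (nat_lit 0) (XT.lf (nat_lit 0) (nat_lit 594315075) (nat_lit 304) (nat_lit 1303099127) (nat_lit 380) (nat_lit 9478231742) (nat_lit 62) (nat_lit 5) (nat_lit 66) (nat_lit 5) (nat_lit 67) (nat_lit 5) (nat_lit 316) (nat_lit 254) (nat_lit 210)) (XT.lf (nat_lit 0) (nat_lit 4586785308) (nat_lit 380) (nat_lit 5089230653) (nat_lit 76) (nat_lit 1912828671) (nat_lit 62) (nat_lit 5) (nat_lit 67) (nat_lit 5) (nat_lit 63) (nat_lit 5) (nat_lit 317) (nat_lit 254) (nat_lit 209)))))))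 (XT.nd (nat_lit 936) (nat_lit 836) (nat_lit 0) (XT.nd (nat_lit 468) (nat_lit 760) (nat_lit 0) (XT.nd (nat_lit 234) (nat_lit 228) (nat_lit 0) (XT.nd (nat_lit 78) (nat_lit 304) (nat_lit 0) (XT.lf (nat_lit 0) (nat_lit 714046648) (nat_lit 228) (nat_lit 6620412273) (nat_lit 304) (nat_lit 4474707863) (nat_lit 59) (nat_lit 5) (nat_lit 62) (nat_lit 5) (nat_lit 63) (nat_lit 5) (nat_lit 318) (nat_lit 254) (nat_lit 208)) (XT.nd (nat_lit 78) (nat_lit 304) (nat_lit 0) (XT.lf (nat_lit 0) (nat_lit 6735723227) (nat_lit 228) (nat_lit 3438736844) (nat_lit 304) (nat_lit 1861396117) (nat_lit 59) (nat_lit 5) (nat_lit 62) (nat_lit 5) (nat_lit 63) (nat_lit 5) (nat_lit 319) (nat_lit 254) (nat_lit 207)) (XT.lf (nat_lit 0) (nat_lit 613557921) (nat_lit 228) (nat_lit 165716404) (nat_lit 304) (nat_lit 11490929029) (nat_lit 55) (nat_lit 5) (nat_lit 58) (nat_lit 5) (nat_lit 59) (nat_lit 5) (nat_lit 320) (nat_lit 254) (nat_lit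 206)))) (XT.nd (nat_lit 78) (nat_lit 228) (nat_lit 0) (XT.lf (nat_lit 0) (nat_lit 3506326881) (nat_lit 304) (nat_lit 5806074312) (nat_lit 76) (nat_lit 3197339507) (nat_lit 55) (nat_lit 5) (nat_lit 59) (nat_lit 5) (nat_lit 56) (nat_lit 5) (nat_lit 321) (nat_lit 254) (nat_lit 205)) (XT.nd (nat_lit 78) (nat_lit 0) (nat_lit 0) (XT.lf (nat_lit 0) (nat_lit 163670565) (nat_lit 228) (nat_lit 6115618178) (nat_lit 304) (nat_lit 6478300920) (nat_lit 52) (nat_lit 5) (nat_lit 55) (nat_lit 5) (nat_lit 56) (nat_lit 5) (nat_lit 322) (nat_lit 254) (nat_lit 204)) (XT.lf (nat_lit 0) (nat_lit 6374197809) (nat_lit 228) (nat_lit 2781343522) (nat_lit 304) (nat_lit 3856776727) (nat_lit 52) (nat_lit 5) (nat_lit 55) (nat_lit 5) (nat_lit 56) (nat_lit 5) (nat_lit 323) (nat_lit 254) (nat_lit 203))))) (XT.nd (nat_lit 234) (nat_lit 456) (nat_lit 0) (XT.nd (nat_lit 78) (nat_lit 304) (nat_lit 0) (XT.lf (nat_lit 0) (nat_lit 12086776763)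 (nat_lit 304) (nat_lit 566575486) (nat_lit 76) (nat_lit 622320847) (nat_lit 52) (nat_lit 5) (nat_lit 56) (nat_lit 5) (nat_lit 53) (nat_lit 5) (nat_lit 324) (nat_lit 254) (nat_lit 202)) (XT.nd (nat_lit 78) (nat_lit 0) (nat_lit 0) (XT.lf (nat_lit 0) (nat_lit 1575008441) (nat_lit 304) (nat_lit 7844916166) (nat_lit 76) (nat_lit 4125205316) (nat_lit 48) (nat_lit 5) (nat_lit 52) (nat_lit 5) (nat_lit 49) (nat_lit 5) (nat_lit 325) (nat_lit 254) (nat_lit 201)) (XT.lf (nat_lit 0) (nat_lit 4367366986) (nat_lit 304) (nat_lit 1722933055) (nat_lit 76) (nat_lit 7732976086) (nat_lit 48) (nat_lit 5) (nat_lit 52) (nat_lit 5) (nat_lit 49) (nat_lit 5) (nat_lit 326) (nat_lit 254) (nat_lit 200)))) (XT.nd (nat_lit 78) (nat_lit 228) (nat_lit 0) (XT.lf (nat_lit 0) (nat_lit 4619228637) (nat_lit 228) (nat_lit 2633383430) (nat_lit 304) (nat_lit 6856921733) (nat_lit 45) (nat_lit 5) (nat_lit 48) (nat_lit 5) (nat_lit 49) (nat_lit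 5) (nat_lit 327) (nat_lit 254) (nat_lit 199)) (XT.nd (nat_lit 78) (nat_lit 228) (nat_lit 0) (XT.lf (nat_lit 0) (nat_lit 10215952421) (nat_lit 304) (nat_lit 3279968462) (nat_lit 76) (nat_lit 908751561) (nat_lit 45) (nat_lit 5) (nat_lit 49) (nat_lit 5) (nat_lit 46) (nat_lit 5) (nat_lit 328) (nat_lit 254) (nat_lit 198)) (XT.lf (nat_lit 0) (nat_lit 3098644388) (nat_lit 228) (nat_lit 10191479813) (nat_lit 304) (nat_lit 1417921340) (nat_lit 42) (nat_lit 5) (nat_lit 45) (nat_lit 5) (nat_lit 46) (nat_lit 5) (nat_lit 329) (nat_lit 254) (nat_lit 197)))))) (XT.nd (nat_lit 468) (nat_lit 380) (nat_lit 0) (XT.nd (nat_lit 234) (nat_lit 228) (nat_lit 0) (XT.nd (nat_lit 78) (nat_lit 152) (nat_lit 0) (XT.lf (nat_lit 0) (nat_lit 1407622684) (nat_lit 304) (nat_lit 5350427510) (nat_lit 76) (nat_lit 8262102272) (nat_lit 41) (nat_lit 5) (nat_lit 45) (nat_lit 5) (nat_lit 42) (nat_lit 5) (nat_lit 330) (nat_lit 254) (nat_lit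 196)) (XT.nd (nat_lit 78) (nat_lit 0) (nat_lit 0) (XT.lf (nat_lit 0) (nat_lit 1051710415) (nat_lit 152) (nat_lit 3215011888) (nat_lit 228) (nat_lit 11075195477) (nat_lit 39) (nat_lit 5) (nat_lit 41) (nat_lit 5) (nat_lit 42) (nat_lit 5) (nat_lit 331) (nat_lit 254) (nat_lit 195)) (XT.lf (nat_lit 0) (nat_lit 7237806397) (nat_lit 228) (nat_lit 7972251173) (nat_lit 76) (nat_lit 462526103) (nat_lit 39) (nat_lit 5) (nat_lit 42) (nat_lit 5) (nat_lit 40) (nat_lit 5) (nat_lit 332) (nat_lit 254) (nat_lit 194)))) (XT.nd (nat_lit 78) (nat_lit 228) (nat_lit 0) (XT.lf (nat_lit 0) (nat_lit 10298275004) (nat_lit 228) (nat_lit 1546507629) (nat_lit 76) (nat_lit 4168412329) (nat_lit 39) (nat_lit 5) (nat_lit 42) (nat_lit 5) (nat_lit 40) (nat_lit 5) (nat_lit 333) (nat_lit 254) (nat_lit 193)) (XT.nd (nat_lit 78) (nat_lit 0) (nat_lit 0) (XT.lf (nat_lit 0) (nat_lit 5123521003) (nat_lit 228) (nat_lit 8345627074) (nat_lit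 304) (nat_lit 2894350819) (nat_lit 36) (nat_lit 5) (nat_lit 39) (nat_lit 5) (nat_lit 40) (nat_lit 5) (nat_lit 334) (nat_lit 254) (nat_lit 192)) (XT.lf (nat_lit 0) (nat_lit 11977361973) (nat_lit 228) (nat_lit 4743173751) (nat_lit 304) (nat_lit 4245656) (nat_lit 36) (nat_lit 5) (nat_lit 39) (nat_lit 5) (nat_lit 40) (nat_lit 5) (nat_lit 335) (nat_lit 254) (nat_lit 191))))) (XT.nd (nat_lit 234) (nat_lit 152) (nat_lit 0) (XT.nd (nat_lit 78) (nat_lit 0) (nat_lit 0) (XT.lf (nat_lit 0) (nat_lit 1901229183) (nat_lit 152) (nat_lit 1001935810) (nat_lit 228) (nat_lit 14193251192) (nat_lit 33) (nat_lit 5) (nat_lit 35) (nat_lit 5) (nat_lit 36) (nat_lit 5) (nat_lit 336) (nat_lit 254) (nat_lit 190)) (XT.nd (nat_lit 78) (nat_lit 0) (nat_lit 0) (XT.lf (nat_lit 0) (nat_lit 5944116155) (nat_lit 228) (nat_lit 8706521977) (nat_lit 76) (nat_lit 2827196982) (nat_lit 33) (nat_lit 5) (nat_lit 36) (nat_lit 5) (nat_lit 34)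 (nat_lit 5) (nat_lit 337) (nat_lit 254) (nat_lit 189)) (XT.lf (nat_lit 0) (nat_lit 9057651453) (nat_lit 228) (nat_lit 2079221412) (nat_lit 76) (nat_lit 6734410697) (nat_lit 33) (nat_lit 5) (nat_lit 36) (nat_lit 5) (nat_lit 34) (nat_lit 5) (nat_lit 338) (nat_lit 254) (nat_lit 188)))) (XT.nd (nat_lit 78) (nat_lit 0) (nat_lit 0) (XT.lf (nat_lit 0) (nat_lit 4795718499) (nat_lit 152) (nat_lit 7487241111) (nat_lit 228) (nat_lit 5993051662) (nat_lit 31) (nat_lit 5) (nat_lit 33) (nat_lit 5) (nat_lit 34) (nat_lit 5) (nat_lit 339) (nat_lit 254) (nat_lit 187)) (XT.nd (nat_lit 78) (nat_lit 0) (nat_lit 0) (XT.lf (nat_lit 0) (nat_lit 11875206035) (nat_lit 152) (nat_lit 3723466149) (nat_lit 228) (nat_lit 3094425308) (nat_lit 31) (nat_lit 5) (nat_lit 33) (nat_lit 5) (nat_lit 34) (nat_lit 5) (nat_lit 340) (nat_lit 254) (nat_lit 186)) (XT.lf (nat_lit 0) (nat_lit 18988616348) (nat_lit 228) (nat_lit 786105) (nat_lit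 76) (nat_lit 134076314) (nat_lit 31) (nat_lit 5) (nat_lit 34) (nat_lit 5) (nat_lit 32) (nat_lit 4) (nat_lit 341) (nat_lit 254) (nat_lit 185))))))))
noncomputable def xc93 : XT := (XT.nd (nat_lit 1794) (nat_lit 608) (nat_lit 0) (XT.nd (nat_lit 858) (nat_lit 380) (nat_lit 0) (XT.nd (nat_lit 390) (nat_lit 380) (nat_lit 0) (XT.nd (nat_lit 156) (nat_lit 152) (nat_lit 0) (XT.nd (nat_lit 78) (nat_lit 0) (nat_lit 0) (XT.lf (nat_lit 0) (nat_lit 2936378440) (nat_lit 228) (nat_lit 12513520193) (nat_lit 76) (nat_lit 4113664172) (nat_lit 28) (nat_lit 5) (nat_lit 31) (nat_lit 5) (nat_lit 29) (nat_lit 5) (nat_lit 342) (nat_lit 254) (nat_lit 184)) (XT.lf (nat_lit 0) (nat_lit 6071194258) (nat_lit 228) (nat_lit 5748316517) (nat_lit 76) (nat_lit 8198097213) (nat_lit 28) (nat_lit 5) (nat_lit 31) (nat_lit 5) (nat_lit 29) (nat_lit 5) (nat_lit 343) (nat_lit 254) (nat_lit 183))) (XT.nd (nat_lit 78) (nat_lit 0) (nat_lit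 0) (XT.lf (nat_lit 0) (nat_lit 1201993298) (nat_lit 152) (nat_lit 8084509055) (nat_lit 228) (nat_lit 11199201194) (nat_lit 26) (nat_lit 5) (nat_lit 28) (nat_lit 5) (nat_lit 29) (nat_lit 5) (nat_lit 344) (nat_lit 254) (nat_lit 182)) (XT.nd (nat_lit 78) (nat_lit 0) (nat_lit 0) (XT.lf (nat_lit 0) (nat_lit 8437747024) (nat_lit 152) (nat_lit 4193801003) (nat_lit 228) (nat_lit 8335317399) (nat_lit 26) (nat_lit 5) (nat_lit 28) (nat_lit 5) (nat_lit 29) (nat_lit 5) (nat_lit 345) (nat_lit 254) (nat_lit 181)) (XT.lf (nat_lit 0) (nat_lit 15850864393) (nat_lit 152) (nat_lit 202033695) (nat_lit 228) (nat_lit 5410306649) (nat_lit 26) (nat_lit 5) (nat_lit 28) (nat_lit 5) (nat_lit 29) (nat_lit 5) (nat_lit 346) (nat_lit 254) (nat_lit 180))))) (XT.nd (nat_lit 234) (nat_lit 152) (nat_lit 0) (XT.nd (nat_lit 78) (nat_lit 76) (nat_lit 0) (XT.lf (nat_lit 0) (nat_lit 1463797460) (nat_lit 152) (nat_lit 18141249732) (nat_lit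 228) (nat_lit 2368562830) (nat_lit 24) (nat_lit 5) (nat_lit 26) (nat_lit 5) (nat_lit 27) (nat_lit 4) (nat_lit 347) (nat_lit 254) (nat_lit 179)) (XT.nd (nat_lit 78) (nat_lit 0) (nat_lit 0) (XT.lf (nat_lit 0) (nat_lit 785321547) (nat_lit 228) (nat_lit 13679499293) (nat_lit 76) (nat_lit 8033231398) (nat_lit 23) (nat_lit 5) (nat_lit 26) (nat_lit 5) (nat_lit 24) (nat_lit 5) (nat_lit 348) (nat_lit 254) (nat_lit 178)) (XT.lf (nat_lit 0) (nat_lit 3963469114) (nat_lit 228) (nat_lit 6705814395) (nat_lit 76) (nat_lit 12368941913) (nat_lit 23) (nat_lit 5) (nat_lit 26) (nat_lit 5) (nat_lit 24) (nat_lit 5) (nat_lit 349) (nat_lit 254) (nat_lit 177)))) (XT.nd (nat_lit 78) (nat_lit 0) (nat_lit 0) (XT.lf (nat_lit 0) (nat_lit 448862644) (nat_lit 152) (nat_lit 6770328182) (nat_lit 228) (nat_lit 16375964341) (nat_lit 21) (nat_lit 5) (nat_lit 23) (nat_lit 5) (nat_lit 24) (nat_lit 5) (nat_lit 350) (nat_lit 254) (nat_lit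 176)) (XT.nd (nat_lit 78) (nat_lit 0) (nat_lit 0) (XT.lf (nat_lit 0) (nat_lit 7919027808) (nat_lit 152) (nat_lit 2699478226) (nat_lit 228) (nat_lit 13548926844) (nat_lit 21) (nat_lit 5) (nat_lit 23) (nat_lit 5) (nat_lit 24) (nat_lit 5) (nat_lit 351) (nat_lit 254) (nat_lit 175)) (XT.lf (nat_lit 0) (nat_lit 14112859822) (nat_lit 228) (nat_lit 9193999422) (nat_lit 76) (nat_lit 1450245113) (nat_lit 21) (nat_lit 5) (nat_lit 24) (nat_lit 5) (nat_lit 22) (nat_lit 4) (nat_lit 352) (nat_lit 254) (nat_lit 174)))))) (XT.nd (nat_lit 468) (nat_lit 76) (nat_lit 0) (XT.nd (nat_lit 234) (nat_lit 228) (nat_lit 0) (XT.nd (nat_lit 78) (nat_lit 76) (nat_lit 0) (XT.lf (nat_lit 0) (nat_lit 17718094756) (nat_lit 228) (nat_lit 1989700779) (nat_lit 76) (nat_lit 5656505640) (nat_lit 21) (nat_lit 5) (nat_lit 24) (nat_lit 5) (nat_lit 22) (nat_lit 4) (nat_lit 353) (nat_lit 254) (nat_lit 173)) (XT.nd (nat_lit 78) (nat_lit 0)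 (nat_lit 0) (XT.lf (nat_lit 0) (nat_lit 5504140518) (nat_lit 76) (nat_lit 15960180651) (nat_lit 152) (nat_lit 4524423917) (nat_lit 20) (nat_lit 5) (nat_lit 21) (nat_lit 5) (nat_lit 22) (nat_lit 4) (nat_lit 354) (nat_lit 254) (nat_lit 172)) (XT.lf (nat_lit 0) (nat_lit 13229925313) (nat_lit 76) (nat_lit 12093287558) (nat_lit 152) (nat_lit 1308716838) (nat_lit 20) (nat_lit 5) (nat_lit 21) (nat_lit 5) (nat_lit 22) (nat_lit 4) (nat_lit 355) (nat_lit 254) (nat_lit 171)))) (XT.nd (nat_lit 78) (nat_lit 152) (nat_lit 0) (XT.lf (nat_lit 0) (nat_lit 1944924763) (nat_lit 152) (nat_lit 6159264805) (nat_lit 76) (nat_lit 19190240654) (nat_lit 19) (nat_lit 5) (nat_lit 21) (nat_lit 5) (nat_lit 20) (nat_lit 5) (nat_lit 356) (nat_lit 254) (nat_lit 170)) (XT.nd (nat_lit 78) (nat_lit 0) (nat_lit 0) (XT.lf (nat_lit 0) (nat_lit 1280673342) (nat_lit 152) (nat_lit 3982633305) (nat_lit 228) (nat_lit 22713321741) (nat_lit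 17) (nat_lit 5) (nat_lit 19) (nat_lit 5) (nat_lit 20) (nat_lit 5) (nat_lit 357) (nat_lit 254) (nat_lit 169)) (XT.lf (nat_lit 0) (nat_lit 8727818084) (nat_lit 228) (nat_lit 19642745930) (nat_lit 76) (nat_lit 307345136) (nat_lit 17) (nat_lit 5) (nat_lit 20) (nat_lit 5) (nat_lit 18) (nat_lit 4) (nat_lit 358) (nat_lit 254) (nat_lit 168))))) (XT.nd (nat_lit 234) (nat_lit 0) (nat_lit 0) (XT.nd (nat_lit 78) (nat_lit 76) (nat_lit 0) (XT.lf (nat_lit 0) (nat_lit 12317485043) (nat_lit 228) (nat_lit 12448681352) (nat_lit 76) (nat_lit 4633438921) (nat_lit 17) (nat_lit 5) (nat_lit 20) (nat_lit 5) (nat_lit 18) (nat_lit 4) (nat_lit 359) (nat_lit 254) (nat_lit 167)) (XT.nd (nat_lit 78) (nat_lit 76) (nat_lit 0) (XT.lf (nat_lit 0) (nat_lit 15997160618) (nat_lit 228) (nat_lit 5069191728) (nat_lit 76) (nat_lit 9077143653) (nat_lit 17) (nat_lit 5) (nat_lit 20) (nat_lit 5) (nat_lit 18) (nat_lit 4) (nat_lit 360) (nat_lit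 254) (nat_lit 166)) (XT.lf (nat_lit 0) (nat_lit 2551969147) (nat_lit 76) (nat_lit 17242622001) (nat_lit 152) (nat_lit 11114904121) (nat_lit 16) (nat_lit 5) (nat_lit 17) (nat_lit 5) (nat_lit 18) (nat_lit 4) (nat_lit 361) (nat_lit 254) (nat_lit 165)))) (XT.nd (nat_lit 78) (nat_lit 0) (nat_lit 0) (XT.lf (nat_lit 0) (nat_lit 10476456093) (nat_lit 76) (nat_lit 13263730088) (nat_lit 152) (nat_lit 7957273522) (nat_lit 16) (nat_lit 5) (nat_lit 17) (nat_lit 5) (nat_lit 18) (nat_lit 4) (nat_lit 362) (nat_lit 254) (nat_lit 164)) (XT.nd (nat_lit 78) (nat_lit 0) (nat_lit 0) (XT.lf (nat_lit 0) (nat_lit 18610306563) (nat_lit 76) (nat_lit 9177388803) (nat_lit 152) (nat_lit 4721873385) (nat_lit 16) (nat_lit 5) (nat_lit 17) (nat_lit 5) (nat_lit 18) (nat_lit 4) (nat_lit 363) (nat_lit 254) (nat_lit 163)) (XT.lf (nat_lit 0) (nat_lit 26960627806) (nat_lit 76) (nat_lit 4980027556) (nat_lit 152) (nat_lit 1405876663) (nat_lit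 16) (nat_lit 5) (nat_lit 17) (nat_lit 5) (nat_lit 18) (nat_lit 4) (nat_lit 364) (nat_lit 254) (nat_lit 162))))))) (XT.nd (nat_lit 936) (nat_lit 152) (nat_lit 0) (XT.nd (nat_lit 468) (nat_lit 152) (nat_lit 0) (XT.nd (nat_lit 234) (nat_lit 76) (nat_lit 0) (XT.nd (nat_lit 78) (nat_lit 0) (nat_lit 0) (XT.lf (nat_lit 0) (nat_lit 1332472870) (nat_lit 152) (nat_lit 635047197) (nat_lit 228) (nat_lit 32240601613) (nat_lit 13) (nat_lit 5) (nat_lit 15) (nat_lit 5) (nat_lit 16) (nat_lit 5) (nat_lit 365) (nat_lit 254) (nat_lit 161)) (XT.nd (nat_lit 78) (nat_lit 0) (nat_lit 0) (XT.lf (nat_lit 0) (nat_lit 5500316833) (nat_lit 228) (nat_lit 25758957825) (nat_lit 76) (nat_lit 3833283860) (nat_lit 13) (nat_lit 5) (nat_lit 16) (nat_lit 5) (nat_lit 14) (nat_lit 4) (nat_lit 366) (nat_lit 254) (nat_lit 160)) (XT.lf (nat_lit 0) (nat_lit 9130255132) (nat_lit 228) (nat_lit 18461428677) (nat_lit 76) (nat_lit 8412120335)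 (nat_lit 13) (nat_lit 5) (nat_lit 16) (nat_lit 5) (nat_lit 14) (nat_lit 4) (nat_lit 367) (nat_lit 254) (nat_lit 159)))) (XT.nd (nat_lit 78) (nat_lit 76) (nat_lit 0) (XT.lf (nat_lit 0) (nat_lit 12854402294) (nat_lit 228) (nat_lit 10970580423) (nat_lit 76) (nat_lit 13117855210) (nat_lit 13) (nat_lit 5) (nat_lit 16) (nat_lit 5) (nat_lit 14) (nat_lit 4) (nat_lit 368) (nat_lit 254) (nat_lit 158)) (XT.nd (nat_lit 78) (nat_lit 76) (nat_lit 0) (XT.lf (nat_lit 0) (nat_lit 16676012428) (nat_lit 228) (nat_lit 3279867660) (nat_lit 76) (nat_lit 17954600293) (nat_lit 13) (nat_lit 5) (nat_lit 16) (nat_lit 5) (nat_lit 14) (nat_lit 4) (nat_lit 369) (nat_lit 254) (nat_lit 157)) (XT.lf (nat_lit 0) (nat_lit 4709325553) (nat_lit 76) (nat_lit 15934368170) (nat_lit 152) (nat_lit 18262525230) (nat_lit 12) (nat_lit 5) (nat_lit 13) (nat_lit 5) (nat_lit 14) (nat_lit 4) (nat_lit 370) (nat_lit 254) (nat_lit 156))))) (XT.nd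 (nat_lit 234) (nat_lit 152) (nat_lit 0) (XT.nd (nat_lit 78) (nat_lit 0) (nat_lit 0) (XT.lf (nat_lit 0) (nat_lit 12981528435) (nat_lit 76) (nat_lit 11768324733) (nat_lit 152) (nat_lit 15181402334) (nat_lit 12) (nat_lit 5) (nat_lit 13) (nat_lit 5) (nat_lit 14) (nat_lit 4) (nat_lit 371) (nat_lit 254) (nat_lit 155)) (XT.nd (nat_lit 78) (nat_lit 0) (nat_lit 0) (XT.lf (nat_lit 0) (nat_lit 21478693328) (nat_lit 76) (nat_lit 7487229778) (nat_lit 152) (nat_lit 12021527255) (nat_lit 12) (nat_lit 5) (nat_lit 13) (nat_lit 5) (nat_lit 14) (nat_lit 4) (nat_lit 372) (nat_lit 254) (nat_lit 154)) (XT.lf (nat_lit 0) (nat_lit 30208244937) (nat_lit 76) (nat_lit 3087342542) (nat_lit 152) (nat_lit 8780138935) (nat_lit 12) (nat_lit 5) (nat_lit 13) (nat_lit 5) (nat_lit 14) (nat_lit 4) (nat_lit 373) (nat_lit 254) (nat_lit 153)))) (XT.nd (nat_lit 78) (nat_lit 152) (nat_lit 0) (XT.lf (nat_lit 0) (nat_lit 37756425332) (nat_lit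 152) (nat_lit 4033019401) (nat_lit 0) (nat_lit 1407175975) (nat_lit 12) (nat_lit 5) (nat_lit 14) (nat_lit 4) (nat_lit 12) (nat_lit 4) (nat_lit 374) (nat_lit 254) (nat_lit 152)) (XT.nd (nat_lit 78) (nat_lit 76) (nat_lit 0) (XT.lf (nat_lit 0) (nat_lit 4063685609) (nat_lit 76) (nat_lit 38344797882) (nat_lit 76) (nat_lit 1940944706) (nat_lit 11) (nat_lit 4) (nat_lit 12) (nat_lit 5) (nat_lit 12) (nat_lit 4) (nat_lit 375) (nat_lit 254) (nat_lit 151)) (XT.lf (nat_lit 0) (nat_lit 1659744497) (nat_lit 152) (nat_lit 33087585263) (nat_lit 76) (nat_lit 10788150714) (nat_lit 10) (nat_lit 5) (nat_lit 12) (nat_lit 5) (nat_lit 11) (nat_lit 4) (nat_lit 376) (nat_lit 254) (nat_lit 150)))))) (XT.nd (nat_lit 468) (nat_lit 76) (nat_lit 0) (XT.nd (nat_lit 234) (nat_lit 76) (nat_lit 0) (XT.nd (nat_lit 78) (nat_lit 0) (nat_lit 0) (XT.lf (nat_lit 0) (nat_lit 5317587827) (nat_lit 152) (nat_lit 25713632640) (nat_lit 76)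 (nat_lit 15725680521) (nat_lit 10) (nat_lit 5) (nat_lit 12) (nat_lit 5) (nat_lit 11) (nat_lit 4) (nat_lit 377) (nat_lit 254) (nat_lit 149)) (XT.nd (nat_lit 78) (nat_lit 0) (nat_lit 0) (XT.lf (nat_lit 0) (nat_lit 9073656279) (nat_lit 152) (nat_lit 18138783911) (nat_lit 76) (nat_lit 20802876535) (nat_lit 10) (nat_lit 5) (nat_lit 12) (nat_lit 5) (nat_lit 11) (nat_lit 4) (nat_lit 378) (nat_lit 254) (nat_lit 148)) (XT.lf (nat_lit 0) (nat_lit 12931231855) (nat_lit 152) (nat_lit 10356420278) (nat_lit 76) (nat_lit 26024175141) (nat_lit 10) (nat_lit 5) (nat_lit 12) (nat_lit 5) (nat_lit 11) (nat_lit 4) (nat_lit 379) (nat_lit 254) (nat_lit 147)))) (XT.nd (nat_lit 78) (nat_lit 76) (nat_lit 0) (XT.lf (nat_lit 0) (nat_lit 16893685252) (nat_lit 152) (nat_lit 2359741616) (nat_lit 76) (nat_lit 31394138638) (nat_lit 10) (nat_lit 5) (nat_lit 12) (nat_lit 5) (nat_lit 11) (nat_lit 4) (nat_lit 380) (nat_lit 254) (nat_lit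 146)) (XT.nd (nat_lit 78) (nat_lit 0) (nat_lit 0) (XT.lf (nat_lit 0) (nat_lit 5974829914) (nat_lit 76) (nat_lit 15047082614) (nat_lit 152) (nat_lit 31000063034) (nat_lit 9) (nat_lit 5) (nat_lit 10) (nat_lit 5) (nat_lit 11) (nat_lit 4) (nat_lit 381) (nat_lit 254) (nat_lit 145)) (XT.lf (nat_lit 0) (nat_lit 14589395372) (nat_lit 76) (nat_lit 10698016348) (nat_lit 152) (nat_lit 28149809935) (nat_lit 9) (nat_lit 5) (nat_lit 10) (nat_lit 5) (nat_lit 11) (nat_lit 4) (nat_lit 382) (nat_lit 254) (nat_lit 144))))) (XT.nd (nat_lit 234) (nat_lit 76) (nat_lit 0) (XT.nd (nat_lit 78) (nat_lit 0) (nat_lit 0) (XT.lf (nat_lit 0) (nat_lit 23444518561) (nat_lit 76) (nat_lit 6226256681) (nat_lit 152) (nat_lit 25224459208) (nat_lit 9) (nat_lit 5) (nat_lit 10) (nat_lit 5) (nat_lit 11) (nat_lit 4) (nat_lit 383) (nat_lit 254) (nat_lit 143)) (XT.nd (nat_lit 78) (nat_lit 0) (nat_lit 0) (XT.lf (nat_lit 0) (nat_lit 32547936967)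 (nat_lit 76) (nat_lit 1627896248) (nat_lit 152) (nat_lit 22221454723) (nat_lit 9) (nat_lit 5) (nat_lit 10) (nat_lit 5) (nat_lit 11) (nat_lit 4) (nat_lit 384) (nat_lit 254) (nat_lit 142)) (XT.lf (nat_lit 0) (nat_lit 38836331607) (nat_lit 152) (nat_lit 16066899067) (nat_lit 0) (nat_lit 3040569635) (nat_lit 9) (nat_lit 5) (nat_lit 11) (nat_lit 4) (nat_lit 9) (nat_lit 4) (nat_lit 385) (nat_lit 254) (nat_lit 141)))) (XT.nd (nat_lit 78) (nat_lit 76) (nat_lit 0) (XT.lf (nat_lit 0) (nat_lit 43643450785) (nat_lit 152) (nat_lit 8083668064) (nat_lit 0) (nat_lit 7809390793) (nat_lit 9) (nat_lit 5) (nat_lit 11) (nat_lit 4) (nat_lit 9) (nat_lit 4) (nat_lit 386) (nat_lit 254) (nat_lit 140)) (XT.nd (nat_lit 78) (nat_lit 0) (nat_lit 0) (XT.lf (nat_lit 0) (nat_lit 125413274) (nat_lit 76) (nat_lit 48461535085) (nat_lit 76) (nat_lit 12590292549) (nat_lit 8) (nat_lit 4) (nat_lit 9) (nat_lit 5) (nat_lit 9) (nat_lit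 4) (nat_lit 387) (nat_lit 254) (nat_lit 139)) (XT.lf (nat_lit 0) (nat_lit 8730538249) (nat_lit 76) (nat_lit 45020911216) (nat_lit 76) (nat_lit 9113569123) (nat_lit 8) (nat_lit 4) (nat_lit 9) (nat_lit 5) (nat_lit 9) (nat_lit 4) (nat_lit 388) (nat_lit 254) (nat_lit 138))))))))
noncomputable def xc94 : XT := (XT.nd (nat_lit 32136) (nat_lit 0) (nat_lit 7220) (XT.nd (nat_lit 858) (nat_lit 0) (nat_lit 0) (XT.nd (nat_lit 390) (nat_lit 76) (nat_lit 0) (XT.nd (nat_lit 156) (nat_lit 76) (nat_lit 0) (XT.nd (nat_lit 78) (nat_lit 0) (nat_lit 0) (XT.lf (nat_lit 0) (nat_lit 17578345055) (nat_lit 76) (nat_lit 41483870070) (nat_lit 76) (nat_lit 5541479863) (nat_lit 8) (nat_lit 4) (nat_lit 9) (nat_lit 5) (nat_lit 9) (nat_lit 4) (nat_lit 389) (nat_lit 254) (nat_lit 137)) (XT.lf (nat_lit 0) (nat_lit 26676564785) (nat_lit 76) (nat_lit 37847321029) (nat_lit 76) (nat_lit 1870903527) (nat_lit 8) (nat_lit 4) (nat_lit 9)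 (nat_lit 5) (nat_lit 9) (nat_lit 4) (nat_lit 390) (nat_lit 254) (nat_lit 136))) (XT.nd (nat_lit 78) (nat_lit 0) (nat_lit 0) (XT.lf (nat_lit 0) (nat_lit 1864264662) (nat_lit 152) (nat_lit 32224996445) (nat_lit 76) (nat_lit 34150057261) (nat_lit 7) (nat_lit 5) (nat_lit 9) (nat_lit 5) (nat_lit 8) (nat_lit 4) (nat_lit 391) (nat_lit 254) (nat_lit 135)) (XT.nd (nat_lit 78) (nat_lit 0) (nat_lit 0) (XT.lf (nat_lit 0) (nat_lit 5665866577) (nat_lit 152) (nat_lit 24539818546) (nat_lit 76) (nat_lit 39933187656) (nat_lit 7) (nat_lit 5) (nat_lit 9) (nat_lit 5) (nat_lit 8) (nat_lit 4) (nat_lit 392) (nat_lit 254) (nat_lit 134)) (XT.lf (nat_lit 0) (nat_lit 9573732072) (nat_lit 152) (nat_lit 16637991386) (nat_lit 76) (nat_lit 45883928451) (nat_lit 7) (nat_lit 5) (nat_lit 9) (nat_lit 5) (nat_lit 8) (nat_lit 4) (nat_lit 393) (nat_lit 254) (nat_lit 133))))) (XT.nd (nat_lit 234) (nat_lit 0) (nat_lit 0) (XT.nd (nat_lit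 78) (nat_lit 76) (nat_lit 0) (XT.lf (nat_lit 0) (nat_lit 13591275787) (nat_lit 152) (nat_lit 8512610456) (nat_lit 76) (nat_lit 52007479321) (nat_lit 7) (nat_lit 5) (nat_lit 9) (nat_lit 5) (nat_lit 8) (nat_lit 4) (nat_lit 394) (nat_lit 254) (nat_lit 132)) (XT.nd (nat_lit 78) (nat_lit 76) (nat_lit 0) (XT.lf (nat_lit 0) (nat_lit 17722008196) (nat_lit 152) (nat_lit 156575909) (nat_lit 76) (nat_lit 58309190941) (nat_lit 7) (nat_lit 5) (nat_lit 9) (nat_lit 5) (nat_lit 8) (nat_lit 4) (nat_lit 395) (nat_lit 254) (nat_lit 131)) (XT.lf (nat_lit 0) (nat_lit 8605334719) (nat_lit 76) (nat_lit 13446923700) (nat_lit 152) (nat_lit 56271954685) (nat_lit 6) (nat_lit 5) (nat_lit 7) (nat_lit 5) (nat_lit 8) (nat_lit 4) (nat_lit 396) (nat_lit 254) (nat_lit 130)))) (XT.nd (nat_lit 78) (nat_lit 0) (nat_lit 0) (XT.lf (nat_lit 0) (nat_lit 17620711055) (nat_lit 76) (nat_lit 8886248665) (nat_lit 152) (nat_lit 54017952319)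 (nat_lit 6) (nat_lit 5) (nat_lit 7) (nat_lit 5) (nat_lit 8) (nat_lit 4) (nat_lit 397) (nat_lit 254) (nat_lit 129)) (XT.nd (nat_lit 78) (nat_lit 0) (nat_lit 0) (XT.lf (nat_lit 0) (nat_lit 26894314444) (nat_lit 76) (nat_lit 4194155054) (nat_lit 152) (nat_lit 51703371347) (nat_lit 6) (nat_lit 5) (nat_lit 7) (nat_lit 5) (nat_lit 8) (nat_lit 4) (nat_lit 398) (nat_lit 254) (nat_lit 128)) (XT.lf (nat_lit 0) (nat_lit 35806880191) (nat_lit 152) (nat_lit 48698821476) (nat_lit 0) (nat_lit 621095991) (nat_lit 6) (nat_lit 5) (nat_lit 8) (nat_lit 4) (nat_lit 6) (nat_lit 4) (nat_lit 399) (nat_lit 254) (nat_lit 127)))))) (XT.nd (nat_lit 30810) (nat_lit 0) (nat_lit 17252) (XT.nd (nat_lit 30576) (nat_lit 0) (nat_lit 19304) (XT.nd (nat_lit 156) (nat_lit 0) (nat_lit 0) (XT.lf (nat_lit 0) (nat_lit 40701880204) (nat_lit 152) (nat_lit 41337361601) (nat_lit 0) (nat_lit 5491513961) (nat_lit 6) (nat_lit 5) (nat_lit 8) (nat_lit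 4) (nat_lit 6) (nat_lit 4) (nat_lit 400) (nat_lit 254) (nat_lit 126)) (XT.nd (nat_lit 30342) (nat_lit 0) (nat_lit 20216) (XT.lf (nat_lit 0) (nat_lit 50917929386) (nat_lit 152) (nat_lit 25979314210) (nat_lit 0) (nat_lit 15660526151) (nat_lit 6) (nat_lit 5) (nat_lit 8) (nat_lit 4) (nat_lit 6) (nat_lit 4) (nat_lit 402) (nat_lit 254) (nat_lit 124)) (XT.lf (nat_lit 0) (nat_lit 1492003291) (nat_lit 380) (nat_lit 294292536) (nat_lit 0) (nat_lit 1492003291) (nat_lit 272) (nat_lit 5) (nat_lit 277) (nat_lit 4) (nat_lit 272) (nat_lit 4) (nat_lit 270) (nat_lit 255) (nat_lit 255)))) (XT.nd (nat_lit 78) (nat_lit 532) (nat_lit 0) (XT.lf (nat_lit 0) (nat_lit 2965826488) (nat_lit 380) (nat_lit 2939310726) (nat_lit 380) (nat_lit 676160757) (nat_lit 267) (nat_lit 4) (nat_lit 272) (nat_lit 5) (nat_lit 272) (nat_lit 4) (nat_lit 271) (nat_lit 255) (nat_lit 254)) (XT.nd (nat_lit 78) (nat_lit 456) (nat_lit 0) (XT.lf (nat_lit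 0) (nat_lit 2166962121) (nat_lit 456) (nat_lit 61449841) (nat_lit 76) (nat_lit 4380837930) (nat_lit 266) (nat_lit 5) (nat_lit 272) (nat_lit 5) (nat_lit 267) (nat_lit 4) (nat_lit 272) (nat_lit 255) (nat_lit 253)) (XT.lf (nat_lit 0) (nat_lit 3593108832) (nat_lit 456) (nat_lit 1424983622) (nat_lit 532) (nat_lit 1621969742) (nat_lit 260) (nat_lit 5) (nat_lit 266) (nat_lit 5) (nat_lit 267) (nat_lit 4) (nat_lit 273) (nat_lit 255) (nat_lit 252))))) (XT.nd (nat_lit 234) (nat_lit 836) (nat_lit 0) (XT.nd (nat_lit 78) (nat_lit 608) (nat_lit 0) (XT.lf (nat_lit 0) (nat_lit 615401600) (nat_lit 532) (nat_lit 551780171) (nat_lit 608) (nat_lit 5507263232) (nat_lit 252) (nat_lit 5) (nat_lit 259) (nat_lit 5) (nat_lit 260) (nat_lit 5) (nat_lit 274) (nat_lit 255) (nat_lit 251)) (XT.nd (nat_lit 78) (nat_lit 608) (nat_lit 0) (XT.lf (nat_lit 0) (nat_lit 3946934356) (nat_lit 608) (nat_lit 2352287434) (nat_lit 76) (nat_lit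 412255262) (nat_lit 252) (nat_lit 5) (nat_lit 260) (nat_lit 5) (nat_lit 253) (nat_lit 4) (nat_lit 275) (nat_lit 255) (nat_lit 250)) (XT.lf (nat_lit 0) (nat_lit 1416259232) (nat_lit 608) (nat_lit 5320773220) (nat_lit 684) (nat_lit 15056035) (nat_lit 244) (nat_lit 5) (nat_lit 252) (nat_lit 5) (nat_lit 253) (nat_lit 4) (nat_lit 276) (nat_lit 255) (nat_lit 249)))) (XT.nd (nat_lit 78) (nat_lit 760) (nat_lit 0) (XT.lf (nat_lit 0) (nat_lit 2694657407) (nat_lit 684) (nat_lit 1547397918) (nat_lit 76) (nat_lit 2553330407) (nat_lit 243) (nat_lit 5) (nat_lit 252) (nat_lit 5) (nat_lit 244) (nat_lit 5) (nat_lit 277) (nat_lit 255) (nat_lit 248)) (XT.nd (nat_lit 78) (nat_lit 76) (nat_lit 0) (XT.lf (nat_lit 0) (nat_lit 2329151457) (nat_lit 684) (nat_lit 3089977678) (nat_lit 760) (nat_lit 1423088711) (nat_lit 234) (nat_lit 5) (nat_lit 243) (nat_lit 5) (nat_lit 244) (nat_lit 5) (nat_lit 278) (nat_lit 255) (nat_lit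 247)) (XT.lf (nat_lit 0) (nat_lit 1236799482) (nat_lit 760) (nat_lit 621383187) (nat_lit 76) (nat_lit 5034287225) (nat_lit 233) (nat_lit 5) (nat_lit 243) (nat_lit 5) (nat_lit 234) (nat_lit 5) (nat_lit 279) (nat_lit 255) (nat_lit 246))))))) (XT.nd (nat_lit 936) (nat_lit 3572) (nat_lit 0) (XT.nd (nat_lit 468) (nat_lit 2812) (nat_lit 0) (XT.nd (nat_lit 234) (nat_lit 1976) (nat_lit 0) (XT.nd (nat_lit 78) (nat_lit 912) (nat_lit 0) (XT.lf (nat_lit 0) (nat_lit 3368668092) (nat_lit 760) (nat_lit 526340218) (nat_lit 836) (nat_lit 3050616691) (nat_lit 223) (nat_lit 5) (nat_lit 233) (nat_lit 5) (nat_lit 234) (nat_lit 5) (nat_lit 280) (nat_lit 255) (nat_lit 245)) (XT.nd (nat_lit 78) (nat_lit 76) (nat_lit 0) (XT.lf (nat_lit 0) (nat_lit 418749626) (nat_lit 836) (nat_lit 6149400079) (nat_lit 912) (nat_lit 434394705) (nat_lit 212) (nat_lit 5) (nat_lit 223) (nat_lit 5) (nat_lit 224) (nat_lit 5) (nat_lit 281) (nat_lit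 255) (nat_lit 244)) (XT.lf (nat_lit 0) (nat_lit 2175310385) (nat_lit 912) (nat_lit 2553085445) (nat_lit 76) (nat_lit 2333562956) (nat_lit 211) (nat_lit 5) (nat_lit 223) (nat_lit 5) (nat_lit 212) (nat_lit 5) (nat_lit 282) (nat_lit 255) (nat_lit 243)))) (XT.nd (nat_lit 78) (nat_lit 1064) (nat_lit 0) (XT.lf (nat_lit 0) (nat_lit 1553339284) (nat_lit 912) (nat_lit 3235987647) (nat_lit 988) (nat_lit 2335863222) (nat_lit 199) (nat_lit 5) (nat_lit 211) (nat_lit 5) (nat_lit 212) (nat_lit 5) (nat_lit 283) (nat_lit 255) (nat_lit 242)) (XT.nd (nat_lit 78) (nat_lit 988) (nat_lit 0) (XT.lf (nat_lit 0) (nat_lit 232298154) (nat_lit 988) (nat_lit 1429603765) (nat_lit 76) (nat_lit 5530130594) (nat_lit 198) (nat_lit 5) (nat_lit 211) (nat_lit 5) (nat_lit 199) (nat_lit 5) (nat_lit 284) (nat_lit 255) (nat_lit 241)) (XT.lf (nat_lit 0) (nat_lit 2780444940) (nat_lit 1064) (nat_lit 4463858220) (nat_lit 76) (nat_lit 17575124)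 (nat_lit 185) (nat_lit 5) (nat_lit 199) (nat_lit 5) (nat_lit 186) (nat_lit 5) (nat_lit 285) (nat_lit 255) (nat_lit 240))))) (XT.nd (nat_lit 234) (nat_lit 608) (nat_lit 0) (XT.nd (nat_lit 78) (nat_lit 2204) (nat_lit 0) (XT.lf (nat_lit 0) (nat_lit 5360527101) (nat_lit 1064) (nat_lit 240216126) (nat_lit 76) (nat_lit 1734594611) (nat_lit 185) (nat_lit 5) (nat_lit 199) (nat_lit 5) (nat_lit 186) (nat_lit 5) (nat_lit 286) (nat_lit 255) (nat_lit 239)) (XT.nd (nat_lit 78) (nat_lit 1064) (nat_lit 0) (XT.lf (nat_lit 0) (nat_lit 560924927) (nat_lit 1140) (nat_lit 3297059717) (nat_lit 76) (nat_lit 3554041332) (nat_lit 170) (nat_lit 5) (nat_lit 185) (nat_lit 5) (nat_lit 171) (nat_lit 5) (nat_lit 287) (nat_lit 255) (nat_lit 238)) (XT.lf (nat_lit 0) (nat_lit 1044753465) (nat_lit 1064) (nat_lit 2028027503) (nat_lit 1140) (nat_lit 4419622610) (nat_lit 156) (nat_lit 5) (nat_lit 170) (nat_lit 5) (nat_lit 171) (nat_lit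 5) (nat_lit 288) (nat_lit 255) (nat_lit 237)))) (XT.nd (nat_lit 78) (nat_lit 608) (nat_lit 0) (XT.lf (nat_lit 0) (nat_lit 5514258913) (nat_lit 1064) (nat_lit 107719818) (nat_lit 1140) (nat_lit 1954516912) (nat_lit 156) (nat_lit 5) (nat_lit 170) (nat_lit 5) (nat_lit 171) (nat_lit 5) (nat_lit 289) (nat_lit 255) (nat_lit 236)) (XT.nd (nat_lit 78) (nat_lit 0) (nat_lit 0) (XT.lf (nat_lit 0) (nat_lit 544660421) (nat_lit 608) (nat_lit 5255942931) (nat_lit 76) (nat_lit 1863346175) (nat_lit 148) (nat_lit 5) (nat_lit 156) (nat_lit 5) (nat_lit 149) (nat_lit 5) (nat_lit 290) (nat_lit 255) (nat_lit 235)) (XT.lf (nat_lit 0) (nat_lit 3032930521) (nat_lit 608) (nat_lit 790573163) (nat_lit 76) (nat_lit 3931489666) (nat_lit 148) (nat_lit 5) (nat_lit 156) (nat_lit 5) (nat_lit 149) (nat_lit 5) (nat_lit 291) (nat_lit 255) (nat_lit 234)))))) (XT.nd (nat_lit 468) (nat_lit 1368) (nat_lit 0) (XT.nd (nat_lit 234) (nat_lit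 1064) (nat_lit 0) (XT.nd (nat_lit 78) (nat_lit 608) (nat_lit 0) (XT.lf (nat_lit 0) (nat_lit 3814079706) (nat_lit 532) (nat_lit 1751737175) (nat_lit 608) (nat_lit 2283997132) (nat_lit 141) (nat_lit 5) (nat_lit 148) (nat_lit 5) (nat_lit 149) (nat_lit 5) (nat_lit 292) (nat_lit 255) (nat_lit 233)) (XT.nd (nat_lit 78) (nat_lit 0) (nat_lit 0) (XT.lf (nat_lit 0) (nat_lit 173865496) (nat_lit 608) (nat_lit 7388210546) (nat_lit 76) (nat_lit 386941345) (nat_lit 133) (nat_lit 5) (nat_lit 141) (nat_lit 5) (nat_lit 134) (nat_lit 5) (nat_lit 293) (nat_lit 255) (nat_lit 232)) (XT.lf (nat_lit 0) (nat_lit 2653084709) (nat_lit 608) (nat_lit 2783597537) (nat_lit 76) (nat_lit 2614162702) (nat_lit 133) (nat_lit 5) (nat_lit 141) (nat_lit 5) (nat_lit 134) (nat_lit 5) (nat_lit 294) (nat_lit 255) (nat_lit 231)))) (XT.nd (nat_lit 78) (nat_lit 532) (nat_lit 0) (XT.lf (nat_lit 0) (nat_lit 1927608420) (nat_lit 532) (nat_lit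 3234520220) (nat_lit 608) (nat_lit 2995063701) (nat_lit 126) (nat_lit 5) (nat_lit 133) (nat_lit 5) (nat_lit 134) (nat_lit 5) (nat_lit 295) (nat_lit 255) (nat_lit 230)) (XT.nd (nat_lit 78) (nat_lit 532) (nat_lit 0) (XT.lf (nat_lit 0) (nat_lit 6768729590) (nat_lit 532) (nat_lit 943920994) (nat_lit 608) (nat_lit 555218080) (nat_lit 126) (nat_lit 5) (nat_lit 133) (nat_lit 5) (nat_lit 134) (nat_lit 5) (nat_lit 296) (nat_lit 255) (nat_lit 229)) (XT.lf (nat_lit 0) (nat_lit 1905070885) (nat_lit 532) (nat_lit 5044326102) (nat_lit 76) (nat_lit 1432457682) (nat_lit 119) (nat_lit 5) (nat_lit 126) (nat_lit 5) (nat_lit 120) (nat_lit 5) (nat_lit 297) (nat_lit 255) (nat_lit 228))))) (XT.nd (nat_lit 234) (nat_lit 456) (nat_lit 0) (XT.nd (nat_lit 78) (nat_lit 912) (nat_lit 0) (XT.lf (nat_lit 0) (nat_lit 4392884246) (nat_lit 532) (nat_lit 232755188) (nat_lit 76) (nat_lit 3874623778) (nat_lit 119) (nat_lit 5) (nat_lit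 126) (nat_lit 5) (nat_lit 120) (nat_lit 5) (nat_lit 298) (nat_lit 255) (nat_lit 227)) (XT.nd (nat_lit 78) (nat_lit 456) (nat_lit 0) (XT.lf (nat_lit 0) (nat_lit 4748856002) (nat_lit 456) (nat_lit 2194106525) (nat_lit 532) (nat_lit 1679743371) (nat_lit 113) (nat_lit 5) (nat_lit 119) (nat_lit 5) (nat_lit 120) (nat_lit 5) (nat_lit 299) (nat_lit 255) (nat_lit 226)) (XT.lf (nat_lit 0) (nat_lit 762933348) (nat_lit 456) (nat_lit 7671569174) (nat_lit 76) (nat_lit 315440287) (nat_lit 107) (nat_lit 5) (nat_lit 113) (nat_lit 5) (nat_lit 108) (nat_lit 5) (nat_lit 300) (nat_lit 255) (nat_lit 225)))) (XT.nd (nat_lit 78) (nat_lit 456) (nat_lit 0) (XT.lf (nat_lit 0) (nat_lit 3249659585) (nat_lit 456) (nat_lit 2728598451) (nat_lit 76) (nat_lit 2902205347) (nat_lit 107) (nat_lit 5) (nat_lit 113) (nat_lit 5) (nat_lit 108) (nat_lit 5) (nat_lit 301) (nat_lit 255) (nat_lit 224)) (XT.nd (nat_lit 78) (nat_lit 0) (nat_lit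 0) (XT.lf (nat_lit 0) (nat_lit 2341748693) (nat_lit 456) (nat_lit 3436701635) (nat_lit 532) (nat_lit 3237523811) (nat_lit 101) (nat_lit 5) (nat_lit 107) (nat_lit 5) (nat_lit 108) (nat_lit 5) (nat_lit 302) (nat_lit 255) (nat_lit 223)) (XT.lf (nat_lit 0) (nat_lit 7554184219) (nat_lit 456) (nat_lit 802395787) (nat_lit 532) (nat_lit 799861534) (nat_lit 101) (nat_lit 5) (nat_lit 107) (nat_lit 5) (nat_lit 108) (nat_lit 5) (nat_lit 303) (nat_lit 255) (nat_lit 222))))))))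
noncomputable def xc95 : XT := (XT.nd (nat_lit 1872) (nat_lit 1824) (nat_lit 0) (XT.nd (nat_lit 936) (nat_lit 1672) (nat_lit 0) (XT.nd (nat_lit 468) (nat_lit 988) (nat_lit 0) (XT.nd (nat_lit 234) (nat_lit 760) (nat_lit 0) (XT.nd (nat_lit 78) (nat_lit 380) (nat_lit 0) (XT.lf (nat_lit 0) (nat_lit 1677898038) (nat_lit 456) (nat_lit 5709332097) (nat_lit 76) (nat_lit 1913478909) (nat_lit 95) (nat_lit 5) (nat_lit 101) (nat_lit 5) (nat_lit 96) (nat_lit 5) (nat_lit 304) (nat_lit 255) (nat_lit 221)) (XT.nd (nat_lit 78) (nat_lit 380) (nat_lit 0) (XT.lf (nat_lit 0) (nat_lit 4185892153) (nat_lit 456) (nat_lit 557255406) (nat_lit 76) (nat_lit 4706847555) (nat_lit 95) (nat_lit 5) (nat_lit 101) (nat_lit 5) (nat_lit 96) (nat_lit 5) (nat_lit 305) (nat_lit 255) (nat_lit 220)) (XT.lf (nat_lit 0) (nat_lit 4778476405) (nat_lit 380) (nat_lit 1985800622) (nat_lit 456) (nat_lit 2839713131) (nat_lit 90) (nat_lit 5) (nat_lit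 95) (nat_lit 5) (nat_lit 96) (nat_lit 5) (nat_lit 306) (nat_lit 255) (nat_lit 219)))) (XT.nd (nat_lit 78) (nat_lit 456) (nat_lit 0) (XT.lf (nat_lit 0) (nat_lit 458983520) (nat_lit 304) (nat_lit 8929291552) (nat_lit 380) (nat_lit 375364581) (nat_lit 86) (nat_lit 5) (nat_lit 90) (nat_lit 5) (nat_lit 91) (nat_lit 5) (nat_lit 307) (nat_lit 255) (nat_lit 218)) (XT.nd (nat_lit 78) (nat_lit 380) (nat_lit 0) (XT.lf (nat_lit 0) (nat_lit 2139808727) (nat_lit 380) (nat_lit 4032021733) (nat_lit 76) (nat_lit 3755129132) (nat_lit 85) (nat_lit 5) (nat_lit 90) (nat_lit 5) (nat_lit 86) (nat_lit 5) (nat_lit 308) (nat_lit 255) (nat_lit 217)) (XT.lf (nat_lit 0) (nat_lit 1358077311) (nat_lit 380) (nat_lit 3329548270) (nat_lit 456) (nat_lit 5408575522) (nat_lit 80) (nat_lit 5) (nat_lit 85) (nat_lit 5) (nat_lit 86) (nat_lit 5) (nat_lit 309) (nat_lit 255) (nat_lit 216))))) (XT.nd (nat_lit 234) (nat_lit 608) (nat_lit 0)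 (XT.nd (nat_lit 78) (nat_lit 380) (nat_lit 0) (XT.lf (nat_lit 0) (nat_lit 6929655471) (nat_lit 380) (nat_lit 375418143) (nat_lit 456) (nat_lit 2965723598) (nat_lit 80) (nat_lit 5) (nat_lit 85) (nat_lit 5) (nat_lit 86) (nat_lit 5) (nat_lit 310) (nat_lit 255) (nat_lit 215)) (XT.nd (nat_lit 78) (nat_lit 76) (nat_lit 0) (XT.lf (nat_lit 0) (nat_lit 2172139128) (nat_lit 304) (nat_lit 7829147830) (nat_lit 380) (nat_lit 449408108) (nat_lit 76) (nat_lit 5) (nat_lit 80) (nat_lit 5) (nat_lit 81) (nat_lit 5) (nat_lit 311) (nat_lit 255) (nat_lit 214)) (XT.lf (nat_lit 0) (nat_lit 2092338824) (nat_lit 380) (nat_lit 2803043086) (nat_lit 76) (nat_lit 5740304728) (nat_lit 75) (nat_lit 5) (nat_lit 80) (nat_lit 5) (nat_lit 76) (nat_lit 5) (nat_lit 312) (nat_lit 255) (nat_lit 213)))) (XT.nd (nat_lit 78) (nat_lit 304) (nat_lit 0) (XT.lf (nat_lit 0) (nat_lit 2826539729) (nat_lit 304) (nat_lit 1857235058) (nat_lit 380)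 (nat_lit 6142910689) (nat_lit 71) (nat_lit 5) (nat_lit 75) (nat_lit 5) (nat_lit 76) (nat_lit 5) (nat_lit 313) (nat_lit 255) (nat_lit 212)) (XT.nd (nat_lit 78) (nat_lit 304) (nat_lit 0) (XT.lf (nat_lit 0) (nat_lit 7349631309) (nat_lit 380) (nat_lit 2414133841) (nat_lit 76) (nat_lit 1259811994) (nat_lit 71) (nat_lit 5) (nat_lit 76) (nat_lit 5) (nat_lit 72) (nat_lit 5) (nat_lit 314) (nat_lit 255) (nat_lit 211)) (XT.lf (nat_lit 0) (nat_lit 3326238647) (nat_lit 304) (nat_lit 6776736899) (nat_lit 380) (nat_lit 1123236003) (nat_lit 67) (nat_lit 5) (nat_lit 71) (nat_lit 5) (nat_lit 72) (nat_lit 5) (nat_lit 315) (nat_lit 255) (nat_lit 210)))))) (XT.nd (nat_lit 468) (nat_lit 760) (nat_lit 0) (XT.nd (nat_lit 234) (nat_lit 532) (nat_lit 0) (XT.nd (nat_lit 78) (nat_lit 304) (nat_lit 0) (XT.lf (nat_lit 0) (nat_lit 1456619385) (nat_lit 380) (nat_lit 2220641765) (nat_lit 76) (nat_lit 7757828766) (nat_lit 66) (nat_lit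 5) (nat_lit 71) (nat_lit 5) (nat_lit 67) (nat_lit 5) (nat_lit 316) (nat_lit 255) (nat_lit 209)) (XT.nd (nat_lit 78) (nat_lit 0) (nat_lit 0) (XT.lf (nat_lit 0) (nat_lit 3630482117) (nat_lit 304) (nat_lit 454306179) (nat_lit 380) (nat_lit 7565364031) (nat_lit 62) (nat_lit 5) (nat_lit 66) (nat_lit 5) (nat_lit 67) (nat_lit 5) (nat_lit 317) (nat_lit 255) (nat_lit 208)) (XT.lf (nat_lit 0) (nat_lit 6801074859) (nat_lit 380) (nat_lit 2254950600) (nat_lit 76) (nat_lit 2815417483) (nat_lit 62) (nat_lit 5) (nat_lit 67) (nat_lit 5) (nat_lit 63) (nat_lit 5) (nat_lit 318) (nat_lit 255) (nat_lit 207)))) (XT.nd (nat_lit 78) (nat_lit 304) (nat_lit 0) (XT.lf (nat_lit 0) (nat_lit 3693141129) (nat_lit 228) (nat_lit 5905982514) (nat_lit 304) (nat_lit 2500293341) (nat_lit 59) (nat_lit 5) (nat_lit 62) (nat_lit 5) (nat_lit 63) (nat_lit 5) (nat_lit 319) (nat_lit 255) (nat_lit 206)) (XT.nd (nat_lit 78) (nat_lit 228) (nat_lit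 0) (XT.lf (nat_lit 0) (nat_lit 127463819) (nat_lit 304) (nat_lit 2526699328) (nat_lit 76) (nat_lit 9680571233) (nat_lit 58) (nat_lit 5) (nat_lit 62) (nat_lit 5) (nat_lit 59) (nat_lit 5) (nat_lit 320) (nat_lit 255) (nat_lit 205)) (XT.lf (nat_lit 0) (nat_lit 2786309950) (nat_lit 304) (nat_lit 9066246677) (nat_lit 76) (nat_lit 723785149) (nat_lit 55) (nat_lit 5) (nat_lit 59) (nat_lit 5) (nat_lit 56) (nat_lit 5) (nat_lit 321) (nat_lit 255) (nat_lit 204))))) (XT.nd (nat_lit 234) (nat_lit 532) (nat_lit 0) (XT.nd (nat_lit 78) (nat_lit 228) (nat_lit 0) (XT.lf (nat_lit 0) (nat_lit 5538990621) (nat_lit 304) (nat_lit 3127385315) (nat_lit 76) (nat_lit 4158446401) (nat_lit 55) (nat_lit 5) (nat_lit 59) (nat_lit 5) (nat_lit 56) (nat_lit 5) (nat_lit 322) (nat_lit 255) (nat_lit 203)) (XT.nd (nat_lit 78) (nat_lit 0) (nat_lit 0) (XT.lf (nat_lit 0) (nat_lit 2993482582) (nat_lit 228) (nat_lit 5372673425) (nat_lit 304)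 (nat_lit 4714889828) (nat_lit 52) (nat_lit 5) (nat_lit 55) (nat_lit 5) (nat_lit 56) (nat_lit 5) (nat_lit 323) (nat_lit 255) (nat_lit 202)) (XT.lf (nat_lit 0) (nat_lit 9308046947) (nat_lit 228) (nat_lit 1965353441) (nat_lit 304) (nat_lit 2071742049) (nat_lit 52) (nat_lit 5) (nat_lit 55) (nat_lit 5) (nat_lit 56) (nat_lit 5) (nat_lit 324) (nat_lit 255) (nat_lit 201)))) (XT.nd (nat_lit 78) (nat_lit 228) (nat_lit 0) (XT.lf (nat_lit 0) (nat_lit 638232185) (nat_lit 304) (nat_lit 11454486443) (nat_lit 76) (nat_lit 1524290551) (nat_lit 48) (nat_lit 5) (nat_lit 52) (nat_lit 5) (nat_lit 49) (nat_lit 5) (nat_lit 325) (nat_lit 255) (nat_lit 200)) (XT.nd (nat_lit 78) (nat_lit 228) (nat_lit 0) (XT.lf (nat_lit 0) (nat_lit 3413207936) (nat_lit 304) (nat_lit 5358916484) (nat_lit 76) (nat_lit 5123572425) (nat_lit 48) (nat_lit 5) (nat_lit 52) (nat_lit 5) (nat_lit 49) (nat_lit 5) (nat_lit 326) (nat_lit 255) (nat_lit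 199)) (XT.lf (nat_lit 0) (nat_lit 884727807) (nat_lit 228) (nat_lit 5360950404) (nat_lit 304) (nat_lit 7937878949) (nat_lit 45) (nat_lit 5) (nat_lit 48) (nat_lit 5) (nat_lit 49) (nat_lit 5) (nat_lit 327) (nat_lit 255) (nat_lit 198))))))) (XT.nd (nat_lit 936) (nat_lit 760) (nat_lit 0) (XT.nd (nat_lit 468) (nat_lit 608) (nat_lit 0) (XT.nd (nat_lit 234) (nat_lit 152) (nat_lit 0) (XT.nd (nat_lit 78) (nat_lit 304) (nat_lit 0) (XT.lf (nat_lit 0) (nat_lit 7373987334) (nat_lit 228) (nat_lit 1809492864) (nat_lit 304) (nat_lit 5296000590) (nat_lit 45) (nat_lit 5) (nat_lit 48) (nat_lit 5) (nat_lit 49) (nat_lit 5) (nat_lit 328) (nat_lit 255) (nat_lit 197)) (XT.nd (nat_lit 78) (nat_lit 304) (nat_lit 0) (XT.lf (nat_lit 0) (nat_lit 12194245479) (nat_lit 304) (nat_lit 795026046) (nat_lit 76) (nat_lit 1795502839) (nat_lit 45) (nat_lit 5) (nat_lit 49) (nat_lit 5) (nat_lit 46) (nat_lit 5) (nat_lit 329) (nat_lit 255)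 (nat_lit 196)) (XT.lf (nat_lit 0) (nat_lit 233857116) (nat_lit 304) (nat_lit 9350701061) (nat_lit 76) (nat_lit 5513399697) (nat_lit 41) (nat_lit 5) (nat_lit 45) (nat_lit 5) (nat_lit 42) (nat_lit 5) (nat_lit 330) (nat_lit 255) (nat_lit 195)))) (XT.nd (nat_lit 78) (nat_lit 152) (nat_lit 0) (XT.lf (nat_lit 0) (nat_lit 3067149697) (nat_lit 304) (nat_lit 2993519654) (nat_lit 76) (nat_lit 9359844779) (nat_lit 41) (nat_lit 5) (nat_lit 45) (nat_lit 5) (nat_lit 42) (nat_lit 5) (nat_lit 331) (nat_lit 255) (nat_lit 194)) (XT.nd (nat_lit 78) (nat_lit 0) (nat_lit 0) (XT.lf (nat_lit 0) (nat_lit 3576001814) (nat_lit 152) (nat_lit 2412876456) (nat_lit 228) (nat_lit 9763798666) (nat_lit 39) (nat_lit 5) (nat_lit 41) (nat_lit 5) (nat_lit 42) (nat_lit 5) (nat_lit 332) (nat_lit 255) (nat_lit 193)) (XT.lf (nat_lit 0) (nat_lit 9011049379) (nat_lit 228) (nat_lit 5751612196) (nat_lit 76) (nat_lit 1331791346) (nat_lit 39)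 (nat_lit 5) (nat_lit 42) (nat_lit 5) (nat_lit 40) (nat_lit 5) (nat_lit 333) (nat_lit 255) (nat_lit 192))))) (XT.nd (nat_lit 234) (nat_lit 304) (nat_lit 0) (XT.nd (nat_lit 78) (nat_lit 76) (nat_lit 0) (XT.lf (nat_lit 0) (nat_lit 811086013) (nat_lit 228) (nat_lit 11314719130) (nat_lit 304) (nat_lit 4320650544) (nat_lit 36) (nat_lit 5) (nat_lit 39) (nat_lit 5) (nat_lit 40) (nat_lit 5) (nat_lit 334) (nat_lit 255) (nat_lit 191)) (XT.nd (nat_lit 78) (nat_lit 76) (nat_lit 0) (XT.lf (nat_lit 0) (nat_lit 7641974946) (nat_lit 228) (nat_lit 7720760761) (nat_lit 304) (nat_lit 1445451043) (nat_lit 36) (nat_lit 5) (nat_lit 39) (nat_lit 5) (nat_lit 40) (nat_lit 5) (nat_lit 335) (nat_lit 255) (nat_lit 190)) (XT.lf (nat_lit 0) (nat_lit 1457617812) (nat_lit 304) (nat_lit 2563389229) (nat_lit 76) (nat_lit 13160218087) (nat_lit 35) (nat_lit 5) (nat_lit 39) (nat_lit 5) (nat_lit 36) (nat_lit 5) (nat_lit 336) (nat_lit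 255) (nat_lit 189)))) (XT.nd (nat_lit 78) (nat_lit 152) (nat_lit 0) (XT.lf (nat_lit 0) (nat_lit 4261868835) (nat_lit 152) (nat_lit 169860481) (nat_lit 228) (nat_lit 13132933536) (nat_lit 33) (nat_lit 5) (nat_lit 35) (nat_lit 5) (nat_lit 36) (nat_lit 5) (nat_lit 337) (nat_lit 255) (nat_lit 188)) (XT.nd (nat_lit 78) (nat_lit 152) (nat_lit 0) (XT.lf (nat_lit 0) (nat_lit 7529970442) (nat_lit 228) (nat_lit 6695910605) (nat_lit 76) (nat_lit 3732702285) (nat_lit 33) (nat_lit 5) (nat_lit 36) (nat_lit 5) (nat_lit 34) (nat_lit 5) (nat_lit 338) (nat_lit 255) (nat_lit 187)) (XT.lf (nat_lit 0) (nat_lit 65314358) (nat_lit 152) (nat_lit 10631229239) (nat_lit 228) (nat_lit 7668542321) (nat_lit 31) (nat_lit 5) (nat_lit 33) (nat_lit 5) (nat_lit 34) (nat_lit 5) (nat_lit 339) (nat_lit 255) (nat_lit 186)))))) (XT.nd (nat_lit 468) (nat_lit 380) (nat_lit 0) (XT.nd (nat_lit 234) (nat_lit 152) (nat_lit 0) (XT.nd (nat_lit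 78) (nat_lit 228) (nat_lit 0) (XT.lf (nat_lit 0) (nat_lit 7123604048) (nat_lit 152) (nat_lit 6875571206) (nat_lit 228) (nat_lit 4783401762) (nat_lit 31) (nat_lit 5) (nat_lit 33) (nat_lit 5) (nat_lit 34) (nat_lit 5) (nat_lit 340) (nat_lit 255) (nat_lit 185)) (XT.nd (nat_lit 78) (nat_lit 228) (nat_lit 0) (XT.lf (nat_lit 0) (nat_lit 14351864151) (nat_lit 152) (nat_lit 3023240873) (nat_lit 228) (nat_lit 1838285786) (nat_lit 31) (nat_lit 5) (nat_lit 33) (nat_lit 5) (nat_lit 34) (nat_lit 5) (nat_lit 341) (nat_lit 255) (nat_lit 184)) (XT.lf (nat_lit 0) (nat_lit 1176268853) (nat_lit 228) (nat_lit 17537391082) (nat_lit 76) (nat_lit 943015323) (nat_lit 28) (nat_lit 5) (nat_lit 31) (nat_lit 5) (nat_lit 29) (nat_lit 5) (nat_lit 342) (nat_lit 255) (nat_lit 183)))) (XT.nd (nat_lit 78) (nat_lit 152) (nat_lit 0) (XT.lf (nat_lit 0) (nat_lit 4298716941) (nat_lit 228) (nat_lit 10792534790) (nat_lit 76) (nat_lit 5019850804)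 (nat_lit 28) (nat_lit 5) (nat_lit 31) (nat_lit 5) (nat_lit 29) (nat_lit 5) (nat_lit 343) (nat_lit 255) (nat_lit 182)) (XT.nd (nat_lit 78) (nat_lit 152) (nat_lit 0) (XT.lf (nat_lit 0) (nat_lit 7490463238) (nat_lit 228) (nat_lit 3885434935) (nat_lit 76) (nat_lit 9204017515) (nat_lit 28) (nat_lit 5) (nat_lit 31) (nat_lit 5) (nat_lit 29) (nat_lit 5) (nat_lit 344) (nat_lit 255) (nat_lit 181)) (XT.lf (nat_lit 0) (nat_lit 3253429948) (nat_lit 152) (nat_lit 7532140659) (nat_lit 228) (nat_lit 10277015535) (nat_lit 26) (nat_lit 5) (nat_lit 28) (nat_lit 5) (nat_lit 29) (nat_lit 5) (nat_lit 345) (nat_lit 255) (nat_lit 180))))) (XT.nd (nat_lit 234) (nat_lit 228) (nat_lit 0) (XT.nd (nat_lit 78) (nat_lit 152) (nat_lit 0) (XT.lf (nat_lit 0) (nat_lit 10647555988) (nat_lit 152) (nat_lit 3547863899) (nat_lit 228) (nat_lit 7363860713) (nat_lit 26) (nat_lit 5) (nat_lit 28) (nat_lit 5) (nat_lit 29) (nat_lit 5) (nat_lit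 346) (nat_lit 255) (nat_lit 179)) (XT.nd (nat_lit 78) (nat_lit 152) (nat_lit 0) (XT.lf (nat_lit 0) (nat_lit 17690100197) (nat_lit 228) (nat_lit 3850701680) (nat_lit 76) (nat_lit 530617902) (nat_lit 26) (nat_lit 5) (nat_lit 29) (nat_lit 5) (nat_lit 27) (nat_lit 4) (nat_lit 347) (nat_lit 255) (nat_lit 178)) (XT.lf (nat_lit 0) (nat_lit 3416817881) (nat_lit 152) (nat_lit 17918630770) (nat_lit 228) (nat_lit 1262119020) (nat_lit 24) (nat_lit 5) (nat_lit 26) (nat_lit 5) (nat_lit 27) (nat_lit 4) (nat_lit 348) (nat_lit 255) (nat_lit 177)))) (XT.nd (nat_lit 78) (nat_lit 152) (nat_lit 0) (XT.lf (nat_lit 0) (nat_lit 1929777713) (nat_lit 228) (nat_lit 12213148067) (nat_lit 76) (nat_lit 8995514417) (nat_lit 23) (nat_lit 5) (nat_lit 26) (nat_lit 5) (nat_lit 24) (nat_lit 5) (nat_lit 349) (nat_lit 255) (nat_lit 176)) (XT.nd (nat_lit 78) (nat_lit 152) (nat_lit 0) (XT.lf (nat_lit 0) (nat_lit 5170622235) (nat_lit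 228) (nat_lit 5084914841) (nat_lit 76) (nat_lit 13440287914) (nat_lit 23) (nat_lit 5) (nat_lit 26) (nat_lit 5) (nat_lit 24) (nat_lit 5) (nat_lit 350) (nat_lit 255) (nat_lit 175)) (XT.lf (nat_lit 0) (nat_lit 2266539039) (nat_lit 152) (nat_lit 6243123161) (nat_lit 228) (nat_lit 15760257236) (nat_lit 21) (nat_lit 5) (nat_lit 23) (nat_lit 5) (nat_lit 24) (nat_lit 5) (nat_lit 351) (nat_lit 255) (nat_lit 174))))))))
noncomputable def xc96 : XT := (XT.nd (nat_lit 1794) (nat_lit 456) (nat_lit 0) (XT.nd (nat_lit 858) (nat_lit 304) (nat_lit 0) (XT.nd (nat_lit 390) (nat_lit 304) (nat_lit 0) (XT.nd (nat_lit 156) (nat_lit 76) (nat_lit 0) (XT.nd (nat_lit 78) (nat_lit 0) (nat_lit 0) (XT.lf (nat_lit 0) (nat_lit 9908259337) (nat_lit 152) (nat_lit 2071419013) (nat_lit 228) (nat_lit 12880650926) (nat_lit 21) (nat_lit 5) (nat_lit 23) (nat_lit 5) (nat_lit 24) (nat_lit 5) (nat_lit 352) (nat_lit 255) (nat_lit 173)) (XT.lf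 (nat_lit 0) (nat_lit 15555112506) (nat_lit 228) (nat_lit 7744604334) (nat_lit 76) (nat_lit 2168711268) (nat_lit 21) (nat_lit 5) (nat_lit 24) (nat_lit 5) (nat_lit 22) (nat_lit 4) (nat_lit 353) (nat_lit 255) (nat_lit 172))) (XT.nd (nat_lit 78) (nat_lit 76) (nat_lit 0) (XT.lf (nat_lit 0) (nat_lit 19238828753) (nat_lit 228) (nat_lit 374425714) (nat_lit 76) (nat_lit 6481500617) (nat_lit 21) (nat_lit 5) (nat_lit 24) (nat_lit 5) (nat_lit 22) (nat_lit 4) (nat_lit 354) (nat_lit 255) (nat_lit 171)) (XT.nd (nat_lit 78) (nat_lit 0) (nat_lit 0) (XT.lf (nat_lit 0) (nat_lit 7327809586) (nat_lit 76) (nat_lit 15756763928) (nat_lit 152) (nat_lit 3653768135) (nat_lit 20) (nat_lit 5) (nat_lit 21) (nat_lit 5) (nat_lit 22) (nat_lit 4) (nat_lit 355) (nat_lit 255) (nat_lit 170)) (XT.lf (nat_lit 0) (nat_lit 15237060793) (nat_lit 76) (nat_lit 11793734590) (nat_lit 152) (nat_lit 370902131) (nat_lit 20) (nat_lit 5) (nat_lit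 21) (nat_lit 5) (nat_lit 22) (nat_lit 4) (nat_lit 356) (nat_lit 255) (nat_lit 169))))) (XT.nd (nat_lit 234) (nat_lit 76) (nat_lit 0) (XT.nd (nat_lit 78) (nat_lit 152) (nat_lit 0) (XT.lf (nat_lit 0) (nat_lit 2933379240) (nat_lit 152) (nat_lit 4761483960) (nat_lit 76) (nat_lit 20389786478) (nat_lit 19) (nat_lit 5) (nat_lit 21) (nat_lit 5) (nat_lit 20) (nat_lit 5) (nat_lit 357) (nat_lit 255) (nat_lit 168)) (XT.nd (nat_lit 78) (nat_lit 0) (nat_lit 0) (XT.lf (nat_lit 0) (nat_lit 2886137049) (nat_lit 152) (nat_lit 3453148425) (nat_lit 228) (nat_lit 22448409815) (nat_lit 17) (nat_lit 5) (nat_lit 19) (nat_lit 5) (nat_lit 20) (nat_lit 5) (nat_lit 358) (nat_lit 255) (nat_lit 167)) (XT.lf (nat_lit 0) (nat_lit 9887048613) (nat_lit 228) (nat_lit 18689273725) (nat_lit 76) (nat_lit 934332729) (nat_lit 17) (nat_lit 5) (nat_lit 20) (nat_lit 5) (nat_lit 18) (nat_lit 4) (nat_lit 359) (nat_lit 255) (nat_lit 166))))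 (XT.nd (nat_lit 78) (nat_lit 76) (nat_lit 0) (XT.lf (nat_lit 0) (nat_lit 13558267833) (nat_lit 228) (nat_lit 11324321809) (nat_lit 76) (nat_lit 5372216108) (nat_lit 17) (nat_lit 5) (nat_lit 20) (nat_lit 5) (nat_lit 18) (nat_lit 4) (nat_lit 360) (nat_lit 255) (nat_lit 165)) (XT.nd (nat_lit 78) (nat_lit 76) (nat_lit 0) (XT.lf (nat_lit 0) (nat_lit 17322957221) (nat_lit 228) (nat_lit 3767073322) (nat_lit 76) (nat_lit 9931762836) (nat_lit 17) (nat_lit 5) (nat_lit 20) (nat_lit 5) (nat_lit 18) (nat_lit 4) (nat_lit 361) (nat_lit 255) (nat_lit 164)) (XT.lf (nat_lit 0) (nat_lit 4068465575) (nat_lit 76) (nat_lit 17155049318) (nat_lit 152) (nat_lit 10587599987) (nat_lit 16) (nat_lit 5) (nat_lit 17) (nat_lit 5) (nat_lit 18) (nat_lit 4) (nat_lit 362) (nat_lit 255) (nat_lit 163)))))) (XT.nd (nat_lit 468) (nat_lit 76) (nat_lit 0) (XT.nd (nat_lit 234) (nat_lit 228) (nat_lit 0) (XT.nd (nat_lit 78) (nat_lit 0) (nat_lit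 0) (XT.lf (nat_lit 0) (nat_lit 12188747206) (nat_lit 76) (nat_lit 13074407677) (nat_lit 152) (nat_lit 7360310895) (nat_lit 16) (nat_lit 5) (nat_lit 17) (nat_lit 5) (nat_lit 18) (nat_lit 4) (nat_lit 363) (nat_lit 255) (nat_lit 162)) (XT.nd (nat_lit 78) (nat_lit 0) (nat_lit 0) (XT.lf (nat_lit 0) (nat_lit 20525894819) (nat_lit 76) (nat_lit 8882580065) (nat_lit 152) (nat_lit 4052188972) (nat_lit 16) (nat_lit 5) (nat_lit 17) (nat_lit 5) (nat_lit 18) (nat_lit 4) (nat_lit 364) (nat_lit 255) (nat_lit 161)) (XT.lf (nat_lit 0) (nat_lit 29087193299) (nat_lit 76) (nat_lit 4575903721) (nat_lit 152) (nat_lit 660343629) (nat_lit 16) (nat_lit 5) (nat_lit 17) (nat_lit 5) (nat_lit 18) (nat_lit 4) (nat_lit 365) (nat_lit 255) (nat_lit 160)))) (XT.nd (nat_lit 78) (nat_lit 0) (nat_lit 0) (XT.lf (nat_lit 0) (nat_lit 2693033990) (nat_lit 152) (nat_lit 96048967) (nat_lit 228) (nat_lit 32421877763) (nat_lit 13) (nat_lit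 5) (nat_lit 15) (nat_lit 5) (nat_lit 16) (nat_lit 5) (nat_lit 366) (nat_lit 255) (nat_lit 159)) (XT.nd (nat_lit 78) (nat_lit 0) (nat_lit 0) (XT.lf (nat_lit 0) (nat_lit 6410861874) (nat_lit 228) (nat_lit 25232088473) (nat_lit 76) (nat_lit 4479505762) (nat_lit 13) (nat_lit 5) (nat_lit 16) (nat_lit 5) (nat_lit 14) (nat_lit 4) (nat_lit 367) (nat_lit 255) (nat_lit 158)) (XT.lf (nat_lit 0) (nat_lit 10127983695) (nat_lit 228) (nat_lit 17753486987) (nat_lit 76) (nat_lit 9180234805) (nat_lit 13) (nat_lit 5) (nat_lit 16) (nat_lit 5) (nat_lit 14) (nat_lit 4) (nat_lit 368) (nat_lit 255) (nat_lit 157))))) (XT.nd (nat_lit 234) (nat_lit 0) (nat_lit 0) (XT.nd (nat_lit 78) (nat_lit 76) (nat_lit 0) (XT.lf (nat_lit 0) (nat_lit 13942773109) (nat_lit 228) (nat_lit 10074664291) (nat_lit 76) (nat_lit 14012119857) (nat_lit 13) (nat_lit 5) (nat_lit 16) (nat_lit 5) (nat_lit 14) (nat_lit 4) (nat_lit 369) (nat_lit 255) (nat_lit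 156)) (XT.nd (nat_lit 78) (nat_lit 76) (nat_lit 0) (XT.lf (nat_lit 0) (nat_lit 17858563429) (nat_lit 228) (nat_lit 2188910734) (nat_lit 76) (nat_lit 18979382953) (nat_lit 13) (nat_lit 5) (nat_lit 16) (nat_lit 5) (nat_lit 14) (nat_lit 4) (nat_lit 370) (nat_lit 255) (nat_lit 155)) (XT.lf (nat_lit 0) (nat_lit 6028297952) (nat_lit 76) (nat_lit 15908425952) (nat_lit 152) (nat_lit 18116014155) (nat_lit 12) (nat_lit 5) (nat_lit 13) (nat_lit 5) (nat_lit 14) (nat_lit 4) (nat_lit 371) (nat_lit 255) (nat_lit 154)))) (XT.nd (nat_lit 78) (nat_lit 0) (nat_lit 0) (XT.lf (nat_lit 0) (nat_lit 14514365194) (nat_lit 76) (nat_lit 11632080045) (nat_lit 152) (nat_lit 14962682431) (nat_lit 12) (nat_lit 5) (nat_lit 13) (nat_lit 5) (nat_lit 14) (nat_lit 4) (nat_lit 372) (nat_lit 255) (nat_lit 153)) (XT.nd (nat_lit 78) (nat_lit 0) (nat_lit 0) (XT.lf (nat_lit 0) (nat_lit 23233142385) (nat_lit 76) (nat_lit 7236803535) (nat_lit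 152) (nat_lit 11727646884) (nat_lit 12) (nat_lit 5) (nat_lit 13) (nat_lit 5) (nat_lit 14) (nat_lit 4) (nat_lit 373) (nat_lit 255) (nat_lit 152)) (XT.lf (nat_lit 0) (nat_lit 32192247875) (nat_lit 76) (nat_lit 2718755890) (nat_lit 152) (nat_lit 8408080785) (nat_lit 12) (nat_lit 5) (nat_lit 13) (nat_lit 5) (nat_lit 14) (nat_lit 4) (nat_lit 374) (nat_lit 255) (nat_lit 151))))))) (XT.nd (nat_lit 936) (nat_lit 228) (nat_lit 0) (XT.nd (nat_lit 468) (nat_lit 76) (nat_lit 0) (XT.nd (nat_lit 234) (nat_lit 0) (nat_lit 0) (XT.nd (nat_lit 78) (nat_lit 152) (nat_lit 0) (XT.lf (nat_lit 0) (nat_lit 39492013301) (nat_lit 152) (nat_lit 3093586834) (nat_lit 0) (nat_lit 1888427293) (nat_lit 12) (nat_lit 5) (nat_lit 14) (nat_lit 4) (nat_lit 12) (nat_lit 4) (nat_lit 375) (nat_lit 255) (nat_lit 150)) (XT.nd (nat_lit 78) (nat_lit 76) (nat_lit 0) (XT.lf (nat_lit 0) (nat_lit 5235623021) (nat_lit 76) (nat_lit 39040543630)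 (nat_lit 76) (nat_lit 1385488285) (nat_lit 11) (nat_lit 4) (nat_lit 12) (nat_lit 5) (nat_lit 12) (nat_lit 4) (nat_lit 376) (nat_lit 255) (nat_lit 149)) (XT.lf (nat_lit 0) (nat_lit 2293720872) (nat_lit 152) (nat_lit 33048772202) (nat_lit 76) (nat_lit 11541155619) (nat_lit 10) (nat_lit 5) (nat_lit 12) (nat_lit 5) (nat_lit 11) (nat_lit 4) (nat_lit 377) (nat_lit 255) (nat_lit 148)))) (XT.nd (nat_lit 78) (nat_lit 0) (nat_lit 0) (XT.lf (nat_lit 0) (nat_lit 6044284433) (nat_lit 152) (nat_lit 25483642960) (nat_lit 76) (nat_lit 16614305678) (nat_lit 10) (nat_lit 5) (nat_lit 12) (nat_lit 5) (nat_lit 11) (nat_lit 4) (nat_lit 378) (nat_lit 255) (nat_lit 147)) (XT.nd (nat_lit 78) (nat_lit 0) (nat_lit 0) (XT.lf (nat_lit 0) (nat_lit 9896515454) (nat_lit 152) (nat_lit 17710715721) (nat_lit 76) (nat_lit 21831676172) (nat_lit 10) (nat_lit 5) (nat_lit 12) (nat_lit 5) (nat_lit 11) (nat_lit 4) (nat_lit 379) (nat_lit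 255) (nat_lit 146)) (XT.lf (nat_lit 0) (nat_lit 13853779963) (nat_lit 152) (nat_lit 9723198607) (nat_lit 76) (nat_lit 27197825969) (nat_lit 10) (nat_lit 5) (nat_lit 12) (nat_lit 5) (nat_lit 11) (nat_lit 4) (nat_lit 380) (nat_lit 255) (nat_lit 145))))) (XT.nd (nat_lit 234) (nat_lit 0) (nat_lit 0) (XT.nd (nat_lit 78) (nat_lit 76) (nat_lit 0) (XT.lf (nat_lit 0) (nat_lit 17919535764) (nat_lit 152) (nat_lit 1514112234) (nat_lit 76) (nat_lit 32717443937) (nat_lit 10) (nat_lit 5) (nat_lit 12) (nat_lit 5) (nat_lit 11) (nat_lit 4) (nat_lit 381) (nat_lit 255) (nat_lit 144)) (XT.nd (nat_lit 78) (nat_lit 0) (nat_lit 0) (XT.lf (nat_lit 0) (nat_lit 7061511916) (nat_lit 76) (nat_lit 15103703113) (nat_lit 152) (nat_lit 31401720699) (nat_lit 9) (nat_lit 5) (nat_lit 10) (nat_lit 5) (nat_lit 11) (nat_lit 4) (nat_lit 382) (nat_lit 255) (nat_lit 143)) (XT.lf (nat_lit 0) (nat_lit 15908084131) (nat_lit 76) (nat_lit 10635663655)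 (nat_lit 152) (nat_lit 28481348674) (nat_lit 9) (nat_lit 5) (nat_lit 10) (nat_lit 5) (nat_lit 11) (nat_lit 4) (nat_lit 383) (nat_lit 255) (nat_lit 142)))) (XT.nd (nat_lit 78) (nat_lit 0) (nat_lit 0) (XT.lf (nat_lit 0) (nat_lit 25003200620) (nat_lit 76) (nat_lit 6040915076) (nat_lit 152) (nat_lit 25483177879) (nat_lit 9) (nat_lit 5) (nat_lit 10) (nat_lit 5) (nat_lit 11) (nat_lit 4) (nat_lit 384) (nat_lit 255) (nat_lit 141)) (XT.nd (nat_lit 78) (nat_lit 0) (nat_lit 0) (XT.lf (nat_lit 0) (nat_lit 34354808574) (nat_lit 76) (nat_lit 1315442549) (nat_lit 152) (nat_lit 22404588553) (nat_lit 9) (nat_lit 5) (nat_lit 10) (nat_lit 5) (nat_lit 11) (nat_lit 4) (nat_lit 385) (nat_lit 255) (nat_lit 140)) (XT.lf (nat_lit 0) (nat_lit 40460271902) (nat_lit 152) (nat_lit 15732083270) (nat_lit 0) (nat_lit 3475709546) (nat_lit 9) (nat_lit 5) (nat_lit 11) (nat_lit 4) (nat_lit 9) (nat_lit 4) (nat_lit 386) (nat_lit 255)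 (nat_lit 139)))))) (XT.nd (nat_lit 468) (nat_lit 76) (nat_lit 0) (XT.nd (nat_lit 234) (nat_lit 76) (nat_lit 0) (XT.nd (nat_lit 78) (nat_lit 76) (nat_lit 0) (XT.lf (nat_lit 0) (nat_lit 45398240082) (nat_lit 152) (nat_lit 7533146291) (nat_lit 0) (nat_lit 8377578169) (nat_lit 9) (nat_lit 5) (nat_lit 11) (nat_lit 4) (nat_lit 9) (nat_lit 4) (nat_lit 387) (nat_lit 255) (nat_lit 138)) (XT.nd (nat_lit 78) (nat_lit 0) (nat_lit 0) (XT.lf (nat_lit 0) (nat_lit 914432666) (nat_lit 76) (nat_lit 49570182975) (nat_lit 76) (nat_lit 12514472947) (nat_lit 8) (nat_lit 4) (nat_lit 9) (nat_lit 5) (nat_lit 9) (nat_lit 4) (nat_lit 388) (nat_lit 255) (nat_lit 137)) (XT.lf (nat_lit 0) (nat_lit 9754839826) (nat_lit 76) (nat_lit 46036394705) (nat_lit 76) (nat_lit 8946657383) (nat_lit 8) (nat_lit 4) (nat_lit 9) (nat_lit 5) (nat_lit 9) (nat_lit 4) (nat_lit 389) (nat_lit 255) (nat_lit 136)))) (XT.nd (nat_lit 78) (nat_lit 76)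 (nat_lit 0) (XT.lf (nat_lit 0) (nat_lit 18845875435) (nat_lit 76) (nat_lit 42403003796) (nat_lit 76) (nat_lit 5280230266) (nat_lit 8) (nat_lit 4) (nat_lit 9) (nat_lit 5) (nat_lit 9) (nat_lit 4) (nat_lit 390) (nat_lit 255) (nat_lit 135)) (XT.nd (nat_lit 78) (nat_lit 76) (nat_lit 0) (XT.lf (nat_lit 0) (nat_lit 28195483116) (nat_lit 76) (nat_lit 38666835441) (nat_lit 76) (nat_lit 1511987921) (nat_lit 8) (nat_lit 4) (nat_lit 9) (nat_lit 5) (nat_lit 9) (nat_lit 4) (nat_lit 391) (nat_lit 255) (nat_lit 134)) (XT.lf (nat_lit 0) (nat_lit 2315283606) (nat_lit 152) (nat_lit 32485961594) (nat_lit 76) (nat_lit 35473168998) (nat_lit 7) (nat_lit 5) (nat_lit 9) (nat_lit 5) (nat_lit 8) (nat_lit 4) (nat_lit 392) (nat_lit 255) (nat_lit 133))))) (XT.nd (nat_lit 234) (nat_lit 76) (nat_lit 0) (XT.nd (nat_lit 78) (nat_lit 0) (nat_lit 0) (XT.lf (nat_lit 0) (nat_lit 6219426074) (nat_lit 152) (nat_lit 24590785195) (nat_lit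 76) (nat_lit 41421095926) (nat_lit 7) (nat_lit 5) (nat_lit 9) (nat_lit 5) (nat_lit 8) (nat_lit 4) (nat_lit 393) (nat_lit 255) (nat_lit 132)) (XT.nd (nat_lit 78) (nat_lit 0) (nat_lit 0) (XT.lf (nat_lit 0) (nat_lit 10233355199) (nat_lit 152) (nat_lit 16471861315) (nat_lit 76) (nat_lit 47541914887) (nat_lit 7) (nat_lit 5) (nat_lit 9) (nat_lit 5) (nat_lit 8) (nat_lit 4) (nat_lit 394) (nat_lit 255) (nat_lit 131)) (XT.lf (nat_lit 0) (nat_lit 14360578297) (nat_lit 152) (nat_lit 8122095748) (nat_lit 76) (nat_lit 53840974169) (nat_lit 7) (nat_lit 5) (nat_lit 9) (nat_lit 5) (nat_lit 8) (nat_lit 4) (nat_lit 395) (nat_lit 255) (nat_lit 130)))) (XT.nd (nat_lit 78) (nat_lit 0) (nat_lit 0) (XT.lf (nat_lit 0) (nat_lit 475077898) (nat_lit 76) (nat_lit 18134190523) (nat_lit 152) (nat_lit 59853266645) (nat_lit 6) (nat_lit 5) (nat_lit 7) (nat_lit 5) (nat_lit 8) (nat_lit 4) (nat_lit 396) (nat_lit 255) (nat_lit 129))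 (XT.nd (nat_lit 78) (nat_lit 0) (nat_lit 0) (XT.lf (nat_lit 0) (nat_lit 9484427516) (nat_lit 76) (nat_lit 13576176412) (nat_lit 152) (nat_lit 57602732981) (nat_lit 6) (nat_lit 5) (nat_lit 7) (nat_lit 5) (nat_lit 8) (nat_lit 4) (nat_lit 397) (nat_lit 255) (nat_lit 128)) (XT.lf (nat_lit 0) (nat_lit 18752179722) (nat_lit 76) (nat_lit 8886666222) (nat_lit 152) (nat_lit 55291519681) (nat_lit 6) (nat_lit 5) (nat_lit 7) (nat_lit 5) (nat_lit 8) (nat_lit 4) (nat_lit 398) (nat_lit 255) (nat_lit 127))))))))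
noncomputable def xc97 : XT := (XT.nd (nat_lit 32136) (nat_lit 0) (nat_lit 4940) (XT.nd (nat_lit 31200) (nat_lit 0) (nat_lit 11400) (XT.nd (nat_lit 30732) (nat_lit 0) (nat_lit 18012) (XT.nd (nat_lit 30498) (nat_lit 0) (nat_lit 19760) (XT.nd (nat_lit 30420) (nat_lit 0) (nat_lit 20596) (XT.lf (nat_lit 0) (nat_lit 28286432552) (nat_lit 76) (nat_lit 4061562325) (nat_lit 152) (nat_lit 52917607237) (nat_lit 6) (nat_lit 5) (nat_lit 7) (nat_lit 5) (nat_lit 8) (nat_lit 4) (nat_lit 399) (nat_lit 255) (nat_lit 126)) (XT.lf (nat_lit 0) (nat_lit 2796499152) (nat_lit 228) (nat_lit 230589135) (nat_lit 228) (nat_lit 230589135) (nat_lit 277) (nat_lit 4) (nat_lit 280) (nat_lit 5) (nat_lit 280) (nat_lit 4) (nat_lit 268) (nat_lit 256) (nat_lit 256))) (XT.nd (nat_lit 78) (nat_lit 456) (nat_lit 0) (XT.lf (nat_lit 0) (nat_lit 2407477404) (nat_lit 380) (nat_lit 4051184082) (nat_lit 0) (nat_lit 76432936) (nat_lit 272)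 (nat_lit 5) (nat_lit 277) (nat_lit 4) (nat_lit 272) (nat_lit 4) (nat_lit 269) (nat_lit 256) (nat_lit 255)) (XT.nd (nat_lit 78) (nat_lit 456) (nat_lit 0) (XT.lf (nat_lit 0) (nat_lit 5264716290) (nat_lit 380) (nat_lit 623037967) (nat_lit 0) (nat_lit 670521854) (nat_lit 272) (nat_lit 5) (nat_lit 277) (nat_lit 4) (nat_lit 272) (nat_lit 4) (nat_lit 270) (nat_lit 256) (nat_lit 254)) (XT.lf (nat_lit 0) (nat_lit 1521408680) (nat_lit 456) (nat_lit 3702967795) (nat_lit 76) (nat_lit 1359800869) (nat_lit 266) (nat_lit 5) (nat_lit 272) (nat_lit 5) (nat_lit 267) (nat_lit 4) (nat_lit 271) (nat_lit 256) (nat_lit 253))))) (XT.nd (nat_lit 234) (nat_lit 684) (nat_lit 0) (XT.nd (nat_lit 78) (nat_lit 1064) (nat_lit 0) (XT.lf (nat_lit 0) (nat_lit 4302945488) (nat_lit 456) (nat_lit 189683976) (nat_lit 76) (nat_lit 2120910150) (nat_lit 266) (nat_lit 5) (nat_lit 272) (nat_lit 5) (nat_lit 267) (nat_lit 4) (nat_lit 272)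 (nat_lit 256) (nat_lit 252)) (XT.nd (nat_lit 78) (nat_lit 532) (nat_lit 0) (XT.lf (nat_lit 0) (nat_lit 450584944) (nat_lit 532) (nat_lit 3221955391) (nat_lit 76) (nat_lit 2973285131) (nat_lit 259) (nat_lit 5) (nat_lit 266) (nat_lit 5) (nat_lit 260) (nat_lit 5) (nat_lit 273) (nat_lit 256) (nat_lit 251)) (XT.lf (nat_lit 0) (nat_lit 386357159) (nat_lit 532) (nat_lit 2773000156) (nat_lit 608) (nat_lit 3521985632) (nat_lit 252) (nat_lit 5) (nat_lit 259) (nat_lit 5) (nat_lit 260) (nat_lit 5) (nat_lit 274) (nat_lit 256) (nat_lit 250)))) (XT.nd (nat_lit 78) (nat_lit 684) (nat_lit 0) (XT.lf (nat_lit 0) (nat_lit 4100659732) (nat_lit 532) (nat_lit 1788913197) (nat_lit 608) (nat_lit 830424635) (nat_lit 252) (nat_lit 5) (nat_lit 259) (nat_lit 5) (nat_lit 260) (nat_lit 5) (nat_lit 275) (nat_lit 256) (nat_lit 249)) (XT.nd (nat_lit 78) (nat_lit 0) (nat_lit 0) (XT.lf (nat_lit 0) (nat_lit 1101012385) (nat_lit 608)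 (nat_lit 722744403) (nat_lit 684) (nat_lit 4938163148) (nat_lit 243) (nat_lit 5) (nat_lit 251) (nat_lit 5) (nat_lit 252) (nat_lit 5) (nat_lit 276) (nat_lit 256) (nat_lit 248)) (XT.lf (nat_lit 0) (nat_lit 4482573930) (nat_lit 684) (nat_lit 1900568045) (nat_lit 76) (nat_lit 423713819) (nat_lit 243) (nat_lit 5) (nat_lit 252) (nat_lit 5) (nat_lit 244) (nat_lit 5) (nat_lit 277) (nat_lit 256) (nat_lit 247)))))) (XT.nd (nat_lit 468) (nat_lit 3268) (nat_lit 0) (XT.nd (nat_lit 234) (nat_lit 1824) (nat_lit 0) (XT.nd (nat_lit 78) (nat_lit 760) (nat_lit 0) (XT.lf (nat_lit 0) (nat_lit 299708253) (nat_lit 760) (nat_lit 4923732720) (nat_lit 76) (nat_lit 1631665372) (nat_lit 233) (nat_lit 5) (nat_lit 243) (nat_lit 5) (nat_lit 234) (nat_lit 5) (nat_lit 278) (nat_lit 256) (nat_lit 246)) (XT.nd (nat_lit 78) (nat_lit 760) (nat_lit 0) (XT.lf (nat_lit 0) (nat_lit 2889829305) (nat_lit 760) (nat_lit 1080225313) (nat_lit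 76) (nat_lit 2936267597) (nat_lit 233) (nat_lit 5) (nat_lit 243) (nat_lit 5) (nat_lit 234) (nat_lit 5) (nat_lit 279) (nat_lit 256) (nat_lit 245)) (XT.lf (nat_lit 0) (nat_lit 2866536110) (nat_lit 760) (nat_lit 2635900900) (nat_lit 836) (nat_lit 1458519302) (nat_lit 223) (nat_lit 5) (nat_lit 233) (nat_lit 5) (nat_lit 234) (nat_lit 5) (nat_lit 280) (nat_lit 256) (nat_lit 244)))) (XT.nd (nat_lit 78) (nat_lit 1748) (nat_lit 0) (XT.lf (nat_lit 0) (nat_lit 1082233251) (nat_lit 836) (nat_lit 143638405) (nat_lit 76) (nat_lit 5793361148) (nat_lit 222) (nat_lit 5) (nat_lit 233) (nat_lit 5) (nat_lit 223) (nat_lit 5) (nat_lit 281) (nat_lit 256) (nat_lit 243)) (XT.nd (nat_lit 78) (nat_lit 912) (nat_lit 0) (XT.lf (nat_lit 0) (nat_lit 3630757992) (nat_lit 912) (nat_lit 3162522570) (nat_lit 76) (nat_lit 286923999) (nat_lit 211) (nat_lit 5) (nat_lit 223) (nat_lit 5) (nat_lit 212) (nat_lit 5) (nat_lit 282) (nat_lit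 256) (nat_lit 242)) (XT.lf (nat_lit 0) (nat_lit 897035234) (nat_lit 912) (nat_lit 5303083174) (nat_lit 988) (nat_lit 944755787) (nat_lit 199) (nat_lit 5) (nat_lit 211) (nat_lit 5) (nat_lit 212) (nat_lit 5) (nat_lit 283) (nat_lit 256) (nat_lit 241))))) (XT.nd (nat_lit 234) (nat_lit 2204) (nat_lit 0) (XT.nd (nat_lit 78) (nat_lit 988) (nat_lit 0) (XT.lf (nat_lit 0) (nat_lit 1558239784) (nat_lit 988) (nat_lit 2153539779) (nat_lit 76) (nat_lit 3500769358) (nat_lit 198) (nat_lit 5) (nat_lit 211) (nat_lit 5) (nat_lit 199) (nat_lit 5) (nat_lit 284) (nat_lit 256) (nat_lit 240)) (XT.nd (nat_lit 78) (nat_lit 0) (nat_lit 0) (XT.lf (nat_lit 0) (nat_lit 2025617009) (nat_lit 988) (nat_lit 2036257836) (nat_lit 1064) (nat_lit 3221945414) (nat_lit 185) (nat_lit 5) (nat_lit 198) (nat_lit 5) (nat_lit 199) (nat_lit 5) (nat_lit 285) (nat_lit 256) (nat_lit 239)) (XT.lf (nat_lit 0) (nat_lit 6306817604) (nat_lit 988) (nat_lit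 282148589) (nat_lit 1064) (nat_lit 769990933) (nat_lit 185) (nat_lit 5) (nat_lit 198) (nat_lit 5) (nat_lit 199) (nat_lit 5) (nat_lit 286) (nat_lit 256) (nat_lit 238)))) (XT.nd (nat_lit 78) (nat_lit 1064) (nat_lit 0) (XT.lf (nat_lit 0) (nat_lit 1695644661) (nat_lit 1140) (nat_lit 4192688649) (nat_lit 76) (nat_lit 1548444762) (nat_lit 170) (nat_lit 5) (nat_lit 185) (nat_lit 5) (nat_lit 171) (nat_lit 5) (nat_lit 287) (nat_lit 256) (nat_lit 237)) (XT.nd (nat_lit 78) (nat_lit 0) (nat_lit 0) (XT.lf (nat_lit 0) (nat_lit 96743789) (nat_lit 1064) (nat_lit 4066849243) (nat_lit 1140) (nat_lit 3354960027) (nat_lit 156) (nat_lit 5) (nat_lit 170) (nat_lit 5) (nat_lit 171) (nat_lit 5) (nat_lit 288) (nat_lit 256) (nat_lit 236)) (XT.lf (nat_lit 0) (nat_lit 4532699750) (nat_lit 1064) (nat_lit 2145987169) (nat_lit 1140) (nat_lit 925059145) (nat_lit 156) (nat_lit 5) (nat_lit 170) (nat_lit 5) (nat_lit 171) (nat_lit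 5) (nat_lit 289) (nat_lit 256) (nat_lit 235))))))) (XT.nd (nat_lit 936) (nat_lit 2736) (nat_lit 0) (XT.nd (nat_lit 468) (nat_lit 1444) (nat_lit 0) (XT.nd (nat_lit 234) (nat_lit 1140) (nat_lit 0) (XT.nd (nat_lit 78) (nat_lit 532) (nat_lit 0) (XT.lf (nat_lit 0) (nat_lit 1353867521) (nat_lit 532) (nat_lit 138067767) (nat_lit 608) (nat_lit 6200903975) (nat_lit 148) (nat_lit 5) (nat_lit 155) (nat_lit 5) (nat_lit 156) (nat_lit 5) (nat_lit 290) (nat_lit 256) (nat_lit 234)) (XT.nd (nat_lit 78) (nat_lit 532) (nat_lit 0) (XT.lf (nat_lit 0) (nat_lit 3946023463) (nat_lit 608) (nat_lit 1906316370) (nat_lit 76) (nat_lit 1932639927) (nat_lit 148) (nat_lit 5) (nat_lit 156) (nat_lit 5) (nat_lit 149) (nat_lit 5) (nat_lit 291) (nat_lit 256) (nat_lit 233)) (XT.lf (nat_lit 0) (nat_lit 2642423173) (nat_lit 532) (nat_lit 3793326170) (nat_lit 608) (nat_lit 1445415038) (nat_lit 141) (nat_lit 5) (nat_lit 148) (nat_lit 5)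 (nat_lit 149) (nat_lit 5) (nat_lit 292) (nat_lit 256) (nat_lit 232)))) (XT.nd (nat_lit 78) (nat_lit 1064) (nat_lit 0) (XT.lf (nat_lit 0) (nat_lit 955203036) (nat_lit 608) (nat_lit 690794595) (nat_lit 76) (nat_lit 6335419894) (nat_lit 140) (nat_lit 5) (nat_lit 148) (nat_lit 5) (nat_lit 141) (nat_lit 5) (nat_lit 293) (nat_lit 256) (nat_lit 231)) (XT.nd (nat_lit 78) (nat_lit 532) (nat_lit 0) (XT.lf (nat_lit 0) (nat_lit 3380685875) (nat_lit 608) (nat_lit 4099730041) (nat_lit 76) (nat_lit 604504536) (nat_lit 133) (nat_lit 5) (nat_lit 141) (nat_lit 5) (nat_lit 134) (nat_lit 5) (nat_lit 294) (nat_lit 256) (nat_lit 230)) (XT.lf (nat_lit 0) (nat_lit 551547329) (nat_lit 532) (nat_lit 5294785531) (nat_lit 608) (nat_lit 2346298327) (nat_lit 126) (nat_lit 5) (nat_lit 133) (nat_lit 5) (nat_lit 134) (nat_lit 5) (nat_lit 295) (nat_lit 256) (nat_lit 229))))) (XT.nd (nat_lit 234) (nat_lit 912) (nat_lit 0) (XT.nd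 (nat_lit 78) (nat_lit 456) (nat_lit 0) (XT.lf (nat_lit 0) (nat_lit 61764724) (nat_lit 608) (nat_lit 2944944754) (nat_lit 76) (nat_lit 5297527676) (nat_lit 125) (nat_lit 5) (nat_lit 133) (nat_lit 5) (nat_lit 126) (nat_lit 5) (nat_lit 296) (nat_lit 256) (nat_lit 228)) (XT.nd (nat_lit 78) (nat_lit 0) (nat_lit 0) (XT.lf (nat_lit 0) (nat_lit 1838891226) (nat_lit 456) (nat_lit 614655004) (nat_lit 532) (nat_lit 5966303231) (nat_lit 119) (nat_lit 5) (nat_lit 125) (nat_lit 5) (nat_lit 126) (nat_lit 5) (nat_lit 297) (nat_lit 256) (nat_lit 227)) (XT.lf (nat_lit 0) (nat_lit 4906870664) (nat_lit 532) (nat_lit 1796471066) (nat_lit 76) (nat_lit 1836005524) (nat_lit 119) (nat_lit 5) (nat_lit 126) (nat_lit 5) (nat_lit 120) (nat_lit 5) (nat_lit 298) (nat_lit 256) (nat_lit 226)))) (XT.nd (nat_lit 78) (nat_lit 456) (nat_lit 0) (XT.lf (nat_lit 0) (nat_lit 3121350380) (nat_lit 456) (nat_lit 4292205939) (nat_lit 532)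 (nat_lit 1249588392) (nat_lit 113) (nat_lit 5) (nat_lit 119) (nat_lit 5) (nat_lit 120) (nat_lit 5) (nat_lit 299) (nat_lit 256) (nat_lit 225)) (XT.nd (nat_lit 78) (nat_lit 380) (nat_lit 0) (XT.lf (nat_lit 0) (nat_lit 1143640364) (nat_lit 532) (nat_lit 643941256) (nat_lit 76) (nat_lit 7003957528) (nat_lit 112) (nat_lit 5) (nat_lit 119) (nat_lit 5) (nat_lit 113) (nat_lit 5) (nat_lit 300) (nat_lit 256) (nat_lit 224)) (XT.lf (nat_lit 0) (nat_lit 3579690572) (nat_lit 456) (nat_lit 4521081081) (nat_lit 76) (nat_lit 822856846) (nat_lit 107) (nat_lit 5) (nat_lit 113) (nat_lit 5) (nat_lit 108) (nat_lit 5) (nat_lit 301) (nat_lit 256) (nat_lit 223)))))) (XT.nd (nat_lit 468) (nat_lit 1444) (nat_lit 0) (XT.nd (nat_lit 234) (nat_lit 380) (nat_lit 0) (XT.nd (nat_lit 78) (nat_lit 456) (nat_lit 0) (XT.lf (nat_lit 0) (nat_lit 481101688) (nat_lit 456) (nat_lit 5583166720) (nat_lit 532) (nat_lit 2996244317) (nat_lit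 101) (nat_lit 5) (nat_lit 107) (nat_lit 5) (nat_lit 108) (nat_lit 5) (nat_lit 302) (nat_lit 256) (nat_lit 222)) (XT.nd (nat_lit 78) (nat_lit 456) (nat_lit 0) (XT.lf (nat_lit 0) (nat_lit 5661993082) (nat_lit 456) (nat_lit 2954541366) (nat_lit 532) (nat_lit 585267298) (nat_lit 101) (nat_lit 5) (nat_lit 107) (nat_lit 5) (nat_lit 108) (nat_lit 5) (nat_lit 303) (nat_lit 256) (nat_lit 221)) (XT.lf (nat_lit 0) (nat_lit 1600688610) (nat_lit 380) (nat_lit 224132646) (nat_lit 456) (nat_lit 7523133703) (nat_lit 95) (nat_lit 5) (nat_lit 100) (nat_lit 5) (nat_lit 101) (nat_lit 5) (nat_lit 304) (nat_lit 256) (nat_lit 220)))) (XT.nd (nat_lit 78) (nat_lit 380) (nat_lit 0) (XT.lf (nat_lit 0) (nat_lit 4305644763) (nat_lit 456) (nat_lit 2624637358) (nat_lit 76) (nat_lit 2567815860) (nat_lit 95) (nat_lit 5) (nat_lit 101) (nat_lit 5) (nat_lit 96) (nat_lit 5) (nat_lit 305) (nat_lit 256) (nat_lit 219)) (XT.nd (nat_lit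 78) (nat_lit 0) (nat_lit 0) (XT.lf (nat_lit 0) (nat_lit 2638657123) (nat_lit 380) (nat_lit 4200515776) (nat_lit 456) (nat_lit 2814306442) (nat_lit 90) (nat_lit 5) (nat_lit 95) (nat_lit 5) (nat_lit 96) (nat_lit 5) (nat_lit 306) (nat_lit 256) (nat_lit 218)) (XT.lf (nat_lit 0) (nat_lit 8051979612) (nat_lit 380) (nat_lit 1374770551) (nat_lit 456) (nat_lit 387510728) (nat_lit 90) (nat_lit 5) (nat_lit 95) (nat_lit 5) (nat_lit 96) (nat_lit 5) (nat_lit 307) (nat_lit 256) (nat_lit 217))))) (XT.nd (nat_lit 234) (nat_lit 684) (nat_lit 0) (XT.nd (nat_lit 78) (nat_lit 380) (nat_lit 0) (XT.lf (nat_lit 0) (nat_lit 2073432254) (nat_lit 380) (nat_lit 6357276229) (nat_lit 76) (nat_lit 1548547039) (nat_lit 85) (nat_lit 5) (nat_lit 90) (nat_lit 5) (nat_lit 86) (nat_lit 5) (nat_lit 308) (nat_lit 256) (nat_lit 216)) (XT.nd (nat_lit 78) (nat_lit 380) (nat_lit 0) (XT.lf (nat_lit 0) (nat_lit 4585083879) (nat_lit 380) (nat_lit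 1024047329) (nat_lit 76) (nat_lit 4540486866) (nat_lit 85) (nat_lit 5) (nat_lit 90) (nat_lit 5) (nat_lit 86) (nat_lit 5) (nat_lit 309) (nat_lit 256) (nat_lit 215)) (XT.lf (nat_lit 0) (nat_lit 4497078852) (nat_lit 380) (nat_lit 2672686878) (nat_lit 456) (nat_lit 3155466472) (nat_lit 80) (nat_lit 5) (nat_lit 85) (nat_lit 5) (nat_lit 86) (nat_lit 5) (nat_lit 310) (nat_lit 256) (nat_lit 214)))) (XT.nd (nat_lit 78) (nat_lit 684) (nat_lit 0) (XT.lf (nat_lit 0) (nat_lit 9800883282) (nat_lit 456) (nat_lit 364998951) (nat_lit 76) (nat_lit 341234713) (nat_lit 80) (nat_lit 5) (nat_lit 86) (nat_lit 5) (nat_lit 81) (nat_lit 5) (nat_lit 311) (nat_lit 256) (nat_lit 213)) (XT.nd (nat_lit 78) (nat_lit 304) (nat_lit 0) (XT.lf (nat_lit 0) (nat_lit 1814890739) (nat_lit 380) (nat_lit 5431471289) (nat_lit 76) (nat_lit 3446621638) (nat_lit 75) (nat_lit 5) (nat_lit 80) (nat_lit 5) (nat_lit 76) (nat_lit 5) (nat_lit 312)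 (nat_lit 256) (nat_lit 212)) (XT.lf (nat_lit 0) (nat_lit 116093887) (nat_lit 304) (nat_lit 4242799448) (nat_lit 380) (nat_lit 6526543297) (nat_lit 71) (nat_lit 5) (nat_lit 75) (nat_lit 5) (nat_lit 76) (nat_lit 5) (nat_lit 313) (nat_lit 256) (nat_lit 211))))))))
noncomputable def xc98 : XT := (XT.nd (nat_lit 1794) (nat_lit 1444) (nat_lit 0) (XT.nd (nat_lit 858) (nat_lit 1216) (nat_lit 0) (XT.nd (nat_lit 390) (nat_lit 760) (nat_lit 0) (XT.nd (nat_lit 156) (nat_lit 380) (nat_lit 0) (XT.nd (nat_lit 78) (nat_lit 304) (nat_lit 0) (XT.lf (nat_lit 0) (nat_lit 5882877574) (nat_lit 304) (nat_lit 1108487725) (nat_lit 380) (nat_lit 4091994758) (nat_lit 71) (nat_lit 5) (nat_lit 75) (nat_lit 5) (nat_lit 76) (nat_lit 5) (nat_lit 314) (nat_lit 256) (nat_lit 210)) (XT.lf (nat_lit 0) (nat_lit 466164549) (nat_lit 304) (nat_lit 9219903041) (nat_lit 380) (nat_lit 1601715472) (nat_lit 67) (nat_lit 5) (nat_lit 71) (nat_lit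 5) (nat_lit 72) (nat_lit 5) (nat_lit 315) (nat_lit 256) (nat_lit 209))) (XT.nd (nat_lit 78) (nat_lit 304) (nat_lit 0) (XT.lf (nat_lit 0) (nat_lit 967080408) (nat_lit 380) (nat_lit 5166411989) (nat_lit 76) (nat_lit 5363946562) (nat_lit 66) (nat_lit 5) (nat_lit 71) (nat_lit 5) (nat_lit 67) (nat_lit 5) (nat_lit 316) (nat_lit 256) (nat_lit 208)) (XT.nd (nat_lit 78) (nat_lit 0) (nat_lit 0) (XT.lf (nat_lit 0) (nat_lit 597642847) (nat_lit 304) (nat_lit 2948650669) (nat_lit 380) (nat_lit 8167703379) (nat_lit 62) (nat_lit 5) (nat_lit 66) (nat_lit 5) (nat_lit 67) (nat_lit 5) (nat_lit 317) (nat_lit 256) (nat_lit 207)) (XT.lf (nat_lit 0) (nat_lit 6219033856) (nat_lit 380) (nat_lit 5355804009) (nat_lit 76) (nat_lit 361782100) (nat_lit 62) (nat_lit 5) (nat_lit 67) (nat_lit 5) (nat_lit 63) (nat_lit 5) (nat_lit 318) (nat_lit 256) (nat_lit 206))))) (XT.nd (nat_lit 234) (nat_lit 228) (nat_lit 0) (XT.nd (nat_lit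 78) (nat_lit 304) (nat_lit 0) (XT.lf (nat_lit 0) (nat_lit 502703868) (nat_lit 228) (nat_lit 8464711252) (nat_lit 304) (nat_lit 3198694222) (nat_lit 59) (nat_lit 5) (nat_lit 62) (nat_lit 5) (nat_lit 63) (nat_lit 5) (nat_lit 319) (nat_lit 256) (nat_lit 205)) (XT.nd (nat_lit 78) (nat_lit 304) (nat_lit 0) (XT.lf (nat_lit 0) (nat_lit 6591825910) (nat_lit 228) (nat_lit 5222532216) (nat_lit 304) (nat_lit 587691850) (nat_lit 59) (nat_lit 5) (nat_lit 62) (nat_lit 5) (nat_lit 63) (nat_lit 5) (nat_lit 320) (nat_lit 256) (nat_lit 204)) (XT.lf (nat_lit 0) (nat_lit 147102164) (nat_lit 228) (nat_lit 1877662572) (nat_lit 304) (nat_lit 10620821001) (nat_lit 55) (nat_lit 5) (nat_lit 58) (nat_lit 5) (nat_lit 59) (nat_lit 5) (nat_lit 321) (nat_lit 256) (nat_lit 203)))) (XT.nd (nat_lit 78) (nat_lit 228) (nat_lit 0) (XT.lf (nat_lit 0) (nat_lit 4741233165) (nat_lit 304) (nat_lit 6568456188) (nat_lit 76) (nat_lit 1585485799)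 (nat_lit 55) (nat_lit 5) (nat_lit 59) (nat_lit 5) (nat_lit 56) (nat_lit 5) (nat_lit 322) (nat_lit 256) (nat_lit 202)) (XT.nd (nat_lit 78) (nat_lit 228) (nat_lit 0) (XT.lf (nat_lit 0) (nat_lit 7521989385) (nat_lit 304) (nat_lit 532102128) (nat_lit 76) (nat_lit 5098721245) (nat_lit 55) (nat_lit 5) (nat_lit 59) (nat_lit 5) (nat_lit 56) (nat_lit 5) (nat_lit 323) (nat_lit 256) (nat_lit 201)) (XT.lf (nat_lit 0) (nat_lit 5746028034) (nat_lit 228) (nat_lit 4660620243) (nat_lit 304) (nat_lit 3010959844) (nat_lit 52) (nat_lit 5) (nat_lit 55) (nat_lit 5) (nat_lit 56) (nat_lit 5) (nat_lit 324) (nat_lit 256) (nat_lit 200)))))) (XT.nd (nat_lit 468) (nat_lit 456) (nat_lit 0) (XT.nd (nat_lit 234) (nat_lit 456) (nat_lit 0) (XT.nd (nat_lit 78) (nat_lit 304) (nat_lit 0) (XT.lf (nat_lit 0) (nat_lit 12172473768) (nat_lit 228) (nat_lit 1176514641) (nat_lit 304) (nat_lit 342266467) (nat_lit 52) (nat_lit 5) (nat_lit 55)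 (nat_lit 5) (nat_lit 56) (nat_lit 5) (nat_lit 325) (nat_lit 256) (nat_lit 199)) (XT.nd (nat_lit 78) (nat_lit 0) (nat_lit 0) (XT.lf (nat_lit 0) (nat_lit 2396164821) (nat_lit 304) (nat_lit 9156036408) (nat_lit 76) (nat_lit 2419156112) (nat_lit 48) (nat_lit 5) (nat_lit 52) (nat_lit 5) (nat_lit 49) (nat_lit 5) (nat_lit 326) (nat_lit 256) (nat_lit 198)) (XT.lf (nat_lit 0) (nat_lit 5203745602) (nat_lit 304) (nat_lit 2954553272) (nat_lit 76) (nat_lit 6101684300) (nat_lit 48) (nat_lit 5) (nat_lit 52) (nat_lit 5) (nat_lit 49) (nat_lit 5) (nat_lit 327) (nat_lit 256) (nat_lit 197)))) (XT.nd (nat_lit 78) (nat_lit 228) (nat_lit 0) (XT.lf (nat_lit 0) (nat_lit 3451252008) (nat_lit 228) (nat_lit 4645184674) (nat_lit 304) (nat_lit 6460841731) (nat_lit 45) (nat_lit 5) (nat_lit 48) (nat_lit 5) (nat_lit 49) (nat_lit 5) (nat_lit 328) (nat_lit 256) (nat_lit 196)) (XT.nd (nat_lit 78) (nat_lit 228) (nat_lit 0) (XT.lf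 (nat_lit 0) (nat_lit 10061209252) (nat_lit 228) (nat_lit 1012715279) (nat_lit 304) (nat_lit 3789663533) (nat_lit 45) (nat_lit 5) (nat_lit 48) (nat_lit 5) (nat_lit 49) (nat_lit 5) (nat_lit 329) (nat_lit 256) (nat_lit 195)) (XT.lf (nat_lit 0) (nat_lit 1648335229) (nat_lit 228) (nat_lit 12503427914) (nat_lit 304) (nat_lit 1027028063) (nat_lit 42) (nat_lit 5) (nat_lit 45) (nat_lit 5) (nat_lit 46) (nat_lit 5) (nat_lit 330) (nat_lit 256) (nat_lit 194))))) (XT.nd (nat_lit 234) (nat_lit 228) (nat_lit 0) (XT.nd (nat_lit 78) (nat_lit 152) (nat_lit 0) (XT.lf (nat_lit 0) (nat_lit 1811065385) (nat_lit 304) (nat_lit 7187124344) (nat_lit 76) (nat_lit 6503927357) (nat_lit 41) (nat_lit 5) (nat_lit 45) (nat_lit 5) (nat_lit 42) (nat_lit 5) (nat_lit 331) (nat_lit 256) (nat_lit 193)) (XT.nd (nat_lit 78) (nat_lit 152) (nat_lit 0) (XT.lf (nat_lit 0) (nat_lit 4683622979) (nat_lit 304) (nat_lit 710414808) (nat_lit 76)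 (nat_lit 10441733004) (nat_lit 41) (nat_lit 5) (nat_lit 45) (nat_lit 5) (nat_lit 42) (nat_lit 5) (nat_lit 332) (nat_lit 256) (nat_lit 192)) (XT.lf (nat_lit 0) (nat_lit 6032928476) (nat_lit 152) (nat_lit 1638259461) (nat_lit 228) (nat_lit 8507412338) (nat_lit 39) (nat_lit 5) (nat_lit 41) (nat_lit 5) (nat_lit 42) (nat_lit 5) (nat_lit 333) (nat_lit 256) (nat_lit 191)))) (XT.nd (nat_lit 78) (nat_lit 228) (nat_lit 0) (XT.lf (nat_lit 0) (nat_lit 10748162641) (nat_lit 228) (nat_lit 3605557006) (nat_lit 76) (nat_lit 2178031692) (nat_lit 39) (nat_lit 5) (nat_lit 42) (nat_lit 5) (nat_lit 40) (nat_lit 5) (nat_lit 334) (nat_lit 256) (nat_lit 190)) (XT.nd (nat_lit 78) (nat_lit 0) (nat_lit 0) (XT.lf (nat_lit 0) (nat_lit 3131290742) (nat_lit 228) (nat_lit 10804417864) (nat_lit 304) (nat_lit 2959269769) (nat_lit 36) (nat_lit 5) (nat_lit 39) (nat_lit 5) (nat_lit 40) (nat_lit 5) (nat_lit 335) (nat_lit 256) (nat_lit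 189)) (XT.lf (nat_lit 0) (nat_lit 10100236281) (nat_lit 228) (nat_lit 7127390535) (nat_lit 304) (nat_lit 41241476) (nat_lit 36) (nat_lit 5) (nat_lit 39) (nat_lit 5) (nat_lit 40) (nat_lit 5) (nat_lit 336) (nat_lit 256) (nat_lit 188))))))) (XT.nd (nat_lit 936) (nat_lit 684) (nat_lit 0) (XT.nd (nat_lit 468) (nat_lit 380) (nat_lit 0) (XT.nd (nat_lit 234) (nat_lit 152) (nat_lit 0) (XT.nd (nat_lit 78) (nat_lit 152) (nat_lit 0) (XT.lf (nat_lit 0) (nat_lit 2879332496) (nat_lit 304) (nat_lit 447425674) (nat_lit 76) (nat_lit 14327203217) (nat_lit 35) (nat_lit 5) (nat_lit 39) (nat_lit 5) (nat_lit 36) (nat_lit 5) (nat_lit 337) (nat_lit 256) (nat_lit 187)) (XT.nd (nat_lit 78) (nat_lit 0) (nat_lit 0) (XT.lf (nat_lit 0) (nat_lit 5929534168) (nat_lit 228) (nat_lit 11494558157) (nat_lit 76) (nat_lit 625243551) (nat_lit 33) (nat_lit 5) (nat_lit 36) (nat_lit 5) (nat_lit 34) (nat_lit 5) (nat_lit 338) (nat_lit 256)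 (nat_lit 186)) (XT.lf (nat_lit 0) (nat_lit 9082602331) (nat_lit 228) (nat_lit 4755391910) (nat_lit 76) (nat_lit 4618261820) (nat_lit 33) (nat_lit 5) (nat_lit 36) (nat_lit 5) (nat_lit 34) (nat_lit 5) (nat_lit 339) (nat_lit 256) (nat_lit 185)))) (XT.nd (nat_lit 78) (nat_lit 0) (nat_lit 0) (XT.lf (nat_lit 0) (nat_lit 2187675724) (nat_lit 152) (nat_lit 10138236856) (nat_lit 228) (nat_lit 6549626310) (nat_lit 31) (nat_lit 5) (nat_lit 33) (nat_lit 5) (nat_lit 34) (nat_lit 5) (nat_lit 340) (nat_lit 256) (nat_lit 184)) (XT.nd (nat_lit 78) (nat_lit 0) (nat_lit 0) (XT.lf (nat_lit 0) (nat_lit 9395954825) (nat_lit 152) (nat_lit 6293557506) (nat_lit 228) (nat_lit 3617221989) (nat_lit 31) (nat_lit 5) (nat_lit 33) (nat_lit 5) (nat_lit 34) (nat_lit 5) (nat_lit 341) (nat_lit 256) (nat_lit 183)) (XT.lf (nat_lit 0) (nat_lit 16781102265) (nat_lit 152) (nat_lit 2348616900) (nat_lit 228) (nat_lit 621898607) (nat_lit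 31) (nat_lit 5) (nat_lit 33) (nat_lit 5) (nat_lit 34) (nat_lit 5) (nat_lit 342) (nat_lit 256) (nat_lit 182))))) (XT.nd (nat_lit 234) (nat_lit 152) (nat_lit 0) (XT.nd (nat_lit 78) (nat_lit 0) (nat_lit 0) (XT.lf (nat_lit 0) (nat_lit 2448690071) (nat_lit 228) (nat_lit 16028181738) (nat_lit 76) (nat_lit 1731283168) (nat_lit 28) (nat_lit 5) (nat_lit 31) (nat_lit 5) (nat_lit 29) (nat_lit 5) (nat_lit 343) (nat_lit 256) (nat_lit 181)) (XT.nd (nat_lit 78) (nat_lit 0) (nat_lit 0) (XT.lf (nat_lit 0) (nat_lit 5628778597) (nat_lit 228) (nat_lit 9140261244) (nat_lit 76) (nat_lit 5908288449) (nat_lit 28) (nat_lit 5) (nat_lit 31) (nat_lit 5) (nat_lit 29) (nat_lit 5) (nat_lit 344) (nat_lit 256) (nat_lit 180)) (XT.lf (nat_lit 0) (nat_lit 8881293783) (nat_lit 228) (nat_lit 2083503236) (nat_lit 76) (nat_lit 10196489614) (nat_lit 28) (nat_lit 5) (nat_lit 31) (nat_lit 5) (nat_lit 29) (nat_lit 5) (nat_lit 345) (nat_lit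 256) (nat_lit 179)))) (XT.nd (nat_lit 78) (nat_lit 0) (nat_lit 0) (XT.lf (nat_lit 0) (nat_lit 5250718821) (nat_lit 152) (nat_lit 7008831934) (nat_lit 228) (nat_lit 9399387935) (nat_lit 26) (nat_lit 5) (nat_lit 28) (nat_lit 5) (nat_lit 29) (nat_lit 5) (nat_lit 346) (nat_lit 256) (nat_lit 178)) (XT.nd (nat_lit 78) (nat_lit 0) (nat_lit 0) (XT.lf (nat_lit 0) (nat_lit 12811337984) (nat_lit 152) (nat_lit 2926850355) (nat_lit 228) (nat_lit 6433380354) (nat_lit 26) (nat_lit 5) (nat_lit 28) (nat_lit 5) (nat_lit 29) (nat_lit 5) (nat_lit 347) (nat_lit 256) (nat_lit 177)) (XT.lf (nat_lit 0) (nat_lit 19311966837) (nat_lit 228) (nat_lit 2148889767) (nat_lit 76) (nat_lit 1239016344) (nat_lit 26) (nat_lit 5) (nat_lit 29) (nat_lit 5) (nat_lit 27) (nat_lit 4) (nat_lit 348) (nat_lit 256) (nat_lit 176)))))) (XT.nd (nat_lit 468) (nat_lit 304) (nat_lit 0) (XT.nd (nat_lit 234) (nat_lit 152) (nat_lit 0) (XT.nd (nat_lit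 78) (nat_lit 76) (nat_lit 0) (XT.lf (nat_lit 0) (nat_lit 5318838391) (nat_lit 152) (nat_lit 17733353937) (nat_lit 228) (nat_lit 190075252) (nat_lit 24) (nat_lit 5) (nat_lit 26) (nat_lit 5) (nat_lit 27) (nat_lit 4) (nat_lit 349) (nat_lit 256) (nat_lit 175)) (XT.nd (nat_lit 78) (nat_lit 0) (nat_lit 0) (XT.lf (nat_lit 0) (nat_lit 3044223518) (nat_lit 228) (nat_lit 10810538638) (nat_lit 76) (nat_lit 9945261154) (nat_lit 23) (nat_lit 5) (nat_lit 26) (nat_lit 5) (nat_lit 24) (nat_lit 5) (nat_lit 350) (nat_lit 256) (nat_lit 174)) (XT.lf (nat_lit 0) (nat_lit 6351520003) (nat_lit 228) (nat_lit 3519982801) (nat_lit 76) (nat_lit 14503575489) (nat_lit 23) (nat_lit 5) (nat_lit 26) (nat_lit 5) (nat_lit 24) (nat_lit 5) (nat_lit 351) (nat_lit 256) (nat_lit 173)))) (XT.nd (nat_lit 78) (nat_lit 0) (nat_lit 0) (XT.lf (nat_lit 0) (nat_lit 4035176662) (nat_lit 152) (nat_lit 5742025050) (nat_lit 228) (nat_lit 15189624445)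 (nat_lit 21) (nat_lit 5) (nat_lit 23) (nat_lit 5) (nat_lit 24) (nat_lit 5) (nat_lit 352) (nat_lit 256) (nat_lit 172)) (XT.nd (nat_lit 78) (nat_lit 0) (nat_lit 0) (XT.lf (nat_lit 0) (nat_lit 11856615322) (nat_lit 152) (nat_lit 1465220025) (nat_lit 228) (nat_lit 12254021416) (nat_lit 21) (nat_lit 5) (nat_lit 23) (nat_lit 5) (nat_lit 24) (nat_lit 5) (nat_lit 353) (nat_lit 256) (nat_lit 171)) (XT.lf (nat_lit 0) (nat_lit 16982145643) (nat_lit 228) (nat_lit 6350761795) (nat_lit 76) (nat_lit 2869986012) (nat_lit 21) (nat_lit 5) (nat_lit 24) (nat_lit 5) (nat_lit 22) (nat_lit 4) (nat_lit 354) (nat_lit 256) (nat_lit 170))))) (XT.nd (nat_lit 234) (nat_lit 152) (nat_lit 0) (XT.nd (nat_lit 78) (nat_lit 76) (nat_lit 0) (XT.lf (nat_lit 0) (nat_lit 1216903874) (nat_lit 76) (nat_lit 19543194901) (nat_lit 152) (nat_lit 6088422303) (nat_lit 20) (nat_lit 5) (nat_lit 21) (nat_lit 5) (nat_lit 22) (nat_lit 4) (nat_lit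 355) (nat_lit 256) (nat_lit 169)) (XT.nd (nat_lit 78) (nat_lit 76) (nat_lit 0) (XT.lf (nat_lit 0) (nat_lit 9110981466) (nat_lit 76) (nat_lit 15586407044) (nat_lit 152) (nat_lit 2814763497) (nat_lit 20) (nat_lit 5) (nat_lit 21) (nat_lit 5) (nat_lit 22) (nat_lit 4) (nat_lit 356) (nat_lit 256) (nat_lit 168)) (XT.lf (nat_lit 0) (nat_lit 528441816) (nat_lit 152) (nat_lit 10989438681) (nat_lit 76) (nat_lit 16678198062) (nat_lit 19) (nat_lit 5) (nat_lit 21) (nat_lit 5) (nat_lit 20) (nat_lit 5) (nat_lit 357) (nat_lit 256) (nat_lit 167)))) (XT.nd (nat_lit 78) (nat_lit 152) (nat_lit 0) (XT.lf (nat_lit 0) (nat_lit 3898095420) (nat_lit 152) (nat_lit 3412615038) (nat_lit 76) (nat_lit 21589507789) (nat_lit 19) (nat_lit 5) (nat_lit 21) (nat_lit 5) (nat_lit 20) (nat_lit 5) (nat_lit 358) (nat_lit 256) (nat_lit 166)) (XT.nd (nat_lit 78) (nat_lit 0) (nat_lit 0) (XT.lf (nat_lit 0) (nat_lit 4449809960) (nat_lit 152)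 (nat_lit 2945032180) (nat_lit 228) (nat_lit 22229872686) (nat_lit 17) (nat_lit 5) (nat_lit 19) (nat_lit 5) (nat_lit 20) (nat_lit 5) (nat_lit 359) (nat_lit 256) (nat_lit 165)) (XT.lf (nat_lit 0) (nat_lit 11029541856) (nat_lit 228) (nat_lit 17795757778) (nat_lit 76) (nat_lit 1544667584) (nat_lit 17) (nat_lit 5) (nat_lit 20) (nat_lit 5) (nat_lit 18) (nat_lit 4) (nat_lit 360) (nat_lit 256) (nat_lit 164))))))))
noncomputable def xc99 : XT := (XT.nd (nat_lit 1794) (nat_lit 228) (nat_lit 0) (XT.nd (nat_lit 858) (nat_lit 304) (nat_lit 0) (XT.nd (nat_lit 390) (nat_lit 228) (nat_lit 0) (XT.nd (nat_lit 156) (nat_lit 76) (nat_lit 0) (XT.nd (nat_lit 78) (nat_lit 0) (nat_lit 0) (XT.lf (nat_lit 0) (nat_lit 14786260319) (nat_lit 228) (nat_lit 10252212474) (nat_lit 76) (nat_lit 6098727128) (nat_lit 17) (nat_lit 5) (nat_lit 20) (nat_lit 5) (nat_lit 18) (nat_lit 4) (nat_lit 361) (nat_lit 256) (nat_lit 163)) (XT.lf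 (nat_lit 0) (nat_lit 18639970648) (nat_lit 228) (nat_lit 2509368056) (nat_lit 76) (nat_lit 10778593912) (nat_lit 17) (nat_lit 5) (nat_lit 20) (nat_lit 5) (nat_lit 18) (nat_lit 4) (nat_lit 362) (nat_lit 256) (nat_lit 162))) (XT.nd (nat_lit 78) (nat_lit 0) (nat_lit 0) (XT.lf (nat_lit 0) (nat_lit 5547798601) (nat_lit 76) (nat_lit 17099570396) (nat_lit 152) (nat_lit 10093887372) (nat_lit 16) (nat_lit 5) (nat_lit 17) (nat_lit 5) (nat_lit 18) (nat_lit 4) (nat_lit 363) (nat_lit 256) (nat_lit 161)) (XT.nd (nat_lit 78) (nat_lit 0) (nat_lit 0) (XT.lf (nat_lit 0) (nat_lit 13872156281) (nat_lit 76) (nat_lit 12913115245) (nat_lit 152) (nat_lit 6793410887) (nat_lit 16) (nat_lit 5) (nat_lit 17) (nat_lit 5) (nat_lit 18) (nat_lit 4) (nat_lit 364) (nat_lit 256) (nat_lit 160)) (XT.lf (nat_lit 0) (nat_lit 22421037352) (nat_lit 76) (nat_lit 8611654883) (nat_lit 152) (nat_lit 3408988298) (nat_lit 16) (nat_lit 5) (nat_lit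 17) (nat_lit 5) (nat_lit 18) (nat_lit 4) (nat_lit 365) (nat_lit 256) (nat_lit 159))))) (XT.nd (nat_lit 234) (nat_lit 0) (nat_lit 0) (XT.nd (nat_lit 78) (nat_lit 152) (nat_lit 0) (XT.lf (nat_lit 0) (nat_lit 61121225) (nat_lit 152) (nat_lit 4129692321) (nat_lit 76) (nat_lit 31140173278) (nat_lit 15) (nat_lit 5) (nat_lit 17) (nat_lit 5) (nat_lit 16) (nat_lit 5) (nat_lit 366) (nat_lit 256) (nat_lit 158)) (XT.nd (nat_lit 78) (nat_lit 0) (nat_lit 0) (XT.lf (nat_lit 0) (nat_lit 3595625375) (nat_lit 228) (nat_lit 32230729002) (nat_lit 76) (nat_lit 418750913) (nat_lit 13) (nat_lit 5) (nat_lit 16) (nat_lit 5) (nat_lit 14) (nat_lit 4) (nat_lit 367) (nat_lit 256) (nat_lit 157)) (XT.lf (nat_lit 0) (nat_lit 7305926476) (nat_lit 228) (nat_lit 24764017582) (nat_lit 76) (nat_lit 5114619925) (nat_lit 13) (nat_lit 5) (nat_lit 16) (nat_lit 5) (nat_lit 14) (nat_lit 4) (nat_lit 368) (nat_lit 256) (nat_lit 156)))) (XT.nd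 (nat_lit 78) (nat_lit 0) (nat_lit 0) (XT.lf (nat_lit 0) (nat_lit 11114093833) (nat_lit 228) (nat_lit 17096738640) (nat_lit 76) (nat_lit 9941786500) (nat_lit 13) (nat_lit 5) (nat_lit 16) (nat_lit 5) (nat_lit 14) (nat_lit 4) (nat_lit 369) (nat_lit 256) (nat_lit 155)) (XT.nd (nat_lit 78) (nat_lit 0) (nat_lit 0) (XT.lf (nat_lit 0) (nat_lit 15023454970) (nat_lit 228) (nat_lit 9222192612) (nat_lit 76) (nat_lit 14904468551) (nat_lit 13) (nat_lit 5) (nat_lit 16) (nat_lit 5) (nat_lit 14) (nat_lit 4) (nat_lit 370) (nat_lit 256) (nat_lit 154)) (XT.lf (nat_lit 0) (nat_lit 19037425834) (nat_lit 228) (nat_lit 1133498826) (nat_lit 76) (nat_lit 20007002401) (nat_lit 13) (nat_lit 5) (nat_lit 16) (nat_lit 5) (nat_lit 14) (nat_lit 4) (nat_lit 371) (nat_lit 256) (nat_lit 153)))))) (XT.nd (nat_lit 468) (nat_lit 152) (nat_lit 0) (XT.nd (nat_lit 234) (nat_lit 76) (nat_lit 0) (XT.nd (nat_lit 78) (nat_lit 0) (nat_lit 0)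 (XT.lf (nat_lit 0) (nat_lit 7319235148) (nat_lit 76) (nat_lit 15910635595) (nat_lit 152) (nat_lit 18004968392) (nat_lit 12) (nat_lit 5) (nat_lit 13) (nat_lit 5) (nat_lit 14) (nat_lit 4) (nat_lit 372) (nat_lit 256) (nat_lit 152)) (XT.nd (nat_lit 78) (nat_lit 0) (nat_lit 0) (XT.lf (nat_lit 0) (nat_lit 16027551740) (nat_lit 76) (nat_lit 11519835518) (nat_lit 152) (nat_lit 14776100586) (nat_lit 12) (nat_lit 5) (nat_lit 13) (nat_lit 5) (nat_lit 14) (nat_lit 4) (nat_lit 373) (nat_lit 256) (nat_lit 151)) (XT.lf (nat_lit 0) (nat_lit 24976501308) (nat_lit 76) (nat_lit 7006133925) (nat_lit 152) (nat_lit 11462522584) (nat_lit 12) (nat_lit 5) (nat_lit 13) (nat_lit 5) (nat_lit 14) (nat_lit 4) (nat_lit 374) (nat_lit 256) (nat_lit 150)))) (XT.nd (nat_lit 78) (nat_lit 76) (nat_lit 0) (XT.lf (nat_lit 0) (nat_lit 34173903322) (nat_lit 76) (nat_lit 2365586803) (nat_lit 152) (nat_lit 8061339027) (nat_lit 12) (nat_lit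 5) (nat_lit 13) (nat_lit 5) (nat_lit 14) (nat_lit 4) (nat_lit 375) (nat_lit 256) (nat_lit 149)) (XT.nd (nat_lit 78) (nat_lit 76) (nat_lit 0) (XT.lf (nat_lit 0) (nat_lit 41245060258) (nat_lit 152) (nat_lit 2186843917) (nat_lit 0) (nat_lit 2358913686) (nat_lit 12) (nat_lit 5) (nat_lit 14) (nat_lit 4) (nat_lit 12) (nat_lit 4) (nat_lit 376) (nat_lit 256) (nat_lit 148)) (XT.lf (nat_lit 0) (nat_lit 6382442719) (nat_lit 76) (nat_lit 39783257546) (nat_lit 76) (nat_lit 848596188) (nat_lit 11) (nat_lit 4) (nat_lit 12) (nat_lit 5) (nat_lit 12) (nat_lit 4) (nat_lit 377) (nat_lit 256) (nat_lit 147))))) (XT.nd (nat_lit 234) (nat_lit 76) (nat_lit 0) (XT.nd (nat_lit 78) (nat_lit 0) (nat_lit 0) (XT.lf (nat_lit 0) (nat_lit 2913181985) (nat_lit 152) (nat_lit 33068003660) (nat_lit 76) (nat_lit 12292103629) (nat_lit 10) (nat_lit 5) (nat_lit 12) (nat_lit 5) (nat_lit 11) (nat_lit 4) (nat_lit 378) (nat_lit 256) (nat_lit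 146)) (XT.nd (nat_lit 78) (nat_lit 0) (nat_lit 0) (XT.lf (nat_lit 0) (nat_lit 6760224118) (nat_lit 152) (nat_lit 25304237969) (nat_lit 76) (nat_lit 17505660422) (nat_lit 10) (nat_lit 5) (nat_lit 12) (nat_lit 5) (nat_lit 11) (nat_lit 4) (nat_lit 379) (nat_lit 256) (nat_lit 145)) (XT.lf (nat_lit 0) (nat_lit 10712450872) (nat_lit 152) (nat_lit 17325615562) (nat_lit 76) (nat_lit 22868107597) (nat_lit 10) (nat_lit 5) (nat_lit 12) (nat_lit 5) (nat_lit 11) (nat_lit 4) (nat_lit 380) (nat_lit 256) (nat_lit 144)))) (XT.nd (nat_lit 78) (nat_lit 76) (nat_lit 0) (XT.lf (nat_lit 0) (nat_lit 14773315647) (nat_lit 152) (nat_lit 9125164827) (nat_lit 76) (nat_lit 28384130787) (nat_lit 10) (nat_lit 5) (nat_lit 12) (nat_lit 5) (nat_lit 11) (nat_lit 4) (nat_lit 381) (nat_lit 256) (nat_lit 143)) (XT.nd (nat_lit 78) (nat_lit 76) (nat_lit 0) (XT.lf (nat_lit 0) (nat_lit 18946366773) (nat_lit 152) (nat_lit 695720321) (nat_lit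 76) (nat_lit 34058549817) (nat_lit 10) (nat_lit 5) (nat_lit 12) (nat_lit 5) (nat_lit 11) (nat_lit 4) (nat_lit 382) (nat_lit 256) (nat_lit 142)) (XT.lf (nat_lit 0) (nat_lit 8128703777) (nat_lit 76) (nat_lit 15184684902) (nat_lit 152) (nat_lit 31845757215) (nat_lit 9) (nat_lit 5) (nat_lit 10) (nat_lit 5) (nat_lit 11) (nat_lit 4) (nat_lit 383) (nat_lit 256) (nat_lit 141))))))) (XT.nd (nat_lit 936) (nat_lit 76) (nat_lit 0) (XT.nd (nat_lit 468) (nat_lit 76) (nat_lit 0) (XT.nd (nat_lit 234) (nat_lit 76) (nat_lit 0) (XT.nd (nat_lit 78) (nat_lit 0) (nat_lit 0) (XT.lf (nat_lit 0) (nat_lit 17215760152) (nat_lit 76) (nat_lit 10593442978) (nat_lit 152) (nat_lit 28852279323) (nat_lit 9) (nat_lit 5) (nat_lit 10) (nat_lit 5) (nat_lit 11) (nat_lit 4) (nat_lit 384) (nat_lit 256) (nat_lit 140)) (XT.nd (nat_lit 78) (nat_lit 0) (nat_lit 0) (XT.lf (nat_lit 0) (nat_lit 26559542753) (nat_lit 76) (nat_lit 5871374969)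 (nat_lit 152) (nat_lit 25778246214) (nat_lit 9) (nat_lit 5) (nat_lit 10) (nat_lit 5) (nat_lit 11) (nat_lit 4) (nat_lit 385) (nat_lit 256) (nat_lit 139)) (XT.lf (nat_lit 0) (nat_lit 36168216049) (nat_lit 76) (nat_lit 1014354796) (nat_lit 152) (nat_lit 22620971840) (nat_lit 9) (nat_lit 5) (nat_lit 10) (nat_lit 5) (nat_lit 11) (nat_lit 4) (nat_lit 386) (nat_lit 256) (nat_lit 138)))) (XT.nd (nat_lit 78) (nat_lit 76) (nat_lit 0) (XT.lf (nat_lit 0) (nat_lit 42106590519) (nat_lit 152) (nat_lit 15434111967) (nat_lit 0) (nat_lit 3904161077) (nat_lit 9) (nat_lit 5) (nat_lit 11) (nat_lit 4) (nat_lit 9) (nat_lit 4) (nat_lit 387) (nat_lit 256) (nat_lit 137)) (XT.nd (nat_lit 78) (nat_lit 76) (nat_lit 0) (XT.lf (nat_lit 0) (nat_lit 47180100352) (nat_lit 152) (nat_lit 7011632136) (nat_lit 0) (nat_lit 8943643616) (nat_lit 9) (nat_lit 5) (nat_lit 11) (nat_lit 4) (nat_lit 9) (nat_lit 4) (nat_lit 388) (nat_lit 256)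 (nat_lit 136)) (XT.lf (nat_lit 0) (nat_lit 1682045675) (nat_lit 76) (nat_lit 50731906088) (nat_lit 76) (nat_lit 12462413142) (nat_lit 8) (nat_lit 4) (nat_lit 9) (nat_lit 5) (nat_lit 9) (nat_lit 4) (nat_lit 389) (nat_lit 256) (nat_lit 135))))) (XT.nd (nat_lit 234) (nat_lit 76) (nat_lit 0) (XT.nd (nat_lit 78) (nat_lit 0) (nat_lit 0) (XT.lf (nat_lit 0) (nat_lit 10766106409) (nat_lit 76) (nat_lit 47101581327) (nat_lit 76) (nat_lit 8800014393) (nat_lit 8) (nat_lit 4) (nat_lit 9) (nat_lit 5) (nat_lit 9) (nat_lit 4) (nat_lit 390) (nat_lit 256) (nat_lit 134)) (XT.nd (nat_lit 78) (nat_lit 0) (nat_lit 0) (XT.lf (nat_lit 0) (nat_lit 20108942366) (nat_lit 76) (nat_lit 43368389814) (nat_lit 76) (nat_lit 5035683084) (nat_lit 8) (nat_lit 4) (nat_lit 9) (nat_lit 5) (nat_lit 9) (nat_lit 4) (nat_lit 391) (nat_lit 256) (nat_lit 133)) (XT.lf (nat_lit 0) (nat_lit 29718717190) (nat_lit 76) (nat_lit 39529069536) (nat_lit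 76) (nat_lit 1166129996) (nat_lit 8) (nat_lit 4) (nat_lit 9) (nat_lit 5) (nat_lit 9) (nat_lit 4) (nat_lit 392) (nat_lit 256) (nat_lit 132)))) (XT.nd (nat_lit 78) (nat_lit 0) (nat_lit 0) (XT.lf (nat_lit 0) (nat_lit 2757153278) (nat_lit 152) (nat_lit 32795270628) (nat_lit 76) (nat_lit 36818832651) (nat_lit 7) (nat_lit 5) (nat_lit 9) (nat_lit 5) (nat_lit 8) (nat_lit 4) (nat_lit 393) (nat_lit 256) (nat_lit 131)) (XT.nd (nat_lit 78) (nat_lit 0) (nat_lit 0) (XT.lf (nat_lit 0) (nat_lit 6767573093) (nat_lit 152) (nat_lit 24682615728) (nat_lit 76) (nat_lit 42936999273) (nat_lit 7) (nat_lit 5) (nat_lit 9) (nat_lit 5) (nat_lit 8) (nat_lit 4) (nat_lit 394) (nat_lit 256) (nat_lit 130)) (XT.lf (nat_lit 0) (nat_lit 10891389094) (nat_lit 152) (nat_lit 16338936550) (nat_lit 76) (nat_lit 49233483468) (nat_lit 7) (nat_lit 5) (nat_lit 9) (nat_lit 5) (nat_lit 8) (nat_lit 4) (nat_lit 395) (nat_lit 256) (nat_lit 129))))))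 (XT.nd (nat_lit 30654) (nat_lit 0) (nat_lit 19228) (XT.nd (nat_lit 234) (nat_lit 0) (nat_lit 0) (XT.nd (nat_lit 78) (nat_lit 76) (nat_lit 0) (XT.lf (nat_lit 0) (nat_lit 15132204617) (nat_lit 152) (nat_lit 7756942499) (nat_lit 76) (nat_lit 55713787020) (nat_lit 7) (nat_lit 5) (nat_lit 9) (nat_lit 5) (nat_lit 8) (nat_lit 4) (nat_lit 396) (nat_lit 256) (nat_lit 128)) (XT.nd (nat_lit 78) (nat_lit 0) (nat_lit 0) (XT.lf (nat_lit 0) (nat_lit 1092177570) (nat_lit 76) (nat_lit 18412046336) (nat_lit 152) (nat_lit 61301893437) (nat_lit 6) (nat_lit 5) (nat_lit 7) (nat_lit 5) (nat_lit 8) (nat_lit 4) (nat_lit 397) (nat_lit 256) (nat_lit 127)) (XT.lf (nat_lit 0) (nat_lit 10354249016) (nat_lit 76) (nat_lit 13725044323) (nat_lit 152) (nat_lit 58993949720) (nat_lit 6) (nat_lit 5) (nat_lit 7) (nat_lit 5) (nat_lit 8) (nat_lit 4) (nat_lit 398) (nat_lit 256) (nat_lit 126)))) (XT.nd (nat_lit 30264) (nat_lit 0) (nat_lit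 20596) (XT.lf (nat_lit 0) (nat_lit 19882986546) (nat_lit 76) (nat_lit 8902375548) (nat_lit 152) (nat_lit 56623211630) (nat_lit 6) (nat_lit 5) (nat_lit 7) (nat_lit 5) (nat_lit 8) (nat_lit 4) (nat_lit 399) (nat_lit 256) (nat_lit 125)) (XT.nd (nat_lit 78) (nat_lit 228) (nat_lit 0) (XT.lf (nat_lit 0) (nat_lit 1357542756) (nat_lit 228) (nat_lit 526346803) (nat_lit 0) (nat_lit 1357542756) (nat_lit 280) (nat_lit 5) (nat_lit 283) (nat_lit 4) (nat_lit 280) (nat_lit 4) (nat_lit 266) (nat_lit 257) (nat_lit 257)) (XT.lf (nat_lit 0) (nat_lit 2226509819) (nat_lit 228) (nat_lit 3372327535) (nat_lit 228) (nat_lit 899322460) (nat_lit 277) (nat_lit 4) (nat_lit 280) (nat_lit 5) (nat_lit 280) (nat_lit 4) (nat_lit 267) (nat_lit 257) (nat_lit 256))))) (XT.nd (nat_lit 234) (nat_lit 912) (nat_lit 0) (XT.nd (nat_lit 78) (nat_lit 380) (nat_lit 0) (XT.lf (nat_lit 0) (nat_lit 1920869444) (nat_lit 304) (nat_lit 974615904)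 (nat_lit 76) (nat_lit 3621013175) (nat_lit 276) (nat_lit 5) (nat_lit 280) (nat_lit 5) (nat_lit 277) (nat_lit 4) (nat_lit 268) (nat_lit 257) (nat_lit 255)) (XT.nd (nat_lit 78) (nat_lit 76) (nat_lit 0) (XT.lf (nat_lit 0) (nat_lit 2394263678) (nat_lit 304) (nat_lit 2334450126) (nat_lit 380) (nat_lit 1809113493) (nat_lit 272) (nat_lit 5) (nat_lit 276) (nat_lit 5) (nat_lit 277) (nat_lit 4) (nat_lit 269) (nat_lit 257) (nat_lit 254)) (XT.lf (nat_lit 0) (nat_lit 949380187) (nat_lit 380) (nat_lit 752183023) (nat_lit 76) (nat_lit 4860975295) (nat_lit 271) (nat_lit 5) (nat_lit 276) (nat_lit 5) (nat_lit 272) (nat_lit 5) (nat_lit 270) (nat_lit 257) (nat_lit 253)))) (XT.nd (nat_lit 78) (nat_lit 532) (nat_lit 0) (XT.lf (nat_lit 0) (nat_lit 2711298981) (nat_lit 380) (nat_lit 971115786) (nat_lit 456) (nat_lit 2907506281) (nat_lit 266) (nat_lit 5) (nat_lit 271) (nat_lit 5) (nat_lit 272) (nat_lit 5) (nat_lit 271)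 (nat_lit 257) (nat_lit 252)) (XT.nd (nat_lit 78) (nat_lit 532) (nat_lit 0) (XT.lf (nat_lit 0) (nat_lit 6230102936) (nat_lit 380) (nat_lit 179254512) (nat_lit 456) (nat_lit 211712807) (nat_lit 266) (nat_lit 5) (nat_lit 271) (nat_lit 5) (nat_lit 272) (nat_lit 5) (nat_lit 272) (nat_lit 257) (nat_lit 251)) (XT.lf (nat_lit 0) (nat_lit 2458266565) (nat_lit 532) (nat_lit 3487249165) (nat_lit 76) (nat_lit 708882949) (nat_lit 259) (nat_lit 5) (nat_lit 266) (nat_lit 5) (nat_lit 260) (nat_lit 5) (nat_lit 273) (nat_lit 257) (nat_lit 250))))))))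
noncomputable def xc100 : XT := (XT.nd (nat_lit 1794) (nat_lit 5016) (nat_lit 0) (XT.nd (nat_lit 858) (nat_lit 5548) (nat_lit 0) (XT.nd (nat_lit 390) (nat_lit 2660) (nat_lit 0) (XT.nd (nat_lit 156) (nat_lit 1368) (nat_lit 0) (XT.nd (nat_lit 78) (nat_lit 76) (nat_lit 0) (XT.lf (nat_lit 0) (nat_lit 82135104) (nat_lit 532) (nat_lit 5036807662) (nat_lit 608) (nat_lit 1572552740) (nat_lit 252) (nat_lit 5) (nat_lit 259) (nat_lit 5) (nat_lit 260) (nat_lit 5) (nat_lit 274) (nat_lit 257) (nat_lit 249)) (XT.lf (nat_lit 0) (nat_lit 1052434999) (nat_lit 608) (nat_lit 2978156390) (nat_lit 76) (nat_lit 2700706785) (nat_lit 251) (nat_lit 5) (nat_lit 259) (nat_lit 5) (nat_lit 252) (nat_lit 5) (nat_lit 275) (nat_lit 257) (nat_lit 248))) (XT.nd (nat_lit 78) (nat_lit 760) (nat_lit 0) (XT.lf (nat_lit 0) (nat_lit 693554134) (nat_lit 608) (nat_lit 2949506630) (nat_lit 684) (nat_lit 3131465716) (nat_lit 243) (nat_lit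 5) (nat_lit 251) (nat_lit 5) (nat_lit 252) (nat_lit 5) (nat_lit 276) (nat_lit 257) (nat_lit 247)) (XT.nd (nat_lit 78) (nat_lit 760) (nat_lit 0) (XT.lf (nat_lit 0) (nat_lit 4470722660) (nat_lit 608) (nat_lit 1784520613) (nat_lit 684) (nat_lit 565739348) (nat_lit 243) (nat_lit 5) (nat_lit 251) (nat_lit 5) (nat_lit 252) (nat_lit 5) (nat_lit 277) (nat_lit 257) (nat_lit 246)) (XT.lf (nat_lit 0) (nat_lit 1434656926) (nat_lit 684) (nat_lit 530776640) (nat_lit 760) (nat_lit 4905161815) (nat_lit 233) (nat_lit 5) (nat_lit 242) (nat_lit 5) (nat_lit 243) (nat_lit 5) (nat_lit 278) (nat_lit 257) (nat_lit 245))))) (XT.nd (nat_lit 234) (nat_lit 1824) (nat_lit 0) (XT.nd (nat_lit 78) (nat_lit 836) (nat_lit 0) (XT.lf (nat_lit 0) (nat_lit 4509678145) (nat_lit 760) (nat_lit 1620820352) (nat_lit 76) (nat_lit 792800004) (nat_lit 233) (nat_lit 5) (nat_lit 243) (nat_lit 5) (nat_lit 234) (nat_lit 5) (nat_lit 279) (nat_lit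 257) (nat_lit 244)) (XT.nd (nat_lit 78) (nat_lit 0) (nat_lit 0) (XT.lf (nat_lit 0) (nat_lit 95777741) (nat_lit 836) (nat_lit 4698316417) (nat_lit 76) (nat_lit 2185274156) (nat_lit 222) (nat_lit 5) (nat_lit 233) (nat_lit 5) (nat_lit 223) (nat_lit 5) (nat_lit 280) (nat_lit 257) (nat_lit 243)) (XT.lf (nat_lit 0) (nat_lit 2568839979) (nat_lit 836) (nat_lit 794634269) (nat_lit 76) (nat_lit 3675028373) (nat_lit 222) (nat_lit 5) (nat_lit 233) (nat_lit 5) (nat_lit 223) (nat_lit 5) (nat_lit 281) (nat_lit 257) (nat_lit 242)))) (XT.nd (nat_lit 78) (nat_lit 988) (nat_lit 0) (XT.lf (nat_lit 0) (nat_lit 3223872242) (nat_lit 836) (nat_lit 1845895573) (nat_lit 912) (nat_lit 2031233053) (nat_lit 211) (nat_lit 5) (nat_lit 222) (nat_lit 5) (nat_lit 223) (nat_lit 5) (nat_lit 282) (nat_lit 257) (nat_lit 241)) (XT.nd (nat_lit 78) (nat_lit 0) (nat_lit 0) (XT.lf (nat_lit 0) (nat_lit 145971505) (nat_lit 912) (nat_lit 257886851)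 (nat_lit 988) (nat_lit 6763579348) (nat_lit 198) (nat_lit 5) (nat_lit 210) (nat_lit 5) (nat_lit 211) (nat_lit 5) (nat_lit 283) (nat_lit 257) (nat_lit 240)) (XT.lf (nat_lit 0) (nat_lit 2849026472) (nat_lit 988) (nat_lit 2967338308) (nat_lit 76) (nat_lit 1419747176) (nat_lit 198) (nat_lit 5) (nat_lit 211) (nat_lit 5) (nat_lit 199) (nat_lit 5) (nat_lit 284) (nat_lit 257) (nat_lit 239)))))) (XT.nd (nat_lit 468) (nat_lit 1748) (nat_lit 0) (XT.nd (nat_lit 234) (nat_lit 1672) (nat_lit 0) (XT.nd (nat_lit 78) (nat_lit 1140) (nat_lit 0) (XT.lf (nat_lit 0) (nat_lit 1162382711) (nat_lit 988) (nat_lit 4146143117) (nat_lit 1064) (nat_lit 2000269126) (nat_lit 185) (nat_lit 5) (nat_lit 198) (nat_lit 5) (nat_lit 199) (nat_lit 5) (nat_lit 285) (nat_lit 257) (nat_lit 238)) (XT.nd (nat_lit 78) (nat_lit 1064) (nat_lit 0) (XT.lf (nat_lit 0) (nat_lit 407336239) (nat_lit 1064) (nat_lit 1977751609) (nat_lit 76) (nat_lit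 4999862331) (nat_lit 184) (nat_lit 5) (nat_lit 198) (nat_lit 5) (nat_lit 185) (nat_lit 5) (nat_lit 286) (nat_lit 257) (nat_lit 237)) (XT.lf (nat_lit 0) (nat_lit 2275406079) (nat_lit 1064) (nat_lit 523397641) (nat_lit 1140) (nat_lit 4665599797) (nat_lit 170) (nat_lit 5) (nat_lit 184) (nat_lit 5) (nat_lit 185) (nat_lit 5) (nat_lit 287) (nat_lit 257) (nat_lit 236)))) (XT.nd (nat_lit 78) (nat_lit 1672) (nat_lit 0) (XT.lf (nat_lit 0) (nat_lit 5227009534) (nat_lit 1140) (nat_lit 929316416) (nat_lit 76) (nat_lit 1391122653) (nat_lit 170) (nat_lit 5) (nat_lit 185) (nat_lit 5) (nat_lit 171) (nat_lit 5) (nat_lit 288) (nat_lit 257) (nat_lit 235)) (XT.nd (nat_lit 78) (nat_lit 532) (nat_lit 0) (XT.lf (nat_lit 0) (nat_lit 64612197) (nat_lit 1140) (nat_lit 4179045253) (nat_lit 76) (nat_lit 3390307353) (nat_lit 155) (nat_lit 5) (nat_lit 170) (nat_lit 5) (nat_lit 156) (nat_lit 5) (nat_lit 289) (nat_lit 257) (nat_lit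 234)) (XT.lf (nat_lit 0) (nat_lit 181761983) (nat_lit 532) (nat_lit 2237990039) (nat_lit 608) (nat_lit 5304424532) (nat_lit 148) (nat_lit 5) (nat_lit 155) (nat_lit 5) (nat_lit 156) (nat_lit 5) (nat_lit 290) (nat_lit 257) (nat_lit 233))))) (XT.nd (nat_lit 234) (nat_lit 1140) (nat_lit 0) (XT.nd (nat_lit 78) (nat_lit 608) (nat_lit 0) (XT.lf (nat_lit 0) (nat_lit 4694048443) (nat_lit 532) (nat_lit 128947741) (nat_lit 608) (nat_lit 2994915332) (nat_lit 148) (nat_lit 5) (nat_lit 155) (nat_lit 5) (nat_lit 156) (nat_lit 5) (nat_lit 291) (nat_lit 257) (nat_lit 232)) (XT.nd (nat_lit 78) (nat_lit 76) (nat_lit 0) (XT.lf (nat_lit 0) (nat_lit 1369183033) (nat_lit 532) (nat_lit 5899091607) (nat_lit 608) (nat_lit 647222049) (nat_lit 141) (nat_lit 5) (nat_lit 148) (nat_lit 5) (nat_lit 149) (nat_lit 5) (nat_lit 292) (nat_lit 257) (nat_lit 231)) (XT.lf (nat_lit 0) (nat_lit 1707083632) (nat_lit 608) (nat_lit 2038487639)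 (nat_lit 76) (nat_lit 4270933759) (nat_lit 140) (nat_lit 5) (nat_lit 148) (nat_lit 5) (nat_lit 141) (nat_lit 5) (nat_lit 293) (nat_lit 257) (nat_lit 230)))) (XT.nd (nat_lit 78) (nat_lit 608) (nat_lit 0) (XT.lf (nat_lit 0) (nat_lit 2584650184) (nat_lit 532) (nat_lit 1498626716) (nat_lit 608) (nat_lit 4038271177) (nat_lit 133) (nat_lit 5) (nat_lit 140) (nat_lit 5) (nat_lit 141) (nat_lit 5) (nat_lit 294) (nat_lit 257) (nat_lit 229)) (XT.nd (nat_lit 78) (nat_lit 608) (nat_lit 0) (XT.lf (nat_lit 0) (nat_lit 6499925675) (nat_lit 608) (nat_lit 914090760) (nat_lit 76) (nat_lit 816771967) (nat_lit 133) (nat_lit 5) (nat_lit 141) (nat_lit 5) (nat_lit 134) (nat_lit 5) (nat_lit 295) (nat_lit 257) (nat_lit 228)) (XT.lf (nat_lit 0) (nat_lit 627055968) (nat_lit 608) (nat_lit 4505461825) (nat_lit 76) (nat_lit 3210899367) (nat_lit 125) (nat_lit 5) (nat_lit 133) (nat_lit 5) (nat_lit 126) (nat_lit 5) (nat_lit 296)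 (nat_lit 257) (nat_lit 227))))))) (XT.nd (nat_lit 936) (nat_lit 1976) (nat_lit 0) (XT.nd (nat_lit 468) (nat_lit 1672) (nat_lit 0) (XT.nd (nat_lit 234) (nat_lit 456) (nat_lit 0) (XT.nd (nat_lit 78) (nat_lit 456) (nat_lit 0) (XT.lf (nat_lit 0) (nat_lit 215201277) (nat_lit 456) (nat_lit 2759790832) (nat_lit 532) (nat_lit 5485407300) (nat_lit 119) (nat_lit 5) (nat_lit 125) (nat_lit 5) (nat_lit 126) (nat_lit 5) (nat_lit 297) (nat_lit 257) (nat_lit 226)) (XT.nd (nat_lit 78) (nat_lit 456) (nat_lit 0) (XT.lf (nat_lit 0) (nat_lit 5106546171) (nat_lit 456) (nat_lit 276055584) (nat_lit 532) (nat_lit 3198719884) (nat_lit 119) (nat_lit 5) (nat_lit 125) (nat_lit 5) (nat_lit 126) (nat_lit 5) (nat_lit 298) (nat_lit 257) (nat_lit 225)) (XT.lf (nat_lit 0) (nat_lit 1380633641) (nat_lit 456) (nat_lit 6462327469) (nat_lit 532) (nat_lit 863599225) (nat_lit 113) (nat_lit 5) (nat_lit 119) (nat_lit 5) (nat_lit 120) (nat_lit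 5) (nat_lit 299) (nat_lit 257) (nat_lit 224)))) (XT.nd (nat_lit 78) (nat_lit 380) (nat_lit 0) (XT.lf (nat_lit 0) (nat_lit 1495335424) (nat_lit 532) (nat_lit 2463158510) (nat_lit 76) (nat_lit 4877200885) (nat_lit 112) (nat_lit 5) (nat_lit 119) (nat_lit 5) (nat_lit 113) (nat_lit 5) (nat_lit 300) (nat_lit 257) (nat_lit 223)) (XT.nd (nat_lit 78) (nat_lit 0) (nat_lit 0) (XT.lf (nat_lit 0) (nat_lit 2524366482) (nat_lit 380) (nat_lit 1354835236) (nat_lit 456) (nat_lit 5090195052) (nat_lit 107) (nat_lit 5) (nat_lit 112) (nat_lit 5) (nat_lit 113) (nat_lit 5) (nat_lit 301) (nat_lit 257) (nat_lit 222)) (XT.lf (nat_lit 0) (nat_lit 6320570989) (nat_lit 456) (nat_lit 1470140633) (nat_lit 76) (nat_lit 1316911343) (nat_lit 107) (nat_lit 5) (nat_lit 113) (nat_lit 5) (nat_lit 108) (nat_lit 5) (nat_lit 302) (nat_lit 257) (nat_lit 221))))) (XT.nd (nat_lit 234) (nat_lit 760) (nat_lit 0) (XT.nd (nat_lit 78) (nat_lit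 456) (nat_lit 0) (XT.lf (nat_lit 0) (nat_lit 3650866708) (nat_lit 456) (nat_lit 5182446849) (nat_lit 532) (nat_lit 416828513) (nat_lit 101) (nat_lit 5) (nat_lit 107) (nat_lit 5) (nat_lit 108) (nat_lit 5) (nat_lit 303) (nat_lit 257) (nat_lit 220)) (XT.nd (nat_lit 78) (nat_lit 380) (nat_lit 0) (XT.lf (nat_lit 0) (nat_lit 1949923814) (nat_lit 532) (nat_lit 521898460) (nat_lit 76) (nat_lit 6925667749) (nat_lit 100) (nat_lit 5) (nat_lit 107) (nat_lit 5) (nat_lit 101) (nat_lit 5) (nat_lit 304) (nat_lit 257) (nat_lit 219)) (XT.lf (nat_lit 0) (nat_lit 4379686356) (nat_lit 456) (nat_lit 4816324717) (nat_lit 76) (nat_lit 353194416) (nat_lit 95) (nat_lit 5) (nat_lit 101) (nat_lit 5) (nat_lit 96) (nat_lit 5) (nat_lit 305) (nat_lit 257) (nat_lit 218)))) (XT.nd (nat_lit 78) (nat_lit 380) (nat_lit 0) (XT.lf (nat_lit 0) (nat_lit 372969942) (nat_lit 380) (nat_lit 6494885297) (nat_lit 456) (nat_lit 2838131820) (nat_lit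 90) (nat_lit 5) (nat_lit 95) (nat_lit 5) (nat_lit 96) (nat_lit 5) (nat_lit 306) (nat_lit 257) (nat_lit 217)) (XT.nd (nat_lit 78) (nat_lit 380) (nat_lit 0) (XT.lf (nat_lit 0) (nat_lit 5756796366) (nat_lit 380) (nat_lit 3675459318) (nat_lit 456) (nat_lit 435246512) (nat_lit 90) (nat_lit 5) (nat_lit 95) (nat_lit 5) (nat_lit 96) (nat_lit 5) (nat_lit 307) (nat_lit 257) (nat_lit 216)) (XT.lf (nat_lit 0) (nat_lit 1213216081) (nat_lit 304) (nat_lit 752164234) (nat_lit 380) (nat_lit 8069003793) (nat_lit 85) (nat_lit 5) (nat_lit 89) (nat_lit 5) (nat_lit 90) (nat_lit 5) (nat_lit 308) (nat_lit 257) (nat_lit 215)))))) (XT.nd (nat_lit 468) (nat_lit 912) (nat_lit 0) (XT.nd (nat_lit 234) (nat_lit 684) (nat_lit 0) (XT.nd (nat_lit 78) (nat_lit 380) (nat_lit 0) (XT.lf (nat_lit 0) (nat_lit 4447364241) (nat_lit 380) (nat_lit 3510193491) (nat_lit 76) (nat_lit 2248113994) (nat_lit 85) (nat_lit 5) (nat_lit 90) (nat_lit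 5) (nat_lit 86) (nat_lit 5) (nat_lit 309) (nat_lit 257) (nat_lit 214)) (XT.nd (nat_lit 78) (nat_lit 0) (nat_lit 0) (XT.lf (nat_lit 0) (nat_lit 1932257946) (nat_lit 380) (nat_lit 5053349601) (nat_lit 456) (nat_lit 3397105477) (nat_lit 80) (nat_lit 5) (nat_lit 85) (nat_lit 5) (nat_lit 86) (nat_lit 5) (nat_lit 310) (nat_lit 257) (nat_lit 213)) (XT.lf (nat_lit 0) (nat_lit 7552397686) (nat_lit 380) (nat_lit 2039560067) (nat_lit 456) (nat_lit 973416058) (nat_lit 80) (nat_lit 5) (nat_lit 85) (nat_lit 5) (nat_lit 86) (nat_lit 5) (nat_lit 311) (nat_lit 257) (nat_lit 212)))) (XT.nd (nat_lit 78) (nat_lit 304) (nat_lit 0) (XT.lf (nat_lit 0) (nat_lit 1485720038) (nat_lit 380) (nat_lit 8197880307) (nat_lit 76) (nat_lit 1069764424) (nat_lit 75) (nat_lit 5) (nat_lit 80) (nat_lit 5) (nat_lit 76) (nat_lit 5) (nat_lit 312) (nat_lit 257) (nat_lit 211)) (XT.nd (nat_lit 78) (nat_lit 304) (nat_lit 0) (XT.lf (nat_lit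 0) (nat_lit 4007850453) (nat_lit 380) (nat_lit 2680859256) (nat_lit 76) (nat_lit 4257794412) (nat_lit 75) (nat_lit 5) (nat_lit 80) (nat_lit 5) (nat_lit 76) (nat_lit 5) (nat_lit 313) (nat_lit 257) (nat_lit 210)) (XT.lf (nat_lit 0) (nat_lit 3004568600) (nat_lit 304) (nat_lit 3589050049) (nat_lit 380) (nat_lit 4552239351) (nat_lit 71) (nat_lit 5) (nat_lit 75) (nat_lit 5) (nat_lit 76) (nat_lit 5) (nat_lit 314) (nat_lit 257) (nat_lit 209))))) (XT.nd (nat_lit 234) (nat_lit 532) (nat_lit 0) (XT.nd (nat_lit 78) (nat_lit 380) (nat_lit 0) (XT.lf (nat_lit 0) (nat_lit 8860326907) (nat_lit 304) (nat_lit 383457519) (nat_lit 380) (nat_lit 2107861160) (nat_lit 71) (nat_lit 5) (nat_lit 75) (nat_lit 5) (nat_lit 76) (nat_lit 5) (nat_lit 315) (nat_lit 257) (nat_lit 208)) (XT.nd (nat_lit 78) (nat_lit 0) (nat_lit 0) (XT.lf (nat_lit 0) (nat_lit 422656599) (nat_lit 380) (nat_lit 8257166799) (nat_lit 76) (nat_lit 2883095542)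 (nat_lit 66) (nat_lit 5) (nat_lit 71) (nat_lit 5) (nat_lit 67) (nat_lit 5) (nat_lit 316) (nat_lit 257) (nat_lit 207)) (XT.lf (nat_lit 0) (nat_lit 2976899268) (nat_lit 380) (nat_lit 2531849299) (nat_lit 76) (nat_lit 6271503492) (nat_lit 66) (nat_lit 5) (nat_lit 71) (nat_lit 5) (nat_lit 67) (nat_lit 5) (nat_lit 317) (nat_lit 257) (nat_lit 206)))) (XT.nd (nat_lit 78) (nat_lit 228) (nat_lit 0) (XT.lf (nat_lit 0) (nat_lit 3377778603) (nat_lit 304) (nat_lit 2224568793) (nat_lit 380) (nat_lit 6401971808) (nat_lit 62) (nat_lit 5) (nat_lit 66) (nat_lit 5) (nat_lit 67) (nat_lit 5) (nat_lit 318) (nat_lit 257) (nat_lit 205)) (XT.nd (nat_lit 78) (nat_lit 228) (nat_lit 0) (XT.lf (nat_lit 0) (nat_lit 8306066735) (nat_lit 380) (nat_lit 2782989368) (nat_lit 76) (nat_lit 1146116909) (nat_lit 62) (nat_lit 5) (nat_lit 67) (nat_lit 5) (nat_lit 63) (nat_lit 5) (nat_lit 319) (nat_lit 257) (nat_lit 204)) (XT.lf (nat_lit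 0) (nat_lit 3224474836) (nat_lit 228) (nat_lit 7883089703) (nat_lit 304) (nat_lit 1364936320) (nat_lit 59) (nat_lit 5) (nat_lit 62) (nat_lit 5) (nat_lit 63) (nat_lit 5) (nat_lit 320) (nat_lit 257) (nat_lit 203))))))))
noncomputable def xc101 : XT := (XT.nd (nat_lit 1794) (nat_lit 1140) (nat_lit 0) (XT.nd (nat_lit 858) (nat_lit 836) (nat_lit 0) (XT.nd (nat_lit 390) (nat_lit 836) (nat_lit 0) (XT.nd (nat_lit 156) (nat_lit 228) (nat_lit 0) (XT.nd (nat_lit 78) (nat_lit 228) (nat_lit 0) (XT.lf (nat_lit 0) (nat_lit 1243443754) (nat_lit 304) (nat_lit 3311981980) (nat_lit 76) (nat_lit 8161434813) (nat_lit 58) (nat_lit 5) (nat_lit 62) (nat_lit 5) (nat_lit 59) (nat_lit 5) (nat_lit 321) (nat_lit 257) (nat_lit 202)) (XT.lf (nat_lit 0) (nat_lit 2792100893) (nat_lit 228) (nat_lit 1102240521) (nat_lit 304) (nat_lit 9074097504) (nat_lit 55) (nat_lit 5) (nat_lit 58) (nat_lit 5) (nat_lit 59) (nat_lit 5) (nat_lit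 322) (nat_lit 257) (nat_lit 201))) (XT.nd (nat_lit 78) (nat_lit 228) (nat_lit 0) (XT.lf (nat_lit 0) (nat_lit 6647381854) (nat_lit 304) (nat_lit 4154728566) (nat_lit 76) (nat_lit 2424818773) (nat_lit 55) (nat_lit 5) (nat_lit 59) (nat_lit 5) (nat_lit 56) (nat_lit 5) (nat_lit 323) (nat_lit 257) (nat_lit 200)) (XT.nd (nat_lit 78) (nat_lit 0) (nat_lit 0) (XT.lf (nat_lit 0) (nat_lit 2026212647) (nat_lit 228) (nat_lit 7453449240) (nat_lit 304) (nat_lit 4013654614) (nat_lit 52) (nat_lit 5) (nat_lit 55) (nat_lit 5) (nat_lit 56) (nat_lit 5) (nat_lit 324) (nat_lit 257) (nat_lit 199)) (XT.lf (nat_lit 0) (nat_lit 8428297625) (nat_lit 228) (nat_lit 3977332634) (nat_lit 304) (nat_lit 1361844131) (nat_lit 52) (nat_lit 5) (nat_lit 55) (nat_lit 5) (nat_lit 56) (nat_lit 5) (nat_lit 325) (nat_lit 257) (nat_lit 198))))) (XT.nd (nat_lit 234) (nat_lit 532) (nat_lit 0) (XT.nd (nat_lit 78) (nat_lit 0) (nat_lit 0) (XT.lf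 (nat_lit 0) (nat_lit 928849156) (nat_lit 228) (nat_lit 390251140) (nat_lit 304) (nat_lit 12731110890) (nat_lit 48) (nat_lit 5) (nat_lit 51) (nat_lit 5) (nat_lit 52) (nat_lit 5) (nat_lit 326) (nat_lit 257) (nat_lit 197)) (XT.nd (nat_lit 78) (nat_lit 0) (nat_lit 0) (XT.lf (nat_lit 0) (nat_lit 4107022026) (nat_lit 304) (nat_lit 6940299338) (nat_lit 76) (nat_lit 3292123710) (nat_lit 48) (nat_lit 5) (nat_lit 52) (nat_lit 5) (nat_lit 49) (nat_lit 5) (nat_lit 327) (nat_lit 257) (nat_lit 196)) (XT.lf (nat_lit 0) (nat_lit 6951093174) (nat_lit 304) (nat_lit 625308159) (nat_lit 76) (nat_lit 7061815329) (nat_lit 48) (nat_lit 5) (nat_lit 52) (nat_lit 5) (nat_lit 49) (nat_lit 5) (nat_lit 328) (nat_lit 257) (nat_lit 195)))) (XT.nd (nat_lit 78) (nat_lit 304) (nat_lit 0) (XT.lf (nat_lit 0) (nat_lit 5948966557) (nat_lit 228) (nat_lit 3958266068) (nat_lit 304) (nat_lit 5037951376) (nat_lit 45) (nat_lit 5) (nat_lit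 48) (nat_lit 5) (nat_lit 49) (nat_lit 5) (nat_lit 329) (nat_lit 257) (nat_lit 194)) (XT.nd (nat_lit 78) (nat_lit 304) (nat_lit 0) (XT.lf (nat_lit 0) (nat_lit 12687489207) (nat_lit 228) (nat_lit 240888828) (nat_lit 304) (nat_lit 2333726636) (nat_lit 45) (nat_lit 5) (nat_lit 48) (nat_lit 5) (nat_lit 49) (nat_lit 5) (nat_lit 330) (nat_lit 257) (nat_lit 193)) (XT.lf (nat_lit 0) (nat_lit 487262133) (nat_lit 304) (nat_lit 11553290626) (nat_lit 76) (nat_lit 3546548479) (nat_lit 41) (nat_lit 5) (nat_lit 45) (nat_lit 5) (nat_lit 42) (nat_lit 5) (nat_lit 331) (nat_lit 257) (nat_lit 192)))))) (XT.nd (nat_lit 468) (nat_lit 380) (nat_lit 0) (XT.nd (nat_lit 234) (nat_lit 304) (nat_lit 0) (XT.nd (nat_lit 78) (nat_lit 152) (nat_lit 0) (XT.lf (nat_lit 0) (nat_lit 3345454425) (nat_lit 304) (nat_lit 5098941534) (nat_lit 76) (nat_lit 7476805257) (nat_lit 41) (nat_lit 5) (nat_lit 45) (nat_lit 5) (nat_lit 42) (nat_lit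 5) (nat_lit 332) (nat_lit 257) (nat_lit 191)) (XT.nd (nat_lit 78) (nat_lit 0) (nat_lit 0) (XT.lf (nat_lit 0) (nat_lit 1534920239) (nat_lit 152) (nat_lit 4740914642) (nat_lit 228) (nat_lit 9989926221) (nat_lit 39) (nat_lit 5) (nat_lit 41) (nat_lit 5) (nat_lit 42) (nat_lit 5) (nat_lit 333) (nat_lit 257) (nat_lit 190)) (XT.lf (nat_lit 0) (nat_lit 8428683611) (nat_lit 152) (nat_lit 889025410) (nat_lit 228) (nat_lit 7302270595) (nat_lit 39) (nat_lit 5) (nat_lit 41) (nat_lit 5) (nat_lit 42) (nat_lit 5) (nat_lit 334) (nat_lit 257) (nat_lit 189)))) (XT.nd (nat_lit 78) (nat_lit 304) (nat_lit 0) (XT.lf (nat_lit 0) (nat_lit 12453190026) (nat_lit 228) (nat_lit 1528217490) (nat_lit 76) (nat_lit 3003375098) (nat_lit 39) (nat_lit 5) (nat_lit 42) (nat_lit 5) (nat_lit 40) (nat_lit 5) (nat_lit 335) (nat_lit 257) (nat_lit 188)) (XT.nd (nat_lit 78) (nat_lit 76) (nat_lit 0) (XT.lf (nat_lit 0) (nat_lit 5389309159) (nat_lit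 228) (nat_lit 10327586275) (nat_lit 304) (nat_lit 1642637087) (nat_lit 36) (nat_lit 5) (nat_lit 39) (nat_lit 5) (nat_lit 40) (nat_lit 5) (nat_lit 336) (nat_lit 257) (nat_lit 187)) (XT.lf (nat_lit 0) (nat_lit 1296200822) (nat_lit 304) (nat_lit 5254287270) (nat_lit 76) (nat_lit 11195001708) (nat_lit 35) (nat_lit 5) (nat_lit 39) (nat_lit 5) (nat_lit 36) (nat_lit 5) (nat_lit 337) (nat_lit 257) (nat_lit 186))))) (XT.nd (nat_lit 234) (nat_lit 228) (nat_lit 0) (XT.nd (nat_lit 78) (nat_lit 0) (nat_lit 0) (XT.lf (nat_lit 0) (nat_lit 1638102634) (nat_lit 152) (nat_lit 2642240387) (nat_lit 228) (nat_lit 13862515502) (nat_lit 33) (nat_lit 5) (nat_lit 35) (nat_lit 5) (nat_lit 36) (nat_lit 5) (nat_lit 338) (nat_lit 257) (nat_lit 185)) (XT.nd (nat_lit 78) (nat_lit 0) (nat_lit 0) (XT.lf (nat_lit 0) (nat_lit 7395510267) (nat_lit 228) (nat_lit 9760369645) (nat_lit 76) (nat_lit 1395047911) (nat_lit 33) (nat_lit 5)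 (nat_lit 36) (nat_lit 5) (nat_lit 34) (nat_lit 5) (nat_lit 339) (nat_lit 257) (nat_lit 184)) (XT.lf (nat_lit 0) (nat_lit 10605653289) (nat_lit 228) (nat_lit 2879582545) (nat_lit 76) (nat_lit 5485981571) (nat_lit 33) (nat_lit 5) (nat_lit 36) (nat_lit 5) (nat_lit 34) (nat_lit 5) (nat_lit 340) (nat_lit 257) (nat_lit 183)))) (XT.nd (nat_lit 78) (nat_lit 76) (nat_lit 0) (XT.lf (nat_lit 0) (nat_lit 4251988185) (nat_lit 152) (nat_lit 9677062762) (nat_lit 228) (nat_lit 5474579346) (nat_lit 31) (nat_lit 5) (nat_lit 33) (nat_lit 5) (nat_lit 34) (nat_lit 5) (nat_lit 341) (nat_lit 257) (nat_lit 182)) (XT.nd (nat_lit 78) (nat_lit 76) (nat_lit 0) (XT.lf (nat_lit 0) (nat_lit 11618301615) (nat_lit 152) (nat_lit 5739333941) (nat_lit 228) (nat_lit 2491237917) (nat_lit 31) (nat_lit 5) (nat_lit 33) (nat_lit 5) (nat_lit 34) (nat_lit 5) (nat_lit 342) (nat_lit 257) (nat_lit 181)) (XT.lf (nat_lit 0) (nat_lit 547100462)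 (nat_lit 228) (nat_lit 1145061670) (nat_lit 76) (nat_lit 18615859885) (nat_lit 30) (nat_lit 5) (nat_lit 33) (nat_lit 5) (nat_lit 31) (nat_lit 5) (nat_lit 343) (nat_lit 257) (nat_lit 180))))))) (XT.nd (nat_lit 936) (nat_lit 456) (nat_lit 0) (XT.nd (nat_lit 468) (nat_lit 380) (nat_lit 0) (XT.nd (nat_lit 234) (nat_lit 152) (nat_lit 0) (XT.nd (nat_lit 78) (nat_lit 0) (nat_lit 0) (XT.lf (nat_lit 0) (nat_lit 3688267422) (nat_lit 228) (nat_lit 14590532443) (nat_lit 76) (nat_lit 2499573237) (nat_lit 28) (nat_lit 5) (nat_lit 31) (nat_lit 5) (nat_lit 29) (nat_lit 5) (nat_lit 344) (nat_lit 257) (nat_lit 179)) (XT.nd (nat_lit 78) (nat_lit 0) (nat_lit 0) (XT.lf (nat_lit 0) (nat_lit 6929794041) (nat_lit 228) (nat_lit 7551852822) (nat_lit 76) (nat_lit 6781024068) (nat_lit 28) (nat_lit 5) (nat_lit 31) (nat_lit 5) (nat_lit 29) (nat_lit 5) (nat_lit 345) (nat_lit 257) (nat_lit 178)) (XT.lf (nat_lit 0) (nat_lit 10246909380)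 (nat_lit 228) (nat_lit 337643033) (nat_lit 76) (nat_lit 11177614366) (nat_lit 28) (nat_lit 5) (nat_lit 31) (nat_lit 5) (nat_lit 29) (nat_lit 5) (nat_lit 346) (nat_lit 257) (nat_lit 177)))) (XT.nd (nat_lit 78) (nat_lit 0) (nat_lit 0) (XT.lf (nat_lit 0) (nat_lit 7198876614) (nat_lit 152) (nat_lit 6512835279) (nat_lit 228) (nat_lit 8563509204) (nat_lit 26) (nat_lit 5) (nat_lit 28) (nat_lit 5) (nat_lit 29) (nat_lit 5) (nat_lit 347) (nat_lit 257) (nat_lit 176)) (XT.nd (nat_lit 78) (nat_lit 0) (nat_lit 0) (XT.lf (nat_lit 0) (nat_lit 14934159898) (nat_lit 152) (nat_lit 2328964979) (nat_lit 228) (nat_lit 5541080435) (nat_lit 26) (nat_lit 5) (nat_lit 28) (nat_lit 5) (nat_lit 29) (nat_lit 5) (nat_lit 348) (nat_lit 257) (nat_lit 175)) (XT.lf (nat_lit 0) (nat_lit 20919852220) (nat_lit 228) (nat_lit 500345843) (nat_lit 76) (nat_lit 1928915560) (nat_lit 26) (nat_lit 5) (nat_lit 29) (nat_lit 5) (nat_lit 27) (nat_lit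 4) (nat_lit 349) (nat_lit 257) (nat_lit 174))))) (XT.nd (nat_lit 234) (nat_lit 152) (nat_lit 0) (XT.nd (nat_lit 78) (nat_lit 0) (nat_lit 0) (XT.lf (nat_lit 0) (nat_lit 833821915) (nat_lit 228) (nat_lit 16741770647) (nat_lit 76) (nat_lit 6332378057) (nat_lit 23) (nat_lit 5) (nat_lit 26) (nat_lit 5) (nat_lit 24) (nat_lit 5) (nat_lit 350) (nat_lit 257) (nat_lit 173)) (XT.nd (nat_lit 78) (nat_lit 0) (nat_lit 0) (XT.lf (nat_lit 0) (nat_lit 4131452263) (nat_lit 228) (nat_lit 9467398987) (nat_lit 76) (nat_lit 10884472326) (nat_lit 23) (nat_lit 5) (nat_lit 26) (nat_lit 5) (nat_lit 24) (nat_lit 5) (nat_lit 351) (nat_lit 257) (nat_lit 172)) (XT.lf (nat_lit 0) (nat_lit 7508960788) (nat_lit 228) (nat_lit 2006693148) (nat_lit 76) (nat_lit 15560870459) (nat_lit 23) (nat_lit 5) (nat_lit 26) (nat_lit 5) (nat_lit 24) (nat_lit 5) (nat_lit 352) (nat_lit 257) (nat_lit 171)))) (XT.nd (nat_lit 78) (nat_lit 0) (nat_lit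 0) (XT.lf (nat_lit 0) (nat_lit 5759249637) (nat_lit 152) (nat_lit 5265410502) (nat_lit 228) (nat_lit 14661770423) (nat_lit 21) (nat_lit 5) (nat_lit 23) (nat_lit 5) (nat_lit 24) (nat_lit 5) (nat_lit 353) (nat_lit 257) (nat_lit 170)) (XT.nd (nat_lit 78) (nat_lit 0) (nat_lit 0) (XT.lf (nat_lit 0) (nat_lit 13768641622) (nat_lit 152) (nat_lit 879200606) (nat_lit 228) (nat_lit 11666746180) (nat_lit 21) (nat_lit 5) (nat_lit 23) (nat_lit 5) (nat_lit 24) (nat_lit 5) (nat_lit 354) (nat_lit 257) (nat_lit 169)) (XT.lf (nat_lit 0) (nat_lit 18396860046) (nat_lit 228) (nat_lit 5008453404) (nat_lit 76) (nat_lit 3555777746) (nat_lit 21) (nat_lit 5) (nat_lit 24) (nat_lit 5) (nat_lit 22) (nat_lit 4) (nat_lit 355) (nat_lit 257) (nat_lit 168)))))) (XT.nd (nat_lit 468) (nat_lit 152) (nat_lit 0) (XT.nd (nat_lit 234) (nat_lit 152) (nat_lit 0) (XT.nd (nat_lit 78) (nat_lit 76) (nat_lit 0) (XT.lf (nat_lit 0) (nat_lit 2771214478)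 (nat_lit 76) (nat_lit 19505160844) (nat_lit 152) (nat_lit 5350086931) (nat_lit 20) (nat_lit 5) (nat_lit 21) (nat_lit 5) (nat_lit 22) (nat_lit 4) (nat_lit 356) (nat_lit 257) (nat_lit 167)) (XT.nd (nat_lit 78) (nat_lit 76) (nat_lit 0) (XT.lf (nat_lit 0) (nat_lit 10857906530) (nat_lit 76) (nat_lit 15447853718) (nat_lit 152) (nat_lit 2005043256) (nat_lit 20) (nat_lit 5) (nat_lit 21) (nat_lit 5) (nat_lit 22) (nat_lit 4) (nat_lit 357) (nat_lit 257) (nat_lit 166)) (XT.lf (nat_lit 0) (nat_lit 1395474491) (nat_lit 152) (nat_lit 9870856365) (nat_lit 76) (nat_lit 17749444699) (nat_lit 19) (nat_lit 5) (nat_lit 21) (nat_lit 5) (nat_lit 20) (nat_lit 5) (nat_lit 358) (nat_lit 257) (nat_lit 165)))) (XT.nd (nat_lit 78) (nat_lit 152) (nat_lit 0) (XT.lf (nat_lit 0) (nat_lit 4841426069) (nat_lit 152) (nat_lit 2108910502) (nat_lit 76) (nat_lit 22791465542) (nat_lit 19) (nat_lit 5) (nat_lit 21) (nat_lit 5) (nat_lit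 20) (nat_lit 5) (nat_lit 359) (nat_lit 257) (nat_lit 164)) (XT.nd (nat_lit 78) (nat_lit 0) (nat_lit 0) (XT.lf (nat_lit 0) (nat_lit 5975602119) (nat_lit 152) (nat_lit 2456787144) (nat_lit 228) (nat_lit 22055983286) (nat_lit 17) (nat_lit 5) (nat_lit 19) (nat_lit 5) (nat_lit 20) (nat_lit 5) (nat_lit 360) (nat_lit 257) (nat_lit 163)) (XT.lf (nat_lit 0) (nat_lit 12157752822) (nat_lit 228) (nat_lit 16958913046) (nat_lit 76) (nat_lit 2139885803) (nat_lit 17) (nat_lit 5) (nat_lit 20) (nat_lit 5) (nat_lit 18) (nat_lit 4) (nat_lit 361) (nat_lit 257) (nat_lit 162))))) (XT.nd (nat_lit 234) (nat_lit 76) (nat_lit 0) (XT.nd (nat_lit 78) (nat_lit 76) (nat_lit 0) (XT.lf (nat_lit 0) (nat_lit 16003949790) (nat_lit 228) (nat_lit 9228985193) (nat_lit 76) (nat_lit 6814580390) (nat_lit 17) (nat_lit 5) (nat_lit 20) (nat_lit 5) (nat_lit 18) (nat_lit 4) (nat_lit 362) (nat_lit 257) (nat_lit 161)) (XT.nd (nat_lit 78) (nat_lit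 76) (nat_lit 0) (XT.lf (nat_lit 0) (nat_lit 19950724778) (nat_lit 228) (nat_lit 1292616422) (nat_lit 76) (nat_lit 11619322067) (nat_lit 17) (nat_lit 5) (nat_lit 20) (nat_lit 5) (nat_lit 18) (nat_lit 4) (nat_lit 363) (nat_lit 257) (nat_lit 160)) (XT.lf (nat_lit 0) (nat_lit 6993598247) (nat_lit 76) (nat_lit 17075154924) (nat_lit 152) (nat_lit 9631937650) (nat_lit 16) (nat_lit 5) (nat_lit 17) (nat_lit 5) (nat_lit 18) (nat_lit 4) (nat_lit 364) (nat_lit 257) (nat_lit 159)))) (XT.nd (nat_lit 78) (nat_lit 76) (nat_lit 0) (XT.lf (nat_lit 0) (nat_lit 15530423580) (nat_lit 76) (nat_lit 12778758621) (nat_lit 152) (nat_lit 6254721617) (nat_lit 16) (nat_lit 5) (nat_lit 17) (nat_lit 5) (nat_lit 18) (nat_lit 4) (nat_lit 365) (nat_lit 257) (nat_lit 158)) (XT.nd (nat_lit 78) (nat_lit 76) (nat_lit 0) (XT.lf (nat_lit 0) (nat_lit 24299593336) (nat_lit 76) (nat_lit 8363451052) (nat_lit 152) (nat_lit 2790392319) (nat_lit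 16) (nat_lit 5) (nat_lit 17) (nat_lit 5) (nat_lit 18) (nat_lit 4) (nat_lit 366) (nat_lit 257) (nat_lit 157)) (XT.lf (nat_lit 0) (nat_lit 749167427) (nat_lit 152) (nat_lit 3068641632) (nat_lit 76) (nat_lit 32552037348) (nat_lit 15) (nat_lit 5) (nat_lit 17) (nat_lit 5) (nat_lit 16) (nat_lit 5) (nat_lit 367) (nat_lit 257) (nat_lit 156))))))))
noncomputable def xc102 : XT := (XT.nd (nat_lit 1794) (nat_lit 152) (nat_lit 0) (XT.nd (nat_lit 858) (nat_lit 228) (nat_lit 0) (XT.nd (nat_lit 390) (nat_lit 152) (nat_lit 0) (XT.nd (nat_lit 156) (nat_lit 0) (nat_lit 0) (XT.nd (nat_lit 78) (nat_lit 0) (nat_lit 0) (XT.lf (nat_lit 0) (nat_lit 4385764764) (nat_lit 228) (nat_lit 32008297916) (nat_lit 76) (nat_lit 917458091) (nat_lit 13) (nat_lit 5) (nat_lit 16) (nat_lit 5) (nat_lit 14) (nat_lit 4) (nat_lit 368) (nat_lit 257) (nat_lit 155)) (XT.lf (nat_lit 0) (nat_lit 8187502938) (nat_lit 228) (nat_lit 24352226502)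 (nat_lit 76) (nat_lit 5740043621) (nat_lit 13) (nat_lit 5) (nat_lit 16) (nat_lit 5) (nat_lit 14) (nat_lit 4) (nat_lit 369) (nat_lit 257) (nat_lit 154))) (XT.nd (nat_lit 78) (nat_lit 0) (nat_lit 0) (XT.lf (nat_lit 0) (nat_lit 12090622150) (nat_lit 228) (nat_lit 16488561569) (nat_lit 76) (nat_lit 10698278055) (nat_lit 13) (nat_lit 5) (nat_lit 16) (nat_lit 5) (nat_lit 14) (nat_lit 4) (nat_lit 370) (nat_lit 257) (nat_lit 153)) (XT.nd (nat_lit 78) (nat_lit 0) (nat_lit 0) (XT.lf (nat_lit 0) (nat_lit 16098532893) (nat_lit 228) (nat_lit 8410431953) (nat_lit 76) (nat_lit 15796493830) (nat_lit 13) (nat_lit 5) (nat_lit 16) (nat_lit 5) (nat_lit 14) (nat_lit 4) (nat_lit 371) (nat_lit 257) (nat_lit 152)) (XT.lf (nat_lit 0) (nat_lit 20214737225) (nat_lit 228) (nat_lit 110779094) (nat_lit 76) (nat_lit 21039145699) (nat_lit 13) (nat_lit 5) (nat_lit 16) (nat_lit 5) (nat_lit 14) (nat_lit 4) (nat_lit 372) (nat_lit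 257) (nat_lit 151))))) (XT.nd (nat_lit 234) (nat_lit 76) (nat_lit 0) (XT.nd (nat_lit 78) (nat_lit 0) (nat_lit 0) (XT.lf (nat_lit 0) (nat_lit 8585176853) (nat_lit 76) (nat_lit 15940180946) (nat_lit 152) (nat_lit 17928163737) (nat_lit 12) (nat_lit 5) (nat_lit 13) (nat_lit 5) (nat_lit 14) (nat_lit 4) (nat_lit 373) (nat_lit 257) (nat_lit 150)) (XT.nd (nat_lit 78) (nat_lit 0) (nat_lit 0) (XT.lf (nat_lit 0) (nat_lit 17524266302) (nat_lit 76) (nat_lit 11430698820) (nat_lit 152) (nat_lit 14620399422) (nat_lit 12) (nat_lit 5) (nat_lit 13) (nat_lit 5) (nat_lit 14) (nat_lit 4) (nat_lit 374) (nat_lit 257) (nat_lit 149)) (XT.lf (nat_lit 0) (nat_lit 26712095386) (nat_lit 76) (nat_lit 6794248269) (nat_lit 152) (nat_lit 11224860221) (nat_lit 12) (nat_lit 5) (nat_lit 13) (nat_lit 5) (nat_lit 14) (nat_lit 4) (nat_lit 375) (nat_lit 257) (nat_lit 148)))) (XT.nd (nat_lit 78) (nat_lit 76) (nat_lit 0) (XT.lf (nat_lit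 0) (nat_lit 36156692304) (nat_lit 76) (nat_lit 2026778025) (nat_lit 152) (nat_lit 7738579159) (nat_lit 12) (nat_lit 5) (nat_lit 13) (nat_lit 5) (nat_lit 14) (nat_lit 4) (nat_lit 376) (nat_lit 257) (nat_lit 147)) (XT.nd (nat_lit 78) (nat_lit 76) (nat_lit 0) (XT.lf (nat_lit 0) (nat_lit 43018076650) (nat_lit 152) (nat_lit 1310277002) (nat_lit 0) (nat_lit 2819758930) (nat_lit 12) (nat_lit 5) (nat_lit 14) (nat_lit 4) (nat_lit 12) (nat_lit 4) (nat_lit 377) (nat_lit 257) (nat_lit 146)) (XT.lf (nat_lit 0) (nat_lit 7506851251) (nat_lit 76) (nat_lit 40572850669) (nat_lit 76) (nat_lit 328803111) (nat_lit 11) (nat_lit 4) (nat_lit 12) (nat_lit 5) (nat_lit 12) (nat_lit 4) (nat_lit 378) (nat_lit 257) (nat_lit 145)))))) (XT.nd (nat_lit 468) (nat_lit 76) (nat_lit 0) (XT.nd (nat_lit 234) (nat_lit 76) (nat_lit 0) (XT.nd (nat_lit 78) (nat_lit 0) (nat_lit 0) (XT.lf (nat_lit 0) (nat_lit 3519617398) (nat_lit 152) (nat_lit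 33143622140) (nat_lit 76) (nat_lit 13042347877) (nat_lit 10) (nat_lit 5) (nat_lit 12) (nat_lit 5) (nat_lit 11) (nat_lit 4) (nat_lit 379) (nat_lit 257) (nat_lit 144)) (XT.nd (nat_lit 78) (nat_lit 0) (nat_lit 0) (XT.lf (nat_lit 0) (nat_lit 7466953127) (nat_lit 152) (nat_lit 25173635370) (nat_lit 76) (nat_lit 18401200274) (nat_lit 10) (nat_lit 5) (nat_lit 12) (nat_lit 5) (nat_lit 11) (nat_lit 4) (nat_lit 380) (nat_lit 257) (nat_lit 143)) (XT.lf (nat_lit 0) (nat_lit 11523069335) (nat_lit 152) (nat_lit 16981568749) (nat_lit 76) (nat_lit 23913733387) (nat_lit 10) (nat_lit 5) (nat_lit 12) (nat_lit 5) (nat_lit 11) (nat_lit 4) (nat_lit 381) (nat_lit 257) (nat_lit 142)))) (XT.nd (nat_lit 78) (nat_lit 76) (nat_lit 0) (XT.lf (nat_lit 0) (nat_lit 15691510201) (nat_lit 152) (nat_lit 8560264160) (nat_lit 76) (nat_lit 29584763993) (nat_lit 10) (nat_lit 5) (nat_lit 12) (nat_lit 5) (nat_lit 11) (nat_lit 4) (nat_lit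 382) (nat_lit 257) (nat_lit 141)) (XT.nd (nat_lit 78) (nat_lit 0) (nat_lit 0) (XT.lf (nat_lit 0) (nat_lit 99579981) (nat_lit 76) (nat_lit 19877295295) (nat_lit 152) (nat_lit 35320624605) (nat_lit 9) (nat_lit 5) (nat_lit 10) (nat_lit 5) (nat_lit 11) (nat_lit 4) (nat_lit 383) (nat_lit 257) (nat_lit 140)) (XT.lf (nat_lit 0) (nat_lit 9178811004) (nat_lit 76) (nat_lit 15289457889) (nat_lit 152) (nat_lit 32331702930) (nat_lit 9) (nat_lit 5) (nat_lit 10) (nat_lit 5) (nat_lit 11) (nat_lit 4) (nat_lit 384) (nat_lit 257) (nat_lit 139))))) (XT.nd (nat_lit 234) (nat_lit 76) (nat_lit 0) (XT.nd (nat_lit 78) (nat_lit 0) (nat_lit 0) (XT.lf (nat_lit 0) (nat_lit 18514996175) (nat_lit 76) (nat_lit 10570695238) (nat_lit 152) (nat_lit 29262093332) (nat_lit 9) (nat_lit 5) (nat_lit 10) (nat_lit 5) (nat_lit 11) (nat_lit 4) (nat_lit 385) (nat_lit 257) (nat_lit 138)) (XT.nd (nat_lit 78) (nat_lit 0) (nat_lit 0) (XT.lf (nat_lit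 0) (nat_lit 28116293325) (nat_lit 76) (nat_lit 5716884151) (nat_lit 152) (nat_lit 26109113629) (nat_lit 9) (nat_lit 5) (nat_lit 10) (nat_lit 5) (nat_lit 11) (nat_lit 4) (nat_lit 386) (nat_lit 257) (nat_lit 137)) (XT.lf (nat_lit 0) (nat_lit 37991091937) (nat_lit 76) (nat_lit 723783433) (nat_lit 152) (nat_lit 22870008790) (nat_lit 9) (nat_lit 5) (nat_lit 10) (nat_lit 5) (nat_lit 11) (nat_lit 4) (nat_lit 387) (nat_lit 257) (nat_lit 136)))) (XT.nd (nat_lit 78) (nat_lit 76) (nat_lit 0) (XT.lf (nat_lit 0) (nat_lit 43777470824) (nat_lit 152) (nat_lit 15171398876) (nat_lit 0) (nat_lit 4326856882) (nat_lit 9) (nat_lit 5) (nat_lit 11) (nat_lit 4) (nat_lit 9) (nat_lit 4) (nat_lit 388) (nat_lit 257) (nat_lit 135)) (XT.nd (nat_lit 78) (nat_lit 76) (nat_lit 0) (XT.lf (nat_lit 0) (nat_lit 48991311702) (nat_lit 152) (nat_lit 6517382604) (nat_lit 0) (nat_lit 9508623771) (nat_lit 9) (nat_lit 5) (nat_lit 11) (nat_lit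 4) (nat_lit 9) (nat_lit 4) (nat_lit 389) (nat_lit 257) (nat_lit 134)) (XT.lf (nat_lit 0) (nat_lit 2430197713) (nat_lit 76) (nat_lit 51947159174) (nat_lit 76) (nat_lit 12433331447) (nat_lit 8) (nat_lit 4) (nat_lit 9) (nat_lit 5) (nat_lit 9) (nat_lit 4) (nat_lit 390) (nat_lit 257) (nat_lit 133))))))) (XT.nd (nat_lit 30966) (nat_lit 0) (nat_lit 17252) (XT.nd (nat_lit 468) (nat_lit 76) (nat_lit 0) (XT.nd (nat_lit 234) (nat_lit 76) (nat_lit 0) (XT.nd (nat_lit 78) (nat_lit 0) (nat_lit 0) (XT.lf (nat_lit 0) (nat_lit 11766459181) (nat_lit 76) (nat_lit 48216857799) (nat_lit 76) (nat_lit 8672797262) (nat_lit 8) (nat_lit 4) (nat_lit 9) (nat_lit 5) (nat_lit 9) (nat_lit 4) (nat_lit 391) (nat_lit 257) (nat_lit 132)) (XT.nd (nat_lit 78) (nat_lit 0) (nat_lit 0) (XT.lf (nat_lit 0) (nat_lit 21369851006) (nat_lit 76) (nat_lit 44380343481) (nat_lit 76) (nat_lit 4806930700) (nat_lit 8) (nat_lit 4) (nat_lit 9) (nat_lit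 5) (nat_lit 9) (nat_lit 4) (nat_lit 392) (nat_lit 257) (nat_lit 131)) (XT.lf (nat_lit 0) (nat_lit 31248764501) (nat_lit 76) (nat_lit 40434263926) (nat_lit 76) (nat_lit 832353822) (nat_lit 8) (nat_lit 4) (nat_lit 9) (nat_lit 5) (nat_lit 9) (nat_lit 4) (nat_lit 393) (nat_lit 257) (nat_lit 130)))) (XT.nd (nat_lit 78) (nat_lit 0) (nat_lit 0) (XT.lf (nat_lit 0) (nat_lit 3190901116) (nat_lit 152) (nat_lit 33152048143) (nat_lit 76) (nat_lit 38188708765) (nat_lit 7) (nat_lit 5) (nat_lit 9) (nat_lit 5) (nat_lit 8) (nat_lit 4) (nat_lit 394) (nat_lit 257) (nat_lit 129)) (XT.nd (nat_lit 78) (nat_lit 0) (nat_lit 0) (XT.lf (nat_lit 0) (nat_lit 7311409256) (nat_lit 152) (nat_lit 24814278079) (nat_lit 76) (nat_lit 44482692877) (nat_lit 7) (nat_lit 5) (nat_lit 9) (nat_lit 5) (nat_lit 8) (nat_lit 4) (nat_lit 395) (nat_lit 257) (nat_lit 128)) (XT.lf (nat_lit 0) (nat_lit 11549013263) (nat_lit 152) (nat_lit 16238021034)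 (nat_lit 76) (nat_lit 50960569162) (nat_lit 7) (nat_lit 5) (nat_lit 9) (nat_lit 5) (nat_lit 8) (nat_lit 4) (nat_lit 396) (nat_lit 257) (nat_lit 127))))) (XT.nd (nat_lit 30264) (nat_lit 0) (nat_lit 20824) (XT.nd (nat_lit 78) (nat_lit 76) (nat_lit 0) (XT.lf (nat_lit 0) (nat_lit 15907415897) (nat_lit 152) (nat_lit 7415783189) (nat_lit 76) (nat_lit 57627997902) (nat_lit 7) (nat_lit 5) (nat_lit 9) (nat_lit 5) (nat_lit 8) (nat_lit 4) (nat_lit 397) (nat_lit 257) (nat_lit 126)) (XT.nd (nat_lit 78) (nat_lit 0) (nat_lit 0) (XT.lf (nat_lit 0) (nat_lit 1693184329) (nat_lit 76) (nat_lit 18713517065) (nat_lit 152) (nat_lit 62813896599) (nat_lit 6) (nat_lit 5) (nat_lit 7) (nat_lit 5) (nat_lit 8) (nat_lit 4) (nat_lit 398) (nat_lit 257) (nat_lit 125)) (XT.lf (nat_lit 0) (nat_lit 11216567198) (nat_lit 76) (nat_lit 13893212487) (nat_lit 152) (nat_lit 60446240405) (nat_lit 6) (nat_lit 5) (nat_lit 7) (nat_lit 5) (nat_lit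 8) (nat_lit 4) (nat_lit 399) (nat_lit 257) (nat_lit 124)))) (XT.nd (nat_lit 78) (nat_lit 228) (nat_lit 0) (XT.lf (nat_lit 0) (nat_lit 2764916457) (nat_lit 76) (nat_lit 232635360) (nat_lit 76) (nat_lit 232635360) (nat_lit 283) (nat_lit 4) (nat_lit 284) (nat_lit 5) (nat_lit 284) (nat_lit 4) (nat_lit 264) (nat_lit 258) (nat_lit 258)) (XT.nd (nat_lit 78) (nat_lit 0) (nat_lit 0) (XT.lf (nat_lit 0) (nat_lit 2211819804) (nat_lit 152) (nat_lit 170165855) (nat_lit 228) (nat_lit 4088806803) (nat_lit 280) (nat_lit 5) (nat_lit 282) (nat_lit 5) (nat_lit 283) (nat_lit 4) (nat_lit 265) (nat_lit 258) (nat_lit 257)) (XT.lf (nat_lit 0) (nat_lit 5210044545) (nat_lit 228) (nat_lit 1084726322) (nat_lit 0) (nat_lit 189844241) (nat_lit 280) (nat_lit 5) (nat_lit 283) (nat_lit 4) (nat_lit 280) (nat_lit 4) (nat_lit 266) (nat_lit 258) (nat_lit 256)))))) (XT.nd (nat_lit 468) (nat_lit 2432) (nat_lit 0) (XT.nd (nat_lit 234)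 (nat_lit 456) (nat_lit 0) (XT.nd (nat_lit 78) (nat_lit 380) (nat_lit 0) (XT.lf (nat_lit 0) (nat_lit 1510767108) (nat_lit 304) (nat_lit 4354318875) (nat_lit 76) (nat_lit 636098026) (nat_lit 276) (nat_lit 5) (nat_lit 280) (nat_lit 5) (nat_lit 277) (nat_lit 4) (nat_lit 267) (nat_lit 258) (nat_lit 255)) (XT.nd (nat_lit 78) (nat_lit 380) (nat_lit 0) (XT.lf (nat_lit 0) (nat_lit 4263216427) (nat_lit 304) (nat_lit 1097891225) (nat_lit 76) (nat_lit 1159829357) (nat_lit 276) (nat_lit 5) (nat_lit 280) (nat_lit 5) (nat_lit 277) (nat_lit 4) (nat_lit 268) (nat_lit 258) (nat_lit 254)) (XT.lf (nat_lit 0) (nat_lit 467574656) (nat_lit 380) (nat_lit 4311633441) (nat_lit 76) (nat_lit 1764590438) (nat_lit 271) (nat_lit 5) (nat_lit 276) (nat_lit 5) (nat_lit 272) (nat_lit 5) (nat_lit 269) (nat_lit 258) (nat_lit 253)))) (XT.nd (nat_lit 78) (nat_lit 456) (nat_lit 0) (XT.lf (nat_lit 0) (nat_lit 3142531935) (nat_lit 380)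 (nat_lit 969483152) (nat_lit 76) (nat_lit 2457573557) (nat_lit 271) (nat_lit 5) (nat_lit 276) (nat_lit 5) (nat_lit 272) (nat_lit 5) (nat_lit 270) (nat_lit 258) (nat_lit 252)) (XT.nd (nat_lit 78) (nat_lit 76) (nat_lit 0) (XT.lf (nat_lit 0) (nat_lit 2458146309) (nat_lit 380) (nat_lit 3368157541) (nat_lit 456) (nat_lit 772294329) (nat_lit 266) (nat_lit 5) (nat_lit 271) (nat_lit 5) (nat_lit 272) (nat_lit 5) (nat_lit 271) (nat_lit 258) (nat_lit 251)) (XT.lf (nat_lit 0) (nat_lit 1839610252) (nat_lit 456) (nat_lit 702959632) (nat_lit 76) (nat_lit 4088153997) (nat_lit 265) (nat_lit 5) (nat_lit 271) (nat_lit 5) (nat_lit 266) (nat_lit 5) (nat_lit 272) (nat_lit 258) (nat_lit 250))))) (XT.nd (nat_lit 234) (nat_lit 1368) (nat_lit 0) (XT.nd (nat_lit 78) (nat_lit 608) (nat_lit 0) (XT.lf (nat_lit 0) (nat_lit 2822668514) (nat_lit 456) (nat_lit 1627455460) (nat_lit 532) (nat_lit 2215663769) (nat_lit 259) (nat_lit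 5) (nat_lit 265) (nat_lit 5) (nat_lit 266) (nat_lit 5) (nat_lit 273) (nat_lit 258) (nat_lit 249)) (XT.nd (nat_lit 78) (nat_lit 532) (nat_lit 0) (XT.lf (nat_lit 0) (nat_lit 345250107) (nat_lit 532) (nat_lit 301358413) (nat_lit 76) (nat_lit 6057928210) (nat_lit 258) (nat_lit 5) (nat_lit 265) (nat_lit 5) (nat_lit 259) (nat_lit 5) (nat_lit 274) (nat_lit 258) (nat_lit 248)) (XT.lf (nat_lit 0) (nat_lit 2886917991) (nat_lit 608) (nat_lit 3422355047) (nat_lit 76) (nat_lit 436316762) (nat_lit 251) (nat_lit 5) (nat_lit 259) (nat_lit 5) (nat_lit 252) (nat_lit 5) (nat_lit 275) (nat_lit 258) (nat_lit 247)))) (XT.nd (nat_lit 78) (nat_lit 760) (nat_lit 0) (XT.lf (nat_lit 0) (nat_lit 208129535) (nat_lit 608) (nat_lit 5222578756) (nat_lit 684) (nat_lit 1359636123) (nat_lit 243) (nat_lit 5) (nat_lit 251) (nat_lit 5) (nat_lit 252) (nat_lit 5) (nat_lit 276) (nat_lit 258) (nat_lit 246)) (XT.nd (nat_lit 78) (nat_lit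 684) (nat_lit 0) (XT.lf (nat_lit 0) (nat_lit 1140788037) (nat_lit 684) (nat_lit 2895483951) (nat_lit 76) (nat_lit 2801548051) (nat_lit 242) (nat_lit 5) (nat_lit 251) (nat_lit 5) (nat_lit 243) (nat_lit 5) (nat_lit 277) (nat_lit 258) (nat_lit 245)) (XT.lf (nat_lit 0) (nat_lit 840965193) (nat_lit 684) (nat_lit 2773698692) (nat_lit 760) (nat_lit 3274104444) (nat_lit 233) (nat_lit 5) (nat_lit 242) (nat_lit 5) (nat_lit 243) (nat_lit 5) (nat_lit 278) (nat_lit 258) (nat_lit 244))))))))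
noncomputable def xc103 : XT := (XT.nd (nat_lit 1794) (nat_lit 4180) (nat_lit 0) (XT.nd (nat_lit 858) (nat_lit 3648) (nat_lit 0) (XT.nd (nat_lit 390) (nat_lit 4180) (nat_lit 0) (XT.nd (nat_lit 156) (nat_lit 912) (nat_lit 0) (XT.nd (nat_lit 78) (nat_lit 836) (nat_lit 0) (XT.lf (nat_lit 0) (nat_lit 4685655976) (nat_lit 684) (nat_lit 1425811196) (nat_lit 760) (nat_lit 831535240) (nat_lit 233) (nat_lit 5) (nat_lit 242) (nat_lit 5) (nat_lit 243) (nat_lit 5) (nat_lit 279) (nat_lit 258) (nat_lit 243)) (XT.lf (nat_lit 0) (nat_lit 1587753320) (nat_lit 836) (nat_lit 5401921627) (nat_lit 76) (nat_lit 10819699) (nat_lit 222) (nat_lit 5) (nat_lit 233) (nat_lit 5) (nat_lit 223) (nat_lit 5) (nat_lit 280) (nat_lit 258) (nat_lit 242))) (XT.nd (nat_lit 78) (nat_lit 912) (nat_lit 0) (XT.lf (nat_lit 0) (nat_lit 4022728808) (nat_lit 836) (nat_lit 1530355469) (nat_lit 76) (nat_lit 1507785860) (nat_lit 222) (nat_lit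 5) (nat_lit 233) (nat_lit 5) (nat_lit 223) (nat_lit 5) (nat_lit 281) (nat_lit 258) (nat_lit 241)) (XT.nd (nat_lit 78) (nat_lit 76) (nat_lit 0) (XT.lf (nat_lit 0) (nat_lit 2441707620) (nat_lit 836) (nat_lit 4037452953) (nat_lit 912) (nat_lit 645638403) (nat_lit 211) (nat_lit 5) (nat_lit 222) (nat_lit 5) (nat_lit 223) (nat_lit 5) (nat_lit 282) (nat_lit 258) (nat_lit 240)) (XT.lf (nat_lit 0) (nat_lit 1724365197) (nat_lit 912) (nat_lit 707853275) (nat_lit 76) (nat_lit 4759849477) (nat_lit 210) (nat_lit 5) (nat_lit 222) (nat_lit 5) (nat_lit 211) (nat_lit 5) (nat_lit 283) (nat_lit 258) (nat_lit 239))))) (XT.nd (nat_lit 234) (nat_lit 2204) (nat_lit 0) (XT.nd (nat_lit 78) (nat_lit 1064) (nat_lit 0) (XT.lf (nat_lit 0) (nat_lit 3383814152) (nat_lit 912) (nat_lit 728979332) (nat_lit 988) (nat_lit 3149738500) (nat_lit 198) (nat_lit 5) (nat_lit 210) (nat_lit 5) (nat_lit 211) (nat_lit 5) (nat_lit 284) (nat_lit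 258) (nat_lit 238)) (XT.nd (nat_lit 78) (nat_lit 76) (nat_lit 0) (XT.lf (nat_lit 0) (nat_lit 207740364) (nat_lit 988) (nat_lit 6313574525) (nat_lit 1064) (nat_lit 815514470) (nat_lit 185) (nat_lit 5) (nat_lit 198) (nat_lit 5) (nat_lit 199) (nat_lit 5) (nat_lit 285) (nat_lit 258) (nat_lit 237)) (XT.lf (nat_lit 0) (nat_lit 1534471960) (nat_lit 1064) (nat_lit 3003915218) (nat_lit 76) (nat_lit 2875370908) (nat_lit 184) (nat_lit 5) (nat_lit 198) (nat_lit 5) (nat_lit 185) (nat_lit 5) (nat_lit 286) (nat_lit 258) (nat_lit 236)))) (XT.nd (nat_lit 78) (nat_lit 1140) (nat_lit 0) (XT.lf (nat_lit 0) (nat_lit 1197036221) (nat_lit 1064) (nat_lit 2685042022) (nat_lit 1140) (nat_lit 3612526838) (nat_lit 170) (nat_lit 5) (nat_lit 184) (nat_lit 5) (nat_lit 185) (nat_lit 5) (nat_lit 287) (nat_lit 258) (nat_lit 235)) (XT.nd (nat_lit 78) (nat_lit 1140) (nat_lit 0) (XT.lf (nat_lit 0) (nat_lit 5522952094) (nat_lit 1064)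 (nat_lit 740877224) (nat_lit 1140) (nat_lit 1315290046) (nat_lit 170) (nat_lit 5) (nat_lit 184) (nat_lit 5) (nat_lit 185) (nat_lit 5) (nat_lit 288) (nat_lit 258) (nat_lit 234)) (XT.lf (nat_lit 0) (nat_lit 999332060) (nat_lit 1140) (nat_lit 5395098162) (nat_lit 76) (nat_lit 1272511148) (nat_lit 155) (nat_lit 5) (nat_lit 170) (nat_lit 5) (nat_lit 156) (nat_lit 5) (nat_lit 289) (nat_lit 258) (nat_lit 233)))))) (XT.nd (nat_lit 468) (nat_lit 1976) (nat_lit 0) (XT.nd (nat_lit 234) (nat_lit 1064) (nat_lit 0) (XT.nd (nat_lit 78) (nat_lit 608) (nat_lit 0) (XT.lf (nat_lit 0) (nat_lit 3321135963) (nat_lit 1140) (nat_lit 1069238110) (nat_lit 76) (nat_lit 3367848270) (nat_lit 155) (nat_lit 5) (nat_lit 170) (nat_lit 5) (nat_lit 156) (nat_lit 5) (nat_lit 290) (nat_lit 258) (nat_lit 232)) (XT.nd (nat_lit 78) (nat_lit 76) (nat_lit 0) (XT.lf (nat_lit 0) (nat_lit 3390675906) (nat_lit 532) (nat_lit 2292253955) (nat_lit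 608) (nat_lit 2170338081) (nat_lit 148) (nat_lit 5) (nat_lit 155) (nat_lit 5) (nat_lit 156) (nat_lit 5) (nat_lit 291) (nat_lit 258) (nat_lit 231)) (XT.lf (nat_lit 0) (nat_lit 110341379) (nat_lit 608) (nat_lit 8859799) (nat_lit 76) (nat_lit 7833570657) (nat_lit 147) (nat_lit 5) (nat_lit 155) (nat_lit 5) (nat_lit 148) (nat_lit 5) (nat_lit 292) (nat_lit 258) (nat_lit 230)))) (XT.nd (nat_lit 78) (nat_lit 532) (nat_lit 0) (XT.lf (nat_lit 0) (nat_lit 2420942345) (nat_lit 608) (nat_lit 3490562144) (nat_lit 76) (nat_lit 2143082727) (nat_lit 140) (nat_lit 5) (nat_lit 148) (nat_lit 5) (nat_lit 141) (nat_lit 5) (nat_lit 293) (nat_lit 258) (nat_lit 229)) (XT.nd (nat_lit 78) (nat_lit 0) (nat_lit 0) (XT.lf (nat_lit 0) (nat_lit 1072482607) (nat_lit 532) (nat_lit 3681144771) (nat_lit 608) (nat_lit 3407367777) (nat_lit 133) (nat_lit 5) (nat_lit 140) (nat_lit 5) (nat_lit 141) (nat_lit 5) (nat_lit 294) (nat_lit 258)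 (nat_lit 228)) (XT.lf (nat_lit 0) (nat_lit 5782492479) (nat_lit 532) (nat_lit 1351356481) (nat_lit 608) (nat_lit 1137537241) (nat_lit 133) (nat_lit 5) (nat_lit 140) (nat_lit 5) (nat_lit 141) (nat_lit 5) (nat_lit 295) (nat_lit 258) (nat_lit 227))))) (XT.nd (nat_lit 234) (nat_lit 912) (nat_lit 0) (XT.nd (nat_lit 78) (nat_lit 456) (nat_lit 0) (XT.lf (nat_lit 0) (nat_lit 1151983900) (nat_lit 608) (nat_lit 6176716750) (nat_lit 76) (nat_lit 1056902380) (nat_lit 125) (nat_lit 5) (nat_lit 133) (nat_lit 5) (nat_lit 126) (nat_lit 5) (nat_lit 296) (nat_lit 258) (nat_lit 226)) (XT.nd (nat_lit 78) (nat_lit 456) (nat_lit 0) (XT.lf (nat_lit 0) (nat_lit 3470436383) (nat_lit 608) (nat_lit 1490824687) (nat_lit 76) (nat_lit 3542261711) (nat_lit 125) (nat_lit 5) (nat_lit 133) (nat_lit 5) (nat_lit 126) (nat_lit 5) (nat_lit 297) (nat_lit 258) (nat_lit 225)) (XT.lf (nat_lit 0) (nat_lit 3340577906) (nat_lit 456) (nat_lit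 2495944683) (nat_lit 532) (nat_lit 2789219574) (nat_lit 119) (nat_lit 5) (nat_lit 125) (nat_lit 5) (nat_lit 126) (nat_lit 5) (nat_lit 298) (nat_lit 258) (nat_lit 224)))) (XT.nd (nat_lit 78) (nat_lit 912) (nat_lit 0) (XT.lf (nat_lit 0) (nat_lit 8236116323) (nat_lit 532) (nat_lit 465549873) (nat_lit 76) (nat_lit 51187582) (nat_lit 119) (nat_lit 5) (nat_lit 126) (nat_lit 5) (nat_lit 120) (nat_lit 5) (nat_lit 299) (nat_lit 258) (nat_lit 223)) (XT.nd (nat_lit 78) (nat_lit 380) (nat_lit 0) (XT.lf (nat_lit 0) (nat_lit 1804836674) (nat_lit 532) (nat_lit 4398787513) (nat_lit 76) (nat_lit 2679228891) (nat_lit 112) (nat_lit 5) (nat_lit 119) (nat_lit 5) (nat_lit 113) (nat_lit 5) (nat_lit 300) (nat_lit 258) (nat_lit 222)) (XT.lf (nat_lit 0) (nat_lit 520052595) (nat_lit 380) (nat_lit 3624157865) (nat_lit 456) (nat_lit 4873725056) (nat_lit 107) (nat_lit 5) (nat_lit 112) (nat_lit 5) (nat_lit 113) (nat_lit 5) (nat_lit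 301) (nat_lit 258) (nat_lit 221))))))) (XT.nd (nat_lit 936) (nat_lit 1748) (nat_lit 0) (XT.nd (nat_lit 468) (nat_lit 1140) (nat_lit 0) (XT.nd (nat_lit 234) (nat_lit 760) (nat_lit 0) (XT.nd (nat_lit 78) (nat_lit 532) (nat_lit 0) (XT.lf (nat_lit 0) (nat_lit 5617183103) (nat_lit 380) (nat_lit 930713157) (nat_lit 456) (nat_lit 2609440336) (nat_lit 107) (nat_lit 5) (nat_lit 112) (nat_lit 5) (nat_lit 113) (nat_lit 5) (nat_lit 302) (nat_lit 258) (nat_lit 220)) (XT.nd (nat_lit 78) (nat_lit 76) (nat_lit 0) (XT.lf (nat_lit 0) (nat_lit 1519047802) (nat_lit 456) (nat_lit 7488058951) (nat_lit 532) (nat_lit 294397999) (nat_lit 101) (nat_lit 5) (nat_lit 107) (nat_lit 5) (nat_lit 108) (nat_lit 5) (nat_lit 303) (nat_lit 258) (nat_lit 219)) (XT.lf (nat_lit 0) (nat_lit 2046021014) (nat_lit 532) (nat_lit 2735641426) (nat_lit 76) (nat_lit 4667913901) (nat_lit 100) (nat_lit 5) (nat_lit 107) (nat_lit 5) (nat_lit 101)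 (nat_lit 5) (nat_lit 304) (nat_lit 258) (nat_lit 218)))) (XT.nd (nat_lit 78) (nat_lit 380) (nat_lit 0) (XT.lf (nat_lit 0) (nat_lit 2449550133) (nat_lit 380) (nat_lit 1977540827) (nat_lit 456) (nat_lit 5175701055) (nat_lit 95) (nat_lit 5) (nat_lit 100) (nat_lit 5) (nat_lit 101) (nat_lit 5) (nat_lit 305) (nat_lit 258) (nat_lit 217)) (XT.nd (nat_lit 78) (nat_lit 380) (nat_lit 0) (XT.lf (nat_lit 0) (nat_lit 6869772013) (nat_lit 456) (nat_lit 1981136367) (nat_lit 76) (nat_lit 910068124) (nat_lit 95) (nat_lit 5) (nat_lit 101) (nat_lit 5) (nat_lit 96) (nat_lit 5) (nat_lit 306) (nat_lit 258) (nat_lit 216)) (XT.lf (nat_lit 0) (nat_lit 3334624602) (nat_lit 380) (nat_lit 6057623184) (nat_lit 456) (nat_lit 531538762) (nat_lit 90) (nat_lit 5) (nat_lit 95) (nat_lit 5) (nat_lit 96) (nat_lit 5) (nat_lit 307) (nat_lit 258) (nat_lit 215))))) (XT.nd (nat_lit 234) (nat_lit 760) (nat_lit 0) (XT.nd (nat_lit 78) (nat_lit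 304) (nat_lit 0) (XT.lf (nat_lit 0) (nat_lit 1837206842) (nat_lit 456) (nat_lit 1316266329) (nat_lit 76) (nat_lit 6938270899) (nat_lit 89) (nat_lit 5) (nat_lit 95) (nat_lit 5) (nat_lit 90) (nat_lit 5) (nat_lit 308) (nat_lit 258) (nat_lit 214)) (XT.nd (nat_lit 78) (nat_lit 0) (nat_lit 0) (XT.lf (nat_lit 0) (nat_lit 4134500620) (nat_lit 304) (nat_lit 128021661) (nat_lit 380) (nat_lit 6002243474) (nat_lit 85) (nat_lit 5) (nat_lit 89) (nat_lit 5) (nat_lit 90) (nat_lit 5) (nat_lit 309) (nat_lit 258) (nat_lit 213)) (XT.lf (nat_lit 0) (nat_lit 6759811485) (nat_lit 380) (nat_lit 752080476) (nat_lit 76) (nat_lit 2931176740) (nat_lit 85) (nat_lit 5) (nat_lit 90) (nat_lit 5) (nat_lit 86) (nat_lit 5) (nat_lit 310) (nat_lit 258) (nat_lit 212)))) (XT.nd (nat_lit 78) (nat_lit 380) (nat_lit 0) (XT.lf (nat_lit 0) (nat_lit 4825571770) (nat_lit 380) (nat_lit 4512418615) (nat_lit 456) (nat_lit 1288616304) (nat_lit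 80) (nat_lit 5) (nat_lit 85) (nat_lit 5) (nat_lit 86) (nat_lit 5) (nat_lit 311) (nat_lit 258) (nat_lit 211)) (XT.nd (nat_lit 78) (nat_lit 304) (nat_lit 0) (XT.lf (nat_lit 0) (nat_lit 1121091233) (nat_lit 456) (nat_lit 295974159) (nat_lit 76) (nat_lit 9399320750) (nat_lit 79) (nat_lit 5) (nat_lit 85) (nat_lit 5) (nat_lit 80) (nat_lit 5) (nat_lit 312) (nat_lit 258) (nat_lit 210)) (XT.lf (nat_lit 0) (nat_lit 3606517845) (nat_lit 380) (nat_lit 5615121403) (nat_lit 76) (nat_lit 1789016701) (nat_lit 75) (nat_lit 5) (nat_lit 80) (nat_lit 5) (nat_lit 76) (nat_lit 5) (nat_lit 313) (nat_lit 258) (nat_lit 209)))))) (XT.nd (nat_lit 468) (nat_lit 760) (nat_lit 0) (XT.nd (nat_lit 234) (nat_lit 380) (nat_lit 0) (XT.nd (nat_lit 78) (nat_lit 608) (nat_lit 0) (XT.lf (nat_lit 0) (nat_lit 6143839564) (nat_lit 380) (nat_lit 14978905) (nat_lit 76) (nat_lit 5052673239) (nat_lit 75) (nat_lit 5) (nat_lit 80) (nat_lit 5)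 (nat_lit 76) (nat_lit 5) (nat_lit 314) (nat_lit 258) (nat_lit 208)) (XT.nd (nat_lit 78) (nat_lit 304) (nat_lit 0) (XT.lf (nat_lit 0) (nat_lit 5814087217) (nat_lit 304) (nat_lit 2960522679) (nat_lit 380) (nat_lit 2643278919) (nat_lit 71) (nat_lit 5) (nat_lit 75) (nat_lit 5) (nat_lit 76) (nat_lit 5) (nat_lit 315) (nat_lit 258) (nat_lit 207)) (XT.lf (nat_lit 0) (nat_lit 134191580) (nat_lit 304) (nat_lit 11316690460) (nat_lit 380) (nat_lit 180652940) (nat_lit 67) (nat_lit 5) (nat_lit 71) (nat_lit 5) (nat_lit 72) (nat_lit 5) (nat_lit 316) (nat_lit 258) (nat_lit 206)))) (XT.nd (nat_lit 78) (nat_lit 304) (nat_lit 0) (XT.lf (nat_lit 0) (nat_lit 2358449354) (nat_lit 380) (nat_lit 5796575929) (nat_lit 76) (nat_lit 3694480188) (nat_lit 66) (nat_lit 5) (nat_lit 71) (nat_lit 5) (nat_lit 67) (nat_lit 5) (nat_lit 317) (nat_lit 258) (nat_lit 205)) (XT.nd (nat_lit 78) (nat_lit 0) (nat_lit 0) (XT.lf (nat_lit 0)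 (nat_lit 22048648) (nat_lit 304) (nat_lit 4911469598) (nat_lit 380) (nat_lit 7141590320) (nat_lit 62) (nat_lit 5) (nat_lit 66) (nat_lit 5) (nat_lit 67) (nat_lit 5) (nat_lit 318) (nat_lit 258) (nat_lit 204)) (XT.lf (nat_lit 0) (nat_lit 6082756481) (nat_lit 304) (nat_lit 1525407661) (nat_lit 380) (nat_lit 4698694293) (nat_lit 62) (nat_lit 5) (nat_lit 66) (nat_lit 5) (nat_lit 67) (nat_lit 5) (nat_lit 319) (nat_lit 258) (nat_lit 203))))) (XT.nd (nat_lit 234) (nat_lit 456) (nat_lit 0) (XT.nd (nat_lit 78) (nat_lit 304) (nat_lit 0) (XT.lf (nat_lit 0) (nat_lit 10346616316) (nat_lit 380) (nat_lit 289903726) (nat_lit 76) (nat_lit 1909580769) (nat_lit 62) (nat_lit 5) (nat_lit 67) (nat_lit 5) (nat_lit 63) (nat_lit 5) (nat_lit 320) (nat_lit 258) (nat_lit 202)) (XT.nd (nat_lit 78) (nat_lit 0) (nat_lit 0) (XT.lf (nat_lit 0) (nat_lit 405000271) (nat_lit 304) (nat_lit 6922894255) (nat_lit 76) (nat_lit 5463433883)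 (nat_lit 58) (nat_lit 5) (nat_lit 62) (nat_lit 5) (nat_lit 59) (nat_lit 5) (nat_lit 321) (nat_lit 258) (nat_lit 201)) (XT.lf (nat_lit 0) (nat_lit 3012252710) (nat_lit 304) (nat_lit 897692578) (nat_lit 76) (nat_lit 9134292045) (nat_lit 58) (nat_lit 5) (nat_lit 62) (nat_lit 5) (nat_lit 59) (nat_lit 5) (nat_lit 322) (nat_lit 258) (nat_lit 200)))) (XT.nd (nat_lit 78) (nat_lit 228) (nat_lit 0) (XT.lf (nat_lit 0) (nat_lit 5364869166) (nat_lit 228) (nat_lit 351301771) (nat_lit 304) (nat_lit 7588050916) (nat_lit 55) (nat_lit 5) (nat_lit 58) (nat_lit 5) (nat_lit 59) (nat_lit 5) (nat_lit 323) (nat_lit 258) (nat_lit 199)) (XT.nd (nat_lit 78) (nat_lit 228) (nat_lit 0) (XT.lf (nat_lit 0) (nat_lit 8509459257) (nat_lit 304) (nat_lit 1818458643) (nat_lit 76) (nat_lit 3243880991) (nat_lit 55) (nat_lit 5) (nat_lit 59) (nat_lit 5) (nat_lit 56) (nat_lit 5) (nat_lit 324) (nat_lit 258) (nat_lit 198)) (XT.lf (nat_lit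 0) (nat_lit 4523784221) (nat_lit 228) (nat_lit 6877920468) (nat_lit 304) (nat_lit 2445283176) (nat_lit 52) (nat_lit 5) (nat_lit 55) (nat_lit 5) (nat_lit 56) (nat_lit 5) (nat_lit 325) (nat_lit 258) (nat_lit 197))))))))
noncomputable def xc104 : XT := (XT.nd (nat_lit 1794) (nat_lit 988) (nat_lit 0) (XT.nd (nat_lit 858) (nat_lit 760) (nat_lit 0) (XT.nd (nat_lit 390) (nat_lit 684) (nat_lit 0) (XT.nd (nat_lit 156) (nat_lit 228) (nat_lit 0) (XT.nd (nat_lit 78) (nat_lit 228) (nat_lit 0) (XT.lf (nat_lit 0) (nat_lit 232271171) (nat_lit 304) (nat_lit 3086179405) (nat_lit 76) (nat_lit 10812340767) (nat_lit 51) (nat_lit 5) (nat_lit 55) (nat_lit 5) (nat_lit 52) (nat_lit 5) (nat_lit 326) (nat_lit 258) (nat_lit 196)) (XT.lf (nat_lit 0) (nat_lit 2946044637) (nat_lit 304) (nat_lit 11093257308) (nat_lit 76) (nat_lit 382965486) (nat_lit 48) (nat_lit 5) (nat_lit 52) (nat_lit 5) (nat_lit 49) (nat_lit 5) (nat_lit 327)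 (nat_lit 258) (nat_lit 195))) (XT.nd (nat_lit 78) (nat_lit 228) (nat_lit 0) (XT.lf (nat_lit 0) (nat_lit 5775121235) (nat_lit 304) (nat_lit 4801050347) (nat_lit 76) (nat_lit 4145334509) (nat_lit 48) (nat_lit 5) (nat_lit 52) (nat_lit 5) (nat_lit 49) (nat_lit 5) (nat_lit 328) (nat_lit 258) (nat_lit 194)) (XT.nd (nat_lit 78) (nat_lit 0) (nat_lit 0) (XT.lf (nat_lit 0) (nat_lit 1667558069) (nat_lit 228) (nat_lit 7007989283) (nat_lit 304) (nat_lit 6354614209) (nat_lit 45) (nat_lit 5) (nat_lit 48) (nat_lit 5) (nat_lit 49) (nat_lit 5) (nat_lit 329) (nat_lit 258) (nat_lit 193)) (XT.lf (nat_lit 0) (nat_lit 8384176988) (nat_lit 228) (nat_lit 3298171420) (nat_lit 304) (nat_lit 3665180400) (nat_lit 45) (nat_lit 5) (nat_lit 48) (nat_lit 5) (nat_lit 49) (nat_lit 5) (nat_lit 330) (nat_lit 258) (nat_lit 192))))) (XT.nd (nat_lit 234) (nat_lit 380) (nat_lit 0) (XT.nd (nat_lit 78) (nat_lit 304) (nat_lit 0) (XT.lf (nat_lit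 0) (nat_lit 14755966200) (nat_lit 304) (nat_lit 421055847) (nat_lit 76) (nat_lit 498128662) (nat_lit 45) (nat_lit 5) (nat_lit 49) (nat_lit 5) (nat_lit 46) (nat_lit 5) (nat_lit 331) (nat_lit 258) (nat_lit 191)) (XT.nd (nat_lit 78) (nat_lit 0) (nat_lit 0) (XT.lf (nat_lit 0) (nat_lit 1938828617) (nat_lit 304) (nat_lit 9663193675) (nat_lit 76) (nat_lit 4408051807) (nat_lit 41) (nat_lit 5) (nat_lit 45) (nat_lit 5) (nat_lit 42) (nat_lit 5) (nat_lit 332) (nat_lit 258) (nat_lit 190)) (XT.lf (nat_lit 0) (nat_lit 4840913806) (nat_lit 304) (nat_lit 3080360586) (nat_lit 76) (nat_lit 8434222884) (nat_lit 41) (nat_lit 5) (nat_lit 45) (nat_lit 5) (nat_lit 42) (nat_lit 5) (nat_lit 333) (nat_lit 258) (nat_lit 189)))) (XT.nd (nat_lit 78) (nat_lit 228) (nat_lit 0) (XT.lf (nat_lit 0) (nat_lit 3731227342) (nat_lit 152) (nat_lit 4108014087) (nat_lit 228) (nat_lit 8871794771) (nat_lit 39) (nat_lit 5) (nat_lit 41) (nat_lit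 5) (nat_lit 42) (nat_lit 5) (nat_lit 334) (nat_lit 258) (nat_lit 188)) (XT.nd (nat_lit 78) (nat_lit 228) (nat_lit 0) (XT.lf (nat_lit 0) (nat_lit 10769174698) (nat_lit 152) (nat_lit 163144721) (nat_lit 228) (nat_lit 6144805473) (nat_lit 39) (nat_lit 5) (nat_lit 41) (nat_lit 5) (nat_lit 42) (nat_lit 5) (nat_lit 335) (nat_lit 258) (nat_lit 187)) (XT.lf (nat_lit 0) (nat_lit 495657272) (nat_lit 228) (nat_lit 13639109629) (nat_lit 304) (nat_lit 3318958845) (nat_lit 36) (nat_lit 5) (nat_lit 39) (nat_lit 5) (nat_lit 40) (nat_lit 5) (nat_lit 336) (nat_lit 258) (nat_lit 186)))))) (XT.nd (nat_lit 468) (nat_lit 380) (nat_lit 0) (XT.nd (nat_lit 234) (nat_lit 152) (nat_lit 0) (XT.nd (nat_lit 78) (nat_lit 228) (nat_lit 0) (XT.lf (nat_lit 0) (nat_lit 7590841101) (nat_lit 228) (nat_lit 9882428355) (nat_lit 304) (nat_lit 367181752) (nat_lit 36) (nat_lit 5) (nat_lit 39) (nat_lit 5) (nat_lit 40) (nat_lit 5) (nat_lit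 337) (nat_lit 258) (nat_lit 185)) (XT.nd (nat_lit 78) (nat_lit 152) (nat_lit 0) (XT.lf (nat_lit 0) (nat_lit 2596139377) (nat_lit 304) (nat_lit 3405133561) (nat_lit 76) (nat_lit 12237504553) (nat_lit 35) (nat_lit 5) (nat_lit 39) (nat_lit 5) (nat_lit 36) (nat_lit 5) (nat_lit 338) (nat_lit 258) (nat_lit 184)) (XT.lf (nat_lit 0) (nat_lit 3674353704) (nat_lit 152) (nat_lit 1977823751) (nat_lit 228) (nat_lit 12996454948) (nat_lit 33) (nat_lit 5) (nat_lit 35) (nat_lit 5) (nat_lit 36) (nat_lit 5) (nat_lit 339) (nat_lit 258) (nat_lit 183)))) (XT.nd (nat_lit 78) (nat_lit 152) (nat_lit 0) (XT.lf (nat_lit 0) (nat_lit 8831524009) (nat_lit 228) (nat_lit 8093500033) (nat_lit 76) (nat_lit 2144833229) (nat_lit 33) (nat_lit 5) (nat_lit 36) (nat_lit 5) (nat_lit 34) (nat_lit 5) (nat_lit 340) (nat_lit 258) (nat_lit 182)) (XT.nd (nat_lit 78) (nat_lit 152) (nat_lit 0) (XT.lf (nat_lit 0) (nat_lit 12102607775) (nat_lit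 228) (nat_lit 1063367398) (nat_lit 76) (nat_lit 6337875465) (nat_lit 33) (nat_lit 5) (nat_lit 36) (nat_lit 5) (nat_lit 34) (nat_lit 5) (nat_lit 341) (nat_lit 258) (nat_lit 181)) (XT.lf (nat_lit 0) (nat_lit 6263497487) (nat_lit 152) (nat_lit 9245986012) (nat_lit 228) (nat_lit 4440272327) (nat_lit 31) (nat_lit 5) (nat_lit 33) (nat_lit 5) (nat_lit 34) (nat_lit 5) (nat_lit 342) (nat_lit 258) (nat_lit 180))))) (XT.nd (nat_lit 234) (nat_lit 152) (nat_lit 0) (XT.nd (nat_lit 78) (nat_lit 228) (nat_lit 0) (XT.lf (nat_lit 0) (nat_lit 13795927999) (nat_lit 152) (nat_lit 5211136646) (nat_lit 228) (nat_lit 1402339716) (nat_lit 31) (nat_lit 5) (nat_lit 33) (nat_lit 5) (nat_lit 34) (nat_lit 5) (nat_lit 343) (nat_lit 258) (nat_lit 179)) (XT.nd (nat_lit 78) (nat_lit 0) (nat_lit 0) (XT.lf (nat_lit 0) (nat_lit 631775943) (nat_lit 152) (nat_lit 1045508241) (nat_lit 228) (nat_lit 19205552727) (nat_lit 28) (nat_lit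 5) (nat_lit 30) (nat_lit 5) (nat_lit 31) (nat_lit 5) (nat_lit 344) (nat_lit 258) (nat_lit 178)) (XT.lf (nat_lit 0) (nat_lit 4898092227) (nat_lit 228) (nat_lit 13219883116) (nat_lit 76) (nat_lit 3249790497) (nat_lit 28) (nat_lit 5) (nat_lit 31) (nat_lit 5) (nat_lit 29) (nat_lit 5) (nat_lit 345) (nat_lit 258) (nat_lit 177)))) (XT.nd (nat_lit 78) (nat_lit 152) (nat_lit 0) (XT.lf (nat_lit 0) (nat_lit 8204849787) (nat_lit 228) (nat_lit 6022713941) (nat_lit 76) (nat_lit 7640017958) (nat_lit 28) (nat_lit 5) (nat_lit 31) (nat_lit 5) (nat_lit 29) (nat_lit 5) (nat_lit 346) (nat_lit 258) (nat_lit 176)) (XT.nd (nat_lit 78) (nat_lit 0) (nat_lit 0) (XT.lf (nat_lit 0) (nat_lit 1383788099) (nat_lit 152) (nat_lit 10219909918) (nat_lit 228) (nat_lit 10778925611) (nat_lit 26) (nat_lit 5) (nat_lit 28) (nat_lit 5) (nat_lit 29) (nat_lit 5) (nat_lit 347) (nat_lit 258) (nat_lit 175)) (XT.lf (nat_lit 0) (nat_lit 9102689297)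 (nat_lit 152) (nat_lit 6042501030) (nat_lit 228) (nat_lit 7766723869) (nat_lit 26) (nat_lit 5) (nat_lit 28) (nat_lit 5) (nat_lit 29) (nat_lit 5) (nat_lit 348) (nat_lit 258) (nat_lit 174))))))) (XT.nd (nat_lit 936) (nat_lit 456) (nat_lit 0) (XT.nd (nat_lit 468) (nat_lit 152) (nat_lit 0) (XT.nd (nat_lit 234) (nat_lit 152) (nat_lit 0) (XT.nd (nat_lit 78) (nat_lit 228) (nat_lit 0) (XT.lf (nat_lit 0) (nat_lit 17020870505) (nat_lit 152) (nat_lit 1752504504) (nat_lit 228) (nat_lit 4684312254) (nat_lit 26) (nat_lit 5) (nat_lit 28) (nat_lit 5) (nat_lit 29) (nat_lit 5) (nat_lit 349) (nat_lit 258) (nat_lit 173)) (XT.nd (nat_lit 78) (nat_lit 76) (nat_lit 0) (XT.lf (nat_lit 0) (nat_lit 1121199216) (nat_lit 152) (nat_lit 21406510979) (nat_lit 228) (nat_lit 1491620889) (nat_lit 24) (nat_lit 5) (nat_lit 26) (nat_lit 5) (nat_lit 27) (nat_lit 4) (nat_lit 350) (nat_lit 258) (nat_lit 172)) (XT.lf (nat_lit 0) (nat_lit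 1825731756) (nat_lit 228) (nat_lit 15625134629) (nat_lit 76) (nat_lit 7144537104) (nat_lit 23) (nat_lit 5) (nat_lit 26) (nat_lit 5) (nat_lit 24) (nat_lit 5) (nat_lit 351) (nat_lit 258) (nat_lit 171)))) (XT.nd (nat_lit 78) (nat_lit 152) (nat_lit 0) (XT.lf (nat_lit 0) (nat_lit 5194129020) (nat_lit 228) (nat_lit 8179683930) (nat_lit 76) (nat_lit 11815072229) (nat_lit 23) (nat_lit 5) (nat_lit 26) (nat_lit 5) (nat_lit 24) (nat_lit 5) (nat_lit 352) (nat_lit 258) (nat_lit 170)) (XT.nd (nat_lit 78) (nat_lit 152) (nat_lit 0) (XT.lf (nat_lit 0) (nat_lit 8645621057) (nat_lit 228) (nat_lit 540935664) (nat_lit 76) (nat_lit 16614168159) (nat_lit 23) (nat_lit 5) (nat_lit 26) (nat_lit 5) (nat_lit 24) (nat_lit 5) (nat_lit 353) (nat_lit 258) (nat_lit 169)) (XT.lf (nat_lit 0) (nat_lit 7443025028) (nat_lit 152) (nat_lit 4811745614) (nat_lit 228) (nat_lit 14174540159) (nat_lit 21) (nat_lit 5) (nat_lit 23) (nat_lit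 5) (nat_lit 24) (nat_lit 5) (nat_lit 354) (nat_lit 258) (nat_lit 168))))) (XT.nd (nat_lit 234) (nat_lit 76) (nat_lit 0) (XT.nd (nat_lit 78) (nat_lit 76) (nat_lit 0) (XT.lf (nat_lit 0) (nat_lit 15648689125) (nat_lit 152) (nat_lit 311763806) (nat_lit 228) (nat_lit 11116667617) (nat_lit 21) (nat_lit 5) (nat_lit 23) (nat_lit 5) (nat_lit 24) (nat_lit 5) (nat_lit 355) (nat_lit 258) (nat_lit 167)) (XT.nd (nat_lit 78) (nat_lit 76) (nat_lit 0) (XT.lf (nat_lit 0) (nat_lit 19802050827) (nat_lit 228) (nat_lit 3713866545) (nat_lit 76) (nat_lit 4227718449) (nat_lit 21) (nat_lit 5) (nat_lit 24) (nat_lit 5) (nat_lit 22) (nat_lit 4) (nat_lit 356) (nat_lit 258) (nat_lit 166)) (XT.lf (nat_lit 0) (nat_lit 4285026272) (nat_lit 76) (nat_lit 19501824856) (nat_lit 152) (nat_lit 4642469980) (nat_lit 20) (nat_lit 5) (nat_lit 21) (nat_lit 5) (nat_lit 22) (nat_lit 4) (nat_lit 357) (nat_lit 258) (nat_lit 165)))) (XT.nd (nat_lit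 78) (nat_lit 76) (nat_lit 0) (XT.lf (nat_lit 0) (nat_lit 12572648928) (nat_lit 76) (nat_lit 15339939025) (nat_lit 152) (nat_lit 1222360030) (nat_lit 20) (nat_lit 5) (nat_lit 21) (nat_lit 5) (nat_lit 22) (nat_lit 4) (nat_lit 358) (nat_lit 258) (nat_lit 164)) (XT.nd (nat_lit 78) (nat_lit 0) (nat_lit 0) (XT.lf (nat_lit 0) (nat_lit 2239656965) (nat_lit 152) (nat_lit 8801852942) (nat_lit 76) (nat_lit 18820056700) (nat_lit 19) (nat_lit 5) (nat_lit 21) (nat_lit 5) (nat_lit 20) (nat_lit 5) (nat_lit 359) (nat_lit 258) (nat_lit 163)) (XT.lf (nat_lit 0) (nat_lit 5765618599) (nat_lit 152) (nat_lit 846809745) (nat_lit 76) (nat_lit 23997664518) (nat_lit 19) (nat_lit 5) (nat_lit 21) (nat_lit 5) (nat_lit 20) (nat_lit 5) (nat_lit 360) (nat_lit 258) (nat_lit 162)))))) (XT.nd (nat_lit 468) (nat_lit 228) (nat_lit 0) (XT.nd (nat_lit 234) (nat_lit 76) (nat_lit 0) (XT.nd (nat_lit 78) (nat_lit 0) (nat_lit 0) (XT.lf (nat_lit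 0) (nat_lit 7467244449) (nat_lit 152) (nat_lit 1986993726) (nat_lit 228) (nat_lit 21925141735) (nat_lit 17) (nat_lit 5) (nat_lit 19) (nat_lit 5) (nat_lit 20) (nat_lit 5) (nat_lit 361) (nat_lit 258) (nat_lit 161)) (XT.nd (nat_lit 78) (nat_lit 0) (nat_lit 0) (XT.lf (nat_lit 0) (nat_lit 13274040417) (nat_lit 228) (nat_lit 16175647763) (nat_lit 76) (nat_lit 2721452714) (nat_lit 17) (nat_lit 5) (nat_lit 20) (nat_lit 5) (nat_lit 18) (nat_lit 4) (nat_lit 362) (nat_lit 258) (nat_lit 160)) (XT.lf (nat_lit 0) (nat_lit 17213733342) (nat_lit 228) (nat_lit 8251454093) (nat_lit 76) (nat_lit 7521319100) (nat_lit 17) (nat_lit 5) (nat_lit 20) (nat_lit 5) (nat_lit 18) (nat_lit 4) (nat_lit 363) (nat_lit 258) (nat_lit 159)))) (XT.nd (nat_lit 78) (nat_lit 76) (nat_lit 0) (XT.lf (nat_lit 0) (nat_lit 21257659199) (nat_lit 228) (nat_lit 113530201) (nat_lit 76) (nat_lit 12455572892) (nat_lit 17) (nat_lit 5) (nat_lit 20)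 (nat_lit 5) (nat_lit 18) (nat_lit 4) (nat_lit 364) (nat_lit 258) (nat_lit 158)) (XT.nd (nat_lit 78) (nat_lit 0) (nat_lit 0) (XT.lf (nat_lit 0) (nat_lit 8409331058) (nat_lit 76) (nat_lit 17080856094) (nat_lit 152) (nat_lit 9200030152) (nat_lit 16) (nat_lit 5) (nat_lit 17) (nat_lit 5) (nat_lit 18) (nat_lit 4) (nat_lit 365) (nat_lit 258) (nat_lit 157)) (XT.lf (nat_lit 0) (nat_lit 17167137126) (nat_lit 76) (nat_lit 12670321887) (nat_lit 152) (nat_lit 5742493725) (nat_lit 16) (nat_lit 5) (nat_lit 17) (nat_lit 5) (nat_lit 18) (nat_lit 4) (nat_lit 366) (nat_lit 258) (nat_lit 156))))) (XT.nd (nat_lit 234) (nat_lit 0) (nat_lit 0) (XT.nd (nat_lit 78) (nat_lit 228) (nat_lit 0) (XT.lf (nat_lit 0) (nat_lit 26165280980) (nat_lit 76) (nat_lit 8136879348) (nat_lit 152) (nat_lit 2194619097) (nat_lit 16) (nat_lit 5) (nat_lit 17) (nat_lit 5) (nat_lit 18) (nat_lit 4) (nat_lit 367) (nat_lit 258) (nat_lit 155)) (XT.nd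 (nat_lit 78) (nat_lit 152) (nat_lit 0) (XT.lf (nat_lit 0) (nat_lit 1418463607) (nat_lit 152) (nat_lit 2043779908) (nat_lit 76) (nat_lit 33978837767) (nat_lit 15) (nat_lit 5) (nat_lit 17) (nat_lit 5) (nat_lit 16) (nat_lit 5) (nat_lit 368) (nat_lit 258) (nat_lit 154)) (XT.lf (nat_lit 0) (nat_lit 5160443209) (nat_lit 228) (nat_lit 31847467623) (nat_lit 76) (nat_lit 1403219793) (nat_lit 13) (nat_lit 5) (nat_lit 16) (nat_lit 5) (nat_lit 14) (nat_lit 4) (nat_lit 369) (nat_lit 258) (nat_lit 153)))) (XT.nd (nat_lit 78) (nat_lit 0) (nat_lit 0) (XT.lf (nat_lit 0) (nat_lit 9057502301) (nat_lit 228) (nat_lit 23994366860) (nat_lit 76) (nat_lit 6357136152) (nat_lit 13) (nat_lit 5) (nat_lit 16) (nat_lit 5) (nat_lit 14) (nat_lit 4) (nat_lit 370) (nat_lit 258) (nat_lit 152)) (XT.nd (nat_lit 78) (nat_lit 0) (nat_lit 0) (XT.lf (nat_lit 0) (nat_lit 13059529431) (nat_lit 228) (nat_lit 15926493719) (nat_lit 76) (nat_lit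 11451159622) (nat_lit 13) (nat_lit 5) (nat_lit 16) (nat_lit 5) (nat_lit 14) (nat_lit 4) (nat_lit 371) (nat_lit 258) (nat_lit 151)) (XT.lf (nat_lit 0) (nat_lit 17170021517) (nat_lit 228) (nat_lit 7636798604) (nat_lit 76) (nat_lit 16689741291) (nat_lit 13) (nat_lit 5) (nat_lit 16) (nat_lit 5) (nat_lit 14) (nat_lit 4) (nat_lit 372) (nat_lit 258) (nat_lit 150))))))))
noncomputable def xc105 : XT := (XT.nd (nat_lit 1794) (nat_lit 76) (nat_lit 0) (XT.nd (nat_lit 858) (nat_lit 228) (nat_lit 0) (XT.nd (nat_lit 390) (nat_lit 152) (nat_lit 0) (XT.nd (nat_lit 156) (nat_lit 0) (nat_lit 0) (XT.nd (nat_lit 78) (nat_lit 0) (nat_lit 0) (XT.lf (nat_lit 0) (nat_lit 899514680) (nat_lit 76) (nat_lit 20501702256) (nat_lit 152) (nat_lit 21186590567) (nat_lit 12) (nat_lit 5) (nat_lit 13) (nat_lit 5) (nat_lit 14) (nat_lit 4) (nat_lit 373) (nat_lit 258) (nat_lit 149)) (XT.lf (nat_lit 0) (nat_lit 9829031198) (nat_lit 76)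 (nat_lit 15996316701) (nat_lit 152) (nat_lit 17884470608) (nat_lit 12) (nat_lit 5) (nat_lit 13) (nat_lit 5) (nat_lit 14) (nat_lit 4) (nat_lit 374) (nat_lit 258) (nat_lit 148))) (XT.nd (nat_lit 78) (nat_lit 0) (nat_lit 0) (XT.lf (nat_lit 0) (nat_lit 19007566174) (nat_lit 76) (nat_lit 11363843403) (nat_lit 152) (nat_lit 14494411365) (nat_lit 12) (nat_lit 5) (nat_lit 13) (nat_lit 5) (nat_lit 14) (nat_lit 4) (nat_lit 375) (nat_lit 258) (nat_lit 147)) (XT.nd (nat_lit 78) (nat_lit 0) (nat_lit 0) (XT.lf (nat_lit 0) (nat_lit 28443139687) (nat_lit 76) (nat_lit 6600234569) (nat_lit 152) (nat_lit 11013450650) (nat_lit 12) (nat_lit 5) (nat_lit 13) (nat_lit 5) (nat_lit 14) (nat_lit 4) (nat_lit 376) (nat_lit 258) (nat_lit 146)) (XT.lf (nat_lit 0) (nat_lit 38143996412) (nat_lit 76) (nat_lit 1701327824) (nat_lit 152) (nat_lit 7438546846) (nat_lit 12) (nat_lit 5) (nat_lit 13) (nat_lit 5) (nat_lit 14) (nat_lit 4)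 (nat_lit 377) (nat_lit 258) (nat_lit 145))))) (XT.nd (nat_lit 234) (nat_lit 0) (nat_lit 0) (XT.nd (nat_lit 78) (nat_lit 152) (nat_lit 0) (XT.lf (nat_lit 0) (nat_lit 44813534195) (nat_lit 152) (nat_lit 461497619) (nat_lit 0) (nat_lit 3272037469) (nat_lit 12) (nat_lit 5) (nat_lit 14) (nat_lit 4) (nat_lit 12) (nat_lit 4) (nat_lit 378) (nat_lit 258) (nat_lit 144)) (XT.nd (nat_lit 78) (nat_lit 0) (nat_lit 0) (XT.lf (nat_lit 0) (nat_lit 171863697) (nat_lit 152) (nat_lit 41235718179) (nat_lit 76) (nat_lit 8437838555) (nat_lit 10) (nat_lit 5) (nat_lit 12) (nat_lit 5) (nat_lit 11) (nat_lit 4) (nat_lit 379) (nat_lit 258) (nat_lit 143)) (XT.lf (nat_lit 0) (nat_lit 4114450857) (nat_lit 152) (nat_lit 33274115524) (nat_lit 76) (nat_lit 13793200875) (nat_lit 10) (nat_lit 5) (nat_lit 12) (nat_lit 5) (nat_lit 11) (nat_lit 4) (nat_lit 380) (nat_lit 258) (nat_lit 142)))) (XT.nd (nat_lit 78) (nat_lit 0) (nat_lit 0)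 (XT.lf (nat_lit 0) (nat_lit 8165956805) (nat_lit 152) (nat_lit 25090188819) (nat_lit 76) (nat_lit 19302345565) (nat_lit 10) (nat_lit 5) (nat_lit 12) (nat_lit 5) (nat_lit 11) (nat_lit 4) (nat_lit 381) (nat_lit 258) (nat_lit 141)) (XT.nd (nat_lit 78) (nat_lit 0) (nat_lit 0) (XT.lf (nat_lit 0) (nat_lit 12329921691) (nat_lit 152) (nat_lit 16676787062) (nat_lit 76) (nat_lit 24970086440) (nat_lit 10) (nat_lit 5) (nat_lit 12) (nat_lit 5) (nat_lit 11) (nat_lit 4) (nat_lit 382) (nat_lit 258) (nat_lit 140)) (XT.lf (nat_lit 0) (nat_lit 16609983930) (nat_lit 152) (nat_lit 8026558736) (nat_lit 76) (nat_lit 30801375895) (nat_lit 10) (nat_lit 5) (nat_lit 12) (nat_lit 5) (nat_lit 11) (nat_lit 4) (nat_lit 383) (nat_lit 258) (nat_lit 139)))))) (XT.nd (nat_lit 468) (nat_lit 152) (nat_lit 0) (XT.nd (nat_lit 234) (nat_lit 0) (nat_lit 0) (XT.nd (nat_lit 78) (nat_lit 0) (nat_lit 0) (XT.lf (nat_lit 0) (nat_lit 885330599)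 (nat_lit 76) (nat_lit 20133063124) (nat_lit 152) (nat_lit 35924488973) (nat_lit 9) (nat_lit 5) (nat_lit 10) (nat_lit 5) (nat_lit 11) (nat_lit 4) (nat_lit 384) (nat_lit 258) (nat_lit 138)) (XT.nd (nat_lit 78) (nat_lit 0) (nat_lit 0) (XT.lf (nat_lit 0) (nat_lit 10214139624) (nat_lit 76) (nat_lit 15417509559) (nat_lit 152) (nat_lit 32859174047) (nat_lit 9) (nat_lit 5) (nat_lit 10) (nat_lit 5) (nat_lit 11) (nat_lit 4) (nat_lit 385) (nat_lit 258) (nat_lit 137)) (XT.lf (nat_lit 0) (nat_lit 19808275467) (nat_lit 76) (nat_lit 10566814088) (nat_lit 152) (nat_lit 29710363927) (nat_lit 9) (nat_lit 5) (nat_lit 10) (nat_lit 5) (nat_lit 11) (nat_lit 4) (nat_lit 386) (nat_lit 258) (nat_lit 136)))) (XT.nd (nat_lit 78) (nat_lit 0) (nat_lit 0) (XT.lf (nat_lit 0) (nat_lit 29676121355) (nat_lit 76) (nat_lit 5576738241) (nat_lit 152) (nat_lit 26475307227) (nat_lit 9) (nat_lit 5) (nat_lit 10) (nat_lit 5) (nat_lit 11)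 (nat_lit 4) (nat_lit 387) (nat_lit 258) (nat_lit 135)) (XT.nd (nat_lit 78) (nat_lit 0) (nat_lit 0) (XT.lf (nat_lit 0) (nat_lit 39826299676) (nat_lit 76) (nat_lit 442921757) (nat_lit 152) (nat_lit 23151177198) (nat_lit 9) (nat_lit 5) (nat_lit 10) (nat_lit 5) (nat_lit 11) (nat_lit 4) (nat_lit 388) (nat_lit 258) (nat_lit 134)) (XT.lf (nat_lit 0) (nat_lit 45475074890) (nat_lit 152) (nat_lit 14942464632) (nat_lit 0) (nat_lit 4744692537) (nat_lit 9) (nat_lit 5) (nat_lit 11) (nat_lit 4) (nat_lit 9) (nat_lit 4) (nat_lit 389) (nat_lit 258) (nat_lit 133))))) (XT.nd (nat_lit 234) (nat_lit 76) (nat_lit 0) (XT.nd (nat_lit 78) (nat_lit 76) (nat_lit 0) (XT.lf (nat_lit 0) (nat_lit 50834138375) (nat_lit 152) (nat_lit 6048752422) (nat_lit 0) (nat_lit 10073523211) (nat_lit 9) (nat_lit 5) (nat_lit 11) (nat_lit 4) (nat_lit 9) (nat_lit 4) (nat_lit 390) (nat_lit 258) (nat_lit 132)) (XT.nd (nat_lit 78) (nat_lit 0) (nat_lit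 0) (XT.lf (nat_lit 0) (nat_lit 3160744013) (nat_lit 76) (nat_lit 53216475922) (nat_lit 76) (nat_lit 12426508514) (nat_lit 8) (nat_lit 4) (nat_lit 9) (nat_lit 5) (nat_lit 9) (nat_lit 4) (nat_lit 391) (nat_lit 258) (nat_lit 131)) (XT.lf (nat_lit 0) (nat_lit 12757938752) (nat_lit 76) (nat_lit 49382685837) (nat_lit 76) (nat_lit 8564221106) (nat_lit 8) (nat_lit 4) (nat_lit 9) (nat_lit 5) (nat_lit 9) (nat_lit 4) (nat_lit 392) (nat_lit 258) (nat_lit 130)))) (XT.nd (nat_lit 78) (nat_lit 76) (nat_lit 0) (XT.lf (nat_lit 0) (nat_lit 22630835658) (nat_lit 76) (nat_lit 45439251168) (nat_lit 76) (nat_lit 4593119132) (nat_lit 8) (nat_lit 4) (nat_lit 9) (nat_lit 5) (nat_lit 9) (nat_lit 4) (nat_lit 393) (nat_lit 258) (nat_lit 129)) (XT.nd (nat_lit 78) (nat_lit 76) (nat_lit 0) (XT.lf (nat_lit 0) (nat_lit 32788061534) (nat_lit 76) (nat_lit 41382726196) (nat_lit 76) (nat_lit 509732699) (nat_lit 8) (nat_lit 4) (nat_lit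 9) (nat_lit 5) (nat_lit 9) (nat_lit 4) (nat_lit 394) (nat_lit 258) (nat_lit 128)) (XT.lf (nat_lit 0) (nat_lit 3617510645) (nat_lit 152) (nat_lit 33555525975) (nat_lit 76) (nat_lit 39584451218) (nat_lit 7) (nat_lit 5) (nat_lit 9) (nat_lit 5) (nat_lit 8) (nat_lit 4) (nat_lit 395) (nat_lit 258) (nat_lit 127))))))) (XT.nd (nat_lit 30810) (nat_lit 0) (nat_lit 16416) (XT.nd (nat_lit 30342) (nat_lit 0) (nat_lit 20140) (XT.nd (nat_lit 234) (nat_lit 76) (nat_lit 0) (XT.nd (nat_lit 78) (nat_lit 0) (nat_lit 0) (XT.lf (nat_lit 0) (nat_lit 7851996675) (nat_lit 152) (nat_lit 24984838837) (nat_lit 76) (nat_lit 46059970935) (nat_lit 7) (nat_lit 5) (nat_lit 9) (nat_lit 5) (nat_lit 8) (nat_lit 4) (nat_lit 396) (nat_lit 258) (nat_lit 126)) (XT.nd (nat_lit 78) (nat_lit 0) (nat_lit 0) (XT.lf (nat_lit 0) (nat_lit 12207372147) (nat_lit 152) (nat_lit 16168008670) (nat_lit 76) (nat_lit 52725111744) (nat_lit 7) (nat_lit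 5) (nat_lit 9) (nat_lit 5) (nat_lit 8) (nat_lit 4) (nat_lit 397) (nat_lit 258) (nat_lit 125)) (XT.lf (nat_lit 0) (nat_lit 16687442730) (nat_lit 152) (nat_lit 7097331447) (nat_lit 76) (nat_lit 59585697555) (nat_lit 7) (nat_lit 5) (nat_lit 9) (nat_lit 5) (nat_lit 8) (nat_lit 4) (nat_lit 398) (nat_lit 258) (nat_lit 124)))) (XT.nd (nat_lit 29952) (nat_lit 0) (nat_lit 21052) (XT.lf (nat_lit 0) (nat_lit 2279601908) (nat_lit 76) (nat_lit 19038434067) (nat_lit 152) (nat_lit 64390034073) (nat_lit 6) (nat_lit 5) (nat_lit 7) (nat_lit 5) (nat_lit 8) (nat_lit 4) (nat_lit 399) (nat_lit 258) (nat_lit 123)) (XT.nd (nat_lit 78) (nat_lit 76) (nat_lit 0) (XT.lf (nat_lit 0) (nat_lit 1462256167) (nat_lit 76) (nat_lit 298704147) (nat_lit 0) (nat_lit 1462256167) (nat_lit 284) (nat_lit 5) (nat_lit 285) (nat_lit 0) (nat_lit 284) (nat_lit 4) (nat_lit 262) (nat_lit 259) (nat_lit 259)) (XT.lf (nat_lit 0) (nat_lit 2429669501)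 (nat_lit 76) (nat_lit 3362567033) (nat_lit 76) (nat_lit 660247616) (nat_lit 283) (nat_lit 4) (nat_lit 284) (nat_lit 5) (nat_lit 284) (nat_lit 4) (nat_lit 263) (nat_lit 259) (nat_lit 258))))) (XT.nd (nat_lit 234) (nat_lit 608) (nat_lit 0) (XT.nd (nat_lit 78) (nat_lit 228) (nat_lit 0) (XT.lf (nat_lit 0) (nat_lit 2139668475) (nat_lit 152) (nat_lit 982403496) (nat_lit 76) (nat_lit 3339457979) (nat_lit 282) (nat_lit 5) (nat_lit 284) (nat_lit 5) (nat_lit 283) (nat_lit 4) (nat_lit 264) (nat_lit 259) (nat_lit 257)) (XT.nd (nat_lit 78) (nat_lit 76) (nat_lit 0) (XT.lf (nat_lit 0) (nat_lit 2124303567) (nat_lit 152) (nat_lit 2800538451) (nat_lit 228) (nat_lit 1548745370) (nat_lit 280) (nat_lit 5) (nat_lit 282) (nat_lit 5) (nat_lit 283) (nat_lit 4) (nat_lit 265) (nat_lit 259) (nat_lit 256)) (XT.lf (nat_lit 0) (nat_lit 1187314447) (nat_lit 228) (nat_lit 1215707363) (nat_lit 76) (nat_lit 4085800612) (nat_lit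 279) (nat_lit 5) (nat_lit 282) (nat_lit 5) (nat_lit 280) (nat_lit 5) (nat_lit 266) (nat_lit 259) (nat_lit 255)))) (XT.nd (nat_lit 78) (nat_lit 380) (nat_lit 0) (XT.lf (nat_lit 0) (nat_lit 1975200851) (nat_lit 228) (nat_lit 1916411806) (nat_lit 304) (nat_lit 2615263977) (nat_lit 276) (nat_lit 5) (nat_lit 279) (nat_lit 5) (nat_lit 280) (nat_lit 5) (nat_lit 267) (nat_lit 259) (nat_lit 254)) (XT.nd (nat_lit 78) (nat_lit 304) (nat_lit 0) (XT.lf (nat_lit 0) (nat_lit 60390139) (nat_lit 304) (nat_lit 1301546787) (nat_lit 76) (nat_lit 5166459558) (nat_lit 275) (nat_lit 5) (nat_lit 279) (nat_lit 5) (nat_lit 276) (nat_lit 5) (nat_lit 268) (nat_lit 259) (nat_lit 253)) (XT.lf (nat_lit 0) (nat_lit 1978371092) (nat_lit 304) (nat_lit 706709102) (nat_lit 380) (nat_lit 3867376793) (nat_lit 271) (nat_lit 5) (nat_lit 275) (nat_lit 5) (nat_lit 276) (nat_lit 5) (nat_lit 269) (nat_lit 259) (nat_lit 252)))))) (XT.nd (nat_lit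 468) (nat_lit 2204) (nat_lit 0) (XT.nd (nat_lit 234) (nat_lit 1064) (nat_lit 0) (XT.nd (nat_lit 78) (nat_lit 456) (nat_lit 0) (XT.lf (nat_lit 0) (nat_lit 5306414947) (nat_lit 380) (nat_lit 1256054909) (nat_lit 76) (nat_lit 17535029) (nat_lit 271) (nat_lit 5) (nat_lit 276) (nat_lit 5) (nat_lit 272) (nat_lit 5) (nat_lit 270) (nat_lit 259) (nat_lit 251)) (XT.nd (nat_lit 78) (nat_lit 0) (nat_lit 0) (XT.lf (nat_lit 0) (nat_lit 1305028951) (nat_lit 456) (nat_lit 4488149011) (nat_lit 76) (nat_lit 817054469) (nat_lit 265) (nat_lit 5) (nat_lit 271) (nat_lit 5) (nat_lit 266) (nat_lit 5) (nat_lit 271) (nat_lit 259) (nat_lit 250)) (XT.lf (nat_lit 0) (nat_lit 3856858924) (nat_lit 456) (nat_lit 1088830690) (nat_lit 76) (nat_lit 1697932397) (nat_lit 265) (nat_lit 5) (nat_lit 271) (nat_lit 5) (nat_lit 266) (nat_lit 5) (nat_lit 272) (nat_lit 259) (nat_lit 249)))) (XT.nd (nat_lit 78) (nat_lit 608) (nat_lit 0) (XT.lf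 (nat_lit 0) (nat_lit 2398669184) (nat_lit 456) (nat_lit 4020934163) (nat_lit 532) (nat_lit 260648090) (nat_lit 259) (nat_lit 5) (nat_lit 265) (nat_lit 5) (nat_lit 266) (nat_lit 5) (nat_lit 273) (nat_lit 259) (nat_lit 248)) (XT.nd (nat_lit 78) (nat_lit 532) (nat_lit 0) (XT.lf (nat_lit 0) (nat_lit 2218862351) (nat_lit 532) (nat_lit 789161791) (nat_lit 76) (nat_lit 3711835000) (nat_lit 258) (nat_lit 5) (nat_lit 265) (nat_lit 5) (nat_lit 259) (nat_lit 5) (nat_lit 274) (nat_lit 259) (nat_lit 247)) (XT.lf (nat_lit 0) (nat_lit 2799881014) (nat_lit 532) (nat_lit 1909304246) (nat_lit 608) (nat_lit 2053388544) (nat_lit 251) (nat_lit 5) (nat_lit 258) (nat_lit 5) (nat_lit 259) (nat_lit 5) (nat_lit 275) (nat_lit 259) (nat_lit 246))))) (XT.nd (nat_lit 234) (nat_lit 836) (nat_lit 0) (XT.nd (nat_lit 78) (nat_lit 1292) (nat_lit 0) (XT.lf (nat_lit 0) (nat_lit 382172572) (nat_lit 608) (nat_lit 359659695) (nat_lit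 76) (nat_lit 6067125271) (nat_lit 250) (nat_lit 5) (nat_lit 258) (nat_lit 5) (nat_lit 251) (nat_lit 5) (nat_lit 276) (nat_lit 259) (nat_lit 245)) (XT.nd (nat_lit 78) (nat_lit 684) (nat_lit 0) (XT.lf (nat_lit 0) (nat_lit 2804822875) (nat_lit 684) (nat_lit 3526498266) (nat_lit 76) (nat_lit 526368161) (nat_lit 242) (nat_lit 5) (nat_lit 251) (nat_lit 5) (nat_lit 243) (nat_lit 5) (nat_lit 277) (nat_lit 259) (nat_lit 244)) (XT.lf (nat_lit 0) (nat_lit 166256289) (nat_lit 684) (nat_lit 5066587277) (nat_lit 760) (nat_lit 1677277405) (nat_lit 233) (nat_lit 5) (nat_lit 242) (nat_lit 5) (nat_lit 243) (nat_lit 5) (nat_lit 278) (nat_lit 259) (nat_lit 243)))) (XT.nd (nat_lit 78) (nat_lit 760) (nat_lit 0) (XT.lf (nat_lit 0) (nat_lit 711360991) (nat_lit 760) (nat_lit 2991871385) (nat_lit 76) (nat_lit 3262173440) (nat_lit 232) (nat_lit 5) (nat_lit 242) (nat_lit 5) (nat_lit 233) (nat_lit 5) (nat_lit 279) (nat_lit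 259) (nat_lit 242)) (XT.nd (nat_lit 78) (nat_lit 0) (nat_lit 0) (XT.lf (nat_lit 0) (nat_lit 810584557) (nat_lit 760) (nat_lit 2258295627) (nat_lit 836) (nat_lit 3955242944) (nat_lit 222) (nat_lit 5) (nat_lit 232) (nat_lit 5) (nat_lit 233) (nat_lit 5) (nat_lit 280) (nat_lit 259) (nat_lit 241)) (XT.lf (nat_lit 0) (nat_lit 4727737795) (nat_lit 760) (nat_lit 724395666) (nat_lit 836) (nat_lit 1634012535) (nat_lit 222) (nat_lit 5) (nat_lit 232) (nat_lit 5) (nat_lit 233) (nat_lit 5) (nat_lit 281) (nat_lit 259) (nat_lit 240))))))))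
noncomputable def xc106 : XT := (XT.nd (nat_lit 1794) (nat_lit 3952) (nat_lit 0) (XT.nd (nat_lit 858) (nat_lit 3572) (nat_lit 0) (XT.nd (nat_lit 390) (nat_lit 2812) (nat_lit 0) (XT.nd (nat_lit 156) (nat_lit 1976) (nat_lit 0) (XT.nd (nat_lit 78) (nat_lit 0) (nat_lit 0) (XT.lf (nat_lit 0) (nat_lit 691880935) (nat_lit 912) (nat_lit 5585085166) (nat_lit 76) (nat_lit 874534475) (nat_lit 210) (nat_lit 5) (nat_lit 222) (nat_lit 5) (nat_lit 211) (nat_lit 5) (nat_lit 282) (nat_lit 259) (nat_lit 239)) (XT.lf (nat_lit 0) (nat_lit 3013706485) (nat_lit 912) (nat_lit 1646824656) (nat_lit 76) (nat_lit 2559207189) (nat_lit 210) (nat_lit 5) (nat_lit 222) (nat_lit 5) (nat_lit 211) (nat_lit 5) (nat_lit 283) (nat_lit 259) (nat_lit 238))) (XT.nd (nat_lit 78) (nat_lit 1064) (nat_lit 0) (XT.lf (nat_lit 0) (nat_lit 2395685780) (nat_lit 912) (nat_lit 2962407469) (nat_lit 988) (nat_lit 1933515400) (nat_lit 198) (nat_lit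 5) (nat_lit 210) (nat_lit 5) (nat_lit 211) (nat_lit 5) (nat_lit 284) (nat_lit 259) (nat_lit 237)) (XT.nd (nat_lit 78) (nat_lit 988) (nat_lit 0) (XT.lf (nat_lit 0) (nat_lit 346524100) (nat_lit 988) (nat_lit 837582751) (nat_lit 76) (nat_lit 6183154731) (nat_lit 197) (nat_lit 5) (nat_lit 210) (nat_lit 5) (nat_lit 198) (nat_lit 5) (nat_lit 285) (nat_lit 259) (nat_lit 236)) (XT.lf (nat_lit 0) (nat_lit 2627426401) (nat_lit 1064) (nat_lit 4124125374) (nat_lit 76) (nat_lit 694076292) (nat_lit 184) (nat_lit 5) (nat_lit 198) (nat_lit 5) (nat_lit 185) (nat_lit 5) (nat_lit 286) (nat_lit 259) (nat_lit 235))))) (XT.nd (nat_lit 234) (nat_lit 608) (nat_lit 0) (XT.nd (nat_lit 78) (nat_lit 1140) (nat_lit 0) (XT.lf (nat_lit 0) (nat_lit 23673840) (nat_lit 1064) (nat_lit 4907560111) (nat_lit 1140) (nat_lit 2596630629) (nat_lit 170) (nat_lit 5) (nat_lit 184) (nat_lit 5) (nat_lit 185) (nat_lit 5) (nat_lit 287) (nat_lit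 259) (nat_lit 234)) (XT.nd (nat_lit 78) (nat_lit 1140) (nat_lit 0) (XT.lf (nat_lit 0) (nat_lit 4319630641) (nat_lit 1064) (nat_lit 2961493918) (nat_lit 1140) (nat_lit 332283473) (nat_lit 170) (nat_lit 5) (nat_lit 184) (nat_lit 5) (nat_lit 185) (nat_lit 5) (nat_lit 288) (nat_lit 259) (nat_lit 233)) (XT.lf (nat_lit 0) (nat_lit 982443388) (nat_lit 1064) (nat_lit 924411042) (nat_lit 1140) (nat_lit 5795850339) (nat_lit 155) (nat_lit 5) (nat_lit 169) (nat_lit 5) (nat_lit 170) (nat_lit 5) (nat_lit 289) (nat_lit 259) (nat_lit 232)))) (XT.nd (nat_lit 78) (nat_lit 608) (nat_lit 0) (XT.lf (nat_lit 0) (nat_lit 4189103673) (nat_lit 1140) (nat_lit 2416001107) (nat_lit 76) (nat_lit 1190134732) (nat_lit 155) (nat_lit 5) (nat_lit 170) (nat_lit 5) (nat_lit 156) (nat_lit 5) (nat_lit 290) (nat_lit 259) (nat_lit 231)) (XT.nd (nat_lit 78) (nat_lit 76) (nat_lit 0) (XT.lf (nat_lit 0) (nat_lit 1986922785) (nat_lit 532)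 (nat_lit 4520705658) (nat_lit 608) (nat_lit 1384019916) (nat_lit 148) (nat_lit 5) (nat_lit 155) (nat_lit 5) (nat_lit 156) (nat_lit 5) (nat_lit 291) (nat_lit 259) (nat_lit 230)) (XT.lf (nat_lit 0) (nat_lit 851774722) (nat_lit 608) (nat_lit 1488508934) (nat_lit 76) (nat_lit 5651589500) (nat_lit 147) (nat_lit 5) (nat_lit 155) (nat_lit 5) (nat_lit 148) (nat_lit 5) (nat_lit 292) (nat_lit 259) (nat_lit 229)))))) (XT.nd (nat_lit 468) (nat_lit 1444) (nat_lit 0) (XT.nd (nat_lit 234) (nat_lit 1064) (nat_lit 0) (XT.nd (nat_lit 78) (nat_lit 532) (nat_lit 0) (XT.lf (nat_lit 0) (nat_lit 3046905624) (nat_lit 532) (nat_lit 50987435) (nat_lit 608) (nat_lit 4997789600) (nat_lit 140) (nat_lit 5) (nat_lit 147) (nat_lit 5) (nat_lit 148) (nat_lit 5) (nat_lit 293) (nat_lit 259) (nat_lit 228)) (XT.nd (nat_lit 78) (nat_lit 532) (nat_lit 0) (XT.lf (nat_lit 0) (nat_lit 5391650110) (nat_lit 608) (nat_lit 535864565) (nat_lit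 76) (nat_lit 2275801669) (nat_lit 140) (nat_lit 5) (nat_lit 148) (nat_lit 5) (nat_lit 141) (nat_lit 5) (nat_lit 294) (nat_lit 259) (nat_lit 227)) (XT.lf (nat_lit 0) (nat_lit 4134077269) (nat_lit 532) (nat_lit 3604948982) (nat_lit 608) (nat_lit 575722723) (nat_lit 133) (nat_lit 5) (nat_lit 140) (nat_lit 5) (nat_lit 141) (nat_lit 5) (nat_lit 295) (nat_lit 259) (nat_lit 226)))) (XT.nd (nat_lit 78) (nat_lit 456) (nat_lit 0) (XT.lf (nat_lit 0) (nat_lit 458883974) (nat_lit 532) (nat_lit 1189557978) (nat_lit 608) (nat_lit 6782046629) (nat_lit 125) (nat_lit 5) (nat_lit 132) (nat_lit 5) (nat_lit 133) (nat_lit 5) (nat_lit 296) (nat_lit 259) (nat_lit 225)) (XT.nd (nat_lit 78) (nat_lit 456) (nat_lit 0) (XT.lf (nat_lit 0) (nat_lit 3928843161) (nat_lit 608) (nat_lit 3303959036) (nat_lit 76) (nat_lit 1316799124) (nat_lit 125) (nat_lit 5) (nat_lit 133) (nat_lit 5) (nat_lit 126) (nat_lit 5) (nat_lit 297) (nat_lit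 259) (nat_lit 224)) (XT.lf (nat_lit 0) (nat_lit 1461968371) (nat_lit 456) (nat_lit 4789061374) (nat_lit 532) (nat_lit 2422157898) (nat_lit 119) (nat_lit 5) (nat_lit 125) (nat_lit 5) (nat_lit 126) (nat_lit 5) (nat_lit 298) (nat_lit 259) (nat_lit 223))))) (XT.nd (nat_lit 234) (nat_lit 912) (nat_lit 0) (XT.nd (nat_lit 78) (nat_lit 532) (nat_lit 0) (XT.lf (nat_lit 0) (nat_lit 6380677033) (nat_lit 456) (nat_lit 2244081696) (nat_lit 532) (nat_lit 176364966) (nat_lit 119) (nat_lit 5) (nat_lit 125) (nat_lit 5) (nat_lit 126) (nat_lit 5) (nat_lit 299) (nat_lit 259) (nat_lit 222)) (XT.nd (nat_lit 78) (nat_lit 0) (nat_lit 0) (XT.lf (nat_lit 0) (nat_lit 2072414555) (nat_lit 532) (nat_lit 6452519593) (nat_lit 76) (nat_lit 408120986) (nat_lit 112) (nat_lit 5) (nat_lit 119) (nat_lit 5) (nat_lit 113) (nat_lit 5) (nat_lit 300) (nat_lit 259) (nat_lit 221)) (XT.lf (nat_lit 0) (nat_lit 4382298193) (nat_lit 532) (nat_lit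 1572539719) (nat_lit 76) (nat_lit 3114228744) (nat_lit 112) (nat_lit 5) (nat_lit 119) (nat_lit 5) (nat_lit 113) (nat_lit 5) (nat_lit 301) (nat_lit 259) (nat_lit 220)))) (XT.nd (nat_lit 78) (nat_lit 532) (nat_lit 0) (XT.lf (nat_lit 0) (nat_lit 3464863519) (nat_lit 380) (nat_lit 3281652372) (nat_lit 456) (nat_lit 2463178975) (nat_lit 107) (nat_lit 5) (nat_lit 112) (nat_lit 5) (nat_lit 113) (nat_lit 5) (nat_lit 302) (nat_lit 259) (nat_lit 219)) (XT.nd (nat_lit 78) (nat_lit 532) (nat_lit 0) (XT.lf (nat_lit 0) (nat_lit 8629591166) (nat_lit 380) (nat_lit 520546950) (nat_lit 456) (nat_lit 205434388) (nat_lit 107) (nat_lit 5) (nat_lit 112) (nat_lit 5) (nat_lit 113) (nat_lit 5) (nat_lit 303) (nat_lit 259) (nat_lit 218)) (XT.lf (nat_lit 0) (nat_lit 2097810026) (nat_lit 532) (nat_lit 5073709824) (nat_lit 76) (nat_lit 2333201177) (nat_lit 100) (nat_lit 5) (nat_lit 107) (nat_lit 5) (nat_lit 101) (nat_lit 5)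 (nat_lit 304) (nat_lit 259) (nat_lit 217))))))) (XT.nd (nat_lit 936) (nat_lit 1748) (nat_lit 0) (XT.nd (nat_lit 468) (nat_lit 1064) (nat_lit 0) (XT.nd (nat_lit 234) (nat_lit 380) (nat_lit 0) (XT.nd (nat_lit 78) (nat_lit 380) (nat_lit 0) (XT.lf (nat_lit 0) (nat_lit 36700640) (nat_lit 380) (nat_lit 4396415791) (nat_lit 456) (nat_lit 5226231459) (nat_lit 95) (nat_lit 5) (nat_lit 100) (nat_lit 5) (nat_lit 101) (nat_lit 5) (nat_lit 305) (nat_lit 259) (nat_lit 216)) (XT.nd (nat_lit 78) (nat_lit 380) (nat_lit 0) (XT.lf (nat_lit 0) (nat_lit 5348754382) (nat_lit 380) (nat_lit 1495944842) (nat_lit 456) (nat_lit 2973803270) (nat_lit 95) (nat_lit 5) (nat_lit 100) (nat_lit 5) (nat_lit 101) (nat_lit 5) (nat_lit 306) (nat_lit 259) (nat_lit 215)) (XT.lf (nat_lit 0) (nat_lit 783347859) (nat_lit 380) (nat_lit 8523343653) (nat_lit 456) (nat_lit 676471617) (nat_lit 90) (nat_lit 5) (nat_lit 95) (nat_lit 5) (nat_lit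 96) (nat_lit 5) (nat_lit 307) (nat_lit 259) (nat_lit 214)))) (XT.nd (nat_lit 78) (nat_lit 304) (nat_lit 0) (XT.lf (nat_lit 0) (nat_lit 1673647726) (nat_lit 456) (nat_lit 3952980545) (nat_lit 76) (nat_lit 4525211821) (nat_lit 89) (nat_lit 5) (nat_lit 95) (nat_lit 5) (nat_lit 90) (nat_lit 5) (nat_lit 308) (nat_lit 259) (nat_lit 213)) (XT.nd (nat_lit 78) (nat_lit 0) (nat_lit 0) (XT.lf (nat_lit 0) (nat_lit 1418125703) (nat_lit 304) (nat_lit 2633896469) (nat_lit 380) (nat_lit 6274280861) (nat_lit 85) (nat_lit 5) (nat_lit 89) (nat_lit 5) (nat_lit 90) (nat_lit 5) (nat_lit 309) (nat_lit 259) (nat_lit 212)) (XT.lf (nat_lit 0) (nat_lit 6504689940) (nat_lit 380) (nat_lit 3532887278) (nat_lit 76) (nat_lit 468399463) (nat_lit 85) (nat_lit 5) (nat_lit 90) (nat_lit 5) (nat_lit 86) (nat_lit 5) (nat_lit 310) (nat_lit 259) (nat_lit 211))))) (XT.nd (nat_lit 234) (nat_lit 304) (nat_lit 0) (XT.nd (nat_lit 78) (nat_lit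 380) (nat_lit 0) (XT.lf (nat_lit 0) (nat_lit 1962703386) (nat_lit 380) (nat_lit 7072710441) (nat_lit 456) (nat_lit 1655555620) (nat_lit 80) (nat_lit 5) (nat_lit 85) (nat_lit 5) (nat_lit 86) (nat_lit 5) (nat_lit 311) (nat_lit 259) (nat_lit 210)) (XT.nd (nat_lit 78) (nat_lit 304) (nat_lit 0) (XT.lf (nat_lit 0) (nat_lit 741484414) (nat_lit 456) (nat_lit 3246041887) (nat_lit 76) (nat_lit 6893952592) (nat_lit 79) (nat_lit 5) (nat_lit 85) (nat_lit 5) (nat_lit 80) (nat_lit 5) (nat_lit 312) (nat_lit 259) (nat_lit 209)) (XT.lf (nat_lit 0) (nat_lit 2378714885) (nat_lit 304) (nat_lit 782233286) (nat_lit 380) (nat_lit 7916807900) (nat_lit 75) (nat_lit 5) (nat_lit 79) (nat_lit 5) (nat_lit 80) (nat_lit 5) (nat_lit 313) (nat_lit 259) (nat_lit 208)))) (XT.nd (nat_lit 78) (nat_lit 304) (nat_lit 0) (XT.lf (nat_lit 0) (nat_lit 5671755708) (nat_lit 380) (nat_lit 3117258415) (nat_lit 76) (nat_lit 2490400789) (nat_lit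 75) (nat_lit 5) (nat_lit 80) (nat_lit 5) (nat_lit 76) (nat_lit 5) (nat_lit 314) (nat_lit 259) (nat_lit 207)) (XT.nd (nat_lit 78) (nat_lit 0) (nat_lit 0) (XT.lf (nat_lit 0) (nat_lit 2624440945) (nat_lit 304) (nat_lit 5628982633) (nat_lit 380) (nat_lit 3233888366) (nat_lit 71) (nat_lit 5) (nat_lit 75) (nat_lit 5) (nat_lit 76) (nat_lit 5) (nat_lit 315) (nat_lit 259) (nat_lit 206)) (XT.lf (nat_lit 0) (nat_lit 8551787766) (nat_lit 304) (nat_lit 2355400314) (nat_lit 380) (nat_lit 794471327) (nat_lit 71) (nat_lit 5) (nat_lit 75) (nat_lit 5) (nat_lit 76) (nat_lit 5) (nat_lit 316) (nat_lit 259) (nat_lit 205)))))) (XT.nd (nat_lit 468) (nat_lit 760) (nat_lit 0) (XT.nd (nat_lit 234) (nat_lit 304) (nat_lit 0) (XT.nd (nat_lit 78) (nat_lit 304) (nat_lit 0) (XT.lf (nat_lit 0) (nat_lit 1684658471) (nat_lit 380) (nat_lit 9211051881) (nat_lit 76) (nat_lit 1026279640) (nat_lit 66) (nat_lit 5) (nat_lit 71) (nat_lit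 5) (nat_lit 67) (nat_lit 5) (nat_lit 317) (nat_lit 259) (nat_lit 204)) (XT.nd (nat_lit 78) (nat_lit 304) (nat_lit 0) (XT.lf (nat_lit 0) (nat_lit 4241921334) (nat_lit 380) (nat_lit 3417635170) (nat_lit 76) (nat_lit 4488594620) (nat_lit 66) (nat_lit 5) (nat_lit 71) (nat_lit 5) (nat_lit 67) (nat_lit 5) (nat_lit 318) (nat_lit 259) (nat_lit 203)) (XT.lf (nat_lit 0) (nat_lit 2550520320) (nat_lit 304) (nat_lit 4315223204) (nat_lit 380) (nat_lit 5515705341) (nat_lit 62) (nat_lit 5) (nat_lit 66) (nat_lit 5) (nat_lit 67) (nat_lit 5) (nat_lit 319) (nat_lit 259) (nat_lit 202)))) (XT.nd (nat_lit 78) (nat_lit 304) (nat_lit 0) (XT.lf (nat_lit 0) (nat_lit 8719423849) (nat_lit 304) (nat_lit 849237384) (nat_lit 380) (nat_lit 3053118530) (nat_lit 62) (nat_lit 5) (nat_lit 66) (nat_lit 5) (nat_lit 67) (nat_lit 5) (nat_lit 320) (nat_lit 259) (nat_lit 201)) (XT.nd (nat_lit 78) (nat_lit 76) (nat_lit 0) (XT.lf (nat_lit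 0) (nat_lit 2172461062) (nat_lit 228) (nat_lit 10193972519) (nat_lit 304) (nat_lit 502518313) (nat_lit 59) (nat_lit 5) (nat_lit 62) (nat_lit 5) (nat_lit 63) (nat_lit 5) (nat_lit 321) (nat_lit 259) (nat_lit 200)) (XT.lf (nat_lit 0) (nat_lit 2098223718) (nat_lit 304) (nat_lit 4690145294) (nat_lit 76) (nat_lit 6334146790) (nat_lit 58) (nat_lit 5) (nat_lit 62) (nat_lit 5) (nat_lit 59) (nat_lit 5) (nat_lit 322) (nat_lit 259) (nat_lit 199))))) (XT.nd (nat_lit 234) (nat_lit 304) (nat_lit 0) (XT.nd (nat_lit 78) (nat_lit 228) (nat_lit 0) (XT.lf (nat_lit 0) (nat_lit 1473484773) (nat_lit 228) (nat_lit 3275409689) (nat_lit 304) (nat_lit 8635223265) (nat_lit 55) (nat_lit 5) (nat_lit 58) (nat_lit 5) (nat_lit 59) (nat_lit 5) (nat_lit 323) (nat_lit 259) (nat_lit 198)) (XT.nd (nat_lit 78) (nat_lit 228) (nat_lit 0) (XT.lf (nat_lit 0) (nat_lit 7498406905) (nat_lit 304) (nat_lit 5784820295) (nat_lit 76) (nat_lit 369800240)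 (nat_lit 55) (nat_lit 5) (nat_lit 59) (nat_lit 5) (nat_lit 56) (nat_lit 5) (nat_lit 324) (nat_lit 259) (nat_lit 197)) (XT.lf (nat_lit 0) (nat_lit 455521845) (nat_lit 228) (nat_lit 9880812638) (nat_lit 304) (nat_lit 3593530299) (nat_lit 52) (nat_lit 5) (nat_lit 55) (nat_lit 5) (nat_lit 56) (nat_lit 5) (nat_lit 325) (nat_lit 259) (nat_lit 196)))) (XT.nd (nat_lit 78) (nat_lit 304) (nat_lit 0) (XT.lf (nat_lit 0) (nat_lit 6956401503) (nat_lit 228) (nat_lit 6330999293) (nat_lit 304) (nat_lit 926803538) (nat_lit 52) (nat_lit 5) (nat_lit 55) (nat_lit 5) (nat_lit 56) (nat_lit 5) (nat_lit 326) (nat_lit 259) (nat_lit 195)) (XT.nd (nat_lit 78) (nat_lit 228) (nat_lit 0) (XT.lf (nat_lit 0) (nat_lit 1754555460) (nat_lit 304) (nat_lit 916827699) (nat_lit 76) (nat_lit 11836096760) (nat_lit 51) (nat_lit 5) (nat_lit 55) (nat_lit 5) (nat_lit 52) (nat_lit 5) (nat_lit 327) (nat_lit 259) (nat_lit 194)) (XT.lf (nat_lit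 0) (nat_lit 4534317770) (nat_lit 304) (nat_lit 9146969618) (nat_lit 76) (nat_lit 1126927351) (nat_lit 48) (nat_lit 5) (nat_lit 52) (nat_lit 5) (nat_lit 49) (nat_lit 5) (nat_lit 328) (nat_lit 259) (nat_lit 193))))))))
noncomputable def xc107 : XT := (XT.nd (nat_lit 1794) (nat_lit 912) (nat_lit 0) (XT.nd (nat_lit 858) (nat_lit 836) (nat_lit 0) (XT.nd (nat_lit 390) (nat_lit 456) (nat_lit 0) (XT.nd (nat_lit 156) (nat_lit 304) (nat_lit 0) (XT.nd (nat_lit 78) (nat_lit 228) (nat_lit 0) (XT.lf (nat_lit 0) (nat_lit 7404580497) (nat_lit 304) (nat_lit 2732377576) (nat_lit 76) (nat_lit 4980833283) (nat_lit 48) (nat_lit 5) (nat_lit 52) (nat_lit 5) (nat_lit 49) (nat_lit 5) (nat_lit 329) (nat_lit 259) (nat_lit 192)) (XT.lf (nat_lit 0) (nat_lit 3908595912) (nat_lit 228) (nat_lit 6462071068) (nat_lit 304) (nat_lit 5065728832) (nat_lit 45) (nat_lit 5) (nat_lit 48) (nat_lit 5) (nat_lit 49) (nat_lit 5) (nat_lit 330)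 (nat_lit 259) (nat_lit 191))) (XT.nd (nat_lit 78) (nat_lit 304) (nat_lit 0) (XT.lf (nat_lit 0) (nat_lit 10762897542) (nat_lit 228) (nat_lit 2662982685) (nat_lit 304) (nat_lit 2338704935) (nat_lit 45) (nat_lit 5) (nat_lit 48) (nat_lit 5) (nat_lit 49) (nat_lit 5) (nat_lit 331) (nat_lit 259) (nat_lit 190)) (XT.nd (nat_lit 78) (nat_lit 0) (nat_lit 0) (XT.lf (nat_lit 0) (nat_lit 462516465) (nat_lit 304) (nat_lit 14407159413) (nat_lit 76) (nat_lit 1232791219) (nat_lit 41) (nat_lit 5) (nat_lit 45) (nat_lit 5) (nat_lit 42) (nat_lit 5) (nat_lit 332) (nat_lit 259) (nat_lit 189)) (XT.lf (nat_lit 0) (nat_lit 3351455367) (nat_lit 304) (nat_lit 7844789297) (nat_lit 76) (nat_lit 5252054011) (nat_lit 41) (nat_lit 5) (nat_lit 45) (nat_lit 5) (nat_lit 42) (nat_lit 5) (nat_lit 333) (nat_lit 259) (nat_lit 188))))) (XT.nd (nat_lit 234) (nat_lit 304) (nat_lit 0) (XT.nd (nat_lit 78) (nat_lit 152) (nat_lit 0) (XT.lf (nat_lit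 0) (nat_lit 6301152766) (nat_lit 304) (nat_lit 1125878017) (nat_lit 76) (nat_lit 9378279328) (nat_lit 41) (nat_lit 5) (nat_lit 45) (nat_lit 5) (nat_lit 42) (nat_lit 5) (nat_lit 334) (nat_lit 259) (nat_lit 187)) (XT.nd (nat_lit 78) (nat_lit 0) (nat_lit 0) (XT.lf (nat_lit 0) (nat_lit 5869989967) (nat_lit 152) (nat_lit 3500622032) (nat_lit 228) (nat_lit 7801508576) (nat_lit 39) (nat_lit 5) (nat_lit 41) (nat_lit 5) (nat_lit 42) (nat_lit 5) (nat_lit 335) (nat_lit 259) (nat_lit 186)) (XT.lf (nat_lit 0) (nat_lit 12523932557) (nat_lit 228) (nat_lit 4495525612) (nat_lit 76) (nat_lit 530749892) (nat_lit 39) (nat_lit 5) (nat_lit 42) (nat_lit 5) (nat_lit 40) (nat_lit 5) (nat_lit 336) (nat_lit 259) (nat_lit 185)))) (XT.nd (nat_lit 78) (nat_lit 76) (nat_lit 0) (XT.lf (nat_lit 0) (nat_lit 2490966473) (nat_lit 228) (nat_lit 13315287280) (nat_lit 304) (nat_lit 2132377662) (nat_lit 36) (nat_lit 5) (nat_lit 39) (nat_lit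 5) (nat_lit 40) (nat_lit 5) (nat_lit 337) (nat_lit 259) (nat_lit 184)) (XT.nd (nat_lit 78) (nat_lit 0) (nat_lit 0) (XT.lf (nat_lit 0) (nat_lit 853505629) (nat_lit 304) (nat_lit 8605130592) (nat_lit 76) (nat_lit 8879198751) (nat_lit 35) (nat_lit 5) (nat_lit 39) (nat_lit 5) (nat_lit 36) (nat_lit 5) (nat_lit 338) (nat_lit 259) (nat_lit 183)) (XT.lf (nat_lit 0) (nat_lit 3862686516) (nat_lit 304) (nat_lit 1615702755) (nat_lit 76) (nat_lit 13270717723) (nat_lit 35) (nat_lit 5) (nat_lit 39) (nat_lit 5) (nat_lit 36) (nat_lit 5) (nat_lit 339) (nat_lit 259) (nat_lit 182)))))) (XT.nd (nat_lit 468) (nat_lit 304) (nat_lit 0) (XT.nd (nat_lit 234) (nat_lit 228) (nat_lit 0) (XT.nd (nat_lit 78) (nat_lit 152) (nat_lit 0) (XT.lf (nat_lit 0) (nat_lit 5657624178) (nat_lit 152) (nat_lit 1336165112) (nat_lit 228) (nat_lit 12178000949) (nat_lit 33) (nat_lit 5) (nat_lit 35) (nat_lit 5) (nat_lit 36) (nat_lit 5) (nat_lit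 340) (nat_lit 259) (nat_lit 181)) (XT.nd (nat_lit 78) (nat_lit 152) (nat_lit 0) (XT.lf (nat_lit 0) (nat_lit 10240921077) (nat_lit 228) (nat_lit 6489118022) (nat_lit 76) (nat_lit 2876473806) (nat_lit 33) (nat_lit 5) (nat_lit 36) (nat_lit 5) (nat_lit 34) (nat_lit 5) (nat_lit 341) (nat_lit 259) (nat_lit 180)) (XT.lf (nat_lit 0) (nat_lit 712010925) (nat_lit 152) (nat_lit 12871637180) (nat_lit 228) (nat_lit 6470704874) (nat_lit 31) (nat_lit 5) (nat_lit 33) (nat_lit 5) (nat_lit 34) (nat_lit 5) (nat_lit 342) (nat_lit 259) (nat_lit 179)))) (XT.nd (nat_lit 78) (nat_lit 228) (nat_lit 0) (XT.lf (nat_lit 0) (nat_lit 8227205650) (nat_lit 152) (nat_lit 8843387619) (nat_lit 228) (nat_lit 3443737449) (nat_lit 31) (nat_lit 5) (nat_lit 33) (nat_lit 5) (nat_lit 34) (nat_lit 5) (nat_lit 343) (nat_lit 259) (nat_lit 178)) (XT.nd (nat_lit 78) (nat_lit 228) (nat_lit 0) (XT.lf (nat_lit 0) (nat_lit 15933886653) (nat_lit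 152) (nat_lit 4707297956) (nat_lit 228) (nat_lit 347571997) (nat_lit 31) (nat_lit 5) (nat_lit 33) (nat_lit 5) (nat_lit 34) (nat_lit 5) (nat_lit 344) (nat_lit 259) (nat_lit 177)) (XT.lf (nat_lit 0) (nat_lit 2380074217) (nat_lit 152) (nat_lit 408263328) (nat_lit 228) (nat_lit 18688207914) (nat_lit 28) (nat_lit 5) (nat_lit 30) (nat_lit 5) (nat_lit 31) (nat_lit 5) (nat_lit 345) (nat_lit 259) (nat_lit 176))))) (XT.nd (nat_lit 234) (nat_lit 152) (nat_lit 0) (XT.nd (nat_lit 78) (nat_lit 152) (nat_lit 0) (XT.lf (nat_lit 0) (nat_lit 6081114532) (nat_lit 228) (nat_lit 11911921875) (nat_lit 76) (nat_lit 3983753308) (nat_lit 28) (nat_lit 5) (nat_lit 31) (nat_lit 5) (nat_lit 29) (nat_lit 5) (nat_lit 346) (nat_lit 259) (nat_lit 175)) (XT.nd (nat_lit 78) (nat_lit 152) (nat_lit 0) (XT.lf (nat_lit 0) (nat_lit 9456897745) (nat_lit 228) (nat_lit 4548484937) (nat_lit 76) (nat_lit 8487149657) (nat_lit 28) (nat_lit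 5) (nat_lit 31) (nat_lit 5) (nat_lit 29) (nat_lit 5) (nat_lit 347) (nat_lit 259) (nat_lit 174)) (XT.lf (nat_lit 0) (nat_lit 3063987552) (nat_lit 152) (nat_lit 9880177791) (nat_lit 228) (nat_lit 10079292785) (nat_lit 26) (nat_lit 5) (nat_lit 28) (nat_lit 5) (nat_lit 29) (nat_lit 5) (nat_lit 348) (nat_lit 259) (nat_lit 173)))) (XT.nd (nat_lit 78) (nat_lit 152) (nat_lit 0) (XT.lf (nat_lit 0) (nat_lit 10966727072) (nat_lit 152) (nat_lit 5596271766) (nat_lit 228) (nat_lit 7006521125) (nat_lit 26) (nat_lit 5) (nat_lit 28) (nat_lit 5) (nat_lit 29) (nat_lit 5) (nat_lit 349) (nat_lit 259) (nat_lit 172)) (XT.nd (nat_lit 78) (nat_lit 152) (nat_lit 0) (XT.lf (nat_lit 0) (nat_lit 19076115161) (nat_lit 152) (nat_lit 1195852168) (nat_lit 228) (nat_lit 3860565448) (nat_lit 26) (nat_lit 5) (nat_lit 28) (nat_lit 5) (nat_lit 29) (nat_lit 5) (nat_lit 350) (nat_lit 259) (nat_lit 171)) (XT.lf (nat_lit 0) (nat_lit 2707113480)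 (nat_lit 152) (nat_lit 21425181835) (nat_lit 228) (nat_lit 578953696) (nat_lit 24) (nat_lit 5) (nat_lit 26) (nat_lit 5) (nat_lit 27) (nat_lit 4) (nat_lit 351) (nat_lit 259) (nat_lit 170))))))) (XT.nd (nat_lit 936) (nat_lit 380) (nat_lit 0) (XT.nd (nat_lit 468) (nat_lit 304) (nat_lit 0) (XT.nd (nat_lit 234) (nat_lit 0) (nat_lit 0) (XT.nd (nat_lit 78) (nat_lit 152) (nat_lit 0) (XT.lf (nat_lit 0) (nat_lit 2791895154) (nat_lit 228) (nat_lit 14567930390) (nat_lit 76) (nat_lit 7945344803) (nat_lit 23) (nat_lit 5) (nat_lit 26) (nat_lit 5) (nat_lit 24) (nat_lit 5) (nat_lit 352) (nat_lit 259) (nat_lit 169)) (XT.nd (nat_lit 78) (nat_lit 152) (nat_lit 0) (XT.lf (nat_lit 0) (nat_lit 6234798954) (nat_lit 228) (nat_lit 6943561557) (nat_lit 76) (nat_lit 12738914285) (nat_lit 23) (nat_lit 5) (nat_lit 26) (nat_lit 5) (nat_lit 24) (nat_lit 5) (nat_lit 353) (nat_lit 259) (nat_lit 168)) (XT.lf (nat_lit 0) (nat_lit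 898735869) (nat_lit 152) (nat_lit 8873966866) (nat_lit 228) (nat_lit 16775302251) (nat_lit 21) (nat_lit 5) (nat_lit 23) (nat_lit 5) (nat_lit 24) (nat_lit 5) (nat_lit 354) (nat_lit 259) (nat_lit 167)))) (XT.nd (nat_lit 78) (nat_lit 0) (nat_lit 0) (XT.lf (nat_lit 0) (nat_lit 9090576221) (nat_lit 152) (nat_lit 4379580683) (nat_lit 228) (nat_lit 13725911365) (nat_lit 21) (nat_lit 5) (nat_lit 23) (nat_lit 5) (nat_lit 24) (nat_lit 5) (nat_lit 355) (nat_lit 259) (nat_lit 166)) (XT.nd (nat_lit 78) (nat_lit 0) (nat_lit 0) (XT.lf (nat_lit 0) (nat_lit 17264611768) (nat_lit 228) (nat_lit 10365439867) (nat_lit 76) (nat_lit 233952695) (nat_lit 21) (nat_lit 5) (nat_lit 24) (nat_lit 5) (nat_lit 22) (nat_lit 4) (nat_lit 356) (nat_lit 259) (nat_lit 165)) (XT.lf (nat_lit 0) (nat_lit 21200415282) (nat_lit 228) (nat_lit 2463381833) (nat_lit 76) (nat_lit 4887368713) (nat_lit 21) (nat_lit 5) (nat_lit 24) (nat_lit 5)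 (nat_lit 22) (nat_lit 4) (nat_lit 357) (nat_lit 259) (nat_lit 164))))) (XT.nd (nat_lit 234) (nat_lit 152) (nat_lit 0) (XT.nd (nat_lit 78) (nat_lit 76) (nat_lit 0) (XT.lf (nat_lit 0) (nat_lit 5762125800) (nat_lit 76) (nat_lit 19532170568) (nat_lit 152) (nat_lit 3963458134) (nat_lit 20) (nat_lit 5) (nat_lit 21) (nat_lit 5) (nat_lit 22) (nat_lit 4) (nat_lit 358) (nat_lit 259) (nat_lit 163)) (XT.nd (nat_lit 78) (nat_lit 76) (nat_lit 0) (XT.lf (nat_lit 0) (nat_lit 14259099018) (nat_lit 76) (nat_lit 15261584737) (nat_lit 152) (nat_lit 464578456) (nat_lit 20) (nat_lit 5) (nat_lit 21) (nat_lit 5) (nat_lit 22) (nat_lit 4) (nat_lit 359) (nat_lit 259) (nat_lit 162)) (XT.lf (nat_lit 0) (nat_lit 3063108564) (nat_lit 152) (nat_lit 7779143412) (nat_lit 76) (nat_lit 19891896275) (nat_lit 19) (nat_lit 5) (nat_lit 21) (nat_lit 5) (nat_lit 20) (nat_lit 5) (nat_lit 360) (nat_lit 259) (nat_lit 161)))) (XT.nd (nat_lit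 78) (nat_lit 0) (nat_lit 0) (XT.lf (nat_lit 0) (nat_lit 384576965) (nat_lit 152) (nat_lit 6291941825) (nat_lit 228) (nat_lit 24829178232) (nat_lit 17) (nat_lit 5) (nat_lit 19) (nat_lit 5) (nat_lit 20) (nat_lit 5) (nat_lit 361) (nat_lit 259) (nat_lit 160)) (XT.nd (nat_lit 78) (nat_lit 0) (nat_lit 0) (XT.lf (nat_lit 0) (nat_lit 8928300398) (nat_lit 152) (nat_lit 1534305458) (nat_lit 228) (nat_lit 21835868889) (nat_lit 17) (nat_lit 5) (nat_lit 19) (nat_lit 5) (nat_lit 20) (nat_lit 5) (nat_lit 362) (nat_lit 259) (nat_lit 159)) (XT.lf (nat_lit 0) (nat_lit 14380674308) (nat_lit 228) (nat_lit 15443052481) (nat_lit 76) (nat_lit 3290767459) (nat_lit 17) (nat_lit 5) (nat_lit 20) (nat_lit 5) (nat_lit 18) (nat_lit 4) (nat_lit 363) (nat_lit 259) (nat_lit 158)))))) (XT.nd (nat_lit 468) (nat_lit 228) (nat_lit 0) (XT.nd (nat_lit 234) (nat_lit 76) (nat_lit 0) (XT.nd (nat_lit 78) (nat_lit 76) (nat_lit 0) (XT.lf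 (nat_lit 0) (nat_lit 18417924641) (nat_lit 228) (nat_lit 7316604790) (nat_lit 76) (nat_lit 8220425822) (nat_lit 17) (nat_lit 5) (nat_lit 20) (nat_lit 5) (nat_lit 18) (nat_lit 4) (nat_lit 364) (nat_lit 259) (nat_lit 157)) (XT.nd (nat_lit 78) (nat_lit 0) (nat_lit 0) (XT.lf (nat_lit 0) (nat_lit 1051537473) (nat_lit 76) (nat_lit 21521706416) (nat_lit 152) (nat_lit 12247487471) (nat_lit 16) (nat_lit 5) (nat_lit 17) (nat_lit 5) (nat_lit 18) (nat_lit 4) (nat_lit 365) (nat_lit 259) (nat_lit 156)) (XT.lf (nat_lit 0) (nat_lit 9798310833) (nat_lit 76) (nat_lit 17115806541) (nat_lit 152) (nat_lit 8796546065) (nat_lit 16) (nat_lit 5) (nat_lit 17) (nat_lit 5) (nat_lit 18) (nat_lit 4) (nat_lit 366) (nat_lit 259) (nat_lit 155)))) (XT.nd (nat_lit 78) (nat_lit 76) (nat_lit 0) (XT.lf (nat_lit 0) (nat_lit 18785743321) (nat_lit 76) (nat_lit 12586863354) (nat_lit 152) (nat_lit 5255074370) (nat_lit 16) (nat_lit 5) (nat_lit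 17) (nat_lit 5) (nat_lit 18) (nat_lit 4) (nat_lit 367) (nat_lit 259) (nat_lit 154)) (XT.nd (nat_lit 78) (nat_lit 76) (nat_lit 0) (XT.lf (nat_lit 0) (nat_lit 28021688032) (nat_lit 76) (nat_lit 7930919525) (nat_lit 152) (nat_lit 1619977897) (nat_lit 16) (nat_lit 5) (nat_lit 17) (nat_lit 5) (nat_lit 18) (nat_lit 4) (nat_lit 368) (nat_lit 259) (nat_lit 153)) (XT.lf (nat_lit 0) (nat_lit 2070708492) (nat_lit 152) (nat_lit 1052288166) (nat_lit 76) (nat_lit 35422596621) (nat_lit 15) (nat_lit 5) (nat_lit 17) (nat_lit 5) (nat_lit 16) (nat_lit 5) (nat_lit 369) (nat_lit 259) (nat_lit 152))))) (XT.nd (nat_lit 234) (nat_lit 76) (nat_lit 0) (XT.nd (nat_lit 78) (nat_lit 0) (nat_lit 0) (XT.lf (nat_lit 0) (nat_lit 5921445121) (nat_lit 228) (nat_lit 31746166955) (nat_lit 76) (nat_lit 1877249613) (nat_lit 13) (nat_lit 5) (nat_lit 16) (nat_lit 5) (nat_lit 14) (nat_lit 4) (nat_lit 370) (nat_lit 259) (nat_lit 151)) (XT.nd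 (nat_lit 78) (nat_lit 0) (nat_lit 0) (XT.lf (nat_lit 0) (nat_lit 9917760006) (nat_lit 228) (nat_lit 23688251558) (nat_lit 76) (nat_lit 6967202883) (nat_lit 13) (nat_lit 5) (nat_lit 16) (nat_lit 5) (nat_lit 14) (nat_lit 4) (nat_lit 371) (nat_lit 259) (nat_lit 150)) (XT.lf (nat_lit 0) (nat_lit 14022706223) (nat_lit 228) (nat_lit 15408224155) (nat_lit 76) (nat_lit 12201832903) (nat_lit 13) (nat_lit 5) (nat_lit 16) (nat_lit 5) (nat_lit 14) (nat_lit 4) (nat_lit 372) (nat_lit 259) (nat_lit 149)))) (XT.nd (nat_lit 78) (nat_lit 76) (nat_lit 0) (XT.lf (nat_lit 0) (nat_lit 18239870618) (nat_lit 228) (nat_lit 6898849770) (nat_lit 76) (nat_lit 17585713619) (nat_lit 13) (nat_lit 5) (nat_lit 16) (nat_lit 5) (nat_lit 14) (nat_lit 4) (nat_lit 373) (nat_lit 259) (nat_lit 148)) (XT.nd (nat_lit 78) (nat_lit 0) (nat_lit 0) (XT.lf (nat_lit 0) (nat_lit 1884072003) (nat_lit 76) (nat_lit 20706976942) (nat_lit 152) (nat_lit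 21257588244) (nat_lit 12) (nat_lit 5) (nat_lit 13) (nat_lit 5) (nat_lit 14) (nat_lit 4) (nat_lit 374) (nat_lit 259) (nat_lit 147)) (XT.lf (nat_lit 0) (nat_lit 11053583573) (nat_lit 76) (nat_lit 16078365054) (nat_lit 152) (nat_lit 17872849349) (nat_lit 12) (nat_lit 5) (nat_lit 13) (nat_lit 5) (nat_lit 14) (nat_lit 4) (nat_lit 375) (nat_lit 259) (nat_lit 146))))))))
noncomputable def xc108 : XT := (XT.nd (nat_lit 31590) (nat_lit 0) (nat_lit 15428) (XT.nd (nat_lit 858) (nat_lit 152) (nat_lit 0) (XT.nd (nat_lit 390) (nat_lit 76) (nat_lit 0) (XT.nd (nat_lit 156) (nat_lit 152) (nat_lit 0) (XT.nd (nat_lit 78) (nat_lit 0) (nat_lit 0) (XT.lf (nat_lit 0) (nat_lit 20480396499) (nat_lit 76) (nat_lit 11318505163) (nat_lit 152) (nat_lit 14397054019) (nat_lit 12) (nat_lit 5) (nat_lit 13) (nat_lit 5) (nat_lit 14) (nat_lit 4) (nat_lit 376) (nat_lit 259) (nat_lit 145)) (XT.lf (nat_lit 0) (nat_lit 30172747799) (nat_lit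 76) (nat_lit 6423238168) (nat_lit 152) (nat_lit 10827165153) (nat_lit 12) (nat_lit 5) (nat_lit 13) (nat_lit 5) (nat_lit 14) (nat_lit 4) (nat_lit 377) (nat_lit 259) (nat_lit 144))) (XT.nd (nat_lit 78) (nat_lit 152) (nat_lit 0) (XT.lf (nat_lit 0) (nat_lit 40139106520) (nat_lit 76) (nat_lit 1388286650) (nat_lit 152) (nat_lit 7160063430) (nat_lit 12) (nat_lit 5) (nat_lit 13) (nat_lit 5) (nat_lit 14) (nat_lit 4) (nat_lit 378) (nat_lit 259) (nat_lit 143)) (XT.nd (nat_lit 78) (nat_lit 76) (nat_lit 0) (XT.lf (nat_lit 0) (nat_lit 368965115) (nat_lit 76) (nat_lit 46268452868) (nat_lit 76) (nat_lit 3351359299) (nat_lit 11) (nat_lit 4) (nat_lit 12) (nat_lit 5) (nat_lit 12) (nat_lit 4) (nat_lit 379) (nat_lit 259) (nat_lit 142)) (XT.lf (nat_lit 0) (nat_lit 652014692) (nat_lit 152) (nat_lit 41634134113) (nat_lit 76) (nat_lit 9040082995) (nat_lit 10) (nat_lit 5) (nat_lit 12) (nat_lit 5) (nat_lit 11) (nat_lit 4)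 (nat_lit 380) (nat_lit 259) (nat_lit 141))))) (XT.nd (nat_lit 234) (nat_lit 76) (nat_lit 0) (XT.nd (nat_lit 78) (nat_lit 0) (nat_lit 0) (XT.lf (nat_lit 0) (nat_lit 4699044659) (nat_lit 152) (nat_lit 33458110240) (nat_lit 76) (nat_lit 14545937953) (nat_lit 10) (nat_lit 5) (nat_lit 12) (nat_lit 5) (nat_lit 11) (nat_lit 4) (nat_lit 381) (nat_lit 259) (nat_lit 140)) (XT.nd (nat_lit 78) (nat_lit 0) (nat_lit 0) (XT.lf (nat_lit 0) (nat_lit 8858663933) (nat_lit 152) (nat_lit 25052381135) (nat_lit 76) (nat_lit 20210484914) (nat_lit 10) (nat_lit 5) (nat_lit 12) (nat_lit 5) (nat_lit 11) (nat_lit 4) (nat_lit 382) (nat_lit 259) (nat_lit 139)) (XT.lf (nat_lit 0) (nat_lit 13134507131) (nat_lit 152) (nat_lit 16409601986) (nat_lit 76) (nat_lit 26038673482) (nat_lit 10) (nat_lit 5) (nat_lit 12) (nat_lit 5) (nat_lit 11) (nat_lit 4) (nat_lit 383) (nat_lit 259) (nat_lit 138)))) (XT.nd (nat_lit 78) (nat_lit 76) (nat_lit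 0) (XT.lf (nat_lit 0) (nat_lit 17530310429) (nat_lit 152) (nat_lit 7522220850) (nat_lit 76) (nat_lit 32035596249) (nat_lit 10) (nat_lit 5) (nat_lit 12) (nat_lit 5) (nat_lit 11) (nat_lit 4) (nat_lit 384) (nat_lit 259) (nat_lit 137)) (XT.nd (nat_lit 78) (nat_lit 0) (nat_lit 0) (XT.lf (nat_lit 0) (nat_lit 1649719923) (nat_lit 76) (nat_lit 20416053011) (nat_lit 152) (nat_lit 36572631437) (nat_lit 9) (nat_lit 5) (nat_lit 10) (nat_lit 5) (nat_lit 11) (nat_lit 4) (nat_lit 385) (nat_lit 259) (nat_lit 136)) (XT.lf (nat_lit 0) (nat_lit 11236903042) (nat_lit 76) (nat_lit 15568382411) (nat_lit 152) (nat_lit 33427869457) (nat_lit 9) (nat_lit 5) (nat_lit 10) (nat_lit 5) (nat_lit 11) (nat_lit 4) (nat_lit 386) (nat_lit 259) (nat_lit 135)))))) (XT.nd (nat_lit 468) (nat_lit 76) (nat_lit 0) (XT.nd (nat_lit 234) (nat_lit 76) (nat_lit 0) (XT.nd (nat_lit 78) (nat_lit 0) (nat_lit 0) (XT.lf (nat_lit 0) (nat_lit 21097998712)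 (nat_lit 76) (nat_lit 10581243332) (nat_lit 152) (nat_lit 30196742990) (nat_lit 9) (nat_lit 5) (nat_lit 10) (nat_lit 5) (nat_lit 11) (nat_lit 4) (nat_lit 387) (nat_lit 259) (nat_lit 134)) (XT.nd (nat_lit 78) (nat_lit 0) (nat_lit 0) (XT.lf (nat_lit 0) (nat_lit 31241623423) (nat_lit 76) (nat_lit 5450278079) (nat_lit 152) (nat_lit 26876428721) (nat_lit 9) (nat_lit 5) (nat_lit 10) (nat_lit 5) (nat_lit 11) (nat_lit 4) (nat_lit 388) (nat_lit 259) (nat_lit 133)) (XT.lf (nat_lit 0) (nat_lit 41676640538) (nat_lit 76) (nat_lit 171003284) (nat_lit 152) (nat_lit 23464025404) (nat_lit 9) (nat_lit 5) (nat_lit 10) (nat_lit 5) (nat_lit 11) (nat_lit 4) (nat_lit 389) (nat_lit 259) (nat_lit 132)))) (XT.nd (nat_lit 78) (nat_lit 76) (nat_lit 0) (XT.lf (nat_lit 0) (nat_lit 47201547838) (nat_lit 152) (nat_lit 14745931134) (nat_lit 0) (nat_lit 5158529164) (nat_lit 9) (nat_lit 5) (nat_lit 11) (nat_lit 4) (nat_lit 9) (nat_lit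 4) (nat_lit 390) (nat_lit 259) (nat_lit 131)) (XT.nd (nat_lit 78) (nat_lit 76) (nat_lit 0) (XT.lf (nat_lit 0) (nat_lit 52710833110) (nat_lit 152) (nat_lit 5604188357) (nat_lit 0) (nat_lit 10639317113) (nat_lit 9) (nat_lit 5) (nat_lit 11) (nat_lit 4) (nat_lit 9) (nat_lit 4) (nat_lit 391) (nat_lit 259) (nat_lit 130)) (XT.lf (nat_lit 0) (nat_lit 3875455455) (nat_lit 76) (nat_lit 54540467583) (nat_lit 76) (nat_lit 12441284281) (nat_lit 8) (nat_lit 4) (nat_lit 9) (nat_lit 5) (nat_lit 9) (nat_lit 4) (nat_lit 392) (nat_lit 259) (nat_lit 129))))) (XT.nd (nat_lit 234) (nat_lit 76) (nat_lit 0) (XT.nd (nat_lit 78) (nat_lit 0) (nat_lit 0) (XT.lf (nat_lit 0) (nat_lit 13742511013) (nat_lit 76) (nat_lit 50599600764) (nat_lit 76) (nat_lit 8473556002) (nat_lit 8) (nat_lit 4) (nat_lit 9) (nat_lit 5) (nat_lit 9) (nat_lit 4) (nat_lit 393) (nat_lit 259) (nat_lit 128)) (XT.nd (nat_lit 78) (nat_lit 0) (nat_lit 0) (XT.lf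 (nat_lit 0) (nat_lit 23894065678) (nat_lit 76) (nat_lit 46545568851) (nat_lit 76) (nat_lit 4393445000) (nat_lit 8) (nat_lit 4) (nat_lit 9) (nat_lit 5) (nat_lit 9) (nat_lit 4) (nat_lit 394) (nat_lit 259) (nat_lit 127)) (XT.lf (nat_lit 0) (nat_lit 34338989740) (nat_lit 76) (nat_lit 42374829485) (nat_lit 76) (nat_lit 197386131) (nat_lit 8) (nat_lit 4) (nat_lit 9) (nat_lit 5) (nat_lit 9) (nat_lit 4) (nat_lit 395) (nat_lit 259) (nat_lit 126)))) (XT.nd (nat_lit 78) (nat_lit 0) (nat_lit 0) (XT.lf (nat_lit 0) (nat_lit 4037924451) (nat_lit 152) (nat_lit 34005038759) (nat_lit 76) (nat_lit 41007710261) (nat_lit 7) (nat_lit 5) (nat_lit 9) (nat_lit 5) (nat_lit 8) (nat_lit 4) (nat_lit 396) (nat_lit 259) (nat_lit 125)) (XT.nd (nat_lit 78) (nat_lit 0) (nat_lit 0) (XT.lf (nat_lit 0) (nat_lit 8390360931) (nat_lit 152) (nat_lit 25193458764) (nat_lit 76) (nat_lit 47670629778) (nat_lit 7) (nat_lit 5) (nat_lit 9) (nat_lit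 5) (nat_lit 8) (nat_lit 4) (nat_lit 397) (nat_lit 259) (nat_lit 124)) (XT.lf (nat_lit 0) (nat_lit 12867578123) (nat_lit 152) (nat_lit 16127878796) (nat_lit 76) (nat_lit 54529058995) (nat_lit 7) (nat_lit 5) (nat_lit 9) (nat_lit 5) (nat_lit 8) (nat_lit 4) (nat_lit 398) (nat_lit 259) (nat_lit 123))))))) (XT.nd (nat_lit 936) (nat_lit 4180) (nat_lit 0) (XT.nd (nat_lit 468) (nat_lit 1064) (nat_lit 0) (XT.nd (nat_lit 234) (nat_lit 380) (nat_lit 0) (XT.nd (nat_lit 78) (nat_lit 76) (nat_lit 0) (XT.lf (nat_lit 0) (nat_lit 1073741823) (nat_lit 0) (nat_lit 0) (nat_lit 0) (nat_lit 0) (nat_lit 285) (nat_lit 0) (nat_lit 1) (nat_lit 0) (nat_lit 1) (nat_lit 0) (nat_lit 260) (nat_lit 260) (nat_lit 260)) (XT.nd (nat_lit 78) (nat_lit 0) (nat_lit 0) (XT.lf (nat_lit 0) (nat_lit 2839332363) (nat_lit 76) (nat_lit 3548208375) (nat_lit 0) (nat_lit 55943363) (nat_lit 284) (nat_lit 5) (nat_lit 285) (nat_lit 0) (nat_lit 284)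 (nat_lit 4) (nat_lit 261) (nat_lit 260) (nat_lit 259)) (XT.lf (nat_lit 0) (nat_lit 5653587389) (nat_lit 76) (nat_lit 626796417) (nat_lit 0) (nat_lit 167878971) (nat_lit 284) (nat_lit 5) (nat_lit 285) (nat_lit 0) (nat_lit 284) (nat_lit 4) (nat_lit 262) (nat_lit 260) (nat_lit 258)))) (XT.nd (nat_lit 78) (nat_lit 228) (nat_lit 0) (XT.lf (nat_lit 0) (nat_lit 1972644739) (nat_lit 152) (nat_lit 4104850680) (nat_lit 76) (nat_lit 378031911) (nat_lit 282) (nat_lit 5) (nat_lit 284) (nat_lit 5) (nat_lit 283) (nat_lit 4) (nat_lit 263) (nat_lit 260) (nat_lit 257)) (XT.nd (nat_lit 78) (nat_lit 228) (nat_lit 0) (XT.lf (nat_lit 0) (nat_lit 4707514552) (nat_lit 152) (nat_lit 1100260188) (nat_lit 76) (nat_lit 658356255) (nat_lit 282) (nat_lit 5) (nat_lit 284) (nat_lit 5) (nat_lit 283) (nat_lit 4) (nat_lit 264) (nat_lit 260) (nat_lit 256)) (XT.lf (nat_lit 0) (nat_lit 941933731) (nat_lit 228) (nat_lit 4514247204)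 (nat_lit 76) (nat_lit 1023470883) (nat_lit 279) (nat_lit 5) (nat_lit 282) (nat_lit 5) (nat_lit 280) (nat_lit 5) (nat_lit 265) (nat_lit 260) (nat_lit 255))))) (XT.nd (nat_lit 234) (nat_lit 760) (nat_lit 0) (XT.nd (nat_lit 78) (nat_lit 304) (nat_lit 0) (XT.lf (nat_lit 0) (nat_lit 3597672445) (nat_lit 228) (nat_lit 1425058089) (nat_lit 76) (nat_lit 1473380509) (nat_lit 279) (nat_lit 5) (nat_lit 282) (nat_lit 5) (nat_lit 280) (nat_lit 5) (nat_lit 266) (nat_lit 260) (nat_lit 254)) (XT.nd (nat_lit 78) (nat_lit 76) (nat_lit 0) (XT.lf (nat_lit 0) (nat_lit 1732472994) (nat_lit 228) (nat_lit 4518524116) (nat_lit 304) (nat_lit 264860290) (nat_lit 276) (nat_lit 5) (nat_lit 279) (nat_lit 5) (nat_lit 280) (nat_lit 5) (nat_lit 267) (nat_lit 260) (nat_lit 253)) (XT.lf (nat_lit 0) (nat_lit 2316807416) (nat_lit 304) (nat_lit 1605320077) (nat_lit 76) (nat_lit 2616169188) (nat_lit 275) (nat_lit 5) (nat_lit 279) (nat_lit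 5) (nat_lit 276) (nat_lit 5) (nat_lit 268) (nat_lit 260) (nat_lit 252)))) (XT.nd (nat_lit 78) (nat_lit 456) (nat_lit 0) (XT.lf (nat_lit 0) (nat_lit 1639369904) (nat_lit 304) (nat_lit 3252148912) (nat_lit 380) (nat_lit 1672486841) (nat_lit 271) (nat_lit 5) (nat_lit 275) (nat_lit 5) (nat_lit 276) (nat_lit 5) (nat_lit 269) (nat_lit 260) (nat_lit 251)) (XT.nd (nat_lit 78) (nat_lit 380) (nat_lit 0) (XT.lf (nat_lit 0) (nat_lit 856923234) (nat_lit 380) (nat_lit 1644680026) (nat_lit 76) (nat_lit 4091217133) (nat_lit 270) (nat_lit 5) (nat_lit 275) (nat_lit 5) (nat_lit 271) (nat_lit 5) (nat_lit 270) (nat_lit 260) (nat_lit 250)) (XT.lf (nat_lit 0) (nat_lit 1692206694) (nat_lit 380) (nat_lit 1661555916) (nat_lit 456) (nat_lit 3270762329) (nat_lit 265) (nat_lit 5) (nat_lit 270) (nat_lit 5) (nat_lit 271) (nat_lit 5) (nat_lit 271) (nat_lit 260) (nat_lit 249)))))) (XT.nd (nat_lit 468) (nat_lit 2432) (nat_lit 0)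 (XT.nd (nat_lit 234) (nat_lit 1216) (nat_lit 0) (XT.nd (nat_lit 78) (nat_lit 532) (nat_lit 0) (XT.lf (nat_lit 0) (nat_lit 5105552831) (nat_lit 380) (nat_lit 747560308) (nat_lit 456) (nat_lit 806508249) (nat_lit 265) (nat_lit 5) (nat_lit 270) (nat_lit 5) (nat_lit 271) (nat_lit 5) (nat_lit 272) (nat_lit 260) (nat_lit 248)) (XT.nd (nat_lit 78) (nat_lit 0) (nat_lit 0) (XT.lf (nat_lit 0) (nat_lit 1631004667) (nat_lit 532) (nat_lit 4812061771) (nat_lit 76) (nat_lit 254464751) (nat_lit 258) (nat_lit 5) (nat_lit 265) (nat_lit 5) (nat_lit 259) (nat_lit 5) (nat_lit 273) (nat_lit 260) (nat_lit 247)) (XT.lf (nat_lit 0) (nat_lit 4063434716) (nat_lit 532) (nat_lit 1351804630) (nat_lit 76) (nat_lit 1323205453) (nat_lit 258) (nat_lit 5) (nat_lit 265) (nat_lit 5) (nat_lit 259) (nat_lit 5) (nat_lit 274) (nat_lit 260) (nat_lit 246)))) (XT.nd (nat_lit 78) (nat_lit 684) (nat_lit 0) (XT.lf (nat_lit 0) (nat_lit 2196673430)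 (nat_lit 532) (nat_lit 4310514716) (nat_lit 608) (nat_lit 275486110) (nat_lit 251) (nat_lit 5) (nat_lit 258) (nat_lit 5) (nat_lit 259) (nat_lit 5) (nat_lit 275) (nat_lit 260) (nat_lit 245)) (XT.nd (nat_lit 78) (nat_lit 608) (nat_lit 0) (XT.lf (nat_lit 0) (nat_lit 2085017400) (nat_lit 608) (nat_lit 1029484000) (nat_lit 76) (nat_lit 3715365767) (nat_lit 250) (nat_lit 5) (nat_lit 258) (nat_lit 5) (nat_lit 251) (nat_lit 5) (nat_lit 276) (nat_lit 260) (nat_lit 244)) (XT.lf (nat_lit 0) (nat_lit 2624213709) (nat_lit 608) (nat_lit 1832257863) (nat_lit 684) (nat_lit 2423770965) (nat_lit 242) (nat_lit 5) (nat_lit 250) (nat_lit 5) (nat_lit 251) (nat_lit 5) (nat_lit 277) (nat_lit 260) (nat_lit 243))))) (XT.nd (nat_lit 234) (nat_lit 1672) (nat_lit 0) (XT.nd (nat_lit 78) (nat_lit 760) (nat_lit 0) (XT.lf (nat_lit 0) (nat_lit 6351199442) (nat_lit 608) (nat_lit 480477766) (nat_lit 684) (nat_lit 102686035) (nat_lit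 242) (nat_lit 5) (nat_lit 250) (nat_lit 5) (nat_lit 251) (nat_lit 5) (nat_lit 278) (nat_lit 260) (nat_lit 242)) (XT.nd (nat_lit 78) (nat_lit 0) (nat_lit 0) (XT.lf (nat_lit 0) (nat_lit 2206972500) (nat_lit 760) (nat_lit 3817972975) (nat_lit 76) (nat_lit 965794735) (nat_lit 232) (nat_lit 5) (nat_lit 242) (nat_lit 5) (nat_lit 233) (nat_lit 5) (nat_lit 279) (nat_lit 260) (nat_lit 241)) (XT.lf (nat_lit 0) (nat_lit 4519941250) (nat_lit 760) (nat_lit 60655739) (nat_lit 76) (nat_lit 2470292756) (nat_lit 232) (nat_lit 5) (nat_lit 242) (nat_lit 5) (nat_lit 233) (nat_lit 5) (nat_lit 280) (nat_lit 260) (nat_lit 240)))) (XT.nd (nat_lit 78) (nat_lit 912) (nat_lit 0) (XT.lf (nat_lit 0) (nat_lit 3826256511) (nat_lit 760) (nat_lit 3040376292) (nat_lit 836) (nat_lit 247469585) (nat_lit 222) (nat_lit 5) (nat_lit 232) (nat_lit 5) (nat_lit 233) (nat_lit 5) (nat_lit 281) (nat_lit 260) (nat_lit 239)) (XT.nd (nat_lit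 78) (nat_lit 0) (nat_lit 0) (XT.lf (nat_lit 0) (nat_lit 584161511) (nat_lit 836) (nat_lit 1413751475) (nat_lit 912) (nat_lit 5182835356) (nat_lit 210) (nat_lit 5) (nat_lit 221) (nat_lit 5) (nat_lit 222) (nat_lit 5) (nat_lit 282) (nat_lit 260) (nat_lit 238)) (XT.lf (nat_lit 0) (nat_lit 4271605663) (nat_lit 912) (nat_lit 2674611525) (nat_lit 76) (nat_lit 304297931) (nat_lit 210) (nat_lit 5) (nat_lit 222) (nat_lit 5) (nat_lit 211) (nat_lit 5) (nat_lit 283) (nat_lit 260) (nat_lit 237))))))))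
noncomputable def xc109 : XT := (XT.nd (nat_lit 1794) (nat_lit 3572) (nat_lit 0) (XT.nd (nat_lit 858) (nat_lit 3420) (nat_lit 0) (XT.nd (nat_lit 390) (nat_lit 2204) (nat_lit 0) (XT.nd (nat_lit 156) (nat_lit 2128) (nat_lit 0) (XT.nd (nat_lit 78) (nat_lit 76) (nat_lit 0) (XT.lf (nat_lit 0) (nat_lit 1317861781) (nat_lit 912) (nat_lit 5254233020) (nat_lit 988) (nat_lit 751690126) (nat_lit 198) (nat_lit 5) (nat_lit 210) (nat_lit 5) (nat_lit 211) (nat_lit 5) (nat_lit 284) (nat_lit 260) (nat_lit 236)) (XT.lf (nat_lit 0) (nat_lit 1472047806) (nat_lit 988) (nat_lit 1988403356) (nat_lit 76) (nat_lit 3939720905) (nat_lit 197) (nat_lit 5) (nat_lit 210) (nat_lit 5) (nat_lit 198) (nat_lit 5) (nat_lit 285) (nat_lit 260) (nat_lit 235))) (XT.nd (nat_lit 78) (nat_lit 1140) (nat_lit 0) (XT.lf (nat_lit 0) (nat_lit 2125616235) (nat_lit 988) (nat_lit 1576694489) (nat_lit 1064) (nat_lit 3777822565) (nat_lit 184) (nat_lit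 5) (nat_lit 197) (nat_lit 5) (nat_lit 198) (nat_lit 5) (nat_lit 286) (nat_lit 260) (nat_lit 234)) (XT.nd (nat_lit 78) (nat_lit 1140) (nat_lit 0) (XT.lf (nat_lit 0) (nat_lit 5959162073) (nat_lit 1064) (nat_lit 1221398112) (nat_lit 76) (nat_lit 383291656) (nat_lit 184) (nat_lit 5) (nat_lit 198) (nat_lit 5) (nat_lit 185) (nat_lit 5) (nat_lit 287) (nat_lit 260) (nat_lit 233)) (XT.lf (nat_lit 0) (nat_lit 603383461) (nat_lit 1140) (nat_lit 4635505253) (nat_lit 76) (nat_lit 2411687540) (nat_lit 169) (nat_lit 5) (nat_lit 184) (nat_lit 5) (nat_lit 170) (nat_lit 5) (nat_lit 288) (nat_lit 260) (nat_lit 232))))) (XT.nd (nat_lit 234) (nat_lit 608) (nat_lit 0) (XT.nd (nat_lit 78) (nat_lit 1596) (nat_lit 0) (XT.lf (nat_lit 0) (nat_lit 2796196789) (nat_lit 1140) (nat_lit 410560977) (nat_lit 76) (nat_lit 4534281748) (nat_lit 169) (nat_lit 5) (nat_lit 184) (nat_lit 5) (nat_lit 170) (nat_lit 5) (nat_lit 289) (nat_lit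 260) (nat_lit 231)) (XT.nd (nat_lit 78) (nat_lit 532) (nat_lit 0) (XT.lf (nat_lit 0) (nat_lit 3961453160) (nat_lit 1064) (nat_lit 1071513244) (nat_lit 1140) (nat_lit 2802037415) (nat_lit 155) (nat_lit 5) (nat_lit 169) (nat_lit 5) (nat_lit 170) (nat_lit 5) (nat_lit 290) (nat_lit 260) (nat_lit 230)) (XT.lf (nat_lit 0) (nat_lit 481562499) (nat_lit 532) (nat_lit 6816250041) (nat_lit 608) (nat_lit 635273761) (nat_lit 148) (nat_lit 5) (nat_lit 155) (nat_lit 5) (nat_lit 156) (nat_lit 5) (nat_lit 291) (nat_lit 260) (nat_lit 229)))) (XT.nd (nat_lit 78) (nat_lit 532) (nat_lit 0) (XT.lf (nat_lit 0) (nat_lit 1557229634) (nat_lit 608) (nat_lit 3071589059) (nat_lit 76) (nat_lit 3405196541) (nat_lit 147) (nat_lit 5) (nat_lit 155) (nat_lit 5) (nat_lit 148) (nat_lit 5) (nat_lit 292) (nat_lit 260) (nat_lit 228)) (XT.nd (nat_lit 78) (nat_lit 0) (nat_lit 0) (XT.lf (nat_lit 0) (nat_lit 1403519750) (nat_lit 532) (nat_lit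 2356185837) (nat_lit 608) (nat_lit 4379486329) (nat_lit 140) (nat_lit 5) (nat_lit 147) (nat_lit 5) (nat_lit 148) (nat_lit 5) (nat_lit 293) (nat_lit 260) (nat_lit 227)) (XT.lf (nat_lit 0) (nat_lit 6003994437) (nat_lit 608) (nat_lit 2229430236) (nat_lit 76) (nat_lit 14941194) (nat_lit 140) (nat_lit 5) (nat_lit 148) (nat_lit 5) (nat_lit 141) (nat_lit 5) (nat_lit 294) (nat_lit 260) (nat_lit 226)))))) (XT.nd (nat_lit 468) (nat_lit 1292) (nat_lit 0) (XT.nd (nat_lit 234) (nat_lit 988) (nat_lit 0) (XT.nd (nat_lit 78) (nat_lit 608) (nat_lit 0) (XT.lf (nat_lit 0) (nat_lit 2378259444) (nat_lit 532) (nat_lit 5929719329) (nat_lit 608) (nat_lit 53176061) (nat_lit 133) (nat_lit 5) (nat_lit 140) (nat_lit 5) (nat_lit 141) (nat_lit 5) (nat_lit 295) (nat_lit 260) (nat_lit 225)) (XT.nd (nat_lit 78) (nat_lit 532) (nat_lit 0) (XT.lf (nat_lit 0) (nat_lit 2130063330) (nat_lit 608) (nat_lit 1385607858) (nat_lit 76) (nat_lit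 4962045866) (nat_lit 132) (nat_lit 5) (nat_lit 140) (nat_lit 5) (nat_lit 133) (nat_lit 5) (nat_lit 296) (nat_lit 260) (nat_lit 224)) (XT.lf (nat_lit 0) (nat_lit 3358857955) (nat_lit 532) (nat_lit 999292198) (nat_lit 608) (nat_lit 4240299023) (nat_lit 125) (nat_lit 5) (nat_lit 132) (nat_lit 5) (nat_lit 133) (nat_lit 5) (nat_lit 297) (nat_lit 260) (nat_lit 223)))) (XT.nd (nat_lit 78) (nat_lit 988) (nat_lit 0) (XT.lf (nat_lit 0) (nat_lit 6631588976) (nat_lit 608) (nat_lit 520563700) (nat_lit 76) (nat_lit 1571393751) (nat_lit 125) (nat_lit 5) (nat_lit 133) (nat_lit 5) (nat_lit 126) (nat_lit 5) (nat_lit 298) (nat_lit 260) (nat_lit 222)) (XT.nd (nat_lit 78) (nat_lit 456) (nat_lit 0) (XT.lf (nat_lit 0) (nat_lit 120765348) (nat_lit 532) (nat_lit 4493523783) (nat_lit 76) (nat_lit 4238096745) (nat_lit 118) (nat_lit 5) (nat_lit 125) (nat_lit 5) (nat_lit 119) (nat_lit 5) (nat_lit 299) (nat_lit 260) (nat_lit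 221)) (XT.lf (nat_lit 0) (nat_lit 340624494) (nat_lit 456) (nat_lit 1976679427) (nat_lit 532) (nat_lit 6668470896) (nat_lit 112) (nat_lit 5) (nat_lit 118) (nat_lit 5) (nat_lit 119) (nat_lit 5) (nat_lit 300) (nat_lit 260) (nat_lit 220))))) (XT.nd (nat_lit 234) (nat_lit 912) (nat_lit 0) (XT.nd (nat_lit 78) (nat_lit 380) (nat_lit 0) (XT.lf (nat_lit 0) (nat_lit 4584408756) (nat_lit 532) (nat_lit 3774045259) (nat_lit 76) (nat_lit 764658777) (nat_lit 112) (nat_lit 5) (nat_lit 119) (nat_lit 5) (nat_lit 113) (nat_lit 5) (nat_lit 301) (nat_lit 260) (nat_lit 219)) (XT.nd (nat_lit 78) (nat_lit 0) (nat_lit 0) (XT.lf (nat_lit 0) (nat_lit 1191941135) (nat_lit 380) (nat_lit 5711751404) (nat_lit 456) (nat_lit 2361438314) (nat_lit 107) (nat_lit 5) (nat_lit 112) (nat_lit 5) (nat_lit 113) (nat_lit 5) (nat_lit 302) (nat_lit 260) (nat_lit 218)) (XT.lf (nat_lit 0) (nat_lit 6329870172) (nat_lit 380) (nat_lit 2954774175)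 (nat_lit 456) (nat_lit 127084870) (nat_lit 107) (nat_lit 5) (nat_lit 112) (nat_lit 5) (nat_lit 113) (nat_lit 5) (nat_lit 303) (nat_lit 260) (nat_lit 217)))) (XT.nd (nat_lit 78) (nat_lit 380) (nat_lit 0) (XT.lf (nat_lit 0) (nat_lit 2024012641) (nat_lit 456) (nat_lit 82112780) (nat_lit 532) (nat_lit 7456823166) (nat_lit 100) (nat_lit 5) (nat_lit 106) (nat_lit 5) (nat_lit 107) (nat_lit 5) (nat_lit 304) (nat_lit 260) (nat_lit 216)) (XT.nd (nat_lit 78) (nat_lit 380) (nat_lit 0) (XT.lf (nat_lit 0) (nat_lit 4418377334) (nat_lit 532) (nat_lit 2455343305) (nat_lit 76) (nat_lit 2844583613) (nat_lit 100) (nat_lit 5) (nat_lit 107) (nat_lit 5) (nat_lit 101) (nat_lit 5) (nat_lit 305) (nat_lit 260) (nat_lit 215)) (XT.lf (nat_lit 0) (nat_lit 2781216946) (nat_lit 380) (nat_lit 4003141070) (nat_lit 456) (nat_lit 3094504989) (nat_lit 95) (nat_lit 5) (nat_lit 100) (nat_lit 5) (nat_lit 101) (nat_lit 5) (nat_lit 306)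 (nat_lit 260) (nat_lit 214))))))) (XT.nd (nat_lit 936) (nat_lit 1368) (nat_lit 0) (XT.nd (nat_lit 468) (nat_lit 988) (nat_lit 0) (XT.nd (nat_lit 234) (nat_lit 760) (nat_lit 0) (XT.nd (nat_lit 78) (nat_lit 456) (nat_lit 0) (XT.lf (nat_lit 0) (nat_lit 8172727001) (nat_lit 380) (nat_lit 1030952125) (nat_lit 456) (nat_lit 841159684) (nat_lit 95) (nat_lit 5) (nat_lit 100) (nat_lit 5) (nat_lit 101) (nat_lit 5) (nat_lit 307) (nat_lit 260) (nat_lit 213)) (XT.nd (nat_lit 78) (nat_lit 0) (nat_lit 0) (XT.lf (nat_lit 0) (nat_lit 1462897876) (nat_lit 456) (nat_lit 6722904707) (nat_lit 76) (nat_lit 2029271969) (nat_lit 89) (nat_lit 5) (nat_lit 95) (nat_lit 5) (nat_lit 90) (nat_lit 5) (nat_lit 308) (nat_lit 260) (nat_lit 212)) (XT.lf (nat_lit 0) (nat_lit 3807417578) (nat_lit 456) (nat_lit 1405349299) (nat_lit 76) (nat_lit 5177818318) (nat_lit 89) (nat_lit 5) (nat_lit 95) (nat_lit 5) (nat_lit 90) (nat_lit 5) (nat_lit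 309) (nat_lit 260) (nat_lit 211)))) (XT.nd (nat_lit 78) (nat_lit 456) (nat_lit 0) (XT.lf (nat_lit 0) (nat_lit 4100750717) (nat_lit 304) (nat_lit 2121084389) (nat_lit 380) (nat_lit 4349602373) (nat_lit 85) (nat_lit 5) (nat_lit 89) (nat_lit 5) (nat_lit 90) (nat_lit 5) (nat_lit 310) (nat_lit 260) (nat_lit 210)) (XT.nd (nat_lit 78) (nat_lit 456) (nat_lit 0) (XT.lf (nat_lit 0) (nat_lit 8693948398) (nat_lit 380) (nat_lit 1018440047) (nat_lit 76) (nat_lit 1045830339) (nat_lit 85) (nat_lit 5) (nat_lit 90) (nat_lit 5) (nat_lit 86) (nat_lit 5) (nat_lit 311) (nat_lit 260) (nat_lit 209)) (XT.lf (nat_lit 0) (nat_lit 311411278) (nat_lit 456) (nat_lit 6336571430) (nat_lit 76) (nat_lit 4301771887) (nat_lit 79) (nat_lit 5) (nat_lit 85) (nat_lit 5) (nat_lit 80) (nat_lit 5) (nat_lit 312) (nat_lit 260) (nat_lit 208))))) (XT.nd (nat_lit 234) (nat_lit 684) (nat_lit 0) (XT.nd (nat_lit 78) (nat_lit 304) (nat_lit 0) (XT.lf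 (nat_lit 0) (nat_lit 2689319761) (nat_lit 456) (nat_lit 783082392) (nat_lit 76) (nat_lit 7674903937) (nat_lit 79) (nat_lit 5) (nat_lit 85) (nat_lit 5) (nat_lit 80) (nat_lit 5) (nat_lit 313) (nat_lit 260) (nat_lit 207)) (XT.nd (nat_lit 78) (nat_lit 0) (nat_lit 0) (XT.lf (nat_lit 0) (nat_lit 4985315702) (nat_lit 304) (nat_lit 164336831) (nat_lit 380) (nat_lit 6200853491) (nat_lit 75) (nat_lit 5) (nat_lit 79) (nat_lit 5) (nat_lit 80) (nat_lit 5) (nat_lit 314) (nat_lit 260) (nat_lit 206)) (XT.lf (nat_lit 0) (nat_lit 7686608472) (nat_lit 380) (nat_lit 697517020) (nat_lit 76) (nat_lit 3175644990) (nat_lit 75) (nat_lit 5) (nat_lit 80) (nat_lit 5) (nat_lit 76) (nat_lit 5) (nat_lit 315) (nat_lit 260) (nat_lit 205)))) (XT.nd (nat_lit 78) (nat_lit 380) (nat_lit 0) (XT.lf (nat_lit 0) (nat_lit 5191793526) (nat_lit 304) (nat_lit 5124125855) (nat_lit 380) (nat_lit 1458957483) (nat_lit 71) (nat_lit 5) (nat_lit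 75) (nat_lit 5) (nat_lit 76) (nat_lit 5) (nat_lit 316) (nat_lit 260) (nat_lit 204)) (XT.nd (nat_lit 78) (nat_lit 304) (nat_lit 0) (XT.lf (nat_lit 0) (nat_lit 979622905) (nat_lit 380) (nat_lit 782443985) (nat_lit 76) (nat_lit 10234961516) (nat_lit 70) (nat_lit 5) (nat_lit 75) (nat_lit 5) (nat_lit 71) (nat_lit 5) (nat_lit 317) (nat_lit 260) (nat_lit 203)) (XT.lf (nat_lit 0) (nat_lit 3495119098) (nat_lit 380) (nat_lit 7008899906) (nat_lit 76) (nat_lit 1720446696) (nat_lit 66) (nat_lit 5) (nat_lit 71) (nat_lit 5) (nat_lit 67) (nat_lit 5) (nat_lit 318) (nat_lit 260) (nat_lit 202)))))) (XT.nd (nat_lit 468) (nat_lit 532) (nat_lit 0) (XT.nd (nat_lit 234) (nat_lit 532) (nat_lit 0) (XT.nd (nat_lit 78) (nat_lit 304) (nat_lit 0) (XT.lf (nat_lit 0) (nat_lit 6077840016) (nat_lit 380) (nat_lit 1113869535) (nat_lit 76) (nat_lit 5267309416) (nat_lit 66) (nat_lit 5) (nat_lit 71) (nat_lit 5) (nat_lit 67) (nat_lit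 5) (nat_lit 319) (nat_lit 260) (nat_lit 201)) (XT.nd (nat_lit 78) (nat_lit 0) (nat_lit 0) (XT.lf (nat_lit 0) (nat_lit 5009739496) (nat_lit 304) (nat_lit 3743774555) (nat_lit 380) (nat_lit 3946674957) (nat_lit 62) (nat_lit 5) (nat_lit 66) (nat_lit 5) (nat_lit 67) (nat_lit 5) (nat_lit 320) (nat_lit 260) (nat_lit 200)) (XT.lf (nat_lit 0) (nat_lit 11294310997) (nat_lit 304) (nat_lit 194223879) (nat_lit 380) (nat_lit 1460730004) (nat_lit 62) (nat_lit 5) (nat_lit 66) (nat_lit 5) (nat_lit 67) (nat_lit 5) (nat_lit 321) (nat_lit 260) (nat_lit 199)))) (XT.nd (nat_lit 78) (nat_lit 228) (nat_lit 0) (XT.lf (nat_lit 0) (nat_lit 1124616393) (nat_lit 304) (nat_lit 8643054995) (nat_lit 76) (nat_lit 3436476523) (nat_lit 58) (nat_lit 5) (nat_lit 62) (nat_lit 5) (nat_lit 59) (nat_lit 5) (nat_lit 322) (nat_lit 260) (nat_lit 198)) (XT.nd (nat_lit 78) (nat_lit 228) (nat_lit 0) (XT.lf (nat_lit 0) (nat_lit 3745743377)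 (nat_lit 304) (nat_lit 2530504863) (nat_lit 76) (nat_lit 7190407306) (nat_lit 58) (nat_lit 5) (nat_lit 62) (nat_lit 5) (nat_lit 59) (nat_lit 5) (nat_lit 323) (nat_lit 260) (nat_lit 197)) (XT.lf (nat_lit 0) (nat_lit 3795481707) (nat_lit 228) (nat_lit 2656195461) (nat_lit 304) (nat_lit 7285214282) (nat_lit 55) (nat_lit 5) (nat_lit 58) (nat_lit 5) (nat_lit 59) (nat_lit 5) (nat_lit 324) (nat_lit 260) (nat_lit 196))))) (XT.nd (nat_lit 234) (nat_lit 228) (nat_lit 0) (XT.nd (nat_lit 78) (nat_lit 304) (nat_lit 0) (XT.lf (nat_lit 0) (nat_lit 9244924835) (nat_lit 304) (nat_lit 3706282014) (nat_lit 76) (nat_lit 1063880624) (nat_lit 55) (nat_lit 5) (nat_lit 59) (nat_lit 5) (nat_lit 56) (nat_lit 5) (nat_lit 325) (nat_lit 260) (nat_lit 195)) (XT.nd (nat_lit 78) (nat_lit 76) (nat_lit 0) (XT.lf (nat_lit 0) (nat_lit 2699191146) (nat_lit 228) (nat_lit 9445917805) (nat_lit 304) (nat_lit 2155862291) (nat_lit 52) (nat_lit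 5) (nat_lit 55) (nat_lit 5) (nat_lit 56) (nat_lit 5) (nat_lit 326) (nat_lit 260) (nat_lit 194)) (XT.lf (nat_lit 0) (nat_lit 535200921) (nat_lit 304) (nat_lit 5270305218) (nat_lit 76) (nat_lit 8789540230) (nat_lit 51) (nat_lit 5) (nat_lit 55) (nat_lit 5) (nat_lit 52) (nat_lit 5) (nat_lit 327) (nat_lit 260) (nat_lit 193)))) (XT.nd (nat_lit 78) (nat_lit 0) (nat_lit 0) (XT.lf (nat_lit 0) (nat_lit 1211398871) (nat_lit 228) (nat_lit 2035768768) (nat_lit 304) (nat_lit 11650663664) (nat_lit 48) (nat_lit 5) (nat_lit 51) (nat_lit 5) (nat_lit 52) (nat_lit 5) (nat_lit 328) (nat_lit 260) (nat_lit 192)) (XT.nd (nat_lit 78) (nat_lit 0) (nat_lit 0) (XT.lf (nat_lit 0) (nat_lit 6084139173) (nat_lit 304) (nat_lit 7273122123) (nat_lit 76) (nat_lit 1851161131) (nat_lit 48) (nat_lit 5) (nat_lit 52) (nat_lit 5) (nat_lit 49) (nat_lit 5) (nat_lit 329) (nat_lit 260) (nat_lit 191)) (XT.lf (nat_lit 0) (nat_lit 8999331377)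 (nat_lit 304) (nat_lit 728662900) (nat_lit 76) (nat_lit 5800574747) (nat_lit 48) (nat_lit 5) (nat_lit 52) (nat_lit 5) (nat_lit 49) (nat_lit 5) (nat_lit 330) (nat_lit 260) (nat_lit 190))))))))
noncomputable def xc110 : XT := (XT.nd (nat_lit 1794) (nat_lit 836) (nat_lit 0) (XT.nd (nat_lit 858) (nat_lit 760) (nat_lit 0) (XT.nd (nat_lit 390) (nat_lit 456) (nat_lit 0) (XT.nd (nat_lit 156) (nat_lit 456) (nat_lit 0) (XT.nd (nat_lit 78) (nat_lit 0) (nat_lit 0) (XT.lf (nat_lit 0) (nat_lit 6091091891) (nat_lit 228) (nat_lit 5943181863) (nat_lit 304) (nat_lit 3823107613) (nat_lit 45) (nat_lit 5) (nat_lit 48) (nat_lit 5) (nat_lit 49) (nat_lit 5) (nat_lit 331) (nat_lit 260) (nat_lit 189)) (XT.lf (nat_lit 0) (nat_lit 13090870004) (nat_lit 228) (nat_lit 2050880577) (nat_lit 304) (nat_lit 1054892215) (nat_lit 45) (nat_lit 5) (nat_lit 48) (nat_lit 5) (nat_lit 49) (nat_lit 5) (nat_lit 332) (nat_lit 260) (nat_lit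 188))) (XT.nd (nat_lit 78) (nat_lit 152) (nat_lit 0) (XT.lf (nat_lit 0) (nat_lit 1791403504) (nat_lit 304) (nat_lit 12792480808) (nat_lit 76) (nat_lit 1960804713) (nat_lit 41) (nat_lit 5) (nat_lit 45) (nat_lit 5) (nat_lit 42) (nat_lit 5) (nat_lit 333) (nat_lit 260) (nat_lit 187)) (XT.nd (nat_lit 78) (nat_lit 152) (nat_lit 0) (XT.lf (nat_lit 0) (nat_lit 4728709266) (nat_lit 304) (nat_lit 6092857844) (nat_lit 76) (nat_lit 6080518308) (nat_lit 41) (nat_lit 5) (nat_lit 45) (nat_lit 5) (nat_lit 42) (nat_lit 5) (nat_lit 334) (nat_lit 260) (nat_lit 186)) (XT.lf (nat_lit 0) (nat_lit 785058289) (nat_lit 152) (nat_lit 6952200023) (nat_lit 228) (nat_lit 9533477701) (nat_lit 39) (nat_lit 5) (nat_lit 41) (nat_lit 5) (nat_lit 42) (nat_lit 5) (nat_lit 335) (nat_lit 260) (nat_lit 185))))) (XT.nd (nat_lit 234) (nat_lit 228) (nat_lit 0) (XT.nd (nat_lit 78) (nat_lit 228) (nat_lit 0) (XT.lf (nat_lit 0) (nat_lit 7956567378)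 (nat_lit 152) (nat_lit 2916949510) (nat_lit 228) (nat_lit 6775830921) (nat_lit 39) (nat_lit 5) (nat_lit 41) (nat_lit 5) (nat_lit 42) (nat_lit 5) (nat_lit 336) (nat_lit 260) (nat_lit 184)) (XT.nd (nat_lit 78) (nat_lit 228) (nat_lit 0) (XT.lf (nat_lit 0) (nat_lit 14092278348) (nat_lit 228) (nat_lit 2745154511) (nat_lit 76) (nat_lit 1202257183) (nat_lit 39) (nat_lit 5) (nat_lit 42) (nat_lit 5) (nat_lit 40) (nat_lit 5) (nat_lit 337) (nat_lit 260) (nat_lit 183)) (XT.lf (nat_lit 0) (nat_lit 4432449622) (nat_lit 228) (nat_lit 13023827208) (nat_lit 304) (nat_lit 984029311) (nat_lit 36) (nat_lit 5) (nat_lit 39) (nat_lit 5) (nat_lit 40) (nat_lit 5) (nat_lit 338) (nat_lit 260) (nat_lit 182)))) (XT.nd (nat_lit 78) (nat_lit 152) (nat_lit 0) (XT.lf (nat_lit 0) (nat_lit 2033152504) (nat_lit 304) (nat_lit 7026794401) (nat_lit 76) (nat_lit 9792262124) (nat_lit 35) (nat_lit 5) (nat_lit 39) (nat_lit 5) (nat_lit 36)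 (nat_lit 5) (nat_lit 339) (nat_lit 260) (nat_lit 181)) (XT.nd (nat_lit 78) (nat_lit 0) (nat_lit 0) (XT.lf (nat_lit 0) (nat_lit 121191142) (nat_lit 152) (nat_lit 4978969772) (nat_lit 228) (nat_lit 14176664930) (nat_lit 33) (nat_lit 5) (nat_lit 35) (nat_lit 5) (nat_lit 36) (nat_lit 5) (nat_lit 340) (nat_lit 260) (nat_lit 180)) (XT.lf (nat_lit 0) (nat_lit 7592872616) (nat_lit 152) (nat_lit 715496599) (nat_lit 228) (nat_lit 11404357428) (nat_lit 33) (nat_lit 5) (nat_lit 35) (nat_lit 5) (nat_lit 36) (nat_lit 5) (nat_lit 341) (nat_lit 260) (nat_lit 179)))))) (XT.nd (nat_lit 468) (nat_lit 380) (nat_lit 0) (XT.nd (nat_lit 234) (nat_lit 228) (nat_lit 0) (XT.nd (nat_lit 78) (nat_lit 152) (nat_lit 0) (XT.lf (nat_lit 0) (nat_lit 11626903867) (nat_lit 228) (nat_lit 4942640641) (nat_lit 76) (nat_lit 3591758104) (nat_lit 33) (nat_lit 5) (nat_lit 36) (nat_lit 5) (nat_lit 34) (nat_lit 5) (nat_lit 342) (nat_lit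 260) (nat_lit 178)) (XT.nd (nat_lit 78) (nat_lit 0) (nat_lit 0) (XT.lf (nat_lit 0) (nat_lit 2457452067) (nat_lit 152) (nat_lit 12597613506) (nat_lit 228) (nat_lit 5567988110) (nat_lit 31) (nat_lit 5) (nat_lit 33) (nat_lit 5) (nat_lit 34) (nat_lit 5) (nat_lit 343) (nat_lit 260) (nat_lit 177)) (XT.lf (nat_lit 0) (nat_lit 10147886687) (nat_lit 152) (nat_lit 8467744792) (nat_lit 228) (nat_lit 2482158397) (nat_lit 31) (nat_lit 5) (nat_lit 33) (nat_lit 5) (nat_lit 34) (nat_lit 5) (nat_lit 344) (nat_lit 260) (nat_lit 176)))) (XT.nd (nat_lit 78) (nat_lit 152) (nat_lit 0) (XT.lf (nat_lit 0) (nat_lit 662686999) (nat_lit 228) (nat_lit 3556861884) (nat_lit 76) (nat_lit 17367635936) (nat_lit 30) (nat_lit 5) (nat_lit 33) (nat_lit 5) (nat_lit 31) (nat_lit 5) (nat_lit 345) (nat_lit 260) (nat_lit 175)) (XT.nd (nat_lit 78) (nat_lit 0) (nat_lit 0) (XT.lf (nat_lit 0) (nat_lit 3873847925) (nat_lit 228) (nat_lit 18010412746)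 (nat_lit 76) (nat_lit 205625621) (nat_lit 28) (nat_lit 5) (nat_lit 31) (nat_lit 5) (nat_lit 29) (nat_lit 5) (nat_lit 346) (nat_lit 260) (nat_lit 174)) (XT.lf (nat_lit 0) (nat_lit 7240152303) (nat_lit 228) (nat_lit 10662570384) (nat_lit 76) (nat_lit 4703199073) (nat_lit 28) (nat_lit 5) (nat_lit 31) (nat_lit 5) (nat_lit 29) (nat_lit 5) (nat_lit 347) (nat_lit 260) (nat_lit 173))))) (XT.nd (nat_lit 234) (nat_lit 228) (nat_lit 0) (XT.nd (nat_lit 78) (nat_lit 152) (nat_lit 0) (XT.lf (nat_lit 0) (nat_lit 10688764226) (nat_lit 228) (nat_lit 3125027692) (nat_lit 76) (nat_lit 9324223531) (nat_lit 28) (nat_lit 5) (nat_lit 31) (nat_lit 5) (nat_lit 29) (nat_lit 5) (nat_lit 348) (nat_lit 260) (nat_lit 172)) (XT.nd (nat_lit 78) (nat_lit 0) (nat_lit 0) (XT.lf (nat_lit 0) (nat_lit 4700525719) (nat_lit 152) (nat_lit 9567355653) (nat_lit 228) (nat_lit 9417395395) (nat_lit 26) (nat_lit 5) (nat_lit 28) (nat_lit 5)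 (nat_lit 29) (nat_lit 5) (nat_lit 349) (nat_lit 260) (nat_lit 171)) (XT.lf (nat_lit 0) (nat_lit 12795358535) (nat_lit 152) (nat_lit 5172676937) (nat_lit 228) (nat_lit 6280526298) (nat_lit 26) (nat_lit 5) (nat_lit 28) (nat_lit 5) (nat_lit 29) (nat_lit 5) (nat_lit 350) (nat_lit 260) (nat_lit 170)))) (XT.nd (nat_lit 78) (nat_lit 228) (nat_lit 0) (XT.lf (nat_lit 0) (nat_lit 21104349733) (nat_lit 152) (nat_lit 657472411) (nat_lit 228) (nat_lit 3067459634) (nat_lit 26) (nat_lit 5) (nat_lit 28) (nat_lit 5) (nat_lit 29) (nat_lit 5) (nat_lit 351) (nat_lit 260) (nat_lit 169)) (XT.nd (nat_lit 78) (nat_lit 0) (nat_lit 0) (XT.lf (nat_lit 0) (nat_lit 300160151) (nat_lit 228) (nat_lit 21177014492) (nat_lit 76) (nat_lit 3948306866) (nat_lit 23) (nat_lit 5) (nat_lit 26) (nat_lit 5) (nat_lit 24) (nat_lit 5) (nat_lit 352) (nat_lit 260) (nat_lit 168)) (XT.lf (nat_lit 0) (nat_lit 3734725857) (nat_lit 228) (nat_lit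 13566606272) (nat_lit 76) (nat_lit 8736510865) (nat_lit 23) (nat_lit 5) (nat_lit 26) (nat_lit 5) (nat_lit 24) (nat_lit 5) (nat_lit 353) (nat_lit 260) (nat_lit 167))))))) (XT.nd (nat_lit 936) (nat_lit 380) (nat_lit 0) (XT.nd (nat_lit 468) (nat_lit 228) (nat_lit 0) (XT.nd (nat_lit 234) (nat_lit 76) (nat_lit 0) (XT.nd (nat_lit 78) (nat_lit 152) (nat_lit 0) (XT.lf (nat_lit 0) (nat_lit 7255895202) (nat_lit 228) (nat_lit 5755400413) (nat_lit 76) (nat_lit 13657786294) (nat_lit 23) (nat_lit 5) (nat_lit 26) (nat_lit 5) (nat_lit 24) (nat_lit 5) (nat_lit 354) (nat_lit 260) (nat_lit 166)) (XT.nd (nat_lit 78) (nat_lit 0) (nat_lit 0) (XT.lf (nat_lit 0) (nat_lit 2308475073) (nat_lit 152) (nat_lit 8580460338) (nat_lit 228) (nat_lit 16430148698) (nat_lit 21) (nat_lit 5) (nat_lit 23) (nat_lit 5) (nat_lit 24) (nat_lit 5) (nat_lit 355) (nat_lit 260) (nat_lit 165)) (XT.lf (nat_lit 0) (nat_lit 10705795574) (nat_lit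 152) (nat_lit 3967545255) (nat_lit 228) (nat_lit 13313987133) (nat_lit 21) (nat_lit 5) (nat_lit 23) (nat_lit 5) (nat_lit 24) (nat_lit 5) (nat_lit 356) (nat_lit 260) (nat_lit 164)))) (XT.nd (nat_lit 78) (nat_lit 76) (nat_lit 0) (XT.lf (nat_lit 0) (nat_lit 18563426753) (nat_lit 228) (nat_lit 9354169365) (nat_lit 76) (nat_lit 758270995) (nat_lit 21) (nat_lit 5) (nat_lit 24) (nat_lit 5) (nat_lit 22) (nat_lit 4) (nat_lit 357) (nat_lit 260) (nat_lit 163)) (XT.nd (nat_lit 78) (nat_lit 76) (nat_lit 0) (XT.lf (nat_lit 0) (nat_lit 22594560393) (nat_lit 228) (nat_lit 1253561252) (nat_lit 76) (nat_lit 5536222512) (nat_lit 21) (nat_lit 5) (nat_lit 24) (nat_lit 5) (nat_lit 22) (nat_lit 4) (nat_lit 358) (nat_lit 260) (nat_lit 162)) (XT.lf (nat_lit 0) (nat_lit 7206126100) (nat_lit 76) (nat_lit 19595269220) (nat_lit 152) (nat_lit 3311048893) (nat_lit 20) (nat_lit 5) (nat_lit 21) (nat_lit 5) (nat_lit 22) (nat_lit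 4) (nat_lit 359) (nat_lit 260) (nat_lit 161))))) (XT.nd (nat_lit 234) (nat_lit 0) (nat_lit 0) (XT.nd (nat_lit 78) (nat_lit 152) (nat_lit 0) (XT.lf (nat_lit 0) (nat_lit 265056601) (nat_lit 152) (nat_lit 14944061780) (nat_lit 76) (nat_lit 15653251967) (nat_lit 19) (nat_lit 5) (nat_lit 21) (nat_lit 5) (nat_lit 20) (nat_lit 5) (nat_lit 360) (nat_lit 260) (nat_lit 160)) (XT.nd (nat_lit 78) (nat_lit 152) (nat_lit 0) (XT.lf (nat_lit 0) (nat_lit 3867851185) (nat_lit 152) (nat_lit 6799618178) (nat_lit 76) (nat_lit 20966773507) (nat_lit 19) (nat_lit 5) (nat_lit 21) (nat_lit 5) (nat_lit 20) (nat_lit 5) (nat_lit 361) (nat_lit 260) (nat_lit 159)) (XT.lf (nat_lit 0) (nat_lit 1597122639) (nat_lit 152) (nat_lit 5983323303) (nat_lit 228) (nat_lit 24848784551) (nat_lit 17) (nat_lit 5) (nat_lit 19) (nat_lit 5) (nat_lit 20) (nat_lit 5) (nat_lit 362) (nat_lit 260) (nat_lit 158)))) (XT.nd (nat_lit 78) (nat_lit 0) (nat_lit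 0) (XT.lf (nat_lit 0) (nat_lit 10362176948) (nat_lit 152) (nat_lit 1097444548) (nat_lit 228) (nat_lit 21786800268) (nat_lit 17) (nat_lit 5) (nat_lit 19) (nat_lit 5) (nat_lit 20) (nat_lit 5) (nat_lit 363) (nat_lit 260) (nat_lit 157)) (XT.nd (nat_lit 78) (nat_lit 0) (nat_lit 0) (XT.lf (nat_lit 0) (nat_lit 15479841430) (nat_lit 228) (nat_lit 14758389758) (nat_lit 76) (nat_lit 3849167327) (nat_lit 17) (nat_lit 5) (nat_lit 20) (nat_lit 5) (nat_lit 18) (nat_lit 4) (nat_lit 364) (nat_lit 260) (nat_lit 156)) (XT.lf (nat_lit 0) (nat_lit 19618760334) (nat_lit 228) (nat_lit 6421584198) (nat_lit 76) (nat_lit 8913326795) (nat_lit 17) (nat_lit 5) (nat_lit 20) (nat_lit 5) (nat_lit 18) (nat_lit 4) (nat_lit 365) (nat_lit 260) (nat_lit 155)))))) (XT.nd (nat_lit 468) (nat_lit 76) (nat_lit 0) (XT.nd (nat_lit 234) (nat_lit 228) (nat_lit 0) (XT.nd (nat_lit 78) (nat_lit 0) (nat_lit 0) (XT.lf (nat_lit 0) (nat_lit 2186675678)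 (nat_lit 76) (nat_lit 21703789418) (nat_lit 152) (nat_lit 11955217929) (nat_lit 16) (nat_lit 5) (nat_lit 17) (nat_lit 5) (nat_lit 18) (nat_lit 4) (nat_lit 366) (nat_lit 260) (nat_lit 154)) (XT.nd (nat_lit 78) (nat_lit 0) (nat_lit 0) (XT.lf (nat_lit 0) (nat_lit 11163708781) (nat_lit 76) (nat_lit 17179214534) (nat_lit 152) (nat_lit 8419962674) (nat_lit 16) (nat_lit 5) (nat_lit 17) (nat_lit 5) (nat_lit 18) (nat_lit 4) (nat_lit 367) (nat_lit 260) (nat_lit 153)) (XT.lf (nat_lit 0) (nat_lit 20389557002) (nat_lit 76) (nat_lit 12527511775) (nat_lit 152) (nat_lit 4790901579) (nat_lit 16) (nat_lit 5) (nat_lit 17) (nat_lit 5) (nat_lit 18) (nat_lit 4) (nat_lit 368) (nat_lit 260) (nat_lit 152)))) (XT.nd (nat_lit 78) (nat_lit 228) (nat_lit 0) (XT.lf (nat_lit 0) (nat_lit 29872281761) (nat_lit 76) (nat_lit 7744616548) (nat_lit 152) (nat_lit 1064863620) (nat_lit 16) (nat_lit 5) (nat_lit 17) (nat_lit 5) (nat_lit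 18) (nat_lit 4) (nat_lit 369) (nat_lit 260) (nat_lit 151)) (XT.nd (nat_lit 78) (nat_lit 152) (nat_lit 0) (XT.lf (nat_lit 0) (nat_lit 2707521967) (nat_lit 152) (nat_lit 91486994) (nat_lit 76) (nat_lit 36885306305) (nat_lit 15) (nat_lit 5) (nat_lit 17) (nat_lit 5) (nat_lit 16) (nat_lit 5) (nat_lit 370) (nat_lit 260) (nat_lit 150)) (XT.lf (nat_lit 0) (nat_lit 6670479385) (nat_lit 228) (nat_lit 31702487588) (nat_lit 76) (nat_lit 2340705593) (nat_lit 13) (nat_lit 5) (nat_lit 16) (nat_lit 5) (nat_lit 14) (nat_lit 4) (nat_lit 371) (nat_lit 260) (nat_lit 149))))) (XT.nd (nat_lit 234) (nat_lit 76) (nat_lit 0) (XT.nd (nat_lit 78) (nat_lit 0) (nat_lit 0) (XT.lf (nat_lit 0) (nat_lit 10770041262) (nat_lit 228) (nat_lit 23431846313) (nat_lit 76) (nat_lit 7571499059) (nat_lit 13) (nat_lit 5) (nat_lit 16) (nat_lit 5) (nat_lit 14) (nat_lit 4) (nat_lit 372) (nat_lit 260) (nat_lit 148)) (XT.nd (nat_lit 78) (nat_lit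 0) (nat_lit 0) (XT.lf (nat_lit 0) (nat_lit 14981978144) (nat_lit 228) (nat_lit 14931584674) (nat_lit 76) (nat_lit 12951654966) (nat_lit 13) (nat_lit 5) (nat_lit 16) (nat_lit 5) (nat_lit 14) (nat_lit 4) (nat_lit 373) (nat_lit 260) (nat_lit 147)) (XT.lf (nat_lit 0) (nat_lit 19309970362) (nat_lit 228) (nat_lit 6194275257) (nat_lit 76) (nat_lit 18485874423) (nat_lit 13) (nat_lit 5) (nat_lit 16) (nat_lit 5) (nat_lit 14) (nat_lit 4) (nat_lit 374) (nat_lit 260) (nat_lit 146)))) (XT.nd (nat_lit 78) (nat_lit 0) (nat_lit 0) (XT.lf (nat_lit 0) (nat_lit 2843197502) (nat_lit 76) (nat_lit 20941932709) (nat_lit 152) (nat_lit 21363126205) (nat_lit 12) (nat_lit 5) (nat_lit 13) (nat_lit 5) (nat_lit 14) (nat_lit 4) (nat_lit 375) (nat_lit 260) (nat_lit 145)) (XT.nd (nat_lit 78) (nat_lit 0) (nat_lit 0) (XT.lf (nat_lit 0) (nat_lit 12261505002) (nat_lit 76) (nat_lit 16185712567) (nat_lit 152) (nat_lit 17892345813) (nat_lit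 12) (nat_lit 5) (nat_lit 13) (nat_lit 5) (nat_lit 14) (nat_lit 4) (nat_lit 376) (nat_lit 260) (nat_lit 144)) (XT.lf (nat_lit 0) (nat_lit 21945598609) (nat_lit 76) (nat_lit 11293979310) (nat_lit 152) (nat_lit 14327325818) (nat_lit 12) (nat_lit 5) (nat_lit 13) (nat_lit 5) (nat_lit 14) (nat_lit 4) (nat_lit 377) (nat_lit 260) (nat_lit 143))))))))
noncomputable def xc111 : XT := (XT.nd (nat_lit 31746) (nat_lit 0) (nat_lit 13452) (XT.nd (nat_lit 936) (nat_lit 152) (nat_lit 0) (XT.nd (nat_lit 468) (nat_lit 76) (nat_lit 0) (XT.nd (nat_lit 234) (nat_lit 76) (nat_lit 0) (XT.nd (nat_lit 78) (nat_lit 76) (nat_lit 0) (XT.lf (nat_lit 0) (nat_lit 31903940151) (nat_lit 76) (nat_lit 6262458606) (nat_lit 152) (nat_lit 10664951154) (nat_lit 12) (nat_lit 5) (nat_lit 13) (nat_lit 5) (nat_lit 14) (nat_lit 4) (nat_lit 378) (nat_lit 260) (nat_lit 142)) (XT.nd (nat_lit 78) (nat_lit 76) (nat_lit 0) (XT.lf (nat_lit 0) (nat_lit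 42145231092) (nat_lit 76) (nat_lit 1086753981) (nat_lit 152) (nat_lit 6902021688) (nat_lit 12) (nat_lit 5) (nat_lit 13) (nat_lit 5) (nat_lit 14) (nat_lit 4) (nat_lit 379) (nat_lit 260) (nat_lit 141)) (XT.lf (nat_lit 0) (nat_lit 1184792211) (nat_lit 76) (nat_lit 47308094796) (nat_lit 76) (nat_lit 2981561808) (nat_lit 11) (nat_lit 4) (nat_lit 12) (nat_lit 5) (nat_lit 12) (nat_lit 4) (nat_lit 380) (nat_lit 260) (nat_lit 140)))) (XT.nd (nat_lit 78) (nat_lit 0) (nat_lit 0) (XT.lf (nat_lit 0) (nat_lit 1119303556) (nat_lit 152) (nat_lit 42092644788) (nat_lit 76) (nat_lit 9640354467) (nat_lit 10) (nat_lit 5) (nat_lit 12) (nat_lit 5) (nat_lit 11) (nat_lit 4) (nat_lit 381) (nat_lit 260) (nat_lit 139)) (XT.nd (nat_lit 78) (nat_lit 0) (nat_lit 0) (XT.lf (nat_lit 0) (nat_lit 5274703789) (nat_lit 152) (nat_lit 33694364860) (nat_lit 76) (nat_lit 15301800540) (nat_lit 10) (nat_lit 5) (nat_lit 12) (nat_lit 5) (nat_lit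 11) (nat_lit 4) (nat_lit 382) (nat_lit 260) (nat_lit 138)) (XT.lf (nat_lit 0) (nat_lit 9546450831) (nat_lit 152) (nat_lit 25058817921) (nat_lit 76) (nat_lit 21126978538) (nat_lit 10) (nat_lit 5) (nat_lit 12) (nat_lit 5) (nat_lit 11) (nat_lit 4) (nat_lit 383) (nat_lit 260) (nat_lit 137))))) (XT.nd (nat_lit 234) (nat_lit 0) (nat_lit 0) (XT.nd (nat_lit 78) (nat_lit 76) (nat_lit 0) (XT.lf (nat_lit 0) (nat_lit 13938277278) (nat_lit 152) (nat_lit 16178458348) (nat_lit 76) (nat_lit 27120978421) (nat_lit 10) (nat_lit 5) (nat_lit 12) (nat_lit 5) (nat_lit 11) (nat_lit 4) (nat_lit 384) (nat_lit 260) (nat_lit 136)) (XT.nd (nat_lit 78) (nat_lit 76) (nat_lit 0) (XT.lf (nat_lit 0) (nat_lit 18454020647) (nat_lit 152) (nat_lit 7045526604) (nat_lit 76) (nat_lit 33289037665) (nat_lit 10) (nat_lit 5) (nat_lit 12) (nat_lit 5) (nat_lit 11) (nat_lit 4) (nat_lit 385) (nat_lit 260) (nat_lit 135)) (XT.lf (nat_lit 0) (nat_lit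 2394686502) (nat_lit 76) (nat_lit 20725959423) (nat_lit 152) (nat_lit 37264878525) (nat_lit 9) (nat_lit 5) (nat_lit 10) (nat_lit 5) (nat_lit 11) (nat_lit 4) (nat_lit 386) (nat_lit 260) (nat_lit 134)))) (XT.nd (nat_lit 78) (nat_lit 0) (nat_lit 0) (XT.lf (nat_lit 0) (nat_lit 12249228561) (nat_lit 76) (nat_lit 15741671574) (nat_lit 152) (nat_lit 34037567818) (nat_lit 9) (nat_lit 5) (nat_lit 10) (nat_lit 5) (nat_lit 11) (nat_lit 4) (nat_lit 387) (nat_lit 260) (nat_lit 133)) (XT.nd (nat_lit 78) (nat_lit 0) (nat_lit 0) (XT.lf (nat_lit 0) (nat_lit 22386490545) (nat_lit 76) (nat_lit 10613474506) (nat_lit 152) (nat_lit 30720958170) (nat_lit 9) (nat_lit 5) (nat_lit 10) (nat_lit 5) (nat_lit 11) (nat_lit 4) (nat_lit 388) (nat_lit 260) (nat_lit 132)) (XT.lf (nat_lit 0) (nat_lit 32815330254) (nat_lit 76) (nat_lit 5336887270) (nat_lit 152) (nat_lit 27312151573) (nat_lit 9) (nat_lit 5) (nat_lit 10) (nat_lit 5)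 (nat_lit 11) (nat_lit 4) (nat_lit 389) (nat_lit 260) (nat_lit 131)))))) (XT.nd (nat_lit 468) (nat_lit 76) (nat_lit 0) (XT.nd (nat_lit 234) (nat_lit 76) (nat_lit 0) (XT.nd (nat_lit 78) (nat_lit 0) (nat_lit 0) (XT.lf (nat_lit 0) (nat_lit 43453050619) (nat_lit 152) (nat_lit 23716359810) (nat_lit 0) (nat_lit 90891818) (nat_lit 9) (nat_lit 5) (nat_lit 11) (nat_lit 4) (nat_lit 9) (nat_lit 4) (nat_lit 390) (nat_lit 260) (nat_lit 130)) (XT.nd (nat_lit 78) (nat_lit 0) (nat_lit 0) (XT.lf (nat_lit 0) (nat_lit 48959022024) (nat_lit 152) (nat_lit 14580516216) (nat_lit 0) (nat_lit 5569195918) (nat_lit 9) (nat_lit 5) (nat_lit 11) (nat_lit 4) (nat_lit 9) (nat_lit 4) (nat_lit 391) (nat_lit 260) (nat_lit 129)) (XT.lf (nat_lit 0) (nat_lit 54623641356) (nat_lit 152) (nat_lit 5182223860) (nat_lit 0) (nat_lit 11206953790) (nat_lit 9) (nat_lit 5) (nat_lit 11) (nat_lit 4) (nat_lit 9) (nat_lit 4) (nat_lit 392) (nat_lit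 260) (nat_lit 128)))) (XT.nd (nat_lit 78) (nat_lit 0) (nat_lit 0) (XT.lf (nat_lit 0) (nat_lit 4576024069) (nat_lit 76) (nat_lit 55919821758) (nat_lit 76) (nat_lit 12477055103) (nat_lit 8) (nat_lit 4) (nat_lit 9) (nat_lit 5) (nat_lit 9) (nat_lit 4) (nat_lit 393) (nat_lit 260) (nat_lit 127)) (XT.nd (nat_lit 78) (nat_lit 0) (nat_lit 0) (XT.lf (nat_lit 0) (nat_lit 14722072703) (nat_lit 76) (nat_lit 51868210290) (nat_lit 76) (nat_lit 8400124132) (nat_lit 8) (nat_lit 4) (nat_lit 9) (nat_lit 5) (nat_lit 9) (nat_lit 4) (nat_lit 394) (nat_lit 260) (nat_lit 126)) (XT.lf (nat_lit 0) (nat_lit 25161651104) (nat_lit 76) (nat_lit 47699820871) (nat_lit 76) (nat_lit 4207152671) (nat_lit 8) (nat_lit 4) (nat_lit 9) (nat_lit 5) (nat_lit 9) (nat_lit 4) (nat_lit 395) (nat_lit 260) (nat_lit 125))))) (XT.nd (nat_lit 30108) (nat_lit 0) (nat_lit 20824) (XT.nd (nat_lit 78) (nat_lit 0) (nat_lit 0) (XT.lf (nat_lit 0) (nat_lit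 103463906) (nat_lit 152) (nat_lit 43306502528) (nat_lit 76) (nat_lit 35799372544) (nat_lit 7) (nat_lit 5) (nat_lit 9) (nat_lit 5) (nat_lit 8) (nat_lit 4) (nat_lit 396) (nat_lit 260) (nat_lit 124)) (XT.nd (nat_lit 78) (nat_lit 0) (nat_lit 0) (XT.lf (nat_lit 0) (nat_lit 4453046996) (nat_lit 152) (nat_lit 34500019788) (nat_lit 76) (nat_lit 42460135467) (nat_lit 7) (nat_lit 5) (nat_lit 9) (nat_lit 5) (nat_lit 8) (nat_lit 4) (nat_lit 397) (nat_lit 260) (nat_lit 123)) (XT.lf (nat_lit 0) (nat_lit 8927493906) (nat_lit 152) (nat_lit 25439388611) (nat_lit 76) (nat_lit 49316470903) (nat_lit 7) (nat_lit 5) (nat_lit 9) (nat_lit 5) (nat_lit 8) (nat_lit 4) (nat_lit 398) (nat_lit 260) (nat_lit 122)))) (XT.nd (nat_lit 78) (nat_lit 228) (nat_lit 0) (XT.lf (nat_lit 0) (nat_lit 1405747885) (nat_lit 0) (nat_lit 1405747885) (nat_lit 76) (nat_lit 411698154) (nat_lit 284) (nat_lit 5) (nat_lit 284) (nat_lit 3) (nat_lit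 285) (nat_lit 0) (nat_lit 261) (nat_lit 261) (nat_lit 258)) (XT.nd (nat_lit 78) (nat_lit 0) (nat_lit 0) (XT.lf (nat_lit 0) (nat_lit 1892514152) (nat_lit 228) (nat_lit 759214262) (nat_lit 228) (nat_lit 3800698574) (nat_lit 281) (nat_lit 3) (nat_lit 284) (nat_lit 3) (nat_lit 284) (nat_lit 5) (nat_lit 262) (nat_lit 261) (nat_lit 257)) (XT.lf (nat_lit 76) (nat_lit 2182475701) (nat_lit 0) (nat_lit 2406016126) (nat_lit 228) (nat_lit 1872829002) (nat_lit 282) (nat_lit 5) (nat_lit 281) (nat_lit 3) (nat_lit 284) (nat_lit 5) (nat_lit 263) (nat_lit 261) (nat_lit 256))))))) (XT.nd (nat_lit 936) (nat_lit 5016) (nat_lit 0) (XT.nd (nat_lit 468) (nat_lit 1520) (nat_lit 0) (XT.nd (nat_lit 234) (nat_lit 608) (nat_lit 0) (XT.nd (nat_lit 78) (nat_lit 0) (nat_lit 0) (XT.lf (nat_lit 0) (nat_lit 780492982) (nat_lit 228) (nat_lit 1307541145) (nat_lit 304) (nat_lit 4385447582) (nat_lit 278) (nat_lit 5) (nat_lit 281) (nat_lit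 3) (nat_lit 282) (nat_lit 5) (nat_lit 264) (nat_lit 261) (nat_lit 255)) (XT.nd (nat_lit 78) (nat_lit 0) (nat_lit 0) (XT.lf (nat_lit 76) (nat_lit 1712839812) (nat_lit 0) (nat_lit 1677791107) (nat_lit 304) (nat_lit 3097715154) (nat_lit 279) (nat_lit 5) (nat_lit 278) (nat_lit 5) (nat_lit 282) (nat_lit 5) (nat_lit 265) (nat_lit 261) (nat_lit 254)) (XT.lf (nat_lit 76) (nat_lit 4796231207) (nat_lit 0) (nat_lit 1196875273) (nat_lit 304) (nat_lit 513459653) (nat_lit 279) (nat_lit 5) (nat_lit 278) (nat_lit 5) (nat_lit 282) (nat_lit 5) (nat_lit 266) (nat_lit 261) (nat_lit 253)))) (XT.nd (nat_lit 78) (nat_lit 304) (nat_lit 0) (XT.lf (nat_lit 76) (nat_lit 1398354556) (nat_lit 0) (nat_lit 623939446) (nat_lit 380) (nat_lit 4505254284) (nat_lit 275) (nat_lit 5) (nat_lit 274) (nat_lit 5) (nat_lit 279) (nat_lit 5) (nat_lit 267) (nat_lit 261) (nat_lit 252)) (XT.nd (nat_lit 78) (nat_lit 380) (nat_lit 0) (XT.lf (nat_lit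 0) (nat_lit 4546075676) (nat_lit 304) (nat_lit 1976290476) (nat_lit 76) (nat_lit 29275678) (nat_lit 275) (nat_lit 5) (nat_lit 279) (nat_lit 5) (nat_lit 276) (nat_lit 5) (nat_lit 268) (nat_lit 261) (nat_lit 251)) (XT.lf (nat_lit 0) (nat_lit 482933612) (nat_lit 380) (nat_lit 5351024056) (nat_lit 76) (nat_lit 744873924) (nat_lit 270) (nat_lit 5) (nat_lit 275) (nat_lit 5) (nat_lit 271) (nat_lit 5) (nat_lit 269) (nat_lit 261) (nat_lit 250))))) (XT.nd (nat_lit 234) (nat_lit 1064) (nat_lit 0) (XT.nd (nat_lit 78) (nat_lit 456) (nat_lit 0) (XT.lf (nat_lit 0) (nat_lit 2934828530) (nat_lit 380) (nat_lit 2115681971) (nat_lit 76) (nat_lit 1558136347) (nat_lit 270) (nat_lit 5) (nat_lit 275) (nat_lit 5) (nat_lit 271) (nat_lit 5) (nat_lit 270) (nat_lit 261) (nat_lit 249)) (XT.nd (nat_lit 78) (nat_lit 76) (nat_lit 0) (XT.lf (nat_lit 0) (nat_lit 1183573984) (nat_lit 380) (nat_lit 4199632871) (nat_lit 456) (nat_lit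 1258730856) (nat_lit 265) (nat_lit 5) (nat_lit 270) (nat_lit 5) (nat_lit 271) (nat_lit 5) (nat_lit 271) (nat_lit 261) (nat_lit 248)) (XT.lf (nat_lit 0) (nat_lit 1138885163) (nat_lit 456) (nat_lit 2120119086) (nat_lit 76) (nat_lit 3419100564) (nat_lit 264) (nat_lit 5) (nat_lit 270) (nat_lit 5) (nat_lit 265) (nat_lit 5) (nat_lit 272) (nat_lit 261) (nat_lit 247)))) (XT.nd (nat_lit 78) (nat_lit 608) (nat_lit 0) (XT.lf (nat_lit 0) (nat_lit 1274677803) (nat_lit 456) (nat_lit 2235733426) (nat_lit 532) (nat_lit 3206999518) (nat_lit 258) (nat_lit 5) (nat_lit 264) (nat_lit 5) (nat_lit 265) (nat_lit 5) (nat_lit 273) (nat_lit 261) (nat_lit 246)) (XT.nd (nat_lit 78) (nat_lit 608) (nat_lit 0) (XT.lf (nat_lit 0) (nat_lit 4759322075) (nat_lit 456) (nat_lit 1132139707) (nat_lit 532) (nat_lit 868521670) (nat_lit 258) (nat_lit 5) (nat_lit 264) (nat_lit 5) (nat_lit 265) (nat_lit 5) (nat_lit 274) (nat_lit 261) (nat_lit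 245)) (XT.lf (nat_lit 0) (nat_lit 1443455462) (nat_lit 608) (nat_lit 5302697702) (nat_lit 76) (nat_lit 59459338) (nat_lit 250) (nat_lit 5) (nat_lit 258) (nat_lit 5) (nat_lit 251) (nat_lit 5) (nat_lit 275) (nat_lit 261) (nat_lit 244)))))) (XT.nd (nat_lit 468) (nat_lit 2812) (nat_lit 0) (XT.nd (nat_lit 234) (nat_lit 1520) (nat_lit 0) (XT.nd (nat_lit 78) (nat_lit 684) (nat_lit 0) (XT.lf (nat_lit 0) (nat_lit 3759394580) (nat_lit 608) (nat_lit 1777397931) (nat_lit 76) (nat_lit 1317216839) (nat_lit 250) (nat_lit 5) (nat_lit 258) (nat_lit 5) (nat_lit 251) (nat_lit 5) (nat_lit 276) (nat_lit 261) (nat_lit 243)) (XT.nd (nat_lit 78) (nat_lit 76) (nat_lit 0) (XT.lf (nat_lit 0) (nat_lit 1833125996) (nat_lit 608) (nat_lit 4252071089) (nat_lit 684) (nat_lit 820661773) (nat_lit 242) (nat_lit 5) (nat_lit 250) (nat_lit 5) (nat_lit 251) (nat_lit 5) (nat_lit 277) (nat_lit 261) (nat_lit 242)) (XT.lf (nat_lit 0) (nat_lit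 1433473506) (nat_lit 684) (nat_lit 1442604010) (nat_lit 76) (nat_lit 4084698070) (nat_lit 241) (nat_lit 5) (nat_lit 250) (nat_lit 5) (nat_lit 242) (nat_lit 5) (nat_lit 278) (nat_lit 261) (nat_lit 241)))) (XT.nd (nat_lit 78) (nat_lit 836) (nat_lit 0) (XT.lf (nat_lit 0) (nat_lit 2276932779) (nat_lit 684) (nat_lit 1409448077) (nat_lit 760) (nat_lit 3332480216) (nat_lit 232) (nat_lit 5) (nat_lit 241) (nat_lit 5) (nat_lit 242) (nat_lit 5) (nat_lit 279) (nat_lit 261) (nat_lit 240)) (XT.nd (nat_lit 78) (nat_lit 836) (nat_lit 0) (XT.lf (nat_lit 0) (nat_lit 5950113160) (nat_lit 760) (nat_lit 999529845) (nat_lit 76) (nat_lit 130937619) (nat_lit 232) (nat_lit 5) (nat_lit 242) (nat_lit 5) (nat_lit 233) (nat_lit 5) (nat_lit 280) (nat_lit 261) (nat_lit 239)) (XT.lf (nat_lit 0) (nat_lit 1085862586) (nat_lit 836) (nat_lit 4315344125) (nat_lit 76) (nat_lit 1743681125) (nat_lit 221) (nat_lit 5) (nat_lit 232) (nat_lit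 5) (nat_lit 222) (nat_lit 5) (nat_lit 281) (nat_lit 261) (nat_lit 238))))) (XT.nd (nat_lit 234) (nat_lit 988) (nat_lit 0) (XT.nd (nat_lit 78) (nat_lit 1824) (nat_lit 0) (XT.lf (nat_lit 0) (nat_lit 3286476867) (nat_lit 836) (nat_lit 485249970) (nat_lit 76) (nat_lit 3441018803) (nat_lit 221) (nat_lit 5) (nat_lit 232) (nat_lit 5) (nat_lit 222) (nat_lit 5) (nat_lit 282) (nat_lit 261) (nat_lit 237)) (XT.nd (nat_lit 78) (nat_lit 988) (nat_lit 0) (XT.lf (nat_lit 0) (nat_lit 3472048024) (nat_lit 836) (nat_lit 2046788827) (nat_lit 912) (nat_lit 1764998108) (nat_lit 210) (nat_lit 5) (nat_lit 221) (nat_lit 5) (nat_lit 222) (nat_lit 5) (nat_lit 283) (nat_lit 261) (nat_lit 236)) (XT.lf (nat_lit 0) (nat_lit 143012518) (nat_lit 912) (nat_lit 248402853) (nat_lit 988) (nat_lit 6967487511) (nat_lit 197) (nat_lit 5) (nat_lit 209) (nat_lit 5) (nat_lit 210) (nat_lit 5) (nat_lit 284) (nat_lit 261) (nat_lit 235)))) (XT.nd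 (nat_lit 78) (nat_lit 988) (nat_lit 0) (XT.lf (nat_lit 0) (nat_lit 2565825574) (nat_lit 988) (nat_lit 3231810323) (nat_lit 76) (nat_lit 1638552693) (nat_lit 197) (nat_lit 5) (nat_lit 210) (nat_lit 5) (nat_lit 198) (nat_lit 5) (nat_lit 285) (nat_lit 261) (nat_lit 234)) (XT.nd (nat_lit 78) (nat_lit 0) (nat_lit 0) (XT.lf (nat_lit 0) (nat_lit 829141597) (nat_lit 988) (nat_lit 3923152594) (nat_lit 1064) (nat_lit 2765242805) (nat_lit 184) (nat_lit 5) (nat_lit 197) (nat_lit 5) (nat_lit 198) (nat_lit 5) (nat_lit 286) (nat_lit 261) (nat_lit 233)) (XT.lf (nat_lit 0) (nat_lit 5022353047) (nat_lit 988) (nat_lit 1952351200) (nat_lit 1064) (nat_lit 627655758) (nat_lit 184) (nat_lit 5) (nat_lit 197) (nat_lit 5) (nat_lit 198) (nat_lit 5) (nat_lit 287) (nat_lit 261) (nat_lit 232))))))))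
noncomputable def xc112 : XT := (XT.nd (nat_lit 1794) (nat_lit 3344) (nat_lit 0) (XT.nd (nat_lit 858) (nat_lit 3040) (nat_lit 0) (XT.nd (nat_lit 390) (nat_lit 1672) (nat_lit 0) (XT.nd (nat_lit 156) (nat_lit 1672) (nat_lit 0) (XT.nd (nat_lit 78) (nat_lit 0) (nat_lit 0) (XT.lf (nat_lit 0) (nat_lit 1498736570) (nat_lit 1140) (nat_lit 6079464994) (nat_lit 76) (nat_lit 112546692) (nat_lit 169) (nat_lit 5) (nat_lit 184) (nat_lit 5) (nat_lit 170) (nat_lit 5) (nat_lit 288) (nat_lit 261) (nat_lit 231)) (XT.lf (nat_lit 0) (nat_lit 3662038556) (nat_lit 1140) (nat_lit 1882590022) (nat_lit 76) (nat_lit 2237533452) (nat_lit 169) (nat_lit 5) (nat_lit 184) (nat_lit 5) (nat_lit 170) (nat_lit 5) (nat_lit 289) (nat_lit 261) (nat_lit 230))) (XT.nd (nat_lit 78) (nat_lit 608) (nat_lit 0) (XT.lf (nat_lit 0) (nat_lit 2432333735) (nat_lit 1064) (nat_lit 3423123815) (nat_lit 1140) (nat_lit 2022032579) (nat_lit 155) (nat_lit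 5) (nat_lit 169) (nat_lit 5) (nat_lit 170) (nat_lit 5) (nat_lit 290) (nat_lit 261) (nat_lit 229)) (XT.nd (nat_lit 78) (nat_lit 532) (nat_lit 0) (XT.lf (nat_lit 0) (nat_lit 97805107) (nat_lit 1140) (nat_lit 1117383446) (nat_lit 76) (nat_lit 6761725017) (nat_lit 154) (nat_lit 5) (nat_lit 169) (nat_lit 5) (nat_lit 155) (nat_lit 5) (nat_lit 291) (nat_lit 261) (nat_lit 228)) (XT.lf (nat_lit 0) (nat_lit 2227322533) (nat_lit 608) (nat_lit 4759483450) (nat_lit 76) (nat_lit 1092428913) (nat_lit 147) (nat_lit 5) (nat_lit 155) (nat_lit 5) (nat_lit 148) (nat_lit 5) (nat_lit 292) (nat_lit 261) (nat_lit 227))))) (XT.nd (nat_lit 234) (nat_lit 532) (nat_lit 0) (XT.nd (nat_lit 78) (nat_lit 1140) (nat_lit 0) (XT.lf (nat_lit 0) (nat_lit 4389272867) (nat_lit 608) (nat_lit 339177287) (nat_lit 76) (nat_lit 3457233413) (nat_lit 147) (nat_lit 5) (nat_lit 155) (nat_lit 5) (nat_lit 148) (nat_lit 5) (nat_lit 293) (nat_lit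 261) (nat_lit 226)) (XT.nd (nat_lit 78) (nat_lit 608) (nat_lit 0) (XT.lf (nat_lit 0) (nat_lit 4242493028) (nat_lit 532) (nat_lit 2361089264) (nat_lit 608) (nat_lit 1692229190) (nat_lit 140) (nat_lit 5) (nat_lit 147) (nat_lit 5) (nat_lit 148) (nat_lit 5) (nat_lit 294) (nat_lit 261) (nat_lit 225)) (XT.lf (nat_lit 0) (nat_lit 422157574) (nat_lit 608) (nat_lit 7901278336) (nat_lit 76) (nat_lit 87084256) (nat_lit 132) (nat_lit 5) (nat_lit 140) (nat_lit 5) (nat_lit 133) (nat_lit 5) (nat_lit 295) (nat_lit 261) (nat_lit 224)))) (XT.nd (nat_lit 78) (nat_lit 532) (nat_lit 0) (XT.lf (nat_lit 0) (nat_lit 2578808393) (nat_lit 608) (nat_lit 3331968598) (nat_lit 76) (nat_lit 2617106540) (nat_lit 132) (nat_lit 5) (nat_lit 140) (nat_lit 5) (nat_lit 133) (nat_lit 5) (nat_lit 296) (nat_lit 261) (nat_lit 223)) (XT.nd (nat_lit 78) (nat_lit 0) (nat_lit 0) (XT.lf (nat_lit 0) (nat_lit 1346563469) (nat_lit 532) (nat_lit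 3416181626) (nat_lit 608) (nat_lit 3887243557) (nat_lit 125) (nat_lit 5) (nat_lit 132) (nat_lit 5) (nat_lit 133) (nat_lit 5) (nat_lit 297) (nat_lit 261) (nat_lit 222)) (XT.lf (nat_lit 0) (nat_lit 6180151040) (nat_lit 532) (nat_lit 816289043) (nat_lit 608) (nat_lit 1779885216) (nat_lit 125) (nat_lit 5) (nat_lit 132) (nat_lit 5) (nat_lit 133) (nat_lit 5) (nat_lit 298) (nat_lit 261) (nat_lit 221)))))) (XT.nd (nat_lit 468) (nat_lit 1596) (nat_lit 0) (XT.nd (nat_lit 234) (nat_lit 456) (nat_lit 0) (XT.nd (nat_lit 78) (nat_lit 456) (nat_lit 0) (XT.lf (nat_lit 0) (nat_lit 374162164) (nat_lit 532) (nat_lit 6686206122) (nat_lit 76) (nat_lit 1846328422) (nat_lit 118) (nat_lit 5) (nat_lit 125) (nat_lit 5) (nat_lit 119) (nat_lit 5) (nat_lit 299) (nat_lit 261) (nat_lit 220)) (XT.nd (nat_lit 78) (nat_lit 456) (nat_lit 0) (XT.lf (nat_lit 0) (nat_lit 2543942469) (nat_lit 532) (nat_lit 1885327983) (nat_lit 76) (nat_lit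 4611661033) (nat_lit 118) (nat_lit 5) (nat_lit 125) (nat_lit 5) (nat_lit 119) (nat_lit 5) (nat_lit 300) (nat_lit 261) (nat_lit 219)) (XT.lf (nat_lit 0) (nat_lit 3066952571) (nat_lit 456) (nat_lit 1695061081) (nat_lit 532) (nat_lit 4417768650) (nat_lit 112) (nat_lit 5) (nat_lit 118) (nat_lit 5) (nat_lit 119) (nat_lit 5) (nat_lit 301) (nat_lit 261) (nat_lit 218)))) (XT.nd (nat_lit 78) (nat_lit 456) (nat_lit 0) (XT.lf (nat_lit 0) (nat_lit 7031132993) (nat_lit 532) (nat_lit 1180084110) (nat_lit 76) (nat_lit 1112128808) (nat_lit 112) (nat_lit 5) (nat_lit 119) (nat_lit 5) (nat_lit 113) (nat_lit 5) (nat_lit 302) (nat_lit 261) (nat_lit 217)) (XT.nd (nat_lit 78) (nat_lit 76) (nat_lit 0) (XT.lf (nat_lit 0) (nat_lit 3908340871) (nat_lit 380) (nat_lit 5470164365) (nat_lit 456) (nat_lit 92485858) (nat_lit 107) (nat_lit 5) (nat_lit 112) (nat_lit 5) (nat_lit 113) (nat_lit 5) (nat_lit 303) (nat_lit 261) (nat_lit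 216)) (XT.lf (nat_lit 0) (nat_lit 2098975082) (nat_lit 456) (nat_lit 522334571) (nat_lit 76) (nat_lit 7002160226) (nat_lit 106) (nat_lit 5) (nat_lit 112) (nat_lit 5) (nat_lit 107) (nat_lit 5) (nat_lit 304) (nat_lit 261) (nat_lit 215))))) (XT.nd (nat_lit 234) (nat_lit 760) (nat_lit 0) (XT.nd (nat_lit 78) (nat_lit 380) (nat_lit 0) (XT.lf (nat_lit 0) (nat_lit 4360372892) (nat_lit 532) (nat_lit 5074409654) (nat_lit 76) (nat_lit 345604708) (nat_lit 100) (nat_lit 5) (nat_lit 107) (nat_lit 5) (nat_lit 101) (nat_lit 5) (nat_lit 305) (nat_lit 261) (nat_lit 214)) (XT.nd (nat_lit 78) (nat_lit 0) (nat_lit 0) (XT.lf (nat_lit 0) (nat_lit 84174251) (nat_lit 380) (nat_lit 6595599174) (nat_lit 456) (nat_lit 3262605020) (nat_lit 95) (nat_lit 5) (nat_lit 100) (nat_lit 5) (nat_lit 101) (nat_lit 5) (nat_lit 306) (nat_lit 261) (nat_lit 213)) (XT.lf (nat_lit 0) (nat_lit 5450585480) (nat_lit 380) (nat_lit 3628214854)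 (nat_lit 456) (nat_lit 1030196756) (nat_lit 95) (nat_lit 5) (nat_lit 100) (nat_lit 5) (nat_lit 101) (nat_lit 5) (nat_lit 307) (nat_lit 261) (nat_lit 212)))) (XT.nd (nat_lit 78) (nat_lit 304) (nat_lit 0) (XT.lf (nat_lit 0) (nat_lit 647472177) (nat_lit 380) (nat_lit 562710077) (nat_lit 456) (nat_lit 9071158174) (nat_lit 89) (nat_lit 5) (nat_lit 94) (nat_lit 5) (nat_lit 95) (nat_lit 5) (nat_lit 308) (nat_lit 261) (nat_lit 211)) (XT.nd (nat_lit 78) (nat_lit 304) (nat_lit 0) (XT.lf (nat_lit 0) (nat_lit 3529659006) (nat_lit 456) (nat_lit 4336028099) (nat_lit 76) (nat_lit 2591946382) (nat_lit 89) (nat_lit 5) (nat_lit 95) (nat_lit 5) (nat_lit 90) (nat_lit 5) (nat_lit 309) (nat_lit 261) (nat_lit 210)) (XT.lf (nat_lit 0) (nat_lit 1086867611) (nat_lit 304) (nat_lit 4809175658) (nat_lit 380) (nat_lit 4743913722) (nat_lit 85) (nat_lit 5) (nat_lit 89) (nat_lit 5) (nat_lit 90) (nat_lit 5) (nat_lit 310) (nat_lit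 261) (nat_lit 209))))))) (XT.nd (nat_lit 936) (nat_lit 1292) (nat_lit 0) (XT.nd (nat_lit 468) (nat_lit 988) (nat_lit 0) (XT.nd (nat_lit 234) (nat_lit 608) (nat_lit 0) (XT.nd (nat_lit 78) (nat_lit 456) (nat_lit 0) (XT.lf (nat_lit 0) (nat_lit 6712303019) (nat_lit 304) (nat_lit 1626861351) (nat_lit 380) (nat_lit 2488473032) (nat_lit 85) (nat_lit 5) (nat_lit 89) (nat_lit 5) (nat_lit 90) (nat_lit 5) (nat_lit 311) (nat_lit 261) (nat_lit 208)) (XT.nd (nat_lit 78) (nat_lit 76) (nat_lit 0) (XT.lf (nat_lit 0) (nat_lit 1449298002) (nat_lit 380) (nat_lit 9399047629) (nat_lit 456) (nat_lit 172877425) (nat_lit 80) (nat_lit 5) (nat_lit 85) (nat_lit 5) (nat_lit 86) (nat_lit 5) (nat_lit 312) (nat_lit 261) (nat_lit 207)) (XT.lf (nat_lit 0) (nat_lit 2190259262) (nat_lit 456) (nat_lit 4040900853) (nat_lit 76) (nat_lit 4988235497) (nat_lit 79) (nat_lit 5) (nat_lit 85) (nat_lit 5) (nat_lit 80) (nat_lit 5) (nat_lit 313)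 (nat_lit 261) (nat_lit 206)))) (XT.nd (nat_lit 78) (nat_lit 304) (nat_lit 0) (XT.lf (nat_lit 0) (nat_lit 1638770162) (nat_lit 304) (nat_lit 2962036078) (nat_lit 380) (nat_lit 6823308951) (nat_lit 75) (nat_lit 5) (nat_lit 79) (nat_lit 5) (nat_lit 80) (nat_lit 5) (nat_lit 314) (nat_lit 261) (nat_lit 205)) (XT.nd (nat_lit 78) (nat_lit 304) (nat_lit 0) (XT.lf (nat_lit 0) (nat_lit 7093485976) (nat_lit 380) (nat_lit 4114461510) (nat_lit 76) (nat_lit 426785757) (nat_lit 75) (nat_lit 5) (nat_lit 80) (nat_lit 5) (nat_lit 76) (nat_lit 5) (nat_lit 315) (nat_lit 261) (nat_lit 204)) (XT.lf (nat_lit 0) (nat_lit 1683394347) (nat_lit 304) (nat_lit 7988800956) (nat_lit 380) (nat_lit 2179186942) (nat_lit 71) (nat_lit 5) (nat_lit 75) (nat_lit 5) (nat_lit 76) (nat_lit 5) (nat_lit 316) (nat_lit 261) (nat_lit 203))))) (XT.nd (nat_lit 234) (nat_lit 608) (nat_lit 0) (XT.nd (nat_lit 78) (nat_lit 304) (nat_lit 0) (XT.lf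 (nat_lit 0) (nat_lit 256655923) (nat_lit 380) (nat_lit 4383550372) (nat_lit 76) (nat_lit 7434062107) (nat_lit 70) (nat_lit 5) (nat_lit 75) (nat_lit 5) (nat_lit 71) (nat_lit 5) (nat_lit 317) (nat_lit 261) (nat_lit 202)) (XT.nd (nat_lit 78) (nat_lit 0) (nat_lit 0) (XT.lf (nat_lit 0) (nat_lit 1537265072) (nat_lit 304) (nat_lit 1166192128) (nat_lit 380) (nat_lit 9600331830) (nat_lit 66) (nat_lit 5) (nat_lit 70) (nat_lit 5) (nat_lit 71) (nat_lit 5) (nat_lit 318) (nat_lit 261) (nat_lit 201)) (XT.lf (nat_lit 0) (nat_lit 5258866887) (nat_lit 380) (nat_lit 4882958466) (nat_lit 76) (nat_lit 2397358113) (nat_lit 66) (nat_lit 5) (nat_lit 71) (nat_lit 5) (nat_lit 67) (nat_lit 5) (nat_lit 319) (nat_lit 261) (nat_lit 200)))) (XT.nd (nat_lit 78) (nat_lit 304) (nat_lit 0) (XT.lf (nat_lit 0) (nat_lit 1143185578) (nat_lit 304) (nat_lit 6738555546) (nat_lit 380) (nat_lit 4900217573) (nat_lit 62) (nat_lit 5) (nat_lit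 66) (nat_lit 5) (nat_lit 67) (nat_lit 5) (nat_lit 320) (nat_lit 261) (nat_lit 199)) (XT.nd (nat_lit 78) (nat_lit 304) (nat_lit 0) (XT.lf (nat_lit 0) (nat_lit 7405958315) (nat_lit 304) (nat_lit 3195417279) (nat_lit 380) (nat_lit 2430141145) (nat_lit 62) (nat_lit 5) (nat_lit 66) (nat_lit 5) (nat_lit 67) (nat_lit 5) (nat_lit 321) (nat_lit 261) (nat_lit 198)) (XT.lf (nat_lit 0) (nat_lit 90580008) (nat_lit 304) (nat_lit 12759875677) (nat_lit 76) (nat_lit 438749297) (nat_lit 58) (nat_lit 5) (nat_lit 62) (nat_lit 5) (nat_lit 59) (nat_lit 5) (nat_lit 322) (nat_lit 261) (nat_lit 197)))))) (XT.nd (nat_lit 468) (nat_lit 760) (nat_lit 0) (XT.nd (nat_lit 234) (nat_lit 304) (nat_lit 0) (XT.nd (nat_lit 78) (nat_lit 228) (nat_lit 0) (XT.lf (nat_lit 0) (nat_lit 2696775221) (nat_lit 304) (nat_lit 6669002188) (nat_lit 76) (nat_lit 4186401995) (nat_lit 58) (nat_lit 5) (nat_lit 62) (nat_lit 5) (nat_lit 59) (nat_lit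 5) (nat_lit 323) (nat_lit 261) (nat_lit 196)) (XT.nd (nat_lit 78) (nat_lit 228) (nat_lit 0) (XT.lf (nat_lit 0) (nat_lit 5351727656) (nat_lit 304) (nat_lit 438124420) (nat_lit 76) (nat_lit 8034110958) (nat_lit 58) (nat_lit 5) (nat_lit 62) (nat_lit 5) (nat_lit 59) (nat_lit 5) (nat_lit 324) (nat_lit 261) (nat_lit 195)) (XT.lf (nat_lit 0) (nat_lit 6056383947) (nat_lit 228) (nat_lit 2059590892) (nat_lit 304) (nat_lit 5987071983) (nat_lit 55) (nat_lit 5) (nat_lit 58) (nat_lit 5) (nat_lit 59) (nat_lit 5) (nat_lit 325) (nat_lit 261) (nat_lit 194)))) (XT.nd (nat_lit 78) (nat_lit 304) (nat_lit 0) (XT.lf (nat_lit 0) (nat_lit 10956494205) (nat_lit 304) (nat_lit 1694666356) (nat_lit 76) (nat_lit 1739577208) (nat_lit 55) (nat_lit 5) (nat_lit 59) (nat_lit 5) (nat_lit 56) (nat_lit 5) (nat_lit 326) (nat_lit 261) (nat_lit 193)) (XT.nd (nat_lit 78) (nat_lit 76) (nat_lit 0) (XT.lf (nat_lit 0) (nat_lit 4882159195)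 (nat_lit 228) (nat_lit 9039956841) (nat_lit 304) (nat_lit 763780768) (nat_lit 52) (nat_lit 5) (nat_lit 55) (nat_lit 5) (nat_lit 56) (nat_lit 5) (nat_lit 327) (nat_lit 261) (nat_lit 192)) (XT.lf (nat_lit 0) (nat_lit 1937985888) (nat_lit 304) (nat_lit 3358421514) (nat_lit 76) (nat_lit 9693263491) (nat_lit 51) (nat_lit 5) (nat_lit 55) (nat_lit 5) (nat_lit 52) (nat_lit 5) (nat_lit 328) (nat_lit 261) (nat_lit 191))))) (XT.nd (nat_lit 234) (nat_lit 304) (nat_lit 0) (XT.nd (nat_lit 78) (nat_lit 228) (nat_lit 0) (XT.lf (nat_lit 0) (nat_lit 3297439650) (nat_lit 228) (nat_lit 1413184753) (nat_lit 304) (nat_lit 10591582918) (nat_lit 48) (nat_lit 5) (nat_lit 51) (nat_lit 5) (nat_lit 52) (nat_lit 5) (nat_lit 329) (nat_lit 261) (nat_lit 190)) (XT.nd (nat_lit 78) (nat_lit 228) (nat_lit 0) (XT.lf (nat_lit 0) (nat_lit 7599297780) (nat_lit 304) (nat_lit 5466377919) (nat_lit 76) (nat_lit 2557488650) (nat_lit 48)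 (nat_lit 5) (nat_lit 52) (nat_lit 5) (nat_lit 49) (nat_lit 5) (nat_lit 330) (nat_lit 261) (nat_lit 189)) (XT.lf (nat_lit 0) (nat_lit 1239625872) (nat_lit 228) (nat_lit 9335421326) (nat_lit 304) (nat_lit 5378719717) (nat_lit 45) (nat_lit 5) (nat_lit 48) (nat_lit 5) (nat_lit 49) (nat_lit 5) (nat_lit 331) (nat_lit 261) (nat_lit 188)))) (XT.nd (nat_lit 78) (nat_lit 304) (nat_lit 0) (XT.lf (nat_lit 0) (nat_lit 8220509633) (nat_lit 228) (nat_lit 5449640824) (nat_lit 304) (nat_lit 2623263105) (nat_lit 45) (nat_lit 5) (nat_lit 48) (nat_lit 5) (nat_lit 49) (nat_lit 5) (nat_lit 332) (nat_lit 261) (nat_lit 187)) (XT.nd (nat_lit 78) (nat_lit 228) (nat_lit 0) (XT.lf (nat_lit 0) (nat_lit 186009297) (nat_lit 304) (nat_lit 1272250926) (nat_lit 76) (nat_lit 15185693900) (nat_lit 44) (nat_lit 5) (nat_lit 48) (nat_lit 5) (nat_lit 45) (nat_lit 5) (nat_lit 333) (nat_lit 261) (nat_lit 186)) (XT.lf (nat_lit 0) (nat_lit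 3084670112) (nat_lit 304) (nat_lit 11246861900) (nat_lit 76) (nat_lit 2670990676) (nat_lit 41) (nat_lit 5) (nat_lit 45) (nat_lit 5) (nat_lit 42) (nat_lit 5) (nat_lit 334) (nat_lit 261) (nat_lit 185))))))))
noncomputable def xc113 : XT := (XT.nd (nat_lit 1794) (nat_lit 760) (nat_lit 0) (XT.nd (nat_lit 858) (nat_lit 760) (nat_lit 0) (XT.nd (nat_lit 390) (nat_lit 304) (nat_lit 0) (XT.nd (nat_lit 156) (nat_lit 304) (nat_lit 0) (XT.nd (nat_lit 78) (nat_lit 152) (nat_lit 0) (XT.lf (nat_lit 0) (nat_lit 6073992392) (nat_lit 304) (nat_lit 4402446169) (nat_lit 76) (nat_lit 6895323976) (nat_lit 41) (nat_lit 5) (nat_lit 45) (nat_lit 5) (nat_lit 42) (nat_lit 5) (nat_lit 335) (nat_lit 261) (nat_lit 184)) (XT.lf (nat_lit 0) (nat_lit 2663442767) (nat_lit 152) (nat_lit 6492133806) (nat_lit 228) (nat_lit 8596450078) (nat_lit 39) (nat_lit 5) (nat_lit 41) (nat_lit 5) (nat_lit 42) (nat_lit 5) (nat_lit 336) (nat_lit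 261) (nat_lit 183))) (XT.nd (nat_lit 78) (nat_lit 304) (nat_lit 0) (XT.lf (nat_lit 0) (nat_lit 9996072875) (nat_lit 152) (nat_lit 2355300502) (nat_lit 228) (nat_lit 5791696184) (nat_lit 39) (nat_lit 5) (nat_lit 41) (nat_lit 5) (nat_lit 42) (nat_lit 5) (nat_lit 337) (nat_lit 261) (nat_lit 182)) (XT.nd (nat_lit 78) (nat_lit 304) (nat_lit 0) (XT.lf (nat_lit 0) (nat_lit 15639212798) (nat_lit 228) (nat_lit 1050492585) (nat_lit 76) (nat_lit 1856276444) (nat_lit 39) (nat_lit 5) (nat_lit 42) (nat_lit 5) (nat_lit 40) (nat_lit 5) (nat_lit 338) (nat_lit 261) (nat_lit 181)) (XT.lf (nat_lit 0) (nat_lit 126656664) (nat_lit 304) (nat_lit 12635349245) (nat_lit 76) (nat_lit 6197082293) (nat_lit 35) (nat_lit 5) (nat_lit 39) (nat_lit 5) (nat_lit 36) (nat_lit 5) (nat_lit 339) (nat_lit 261) (nat_lit 180))))) (XT.nd (nat_lit 234) (nat_lit 152) (nat_lit 0) (XT.nd (nat_lit 78) (nat_lit 152) (nat_lit 0) (XT.lf (nat_lit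 0) (nat_lit 3181942070) (nat_lit 304) (nat_lit 5506530169) (nat_lit 76) (nat_lit 10695594896) (nat_lit 35) (nat_lit 5) (nat_lit 39) (nat_lit 5) (nat_lit 36) (nat_lit 5) (nat_lit 340) (nat_lit 261) (nat_lit 179)) (XT.nd (nat_lit 78) (nat_lit 0) (nat_lit 0) (XT.lf (nat_lit 0) (nat_lit 1838923685) (nat_lit 152) (nat_lit 4486830646) (nat_lit 228) (nat_lit 13496155607) (nat_lit 33) (nat_lit 5) (nat_lit 35) (nat_lit 5) (nat_lit 36) (nat_lit 5) (nat_lit 341) (nat_lit 261) (nat_lit 178)) (XT.lf (nat_lit 0) (nat_lit 9484830453) (nat_lit 152) (nat_lit 114137983) (nat_lit 228) (nat_lit 10672886917) (nat_lit 33) (nat_lit 5) (nat_lit 35) (nat_lit 5) (nat_lit 36) (nat_lit 5) (nat_lit 342) (nat_lit 261) (nat_lit 177)))) (XT.nd (nat_lit 78) (nat_lit 152) (nat_lit 0) (XT.lf (nat_lit 0) (nat_lit 12992541182) (nat_lit 228) (nat_lit 3449718125) (nat_lit 76) (nat_lit 4292394327) (nat_lit 33) (nat_lit 5) (nat_lit 36)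 (nat_lit 5) (nat_lit 34) (nat_lit 5) (nat_lit 343) (nat_lit 261) (nat_lit 176)) (XT.nd (nat_lit 78) (nat_lit 0) (nat_lit 0) (XT.lf (nat_lit 0) (nat_lit 4156287152) (nat_lit 152) (nat_lit 12353265740) (nat_lit 228) (nat_lit 4701152826) (nat_lit 31) (nat_lit 5) (nat_lit 33) (nat_lit 5) (nat_lit 34) (nat_lit 5) (nat_lit 344) (nat_lit 261) (nat_lit 175)) (XT.lf (nat_lit 0) (nat_lit 12030101465) (nat_lit 152) (nat_lit 8117625513) (nat_lit 228) (nat_lit 1552861083) (nat_lit 31) (nat_lit 5) (nat_lit 33) (nat_lit 5) (nat_lit 34) (nat_lit 5) (nat_lit 345) (nat_lit 261) (nat_lit 174)))))) (XT.nd (nat_lit 468) (nat_lit 380) (nat_lit 0) (XT.nd (nat_lit 234) (nat_lit 152) (nat_lit 0) (XT.nd (nat_lit 78) (nat_lit 152) (nat_lit 0) (XT.lf (nat_lit 0) (nat_lit 1638077369) (nat_lit 228) (nat_lit 2111854233) (nat_lit 76) (nat_lit 18455329953) (nat_lit 30) (nat_lit 5) (nat_lit 33) (nat_lit 5) (nat_lit 31) (nat_lit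 5) (nat_lit 346) (nat_lit 261) (nat_lit 173)) (XT.nd (nat_lit 78) (nat_lit 0) (nat_lit 0) (XT.lf (nat_lit 0) (nat_lit 4938222911) (nat_lit 228) (nat_lit 16990813335) (nat_lit 76) (nat_lit 794253774) (nat_lit 28) (nat_lit 5) (nat_lit 31) (nat_lit 5) (nat_lit 29) (nat_lit 5) (nat_lit 347) (nat_lit 261) (nat_lit 172)) (XT.lf (nat_lit 0) (nat_lit 8377900123) (nat_lit 228) (nat_lit 9467970027) (nat_lit 76) (nat_lit 5409789592) (nat_lit 28) (nat_lit 5) (nat_lit 31) (nat_lit 5) (nat_lit 29) (nat_lit 5) (nat_lit 348) (nat_lit 261) (nat_lit 171)))) (XT.nd (nat_lit 78) (nat_lit 152) (nat_lit 0) (XT.lf (nat_lit 0) (nat_lit 11903158464) (nat_lit 228) (nat_lit 1748412048) (nat_lit 76) (nat_lit 10152974070) (nat_lit 28) (nat_lit 5) (nat_lit 31) (nat_lit 5) (nat_lit 29) (nat_lit 5) (nat_lit 349) (nat_lit 261) (nat_lit 170)) (XT.nd (nat_lit 78) (nat_lit 0) (nat_lit 0) (XT.lf (nat_lit 0) (nat_lit 6297492608) (nat_lit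 152) (nat_lit 9280121000) (nat_lit 228) (nat_lit 8790994479) (nat_lit 26) (nat_lit 5) (nat_lit 28) (nat_lit 5) (nat_lit 29) (nat_lit 5) (nat_lit 350) (nat_lit 261) (nat_lit 169)) (XT.lf (nat_lit 0) (nat_lit 14592764065) (nat_lit 152) (nat_lit 4770327806) (nat_lit 228) (nat_lit 5586492789) (nat_lit 26) (nat_lit 5) (nat_lit 28) (nat_lit 5) (nat_lit 29) (nat_lit 5) (nat_lit 351) (nat_lit 261) (nat_lit 168))))) (XT.nd (nat_lit 234) (nat_lit 152) (nat_lit 0) (XT.nd (nat_lit 78) (nat_lit 228) (nat_lit 0) (XT.lf (nat_lit 0) (nat_lit 23109853792) (nat_lit 152) (nat_lit 135905865) (nat_lit 228) (nat_lit 2302736531) (nat_lit 26) (nat_lit 5) (nat_lit 28) (nat_lit 5) (nat_lit 29) (nat_lit 5) (nat_lit 352) (nat_lit 261) (nat_lit 167)) (XT.nd (nat_lit 78) (nat_lit 0) (nat_lit 0) (XT.lf (nat_lit 0) (nat_lit 1143217235) (nat_lit 228) (nat_lit 20415856936) (nat_lit 76) (nat_lit 4603460652) (nat_lit 23) (nat_lit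 5) (nat_lit 26) (nat_lit 5) (nat_lit 24) (nat_lit 5) (nat_lit 353) (nat_lit 261) (nat_lit 166)) (XT.lf (nat_lit 0) (nat_lit 4656527127) (nat_lit 228) (nat_lit 12617810294) (nat_lit 76) (nat_lit 9519678599) (nat_lit 23) (nat_lit 5) (nat_lit 26) (nat_lit 5) (nat_lit 24) (nat_lit 5) (nat_lit 354) (nat_lit 261) (nat_lit 165)))) (XT.nd (nat_lit 78) (nat_lit 152) (nat_lit 0) (XT.lf (nat_lit 0) (nat_lit 8259746325) (nat_lit 228) (nat_lit 4611757410) (nat_lit 76) (nat_lit 14573415425) (nat_lit 23) (nat_lit 5) (nat_lit 26) (nat_lit 5) (nat_lit 24) (nat_lit 5) (nat_lit 355) (nat_lit 261) (nat_lit 164)) (XT.nd (nat_lit 78) (nat_lit 0) (nat_lit 0) (XT.lf (nat_lit 0) (nat_lit 3681129389) (nat_lit 152) (nat_lit 8310279150) (nat_lit 228) (nat_lit 16123342894) (nat_lit 21) (nat_lit 5) (nat_lit 23) (nat_lit 5) (nat_lit 24) (nat_lit 5) (nat_lit 356) (nat_lit 261) (nat_lit 163)) (XT.lf (nat_lit 0) (nat_lit 12292406396)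 (nat_lit 152) (nat_lit 3574343460) (nat_lit 228) (nat_lit 12936989014) (nat_lit 21) (nat_lit 5) (nat_lit 23) (nat_lit 5) (nat_lit 24) (nat_lit 5) (nat_lit 357) (nat_lit 261) (nat_lit 162))))))) (XT.nd (nat_lit 936) (nat_lit 380) (nat_lit 0) (XT.nd (nat_lit 468) (nat_lit 76) (nat_lit 0) (XT.nd (nat_lit 234) (nat_lit 228) (nat_lit 0) (XT.nd (nat_lit 78) (nat_lit 76) (nat_lit 0) (XT.lf (nat_lit 0) (nat_lit 19856380674) (nat_lit 228) (nat_lit 8388462373) (nat_lit 76) (nat_lit 1268623724) (nat_lit 21) (nat_lit 5) (nat_lit 24) (nat_lit 5) (nat_lit 22) (nat_lit 4) (nat_lit 358) (nat_lit 261) (nat_lit 161)) (XT.nd (nat_lit 78) (nat_lit 76) (nat_lit 0) (XT.lf (nat_lit 0) (nat_lit 23987009941) (nat_lit 228) (nat_lit 81136950) (nat_lit 76) (nat_lit 6175711711) (nat_lit 21) (nat_lit 5) (nat_lit 24) (nat_lit 5) (nat_lit 22) (nat_lit 4) (nat_lit 359) (nat_lit 261) (nat_lit 160)) (XT.lf (nat_lit 0) (nat_lit 8620477972)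 (nat_lit 76) (nat_lit 19690275505) (nat_lit 152) (nat_lit 2683343895) (nat_lit 20) (nat_lit 5) (nat_lit 21) (nat_lit 5) (nat_lit 22) (nat_lit 4) (nat_lit 360) (nat_lit 261) (nat_lit 159)))) (XT.nd (nat_lit 78) (nat_lit 152) (nat_lit 0) (XT.lf (nat_lit 0) (nat_lit 965095060) (nat_lit 152) (nat_lit 14214811268) (nat_lit 76) (nat_lit 16587044035) (nat_lit 19) (nat_lit 5) (nat_lit 21) (nat_lit 5) (nat_lit 20) (nat_lit 5) (nat_lit 361) (nat_lit 261) (nat_lit 158)) (XT.nd (nat_lit 78) (nat_lit 152) (nat_lit 0) (XT.lf (nat_lit 0) (nat_lit 4655815615) (nat_lit 152) (nat_lit 5860332583) (nat_lit 76) (nat_lit 22046450994) (nat_lit 19) (nat_lit 5) (nat_lit 21) (nat_lit 5) (nat_lit 20) (nat_lit 5) (nat_lit 362) (nat_lit 261) (nat_lit 157)) (XT.lf (nat_lit 0) (nat_lit 2777101889) (nat_lit 152) (nat_lit 5693997688) (nat_lit 228) (nat_lit 24910612468) (nat_lit 17) (nat_lit 5) (nat_lit 19) (nat_lit 5) (nat_lit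 20) (nat_lit 5) (nat_lit 363) (nat_lit 261) (nat_lit 156))))) (XT.nd (nat_lit 234) (nat_lit 76) (nat_lit 0) (XT.nd (nat_lit 78) (nat_lit 0) (nat_lit 0) (XT.lf (nat_lit 0) (nat_lit 11772135044) (nat_lit 152) (nat_lit 675197676) (nat_lit 228) (nat_lit 21776680374) (nat_lit 17) (nat_lit 5) (nat_lit 19) (nat_lit 5) (nat_lit 20) (nat_lit 5) (nat_lit 364) (nat_lit 261) (nat_lit 155)) (XT.nd (nat_lit 78) (nat_lit 0) (nat_lit 0) (XT.lf (nat_lit 0) (nat_lit 16573652162) (nat_lit 228) (nat_lit 14119084426) (nat_lit 76) (nat_lit 4397931860) (nat_lit 17) (nat_lit 5) (nat_lit 20) (nat_lit 5) (nat_lit 18) (nat_lit 4) (nat_lit 365) (nat_lit 261) (nat_lit 154)) (XT.lf (nat_lit 0) (nat_lit 20818406143) (nat_lit 228) (nat_lit 5563690923) (nat_lit 76) (nat_lit 9601396028) (nat_lit 17) (nat_lit 5) (nat_lit 20) (nat_lit 5) (nat_lit 18) (nat_lit 4) (nat_lit 366) (nat_lit 261) (nat_lit 153)))) (XT.nd (nat_lit 78) (nat_lit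 0) (nat_lit 0) (XT.lf (nat_lit 0) (nat_lit 3292517330) (nat_lit 76) (nat_lit 21917945622) (nat_lit 152) (nat_lit 11692049444) (nat_lit 16) (nat_lit 5) (nat_lit 17) (nat_lit 5) (nat_lit 18) (nat_lit 4) (nat_lit 367) (nat_lit 261) (nat_lit 152)) (XT.nd (nat_lit 78) (nat_lit 0) (nat_lit 0) (XT.lf (nat_lit 0) (nat_lit 12508563133) (nat_lit 76) (nat_lit 17270360407) (nat_lit 152) (nat_lit 8068847940) (nat_lit 16) (nat_lit 5) (nat_lit 17) (nat_lit 5) (nat_lit 18) (nat_lit 4) (nat_lit 368) (nat_lit 261) (nat_lit 151)) (XT.lf (nat_lit 0) (nat_lit 21981770982) (nat_lit 76) (nat_lit 12491462796) (nat_lit 152) (nat_lit 4348498904) (nat_lit 16) (nat_lit 5) (nat_lit 17) (nat_lit 5) (nat_lit 18) (nat_lit 4) (nat_lit 369) (nat_lit 261) (nat_lit 150)))))) (XT.nd (nat_lit 468) (nat_lit 152) (nat_lit 0) (XT.nd (nat_lit 234) (nat_lit 0) (nat_lit 0) (XT.nd (nat_lit 78) (nat_lit 228) (nat_lit 0) (XT.lf (nat_lit 0)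 (nat_lit 31720418438) (nat_lit 76) (nat_lit 7577077052) (nat_lit 152) (nat_lit 527751546) (nat_lit 16) (nat_lit 5) (nat_lit 17) (nat_lit 5) (nat_lit 18) (nat_lit 4) (nat_lit 370) (nat_lit 261) (nat_lit 149)) (XT.nd (nat_lit 78) (nat_lit 0) (nat_lit 0) (XT.lf (nat_lit 0) (nat_lit 857913100) (nat_lit 152) (nat_lit 2480783847) (nat_lit 228) (nat_lit 37519267503) (nat_lit 13) (nat_lit 5) (nat_lit 15) (nat_lit 5) (nat_lit 16) (nat_lit 5) (nat_lit 371) (nat_lit 261) (nat_lit 148)) (XT.lf (nat_lit 0) (nat_lit 7409184500) (nat_lit 228) (nat_lit 31714676009) (nat_lit 76) (nat_lit 2794693837) (nat_lit 13) (nat_lit 5) (nat_lit 16) (nat_lit 5) (nat_lit 14) (nat_lit 4) (nat_lit 372) (nat_lit 261) (nat_lit 147)))) (XT.nd (nat_lit 78) (nat_lit 0) (nat_lit 0) (XT.lf (nat_lit 0) (nat_lit 11616046125) (nat_lit 228) (nat_lit 23223261696) (nat_lit 76) (nat_lit 8171233425) (nat_lit 13) (nat_lit 5) (nat_lit 16) (nat_lit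 5) (nat_lit 14) (nat_lit 4) (nat_lit 373) (nat_lit 261) (nat_lit 146)) (XT.nd (nat_lit 78) (nat_lit 0) (nat_lit 0) (XT.lf (nat_lit 0) (nat_lit 15939110910) (nat_lit 228) (nat_lit 14494541917) (nat_lit 76) (nat_lit 13701941892) (nat_lit 13) (nat_lit 5) (nat_lit 16) (nat_lit 5) (nat_lit 14) (nat_lit 4) (nat_lit 374) (nat_lit 261) (nat_lit 145)) (XT.lf (nat_lit 0) (nat_lit 20382156290) (nat_lit 228) (nat_lit 5520889634) (nat_lit 76) (nat_lit 19391651895) (nat_lit 13) (nat_lit 5) (nat_lit 16) (nat_lit 5) (nat_lit 14) (nat_lit 4) (nat_lit 375) (nat_lit 261) (nat_lit 144))))) (XT.nd (nat_lit 234) (nat_lit 76) (nat_lit 0) (XT.nd (nat_lit 78) (nat_lit 0) (nat_lit 0) (XT.lf (nat_lit 0) (nat_lit 3779283642) (nat_lit 76) (nat_lit 21206109682) (nat_lit 152) (nat_lit 21502380169) (nat_lit 12) (nat_lit 5) (nat_lit 13) (nat_lit 5) (nat_lit 14) (nat_lit 4) (nat_lit 376) (nat_lit 261) (nat_lit 143)) (XT.nd (nat_lit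 78) (nat_lit 0) (nat_lit 0) (XT.lf (nat_lit 0) (nat_lit 13455360070) (nat_lit 76) (nat_lit 16317807238) (nat_lit 152) (nat_lit 17942087234) (nat_lit 12) (nat_lit 5) (nat_lit 13) (nat_lit 5) (nat_lit 14) (nat_lit 4) (nat_lit 377) (nat_lit 261) (nat_lit 142)) (XT.lf (nat_lit 0) (nat_lit 23405917943) (nat_lit 76) (nat_lit 11289617420) (nat_lit 152) (nat_lit 14284301948) (nat_lit 12) (nat_lit 5) (nat_lit 13) (nat_lit 5) (nat_lit 14) (nat_lit 4) (nat_lit 378) (nat_lit 261) (nat_lit 141)))) (XT.nd (nat_lit 78) (nat_lit 76) (nat_lit 0) (XT.lf (nat_lit 0) (nat_lit 33639651924) (nat_lit 76) (nat_lit 6117146666) (nat_lit 152) (nat_lit 10525828190) (nat_lit 12) (nat_lit 5) (nat_lit 13) (nat_lit 5) (nat_lit 14) (nat_lit 4) (nat_lit 379) (nat_lit 261) (nat_lit 140)) (XT.nd (nat_lit 78) (nat_lit 76) (nat_lit 0) (XT.lf (nat_lit 0) (nat_lit 44165504111) (nat_lit 76) (nat_lit 795875341) (nat_lit 152) (nat_lit 6663381855)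 (nat_lit 12) (nat_lit 5) (nat_lit 13) (nat_lit 5) (nat_lit 14) (nat_lit 4) (nat_lit 380) (nat_lit 261) (nat_lit 139)) (XT.lf (nat_lit 0) (nat_lit 1978897710) (nat_lit 76) (nat_lit 48398926236) (nat_lit 76) (nat_lit 2627669733) (nat_lit 11) (nat_lit 4) (nat_lit 12) (nat_lit 5) (nat_lit 12) (nat_lit 4) (nat_lit 381) (nat_lit 261) (nat_lit 138))))))))
noncomputable def xc114 : XT := (XT.nd (nat_lit 31746) (nat_lit 0) (nat_lit 11172) (XT.nd (nat_lit 858) (nat_lit 152) (nat_lit 0) (XT.nd (nat_lit 390) (nat_lit 76) (nat_lit 0) (XT.nd (nat_lit 156) (nat_lit 0) (nat_lit 0) (XT.nd (nat_lit 78) (nat_lit 0) (nat_lit 0) (XT.lf (nat_lit 0) (nat_lit 1574909643) (nat_lit 152) (nat_lit 42610289483) (nat_lit 76) (nat_lit 10239744178) (nat_lit 10) (nat_lit 5) (nat_lit 12) (nat_lit 5) (nat_lit 11) (nat_lit 4) (nat_lit 382) (nat_lit 261) (nat_lit 137)) (XT.lf (nat_lit 0) (nat_lit 5842679835) (nat_lit 152) (nat_lit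 33981764108) (nat_lit 76) (nat_lit 16061999291) (nat_lit 10) (nat_lit 5) (nat_lit 12) (nat_lit 5) (nat_lit 11) (nat_lit 4) (nat_lit 383) (nat_lit 261) (nat_lit 136))) (XT.nd (nat_lit 78) (nat_lit 0) (nat_lit 0) (XT.lf (nat_lit 0) (nat_lit 10230645261) (nat_lit 152) (nat_lit 25108221587) (nat_lit 76) (nat_lit 22053161422) (nat_lit 10) (nat_lit 5) (nat_lit 12) (nat_lit 5) (nat_lit 11) (nat_lit 4) (nat_lit 384) (nat_lit 261) (nat_lit 135)) (XT.nd (nat_lit 78) (nat_lit 0) (nat_lit 0) (XT.lf (nat_lit 0) (nat_lit 14742640067) (nat_lit 152) (nat_lit 15981908340) (nat_lit 76) (nat_lit 28218465568) (nat_lit 10) (nat_lit 5) (nat_lit 12) (nat_lit 5) (nat_lit 11) (nat_lit 4) (nat_lit 385) (nat_lit 261) (nat_lit 134)) (XT.lf (nat_lit 0) (nat_lit 19382606772) (nat_lit 152) (nat_lit 6594849917) (nat_lit 76) (nat_lit 34563298886) (nat_lit 10) (nat_lit 5) (nat_lit 12) (nat_lit 5) (nat_lit 11) (nat_lit 4) (nat_lit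 386) (nat_lit 261) (nat_lit 133))))) (XT.nd (nat_lit 234) (nat_lit 0) (nat_lit 0) (XT.nd (nat_lit 78) (nat_lit 0) (nat_lit 0) (XT.lf (nat_lit 0) (nat_lit 3122078969) (nat_lit 76) (nat_lit 21062532080) (nat_lit 152) (nat_lit 38001137771) (nat_lit 9) (nat_lit 5) (nat_lit 10) (nat_lit 5) (nat_lit 11) (nat_lit 4) (nat_lit 387) (nat_lit 261) (nat_lit 132)) (XT.nd (nat_lit 78) (nat_lit 0) (nat_lit 0) (XT.lf (nat_lit 0) (nat_lit 13253163546) (nat_lit 76) (nat_lit 15937022570) (nat_lit 152) (nat_lit 34688124842) (nat_lit 9) (nat_lit 5) (nat_lit 10) (nat_lit 5) (nat_lit 11) (nat_lit 4) (nat_lit 388) (nat_lit 261) (nat_lit 131)) (XT.lf (nat_lit 0) (nat_lit 23676005774) (nat_lit 76) (nat_lit 10663044614) (nat_lit 152) (nat_lit 31282810206) (nat_lit 9) (nat_lit 5) (nat_lit 10) (nat_lit 5) (nat_lit 11) (nat_lit 4) (nat_lit 389) (nat_lit 261) (nat_lit 130)))) (XT.nd (nat_lit 78) (nat_lit 0) (nat_lit 0) (XT.lf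 (nat_lit 0) (nat_lit 34399712989) (nat_lit 76) (nat_lit 5235989881) (nat_lit 152) (nat_lit 27782218345) (nat_lit 9) (nat_lit 5) (nat_lit 10) (nat_lit 5) (nat_lit 11) (nat_lit 4) (nat_lit 390) (nat_lit 261) (nat_lit 129)) (XT.nd (nat_lit 78) (nat_lit 0) (nat_lit 0) (XT.lf (nat_lit 0) (nat_lit 45088125391) (nat_lit 152) (nat_lit 23837760457) (nat_lit 0) (nat_lit 342075736) (nat_lit 9) (nat_lit 5) (nat_lit 11) (nat_lit 4) (nat_lit 9) (nat_lit 4) (nat_lit 391) (nat_lit 261) (nat_lit 128)) (XT.lf (nat_lit 0) (nat_lit 50749621086) (nat_lit 152) (nat_lit 14445028647) (nat_lit 0) (nat_lit 5977492343) (nat_lit 9) (nat_lit 5) (nat_lit 11) (nat_lit 4) (nat_lit 9) (nat_lit 4) (nat_lit 392) (nat_lit 261) (nat_lit 127)))))) (XT.nd (nat_lit 30420) (nat_lit 0) (nat_lit 20292) (XT.nd (nat_lit 234) (nat_lit 76) (nat_lit 0) (XT.nd (nat_lit 78) (nat_lit 76) (nat_lit 0) (XT.lf (nat_lit 0) (nat_lit 56574805355) (nat_lit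 152) (nat_lit 4781474017) (nat_lit 0) (nat_lit 11777357110) (nat_lit 9) (nat_lit 5) (nat_lit 11) (nat_lit 4) (nat_lit 9) (nat_lit 4) (nat_lit 393) (nat_lit 261) (nat_lit 126)) (XT.nd (nat_lit 78) (nat_lit 0) (nat_lit 0) (XT.lf (nat_lit 0) (nat_lit 5264068247) (nat_lit 76) (nat_lit 57355301364) (nat_lit 76) (nat_lit 12533271077) (nat_lit 8) (nat_lit 4) (nat_lit 9) (nat_lit 5) (nat_lit 9) (nat_lit 4) (nat_lit 394) (nat_lit 261) (nat_lit 125)) (XT.lf (nat_lit 0) (nat_lit 15698456685) (nat_lit 76) (nat_lit 53189193447) (nat_lit 76) (nat_lit 8343297099) (nat_lit 8) (nat_lit 4) (nat_lit 9) (nat_lit 5) (nat_lit 9) (nat_lit 4) (nat_lit 395) (nat_lit 261) (nat_lit 124)))) (XT.nd (nat_lit 78) (nat_lit 76) (nat_lit 0) (XT.lf (nat_lit 0) (nat_lit 26435648017) (nat_lit 76) (nat_lit 48902598845) (nat_lit 76) (nat_lit 4033531565) (nat_lit 8) (nat_lit 4) (nat_lit 9) (nat_lit 5) (nat_lit 9) (nat_lit 4) (nat_lit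 396) (nat_lit 261) (nat_lit 123)) (XT.nd (nat_lit 78) (nat_lit 0) (nat_lit 0) (XT.lf (nat_lit 0) (nat_lit 391989971) (nat_lit 152) (nat_lit 44095823688) (nat_lit 76) (nat_lit 37089075952) (nat_lit 7) (nat_lit 5) (nat_lit 9) (nat_lit 5) (nat_lit 8) (nat_lit 4) (nat_lit 397) (nat_lit 261) (nat_lit 122)) (XT.lf (nat_lit 0) (nat_lit 4863747287) (nat_lit 152) (nat_lit 35039997162) (nat_lit 76) (nat_lit 43943378591) (nat_lit 7) (nat_lit 5) (nat_lit 9) (nat_lit 5) (nat_lit 8) (nat_lit 4) (nat_lit 398) (nat_lit 261) (nat_lit 121))))) (XT.nd (nat_lit 234) (nat_lit 304) (nat_lit 0) (XT.nd (nat_lit 78) (nat_lit 228) (nat_lit 0) (XT.lf (nat_lit 0) (nat_lit 2270109642) (nat_lit 228) (nat_lit 479939230) (nat_lit 228) (nat_lit 479939230) (nat_lit 281) (nat_lit 3) (nat_lit 284) (nat_lit 3) (nat_lit 284) (nat_lit 5) (nat_lit 262) (nat_lit 262) (nat_lit 256)) (XT.nd (nat_lit 78) (nat_lit 0) (nat_lit 0) (XT.lf (nat_lit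 0) (nat_lit 698812757) (nat_lit 228) (nat_lit 4526345172) (nat_lit 304) (nat_lit 1245269925) (nat_lit 278) (nat_lit 5) (nat_lit 281) (nat_lit 3) (nat_lit 282) (nat_lit 5) (nat_lit 263) (nat_lit 262) (nat_lit 255)) (XT.lf (nat_lit 0) (nat_lit 3265536609) (nat_lit 228) (nat_lit 1600109463) (nat_lit 304) (nat_lit 1618071982) (nat_lit 278) (nat_lit 5) (nat_lit 281) (nat_lit 3) (nat_lit 282) (nat_lit 5) (nat_lit 264) (nat_lit 262) (nat_lit 254)))) (XT.nd (nat_lit 78) (nat_lit 304) (nat_lit 0) (XT.lf (nat_lit 76) (nat_lit 1387648661) (nat_lit 0) (nat_lit 4436305294) (nat_lit 304) (nat_lit 676343021) (nat_lit 279) (nat_lit 5) (nat_lit 278) (nat_lit 5) (nat_lit 282) (nat_lit 5) (nat_lit 265) (nat_lit 262) (nat_lit 253)) (XT.nd (nat_lit 78) (nat_lit 0) (nat_lit 0) (XT.lf (nat_lit 0) (nat_lit 1822628136) (nat_lit 304) (nat_lit 2092946523) (nat_lit 380) (nat_lit 2603987387) (nat_lit 274) (nat_lit 5) (nat_lit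 278) (nat_lit 5) (nat_lit 279) (nat_lit 5) (nat_lit 266) (nat_lit 262) (nat_lit 252)) (XT.lf (nat_lit 76) (nat_lit 976230776) (nat_lit 0) (nat_lit 3321419393) (nat_lit 380) (nat_lit 2244416440) (nat_lit 275) (nat_lit 5) (nat_lit 274) (nat_lit 5) (nat_lit 279) (nat_lit 5) (nat_lit 267) (nat_lit 262) (nat_lit 251))))))) (XT.nd (nat_lit 936) (nat_lit 5928) (nat_lit 0) (XT.nd (nat_lit 468) (nat_lit 1976) (nat_lit 0) (XT.nd (nat_lit 234) (nat_lit 836) (nat_lit 0) (XT.nd (nat_lit 78) (nat_lit 0) (nat_lit 0) (XT.lf (nat_lit 0) (nat_lit 203861357) (nat_lit 380) (nat_lit 2442236474) (nat_lit 456) (nat_lit 3921522133) (nat_lit 269) (nat_lit 5) (nat_lit 274) (nat_lit 5) (nat_lit 275) (nat_lit 5) (nat_lit 268) (nat_lit 262) (nat_lit 250)) (XT.nd (nat_lit 78) (nat_lit 0) (nat_lit 0) (XT.lf (nat_lit 76) (nat_lit 713278177) (nat_lit 0) (nat_lit 1883120682) (nat_lit 456) (nat_lit 3999673758) (nat_lit 270) (nat_lit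 5) (nat_lit 269) (nat_lit 5) (nat_lit 275) (nat_lit 5) (nat_lit 269) (nat_lit 262) (nat_lit 249)) (XT.lf (nat_lit 76) (nat_lit 3960556759) (nat_lit 0) (nat_lit 1036022429) (nat_lit 456) (nat_lit 1630992609) (nat_lit 270) (nat_lit 5) (nat_lit 269) (nat_lit 5) (nat_lit 275) (nat_lit 5) (nat_lit 270) (nat_lit 262) (nat_lit 248)))) (XT.nd (nat_lit 78) (nat_lit 380) (nat_lit 0) (XT.lf (nat_lit 76) (nat_lit 595673685) (nat_lit 0) (nat_lit 115701259) (nat_lit 532) (nat_lit 5951109062) (nat_lit 264) (nat_lit 5) (nat_lit 263) (nat_lit 5) (nat_lit 270) (nat_lit 5) (nat_lit 271) (nat_lit 262) (nat_lit 247)) (XT.nd (nat_lit 78) (nat_lit 456) (nat_lit 0) (XT.lf (nat_lit 0) (nat_lit 3041458188) (nat_lit 456) (nat_lit 2767142325) (nat_lit 76) (nat_lit 891097960) (nat_lit 264) (nat_lit 5) (nat_lit 270) (nat_lit 5) (nat_lit 265) (nat_lit 5) (nat_lit 272) (nat_lit 262) (nat_lit 246)) (XT.lf (nat_lit 0) (nat_lit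 587458869) (nat_lit 456) (nat_lit 4778280374) (nat_lit 532) (nat_lit 1374800226) (nat_lit 258) (nat_lit 5) (nat_lit 264) (nat_lit 5) (nat_lit 265) (nat_lit 5) (nat_lit 273) (nat_lit 262) (nat_lit 245))))) (XT.nd (nat_lit 234) (nat_lit 1368) (nat_lit 0) (XT.nd (nat_lit 78) (nat_lit 532) (nat_lit 0) (XT.lf (nat_lit 0) (nat_lit 904657238) (nat_lit 532) (nat_lit 2747706790) (nat_lit 76) (nat_lit 3131787665) (nat_lit 257) (nat_lit 5) (nat_lit 264) (nat_lit 5) (nat_lit 258) (nat_lit 5) (nat_lit 274) (nat_lit 262) (nat_lit 244)) (XT.nd (nat_lit 78) (nat_lit 0) (nat_lit 0) (XT.lf (nat_lit 0) (nat_lit 705921891) (nat_lit 532) (nat_lit 2446470371) (nat_lit 608) (nat_lit 3678664565) (nat_lit 250) (nat_lit 5) (nat_lit 257) (nat_lit 5) (nat_lit 258) (nat_lit 5) (nat_lit 275) (nat_lit 262) (nat_lit 243)) (XT.lf (nat_lit 0) (nat_lit 4265945284) (nat_lit 532) (nat_lit 1151894592) (nat_lit 608) (nat_lit 1463233129)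 (nat_lit 250) (nat_lit 5) (nat_lit 257) (nat_lit 5) (nat_lit 258) (nat_lit 5) (nat_lit 276) (nat_lit 262) (nat_lit 242)))) (XT.nd (nat_lit 78) (nat_lit 684) (nat_lit 0) (XT.lf (nat_lit 0) (nat_lit 737861743) (nat_lit 684) (nat_lit 5979397457) (nat_lit 76) (nat_lit 217239243) (nat_lit 241) (nat_lit 5) (nat_lit 250) (nat_lit 5) (nat_lit 242) (nat_lit 5) (nat_lit 277) (nat_lit 262) (nat_lit 241)) (XT.nd (nat_lit 78) (nat_lit 684) (nat_lit 0) (XT.lf (nat_lit 0) (nat_lit 2939409177) (nat_lit 684) (nat_lit 2384645841) (nat_lit 76) (nat_lit 1666316414) (nat_lit 241) (nat_lit 5) (nat_lit 250) (nat_lit 5) (nat_lit 242) (nat_lit 5) (nat_lit 278) (nat_lit 262) (nat_lit 240)) (XT.lf (nat_lit 0) (nat_lit 1288923429) (nat_lit 684) (nat_lit 3858387226) (nat_lit 760) (nat_lit 1902589363) (nat_lit 232) (nat_lit 5) (nat_lit 241) (nat_lit 5) (nat_lit 242) (nat_lit 5) (nat_lit 279) (nat_lit 262) (nat_lit 239))))))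 (XT.nd (nat_lit 468) (nat_lit 3268) (nat_lit 0) (XT.nd (nat_lit 234) (nat_lit 1824) (nat_lit 0) (XT.nd (nat_lit 78) (nat_lit 760) (nat_lit 0) (XT.lf (nat_lit 0) (nat_lit 257123527) (nat_lit 760) (nat_lit 2047373575) (nat_lit 76) (nat_lit 4808217421) (nat_lit 231) (nat_lit 5) (nat_lit 241) (nat_lit 5) (nat_lit 232) (nat_lit 5) (nat_lit 280) (nat_lit 262) (nat_lit 238)) (XT.nd (nat_lit 78) (nat_lit 0) (nat_lit 0) (XT.lf (nat_lit 0) (nat_lit 1739101565) (nat_lit 760) (nat_lit 651706243) (nat_lit 836) (nat_lit 4787790551) (nat_lit 221) (nat_lit 5) (nat_lit 231) (nat_lit 5) (nat_lit 232) (nat_lit 5) (nat_lit 281) (nat_lit 262) (nat_lit 237)) (XT.lf (nat_lit 0) (nat_lit 4551833267) (nat_lit 836) (nat_lit 1630453876) (nat_lit 76) (nat_lit 1065439246) (nat_lit 221) (nat_lit 5) (nat_lit 232) (nat_lit 5) (nat_lit 222) (nat_lit 5) (nat_lit 282) (nat_lit 262) (nat_lit 236)))) (XT.nd (nat_lit 78) (nat_lit 988)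 (nat_lit 0) (XT.lf (nat_lit 0) (nat_lit 2277004281) (nat_lit 836) (nat_lit 4463347862) (nat_lit 912) (nat_lit 579858953) (nat_lit 210) (nat_lit 5) (nat_lit 221) (nat_lit 5) (nat_lit 222) (nat_lit 5) (nat_lit 283) (nat_lit 262) (nat_lit 235)) (XT.nd (nat_lit 78) (nat_lit 912) (nat_lit 0) (XT.lf (nat_lit 0) (nat_lit 1519999958) (nat_lit 912) (nat_lit 1129564042) (nat_lit 76) (nat_lit 4746451653) (nat_lit 209) (nat_lit 5) (nat_lit 221) (nat_lit 5) (nat_lit 210) (nat_lit 5) (nat_lit 284) (nat_lit 262) (nat_lit 234)) (XT.lf (nat_lit 0) (nat_lit 2899158076) (nat_lit 912) (nat_lit 736737025) (nat_lit 988) (nat_lit 3839235067) (nat_lit 197) (nat_lit 5) (nat_lit 209) (nat_lit 5) (nat_lit 210) (nat_lit 5) (nat_lit 285) (nat_lit 262) (nat_lit 233))))) (XT.nd (nat_lit 234) (nat_lit 1140) (nat_lit 0) (XT.nd (nat_lit 78) (nat_lit 2128) (nat_lit 0) (XT.lf (nat_lit 0) (nat_lit 5776892318) (nat_lit 988) (nat_lit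 551077724) (nat_lit 76) (nat_lit 1229943890) (nat_lit 197) (nat_lit 5) (nat_lit 210) (nat_lit 5) (nat_lit 198) (nat_lit 5) (nat_lit 286) (nat_lit 262) (nat_lit 232)) (XT.nd (nat_lit 78) (nat_lit 1064) (nat_lit 0) (XT.lf (nat_lit 0) (nat_lit 313998761) (nat_lit 1064) (nat_lit 4042469752) (nat_lit 76) (nat_lit 3287300996) (nat_lit 183) (nat_lit 5) (nat_lit 197) (nat_lit 5) (nat_lit 184) (nat_lit 5) (nat_lit 287) (nat_lit 262) (nat_lit 231)) (XT.lf (nat_lit 0) (nat_lit 87602975) (nat_lit 1064) (nat_lit 2295505071) (nat_lit 1140) (nat_lit 5350284943) (nat_lit 169) (nat_lit 5) (nat_lit 183) (nat_lit 5) (nat_lit 184) (nat_lit 5) (nat_lit 288) (nat_lit 262) (nat_lit 230)))) (XT.nd (nat_lit 78) (nat_lit 1140) (nat_lit 0) (XT.lf (nat_lit 0) (nat_lit 4371044456) (nat_lit 1064) (nat_lit 125857810) (nat_lit 1140) (nat_lit 3329453005) (nat_lit 169) (nat_lit 5) (nat_lit 183) (nat_lit 5) (nat_lit 184) (nat_lit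 5) (nat_lit 289) (nat_lit 262) (nat_lit 229)) (XT.nd (nat_lit 78) (nat_lit 76) (nat_lit 0) (XT.lf (nat_lit 0) (nat_lit 802562037) (nat_lit 1064) (nat_lit 5843065770) (nat_lit 1140) (nat_lit 1277457802) (nat_lit 155) (nat_lit 5) (nat_lit 169) (nat_lit 5) (nat_lit 170) (nat_lit 5) (nat_lit 290) (nat_lit 262) (nat_lit 228)) (XT.lf (nat_lit 0) (nat_lit 800263283) (nat_lit 1140) (nat_lit 2826713497) (nat_lit 76) (nat_lit 4396203072) (nat_lit 154) (nat_lit 5) (nat_lit 169) (nat_lit 5) (nat_lit 155) (nat_lit 5) (nat_lit 291) (nat_lit 262) (nat_lit 227))))))))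
noncomputable def xc115 : XT := (XT.nd (nat_lit 1794) (nat_lit 3040) (nat_lit 0) (XT.nd (nat_lit 858) (nat_lit 2508) (nat_lit 0) (XT.nd (nat_lit 390) (nat_lit 1520) (nat_lit 0) (XT.nd (nat_lit 156) (nat_lit 1140) (nat_lit 0) (XT.nd (nat_lit 78) (nat_lit 0) (nat_lit 0) (XT.lf (nat_lit 0) (nat_lit 1560891000) (nat_lit 532) (nat_lit 1314382585) (nat_lit 608) (nat_lit 5251919028) (nat_lit 147) (nat_lit 5) (nat_lit 154) (nat_lit 5) (nat_lit 155) (nat_lit 5) (nat_lit 292) (nat_lit 262) (nat_lit 226)) (XT.lf (nat_lit 0) (nat_lit 4998342543) (nat_lit 608) (nat_lit 2159977231) (nat_lit 76) (nat_lit 1076542534) (nat_lit 147) (nat_lit 5) (nat_lit 155) (nat_lit 5) (nat_lit 148) (nat_lit 5) (nat_lit 293) (nat_lit 262) (nat_lit 225))) (XT.nd (nat_lit 78) (nat_lit 608) (nat_lit 0) (XT.lf (nat_lit 0) (nat_lit 2359100111) (nat_lit 532) (nat_lit 4809965272) (nat_lit 608) (nat_lit 1177285429) (nat_lit 140) (nat_lit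 5) (nat_lit 147) (nat_lit 5) (nat_lit 148) (nat_lit 5) (nat_lit 294) (nat_lit 262) (nat_lit 224)) (XT.nd (nat_lit 78) (nat_lit 532) (nat_lit 0) (XT.lf (nat_lit 0) (nat_lit 896011707) (nat_lit 608) (nat_lit 1464856290) (nat_lit 76) (nat_lit 6101024188) (nat_lit 139) (nat_lit 5) (nat_lit 147) (nat_lit 5) (nat_lit 140) (nat_lit 5) (nat_lit 295) (nat_lit 262) (nat_lit 223)) (XT.lf (nat_lit 0) (nat_lit 2990658175) (nat_lit 608) (nat_lit 5390853426) (nat_lit 76) (nat_lit 199652575) (nat_lit 132) (nat_lit 5) (nat_lit 140) (nat_lit 5) (nat_lit 133) (nat_lit 5) (nat_lit 296) (nat_lit 262) (nat_lit 222))))) (XT.nd (nat_lit 234) (nat_lit 912) (nat_lit 0) (XT.nd (nat_lit 78) (nat_lit 608) (nat_lit 0) (XT.lf (nat_lit 0) (nat_lit 5137566697) (nat_lit 608) (nat_lit 764487597) (nat_lit 76) (nat_lit 2802372932) (nat_lit 132) (nat_lit 5) (nat_lit 140) (nat_lit 5) (nat_lit 133) (nat_lit 5) (nat_lit 297) (nat_lit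 262) (nat_lit 221)) (XT.nd (nat_lit 78) (nat_lit 76) (nat_lit 0) (XT.lf (nat_lit 0) (nat_lit 4028249058) (nat_lit 532) (nat_lit 3311888511) (nat_lit 608) (nat_lit 1491605740) (nat_lit 125) (nat_lit 5) (nat_lit 132) (nat_lit 5) (nat_lit 133) (nat_lit 5) (nat_lit 298) (nat_lit 262) (nat_lit 220)) (XT.lf (nat_lit 0) (nat_lit 593979513) (nat_lit 608) (nat_lit 40044285) (nat_lit 76) (nat_lit 8329935976) (nat_lit 124) (nat_lit 5) (nat_lit 132) (nat_lit 5) (nat_lit 125) (nat_lit 5) (nat_lit 299) (nat_lit 262) (nat_lit 219)))) (XT.nd (nat_lit 78) (nat_lit 456) (nat_lit 0) (XT.lf (nat_lit 0) (nat_lit 2734468738) (nat_lit 532) (nat_lit 4223684040) (nat_lit 76) (nat_lit 2140962339) (nat_lit 118) (nat_lit 5) (nat_lit 125) (nat_lit 5) (nat_lit 119) (nat_lit 5) (nat_lit 300) (nat_lit 262) (nat_lit 218)) (XT.nd (nat_lit 78) (nat_lit 0) (nat_lit 0) (XT.lf (nat_lit 0) (nat_lit 656464163) (nat_lit 456) (nat_lit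 4250768769) (nat_lit 532) (nat_lit 4332132827) (nat_lit 112) (nat_lit 5) (nat_lit 118) (nat_lit 5) (nat_lit 119) (nat_lit 5) (nat_lit 301) (nat_lit 262) (nat_lit 217)) (XT.lf (nat_lit 0) (nat_lit 5719154703) (nat_lit 456) (nat_lit 1424564315) (nat_lit 532) (nat_lit 2240228778) (nat_lit 112) (nat_lit 5) (nat_lit 118) (nat_lit 5) (nat_lit 119) (nat_lit 5) (nat_lit 302) (nat_lit 262) (nat_lit 216)))))) (XT.nd (nat_lit 468) (nat_lit 1140) (nat_lit 0) (XT.nd (nat_lit 234) (nat_lit 456) (nat_lit 0) (XT.nd (nat_lit 78) (nat_lit 532) (nat_lit 0) (XT.lf (nat_lit 0) (nat_lit 1362887363) (nat_lit 380) (nat_lit 8068915434) (nat_lit 456) (nat_lit 101607119) (nat_lit 107) (nat_lit 5) (nat_lit 112) (nat_lit 5) (nat_lit 113) (nat_lit 5) (nat_lit 303) (nat_lit 262) (nat_lit 215)) (XT.nd (nat_lit 78) (nat_lit 456) (nat_lit 0) (XT.lf (nat_lit 0) (nat_lit 2069043313) (nat_lit 456) (nat_lit 3155097543) (nat_lit 76)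 (nat_lit 4462416216) (nat_lit 106) (nat_lit 5) (nat_lit 112) (nat_lit 5) (nat_lit 107) (nat_lit 5) (nat_lit 304) (nat_lit 262) (nat_lit 214)) (XT.lf (nat_lit 0) (nat_lit 1999573976) (nat_lit 456) (nat_lit 2281052528) (nat_lit 532) (nat_lit 5564377415) (nat_lit 100) (nat_lit 5) (nat_lit 106) (nat_lit 5) (nat_lit 107) (nat_lit 5) (nat_lit 305) (nat_lit 262) (nat_lit 213)))) (XT.nd (nat_lit 78) (nat_lit 456) (nat_lit 0) (XT.lf (nat_lit 0) (nat_lit 6557238095) (nat_lit 532) (nat_lit 2691170766) (nat_lit 76) (nat_lit 759903932) (nat_lit 100) (nat_lit 5) (nat_lit 107) (nat_lit 5) (nat_lit 101) (nat_lit 5) (nat_lit 306) (nat_lit 262) (nat_lit 212)) (XT.nd (nat_lit 78) (nat_lit 76) (nat_lit 0) (XT.lf (nat_lit 0) (nat_lit 2597313096) (nat_lit 380) (nat_lit 6312864772) (nat_lit 456) (nat_lit 1266169207) (nat_lit 95) (nat_lit 5) (nat_lit 100) (nat_lit 5) (nat_lit 101) (nat_lit 5) (nat_lit 307) (nat_lit 262)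 (nat_lit 211)) (XT.lf (nat_lit 0) (nat_lit 953240512) (nat_lit 456) (nat_lit 2307590677) (nat_lit 76) (nat_lit 7088725621) (nat_lit 94) (nat_lit 5) (nat_lit 100) (nat_lit 5) (nat_lit 95) (nat_lit 5) (nat_lit 308) (nat_lit 262) (nat_lit 210))))) (XT.nd (nat_lit 234) (nat_lit 456) (nat_lit 0) (XT.nd (nat_lit 78) (nat_lit 304) (nat_lit 0) (XT.lf (nat_lit 0) (nat_lit 3122952271) (nat_lit 380) (nat_lit 82714696) (nat_lit 456) (nat_lit 7322224631) (nat_lit 89) (nat_lit 5) (nat_lit 94) (nat_lit 5) (nat_lit 95) (nat_lit 5) (nat_lit 309) (nat_lit 262) (nat_lit 209)) (XT.nd (nat_lit 78) (nat_lit 304) (nat_lit 0) (XT.lf (nat_lit 0) (nat_lit 5542301716) (nat_lit 456) (nat_lit 2026139341) (nat_lit 76) (nat_lit 3142695871) (nat_lit 89) (nat_lit 5) (nat_lit 95) (nat_lit 5) (nat_lit 90) (nat_lit 5) (nat_lit 310) (nat_lit 262) (nat_lit 208)) (XT.lf (nat_lit 0) (nat_lit 3535521970) (nat_lit 304) (nat_lit 4411843578)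 (nat_lit 380) (nat_lit 2952621995) (nat_lit 85) (nat_lit 5) (nat_lit 89) (nat_lit 5) (nat_lit 90) (nat_lit 5) (nat_lit 311) (nat_lit 262) (nat_lit 207)))) (XT.nd (nat_lit 78) (nat_lit 456) (nat_lit 0) (XT.lf (nat_lit 0) (nat_lit 9259350100) (nat_lit 304) (nat_lit 1149834813) (nat_lit 380) (nat_lit 685836797) (nat_lit 85) (nat_lit 5) (nat_lit 89) (nat_lit 5) (nat_lit 90) (nat_lit 5) (nat_lit 312) (nat_lit 262) (nat_lit 206)) (XT.nd (nat_lit 78) (nat_lit 0) (nat_lit 0) (XT.lf (nat_lit 0) (nat_lit 1640464941) (nat_lit 456) (nat_lit 7444004431) (nat_lit 76) (nat_lit 2210304230) (nat_lit 79) (nat_lit 5) (nat_lit 85) (nat_lit 5) (nat_lit 80) (nat_lit 5) (nat_lit 313) (nat_lit 262) (nat_lit 205)) (XT.lf (nat_lit 0) (nat_lit 4018155414) (nat_lit 456) (nat_lit 1819053395) (nat_lit 76) (nat_lit 5663295375) (nat_lit 79) (nat_lit 5) (nat_lit 85) (nat_lit 5) (nat_lit 80) (nat_lit 5) (nat_lit 314) (nat_lit 262)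 (nat_lit 204))))))) (XT.nd (nat_lit 936) (nat_lit 1216) (nat_lit 0) (XT.nd (nat_lit 468) (nat_lit 836) (nat_lit 0) (XT.nd (nat_lit 234) (nat_lit 380) (nat_lit 0) (XT.nd (nat_lit 78) (nat_lit 304) (nat_lit 0) (XT.lf (nat_lit 0) (nat_lit 4008036432) (nat_lit 304) (nat_lit 2463958745) (nat_lit 380) (nat_lit 5240316833) (nat_lit 75) (nat_lit 5) (nat_lit 79) (nat_lit 5) (nat_lit 80) (nat_lit 5) (nat_lit 315) (nat_lit 262) (nat_lit 203)) (XT.nd (nat_lit 78) (nat_lit 304) (nat_lit 0) (XT.lf (nat_lit 0) (nat_lit 8994452459) (nat_lit 380) (nat_lit 1937907209) (nat_lit 76) (nat_lit 998312760) (nat_lit 75) (nat_lit 5) (nat_lit 80) (nat_lit 5) (nat_lit 76) (nat_lit 5) (nat_lit 316) (nat_lit 262) (nat_lit 202)) (XT.lf (nat_lit 0) (nat_lit 4011335420) (nat_lit 304) (nat_lit 7611910020) (nat_lit 380) (nat_lit 531465378) (nat_lit 71) (nat_lit 5) (nat_lit 75) (nat_lit 5) (nat_lit 76) (nat_lit 5) (nat_lit 317) (nat_lit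 262) (nat_lit 201)))) (XT.nd (nat_lit 78) (nat_lit 304) (nat_lit 0) (XT.lf (nat_lit 0) (nat_lit 1895101694) (nat_lit 380) (nat_lit 2269246398) (nat_lit 76) (nat_lit 8220976601) (nat_lit 70) (nat_lit 5) (nat_lit 75) (nat_lit 5) (nat_lit 71) (nat_lit 5) (nat_lit 318) (nat_lit 262) (nat_lit 200)) (XT.nd (nat_lit 78) (nat_lit 0) (nat_lit 0) (XT.lf (nat_lit 0) (nat_lit 3807175759) (nat_lit 304) (nat_lit 582010248) (nat_lit 380) (nat_lit 8233394080) (nat_lit 66) (nat_lit 5) (nat_lit 70) (nat_lit 5) (nat_lit 71) (nat_lit 5) (nat_lit 319) (nat_lit 262) (nat_lit 199)) (XT.lf (nat_lit 0) (nat_lit 6980299795) (nat_lit 380) (nat_lit 2827346704) (nat_lit 76) (nat_lit 3058682210) (nat_lit 66) (nat_lit 5) (nat_lit 71) (nat_lit 5) (nat_lit 67) (nat_lit 5) (nat_lit 320) (nat_lit 262) (nat_lit 198))))) (XT.nd (nat_lit 234) (nat_lit 228) (nat_lit 0) (XT.nd (nat_lit 78) (nat_lit 304) (nat_lit 0) (XT.lf (nat_lit 0)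 (nat_lit 3357992440) (nat_lit 304) (nat_lit 6299284531) (nat_lit 380) (nat_lit 3459909478) (nat_lit 62) (nat_lit 5) (nat_lit 66) (nat_lit 5) (nat_lit 67) (nat_lit 5) (nat_lit 321) (nat_lit 262) (nat_lit 197)) (XT.nd (nat_lit 78) (nat_lit 304) (nat_lit 0) (XT.lf (nat_lit 0) (nat_lit 9745138322) (nat_lit 304) (nat_lit 2668534476) (nat_lit 380) (nat_lit 961963222) (nat_lit 62) (nat_lit 5) (nat_lit 66) (nat_lit 5) (nat_lit 67) (nat_lit 5) (nat_lit 322) (nat_lit 262) (nat_lit 196)) (XT.lf (nat_lit 0) (nat_lit 1586909386) (nat_lit 304) (nat_lit 10974376359) (nat_lit 76) (nat_lit 1079903210) (nat_lit 58) (nat_lit 5) (nat_lit 62) (nat_lit 5) (nat_lit 59) (nat_lit 5) (nat_lit 323) (nat_lit 262) (nat_lit 195)))) (XT.nd (nat_lit 78) (nat_lit 228) (nat_lit 0) (XT.lf (nat_lit 0) (nat_lit 4227787194) (nat_lit 304) (nat_lit 4763930905) (nat_lit 76) (nat_lit 4921694475) (nat_lit 58) (nat_lit 5) (nat_lit 62) (nat_lit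 5) (nat_lit 59) (nat_lit 5) (nat_lit 324) (nat_lit 262) (nat_lit 194)) (XT.nd (nat_lit 78) (nat_lit 0) (nat_lit 0) (XT.lf (nat_lit 0) (nat_lit 1624253434) (nat_lit 228) (nat_lit 5311511909) (nat_lit 304) (nat_lit 7258436326) (nat_lit 55) (nat_lit 5) (nat_lit 58) (nat_lit 5) (nat_lit 59) (nat_lit 5) (nat_lit 325) (nat_lit 262) (nat_lit 193)) (XT.lf (nat_lit 0) (nat_lit 8261864503) (nat_lit 228) (nat_lit 1483910024) (nat_lit 304) (nat_lit 4737050127) (nat_lit 55) (nat_lit 5) (nat_lit 58) (nat_lit 5) (nat_lit 59) (nat_lit 5) (nat_lit 326) (nat_lit 262) (nat_lit 192)))))) (XT.nd (nat_lit 468) (nat_lit 456) (nat_lit 0) (XT.nd (nat_lit 234) (nat_lit 456) (nat_lit 0) (XT.nd (nat_lit 78) (nat_lit 76) (nat_lit 0) (XT.lf (nat_lit 0) (nat_lit 260523891) (nat_lit 228) (nat_lit 12379060892) (nat_lit 304) (nat_lit 2140569498) (nat_lit 52) (nat_lit 5) (nat_lit 55) (nat_lit 5) (nat_lit 56) (nat_lit 5) (nat_lit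 327) (nat_lit 262) (nat_lit 191)) (XT.nd (nat_lit 78) (nat_lit 0) (nat_lit 0) (XT.lf (nat_lit 0) (nat_lit 574995821) (nat_lit 304) (nat_lit 8080585746) (nat_lit 76) (nat_lit 6429151175) (nat_lit 51) (nat_lit 5) (nat_lit 55) (nat_lit 5) (nat_lit 52) (nat_lit 5) (nat_lit 328) (nat_lit 262) (nat_lit 190)) (XT.lf (nat_lit 0) (nat_lit 3303250490) (nat_lit 304) (nat_lit 1508007357) (nat_lit 76) (nat_lit 10587357705) (nat_lit 51) (nat_lit 5) (nat_lit 55) (nat_lit 5) (nat_lit 52) (nat_lit 5) (nat_lit 329) (nat_lit 262) (nat_lit 189)))) (XT.nd (nat_lit 78) (nat_lit 228) (nat_lit 0) (XT.lf (nat_lit 0) (nat_lit 5328400555) (nat_lit 228) (nat_lit 811167931) (nat_lit 304) (nat_lit 9581589190) (nat_lit 48) (nat_lit 5) (nat_lit 51) (nat_lit 5) (nat_lit 52) (nat_lit 5) (nat_lit 330) (nat_lit 262) (nat_lit 188)) (XT.nd (nat_lit 78) (nat_lit 228) (nat_lit 0) (XT.lf (nat_lit 0) (nat_lit 9083412478) (nat_lit 304)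 (nat_lit 3721671107) (nat_lit 76) (nat_lit 3247647833) (nat_lit 48) (nat_lit 5) (nat_lit 52) (nat_lit 5) (nat_lit 49) (nat_lit 5) (nat_lit 331) (nat_lit 262) (nat_lit 187)) (XT.lf (nat_lit 0) (nat_lit 3166800071) (nat_lit 228) (nat_lit 8963215524) (nat_lit 304) (nat_lit 4263831080) (nat_lit 45) (nat_lit 5) (nat_lit 48) (nat_lit 5) (nat_lit 49) (nat_lit 5) (nat_lit 332) (nat_lit 262) (nat_lit 186))))) (XT.nd (nat_lit 234) (nat_lit 152) (nat_lit 0) (XT.nd (nat_lit 78) (nat_lit 304) (nat_lit 0) (XT.lf (nat_lit 0) (nat_lit 10302062226) (nat_lit 228) (nat_lit 4979859718) (nat_lit 304) (nat_lit 1462883106) (nat_lit 45) (nat_lit 5) (nat_lit 48) (nat_lit 5) (nat_lit 49) (nat_lit 5) (nat_lit 333) (nat_lit 262) (nat_lit 185)) (XT.nd (nat_lit 78) (nat_lit 0) (nat_lit 0) (XT.lf (nat_lit 0) (nat_lit 505699515) (nat_lit 228) (nat_lit 870264765) (nat_lit 304) (nat_lit 15730494437) (nat_lit 41) (nat_lit 5) (nat_lit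 44) (nat_lit 5) (nat_lit 45) (nat_lit 5) (nat_lit 334) (nat_lit 262) (nat_lit 184)) (XT.lf (nat_lit 0) (nat_lit 4345580941) (nat_lit 304) (nat_lit 9765629495) (nat_lit 76) (nat_lit 3365091386) (nat_lit 41) (nat_lit 5) (nat_lit 45) (nat_lit 5) (nat_lit 42) (nat_lit 5) (nat_lit 335) (nat_lit 262) (nat_lit 183)))) (XT.nd (nat_lit 78) (nat_lit 152) (nat_lit 0) (XT.lf (nat_lit 0) (nat_lit 7390552674) (nat_lit 304) (nat_lit 2768851338) (nat_lit 76) (nat_lit 7698272034) (nat_lit 41) (nat_lit 5) (nat_lit 45) (nat_lit 5) (nat_lit 42) (nat_lit 5) (nat_lit 336) (nat_lit 262) (nat_lit 182)) (XT.nd (nat_lit 78) (nat_lit 0) (nat_lit 0) (XT.lf (nat_lit 0) (nat_lit 4491703793) (nat_lit 152) (nat_lit 6056647828) (nat_lit 228) (nat_lit 7701518664) (nat_lit 39) (nat_lit 5) (nat_lit 41) (nat_lit 5) (nat_lit 42) (nat_lit 5) (nat_lit 337) (nat_lit 262) (nat_lit 181)) (XT.lf (nat_lit 0) (nat_lit 11993389763) (nat_lit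 152) (nat_lit 1814066321) (nat_lit 228) (nat_lit 4846199578) (nat_lit 39) (nat_lit 5) (nat_lit 41) (nat_lit 5) (nat_lit 42) (nat_lit 5) (nat_lit 338) (nat_lit 262) (nat_lit 180))))))))
noncomputable def xc116 : XT := (XT.nd (nat_lit 1794) (nat_lit 760) (nat_lit 0) (XT.nd (nat_lit 858) (nat_lit 608) (nat_lit 0) (XT.nd (nat_lit 390) (nat_lit 380) (nat_lit 0) (XT.nd (nat_lit 156) (nat_lit 152) (nat_lit 0) (XT.nd (nat_lit 78) (nat_lit 76) (nat_lit 0) (XT.lf (nat_lit 0) (nat_lit 604803063) (nat_lit 228) (nat_lit 16569034221) (nat_lit 304) (nat_lit 1895454009) (nat_lit 36) (nat_lit 5) (nat_lit 39) (nat_lit 5) (nat_lit 40) (nat_lit 5) (nat_lit 339) (nat_lit 262) (nat_lit 179)) (XT.lf (nat_lit 0) (nat_lit 1186568005) (nat_lit 304) (nat_lit 11333761117) (nat_lit 76) (nat_lit 6974805352) (nat_lit 35) (nat_lit 5) (nat_lit 39) (nat_lit 5) (nat_lit 36) (nat_lit 5) (nat_lit 340) (nat_lit 262) (nat_lit 178)))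 (XT.nd (nat_lit 78) (nat_lit 152) (nat_lit 0) (XT.lf (nat_lit 0) (nat_lit 4302751440) (nat_lit 304) (nat_lit 4040028399) (nat_lit 76) (nat_lit 11591036131) (nat_lit 35) (nat_lit 5) (nat_lit 39) (nat_lit 5) (nat_lit 36) (nat_lit 5) (nat_lit 341) (nat_lit 262) (nat_lit 177)) (XT.nd (nat_lit 78) (nat_lit 0) (nat_lit 0) (XT.lf (nat_lit 0) (nat_lit 3509792035) (nat_lit 152) (nat_lit 4016752541) (nat_lit 228) (nat_lit 12858708980) (nat_lit 33) (nat_lit 5) (nat_lit 35) (nat_lit 5) (nat_lit 36) (nat_lit 5) (nat_lit 342) (nat_lit 262) (nat_lit 176)) (XT.lf (nat_lit 0) (nat_lit 10873021195) (nat_lit 228) (nat_lit 9516105825) (nat_lit 76) (nat_lit 460346966) (nat_lit 33) (nat_lit 5) (nat_lit 36) (nat_lit 5) (nat_lit 34) (nat_lit 5) (nat_lit 343) (nat_lit 262) (nat_lit 175))))) (XT.nd (nat_lit 234) (nat_lit 228) (nat_lit 0) (XT.nd (nat_lit 78) (nat_lit 152) (nat_lit 0) (XT.lf (nat_lit 0) (nat_lit 14340777403)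 (nat_lit 228) (nat_lit 2006219627) (nat_lit 76) (nat_lit 4980015699) (nat_lit 33) (nat_lit 5) (nat_lit 36) (nat_lit 5) (nat_lit 34) (nat_lit 5) (nat_lit 344) (nat_lit 262) (nat_lit 174)) (XT.nd (nat_lit 78) (nat_lit 0) (nat_lit 0) (XT.lf (nat_lit 0) (nat_lit 5812799239) (nat_lit 152) (nat_lit 12137308739) (nat_lit 228) (nat_lit 3867661134) (nat_lit 31) (nat_lit 5) (nat_lit 33) (nat_lit 5) (nat_lit 34) (nat_lit 5) (nat_lit 345) (nat_lit 262) (nat_lit 173)) (XT.lf (nat_lit 0) (nat_lit 13878211764) (nat_lit 152) (nat_lit 7791683431) (nat_lit 228) (nat_lit 653304899) (nat_lit 31) (nat_lit 5) (nat_lit 33) (nat_lit 5) (nat_lit 34) (nat_lit 5) (nat_lit 346) (nat_lit 262) (nat_lit 172)))) (XT.nd (nat_lit 78) (nat_lit 152) (nat_lit 0) (XT.lf (nat_lit 0) (nat_lit 2587879280) (nat_lit 228) (nat_lit 712571056) (nat_lit 76) (nat_lit 19543125904) (nat_lit 30) (nat_lit 5) (nat_lit 33) (nat_lit 5) (nat_lit 31)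 (nat_lit 5) (nat_lit 347) (nat_lit 262) (nat_lit 171)) (XT.nd (nat_lit 78) (nat_lit 0) (nat_lit 0) (XT.lf (nat_lit 0) (nat_lit 5980100909) (nat_lit 228) (nat_lit 16030171261) (nat_lit 76) (nat_lit 1367105219) (nat_lit 28) (nat_lit 5) (nat_lit 31) (nat_lit 5) (nat_lit 29) (nat_lit 5) (nat_lit 348) (nat_lit 262) (nat_lit 170)) (XT.lf (nat_lit 0) (nat_lit 9496937429) (nat_lit 228) (nat_lit 8324468861) (nat_lit 76) (nat_lit 6105116127) (nat_lit 28) (nat_lit 5) (nat_lit 31) (nat_lit 5) (nat_lit 29) (nat_lit 5) (nat_lit 349) (nat_lit 262) (nat_lit 169)))))) (XT.nd (nat_lit 468) (nat_lit 228) (nat_lit 0) (XT.nd (nat_lit 234) (nat_lit 228) (nat_lit 0) (XT.nd (nat_lit 78) (nat_lit 152) (nat_lit 0) (XT.lf (nat_lit 0) (nat_lit 13102680696) (nat_lit 228) (nat_lit 414902985) (nat_lit 76) (nat_lit 10975070911) (nat_lit 28) (nat_lit 5) (nat_lit 31) (nat_lit 5) (nat_lit 29) (nat_lit 5) (nat_lit 350) (nat_lit 262)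 (nat_lit 168)) (XT.nd (nat_lit 78) (nat_lit 0) (nat_lit 0) (XT.lf (nat_lit 0) (nat_lit 7858790953) (nat_lit 152) (nat_lit 9017233913) (nat_lit 228) (nat_lit 8197977422) (nat_lit 26) (nat_lit 5) (nat_lit 28) (nat_lit 5) (nat_lit 29) (nat_lit 5) (nat_lit 351) (nat_lit 262) (nat_lit 167)) (XT.lf (nat_lit 0) (nat_lit 16362948509) (nat_lit 152) (nat_lit 4387912671) (nat_lit 228) (nat_lit 4922294474) (nat_lit 26) (nat_lit 5) (nat_lit 28) (nat_lit 5) (nat_lit 29) (nat_lit 5) (nat_lit 352) (nat_lit 262) (nat_lit 166)))) (XT.nd (nat_lit 78) (nat_lit 228) (nat_lit 0) (XT.lf (nat_lit 0) (nat_lit 24730066671) (nat_lit 228) (nat_lit 1197576067) (nat_lit 76) (nat_lit 363010748) (nat_lit 26) (nat_lit 5) (nat_lit 29) (nat_lit 5) (nat_lit 27) (nat_lit 4) (nat_lit 353) (nat_lit 262) (nat_lit 165)) (XT.nd (nat_lit 78) (nat_lit 0) (nat_lit 0) (XT.lf (nat_lit 0) (nat_lit 1963688019) (nat_lit 228) (nat_lit 19712027629)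 (nat_lit 76) (nat_lit 5247460014) (nat_lit 23) (nat_lit 5) (nat_lit 26) (nat_lit 5) (nat_lit 24) (nat_lit 5) (nat_lit 354) (nat_lit 262) (nat_lit 164)) (XT.lf (nat_lit 0) (nat_lit 5559498928) (nat_lit 228) (nat_lit 11718378569) (nat_lit 76) (nat_lit 10296429678) (nat_lit 23) (nat_lit 5) (nat_lit 26) (nat_lit 5) (nat_lit 24) (nat_lit 5) (nat_lit 355) (nat_lit 262) (nat_lit 163))))) (XT.nd (nat_lit 234) (nat_lit 76) (nat_lit 0) (XT.nd (nat_lit 78) (nat_lit 152) (nat_lit 0) (XT.lf (nat_lit 0) (nat_lit 9248583362) (nat_lit 228) (nat_lit 3509366410) (nat_lit 76) (nat_lit 15487472956) (nat_lit 23) (nat_lit 5) (nat_lit 26) (nat_lit 5) (nat_lit 24) (nat_lit 5) (nat_lit 356) (nat_lit 262) (nat_lit 162)) (XT.nd (nat_lit 78) (nat_lit 0) (nat_lit 0) (XT.lf (nat_lit 0) (nat_lit 5020142839) (nat_lit 152) (nat_lit 8062278638) (nat_lit 228) (nat_lit 15853239557) (nat_lit 21) (nat_lit 5) (nat_lit 23) (nat_lit 5)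 (nat_lit 24) (nat_lit 5) (nat_lit 357) (nat_lit 262) (nat_lit 161)) (XT.lf (nat_lit 0) (nat_lit 13853974285) (nat_lit 152) (nat_lit 3198749601) (nat_lit 228) (nat_lit 12593250506) (nat_lit 21) (nat_lit 5) (nat_lit 23) (nat_lit 5) (nat_lit 24) (nat_lit 5) (nat_lit 358) (nat_lit 262) (nat_lit 160)))) (XT.nd (nat_lit 78) (nat_lit 76) (nat_lit 0) (XT.lf (nat_lit 0) (nat_lit 21145870868) (nat_lit 228) (nat_lit 7465328729) (nat_lit 76) (nat_lit 1766296537) (nat_lit 21) (nat_lit 5) (nat_lit 24) (nat_lit 5) (nat_lit 22) (nat_lit 4) (nat_lit 359) (nat_lit 262) (nat_lit 159)) (XT.nd (nat_lit 78) (nat_lit 0) (nat_lit 0) (XT.lf (nat_lit 0) (nat_lit 1078035703) (nat_lit 76) (nat_lit 24312538317) (nat_lit 152) (nat_lit 5739537380) (nat_lit 20) (nat_lit 5) (nat_lit 21) (nat_lit 5) (nat_lit 22) (nat_lit 4) (nat_lit 360) (nat_lit 262) (nat_lit 158)) (XT.lf (nat_lit 0) (nat_lit 10008480651) (nat_lit 76) (nat_lit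 19816423688) (nat_lit 152) (nat_lit 2078542616) (nat_lit 20) (nat_lit 5) (nat_lit 21) (nat_lit 5) (nat_lit 22) (nat_lit 4) (nat_lit 361) (nat_lit 262) (nat_lit 157))))))) (XT.nd (nat_lit 936) (nat_lit 228) (nat_lit 0) (XT.nd (nat_lit 468) (nat_lit 304) (nat_lit 0) (XT.nd (nat_lit 234) (nat_lit 0) (nat_lit 0) (XT.nd (nat_lit 78) (nat_lit 152) (nat_lit 0) (XT.lf (nat_lit 0) (nat_lit 1646406062) (nat_lit 152) (nat_lit 13531280712) (nat_lit 76) (nat_lit 17522203202) (nat_lit 19) (nat_lit 5) (nat_lit 21) (nat_lit 5) (nat_lit 20) (nat_lit 5) (nat_lit 362) (nat_lit 262) (nat_lit 156)) (XT.nd (nat_lit 78) (nat_lit 152) (nat_lit 0) (XT.lf (nat_lit 0) (nat_lit 5428847511) (nat_lit 152) (nat_lit 4958497032) (nat_lit 76) (nat_lit 23132648257) (nat_lit 19) (nat_lit 5) (nat_lit 21) (nat_lit 5) (nat_lit 20) (nat_lit 5) (nat_lit 363) (nat_lit 262) (nat_lit 155)) (XT.lf (nat_lit 0) (nat_lit 3927495322) (nat_lit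 152) (nat_lit 5422904795) (nat_lit 228) (nat_lit 25013538705) (nat_lit 17) (nat_lit 5) (nat_lit 19) (nat_lit 5) (nat_lit 20) (nat_lit 5) (nat_lit 364) (nat_lit 262) (nat_lit 154)))) (XT.nd (nat_lit 78) (nat_lit 0) (nat_lit 0) (XT.lf (nat_lit 0) (nat_lit 13161299460) (nat_lit 152) (nat_lit 266412030) (nat_lit 228) (nat_lit 21804357351) (nat_lit 17) (nat_lit 5) (nat_lit 19) (nat_lit 5) (nat_lit 20) (nat_lit 5) (nat_lit 365) (nat_lit 262) (nat_lit 153)) (XT.nd (nat_lit 78) (nat_lit 0) (nat_lit 0) (XT.lf (nat_lit 0) (nat_lit 17664146192) (nat_lit 228) (nat_lit 13522714434) (nat_lit 76) (nat_lit 4938286737) (nat_lit 17) (nat_lit 5) (nat_lit 20) (nat_lit 5) (nat_lit 18) (nat_lit 4) (nat_lit 366) (nat_lit 262) (nat_lit 152)) (XT.lf (nat_lit 0) (nat_lit 22018962663) (nat_lit 228) (nat_lit 4740366190) (nat_lit 76) (nat_lit 10285959193) (nat_lit 17) (nat_lit 5) (nat_lit 20) (nat_lit 5) (nat_lit 18) (nat_lit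 4) (nat_lit 367) (nat_lit 262) (nat_lit 151))))) (XT.nd (nat_lit 234) (nat_lit 228) (nat_lit 0) (XT.nd (nat_lit 78) (nat_lit 0) (nat_lit 0) (XT.lf (nat_lit 0) (nat_lit 4371820120) (nat_lit 76) (nat_lit 22163609658) (nat_lit 152) (nat_lit 11456681205) (nat_lit 16) (nat_lit 5) (nat_lit 17) (nat_lit 5) (nat_lit 18) (nat_lit 4) (nat_lit 368) (nat_lit 262) (nat_lit 150)) (XT.nd (nat_lit 78) (nat_lit 0) (nat_lit 0) (XT.lf (nat_lit 0) (nat_lit 13835788250) (nat_lit 76) (nat_lit 17388593227) (nat_lit 152) (nat_lit 7741855395) (nat_lit 16) (nat_lit 5) (nat_lit 17) (nat_lit 5) (nat_lit 18) (nat_lit 4) (nat_lit 369) (nat_lit 262) (nat_lit 149)) (XT.lf (nat_lit 0) (nat_lit 23565465105) (nat_lit 76) (nat_lit 12477975619) (nat_lit 152) (nat_lit 3926470393) (nat_lit 16) (nat_lit 5) (nat_lit 17) (nat_lit 5) (nat_lit 18) (nat_lit 4) (nat_lit 370) (nat_lit 262) (nat_lit 148)))) (XT.nd (nat_lit 78) (nat_lit 228)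 (nat_lit 0) (XT.lf (nat_lit 0) (nat_lit 33569352344) (nat_lit 76) (nat_lit 7427466004) (nat_lit 152) (nat_lit 7192365) (nat_lit 16) (nat_lit 5) (nat_lit 17) (nat_lit 5) (nat_lit 18) (nat_lit 4) (nat_lit 371) (nat_lit 262) (nat_lit 147)) (XT.nd (nat_lit 78) (nat_lit 0) (nat_lit 0) (XT.lf (nat_lit 0) (nat_lit 1782905935) (nat_lit 152) (nat_lit 2175202708) (nat_lit 228) (nat_lit 38109657340) (nat_lit 13) (nat_lit 5) (nat_lit 15) (nat_lit 5) (nat_lit 16) (nat_lit 5) (nat_lit 372) (nat_lit 262) (nat_lit 146)) (XT.lf (nat_lit 0) (nat_lit 8139133457) (nat_lit 228) (nat_lit 31781125993) (nat_lit 76) (nat_lit 3240271929) (nat_lit 13) (nat_lit 5) (nat_lit 16) (nat_lit 5) (nat_lit 14) (nat_lit 4) (nat_lit 373) (nat_lit 262) (nat_lit 145)))))) (XT.nd (nat_lit 468) (nat_lit 152) (nat_lit 0) (XT.nd (nat_lit 234) (nat_lit 76) (nat_lit 0) (XT.nd (nat_lit 78) (nat_lit 0) (nat_lit 0) (XT.lf (nat_lit 0) (nat_lit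 12457414327) (nat_lit 228) (nat_lit 23060745666) (nat_lit 76) (nat_lit 8767571668) (nat_lit 13) (nat_lit 5) (nat_lit 16) (nat_lit 5) (nat_lit 14) (nat_lit 4) (nat_lit 374) (nat_lit 262) (nat_lit 144)) (XT.nd (nat_lit 78) (nat_lit 0) (nat_lit 0) (XT.lf (nat_lit 0) (nat_lit 16895815129) (nat_lit 228) (nat_lit 14095189941) (nat_lit 76) (nat_lit 14453972226) (nat_lit 13) (nat_lit 5) (nat_lit 16) (nat_lit 5) (nat_lit 14) (nat_lit 4) (nat_lit 375) (nat_lit 262) (nat_lit 143)) (XT.lf (nat_lit 0) (nat_lit 21458214077) (nat_lit 228) (nat_lit 4876624834) (nat_lit 76) (nat_lit 20304442303) (nat_lit 13) (nat_lit 5) (nat_lit 16) (nat_lit 5) (nat_lit 14) (nat_lit 4) (nat_lit 376) (nat_lit 262) (nat_lit 142)))) (XT.nd (nat_lit 78) (nat_lit 0) (nat_lit 0) (XT.lf (nat_lit 0) (nat_lit 4694613528) (nat_lit 76) (nat_lit 21499111703) (nat_lit 152) (nat_lit 21674607930) (nat_lit 12) (nat_lit 5) (nat_lit 13) (nat_lit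 5) (nat_lit 14) (nat_lit 4) (nat_lit 377) (nat_lit 262) (nat_lit 141)) (XT.nd (nat_lit 78) (nat_lit 0) (nat_lit 0) (XT.lf (nat_lit 0) (nat_lit 14637614441) (nat_lit 76) (nat_lit 16474155757) (nat_lit 152) (nat_lit 18021278351) (nat_lit 12) (nat_lit 5) (nat_lit 13) (nat_lit 5) (nat_lit 14) (nat_lit 4) (nat_lit 378) (nat_lit 262) (nat_lit 140)) (XT.lf (nat_lit 0) (nat_lit 24864011568) (nat_lit 76) (nat_lit 11304824683) (nat_lit 152) (nat_lit 14267130522) (nat_lit 12) (nat_lit 5) (nat_lit 13) (nat_lit 5) (nat_lit 14) (nat_lit 4) (nat_lit 379) (nat_lit 262) (nat_lit 139))))) (XT.nd (nat_lit 234) (nat_lit 76) (nat_lit 0) (XT.nd (nat_lit 78) (nat_lit 76) (nat_lit 0) (XT.lf (nat_lit 0) (nat_lit 35382740595) (nat_lit 76) (nat_lit 5986601591) (nat_lit 152) (nat_lit 10408884118) (nat_lit 12) (nat_lit 5) (nat_lit 13) (nat_lit 5) (nat_lit 14) (nat_lit 4) (nat_lit 380) (nat_lit 262) (nat_lit 138)) (XT.nd (nat_lit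 78) (nat_lit 76) (nat_lit 0) (XT.lf (nat_lit 0) (nat_lit 46202992645) (nat_lit 76) (nat_lit 514839488) (nat_lit 152) (nat_lit 6443167857) (nat_lit 12) (nat_lit 5) (nat_lit 13) (nat_lit 5) (nat_lit 14) (nat_lit 4) (nat_lit 381) (nat_lit 262) (nat_lit 137)) (XT.lf (nat_lit 0) (nat_lit 2753281827) (nat_lit 76) (nat_lit 49541334777) (nat_lit 76) (nat_lit 2288610364) (nat_lit 11) (nat_lit 4) (nat_lit 12) (nat_lit 5) (nat_lit 12) (nat_lit 4) (nat_lit 382) (nat_lit 262) (nat_lit 136)))) (XT.nd (nat_lit 78) (nat_lit 0) (nat_lit 0) (XT.lf (nat_lit 0) (nat_lit 2019957838) (nat_lit 152) (nat_lit 43186237296) (nat_lit 76) (nat_lit 10839310031) (nat_lit 10) (nat_lit 5) (nat_lit 12) (nat_lit 5) (nat_lit 11) (nat_lit 4) (nat_lit 383) (nat_lit 262) (nat_lit 135)) (XT.nd (nat_lit 78) (nat_lit 0) (nat_lit 0) (XT.lf (nat_lit 0) (nat_lit 6404174701) (nat_lit 152) (nat_lit 34319313272) (nat_lit 76) (nat_lit 16827717064)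 (nat_lit 10) (nat_lit 5) (nat_lit 12) (nat_lit 5) (nat_lit 11) (nat_lit 4) (nat_lit 384) (nat_lit 262) (nat_lit 134)) (XT.lf (nat_lit 0) (nat_lit 10912530125) (nat_lit 152) (nat_lit 25199425750) (nat_lit 76) (nat_lit 22990346357) (nat_lit 10) (nat_lit 5) (nat_lit 12) (nat_lit 5) (nat_lit 11) (nat_lit 4) (nat_lit 385) (nat_lit 262) (nat_lit 133))))))))
noncomputable def xc117 : XT := (XT.nd (nat_lit 31824) (nat_lit 0) (nat_lit 9500) (XT.nd (nat_lit 858) (nat_lit 76) (nat_lit 0) (XT.nd (nat_lit 390) (nat_lit 76) (nat_lit 0) (XT.nd (nat_lit 156) (nat_lit 76) (nat_lit 0) (XT.nd (nat_lit 78) (nat_lit 0) (nat_lit 0) (XT.lf (nat_lit 0) (nat_lit 15548963449) (nat_lit 152) (nat_lit 15818605896) (nat_lit 76) (nat_lit 29332582731) (nat_lit 10) (nat_lit 5) (nat_lit 12) (nat_lit 5) (nat_lit 11) (nat_lit 4) (nat_lit 386) (nat_lit 262) (nat_lit 132)) (XT.lf (nat_lit 0) (nat_lit 20317525927) (nat_lit 152) (nat_lit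 6168656878) (nat_lit 76) (nat_lit 35859967946) (nat_lit 10) (nat_lit 5) (nat_lit 12) (nat_lit 5) (nat_lit 11) (nat_lit 4) (nat_lit 387) (nat_lit 262) (nat_lit 131))) (XT.nd (nat_lit 78) (nat_lit 0) (nat_lit 0) (XT.lf (nat_lit 0) (nat_lit 3833661850) (nat_lit 76) (nat_lit 21425573915) (nat_lit 152) (nat_lit 38781395196) (nat_lit 9) (nat_lit 5) (nat_lit 10) (nat_lit 5) (nat_lit 11) (nat_lit 4) (nat_lit 388) (nat_lit 262) (nat_lit 130)) (XT.nd (nat_lit 78) (nat_lit 0) (nat_lit 0) (XT.lf (nat_lit 0) (nat_lit 14250681280) (nat_lit 76) (nat_lit 16154129241) (nat_lit 152) (nat_lit 35379470813) (nat_lit 9) (nat_lit 5) (nat_lit 10) (nat_lit 5) (nat_lit 11) (nat_lit 4) (nat_lit 389) (nat_lit 262) (nat_lit 129)) (XT.lf (nat_lit 0) (nat_lit 24968735294) (nat_lit 76) (nat_lit 10729534004) (nat_lit 152) (nat_lit 31882170459) (nat_lit 9) (nat_lit 5) (nat_lit 10) (nat_lit 5) (nat_lit 11) (nat_lit 4) (nat_lit 390)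 (nat_lit 262) (nat_lit 128))))) (XT.nd (nat_lit 234) (nat_lit 76) (nat_lit 0) (XT.nd (nat_lit 78) (nat_lit 0) (nat_lit 0) (XT.lf (nat_lit 0) (nat_lit 35997189182) (nat_lit 76) (nat_lit 5147048269) (nat_lit 152) (nat_lit 28286438241) (nat_lit 9) (nat_lit 5) (nat_lit 10) (nat_lit 5) (nat_lit 11) (nat_lit 4) (nat_lit 391) (nat_lit 262) (nat_lit 127)) (XT.nd (nat_lit 78) (nat_lit 0) (nat_lit 0) (XT.lf (nat_lit 0) (nat_lit 46753223911) (nat_lit 152) (nat_lit 23996676712) (nat_lit 0) (nat_lit 586532715) (nat_lit 9) (nat_lit 5) (nat_lit 11) (nat_lit 4) (nat_lit 9) (nat_lit 4) (nat_lit 392) (nat_lit 262) (nat_lit 126)) (XT.lf (nat_lit 0) (nat_lit 52575463853) (nat_lit 152) (nat_lit 14338363430) (nat_lit 0) (nat_lit 6384190615) (nat_lit 9) (nat_lit 5) (nat_lit 11) (nat_lit 4) (nat_lit 9) (nat_lit 4) (nat_lit 393) (nat_lit 262) (nat_lit 125)))) (XT.nd (nat_lit 78) (nat_lit 76) (nat_lit 0) (XT.lf (nat_lit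 0) (nat_lit 58566568093) (nat_lit 152) (nat_lit 4400630784) (nat_lit 0) (nat_lit 12351428795) (nat_lit 9) (nat_lit 5) (nat_lit 11) (nat_lit 4) (nat_lit 9) (nat_lit 4) (nat_lit 394) (nat_lit 262) (nat_lit 124)) (XT.nd (nat_lit 78) (nat_lit 0) (nat_lit 0) (XT.lf (nat_lit 0) (nat_lit 5941137674) (nat_lit 76) (nat_lit 58847743753) (nat_lit 76) (nat_lit 12609433523) (nat_lit 8) (nat_lit 4) (nat_lit 9) (nat_lit 5) (nat_lit 9) (nat_lit 4) (nat_lit 395) (nat_lit 262) (nat_lit 123)) (XT.lf (nat_lit 0) (nat_lit 16673436969) (nat_lit 76) (nat_lit 54563299686) (nat_lit 76) (nat_lit 8302493405) (nat_lit 8) (nat_lit 4) (nat_lit 9) (nat_lit 5) (nat_lit 9) (nat_lit 4) (nat_lit 396) (nat_lit 262) (nat_lit 122)))))) (XT.nd (nat_lit 30498) (nat_lit 0) (nat_lit 19456) (XT.nd (nat_lit 30264) (nat_lit 0) (nat_lit 20216) (XT.nd (nat_lit 78) (nat_lit 76) (nat_lit 0) (XT.lf (nat_lit 0) (nat_lit 27718063654) (nat_lit 76)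 (nat_lit 50154560728) (nat_lit 76) (nat_lit 3871913621) (nat_lit 8) (nat_lit 4) (nat_lit 9) (nat_lit 5) (nat_lit 9) (nat_lit 4) (nat_lit 397) (nat_lit 262) (nat_lit 121)) (XT.nd (nat_lit 30108) (nat_lit 0) (nat_lit 20596) (XT.lf (nat_lit 0) (nat_lit 672787418) (nat_lit 152) (nat_lit 44938093331) (nat_lit 76) (nat_lit 38405087123) (nat_lit 7) (nat_lit 5) (nat_lit 9) (nat_lit 5) (nat_lit 8) (nat_lit 4) (nat_lit 398) (nat_lit 262) (nat_lit 120)) (XT.lf (nat_lit 0) (nat_lit 805962502) (nat_lit 0) (nat_lit 805962502) (nat_lit 228) (nat_lit 1629162920) (nat_lit 278) (nat_lit 5) (nat_lit 278) (nat_lit 3) (nat_lit 281) (nat_lit 3) (nat_lit 263) (nat_lit 263) (nat_lit 254)))) (XT.nd (nat_lit 78) (nat_lit 380) (nat_lit 0) (XT.lf (nat_lit 0) (nat_lit 4530800811) (nat_lit 0) (nat_lit 1207288783) (nat_lit 228) (nat_lit 759113924) (nat_lit 278) (nat_lit 5) (nat_lit 278) (nat_lit 3) (nat_lit 281) (nat_lit 3)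 (nat_lit 264) (nat_lit 263) (nat_lit 253)) (XT.nd (nat_lit 78) (nat_lit 0) (nat_lit 0) (XT.lf (nat_lit 76) (nat_lit 975783782) (nat_lit 0) (nat_lit 715747582) (nat_lit 380) (nat_lit 4823582737) (nat_lit 274) (nat_lit 5) (nat_lit 273) (nat_lit 3) (nat_lit 278) (nat_lit 5) (nat_lit 265) (nat_lit 263) (nat_lit 252)) (XT.lf (nat_lit 76) (nat_lit 3989002919) (nat_lit 0) (nat_lit 136075084) (nat_lit 380) (nat_lit 2410822039) (nat_lit 274) (nat_lit 5) (nat_lit 273) (nat_lit 3) (nat_lit 278) (nat_lit 5) (nat_lit 266) (nat_lit 263) (nat_lit 251))))) (XT.nd (nat_lit 234) (nat_lit 456) (nat_lit 0) (XT.nd (nat_lit 78) (nat_lit 380) (nat_lit 0) (XT.lf (nat_lit 76) (nat_lit 488498626) (nat_lit 0) (nat_lit 6060309397) (nat_lit 380) (nat_lit 11280112) (nat_lit 275) (nat_lit 5) (nat_lit 274) (nat_lit 5) (nat_lit 279) (nat_lit 5) (nat_lit 267) (nat_lit 263) (nat_lit 250)) (XT.nd (nat_lit 78) (nat_lit 0) (nat_lit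 0) (XT.lf (nat_lit 0) (nat_lit 2348625808) (nat_lit 380) (nat_lit 2995805866) (nat_lit 456) (nat_lit 1242046149) (nat_lit 269) (nat_lit 5) (nat_lit 274) (nat_lit 5) (nat_lit 275) (nat_lit 5) (nat_lit 268) (nat_lit 263) (nat_lit 249)) (XT.lf (nat_lit 76) (nat_lit 122600554) (nat_lit 0) (nat_lit 4569394178) (nat_lit 456) (nat_lit 1924543288) (nat_lit 270) (nat_lit 5) (nat_lit 269) (nat_lit 5) (nat_lit 275) (nat_lit 5) (nat_lit 269) (nat_lit 263) (nat_lit 248)))) (XT.nd (nat_lit 78) (nat_lit 0) (nat_lit 0) (XT.lf (nat_lit 0) (nat_lit 392457139) (nat_lit 456) (nat_lit 3308739512) (nat_lit 532) (nat_lit 2948127770) (nat_lit 263) (nat_lit 5) (nat_lit 269) (nat_lit 5) (nat_lit 270) (nat_lit 5) (nat_lit 270) (nat_lit 263) (nat_lit 247)) (XT.nd (nat_lit 78) (nat_lit 0) (nat_lit 0) (XT.lf (nat_lit 0) (nat_lit 2655511015) (nat_lit 456) (nat_lit 98898376) (nat_lit 532) (nat_lit 3930902753) (nat_lit 263) (nat_lit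 5) (nat_lit 269) (nat_lit 5) (nat_lit 270) (nat_lit 5) (nat_lit 271) (nat_lit 263) (nat_lit 246)) (XT.lf (nat_lit 76) (nat_lit 3219718855) (nat_lit 0) (nat_lit 1715381589) (nat_lit 532) (nat_lit 1789058693) (nat_lit 264) (nat_lit 5) (nat_lit 263) (nat_lit 5) (nat_lit 270) (nat_lit 5) (nat_lit 272) (nat_lit 263) (nat_lit 245))))))) (XT.nd (nat_lit 936) (nat_lit 5852) (nat_lit 0) (XT.nd (nat_lit 468) (nat_lit 2432) (nat_lit 0) (XT.nd (nat_lit 234) (nat_lit 1140) (nat_lit 0) (XT.nd (nat_lit 78) (nat_lit 0) (nat_lit 76) (XT.lf (nat_lit 0) (nat_lit 428377535) (nat_lit 532) (nat_lit 180916916) (nat_lit 608) (nat_lit 6157364768) (nat_lit 256) (nat_lit 5) (nat_lit 263) (nat_lit 5) (nat_lit 264) (nat_lit 5) (nat_lit 273) (nat_lit 263) (nat_lit 244)) (XT.nd (nat_lit 78) (nat_lit 0) (nat_lit 0) (XT.lf (nat_lit 0) (nat_lit 2634315294) (nat_lit 532) (nat_lit 3579832327) (nat_lit 76) (nat_lit 597235854) (nat_lit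 257) (nat_lit 5) (nat_lit 264) (nat_lit 5) (nat_lit 258) (nat_lit 5) (nat_lit 274) (nat_lit 263) (nat_lit 243)) (XT.lf (nat_lit 0) (nat_lit 4837357542) (nat_lit 532) (nat_lit 165838181) (nat_lit 76) (nat_lit 1856538254) (nat_lit 257) (nat_lit 5) (nat_lit 264) (nat_lit 5) (nat_lit 258) (nat_lit 5) (nat_lit 275) (nat_lit 263) (nat_lit 242)))) (XT.nd (nat_lit 78) (nat_lit 608) (nat_lit 0) (XT.lf (nat_lit 0) (nat_lit 150130383) (nat_lit 608) (nat_lit 3547205037) (nat_lit 76) (nat_lit 3213632368) (nat_lit 249) (nat_lit 5) (nat_lit 257) (nat_lit 5) (nat_lit 250) (nat_lit 5) (nat_lit 276) (nat_lit 263) (nat_lit 241)) (XT.nd (nat_lit 78) (nat_lit 608) (nat_lit 0) (XT.lf (nat_lit 0) (nat_lit 2274917636) (nat_lit 608) (nat_lit 33209121) (nat_lit 76) (nat_lit 4657372854) (nat_lit 249) (nat_lit 5) (nat_lit 257) (nat_lit 5) (nat_lit 250) (nat_lit 5) (nat_lit 277) (nat_lit 263) (nat_lit 240)) (XT.lf (nat_lit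 0) (nat_lit 3605958444) (nat_lit 608) (nat_lit 820368054) (nat_lit 684) (nat_lit 2596643184) (nat_lit 241) (nat_lit 5) (nat_lit 249) (nat_lit 5) (nat_lit 250) (nat_lit 5) (nat_lit 278) (nat_lit 263) (nat_lit 239))))) (XT.nd (nat_lit 234) (nat_lit 912) (nat_lit 0) (XT.nd (nat_lit 78) (nat_lit 836) (nat_lit 0) (XT.lf (nat_lit 0) (nat_lit 217628510) (nat_lit 684) (nat_lit 6363941352) (nat_lit 760) (nat_lit 502598365) (nat_lit 232) (nat_lit 5) (nat_lit 241) (nat_lit 5) (nat_lit 242) (nat_lit 5) (nat_lit 279) (nat_lit 263) (nat_lit 238)) (XT.nd (nat_lit 78) (nat_lit 760) (nat_lit 0) (XT.lf (nat_lit 0) (nat_lit 1595659135) (nat_lit 760) (nat_lit 3192815249) (nat_lit 76) (nat_lit 2359213754) (nat_lit 231) (nat_lit 5) (nat_lit 241) (nat_lit 5) (nat_lit 232) (nat_lit 5) (nat_lit 280) (nat_lit 263) (nat_lit 237)) (XT.lf (nat_lit 0) (nat_lit 544701410) (nat_lit 760) (nat_lit 3140018445) (nat_lit 836) (nat_lit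 3530273387) (nat_lit 221) (nat_lit 5) (nat_lit 231) (nat_lit 5) (nat_lit 232) (nat_lit 5) (nat_lit 281) (nat_lit 263) (nat_lit 236)))) (XT.nd (nat_lit 78) (nat_lit 912) (nat_lit 0) (XT.lf (nat_lit 0) (nat_lit 4408231257) (nat_lit 760) (nat_lit 1394647466) (nat_lit 836) (nat_lit 1482608702) (nat_lit 221) (nat_lit 5) (nat_lit 231) (nat_lit 5) (nat_lit 232) (nat_lit 5) (nat_lit 282) (nat_lit 263) (nat_lit 235)) (XT.nd (nat_lit 78) (nat_lit 0) (nat_lit 0) (XT.lf (nat_lit 0) (nat_lit 563260760) (nat_lit 912) (nat_lit 6372486014) (nat_lit 76) (nat_lit 423852376) (nat_lit 209) (nat_lit 5) (nat_lit 221) (nat_lit 5) (nat_lit 210) (nat_lit 5) (nat_lit 283) (nat_lit 263) (nat_lit 234)) (XT.lf (nat_lit 0) (nat_lit 2620684621) (nat_lit 912) (nat_lit 2490605267) (nat_lit 76) (nat_lit 2324953551) (nat_lit 209) (nat_lit 5) (nat_lit 221) (nat_lit 5) (nat_lit 210) (nat_lit 5) (nat_lit 284) (nat_lit 263) (nat_lit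 233)))))) (XT.nd (nat_lit 468) (nat_lit 2812) (nat_lit 0) (XT.nd (nat_lit 234) (nat_lit 1064) (nat_lit 0) (XT.nd (nat_lit 78) (nat_lit 1064) (nat_lit 0) (XT.lf (nat_lit 0) (nat_lit 1485098141) (nat_lit 912) (nat_lit 3207675306) (nat_lit 988) (nat_lit 2823969915) (nat_lit 197) (nat_lit 5) (nat_lit 209) (nat_lit 5) (nat_lit 210) (nat_lit 5) (nat_lit 285) (nat_lit 263) (nat_lit 232)) (XT.nd (nat_lit 78) (nat_lit 1064) (nat_lit 0) (XT.lf (nat_lit 0) (nat_lit 5580020255) (nat_lit 912) (nat_lit 1212116623) (nat_lit 988) (nat_lit 808708405) (nat_lit 197) (nat_lit 5) (nat_lit 209) (nat_lit 5) (nat_lit 210) (nat_lit 5) (nat_lit 286) (nat_lit 263) (nat_lit 231)) (XT.lf (nat_lit 0) (nat_lit 1211860730) (nat_lit 1064) (nat_lit 5608949651) (nat_lit 76) (nat_lit 867339596) (nat_lit 183) (nat_lit 5) (nat_lit 197) (nat_lit 5) (nat_lit 184) (nat_lit 5) (nat_lit 287) (nat_lit 263) (nat_lit 230)))) (XT.nd (nat_lit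 78) (nat_lit 1064) (nat_lit 0) (XT.lf (nat_lit 0) (nat_lit 3251706224) (nat_lit 1064) (nat_lit 1506378524) (nat_lit 76) (nat_lit 3020629898) (nat_lit 183) (nat_lit 5) (nat_lit 197) (nat_lit 5) (nat_lit 184) (nat_lit 5) (nat_lit 288) (nat_lit 263) (nat_lit 229)) (XT.nd (nat_lit 78) (nat_lit 0) (nat_lit 0) (XT.lf (nat_lit 0) (nat_lit 2721543783) (nat_lit 1064) (nat_lit 2601348864) (nat_lit 1140) (nat_lit 2550123949) (nat_lit 169) (nat_lit 5) (nat_lit 183) (nat_lit 5) (nat_lit 184) (nat_lit 5) (nat_lit 289) (nat_lit 263) (nat_lit 228)) (XT.lf (nat_lit 0) (nat_lit 7056848333) (nat_lit 1064) (nat_lit 359709896) (nat_lit 1140) (nat_lit 554900147) (nat_lit 169) (nat_lit 5) (nat_lit 183) (nat_lit 5) (nat_lit 184) (nat_lit 5) (nat_lit 290) (nat_lit 263) (nat_lit 227))))) (XT.nd (nat_lit 234) (nat_lit 1140) (nat_lit 0) (XT.nd (nat_lit 78) (nat_lit 532) (nat_lit 0) (XT.lf (nat_lit 0) (nat_lit 1469424186)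 (nat_lit 1140) (nat_lit 4640153837) (nat_lit 76) (nat_lit 1963001358) (nat_lit 154) (nat_lit 5) (nat_lit 169) (nat_lit 5) (nat_lit 155) (nat_lit 5) (nat_lit 291) (nat_lit 263) (nat_lit 226)) (XT.nd (nat_lit 78) (nat_lit 532) (nat_lit 0) (XT.lf (nat_lit 0) (nat_lit 3503426605) (nat_lit 1140) (nat_lit 308274762) (nat_lit 76) (nat_lit 4366175593) (nat_lit 154) (nat_lit 5) (nat_lit 169) (nat_lit 5) (nat_lit 155) (nat_lit 5) (nat_lit 292) (nat_lit 263) (nat_lit 225)) (XT.lf (nat_lit 0) (nat_lit 4185435908) (nat_lit 532) (nat_lit 1401996259) (nat_lit 608) (nat_lit 2699339382) (nat_lit 147) (nat_lit 5) (nat_lit 154) (nat_lit 5) (nat_lit 155) (nat_lit 5) (nat_lit 293) (nat_lit 263) (nat_lit 224)))) (XT.nd (nat_lit 78) (nat_lit 608) (nat_lit 0) (XT.lf (nat_lit 0) (nat_lit 367262074) (nat_lit 532) (nat_lit 7333529264) (nat_lit 608) (nat_lit 699241075) (nat_lit 140) (nat_lit 5) (nat_lit 147) (nat_lit 5) (nat_lit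 148) (nat_lit 5) (nat_lit 294) (nat_lit 263) (nat_lit 223)) (XT.nd (nat_lit 78) (nat_lit 532) (nat_lit 0) (XT.lf (nat_lit 0) (nat_lit 1340180261) (nat_lit 608) (nat_lit 3540350792) (nat_lit 76) (nat_lit 3635689794) (nat_lit 139) (nat_lit 5) (nat_lit 147) (nat_lit 5) (nat_lit 140) (nat_lit 5) (nat_lit 295) (nat_lit 263) (nat_lit 222)) (XT.lf (nat_lit 0) (nat_lit 1050395148) (nat_lit 532) (nat_lit 2338052185) (nat_lit 608) (nat_lit 5248483970) (nat_lit 132) (nat_lit 5) (nat_lit 139) (nat_lit 5) (nat_lit 140) (nat_lit 5) (nat_lit 296) (nat_lit 263) (nat_lit 221))))))))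
noncomputable def xc118 : XT := (XT.nd (nat_lit 1794) (nat_lit 2812) (nat_lit 0) (XT.nd (nat_lit 858) (nat_lit 2280) (nat_lit 0) (XT.nd (nat_lit 390) (nat_lit 1368) (nat_lit 0) (XT.nd (nat_lit 156) (nat_lit 532) (nat_lit 0) (XT.nd (nat_lit 78) (nat_lit 532) (nat_lit 0) (XT.lf (nat_lit 0) (nat_lit 5489498360) (nat_lit 608) (nat_lit 2962831399) (nat_lit 76) (nat_lit 309286032) (nat_lit 132) (nat_lit 5) (nat_lit 140) (nat_lit 5) (nat_lit 133) (nat_lit 5) (nat_lit 297) (nat_lit 263) (nat_lit 220)) (XT.lf (nat_lit 0) (nat_lit 1761264475) (nat_lit 532) (nat_lit 5886311457) (nat_lit 608) (nat_lit 1242735122) (nat_lit 125) (nat_lit 5) (nat_lit 132) (nat_lit 5) (nat_lit 133) (nat_lit 5) (nat_lit 298) (nat_lit 263) (nat_lit 219))) (XT.nd (nat_lit 78) (nat_lit 456) (nat_lit 0) (XT.lf (nat_lit 0) (nat_lit 815458271) (nat_lit 608) (nat_lit 2392643737) (nat_lit 76) (nat_lit 5815071639) (nat_lit 124) (nat_lit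 5) (nat_lit 132) (nat_lit 5) (nat_lit 125) (nat_lit 5) (nat_lit 299) (nat_lit 263) (nat_lit 218)) (XT.nd (nat_lit 78) (nat_lit 0) (nat_lit 0) (XT.lf (nat_lit 0) (nat_lit 2473216691) (nat_lit 456) (nat_lit 416562479) (nat_lit 532) (nat_lit 6270575484) (nat_lit 118) (nat_lit 5) (nat_lit 124) (nat_lit 5) (nat_lit 125) (nat_lit 5) (nat_lit 300) (nat_lit 263) (nat_lit 217)) (XT.lf (nat_lit 0) (nat_lit 5030737610) (nat_lit 532) (nat_lit 1840159604) (nat_lit 76) (nat_lit 2430701686) (nat_lit 118) (nat_lit 5) (nat_lit 125) (nat_lit 5) (nat_lit 119) (nat_lit 5) (nat_lit 301) (nat_lit 263) (nat_lit 216))))) (XT.nd (nat_lit 234) (nat_lit 456) (nat_lit 0) (XT.nd (nat_lit 78) (nat_lit 456) (nat_lit 0) (XT.lf (nat_lit 0) (nat_lit 3161782898) (nat_lit 456) (nat_lit 4066302901) (nat_lit 532) (nat_lit 2219307558) (nat_lit 112) (nat_lit 5) (nat_lit 118) (nat_lit 5) (nat_lit 119) (nat_lit 5) (nat_lit 302) (nat_lit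 263) (nat_lit 215)) (XT.nd (nat_lit 78) (nat_lit 456) (nat_lit 0) (XT.lf (nat_lit 0) (nat_lit 8303957315) (nat_lit 456) (nat_lit 1164399370) (nat_lit 532) (nat_lit 129970346) (nat_lit 112) (nat_lit 5) (nat_lit 118) (nat_lit 5) (nat_lit 119) (nat_lit 5) (nat_lit 303) (nat_lit 263) (nat_lit 214)) (XT.lf (nat_lit 0) (nat_lit 1996847911) (nat_lit 456) (nat_lit 5916072523) (nat_lit 76) (nat_lit 1839928536) (nat_lit 106) (nat_lit 5) (nat_lit 112) (nat_lit 5) (nat_lit 107) (nat_lit 5) (nat_lit 304) (nat_lit 263) (nat_lit 213)))) (XT.nd (nat_lit 78) (nat_lit 456) (nat_lit 0) (XT.lf (nat_lit 0) (nat_lit 4169426303) (nat_lit 456) (nat_lit 823964357) (nat_lit 76) (nat_lit 4919109315) (nat_lit 106) (nat_lit 5) (nat_lit 112) (nat_lit 5) (nat_lit 107) (nat_lit 5) (nat_lit 305) (nat_lit 263) (nat_lit 212)) (XT.nd (nat_lit 78) (nat_lit 0) (nat_lit 0) (XT.lf (nat_lit 0) (nat_lit 4461565091) (nat_lit 456) (nat_lit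 1949513129) (nat_lit 532) (nat_lit 3665812443) (nat_lit 100) (nat_lit 5) (nat_lit 106) (nat_lit 5) (nat_lit 107) (nat_lit 5) (nat_lit 306) (nat_lit 263) (nat_lit 211)) (XT.lf (nat_lit 0) (nat_lit 8701409302) (nat_lit 532) (nat_lit 381981128) (nat_lit 76) (nat_lit 1163444836) (nat_lit 100) (nat_lit 5) (nat_lit 107) (nat_lit 5) (nat_lit 101) (nat_lit 5) (nat_lit 307) (nat_lit 263) (nat_lit 210)))))) (XT.nd (nat_lit 468) (nat_lit 684) (nat_lit 0) (XT.nd (nat_lit 234) (nat_lit 760) (nat_lit 0) (XT.nd (nat_lit 78) (nat_lit 380) (nat_lit 0) (XT.lf (nat_lit 0) (nat_lit 656864597) (nat_lit 456) (nat_lit 5385739239) (nat_lit 76) (nat_lit 4378228972) (nat_lit 94) (nat_lit 5) (nat_lit 100) (nat_lit 5) (nat_lit 95) (nat_lit 5) (nat_lit 308) (nat_lit 263) (nat_lit 209)) (XT.nd (nat_lit 78) (nat_lit 380) (nat_lit 0) (XT.lf (nat_lit 0) (nat_lit 2861032032) (nat_lit 456) (nat_lit 38828658) (nat_lit 76) (nat_lit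 7700784019) (nat_lit 94) (nat_lit 5) (nat_lit 100) (nat_lit 5) (nat_lit 95) (nat_lit 5) (nat_lit 309) (nat_lit 263) (nat_lit 208)) (XT.lf (nat_lit 0) (nat_lit 5152234466) (nat_lit 456) (nat_lit 5257366025) (nat_lit 76) (nat_lit 375681003) (nat_lit 89) (nat_lit 5) (nat_lit 95) (nat_lit 5) (nat_lit 90) (nat_lit 5) (nat_lit 310) (nat_lit 263) (nat_lit 207)))) (XT.nd (nat_lit 78) (nat_lit 456) (nat_lit 0) (XT.lf (nat_lit 0) (nat_lit 217220598) (nat_lit 304) (nat_lit 7290735747) (nat_lit 380) (nat_lit 3467683678) (nat_lit 85) (nat_lit 5) (nat_lit 89) (nat_lit 5) (nat_lit 90) (nat_lit 5) (nat_lit 311) (nat_lit 263) (nat_lit 206)) (XT.nd (nat_lit 78) (nat_lit 456) (nat_lit 0) (XT.lf (nat_lit 0) (nat_lit 5918944902) (nat_lit 304) (nat_lit 4033682014) (nat_lit 380) (nat_lit 1218588591) (nat_lit 85) (nat_lit 5) (nat_lit 89) (nat_lit 5) (nat_lit 90) (nat_lit 5) (nat_lit 312) (nat_lit 263) (nat_lit 205)) (XT.lf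 (nat_lit 0) (nat_lit 371461204) (nat_lit 380) (nat_lit 674478691) (nat_lit 456) (nat_lit 10327371520) (nat_lit 79) (nat_lit 5) (nat_lit 84) (nat_lit 5) (nat_lit 85) (nat_lit 5) (nat_lit 313) (nat_lit 263) (nat_lit 204))))) (XT.nd (nat_lit 234) (nat_lit 380) (nat_lit 0) (XT.nd (nat_lit 78) (nat_lit 304) (nat_lit 0) (XT.lf (nat_lit 0) (nat_lit 3400541388) (nat_lit 456) (nat_lit 5392494968) (nat_lit 76) (nat_lit 2786722884) (nat_lit 79) (nat_lit 5) (nat_lit 85) (nat_lit 5) (nat_lit 80) (nat_lit 5) (nat_lit 314) (nat_lit 263) (nat_lit 203)) (XT.nd (nat_lit 78) (nat_lit 0) (nat_lit 0) (XT.lf (nat_lit 0) (nat_lit 341613535) (nat_lit 304) (nat_lit 5461401891) (nat_lit 380) (nat_lit 5990116467) (nat_lit 75) (nat_lit 5) (nat_lit 79) (nat_lit 5) (nat_lit 80) (nat_lit 5) (nat_lit 315) (nat_lit 263) (nat_lit 202)) (XT.lf (nat_lit 0) (nat_lit 6315197277) (nat_lit 304) (nat_lit 1984631758) (nat_lit 380) (nat_lit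 3712455750) (nat_lit 75) (nat_lit 5) (nat_lit 79) (nat_lit 5) (nat_lit 80) (nat_lit 5) (nat_lit 316) (nat_lit 263) (nat_lit 201)))) (XT.nd (nat_lit 78) (nat_lit 76) (nat_lit 0) (XT.lf (nat_lit 0) (nat_lit 175336438) (nat_lit 304) (nat_lit 10681889540) (nat_lit 380) (nat_lit 1381261565) (nat_lit 71) (nat_lit 5) (nat_lit 75) (nat_lit 5) (nat_lit 76) (nat_lit 5) (nat_lit 317) (nat_lit 263) (nat_lit 200)) (XT.nd (nat_lit 78) (nat_lit 0) (nat_lit 0) (XT.lf (nat_lit 0) (nat_lit 1046521221) (nat_lit 380) (nat_lit 6202016098) (nat_lit 76) (nat_lit 5221291363) (nat_lit 70) (nat_lit 5) (nat_lit 75) (nat_lit 5) (nat_lit 71) (nat_lit 5) (nat_lit 318) (nat_lit 263) (nat_lit 199)) (XT.lf (nat_lit 0) (nat_lit 3489089341) (nat_lit 380) (nat_lit 220432015) (nat_lit 76) (nat_lit 8999128785) (nat_lit 70) (nat_lit 5) (nat_lit 75) (nat_lit 5) (nat_lit 71) (nat_lit 5) (nat_lit 319) (nat_lit 263) (nat_lit 198)))))))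 (XT.nd (nat_lit 936) (nat_lit 1140) (nat_lit 0) (XT.nd (nat_lit 468) (nat_lit 760) (nat_lit 0) (XT.nd (nat_lit 234) (nat_lit 304) (nat_lit 0) (XT.nd (nat_lit 78) (nat_lit 304) (nat_lit 0) (XT.lf (nat_lit 0) (nat_lit 6017528966) (nat_lit 304) (nat_lit 15845667) (nat_lit 380) (nat_lit 6920448966) (nat_lit 66) (nat_lit 5) (nat_lit 70) (nat_lit 5) (nat_lit 71) (nat_lit 5) (nat_lit 320) (nat_lit 263) (nat_lit 197)) (XT.nd (nat_lit 78) (nat_lit 304) (nat_lit 0) (XT.lf (nat_lit 0) (nat_lit 8663614814) (nat_lit 380) (nat_lit 836476168) (nat_lit 76) (nat_lit 3706011865) (nat_lit 66) (nat_lit 5) (nat_lit 71) (nat_lit 5) (nat_lit 67) (nat_lit 5) (nat_lit 321) (nat_lit 263) (nat_lit 196)) (XT.lf (nat_lit 0) (nat_lit 5514073240) (nat_lit 304) (nat_lit 5883655959) (nat_lit 380) (nat_lit 2067510494) (nat_lit 62) (nat_lit 5) (nat_lit 66) (nat_lit 5) (nat_lit 67) (nat_lit 5) (nat_lit 322) (nat_lit 263) (nat_lit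 195)))) (XT.nd (nat_lit 78) (nat_lit 228) (nat_lit 0) (XT.lf (nat_lit 0) (nat_lit 452784322) (nat_lit 380) (nat_lit 1704236762) (nat_lit 76) (nat_lit 11575612641) (nat_lit 61) (nat_lit 5) (nat_lit 66) (nat_lit 5) (nat_lit 62) (nat_lit 5) (nat_lit 323) (nat_lit 263) (nat_lit 194)) (XT.nd (nat_lit 78) (nat_lit 0) (nat_lit 0) (XT.lf (nat_lit 0) (nat_lit 3042389207) (nat_lit 304) (nat_lit 9259781098) (nat_lit 76) (nat_lit 1704242462) (nat_lit 58) (nat_lit 5) (nat_lit 62) (nat_lit 5) (nat_lit 59) (nat_lit 5) (nat_lit 324) (nat_lit 263) (nat_lit 193)) (XT.lf (nat_lit 0) (nat_lit 5721487354) (nat_lit 304) (nat_lit 2922551209) (nat_lit 76) (nat_lit 5644046432) (nat_lit 58) (nat_lit 5) (nat_lit 62) (nat_lit 5) (nat_lit 59) (nat_lit 5) (nat_lit 325) (nat_lit 263) (nat_lit 192))))) (XT.nd (nat_lit 234) (nat_lit 304) (nat_lit 0) (XT.nd (nat_lit 78) (nat_lit 228) (nat_lit 0) (XT.lf (nat_lit 0) (nat_lit 3637824762)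 (nat_lit 228) (nat_lit 4851955718) (nat_lit 304) (nat_lit 6088195226) (nat_lit 55) (nat_lit 5) (nat_lit 58) (nat_lit 5) (nat_lit 59) (nat_lit 5) (nat_lit 326) (nat_lit 263) (nat_lit 191)) (XT.nd (nat_lit 78) (nat_lit 228) (nat_lit 0) (XT.lf (nat_lit 0) (nat_lit 10417335705) (nat_lit 228) (nat_lit 927552035) (nat_lit 304) (nat_lit 3531594455) (nat_lit 55) (nat_lit 5) (nat_lit 58) (nat_lit 5) (nat_lit 59) (nat_lit 5) (nat_lit 327) (nat_lit 263) (nat_lit 190)) (XT.lf (nat_lit 0) (nat_lit 2191960342) (nat_lit 228) (nat_lit 12119590342) (nat_lit 304) (nat_lit 871647206) (nat_lit 52) (nat_lit 5) (nat_lit 55) (nat_lit 5) (nat_lit 56) (nat_lit 5) (nat_lit 328) (nat_lit 263) (nat_lit 189)))) (XT.nd (nat_lit 78) (nat_lit 228) (nat_lit 0) (XT.lf (nat_lit 0) (nat_lit 1861299119) (nat_lit 304) (nat_lit 6428666617) (nat_lit 76) (nat_lit 7207750282) (nat_lit 51) (nat_lit 5) (nat_lit 55) (nat_lit 5) (nat_lit 52)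 (nat_lit 5) (nat_lit 329) (nat_lit 263) (nat_lit 188)) (XT.nd (nat_lit 78) (nat_lit 0) (nat_lit 0) (XT.lf (nat_lit 0) (nat_lit 291604522) (nat_lit 228) (nat_lit 4345637266) (nat_lit 304) (nat_lit 11184841628) (nat_lit 48) (nat_lit 5) (nat_lit 51) (nat_lit 5) (nat_lit 52) (nat_lit 5) (nat_lit 330) (nat_lit 263) (nat_lit 187)) (XT.lf (nat_lit 0) (nat_lit 7309383419) (nat_lit 228) (nat_lit 228082510) (nat_lit 304) (nat_lit 8617513428) (nat_lit 48) (nat_lit 5) (nat_lit 51) (nat_lit 5) (nat_lit 52) (nat_lit 5) (nat_lit 331) (nat_lit 263) (nat_lit 186)))))) (XT.nd (nat_lit 468) (nat_lit 608) (nat_lit 0) (XT.nd (nat_lit 234) (nat_lit 304) (nat_lit 0) (XT.nd (nat_lit 78) (nat_lit 228) (nat_lit 0) (XT.lf (nat_lit 0) (nat_lit 10539943285) (nat_lit 304) (nat_lit 2034190172) (nat_lit 76) (nat_lit 3923298139) (nat_lit 48) (nat_lit 5) (nat_lit 52) (nat_lit 5) (nat_lit 49) (nat_lit 5) (nat_lit 332) (nat_lit 263)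 (nat_lit 185)) (XT.nd (nat_lit 78) (nat_lit 0) (nat_lit 0) (XT.lf (nat_lit 0) (nat_lit 5043296601) (nat_lit 228) (nat_lit 8617286426) (nat_lit 304) (nat_lit 3188757767) (nat_lit 45) (nat_lit 5) (nat_lit 48) (nat_lit 5) (nat_lit 49) (nat_lit 5) (nat_lit 333) (nat_lit 263) (nat_lit 184)) (XT.lf (nat_lit 0) (nat_lit 12340728489) (nat_lit 228) (nat_lit 4532337486) (nat_lit 304) (nat_lit 338819847) (nat_lit 45) (nat_lit 5) (nat_lit 48) (nat_lit 5) (nat_lit 49) (nat_lit 5) (nat_lit 334) (nat_lit 263) (nat_lit 183)))) (XT.nd (nat_lit 78) (nat_lit 0) (nat_lit 0) (XT.lf (nat_lit 0) (nat_lit 2257318673) (nat_lit 228) (nat_lit 288421043) (nat_lit 304) (nat_lit 15038848716) (nat_lit 41) (nat_lit 5) (nat_lit 44) (nat_lit 5) (nat_lit 45) (nat_lit 5) (nat_lit 335) (nat_lit 263) (nat_lit 182)) (XT.nd (nat_lit 78) (nat_lit 0) (nat_lit 0) (XT.lf (nat_lit 0) (nat_lit 5577249836) (nat_lit 304) (nat_lit 8344357393)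 (nat_lit 76) (nat_lit 4044770670) (nat_lit 41) (nat_lit 5) (nat_lit 45) (nat_lit 5) (nat_lit 42) (nat_lit 5) (nat_lit 336) (nat_lit 263) (nat_lit 181)) (XT.lf (nat_lit 0) (nat_lit 8681493979) (nat_lit 304) (nat_lit 1187605241) (nat_lit 76) (nat_lit 8491090625) (nat_lit 41) (nat_lit 5) (nat_lit 45) (nat_lit 5) (nat_lit 42) (nat_lit 5) (nat_lit 337) (nat_lit 263) (nat_lit 180))))) (XT.nd (nat_lit 234) (nat_lit 228) (nat_lit 0) (XT.nd (nat_lit 78) (nat_lit 228) (nat_lit 0) (XT.lf (nat_lit 0) (nat_lit 6274449764) (nat_lit 152) (nat_lit 5644276198) (nat_lit 228) (nat_lit 6845916173) (nat_lit 39) (nat_lit 5) (nat_lit 41) (nat_lit 5) (nat_lit 42) (nat_lit 5) (nat_lit 338) (nat_lit 263) (nat_lit 179)) (XT.nd (nat_lit 78) (nat_lit 228) (nat_lit 0) (XT.lf (nat_lit 0) (nat_lit 13953186462) (nat_lit 152) (nat_lit 1291720286) (nat_lit 228) (nat_lit 3936587458) (nat_lit 39) (nat_lit 5) (nat_lit 41) (nat_lit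 5) (nat_lit 42) (nat_lit 5) (nat_lit 339) (nat_lit 263) (nat_lit 178)) (XT.lf (nat_lit 0) (nat_lit 2233225687) (nat_lit 228) (nat_lit 16470112716) (nat_lit 304) (nat_lit 906560024) (nat_lit 36) (nat_lit 5) (nat_lit 39) (nat_lit 5) (nat_lit 40) (nat_lit 5) (nat_lit 340) (nat_lit 263) (nat_lit 177)))) (XT.nd (nat_lit 78) (nat_lit 152) (nat_lit 0) (XT.lf (nat_lit 0) (nat_lit 2217651558) (nat_lit 304) (nat_lit 10089601450) (nat_lit 76) (nat_lit 7741887753) (nat_lit 35) (nat_lit 5) (nat_lit 39) (nat_lit 5) (nat_lit 36) (nat_lit 5) (nat_lit 341) (nat_lit 263) (nat_lit 176)) (XT.nd (nat_lit 78) (nat_lit 152) (nat_lit 0) (XT.lf (nat_lit 0) (nat_lit 5398325744) (nat_lit 304) (nat_lit 2623197697) (nat_lit 76) (nat_lit 12480357740) (nat_lit 35) (nat_lit 5) (nat_lit 39) (nat_lit 5) (nat_lit 36) (nat_lit 5) (nat_lit 342) (nat_lit 263) (nat_lit 175)) (XT.lf (nat_lit 0) (nat_lit 5138038609) (nat_lit 152) (nat_lit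 3567283373) (nat_lit 228) (nat_lit 12261973035) (nat_lit 33) (nat_lit 5) (nat_lit 35) (nat_lit 5) (nat_lit 36) (nat_lit 5) (nat_lit 343) (nat_lit 263) (nat_lit 174))))))))
noncomputable def xc119 : XT := (XT.nd (nat_lit 1872) (nat_lit 608) (nat_lit 0) (XT.nd (nat_lit 936) (nat_lit 456) (nat_lit 0) (XT.nd (nat_lit 468) (nat_lit 380) (nat_lit 0) (XT.nd (nat_lit 234) (nat_lit 228) (nat_lit 0) (XT.nd (nat_lit 78) (nat_lit 152) (nat_lit 0) (XT.lf (nat_lit 0) (nat_lit 12129755507) (nat_lit 228) (nat_lit 8299656920) (nat_lit 76) (nat_lit 1016729747) (nat_lit 33) (nat_lit 5) (nat_lit 36) (nat_lit 5) (nat_lit 34) (nat_lit 5) (nat_lit 344) (nat_lit 263) (nat_lit 173)) (XT.nd (nat_lit 78) (nat_lit 152) (nat_lit 0) (XT.lf (nat_lit 0) (nat_lit 15674441187) (nat_lit 228) (nat_lit 608219731) (nat_lit 76) (nat_lit 5656185463) (nat_lit 33) (nat_lit 5) (nat_lit 36) (nat_lit 5) (nat_lit 34) (nat_lit 5) (nat_lit 345)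 (nat_lit 263) (nat_lit 172)) (XT.lf (nat_lit 0) (nat_lit 7431073755) (nat_lit 152) (nat_lit 11948543683) (nat_lit 228) (nat_lit 3065106485) (nat_lit 31) (nat_lit 5) (nat_lit 33) (nat_lit 5) (nat_lit 34) (nat_lit 5) (nat_lit 346) (nat_lit 263) (nat_lit 171)))) (XT.nd (nat_lit 78) (nat_lit 152) (nat_lit 0) (XT.lf (nat_lit 0) (nat_lit 214653521) (nat_lit 228) (nat_lit 7271831941) (nat_lit 76) (nat_lit 15479572491) (nat_lit 30) (nat_lit 5) (nat_lit 33) (nat_lit 5) (nat_lit 31) (nat_lit 5) (nat_lit 347) (nat_lit 263) (nat_lit 170)) (XT.nd (nat_lit 78) (nat_lit 0) (nat_lit 0) (XT.lf (nat_lit 0) (nat_lit 657560539) (nat_lit 152) (nat_lit 2863234038) (nat_lit 228) (nat_lit 19981654474) (nat_lit 28) (nat_lit 5) (nat_lit 30) (nat_lit 5) (nat_lit 31) (nat_lit 5) (nat_lit 348) (nat_lit 263) (nat_lit 169)) (XT.lf (nat_lit 0) (nat_lit 7001931414) (nat_lit 228) (nat_lit 15125114974) (nat_lit 76) (nat_lit 1925625995)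 (nat_lit 28) (nat_lit 5) (nat_lit 31) (nat_lit 5) (nat_lit 29) (nat_lit 5) (nat_lit 349) (nat_lit 263) (nat_lit 168))))) (XT.nd (nat_lit 234) (nat_lit 228) (nat_lit 0) (XT.nd (nat_lit 78) (nat_lit 152) (nat_lit 0) (XT.lf (nat_lit 0) (nat_lit 10599736307) (nat_lit 228) (nat_lit 7228609311) (nat_lit 76) (nat_lit 6790704193) (nat_lit 28) (nat_lit 5) (nat_lit 31) (nat_lit 5) (nat_lit 29) (nat_lit 5) (nat_lit 350) (nat_lit 263) (nat_lit 167)) (XT.nd (nat_lit 78) (nat_lit 0) (nat_lit 0) (XT.lf (nat_lit 0) (nat_lit 896546341) (nat_lit 152) (nat_lit 13401901621) (nat_lit 228) (nat_lit 10904195413) (nat_lit 26) (nat_lit 5) (nat_lit 28) (nat_lit 5) (nat_lit 29) (nat_lit 5) (nat_lit 351) (nat_lit 263) (nat_lit 166)) (XT.lf (nat_lit 0) (nat_lit 9388148392) (nat_lit 152) (nat_lit 8777532514) (nat_lit 228) (nat_lit 7636350629) (nat_lit 26) (nat_lit 5) (nat_lit 28) (nat_lit 5) (nat_lit 29) (nat_lit 5) (nat_lit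 352) (nat_lit 263) (nat_lit 165)))) (XT.nd (nat_lit 78) (nat_lit 228) (nat_lit 0) (XT.lf (nat_lit 0) (nat_lit 18109753188) (nat_lit 152) (nat_lit 4024192366) (nat_lit 228) (nat_lit 4285918536) (nat_lit 26) (nat_lit 5) (nat_lit 28) (nat_lit 5) (nat_lit 29) (nat_lit 5) (nat_lit 353) (nat_lit 263) (nat_lit 164)) (XT.nd (nat_lit 78) (nat_lit 76) (nat_lit 0) (XT.lf (nat_lit 0) (nat_lit 4091813) (nat_lit 152) (nat_lit 26210945529) (nat_lit 228) (nat_lit 841393709) (nat_lit 24) (nat_lit 5) (nat_lit 26) (nat_lit 5) (nat_lit 27) (nat_lit 4) (nat_lit 354) (nat_lit 263) (nat_lit 163)) (XT.lf (nat_lit 0) (nat_lit 2763643307) (nat_lit 228) (nat_lit 19062644735) (nat_lit 76) (nat_lit 5881738883) (nat_lit 23) (nat_lit 5) (nat_lit 26) (nat_lit 5) (nat_lit 24) (nat_lit 5) (nat_lit 355) (nat_lit 263) (nat_lit 162)))))) (XT.nd (nat_lit 468) (nat_lit 228) (nat_lit 0) (XT.nd (nat_lit 234) (nat_lit 76) (nat_lit 0) (XT.nd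 (nat_lit 78) (nat_lit 152) (nat_lit 0) (XT.lf (nat_lit 0) (nat_lit 6445744719) (nat_lit 228) (nat_lit 10865324370) (nat_lit 76) (nat_lit 11068288654) (nat_lit 23) (nat_lit 5) (nat_lit 26) (nat_lit 5) (nat_lit 24) (nat_lit 5) (nat_lit 356) (nat_lit 263) (nat_lit 161)) (XT.nd (nat_lit 78) (nat_lit 152) (nat_lit 0) (XT.lf (nat_lit 0) (nat_lit 10224546517) (nat_lit 228) (nat_lit 2445127445) (nat_lit 76) (nat_lit 16401578781) (nat_lit 23) (nat_lit 5) (nat_lit 26) (nat_lit 5) (nat_lit 24) (nat_lit 5) (nat_lit 357) (nat_lit 263) (nat_lit 160)) (XT.lf (nat_lit 0) (nat_lit 6328801200) (nat_lit 152) (nat_lit 7835385674) (nat_lit 228) (nat_lit 15618304531) (nat_lit 21) (nat_lit 5) (nat_lit 23) (nat_lit 5) (nat_lit 24) (nat_lit 5) (nat_lit 358) (nat_lit 263) (nat_lit 159)))) (XT.nd (nat_lit 78) (nat_lit 76) (nat_lit 0) (XT.lf (nat_lit 0) (nat_lit 15393917859) (nat_lit 152) (nat_lit 2839604009) (nat_lit 228)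 (nat_lit 12281210921) (nat_lit 21) (nat_lit 5) (nat_lit 23) (nat_lit 5) (nat_lit 24) (nat_lit 5) (nat_lit 359) (nat_lit 263) (nat_lit 158)) (XT.nd (nat_lit 78) (nat_lit 76) (nat_lit 0) (XT.lf (nat_lit 0) (nat_lit 22434218879) (nat_lit 228) (nat_lit 6581938686) (nat_lit 76) (nat_lit 2252515804) (nat_lit 21) (nat_lit 5) (nat_lit 24) (nat_lit 5) (nat_lit 22) (nat_lit 4) (nat_lit 360) (nat_lit 263) (nat_lit 157)) (XT.lf (nat_lit 0) (nat_lit 2206870307) (nat_lit 76) (nat_lit 24590885261) (nat_lit 152) (nat_lit 5246382145) (nat_lit 20) (nat_lit 5) (nat_lit 21) (nat_lit 5) (nat_lit 22) (nat_lit 4) (nat_lit 361) (nat_lit 263) (nat_lit 156))))) (XT.nd (nat_lit 234) (nat_lit 152) (nat_lit 0) (XT.nd (nat_lit 78) (nat_lit 76) (nat_lit 0) (XT.lf (nat_lit 0) (nat_lit 11373291899) (nat_lit 76) (nat_lit 19973023965) (nat_lit 152) (nat_lit 1494936412) (nat_lit 20) (nat_lit 5) (nat_lit 21) (nat_lit 5) (nat_lit 22)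 (nat_lit 4) (nat_lit 362) (nat_lit 263) (nat_lit 155)) (XT.nd (nat_lit 78) (nat_lit 0) (nat_lit 0) (XT.lf (nat_lit 0) (nat_lit 2310708367) (nat_lit 152) (nat_lit 12890961339) (nat_lit 76) (nat_lit 18460300107) (nat_lit 19) (nat_lit 5) (nat_lit 21) (nat_lit 5) (nat_lit 20) (nat_lit 5) (nat_lit 363) (nat_lit 263) (nat_lit 154)) (XT.lf (nat_lit 0) (nat_lit 6188713056) (nat_lit 152) (nat_lit 4091467676) (nat_lit 76) (nat_lit 24227045966) (nat_lit 19) (nat_lit 5) (nat_lit 21) (nat_lit 5) (nat_lit 20) (nat_lit 5) (nat_lit 364) (nat_lit 263) (nat_lit 153)))) (XT.nd (nat_lit 78) (nat_lit 0) (nat_lit 0) (XT.lf (nat_lit 0) (nat_lit 5051145779) (nat_lit 152) (nat_lit 5169046720) (nat_lit 228) (nat_lit 25156543473) (nat_lit 17) (nat_lit 5) (nat_lit 19) (nat_lit 5) (nat_lit 20) (nat_lit 5) (nat_lit 365) (nat_lit 263) (nat_lit 152)) (XT.nd (nat_lit 78) (nat_lit 0) (nat_lit 0) (XT.lf (nat_lit 0) (nat_lit 14403909428)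 (nat_lit 228) (nat_lit 21740019259) (nat_lit 76) (nat_lit 127471509) (nat_lit 17) (nat_lit 5) (nat_lit 20) (nat_lit 5) (nat_lit 18) (nat_lit 4) (nat_lit 366) (nat_lit 263) (nat_lit 151)) (XT.lf (nat_lit 0) (nat_lit 18753298087) (nat_lit 228) (nat_lit 12967002216) (nat_lit 76) (nat_lit 5471407459) (nat_lit 17) (nat_lit 5) (nat_lit 20) (nat_lit 5) (nat_lit 18) (nat_lit 4) (nat_lit 367) (nat_lit 263) (nat_lit 150))))))) (XT.nd (nat_lit 936) (nat_lit 228) (nat_lit 0) (XT.nd (nat_lit 468) (nat_lit 76) (nat_lit 0) (XT.nd (nat_lit 234) (nat_lit 228) (nat_lit 0) (XT.nd (nat_lit 78) (nat_lit 76) (nat_lit 0) (XT.lf (nat_lit 0) (nat_lit 23222470872) (nat_lit 228) (nat_lit 3949185281) (nat_lit 76) (nat_lit 10968297308) (nat_lit 17) (nat_lit 5) (nat_lit 20) (nat_lit 5) (nat_lit 18) (nat_lit 4) (nat_lit 368) (nat_lit 263) (nat_lit 149)) (XT.nd (nat_lit 78) (nat_lit 0) (nat_lit 0) (XT.lf (nat_lit 0) (nat_lit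 5427215717) (nat_lit 76) (nat_lit 22440286887) (nat_lit 152) (nat_lit 11247898163) (nat_lit 16) (nat_lit 5) (nat_lit 17) (nat_lit 5) (nat_lit 18) (nat_lit 4) (nat_lit 369) (nat_lit 263) (nat_lit 148)) (XT.lf (nat_lit 0) (nat_lit 15148183251) (nat_lit 76) (nat_lit 17533327664) (nat_lit 152) (nat_lit 7437719330) (nat_lit 16) (nat_lit 5) (nat_lit 17) (nat_lit 5) (nat_lit 18) (nat_lit 4) (nat_lit 370) (nat_lit 263) (nat_lit 147)))) (XT.nd (nat_lit 78) (nat_lit 228) (nat_lit 0) (XT.lf (nat_lit 0) (nat_lit 25143614838) (nat_lit 76) (nat_lit 12486369878) (nat_lit 152) (nat_lit 3523495838) (nat_lit 16) (nat_lit 5) (nat_lit 17) (nat_lit 5) (nat_lit 18) (nat_lit 4) (nat_lit 371) (nat_lit 263) (nat_lit 146)) (XT.nd (nat_lit 78) (nat_lit 152) (nat_lit 0) (XT.lf (nat_lit 0) (nat_lit 488470980) (nat_lit 152) (nat_lit 6801599987) (nat_lit 76) (nat_lit 34928840772) (nat_lit 15) (nat_lit 5) (nat_lit 17) (nat_lit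 5) (nat_lit 16) (nat_lit 5) (nat_lit 372) (nat_lit 263) (nat_lit 145)) (XT.lf (nat_lit 0) (nat_lit 2684027615) (nat_lit 152) (nat_lit 1882267956) (nat_lit 228) (nat_lit 38748480862) (nat_lit 13) (nat_lit 5) (nat_lit 15) (nat_lit 5) (nat_lit 16) (nat_lit 5) (nat_lit 373) (nat_lit 263) (nat_lit 144))))) (XT.nd (nat_lit 234) (nat_lit 76) (nat_lit 0) (XT.nd (nat_lit 78) (nat_lit 0) (nat_lit 0) (XT.lf (nat_lit 0) (nat_lit 8861838352) (nat_lit 228) (nat_lit 31900371539) (nat_lit 76) (nat_lit 3678452164) (nat_lit 13) (nat_lit 5) (nat_lit 16) (nat_lit 5) (nat_lit 14) (nat_lit 4) (nat_lit 374) (nat_lit 263) (nat_lit 143)) (XT.nd (nat_lit 78) (nat_lit 0) (nat_lit 0) (XT.lf (nat_lit 0) (nat_lit 13295729855) (nat_lit 228) (nat_lit 22942676548) (nat_lit 76) (nat_lit 9361639669) (nat_lit 13) (nat_lit 5) (nat_lit 16) (nat_lit 5) (nat_lit 14) (nat_lit 4) (nat_lit 375) (nat_lit 263) (nat_lit 142)) (XT.lf (nat_lit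 0) (nat_lit 17853750843) (nat_lit 228) (nat_lit 13731743222) (nat_lit 76) (nat_lit 15208990278) (nat_lit 13) (nat_lit 5) (nat_lit 16) (nat_lit 5) (nat_lit 14) (nat_lit 4) (nat_lit 376) (nat_lit 263) (nat_lit 141)))) (XT.nd (nat_lit 78) (nat_lit 76) (nat_lit 0) (XT.lf (nat_lit 0) (nat_lit 22539884053) (nat_lit 228) (nat_lit 4259523175) (nat_lit 76) (nat_lit 21225613325) (nat_lit 13) (nat_lit 5) (nat_lit 16) (nat_lit 5) (nat_lit 14) (nat_lit 4) (nat_lit 377) (nat_lit 263) (nat_lit 140)) (XT.nd (nat_lit 78) (nat_lit 0) (nat_lit 0) (XT.lf (nat_lit 0) (nat_lit 5591368020) (nat_lit 76) (nat_lit 21820603794) (nat_lit 152) (nat_lit 21879145683) (nat_lit 12) (nat_lit 5) (nat_lit 13) (nat_lit 5) (nat_lit 14) (nat_lit 4) (nat_lit 378) (nat_lit 263) (nat_lit 139)) (XT.lf (nat_lit 0) (nat_lit 15810641988) (nat_lit 76) (nat_lit 16654320954) (nat_lit 152) (nat_lit 18129197785) (nat_lit 12) (nat_lit 5) (nat_lit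 13) (nat_lit 5) (nat_lit 14) (nat_lit 4) (nat_lit 379) (nat_lit 263) (nat_lit 138)))))) (XT.nd (nat_lit 468) (nat_lit 76) (nat_lit 0) (XT.nd (nat_lit 234) (nat_lit 152) (nat_lit 0) (XT.nd (nat_lit 78) (nat_lit 0) (nat_lit 0) (XT.lf (nat_lit 0) (nat_lit 26322455326) (nat_lit 76) (nat_lit 11339057311) (nat_lit 152) (nat_lit 14275028984) (nat_lit 12) (nat_lit 5) (nat_lit 13) (nat_lit 5) (nat_lit 14) (nat_lit 4) (nat_lit 380) (nat_lit 263) (nat_lit 137)) (XT.nd (nat_lit 78) (nat_lit 0) (nat_lit 0) (XT.lf (nat_lit 0) (nat_lit 37135993115) (nat_lit 76) (nat_lit 5870168461) (nat_lit 152) (nat_lit 10313271561) (nat_lit 12) (nat_lit 5) (nat_lit 13) (nat_lit 5) (nat_lit 14) (nat_lit 4) (nat_lit 381) (nat_lit 263) (nat_lit 136)) (XT.lf (nat_lit 0) (nat_lit 48260704077) (nat_lit 76) (nat_lit 242875763) (nat_lit 152) (nat_lit 6240463785) (nat_lit 12) (nat_lit 5) (nat_lit 13) (nat_lit 5) (nat_lit 14) (nat_lit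 4) (nat_lit 382) (nat_lit 263) (nat_lit 135)))) (XT.nd (nat_lit 78) (nat_lit 76) (nat_lit 0) (XT.lf (nat_lit 0) (nat_lit 3509852557) (nat_lit 76) (nat_lit 50735785541) (nat_lit 76) (nat_lit 1963367779) (nat_lit 11) (nat_lit 4) (nat_lit 12) (nat_lit 5) (nat_lit 12) (nat_lit 4) (nat_lit 383) (nat_lit 263) (nat_lit 134)) (XT.nd (nat_lit 78) (nat_lit 0) (nat_lit 0) (XT.lf (nat_lit 0) (nat_lit 2455522078) (nat_lit 152) (nat_lit 43819781930) (nat_lit 76) (nat_lit 11440079424) (nat_lit 10) (nat_lit 5) (nat_lit 12) (nat_lit 5) (nat_lit 11) (nat_lit 4) (nat_lit 384) (nat_lit 263) (nat_lit 133)) (XT.lf (nat_lit 0) (nat_lit 6960344122) (nat_lit 152) (nat_lit 34706132977) (nat_lit 76) (nat_lit 17600111772) (nat_lit 10) (nat_lit 5) (nat_lit 12) (nat_lit 5) (nat_lit 11) (nat_lit 4) (nat_lit 385) (nat_lit 263) (nat_lit 132))))) (XT.nd (nat_lit 234) (nat_lit 76) (nat_lit 0) (XT.nd (nat_lit 78) (nat_lit 0) (nat_lit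 0) (XT.lf (nat_lit 0) (nat_lit 11593346980) (nat_lit 152) (nat_lit 25331369985) (nat_lit 76) (nat_lit 23939826841) (nat_lit 10) (nat_lit 5) (nat_lit 12) (nat_lit 5) (nat_lit 11) (nat_lit 4) (nat_lit 386) (nat_lit 263) (nat_lit 131)) (XT.nd (nat_lit 78) (nat_lit 0) (nat_lit 0) (XT.lf (nat_lit 0) (nat_lit 16358578908) (nat_lit 152) (nat_lit 15687301416) (nat_lit 76) (nat_lit 30464764187) (nat_lit 10) (nat_lit 5) (nat_lit 12) (nat_lit 5) (nat_lit 11) (nat_lit 4) (nat_lit 387) (nat_lit 263) (nat_lit 130)) (XT.lf (nat_lit 0) (nat_lit 21260203700) (nat_lit 152) (nat_lit 5765500412) (nat_lit 76) (nat_lit 37180625212) (nat_lit 10) (nat_lit 5) (nat_lit 12) (nat_lit 5) (nat_lit 11) (nat_lit 4) (nat_lit 388) (nat_lit 263) (nat_lit 129)))) (XT.nd (nat_lit 78) (nat_lit 0) (nat_lit 0) (XT.lf (nat_lit 0) (nat_lit 4531121053) (nat_lit 76) (nat_lit 21814939184) (nat_lit 152) (nat_lit 39605712998) (nat_lit 9) (nat_lit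 5) (nat_lit 10) (nat_lit 5) (nat_lit 11) (nat_lit 4) (nat_lit 389) (nat_lit 263) (nat_lit 128)) (XT.nd (nat_lit 78) (nat_lit 0) (nat_lit 0) (XT.lf (nat_lit 0) (nat_lit 15243686522) (nat_lit 76) (nat_lit 16392731808) (nat_lit 152) (nat_lit 36111608283) (nat_lit 9) (nat_lit 5) (nat_lit 10) (nat_lit 5) (nat_lit 11) (nat_lit 4) (nat_lit 390) (nat_lit 263) (nat_lit 127)) (XT.lf (nat_lit 0) (nat_lit 26266811725) (nat_lit 76) (nat_lit 10812564384) (nat_lit 152) (nat_lit 32518978627) (nat_lit 9) (nat_lit 5) (nat_lit 10) (nat_lit 5) (nat_lit 11) (nat_lit 4) (nat_lit 391) (nat_lit 263) (nat_lit 126))))))))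
noncomputable def xc120 : XT := (XT.nd (nat_lit 31902) (nat_lit 0) (nat_lit 7904) (XT.nd (nat_lit 30966) (nat_lit 0) (nat_lit 17632) (XT.nd (nat_lit 390) (nat_lit 0) (nat_lit 0) (XT.nd (nat_lit 156) (nat_lit 76) (nat_lit 0) (XT.nd (nat_lit 78) (nat_lit 0) (nat_lit 0) (XT.lf (nat_lit 0) (nat_lit 37610128519) (nat_lit 76) (nat_lit 5069561037) (nat_lit 152) (nat_lit 28824684839) (nat_lit 9) (nat_lit 5) (nat_lit 10) (nat_lit 5) (nat_lit 11) (nat_lit 4) (nat_lit 392) (nat_lit 263) (nat_lit 125)) (XT.lf (nat_lit 0) (nat_lit 48450339205) (nat_lit 152) (nat_lit 24192289560) (nat_lit 0) (nat_lit 824879668) (nat_lit 9) (nat_lit 5) (nat_lit 11) (nat_lit 4) (nat_lit 9) (nat_lit 4) (nat_lit 393) (nat_lit 263) (nat_lit 124))) (XT.nd (nat_lit 78) (nat_lit 76) (nat_lit 0) (XT.lf (nat_lit 0) (nat_lit 54438668134) (nat_lit 152) (nat_lit 14259497388) (nat_lit 0) (nat_lit 6790037665) (nat_lit 9) (nat_lit 5) (nat_lit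 11) (nat_lit 4) (nat_lit 9) (nat_lit 4) (nat_lit 394) (nat_lit 263) (nat_lit 123)) (XT.nd (nat_lit 78) (nat_lit 76) (nat_lit 0) (XT.lf (nat_lit 0) (nat_lit 60601177142) (nat_lit 152) (nat_lit 4038458499) (nat_lit 0) (nat_lit 12930050622) (nat_lit 9) (nat_lit 5) (nat_lit 11) (nat_lit 4) (nat_lit 9) (nat_lit 4) (nat_lit 395) (nat_lit 263) (nat_lit 122)) (XT.lf (nat_lit 0) (nat_lit 6608718001) (nat_lit 76) (nat_lit 60398059983) (nat_lit 76) (nat_lit 12705092638) (nat_lit 8) (nat_lit 4) (nat_lit 9) (nat_lit 5) (nat_lit 9) (nat_lit 4) (nat_lit 396) (nat_lit 263) (nat_lit 121))))) (XT.nd (nat_lit 30342) (nat_lit 0) (nat_lit 19760) (XT.nd (nat_lit 78) (nat_lit 0) (nat_lit 0) (XT.lf (nat_lit 0) (nat_lit 17648733473) (nat_lit 76) (nat_lit 55991348111) (nat_lit 76) (nat_lit 8277176080) (nat_lit 8) (nat_lit 4) (nat_lit 9) (nat_lit 5) (nat_lit 9) (nat_lit 4) (nat_lit 397) (nat_lit 263) (nat_lit 120)) (XT.nd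 (nat_lit 30186) (nat_lit 0) (nat_lit 20140) (XT.lf (nat_lit 0) (nat_lit 29010861287) (nat_lit 76) (nat_lit 51456430010) (nat_lit 76) (nat_lit 3721670906) (nat_lit 8) (nat_lit 4) (nat_lit 9) (nat_lit 5) (nat_lit 9) (nat_lit 4) (nat_lit 398) (nat_lit 263) (nat_lit 119)) (XT.lf (nat_lit 0) (nat_lit 829055399) (nat_lit 380) (nat_lit 1213803279) (nat_lit 380) (nat_lit 1213803279) (nat_lit 273) (nat_lit 3) (nat_lit 278) (nat_lit 3) (nat_lit 278) (nat_lit 5) (nat_lit 264) (nat_lit 264) (nat_lit 252)))) (XT.nd (nat_lit 78) (nat_lit 380) (nat_lit 0) (XT.lf (nat_lit 76) (nat_lit 473388967) (nat_lit 0) (nat_lit 3569092112) (nat_lit 380) (nat_lit 2490227482) (nat_lit 274) (nat_lit 5) (nat_lit 273) (nat_lit 3) (nat_lit 278) (nat_lit 5) (nat_lit 265) (nat_lit 264) (nat_lit 251)) (XT.nd (nat_lit 78) (nat_lit 380) (nat_lit 0) (XT.lf (nat_lit 76) (nat_lit 3462753919) (nat_lit 0) (nat_lit 2967770094) (nat_lit 380)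 (nat_lit 124480370) (nat_lit 274) (nat_lit 5) (nat_lit 273) (nat_lit 3) (nat_lit 278) (nat_lit 5) (nat_lit 266) (nat_lit 264) (nat_lit 250)) (XT.lf (nat_lit 0) (nat_lit 2176269283) (nat_lit 380) (nat_lit 107494607) (nat_lit 456) (nat_lit 4296540897) (nat_lit 268) (nat_lit 5) (nat_lit 273) (nat_lit 3) (nat_lit 274) (nat_lit 5) (nat_lit 267) (nat_lit 264) (nat_lit 249)))))) (XT.nd (nat_lit 468) (nat_lit 1216) (nat_lit 0) (XT.nd (nat_lit 234) (nat_lit 456) (nat_lit 0) (XT.nd (nat_lit 78) (nat_lit 456) (nat_lit 0) (XT.lf (nat_lit 76) (nat_lit 2975974802) (nat_lit 0) (nat_lit 1507967933) (nat_lit 456) (nat_lit 2124441342) (nat_lit 269) (nat_lit 5) (nat_lit 268) (nat_lit 5) (nat_lit 274) (nat_lit 5) (nat_lit 268) (nat_lit 264) (nat_lit 248)) (XT.nd (nat_lit 78) (nat_lit 0) (nat_lit 76) (XT.lf (nat_lit 0) (nat_lit 133078078) (nat_lit 456) (nat_lit 534471096) (nat_lit 532) (nat_lit 5972528631) (nat_lit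 262) (nat_lit 5) (nat_lit 268) (nat_lit 5) (nat_lit 269) (nat_lit 5) (nat_lit 269) (nat_lit 264) (nat_lit 247)) (XT.lf (nat_lit 0) (nat_lit 2359053893) (nat_lit 456) (nat_lit 4037722034) (nat_lit 532) (nat_lit 277258620) (nat_lit 263) (nat_lit 5) (nat_lit 269) (nat_lit 5) (nat_lit 270) (nat_lit 5) (nat_lit 270) (nat_lit 264) (nat_lit 246)))) (XT.nd (nat_lit 78) (nat_lit 532) (nat_lit 0) (XT.lf (nat_lit 0) (nat_lit 4581562957) (nat_lit 456) (nat_lit 852682598) (nat_lit 532) (nat_lit 1277110773) (nat_lit 263) (nat_lit 5) (nat_lit 269) (nat_lit 5) (nat_lit 270) (nat_lit 5) (nat_lit 271) (nat_lit 264) (nat_lit 245)) (XT.nd (nat_lit 78) (nat_lit 0) (nat_lit 0) (XT.lf (nat_lit 0) (nat_lit 61216738) (nat_lit 532) (nat_lit 4325953165) (nat_lit 608) (nat_lit 2364539396) (nat_lit 256) (nat_lit 5) (nat_lit 263) (nat_lit 5) (nat_lit 264) (nat_lit 5) (nat_lit 272) (nat_lit 264) (nat_lit 244)) (XT.lf (nat_lit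 0) (nat_lit 2204805968) (nat_lit 532) (nat_lit 1044353200) (nat_lit 608) (nat_lit 3545810091) (nat_lit 256) (nat_lit 5) (nat_lit 263) (nat_lit 5) (nat_lit 264) (nat_lit 5) (nat_lit 273) (nat_lit 264) (nat_lit 243))))) (XT.nd (nat_lit 234) (nat_lit 684) (nat_lit 0) (XT.nd (nat_lit 78) (nat_lit 532) (nat_lit 0) (XT.lf (nat_lit 76) (nat_lit 2332478237) (nat_lit 0) (nat_lit 2025907864) (nat_lit 608) (nat_lit 2482982729) (nat_lit 257) (nat_lit 5) (nat_lit 256) (nat_lit 5) (nat_lit 264) (nat_lit 5) (nat_lit 274) (nat_lit 264) (nat_lit 242)) (XT.nd (nat_lit 78) (nat_lit 532) (nat_lit 0) (XT.lf (nat_lit 76) (nat_lit 5783769017) (nat_lit 0) (nat_lit 728383801) (nat_lit 608) (nat_lit 379146318) (nat_lit 257) (nat_lit 5) (nat_lit 256) (nat_lit 5) (nat_lit 264) (nat_lit 5) (nat_lit 275) (nat_lit 264) (nat_lit 241)) (XT.lf (nat_lit 0) (nat_lit 1708547036) (nat_lit 608) (nat_lit 4573863998) (nat_lit 76) (nat_lit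 661326196) (nat_lit 249) (nat_lit 5) (nat_lit 257) (nat_lit 5) (nat_lit 250) (nat_lit 5) (nat_lit 276) (nat_lit 264) (nat_lit 240)))) (XT.nd (nat_lit 78) (nat_lit 684) (nat_lit 0) (XT.lf (nat_lit 0) (nat_lit 3797972375) (nat_lit 608) (nat_lit 1084800823) (nat_lit 76) (nat_lit 2116649635) (nat_lit 249) (nat_lit 5) (nat_lit 257) (nat_lit 5) (nat_lit 250) (nat_lit 5) (nat_lit 277) (nat_lit 264) (nat_lit 239)) (XT.nd (nat_lit 78) (nat_lit 76) (nat_lit 0) (XT.lf (nat_lit 0) (nat_lit 2508749702) (nat_lit 608) (nat_lit 3395752538) (nat_lit 684) (nat_lit 1153827251) (nat_lit 241) (nat_lit 5) (nat_lit 249) (nat_lit 5) (nat_lit 250) (nat_lit 5) (nat_lit 278) (nat_lit 264) (nat_lit 238)) (XT.lf (nat_lit 0) (nat_lit 878667014) (nat_lit 684) (nat_lit 945824287) (nat_lit 76) (nat_lit 5296146739) (nat_lit 240) (nat_lit 5) (nat_lit 249) (nat_lit 5) (nat_lit 241) (nat_lit 5) (nat_lit 279) (nat_lit 264) (nat_lit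 237))))))) (XT.nd (nat_lit 936) (nat_lit 3192) (nat_lit 0) (XT.nd (nat_lit 468) (nat_lit 4180) (nat_lit 0) (XT.nd (nat_lit 234) (nat_lit 912) (nat_lit 0) (XT.nd (nat_lit 78) (nat_lit 760) (nat_lit 0) (XT.lf (nat_lit 0) (nat_lit 2759731365) (nat_lit 684) (nat_lit 148770741) (nat_lit 760) (nat_lit 4277351915) (nat_lit 231) (nat_lit 5) (nat_lit 240) (nat_lit 5) (nat_lit 241) (nat_lit 5) (nat_lit 280) (nat_lit 264) (nat_lit 236)) (XT.nd (nat_lit 78) (nat_lit 760) (nat_lit 0) (XT.lf (nat_lit 0) (nat_lit 4958719801) (nat_lit 760) (nat_lit 722709312) (nat_lit 76) (nat_lit 1572975459) (nat_lit 231) (nat_lit 5) (nat_lit 241) (nat_lit 5) (nat_lit 232) (nat_lit 5) (nat_lit 281) (nat_lit 264) (nat_lit 235)) (XT.lf (nat_lit 0) (nat_lit 3101777059) (nat_lit 760) (nat_lit 3936539421) (nat_lit 836) (nat_lit 287816962) (nat_lit 221) (nat_lit 5) (nat_lit 231) (nat_lit 5) (nat_lit 232) (nat_lit 5) (nat_lit 282) (nat_lit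 264) (nat_lit 234)))) (XT.nd (nat_lit 78) (nat_lit 836) (nat_lit 0) (XT.lf (nat_lit 0) (nat_lit 1690115859) (nat_lit 836) (nat_lit 411168662) (nat_lit 76) (nat_lit 5300028107) (nat_lit 220) (nat_lit 5) (nat_lit 231) (nat_lit 5) (nat_lit 221) (nat_lit 5) (nat_lit 283) (nat_lit 264) (nat_lit 233)) (XT.nd (nat_lit 78) (nat_lit 0) (nat_lit 0) (XT.lf (nat_lit 0) (nat_lit 3533981243) (nat_lit 836) (nat_lit 160619128) (nat_lit 912) (nat_lit 3785015944) (nat_lit 209) (nat_lit 5) (nat_lit 220) (nat_lit 5) (nat_lit 221) (nat_lit 5) (nat_lit 284) (nat_lit 264) (nat_lit 232)) (XT.lf (nat_lit 0) (nat_lit 5721536052) (nat_lit 912) (nat_lit 22052074) (nat_lit 76) (nat_lit 1817951849) (nat_lit 209) (nat_lit 5) (nat_lit 221) (nat_lit 5) (nat_lit 210) (nat_lit 5) (nat_lit 285) (nat_lit 264) (nat_lit 231))))) (XT.nd (nat_lit 234) (nat_lit 2204) (nat_lit 0) (XT.nd (nat_lit 78) (nat_lit 988) (nat_lit 0) (XT.lf (nat_lit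 0) (nat_lit 142555135) (nat_lit 988) (nat_lit 3599986132) (nat_lit 76) (nat_lit 3903993739) (nat_lit 196) (nat_lit 5) (nat_lit 209) (nat_lit 5) (nat_lit 197) (nat_lit 5) (nat_lit 286) (nat_lit 264) (nat_lit 230)) (XT.nd (nat_lit 78) (nat_lit 0) (nat_lit 0) (XT.lf (nat_lit 0) (nat_lit 444600314) (nat_lit 988) (nat_lit 1650225171) (nat_lit 1064) (nat_lit 5640419817) (nat_lit 183) (nat_lit 5) (nat_lit 196) (nat_lit 5) (nat_lit 197) (nat_lit 5) (nat_lit 287) (nat_lit 264) (nat_lit 229)) (XT.lf (nat_lit 0) (nat_lit 4091214125) (nat_lit 1064) (nat_lit 3197251811) (nat_lit 76) (nat_lit 538709174) (nat_lit 183) (nat_lit 5) (nat_lit 197) (nat_lit 5) (nat_lit 184) (nat_lit 5) (nat_lit 288) (nat_lit 264) (nat_lit 228)))) (XT.nd (nat_lit 78) (nat_lit 1140) (nat_lit 0) (XT.lf (nat_lit 0) (nat_lit 972223379) (nat_lit 1064) (nat_lit 5146571455) (nat_lit 1140) (nat_lit 1804050040) (nat_lit 169) (nat_lit 5) (nat_lit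 183) (nat_lit 5) (nat_lit 184) (nat_lit 5) (nat_lit 289) (nat_lit 264) (nat_lit 227)) (XT.nd (nat_lit 78) (nat_lit 1064) (nat_lit 0) (XT.lf (nat_lit 0) (nat_lit 160885395) (nat_lit 1140) (nat_lit 2740254406) (nat_lit 76) (nat_lit 5120944679) (nat_lit 168) (nat_lit 5) (nat_lit 183) (nat_lit 5) (nat_lit 169) (nat_lit 5) (nat_lit 290) (nat_lit 264) (nat_lit 226)) (XT.lf (nat_lit 0) (nat_lit 1560413291) (nat_lit 1064) (nat_lit 550753406) (nat_lit 1140) (nat_lit 6013829798) (nat_lit 154) (nat_lit 5) (nat_lit 168) (nat_lit 5) (nat_lit 169) (nat_lit 5) (nat_lit 291) (nat_lit 264) (nat_lit 225)))))) (XT.nd (nat_lit 468) (nat_lit 1520) (nat_lit 0) (XT.nd (nat_lit 234) (nat_lit 1140) (nat_lit 0) (XT.nd (nat_lit 78) (nat_lit 532) (nat_lit 0) (XT.lf (nat_lit 0) (nat_lit 4114628682) (nat_lit 1140) (nat_lit 2251940840) (nat_lit 76) (nat_lit 1864693757) (nat_lit 154) (nat_lit 5) (nat_lit 169) (nat_lit 5) (nat_lit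 155) (nat_lit 5) (nat_lit 292) (nat_lit 264) (nat_lit 224)) (XT.nd (nat_lit 78) (nat_lit 0) (nat_lit 0) (XT.lf (nat_lit 0) (nat_lit 2178796672) (nat_lit 532) (nat_lit 3976037599) (nat_lit 608) (nat_lit 2186689045) (nat_lit 147) (nat_lit 5) (nat_lit 154) (nat_lit 5) (nat_lit 155) (nat_lit 5) (nat_lit 293) (nat_lit 264) (nat_lit 223)) (XT.lf (nat_lit 0) (nat_lit 6740745595) (nat_lit 532) (nat_lit 1489472487) (nat_lit 608) (nat_lit 225755311) (nat_lit 147) (nat_lit 5) (nat_lit 154) (nat_lit 5) (nat_lit 155) (nat_lit 5) (nat_lit 294) (nat_lit 264) (nat_lit 222)))) (XT.nd (nat_lit 78) (nat_lit 532) (nat_lit 0) (XT.lf (nat_lit 0) (nat_lit 1749293980) (nat_lit 608) (nat_lit 5728130136) (nat_lit 76) (nat_lit 1096302229) (nat_lit 139) (nat_lit 5) (nat_lit 147) (nat_lit 5) (nat_lit 140) (nat_lit 5) (nat_lit 295) (nat_lit 264) (nat_lit 221)) (XT.nd (nat_lit 78) (nat_lit 532) (nat_lit 0) (XT.lf (nat_lit 0)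 (nat_lit 3764325703) (nat_lit 608) (nat_lit 1181803903) (nat_lit 76) (nat_lit 3749349968) (nat_lit 139) (nat_lit 5) (nat_lit 147) (nat_lit 5) (nat_lit 140) (nat_lit 5) (nat_lit 296) (nat_lit 264) (nat_lit 220)) (XT.lf (nat_lit 0) (nat_lit 3522500128) (nat_lit 532) (nat_lit 2305565988) (nat_lit 608) (nat_lit 2993261644) (nat_lit 132) (nat_lit 5) (nat_lit 139) (nat_lit 5) (nat_lit 140) (nat_lit 5) (nat_lit 297) (nat_lit 264) (nat_lit 219))))) (XT.nd (nat_lit 234) (nat_lit 912) (nat_lit 0) (XT.nd (nat_lit 78) (nat_lit 608) (nat_lit 0) (XT.lf (nat_lit 0) (nat_lit 7925010381) (nat_lit 608) (nat_lit 610630819) (nat_lit 76) (nat_lit 416258909) (nat_lit 132) (nat_lit 5) (nat_lit 140) (nat_lit 5) (nat_lit 133) (nat_lit 5) (nat_lit 298) (nat_lit 264) (nat_lit 218)) (XT.nd (nat_lit 78) (nat_lit 0) (nat_lit 0) (XT.lf (nat_lit 0) (nat_lit 999166769) (nat_lit 608) (nat_lit 4864412728) (nat_lit 76) (nat_lit 3221999325)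 (nat_lit 124) (nat_lit 5) (nat_lit 132) (nat_lit 5) (nat_lit 125) (nat_lit 5) (nat_lit 299) (nat_lit 264) (nat_lit 217)) (XT.lf (nat_lit 0) (nat_lit 3028471727) (nat_lit 608) (nat_lit 70053205) (nat_lit 76) (nat_lit 6125624806) (nat_lit 124) (nat_lit 5) (nat_lit 132) (nat_lit 5) (nat_lit 125) (nat_lit 5) (nat_lit 300) (nat_lit 264) (nat_lit 216)))) (XT.nd (nat_lit 78) (nat_lit 456) (nat_lit 0) (XT.lf (nat_lit 0) (nat_lit 4918308822) (nat_lit 456) (nat_lit 205759764) (nat_lit 532) (nat_lit 4242724529) (nat_lit 118) (nat_lit 5) (nat_lit 124) (nat_lit 5) (nat_lit 125) (nat_lit 5) (nat_lit 301) (nat_lit 264) (nat_lit 215)) (XT.nd (nat_lit 78) (nat_lit 0) (nat_lit 0) (XT.lf (nat_lit 0) (nat_lit 480142110) (nat_lit 456) (nat_lit 6793261720) (nat_lit 532) (nat_lit 2240661298) (nat_lit 112) (nat_lit 5) (nat_lit 118) (nat_lit 5) (nat_lit 119) (nat_lit 5) (nat_lit 302) (nat_lit 264) (nat_lit 214)) (XT.lf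 (nat_lit 0) (nat_lit 5599576162) (nat_lit 456) (nat_lit 3894212498) (nat_lit 532) (nat_lit 171842809) (nat_lit 112) (nat_lit 5) (nat_lit 118) (nat_lit 5) (nat_lit 119) (nat_lit 5) (nat_lit 303) (nat_lit 264) (nat_lit 213))))))))
noncomputable def xc121 : XT := (XT.nd (nat_lit 1794) (nat_lit 2280) (nat_lit 0) (XT.nd (nat_lit 858) (nat_lit 1596) (nat_lit 0) (XT.nd (nat_lit 390) (nat_lit 1140) (nat_lit 0) (XT.nd (nat_lit 156) (nat_lit 912) (nat_lit 0) (XT.nd (nat_lit 78) (nat_lit 0) (nat_lit 0) (XT.lf (nat_lit 0) (nat_lit 1005970484) (nat_lit 380) (nat_lit 884861136) (nat_lit 456) (nat_lit 7931316705) (nat_lit 106) (nat_lit 5) (nat_lit 111) (nat_lit 5) (nat_lit 112) (nat_lit 5) (nat_lit 304) (nat_lit 264) (nat_lit 212)) (XT.lf (nat_lit 0) (nat_lit 4035696738) (nat_lit 456) (nat_lit 3738422552) (nat_lit 76) (nat_lit 2208544462) (nat_lit 106) (nat_lit 5) (nat_lit 112) (nat_lit 5) (nat_lit 107) (nat_lit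 5) (nat_lit 305) (nat_lit 264) (nat_lit 211))) (XT.nd (nat_lit 78) (nat_lit 456) (nat_lit 0) (XT.lf (nat_lit 0) (nat_lit 1466468866) (nat_lit 456) (nat_lit 4763441084) (nat_lit 532) (nat_lit 3918599712) (nat_lit 100) (nat_lit 5) (nat_lit 106) (nat_lit 5) (nat_lit 107) (nat_lit 5) (nat_lit 306) (nat_lit 264) (nat_lit 210)) (XT.nd (nat_lit 78) (nat_lit 456) (nat_lit 0) (XT.lf (nat_lit 0) (nat_lit 6859531088) (nat_lit 456) (nat_lit 1630987519) (nat_lit 532) (nat_lit 1828858459) (nat_lit 100) (nat_lit 5) (nat_lit 106) (nat_lit 5) (nat_lit 107) (nat_lit 5) (nat_lit 307) (nat_lit 264) (nat_lit 209)) (XT.lf (nat_lit 0) (nat_lit 314571640) (nat_lit 456) (nat_lit 8602297668) (nat_lit 76) (nat_lit 1578548113) (nat_lit 94) (nat_lit 5) (nat_lit 100) (nat_lit 5) (nat_lit 95) (nat_lit 5) (nat_lit 308) (nat_lit 264) (nat_lit 208))))) (XT.nd (nat_lit 234) (nat_lit 760) (nat_lit 0) (XT.nd (nat_lit 78) (nat_lit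 380) (nat_lit 0) (XT.lf (nat_lit 0) (nat_lit 2501031024) (nat_lit 456) (nat_lit 3277418466) (nat_lit 76) (nat_lit 4897339560) (nat_lit 94) (nat_lit 5) (nat_lit 100) (nat_lit 5) (nat_lit 95) (nat_lit 5) (nat_lit 309) (nat_lit 264) (nat_lit 207)) (XT.nd (nat_lit 78) (nat_lit 0) (nat_lit 0) (XT.lf (nat_lit 0) (nat_lit 2206849630) (nat_lit 380) (nat_lit 2532547814) (nat_lit 456) (nat_lit 6122641127) (nat_lit 89) (nat_lit 5) (nat_lit 94) (nat_lit 5) (nat_lit 95) (nat_lit 5) (nat_lit 310) (nat_lit 264) (nat_lit 206)) (XT.lf (nat_lit 0) (nat_lit 7051750549) (nat_lit 456) (nat_lit 3182169176) (nat_lit 76) (nat_lit 819805290) (nat_lit 89) (nat_lit 5) (nat_lit 95) (nat_lit 5) (nat_lit 90) (nat_lit 5) (nat_lit 311) (nat_lit 264) (nat_lit 205)))) (XT.nd (nat_lit 78) (nat_lit 456) (nat_lit 0) (XT.lf (nat_lit 0) (nat_lit 2434763694) (nat_lit 304) (nat_lit 7013810371) (nat_lit 380) (nat_lit 1802187913) (nat_lit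 85) (nat_lit 5) (nat_lit 89) (nat_lit 5) (nat_lit 90) (nat_lit 5) (nat_lit 312) (nat_lit 264) (nat_lit 204)) (XT.nd (nat_lit 78) (nat_lit 380) (nat_lit 0) (XT.lf (nat_lit 0) (nat_lit 453808742) (nat_lit 380) (nat_lit 3215090038) (nat_lit 76) (nat_lit 7784749576) (nat_lit 84) (nat_lit 5) (nat_lit 89) (nat_lit 5) (nat_lit 85) (nat_lit 5) (nat_lit 313) (nat_lit 264) (nat_lit 203)) (XT.lf (nat_lit 0) (nat_lit 2543889635) (nat_lit 380) (nat_lit 189604598) (nat_lit 456) (nat_lit 8928873285) (nat_lit 79) (nat_lit 5) (nat_lit 84) (nat_lit 5) (nat_lit 85) (nat_lit 5) (nat_lit 314) (nat_lit 264) (nat_lit 202)))))) (XT.nd (nat_lit 468) (nat_lit 608) (nat_lit 0) (XT.nd (nat_lit 234) (nat_lit 684) (nat_lit 0) (XT.nd (nat_lit 78) (nat_lit 304) (nat_lit 0) (XT.lf (nat_lit 0) (nat_lit 5115209622) (nat_lit 456) (nat_lit 3410024746) (nat_lit 76) (nat_lit 3351151724) (nat_lit 79) (nat_lit 5) (nat_lit 85) (nat_lit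 5) (nat_lit 80) (nat_lit 5) (nat_lit 315) (nat_lit 264) (nat_lit 201)) (XT.nd (nat_lit 78) (nat_lit 0) (nat_lit 0) (XT.lf (nat_lit 0) (nat_lit 2475085002) (nat_lit 304) (nat_lit 5088112152) (nat_lit 380) (nat_lit 4533829099) (nat_lit 75) (nat_lit 5) (nat_lit 79) (nat_lit 5) (nat_lit 80) (nat_lit 5) (nat_lit 316) (nat_lit 264) (nat_lit 200)) (XT.lf (nat_lit 0) (nat_lit 8566034807) (nat_lit 304) (nat_lit 1522683530) (nat_lit 380) (nat_lit 2235488779) (nat_lit 75) (nat_lit 5) (nat_lit 79) (nat_lit 5) (nat_lit 80) (nat_lit 5) (nat_lit 317) (nat_lit 264) (nat_lit 199)))) (XT.nd (nat_lit 78) (nat_lit 304) (nat_lit 0) (XT.lf (nat_lit 0) (nat_lit 142197173) (nat_lit 380) (nat_lit 10294478006) (nat_lit 76) (nat_lit 2121142973) (nat_lit 70) (nat_lit 5) (nat_lit 75) (nat_lit 5) (nat_lit 71) (nat_lit 5) (nat_lit 318) (nat_lit 264) (nat_lit 198)) (XT.nd (nat_lit 78) (nat_lit 304) (nat_lit 0) (XT.lf (nat_lit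 0) (nat_lit 2570280544) (nat_lit 380) (nat_lit 4332841848) (nat_lit 76) (nat_lit 5893971741) (nat_lit 70) (nat_lit 5) (nat_lit 75) (nat_lit 5) (nat_lit 71) (nat_lit 5) (nat_lit 319) (nat_lit 264) (nat_lit 197)) (XT.lf (nat_lit 0) (nat_lit 1803521757) (nat_lit 304) (nat_lit 3256473601) (nat_lit 380) (nat_lit 7983928745) (nat_lit 66) (nat_lit 5) (nat_lit 70) (nat_lit 5) (nat_lit 71) (nat_lit 5) (nat_lit 320) (nat_lit 264) (nat_lit 196))))) (XT.nd (nat_lit 234) (nat_lit 304) (nat_lit 0) (XT.nd (nat_lit 78) (nat_lit 304) (nat_lit 0) (XT.lf (nat_lit 0) (nat_lit 7645195708) (nat_lit 380) (nat_lit 5128992664) (nat_lit 76) (nat_lit 523385007) (nat_lit 66) (nat_lit 5) (nat_lit 71) (nat_lit 5) (nat_lit 67) (nat_lit 5) (nat_lit 321) (nat_lit 264) (nat_lit 195)) (XT.nd (nat_lit 78) (nat_lit 0) (nat_lit 0) (XT.lf (nat_lit 0) (nat_lit 1116759330) (nat_lit 304) (nat_lit 9206796691) (nat_lit 380) (nat_lit 3234845110)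 (nat_lit 62) (nat_lit 5) (nat_lit 66) (nat_lit 5) (nat_lit 67) (nat_lit 5) (nat_lit 322) (nat_lit 264) (nat_lit 194)) (XT.lf (nat_lit 0) (nat_lit 7616851481) (nat_lit 304) (nat_lit 5490265451) (nat_lit 380) (nat_lit 719227326) (nat_lit 62) (nat_lit 5) (nat_lit 66) (nat_lit 5) (nat_lit 67) (nat_lit 5) (nat_lit 323) (nat_lit 264) (nat_lit 193)))) (XT.nd (nat_lit 78) (nat_lit 0) (nat_lit 0) (XT.lf (nat_lit 0) (nat_lit 157071972) (nat_lit 228) (nat_lit 1653318648) (nat_lit 304) (nat_lit 12292177472) (nat_lit 58) (nat_lit 5) (nat_lit 61) (nat_lit 5) (nat_lit 62) (nat_lit 5) (nat_lit 324) (nat_lit 264) (nat_lit 192)) (XT.nd (nat_lit 78) (nat_lit 0) (nat_lit 0) (XT.lf (nat_lit 0) (nat_lit 4460715780) (nat_lit 304) (nat_lit 7611071984) (nat_lit 76) (nat_lit 2313331991) (nat_lit 58) (nat_lit 5) (nat_lit 62) (nat_lit 5) (nat_lit 59) (nat_lit 5) (nat_lit 325) (nat_lit 264) (nat_lit 191)) (XT.lf (nat_lit 0)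 (nat_lit 7181534787) (nat_lit 304) (nat_lit 1139836923) (nat_lit 76) (nat_lit 6355078752) (nat_lit 58) (nat_lit 5) (nat_lit 62) (nat_lit 5) (nat_lit 59) (nat_lit 5) (nat_lit 326) (nat_lit 264) (nat_lit 190))))))) (XT.nd (nat_lit 936) (nat_lit 836) (nat_lit 0) (XT.nd (nat_lit 468) (nat_lit 684) (nat_lit 0) (XT.nd (nat_lit 234) (nat_lit 228) (nat_lit 0) (XT.nd (nat_lit 78) (nat_lit 304) (nat_lit 0) (XT.lf (nat_lit 0) (nat_lit 5599013162) (nat_lit 228) (nat_lit 4414140322) (nat_lit 304) (nat_lit 4962523437) (nat_lit 55) (nat_lit 5) (nat_lit 58) (nat_lit 5) (nat_lit 59) (nat_lit 5) (nat_lit 327) (nat_lit 264) (nat_lit 189)) (XT.nd (nat_lit 78) (nat_lit 304) (nat_lit 0) (XT.lf (nat_lit 0) (nat_lit 12527966123) (nat_lit 228) (nat_lit 388996006) (nat_lit 304) (nat_lit 2367330982) (nat_lit 55) (nat_lit 5) (nat_lit 58) (nat_lit 5) (nat_lit 59) (nat_lit 5) (nat_lit 328) (nat_lit 264) (nat_lit 188)) (XT.lf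 (nat_lit 0) (nat_lit 351813324) (nat_lit 304) (nat_lit 11533182659) (nat_lit 76) (nat_lit 3715550237) (nat_lit 51) (nat_lit 5) (nat_lit 55) (nat_lit 5) (nat_lit 52) (nat_lit 5) (nat_lit 329) (nat_lit 264) (nat_lit 187)))) (XT.nd (nat_lit 78) (nat_lit 228) (nat_lit 0) (XT.lf (nat_lit 0) (nat_lit 3113342657) (nat_lit 304) (nat_lit 4835932590) (nat_lit 76) (nat_lit 7976084376) (nat_lit 51) (nat_lit 5) (nat_lit 55) (nat_lit 5) (nat_lit 52) (nat_lit 5) (nat_lit 330) (nat_lit 264) (nat_lit 186)) (XT.nd (nat_lit 78) (nat_lit 0) (nat_lit 0) (XT.lf (nat_lit 0) (nat_lit 2068440859) (nat_lit 228) (nat_lit 3886277783) (nat_lit 304) (nat_lit 10305315577) (nat_lit 48) (nat_lit 5) (nat_lit 51) (nat_lit 5) (nat_lit 52) (nat_lit 5) (nat_lit 331) (nat_lit 264) (nat_lit 185)) (XT.lf (nat_lit 0) (nat_lit 8910873833) (nat_lit 304) (nat_lit 7361976382) (nat_lit 76) (nat_lit 331038733) (nat_lit 48) (nat_lit 5) (nat_lit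 52) (nat_lit 5) (nat_lit 49) (nat_lit 5) (nat_lit 332) (nat_lit 264) (nat_lit 184))))) (XT.nd (nat_lit 234) (nat_lit 380) (nat_lit 0) (XT.nd (nat_lit 78) (nat_lit 304) (nat_lit 0) (XT.lf (nat_lit 0) (nat_lit 11972201940) (nat_lit 304) (nat_lit 399362293) (nat_lit 76) (nat_lit 4586025711) (nat_lit 48) (nat_lit 5) (nat_lit 52) (nat_lit 5) (nat_lit 49) (nat_lit 5) (nat_lit 333) (nat_lit 264) (nat_lit 183)) (XT.nd (nat_lit 78) (nat_lit 76) (nat_lit 0) (XT.lf (nat_lit 0) (nat_lit 6873823069) (nat_lit 228) (nat_lit 8296272956) (nat_lit 304) (nat_lit 2150488701) (nat_lit 45) (nat_lit 5) (nat_lit 48) (nat_lit 5) (nat_lit 49) (nat_lit 5) (nat_lit 334) (nat_lit 264) (nat_lit 182)) (XT.lf (nat_lit 0) (nat_lit 737247544) (nat_lit 304) (nat_lit 3360962824) (nat_lit 76) (nat_lit 13596576073) (nat_lit 44) (nat_lit 5) (nat_lit 48) (nat_lit 5) (nat_lit 45) (nat_lit 5) (nat_lit 335) (nat_lit 264) (nat_lit 181))))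 (XT.nd (nat_lit 78) (nat_lit 152) (nat_lit 0) (XT.lf (nat_lit 0) (nat_lit 3688480978) (nat_lit 304) (nat_lit 14119920561) (nat_lit 76) (nat_lit 270593732) (nat_lit 41) (nat_lit 5) (nat_lit 45) (nat_lit 5) (nat_lit 42) (nat_lit 5) (nat_lit 336) (nat_lit 264) (nat_lit 180)) (XT.nd (nat_lit 78) (nat_lit 152) (nat_lit 0) (XT.lf (nat_lit 0) (nat_lit 6782649588) (nat_lit 304) (nat_lit 6978851574) (nat_lit 76) (nat_lit 4711619061) (nat_lit 41) (nat_lit 5) (nat_lit 45) (nat_lit 5) (nat_lit 42) (nat_lit 5) (nat_lit 337) (nat_lit 264) (nat_lit 179)) (XT.lf (nat_lit 0) (nat_lit 352416864) (nat_lit 152) (nat_lit 9600756431) (nat_lit 228) (nat_lit 8926410893) (nat_lit 39) (nat_lit 5) (nat_lit 41) (nat_lit 5) (nat_lit 42) (nat_lit 5) (nat_lit 338) (nat_lit 264) (nat_lit 178)))))) (XT.nd (nat_lit 468) (nat_lit 380) (nat_lit 0) (XT.nd (nat_lit 234) (nat_lit 152) (nat_lit 0) (XT.nd (nat_lit 78) (nat_lit 304) (nat_lit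 0) (XT.lf (nat_lit 0) (nat_lit 8016076467) (nat_lit 152) (nat_lit 5253635528) (nat_lit 228) (nat_lit 6027023652) (nat_lit 39) (nat_lit 5) (nat_lit 41) (nat_lit 5) (nat_lit 42) (nat_lit 5) (nat_lit 339) (nat_lit 264) (nat_lit 177)) (XT.nd (nat_lit 78) (nat_lit 304) (nat_lit 0) (XT.lf (nat_lit 0) (nat_lit 15879930804) (nat_lit 152) (nat_lit 786812714) (nat_lit 228) (nat_lit 3060248182) (nat_lit 39) (nat_lit 5) (nat_lit 41) (nat_lit 5) (nat_lit 42) (nat_lit 5) (nat_lit 340) (nat_lit 264) (nat_lit 176)) (XT.lf (nat_lit 0) (nat_lit 50955893) (nat_lit 304) (nat_lit 16350965527) (nat_lit 76) (nat_lit 3766593967) (nat_lit 35) (nat_lit 5) (nat_lit 39) (nat_lit 5) (nat_lit 36) (nat_lit 5) (nat_lit 341) (nat_lit 264) (nat_lit 175)))) (XT.nd (nat_lit 78) (nat_lit 152) (nat_lit 0) (XT.lf (nat_lit 0) (nat_lit 3222522620) (nat_lit 304) (nat_lit 8899054975) (nat_lit 76) (nat_lit 8499960430) (nat_lit 35) (nat_lit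 5) (nat_lit 39) (nat_lit 5) (nat_lit 36) (nat_lit 5) (nat_lit 342) (nat_lit 264) (nat_lit 174)) (XT.nd (nat_lit 78) (nat_lit 152) (nat_lit 0) (XT.lf (nat_lit 0) (nat_lit 6471286695) (nat_lit 304) (nat_lit 1252151377) (nat_lit 76) (nat_lit 13365269486) (nat_lit 35) (nat_lit 5) (nat_lit 39) (nat_lit 5) (nat_lit 36) (nat_lit 5) (nat_lit 343) (nat_lit 264) (nat_lit 173)) (XT.lf (nat_lit 0) (nat_lit 6727708859) (nat_lit 152) (nat_lit 3137048840) (nat_lit 228) (nat_lit 11703734370) (nat_lit 33) (nat_lit 5) (nat_lit 35) (nat_lit 5) (nat_lit 36) (nat_lit 5) (nat_lit 344) (nat_lit 264) (nat_lit 172))))) (XT.nd (nat_lit 234) (nat_lit 228) (nat_lit 0) (XT.nd (nat_lit 78) (nat_lit 152) (nat_lit 0) (XT.lf (nat_lit 0) (nat_lit 13370774834) (nat_lit 228) (nat_lit 7132931593) (nat_lit 76) (nat_lit 1558658137) (nat_lit 33) (nat_lit 5) (nat_lit 36) (nat_lit 5) (nat_lit 34) (nat_lit 5) (nat_lit 345) (nat_lit 264)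 (nat_lit 171)) (XT.nd (nat_lit 78) (nat_lit 0) (nat_lit 0) (XT.lf (nat_lit 0) (nat_lit 762901243) (nat_lit 152) (nat_lit 16240685936) (nat_lit 228) (nat_lit 5566833837) (nat_lit 31) (nat_lit 5) (nat_lit 33) (nat_lit 5) (nat_lit 34) (nat_lit 5) (nat_lit 346) (nat_lit 264) (nat_lit 170)) (XT.lf (nat_lit 0) (nat_lit 9015011283) (nat_lit 152) (nat_lit 11785853497) (nat_lit 228) (nat_lit 2291205705) (nat_lit 31) (nat_lit 5) (nat_lit 33) (nat_lit 5) (nat_lit 34) (nat_lit 5) (nat_lit 347) (nat_lit 264) (nat_lit 169)))) (XT.nd (nat_lit 78) (nat_lit 152) (nat_lit 0) (XT.lf (nat_lit 0) (nat_lit 1045324239) (nat_lit 228) (nat_lit 6151465197) (nat_lit 76) (nat_lit 16432769819) (nat_lit 30) (nat_lit 5) (nat_lit 33) (nat_lit 5) (nat_lit 31) (nat_lit 5) (nat_lit 348) (nat_lit 264) (nat_lit 168)) (XT.nd (nat_lit 78) (nat_lit 0) (nat_lit 0) (XT.lf (nat_lit 0) (nat_lit 2002686296) (nat_lit 152) (nat_lit 2436697045)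 (nat_lit 228) (nat_lit 19743018678) (nat_lit 28) (nat_lit 5) (nat_lit 30) (nat_lit 5) (nat_lit 31) (nat_lit 5) (nat_lit 349) (nat_lit 264) (nat_lit 167)) (XT.lf (nat_lit 0) (nat_lit 8006058051) (nat_lit 228) (nat_lit 14272466855) (nat_lit 76) (nat_lit 2471195339) (nat_lit 28) (nat_lit 5) (nat_lit 31) (nat_lit 5) (nat_lit 29) (nat_lit 5) (nat_lit 350) (nat_lit 264) (nat_lit 166))))))))
noncomputable def xc122 : XT := (XT.nd (nat_lit 1794) (nat_lit 532) (nat_lit 0) (XT.nd (nat_lit 858) (nat_lit 456) (nat_lit 0) (XT.nd (nat_lit 390) (nat_lit 228) (nat_lit 0) (XT.nd (nat_lit 156) (nat_lit 152) (nat_lit 0) (XT.nd (nat_lit 78) (nat_lit 152) (nat_lit 0) (XT.lf (nat_lit 0) (nat_lit 11688668876) (nat_lit 228) (nat_lit 6177116552) (nat_lit 76) (nat_lit 7468018099) (nat_lit 28) (nat_lit 5) (nat_lit 31) (nat_lit 5) (nat_lit 29) (nat_lit 5) (nat_lit 351) (nat_lit 264) (nat_lit 165)) (XT.lf (nat_lit 0) (nat_lit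 2179358955) (nat_lit 152) (nat_lit 13308600985) (nat_lit 228) (nat_lit 10447276503) (nat_lit 26) (nat_lit 5) (nat_lit 28) (nat_lit 5) (nat_lit 29) (nat_lit 5) (nat_lit 352) (nat_lit 264) (nat_lit 164))) (XT.nd (nat_lit 78) (nat_lit 152) (nat_lit 0) (XT.lf (nat_lit 0) (nat_lit 10889128983) (nat_lit 152) (nat_lit 8559928698) (nat_lit 228) (nat_lit 7104232632) (nat_lit 26) (nat_lit 5) (nat_lit 28) (nat_lit 5) (nat_lit 29) (nat_lit 5) (nat_lit 353) (nat_lit 264) (nat_lit 163)) (XT.nd (nat_lit 78) (nat_lit 152) (nat_lit 0) (XT.lf (nat_lit 0) (nat_lit 19836867278) (nat_lit 152) (nat_lit 3677996009) (nat_lit 228) (nat_lit 3675458697) (nat_lit 26) (nat_lit 5) (nat_lit 28) (nat_lit 5) (nat_lit 29) (nat_lit 5) (nat_lit 354) (nat_lit 264) (nat_lit 162)) (XT.lf (nat_lit 0) (nat_lit 1193906620) (nat_lit 152) (nat_lit 26519394306) (nat_lit 228) (nat_lit 132856016) (nat_lit 24) (nat_lit 5) (nat_lit 26) (nat_lit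 5) (nat_lit 27) (nat_lit 4) (nat_lit 355) (nat_lit 264) (nat_lit 161))))) (XT.nd (nat_lit 234) (nat_lit 152) (nat_lit 0) (XT.nd (nat_lit 78) (nat_lit 0) (nat_lit 0) (XT.lf (nat_lit 0) (nat_lit 3545058260) (nat_lit 228) (nat_lit 18465004120) (nat_lit 76) (nat_lit 6507672686) (nat_lit 23) (nat_lit 5) (nat_lit 26) (nat_lit 5) (nat_lit 24) (nat_lit 5) (nat_lit 356) (nat_lit 264) (nat_lit 160)) (XT.nd (nat_lit 78) (nat_lit 0) (nat_lit 0) (XT.lf (nat_lit 0) (nat_lit 7317277889) (nat_lit 228) (nat_lit 10055827833) (nat_lit 76) (nat_lit 11836727252) (nat_lit 23) (nat_lit 5) (nat_lit 26) (nat_lit 5) (nat_lit 24) (nat_lit 5) (nat_lit 357) (nat_lit 264) (nat_lit 159)) (XT.lf (nat_lit 0) (nat_lit 11189691483) (nat_lit 228) (nat_lit 1416096541) (nat_lit 76) (nat_lit 17317305697) (nat_lit 23) (nat_lit 5) (nat_lit 26) (nat_lit 5) (nat_lit 24) (nat_lit 5) (nat_lit 358) (nat_lit 264) (nat_lit 158)))) (XT.nd (nat_lit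 78) (nat_lit 0) (nat_lit 0) (XT.lf (nat_lit 0) (nat_lit 7610242269) (nat_lit 152) (nat_lit 7628594740) (nat_lit 228) (nat_lit 15417108910) (nat_lit 21) (nat_lit 5) (nat_lit 23) (nat_lit 5) (nat_lit 24) (nat_lit 5) (nat_lit 359) (nat_lit 264) (nat_lit 157)) (XT.nd (nat_lit 78) (nat_lit 0) (nat_lit 0) (XT.lf (nat_lit 0) (nat_lit 16915518923) (nat_lit 152) (nat_lit 2495809115) (nat_lit 228) (nat_lit 11999409621) (nat_lit 21) (nat_lit 5) (nat_lit 23) (nat_lit 5) (nat_lit 24) (nat_lit 5) (nat_lit 360) (nat_lit 264) (nat_lit 156)) (XT.lf (nat_lit 0) (nat_lit 23723676669) (nat_lit 228) (nat_lit 5735613356) (nat_lit 76) (nat_lit 2728452453) (nat_lit 21) (nat_lit 5) (nat_lit 24) (nat_lit 5) (nat_lit 22) (nat_lit 4) (nat_lit 361) (nat_lit 264) (nat_lit 155)))))) (XT.nd (nat_lit 468) (nat_lit 152) (nat_lit 0) (XT.nd (nat_lit 234) (nat_lit 152) (nat_lit 0) (XT.nd (nat_lit 78) (nat_lit 76) (nat_lit 0) (XT.lf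 (nat_lit 0) (nat_lit 3306626735) (nat_lit 76) (nat_lit 24903473534) (nat_lit 152) (nat_lit 4776625569) (nat_lit 20) (nat_lit 5) (nat_lit 21) (nat_lit 5) (nat_lit 22) (nat_lit 4) (nat_lit 362) (nat_lit 264) (nat_lit 154)) (XT.nd (nat_lit 78) (nat_lit 76) (nat_lit 0) (XT.lf (nat_lit 0) (nat_lit 12717937568) (nat_lit 76) (nat_lit 20159459068) (nat_lit 152) (nat_lit 930902912) (nat_lit 20) (nat_lit 5) (nat_lit 21) (nat_lit 5) (nat_lit 22) (nat_lit 4) (nat_lit 363) (nat_lit 264) (nat_lit 153)) (XT.lf (nat_lit 0) (nat_lit 2959641385) (nat_lit 152) (nat_lit 12291491862) (nat_lit 76) (nat_lit 19402864704) (nat_lit 19) (nat_lit 5) (nat_lit 21) (nat_lit 5) (nat_lit 20) (nat_lit 5) (nat_lit 364) (nat_lit 264) (nat_lit 152)))) (XT.nd (nat_lit 78) (nat_lit 152) (nat_lit 0) (XT.lf (nat_lit 0) (nat_lit 6937104318) (nat_lit 152) (nat_lit 3256737612) (nat_lit 76) (nat_lit 25331289960) (nat_lit 19) (nat_lit 5) (nat_lit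 21) (nat_lit 5) (nat_lit 20) (nat_lit 5) (nat_lit 365) (nat_lit 264) (nat_lit 151)) (XT.nd (nat_lit 78) (nat_lit 0) (nat_lit 0) (XT.lf (nat_lit 0) (nat_lit 6150767245) (nat_lit 152) (nat_lit 4931484301) (nat_lit 228) (nat_lit 25338705709) (nat_lit 17) (nat_lit 5) (nat_lit 19) (nat_lit 5) (nat_lit 20) (nat_lit 5) (nat_lit 366) (nat_lit 264) (nat_lit 150)) (XT.lf (nat_lit 0) (nat_lit 15378966041) (nat_lit 228) (nat_lit 21458827943) (nat_lit 76) (nat_lit 505054994) (nat_lit 17) (nat_lit 5) (nat_lit 20) (nat_lit 5) (nat_lit 18) (nat_lit 4) (nat_lit 367) (nat_lit 264) (nat_lit 149))))) (XT.nd (nat_lit 234) (nat_lit 76) (nat_lit 0) (XT.nd (nat_lit 78) (nat_lit 76) (nat_lit 0) (XT.lf (nat_lit 0) (nat_lit 19843022593) (nat_lit 228) (nat_lit 12449806560) (nat_lit 76) (nat_lit 5998422828) (nat_lit 17) (nat_lit 5) (nat_lit 20) (nat_lit 5) (nat_lit 18) (nat_lit 4) (nat_lit 368) (nat_lit 264) (nat_lit 148))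 (XT.nd (nat_lit 78) (nat_lit 76) (nat_lit 0) (XT.lf (nat_lit 0) (nat_lit 24430917390) (nat_lit 228) (nat_lit 3187849458) (nat_lit 76) (nat_lit 11649650252) (nat_lit 17) (nat_lit 5) (nat_lit 20) (nat_lit 5) (nat_lit 18) (nat_lit 4) (nat_lit 369) (nat_lit 264) (nat_lit 147)) (XT.lf (nat_lit 0) (nat_lit 6461217968) (nat_lit 76) (nat_lit 22747550484) (nat_lit 152) (nat_lit 11064566441) (nat_lit 16) (nat_lit 5) (nat_lit 17) (nat_lit 5) (nat_lit 18) (nat_lit 4) (nat_lit 370) (nat_lit 264) (nat_lit 146)))) (XT.nd (nat_lit 78) (nat_lit 76) (nat_lit 0) (XT.lf (nat_lit 0) (nat_lit 16448440185) (nat_lit 76) (nat_lit 17704041076) (nat_lit 152) (nat_lit 7155250263) (nat_lit 16) (nat_lit 5) (nat_lit 17) (nat_lit 5) (nat_lit 18) (nat_lit 4) (nat_lit 371) (nat_lit 264) (nat_lit 145)) (XT.nd (nat_lit 78) (nat_lit 76) (nat_lit 0) (XT.lf (nat_lit 0) (nat_lit 26719099435) (nat_lit 76) (nat_lit 12516022705) (nat_lit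 152) (nat_lit 3138326298) (nat_lit 16) (nat_lit 5) (nat_lit 17) (nat_lit 5) (nat_lit 18) (nat_lit 4) (nat_lit 372) (nat_lit 264) (nat_lit 144)) (XT.lf (nat_lit 0) (nat_lit 970402475) (nat_lit 152) (nat_lit 6198760512) (nat_lit 76) (nat_lit 36301968444) (nat_lit 15) (nat_lit 5) (nat_lit 17) (nat_lit 5) (nat_lit 16) (nat_lit 5) (nat_lit 373) (nat_lit 264) (nat_lit 143))))))) (XT.nd (nat_lit 936) (nat_lit 152) (nat_lit 0) (XT.nd (nat_lit 468) (nat_lit 152) (nat_lit 0) (XT.nd (nat_lit 234) (nat_lit 76) (nat_lit 0) (XT.nd (nat_lit 78) (nat_lit 0) (nat_lit 0) (XT.lf (nat_lit 0) (nat_lit 3563525256) (nat_lit 152) (nat_lit 1601106782) (nat_lit 228) (nat_lit 39435427514) (nat_lit 13) (nat_lit 5) (nat_lit 15) (nat_lit 5) (nat_lit 16) (nat_lit 5) (nat_lit 374) (nat_lit 264) (nat_lit 142)) (XT.nd (nat_lit 78) (nat_lit 0) (nat_lit 0) (XT.lf (nat_lit 0) (nat_lit 9578754763) (nat_lit 228) (nat_lit 32071080269)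 (nat_lit 76) (nat_lit 4110204614) (nat_lit 13) (nat_lit 5) (nat_lit 16) (nat_lit 5) (nat_lit 14) (nat_lit 4) (nat_lit 375) (nat_lit 264) (nat_lit 141)) (XT.lf (nat_lit 0) (nat_lit 14132525304) (nat_lit 228) (nat_lit 22867556440) (nat_lit 76) (nat_lit 9954526612) (nat_lit 13) (nat_lit 5) (nat_lit 16) (nat_lit 5) (nat_lit 14) (nat_lit 4) (nat_lit 376) (nat_lit 264) (nat_lit 140)))) (XT.nd (nat_lit 78) (nat_lit 76) (nat_lit 0) (XT.lf (nat_lit 0) (nat_lit 18814531867) (nat_lit 228) (nat_lit 13402530078) (nat_lit 76) (nat_lit 15968209260) (nat_lit 13) (nat_lit 5) (nat_lit 16) (nat_lit 5) (nat_lit 14) (nat_lit 4) (nat_lit 377) (nat_lit 264) (nat_lit 139)) (XT.nd (nat_lit 78) (nat_lit 76) (nat_lit 0) (XT.lf (nat_lit 0) (nat_lit 23628865525) (nat_lit 228) (nat_lit 3667730772) (nat_lit 76) (nat_lit 22156507233) (nat_lit 13) (nat_lit 5) (nat_lit 16) (nat_lit 5) (nat_lit 14) (nat_lit 4) (nat_lit 378) (nat_lit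 264) (nat_lit 138)) (XT.lf (nat_lit 0) (nat_lit 6471632472) (nat_lit 76) (nat_lit 22170309796) (nat_lit 152) (nat_lit 22115404600) (nat_lit 12) (nat_lit 5) (nat_lit 13) (nat_lit 5) (nat_lit 14) (nat_lit 4) (nat_lit 379) (nat_lit 264) (nat_lit 137))))) (XT.nd (nat_lit 234) (nat_lit 152) (nat_lit 0) (XT.nd (nat_lit 78) (nat_lit 0) (nat_lit 0) (XT.lf (nat_lit 0) (nat_lit 16976731549) (nat_lit 76) (nat_lit 16857919405) (nat_lit 152) (nat_lit 18265194637) (nat_lit 12) (nat_lit 5) (nat_lit 13) (nat_lit 5) (nat_lit 14) (nat_lit 4) (nat_lit 380) (nat_lit 264) (nat_lit 136)) (XT.nd (nat_lit 78) (nat_lit 0) (nat_lit 0) (XT.lf (nat_lit 0) (nat_lit 27783750638) (nat_lit 76) (nat_lit 11391820121) (nat_lit 152) (nat_lit 14307280746) (nat_lit 12) (nat_lit 5) (nat_lit 13) (nat_lit 5) (nat_lit 14) (nat_lit 4) (nat_lit 381) (nat_lit 264) (nat_lit 135)) (XT.lf (nat_lit 0) (nat_lit 38902132765) (nat_lit 76) (nat_lit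 5767235738) (nat_lit 152) (nat_lit 10238204554) (nat_lit 12) (nat_lit 5) (nat_lit 13) (nat_lit 5) (nat_lit 14) (nat_lit 4) (nat_lit 382) (nat_lit 264) (nat_lit 134)))) (XT.nd (nat_lit 78) (nat_lit 152) (nat_lit 0) (XT.lf (nat_lit 0) (nat_lit 50321044042) (nat_lit 152) (nat_lit 6033861580) (nat_lit 0) (nat_lit 20343549) (nat_lit 12) (nat_lit 5) (nat_lit 14) (nat_lit 4) (nat_lit 12) (nat_lit 4) (nat_lit 383) (nat_lit 264) (nat_lit 133)) (XT.nd (nat_lit 78) (nat_lit 76) (nat_lit 0) (XT.lf (nat_lit 0) (nat_lit 4250431642) (nat_lit 76) (nat_lit 51982819727) (nat_lit 76) (nat_lit 1650979439) (nat_lit 11) (nat_lit 4) (nat_lit 12) (nat_lit 5) (nat_lit 12) (nat_lit 4) (nat_lit 384) (nat_lit 264) (nat_lit 132)) (XT.lf (nat_lit 0) (nat_lit 2882628693) (nat_lit 152) (nat_lit 44510336851) (nat_lit 76) (nat_lit 12043051900) (nat_lit 10) (nat_lit 5) (nat_lit 12) (nat_lit 5) (nat_lit 11) (nat_lit 4) (nat_lit 385)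 (nat_lit 264) (nat_lit 131)))))) (XT.nd (nat_lit 468) (nat_lit 76) (nat_lit 0) (XT.nd (nat_lit 234) (nat_lit 76) (nat_lit 0) (XT.nd (nat_lit 78) (nat_lit 0) (nat_lit 0) (XT.lf (nat_lit 0) (nat_lit 7512301001) (nat_lit 152) (nat_lit 35141454309) (nat_lit 76) (nat_lit 18380319099) (nat_lit 10) (nat_lit 5) (nat_lit 12) (nat_lit 5) (nat_lit 11) (nat_lit 4) (nat_lit 386) (nat_lit 264) (nat_lit 130)) (XT.nd (nat_lit 78) (nat_lit 0) (nat_lit 0) (XT.lf (nat_lit 0) (nat_lit 12274299385) (nat_lit 152) (nat_lit 25503094913) (nat_lit 76) (nat_lit 24902879873) (nat_lit 10) (nat_lit 5) (nat_lit 12) (nat_lit 5) (nat_lit 11) (nat_lit 4) (nat_lit 387) (nat_lit 264) (nat_lit 129)) (XT.lf (nat_lit 0) (nat_lit 17172784815) (nat_lit 152) (nat_lit 15586836796) (nat_lit 76) (nat_lit 31616433547) (nat_lit 10) (nat_lit 5) (nat_lit 12) (nat_lit 5) (nat_lit 11) (nat_lit 4) (nat_lit 388) (nat_lit 264) (nat_lit 128)))) (XT.nd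 (nat_lit 78) (nat_lit 76) (nat_lit 0) (XT.lf (nat_lit 0) (nat_lit 22212037519) (nat_lit 152) (nat_lit 5384015266) (nat_lit 76) (nat_lit 38526846331) (nat_lit 10) (nat_lit 5) (nat_lit 12) (nat_lit 5) (nat_lit 11) (nat_lit 4) (nat_lit 389) (nat_lit 264) (nat_lit 127)) (XT.nd (nat_lit 78) (nat_lit 0) (nat_lit 0) (XT.lf (nat_lit 0) (nat_lit 5216069056) (nat_lit 76) (nat_lit 22230531719) (nat_lit 152) (nat_lit 40474227442) (nat_lit 9) (nat_lit 5) (nat_lit 10) (nat_lit 5) (nat_lit 11) (nat_lit 4) (nat_lit 390) (nat_lit 264) (nat_lit 126)) (XT.lf (nat_lit 0) (nat_lit 16234020779) (nat_lit 76) (nat_lit 16652615083) (nat_lit 152) (nat_lit 36884609982) (nat_lit 9) (nat_lit 5) (nat_lit 10) (nat_lit 5) (nat_lit 11) (nat_lit 4) (nat_lit 391) (nat_lit 264) (nat_lit 125))))) (XT.nd (nat_lit 234) (nat_lit 76) (nat_lit 0) (XT.nd (nat_lit 78) (nat_lit 0) (nat_lit 0) (XT.lf (nat_lit 0) (nat_lit 27572314778) (nat_lit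 76) (nat_lit 10911796967) (nat_lit 152) (nat_lit 33193240657) (nat_lit 9) (nat_lit 5) (nat_lit 10) (nat_lit 5) (nat_lit 11) (nat_lit 4) (nat_lit 392) (nat_lit 264) (nat_lit 124)) (XT.nd (nat_lit 78) (nat_lit 0) (nat_lit 0) (XT.lf (nat_lit 0) (nat_lit 39240858298) (nat_lit 76) (nat_lit 5003061121) (nat_lit 152) (nat_lit 29396893997) (nat_lit 9) (nat_lit 5) (nat_lit 10) (nat_lit 5) (nat_lit 11) (nat_lit 4) (nat_lit 393) (nat_lit 264) (nat_lit 123)) (XT.lf (nat_lit 0) (nat_lit 50181461387) (nat_lit 152) (nat_lit 24423867038) (nat_lit 0) (nat_lit 1057705021) (nat_lit 9) (nat_lit 5) (nat_lit 11) (nat_lit 4) (nat_lit 9) (nat_lit 4) (nat_lit 394) (nat_lit 264) (nat_lit 122)))) (XT.nd (nat_lit 78) (nat_lit 76) (nat_lit 0) (XT.lf (nat_lit 0) (nat_lit 56341354398) (nat_lit 152) (nat_lit 14207485019) (nat_lit 0) (nat_lit 7195757206) (nat_lit 9) (nat_lit 5) (nat_lit 11) (nat_lit 4) (nat_lit 9) (nat_lit 4)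 (nat_lit 395) (nat_lit 264) (nat_lit 121)) (XT.nd (nat_lit 78) (nat_lit 76) (nat_lit 0) (XT.lf (nat_lit 0) (nat_lit 62680888397) (nat_lit 152) (nat_lit 3693789642) (nat_lit 0) (nat_lit 13514086520) (nat_lit 9) (nat_lit 5) (nat_lit 11) (nat_lit 4) (nat_lit 9) (nat_lit 4) (nat_lit 396) (nat_lit 264) (nat_lit 120)) (XT.lf (nat_lit 0) (nat_lit 7268235265) (nat_lit 76) (nat_lit 62007234244) (nat_lit 76) (nat_lit 12819845294) (nat_lit 8) (nat_lit 4) (nat_lit 9) (nat_lit 5) (nat_lit 9) (nat_lit 4) (nat_lit 397) (nat_lit 264) (nat_lit 119))))))))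
noncomputable def xc123 : XT := (XT.nd (nat_lit 1794) (nat_lit 8132) (nat_lit 0) (XT.nd (nat_lit 858) (nat_lit 3952) (nat_lit 0) (XT.nd (nat_lit 390) (nat_lit 1064) (nat_lit 0) (XT.nd (nat_lit 156) (nat_lit 456) (nat_lit 0) (XT.nd (nat_lit 78) (nat_lit 380) (nat_lit 0) (XT.lf (nat_lit 0) (nat_lit 3186237973) (nat_lit 380) (nat_lit 45348323) (nat_lit 380) (nat_lit 45348323) (nat_lit 273) (nat_lit 3) (nat_lit 278) (nat_lit 3) (nat_lit 278) (nat_lit 5) (nat_lit 265) (nat_lit 265) (nat_lit 250)) (XT.lf (nat_lit 0) (nat_lit 2096077647) (nat_lit 380) (nat_lit 3724503559) (nat_lit 456) (nat_lit 756459940) (nat_lit 268) (nat_lit 5) (nat_lit 273) (nat_lit 3) (nat_lit 274) (nat_lit 5) (nat_lit 266) (nat_lit 265) (nat_lit 249))) (XT.nd (nat_lit 78) (nat_lit 456) (nat_lit 0) (XT.lf (nat_lit 0) (nat_lit 4350948167) (nat_lit 380) (nat_lit 764426368) (nat_lit 456) (nat_lit 1488367106) (nat_lit 268) (nat_lit 5)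 (nat_lit 273) (nat_lit 3) (nat_lit 274) (nat_lit 5) (nat_lit 267) (nat_lit 265) (nat_lit 248)) (XT.nd (nat_lit 78) (nat_lit 456) (nat_lit 0) (XT.lf (nat_lit 76) (nat_lit 2282716944) (nat_lit 0) (nat_lit 4327056121) (nat_lit 456) (nat_lit 23641952) (nat_lit 269) (nat_lit 5) (nat_lit 268) (nat_lit 5) (nat_lit 274) (nat_lit 5) (nat_lit 268) (nat_lit 265) (nat_lit 247)) (XT.lf (nat_lit 0) (nat_lit 2151180348) (nat_lit 456) (nat_lit 1296479905) (nat_lit 532) (nat_lit 3218214999) (nat_lit 262) (nat_lit 5) (nat_lit 268) (nat_lit 5) (nat_lit 269) (nat_lit 5) (nat_lit 269) (nat_lit 265) (nat_lit 246))))) (XT.nd (nat_lit 234) (nat_lit 532) (nat_lit 0) (XT.nd (nat_lit 78) (nat_lit 532) (nat_lit 0) (XT.lf (nat_lit 76) (nat_lit 1838642806) (nat_lit 0) (nat_lit 2487612223) (nat_lit 532) (nat_lit 2375221709) (nat_lit 263) (nat_lit 5) (nat_lit 262) (nat_lit 5) (nat_lit 269) (nat_lit 5) (nat_lit 270) (nat_lit 265)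 (nat_lit 245)) (XT.nd (nat_lit 78) (nat_lit 532) (nat_lit 0) (XT.lf (nat_lit 76) (nat_lit 5048483873) (nat_lit 0) (nat_lit 1450951305) (nat_lit 532) (nat_lit 240957492) (nat_lit 263) (nat_lit 5) (nat_lit 262) (nat_lit 5) (nat_lit 269) (nat_lit 5) (nat_lit 271) (nat_lit 265) (nat_lit 244)) (XT.lf (nat_lit 76) (nat_lit 1538996893) (nat_lit 0) (nat_lit 316043110) (nat_lit 608) (nat_lit 4927013300) (nat_lit 256) (nat_lit 5) (nat_lit 255) (nat_lit 5) (nat_lit 263) (nat_lit 5) (nat_lit 272) (nat_lit 265) (nat_lit 243)))) (XT.nd (nat_lit 78) (nat_lit 608) (nat_lit 0) (XT.lf (nat_lit 0) (nat_lit 3957789273) (nat_lit 532) (nat_lit 1982424150) (nat_lit 608) (nat_lit 886429625) (nat_lit 256) (nat_lit 5) (nat_lit 263) (nat_lit 5) (nat_lit 264) (nat_lit 5) (nat_lit 273) (nat_lit 265) (nat_lit 242)) (XT.nd (nat_lit 78) (nat_lit 608) (nat_lit 0) (XT.lf (nat_lit 76) (nat_lit 1351967482) (nat_lit 0) (nat_lit 4713275721)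 (nat_lit 608) (nat_lit 809284741) (nat_lit 257) (nat_lit 5) (nat_lit 256) (nat_lit 5) (nat_lit 264) (nat_lit 5) (nat_lit 274) (nat_lit 265) (nat_lit 241)) (XT.lf (nat_lit 0) (nat_lit 1232984843) (nat_lit 608) (nat_lit 2157540285) (nat_lit 684) (nat_lit 3534744677) (nat_lit 248) (nat_lit 5) (nat_lit 256) (nat_lit 5) (nat_lit 257) (nat_lit 5) (nat_lit 275) (nat_lit 265) (nat_lit 240)))))) (XT.nd (nat_lit 468) (nat_lit 2660) (nat_lit 0) (XT.nd (nat_lit 234) (nat_lit 684) (nat_lit 0) (XT.nd (nat_lit 78) (nat_lit 608) (nat_lit 0) (XT.lf (nat_lit 76) (nat_lit 1278264788) (nat_lit 0) (nat_lit 1982725888) (nat_lit 684) (nat_lit 3718269478) (nat_lit 249) (nat_lit 5) (nat_lit 248) (nat_lit 5) (nat_lit 257) (nat_lit 5) (nat_lit 276) (nat_lit 265) (nat_lit 239)) (XT.nd (nat_lit 78) (nat_lit 608) (nat_lit 0) (XT.lf (nat_lit 76) (nat_lit 4814736667) (nat_lit 0) (nat_lit 486969264) (nat_lit 684) (nat_lit 1734791345)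 (nat_lit 249) (nat_lit 5) (nat_lit 248) (nat_lit 5) (nat_lit 257) (nat_lit 5) (nat_lit 277) (nat_lit 265) (nat_lit 238)) (XT.lf (nat_lit 0) (nat_lit 256808727) (nat_lit 684) (nat_lit 5769522414) (nat_lit 76) (nat_lit 1070565176) (nat_lit 240) (nat_lit 5) (nat_lit 249) (nat_lit 5) (nat_lit 241) (nat_lit 5) (nat_lit 278) (nat_lit 265) (nat_lit 237)))) (XT.nd (nat_lit 78) (nat_lit 684) (nat_lit 0) (XT.lf (nat_lit 0) (nat_lit 2233796810) (nat_lit 684) (nat_lit 2200868442) (nat_lit 76) (nat_lit 2725279163) (nat_lit 240) (nat_lit 5) (nat_lit 249) (nat_lit 5) (nat_lit 241) (nat_lit 5) (nat_lit 279) (nat_lit 265) (nat_lit 236)) (XT.nd (nat_lit 78) (nat_lit 0) (nat_lit 0) (XT.lf (nat_lit 0) (nat_lit 1455934528) (nat_lit 684) (nat_lit 2763134522) (nat_lit 760) (nat_lit 3007508387) (nat_lit 231) (nat_lit 5) (nat_lit 240) (nat_lit 5) (nat_lit 241) (nat_lit 5) (nat_lit 280) (nat_lit 265) (nat_lit 235)) (XT.lf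 (nat_lit 0) (nat_lit 5220700020) (nat_lit 684) (nat_lit 1001846467) (nat_lit 760) (nat_lit 1074061529) (nat_lit 231) (nat_lit 5) (nat_lit 240) (nat_lit 5) (nat_lit 241) (nat_lit 5) (nat_lit 281) (nat_lit 265) (nat_lit 234))))) (XT.nd (nat_lit 234) (nat_lit 988) (nat_lit 0) (XT.nd (nat_lit 78) (nat_lit 836) (nat_lit 0) (XT.lf (nat_lit 0) (nat_lit 861619329) (nat_lit 836) (nat_lit 5670933365) (nat_lit 76) (nat_lit 837207208) (nat_lit 220) (nat_lit 5) (nat_lit 231) (nat_lit 5) (nat_lit 221) (nat_lit 5) (nat_lit 282) (nat_lit 265) (nat_lit 233)) (XT.nd (nat_lit 78) (nat_lit 836) (nat_lit 0) (XT.lf (nat_lit 0) (nat_lit 2803900215) (nat_lit 836) (nat_lit 1884425852) (nat_lit 76) (nat_lit 2757502307) (nat_lit 220) (nat_lit 5) (nat_lit 231) (nat_lit 5) (nat_lit 221) (nat_lit 5) (nat_lit 283) (nat_lit 265) (nat_lit 232)) (XT.lf (nat_lit 0) (nat_lit 2007724258) (nat_lit 836) (nat_lit 2756828386) (nat_lit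 912) (nat_lit 2760963523) (nat_lit 209) (nat_lit 5) (nat_lit 220) (nat_lit 5) (nat_lit 221) (nat_lit 5) (nat_lit 284) (nat_lit 265) (nat_lit 231)))) (XT.nd (nat_lit 78) (nat_lit 988) (nat_lit 0) (XT.lf (nat_lit 0) (nat_lit 6008599258) (nat_lit 836) (nat_lit 736533596) (nat_lit 912) (nat_lit 863764765) (nat_lit 209) (nat_lit 5) (nat_lit 220) (nat_lit 5) (nat_lit 221) (nat_lit 5) (nat_lit 285) (nat_lit 265) (nat_lit 230)) (XT.nd (nat_lit 78) (nat_lit 0) (nat_lit 0) (XT.lf (nat_lit 0) (nat_lit 1048820463) (nat_lit 988) (nat_lit 5283971145) (nat_lit 76) (nat_lit 1362410510) (nat_lit 196) (nat_lit 5) (nat_lit 209) (nat_lit 5) (nat_lit 197) (nat_lit 5) (nat_lit 286) (nat_lit 265) (nat_lit 229)) (XT.lf (nat_lit 0) (nat_lit 2969421241) (nat_lit 988) (nat_lit 1271706758) (nat_lit 76) (nat_lit 3543795934) (nat_lit 196) (nat_lit 5) (nat_lit 209) (nat_lit 5) (nat_lit 197) (nat_lit 5) (nat_lit 287) (nat_lit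 265) (nat_lit 228))))))) (XT.nd (nat_lit 936) (nat_lit 2660) (nat_lit 0) (XT.nd (nat_lit 468) (nat_lit 1748) (nat_lit 0) (XT.nd (nat_lit 234) (nat_lit 1596) (nat_lit 0) (XT.nd (nat_lit 78) (nat_lit 1140) (nat_lit 0) (XT.lf (nat_lit 0) (nat_lit 2870332194) (nat_lit 988) (nat_lit 2050905570) (nat_lit 1064) (nat_lit 2957012784) (nat_lit 183) (nat_lit 5) (nat_lit 196) (nat_lit 5) (nat_lit 197) (nat_lit 5) (nat_lit 288) (nat_lit 265) (nat_lit 227)) (XT.nd (nat_lit 78) (nat_lit 1140) (nat_lit 0) (XT.lf (nat_lit 0) (nat_lit 6893748430) (nat_lit 1064) (nat_lit 861303656) (nat_lit 76) (nat_lit 220578235) (nat_lit 183) (nat_lit 5) (nat_lit 197) (nat_lit 5) (nat_lit 184) (nat_lit 5) (nat_lit 289) (nat_lit 265) (nat_lit 226)) (XT.lf (nat_lit 0) (nat_lit 834649336) (nat_lit 1140) (nat_lit 4674759968) (nat_lit 76) (nat_lit 2566336310) (nat_lit 168) (nat_lit 5) (nat_lit 183) (nat_lit 5) (nat_lit 169) (nat_lit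 5) (nat_lit 290) (nat_lit 265) (nat_lit 225)))) (XT.nd (nat_lit 78) (nat_lit 1596) (nat_lit 0) (XT.lf (nat_lit 0) (nat_lit 2744897645) (nat_lit 1140) (nat_lit 427784084) (nat_lit 76) (nat_lit 5007229882) (nat_lit 168) (nat_lit 5) (nat_lit 183) (nat_lit 5) (nat_lit 169) (nat_lit 5) (nat_lit 291) (nat_lit 265) (nat_lit 224)) (XT.nd (nat_lit 78) (nat_lit 532) (nat_lit 0) (XT.lf (nat_lit 0) (nat_lit 3978426408) (nat_lit 1064) (nat_lit 722932497) (nat_lit 1140) (nat_lit 3586280962) (nat_lit 154) (nat_lit 5) (nat_lit 168) (nat_lit 5) (nat_lit 169) (nat_lit 5) (nat_lit 292) (nat_lit 265) (nat_lit 223)) (XT.lf (nat_lit 0) (nat_lit 64084964) (nat_lit 532) (nat_lit 6626405341) (nat_lit 608) (nat_lit 1708991775) (nat_lit 147) (nat_lit 5) (nat_lit 154) (nat_lit 5) (nat_lit 155) (nat_lit 5) (nat_lit 293) (nat_lit 265) (nat_lit 222))))) (XT.nd (nat_lit 234) (nat_lit 1140) (nat_lit 0) (XT.nd (nat_lit 78) (nat_lit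 532) (nat_lit 0) (XT.lf (nat_lit 0) (nat_lit 223423192) (nat_lit 608) (nat_lit 3913732933) (nat_lit 76) (nat_lit 4377458535) (nat_lit 146) (nat_lit 5) (nat_lit 154) (nat_lit 5) (nat_lit 147) (nat_lit 5) (nat_lit 294) (nat_lit 265) (nat_lit 221)) (XT.nd (nat_lit 78) (nat_lit 0) (nat_lit 0) (XT.lf (nat_lit 0) (nat_lit 589010423) (nat_lit 532) (nat_lit 1549595579) (nat_lit 608) (nat_lit 6495406054) (nat_lit 139) (nat_lit 5) (nat_lit 146) (nat_lit 5) (nat_lit 147) (nat_lit 5) (nat_lit 295) (nat_lit 265) (nat_lit 220)) (XT.lf (nat_lit 0) (nat_lit 4116277687) (nat_lit 608) (nat_lit 3507005678) (nat_lit 76) (nat_lit 1133647102) (nat_lit 139) (nat_lit 5) (nat_lit 147) (nat_lit 5) (nat_lit 140) (nat_lit 5) (nat_lit 296) (nat_lit 265) (nat_lit 219)))) (XT.nd (nat_lit 78) (nat_lit 608) (nat_lit 0) (XT.lf (nat_lit 0) (nat_lit 1128024046) (nat_lit 532) (nat_lit 5007166809) (nat_lit 608) (nat_lit 2748975702)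 (nat_lit 132) (nat_lit 5) (nat_lit 139) (nat_lit 5) (nat_lit 140) (nat_lit 5) (nat_lit 297) (nat_lit 265) (nat_lit 218)) (XT.nd (nat_lit 78) (nat_lit 608) (nat_lit 0) (XT.lf (nat_lit 0) (nat_lit 5928668227) (nat_lit 532) (nat_lit 2277996459) (nat_lit 608) (nat_lit 808880168) (nat_lit 132) (nat_lit 5) (nat_lit 139) (nat_lit 5) (nat_lit 140) (nat_lit 5) (nat_lit 298) (nat_lit 265) (nat_lit 217)) (XT.lf (nat_lit 0) (nat_lit 1145265528) (nat_lit 608) (nat_lit 7457511056) (nat_lit 76) (nat_lit 548453244) (nat_lit 124) (nat_lit 5) (nat_lit 132) (nat_lit 5) (nat_lit 125) (nat_lit 5) (nat_lit 299) (nat_lit 265) (nat_lit 216)))))) (XT.nd (nat_lit 468) (nat_lit 1292) (nat_lit 0) (XT.nd (nat_lit 234) (nat_lit 912) (nat_lit 0) (XT.nd (nat_lit 78) (nat_lit 456) (nat_lit 0) (XT.lf (nat_lit 0) (nat_lit 3153947313) (nat_lit 608) (nat_lit 2685714193) (nat_lit 76) (nat_lit 3450796216) (nat_lit 124) (nat_lit 5) (nat_lit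 132) (nat_lit 5) (nat_lit 125) (nat_lit 5) (nat_lit 300) (nat_lit 265) (nat_lit 215)) (XT.nd (nat_lit 78) (nat_lit 0) (nat_lit 0) (XT.lf (nat_lit 0) (nat_lit 2228249593) (nat_lit 456) (nat_lit 2975413585) (nat_lit 532) (nat_lit 4230851518) (nat_lit 118) (nat_lit 5) (nat_lit 124) (nat_lit 5) (nat_lit 125) (nat_lit 5) (nat_lit 301) (nat_lit 265) (nat_lit 214)) (XT.lf (nat_lit 0) (nat_lit 7300654609) (nat_lit 456) (nat_lit 1451277) (nat_lit 532) (nat_lit 2281243685) (nat_lit 118) (nat_lit 5) (nat_lit 124) (nat_lit 5) (nat_lit 125) (nat_lit 5) (nat_lit 302) (nat_lit 265) (nat_lit 213)))) (XT.nd (nat_lit 78) (nat_lit 456) (nat_lit 0) (XT.lf (nat_lit 0) (nat_lit 2769245187) (nat_lit 456) (nat_lit 6711545504) (nat_lit 532) (nat_lit 255411258) (nat_lit 112) (nat_lit 5) (nat_lit 118) (nat_lit 5) (nat_lit 119) (nat_lit 5) (nat_lit 303) (nat_lit 265) (nat_lit 212)) (XT.nd (nat_lit 78) (nat_lit 380) (nat_lit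 0) (XT.lf (nat_lit 0) (nat_lit 1780260436) (nat_lit 532) (nat_lit 1935603173) (nat_lit 76) (nat_lit 6177771321) (nat_lit 111) (nat_lit 5) (nat_lit 118) (nat_lit 5) (nat_lit 112) (nat_lit 5) (nat_lit 304) (nat_lit 265) (nat_lit 211)) (XT.lf (nat_lit 0) (nat_lit 3264815975) (nat_lit 380) (nat_lit 601061626) (nat_lit 456) (nat_lit 6190082255) (nat_lit 106) (nat_lit 5) (nat_lit 111) (nat_lit 5) (nat_lit 112) (nat_lit 5) (nat_lit 305) (nat_lit 265) (nat_lit 210))))) (XT.nd (nat_lit 234) (nat_lit 836) (nat_lit 0) (XT.nd (nat_lit 78) (nat_lit 456) (nat_lit 0) (XT.lf (nat_lit 0) (nat_lit 6022111584) (nat_lit 456) (nat_lit 1630637301) (nat_lit 76) (nat_lit 2570227386) (nat_lit 106) (nat_lit 5) (nat_lit 112) (nat_lit 5) (nat_lit 107) (nat_lit 5) (nat_lit 306) (nat_lit 265) (nat_lit 209)) (XT.nd (nat_lit 78) (nat_lit 0) (nat_lit 0) (XT.lf (nat_lit 0) (nat_lit 3708636762) (nat_lit 456) (nat_lit 4540314215)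 (nat_lit 532) (nat_lit 2145935998) (nat_lit 100) (nat_lit 5) (nat_lit 106) (nat_lit 5) (nat_lit 107) (nat_lit 5) (nat_lit 307) (nat_lit 265) (nat_lit 208)) (XT.lf (nat_lit 0) (nat_lit 9199466370) (nat_lit 456) (nat_lit 1324548114) (nat_lit 532) (nat_lit 48557508) (nat_lit 100) (nat_lit 5) (nat_lit 106) (nat_lit 5) (nat_lit 107) (nat_lit 5) (nat_lit 308) (nat_lit 265) (nat_lit 207)))) (XT.nd (nat_lit 78) (nat_lit 380) (nat_lit 0) (XT.lf (nat_lit 0) (nat_lit 2095329653) (nat_lit 456) (nat_lit 6656587035) (nat_lit 76) (nat_lit 2002374186) (nat_lit 94) (nat_lit 5) (nat_lit 100) (nat_lit 5) (nat_lit 95) (nat_lit 5) (nat_lit 309) (nat_lit 265) (nat_lit 206)) (XT.nd (nat_lit 78) (nat_lit 380) (nat_lit 0) (XT.lf (nat_lit 0) (nat_lit 4295790949) (nat_lit 456) (nat_lit 1236149210) (nat_lit 76) (nat_lit 5409764241) (nat_lit 94) (nat_lit 5) (nat_lit 100) (nat_lit 5) (nat_lit 95) (nat_lit 5) (nat_lit 310) (nat_lit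 265) (nat_lit 205)) (XT.lf (nat_lit 0) (nat_lit 4391670539) (nat_lit 380) (nat_lit 2179914057) (nat_lit 456) (nat_lit 4562929101) (nat_lit 89) (nat_lit 5) (nat_lit 94) (nat_lit 5) (nat_lit 95) (nat_lit 5) (nat_lit 311) (nat_lit 265) (nat_lit 204))))))))
noncomputable def xc124 : XT := (XT.nd (nat_lit 1794) (nat_lit 1672) (nat_lit 0) (XT.nd (nat_lit 858) (nat_lit 1596) (nat_lit 0) (XT.nd (nat_lit 390) (nat_lit 988) (nat_lit 0) (XT.nd (nat_lit 156) (nat_lit 456) (nat_lit 0) (XT.nd (nat_lit 78) (nat_lit 304) (nat_lit 0) (XT.lf (nat_lit 0) (nat_lit 8908084901) (nat_lit 456) (nat_lit 1172895040) (nat_lit 76) (nat_lit 1252405724) (nat_lit 89) (nat_lit 5) (nat_lit 95) (nat_lit 5) (nat_lit 90) (nat_lit 5) (nat_lit 312) (nat_lit 265) (nat_lit 203)) (XT.lf (nat_lit 0) (nat_lit 4591911118) (nat_lit 304) (nat_lit 6757029425) (nat_lit 380) (nat_lit 188305322) (nat_lit 85) (nat_lit 5) (nat_lit 89) (nat_lit 5)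 (nat_lit 90) (nat_lit 5) (nat_lit 313) (nat_lit 265) (nat_lit 202))) (XT.nd (nat_lit 78) (nat_lit 380) (nat_lit 0) (XT.lf (nat_lit 0) (nat_lit 2055190530) (nat_lit 380) (nat_lit 1254154247) (nat_lit 76) (nat_lit 8437893639) (nat_lit 84) (nat_lit 5) (nat_lit 89) (nat_lit 5) (nat_lit 85) (nat_lit 5) (nat_lit 314) (nat_lit 265) (nat_lit 201)) (XT.nd (nat_lit 78) (nat_lit 0) (nat_lit 0) (XT.lf (nat_lit 0) (nat_lit 4379303333) (nat_lit 456) (nat_lit 7308363616) (nat_lit 76) (nat_lit 275340607) (nat_lit 79) (nat_lit 5) (nat_lit 85) (nat_lit 5) (nat_lit 80) (nat_lit 5) (nat_lit 315) (nat_lit 265) (nat_lit 200)) (XT.lf (nat_lit 0) (nat_lit 6788745081) (nat_lit 456) (nat_lit 1491168856) (nat_lit 76) (nat_lit 3904911984) (nat_lit 79) (nat_lit 5) (nat_lit 85) (nat_lit 5) (nat_lit 80) (nat_lit 5) (nat_lit 316) (nat_lit 265) (nat_lit 199))))) (XT.nd (nat_lit 234) (nat_lit 304) (nat_lit 0) (XT.nd (nat_lit 78)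 (nat_lit 380) (nat_lit 0) (XT.lf (nat_lit 0) (nat_lit 4550678923) (nat_lit 304) (nat_lit 4734457284) (nat_lit 380) (nat_lit 3127765678) (nat_lit 75) (nat_lit 5) (nat_lit 79) (nat_lit 5) (nat_lit 80) (nat_lit 5) (nat_lit 317) (nat_lit 265) (nat_lit 198)) (XT.nd (nat_lit 78) (nat_lit 380) (nat_lit 0) (XT.lf (nat_lit 0) (nat_lit 10766065726) (nat_lit 304) (nat_lit 1076812354) (nat_lit 380) (nat_lit 805390050) (nat_lit 75) (nat_lit 5) (nat_lit 79) (nat_lit 5) (nat_lit 80) (nat_lit 5) (nat_lit 318) (nat_lit 265) (nat_lit 197)) (XT.lf (nat_lit 0) (nat_lit 1595359871) (nat_lit 380) (nat_lit 8607938819) (nat_lit 76) (nat_lit 2685788561) (nat_lit 70) (nat_lit 5) (nat_lit 75) (nat_lit 5) (nat_lit 71) (nat_lit 5) (nat_lit 319) (nat_lit 265) (nat_lit 196)))) (XT.nd (nat_lit 78) (nat_lit 304) (nat_lit 0) (XT.lf (nat_lit 0) (nat_lit 4054084865) (nat_lit 380) (nat_lit 2525571251) (nat_lit 76) (nat_lit 6557209630)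 (nat_lit 70) (nat_lit 5) (nat_lit 75) (nat_lit 5) (nat_lit 71) (nat_lit 5) (nat_lit 320) (nat_lit 265) (nat_lit 195)) (XT.nd (nat_lit 78) (nat_lit 0) (nat_lit 0) (XT.lf (nat_lit 0) (nat_lit 3775890557) (nat_lit 304) (nat_lit 2820068360) (nat_lit 380) (nat_lit 6795874179) (nat_lit 66) (nat_lit 5) (nat_lit 70) (nat_lit 5) (nat_lit 71) (nat_lit 5) (nat_lit 321) (nat_lit 265) (nat_lit 194)) (XT.lf (nat_lit 0) (nat_lit 9223384384) (nat_lit 380) (nat_lit 3383311195) (nat_lit 76) (nat_lit 1047511067) (nat_lit 66) (nat_lit 5) (nat_lit 71) (nat_lit 5) (nat_lit 67) (nat_lit 5) (nat_lit 322) (nat_lit 265) (nat_lit 193)))))) (XT.nd (nat_lit 468) (nat_lit 760) (nat_lit 0) (XT.nd (nat_lit 234) (nat_lit 228) (nat_lit 0) (XT.nd (nat_lit 78) (nat_lit 304) (nat_lit 0) (XT.lf (nat_lit 0) (nat_lit 3031190307) (nat_lit 304) (nat_lit 8929699439) (nat_lit 380) (nat_lit 1962658927) (nat_lit 62) (nat_lit 5) (nat_lit 66)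 (nat_lit 5) (nat_lit 67) (nat_lit 5) (nat_lit 323) (nat_lit 265) (nat_lit 192)) (XT.nd (nat_lit 78) (nat_lit 228) (nat_lit 0) (XT.lf (nat_lit 0) (nat_lit 577062190) (nat_lit 380) (nat_lit 4534898442) (nat_lit 76) (nat_lit 9088611519) (nat_lit 61) (nat_lit 5) (nat_lit 66) (nat_lit 5) (nat_lit 62) (nat_lit 5) (nat_lit 324) (nat_lit 265) (nat_lit 191)) (XT.lf (nat_lit 0) (nat_lit 1997368088) (nat_lit 228) (nat_lit 1150426171) (nat_lit 304) (nat_lit 11337733119) (nat_lit 58) (nat_lit 5) (nat_lit 61) (nat_lit 5) (nat_lit 62) (nat_lit 5) (nat_lit 325) (nat_lit 265) (nat_lit 190)))) (XT.nd (nat_lit 78) (nat_lit 228) (nat_lit 0) (XT.lf (nat_lit 0) (nat_lit 5845413770) (nat_lit 304) (nat_lit 6023490724) (nat_lit 76) (nat_lit 2908664889) (nat_lit 58) (nat_lit 5) (nat_lit 62) (nat_lit 5) (nat_lit 59) (nat_lit 5) (nat_lit 326) (nat_lit 265) (nat_lit 189)) (XT.nd (nat_lit 78) (nat_lit 0) (nat_lit 0) (XT.lf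 (nat_lit 0) (nat_lit 600712776) (nat_lit 228) (nat_lit 8016485693) (nat_lit 304) (nat_lit 6461407260) (nat_lit 55) (nat_lit 5) (nat_lit 58) (nat_lit 5) (nat_lit 59) (nat_lit 5) (nat_lit 327) (nat_lit 265) (nat_lit 188)) (XT.lf (nat_lit 0) (nat_lit 7512721758) (nat_lit 228) (nat_lit 3996678522) (nat_lit 304) (nat_lit 3878184279) (nat_lit 55) (nat_lit 5) (nat_lit 58) (nat_lit 5) (nat_lit 59) (nat_lit 5) (nat_lit 328) (nat_lit 265) (nat_lit 187))))) (XT.nd (nat_lit 234) (nat_lit 456) (nat_lit 0) (XT.nd (nat_lit 78) (nat_lit 304) (nat_lit 0) (XT.lf (nat_lit 0) (nat_lit 14466772977) (nat_lit 304) (nat_lit 1109131343) (nat_lit 76) (nat_lit 130604735) (nat_lit 55) (nat_lit 5) (nat_lit 59) (nat_lit 5) (nat_lit 56) (nat_lit 5) (nat_lit 329) (nat_lit 265) (nat_lit 186)) (XT.nd (nat_lit 78) (nat_lit 0) (nat_lit 0) (XT.lf (nat_lit 0) (nat_lit 1523731379) (nat_lit 304) (nat_lit 10145591707) (nat_lit 76) (nat_lit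 4363037701) (nat_lit 51) (nat_lit 5) (nat_lit 55) (nat_lit 5) (nat_lit 52) (nat_lit 5) (nat_lit 330) (nat_lit 265) (nat_lit 185)) (XT.lf (nat_lit 0) (nat_lit 4334280466) (nat_lit 304) (nat_lit 3297916945) (nat_lit 76) (nat_lit 8735775602) (nat_lit 51) (nat_lit 5) (nat_lit 55) (nat_lit 5) (nat_lit 52) (nat_lit 5) (nat_lit 331) (nat_lit 265) (nat_lit 184)))) (XT.nd (nat_lit 78) (nat_lit 228) (nat_lit 0) (XT.lf (nat_lit 0) (nat_lit 3797086790) (nat_lit 228) (nat_lit 3446990350) (nat_lit 304) (nat_lit 9469153808) (nat_lit 48) (nat_lit 5) (nat_lit 51) (nat_lit 5) (nat_lit 52) (nat_lit 5) (nat_lit 332) (nat_lit 265) (nat_lit 183)) (XT.nd (nat_lit 78) (nat_lit 228) (nat_lit 0) (XT.lf (nat_lit 0) (nat_lit 10261753792) (nat_lit 304) (nat_lit 5936375882) (nat_lit 76) (nat_lit 870123903) (nat_lit 48) (nat_lit 5) (nat_lit 52) (nat_lit 5) (nat_lit 49) (nat_lit 5) (nat_lit 333) (nat_lit 265) (nat_lit 182)) (XT.lf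 (nat_lit 0) (nat_lit 1210788330) (nat_lit 228) (nat_lit 12184212433) (nat_lit 304) (nat_lit 4038198745) (nat_lit 45) (nat_lit 5) (nat_lit 48) (nat_lit 5) (nat_lit 49) (nat_lit 5) (nat_lit 334) (nat_lit 265) (nat_lit 181))))))) (XT.nd (nat_lit 936) (nat_lit 760) (nat_lit 0) (XT.nd (nat_lit 468) (nat_lit 456) (nat_lit 0) (XT.nd (nat_lit 234) (nat_lit 152) (nat_lit 0) (XT.nd (nat_lit 78) (nat_lit 304) (nat_lit 0) (XT.lf (nat_lit 0) (nat_lit 8662870798) (nat_lit 228) (nat_lit 7998896594) (nat_lit 304) (nat_lit 1146163888) (nat_lit 45) (nat_lit 5) (nat_lit 48) (nat_lit 5) (nat_lit 49) (nat_lit 5) (nat_lit 335) (nat_lit 265) (nat_lit 180)) (XT.nd (nat_lit 78) (nat_lit 228) (nat_lit 0) (XT.lf (nat_lit 0) (nat_lit 1776823773) (nat_lit 304) (nat_lit 1903704635) (nat_lit 76) (nat_lit 14513471318) (nat_lit 44) (nat_lit 5) (nat_lit 48) (nat_lit 5) (nat_lit 45) (nat_lit 5) (nat_lit 336) (nat_lit 265) (nat_lit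 179)) (XT.lf (nat_lit 0) (nat_lit 4806982259) (nat_lit 304) (nat_lit 12974744837) (nat_lit 76) (nat_lit 808328312) (nat_lit 41) (nat_lit 5) (nat_lit 45) (nat_lit 5) (nat_lit 42) (nat_lit 5) (nat_lit 337) (nat_lit 265) (nat_lit 178)))) (XT.nd (nat_lit 78) (nat_lit 152) (nat_lit 0) (XT.lf (nat_lit 0) (nat_lit 7964621164) (nat_lit 304) (nat_lit 5665136208) (nat_lit 76) (nat_lit 5367158670) (nat_lit 41) (nat_lit 5) (nat_lit 45) (nat_lit 5) (nat_lit 42) (nat_lit 5) (nat_lit 338) (nat_lit 265) (nat_lit 177)) (XT.nd (nat_lit 78) (nat_lit 0) (nat_lit 0) (XT.lf (nat_lit 0) (nat_lit 1871138118) (nat_lit 152) (nat_lit 9345119944) (nat_lit 228) (nat_lit 8199766320) (nat_lit 39) (nat_lit 5) (nat_lit 41) (nat_lit 5) (nat_lit 42) (nat_lit 5) (nat_lit 339) (nat_lit 265) (nat_lit 176)) (XT.lf (nat_lit 0) (nat_lit 9720780846) (nat_lit 152) (nat_lit 4883420147) (nat_lit 228) (nat_lit 5242361643) (nat_lit 39) (nat_lit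 5) (nat_lit 41) (nat_lit 5) (nat_lit 42) (nat_lit 5) (nat_lit 340) (nat_lit 265) (nat_lit 175))))) (XT.nd (nat_lit 234) (nat_lit 152) (nat_lit 0) (XT.nd (nat_lit 78) (nat_lit 304) (nat_lit 0) (XT.lf (nat_lit 0) (nat_lit 17777903568) (nat_lit 152) (nat_lit 297966177) (nat_lit 228) (nat_lit 2214703474) (nat_lit 39) (nat_lit 5) (nat_lit 41) (nat_lit 5) (nat_lit 42) (nat_lit 5) (nat_lit 341) (nat_lit 265) (nat_lit 174)) (XT.nd (nat_lit 78) (nat_lit 0) (nat_lit 0) (XT.lf (nat_lit 0) (nat_lit 963495749) (nat_lit 304) (nat_lit 15391752243) (nat_lit 76) (nat_lit 4390092800) (nat_lit 35) (nat_lit 5) (nat_lit 39) (nat_lit 5) (nat_lit 36) (nat_lit 5) (nat_lit 342) (nat_lit 265) (nat_lit 173)) (XT.lf (nat_lit 0) (nat_lit 4203675171) (nat_lit 304) (nat_lit 7758509877) (nat_lit 76) (nat_lit 9250591295) (nat_lit 35) (nat_lit 5) (nat_lit 39) (nat_lit 5) (nat_lit 36) (nat_lit 5) (nat_lit 343) (nat_lit 265) (nat_lit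 172)))) (XT.nd (nat_lit 78) (nat_lit 0) (nat_lit 0) (XT.lf (nat_lit 0) (nat_lit 78333769) (nat_lit 152) (nat_lit 7446559929) (nat_lit 228) (nat_lit 14169842960) (nat_lit 33) (nat_lit 5) (nat_lit 35) (nat_lit 5) (nat_lit 36) (nat_lit 5) (nat_lit 344) (nat_lit 265) (nat_lit 171)) (XT.nd (nat_lit 78) (nat_lit 0) (nat_lit 0) (XT.lf (nat_lit 0) (nat_lit 8282663973) (nat_lit 152) (nat_lit 2724747793) (nat_lit 228) (nat_lit 11181910351) (nat_lit 33) (nat_lit 5) (nat_lit 35) (nat_lit 5) (nat_lit 36) (nat_lit 5) (nat_lit 345) (nat_lit 265) (nat_lit 170)) (XT.lf (nat_lit 0) (nat_lit 14598674082) (nat_lit 228) (nat_lit 6012472342) (nat_lit 76) (nat_lit 2087486406) (nat_lit 33) (nat_lit 5) (nat_lit 36) (nat_lit 5) (nat_lit 34) (nat_lit 5) (nat_lit 346) (nat_lit 265) (nat_lit 169)))))) (XT.nd (nat_lit 468) (nat_lit 380) (nat_lit 0) (XT.nd (nat_lit 234) (nat_lit 152) (nat_lit 0) (XT.nd (nat_lit 78) (nat_lit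 76) (nat_lit 0) (XT.lf (nat_lit 0) (nat_lit 2107152664) (nat_lit 152) (nat_lit 16221939042) (nat_lit 228) (nat_lit 4893203925) (nat_lit 31) (nat_lit 5) (nat_lit 33) (nat_lit 5) (nat_lit 34) (nat_lit 5) (nat_lit 347) (nat_lit 265) (nat_lit 168)) (XT.nd (nat_lit 78) (nat_lit 76) (nat_lit 0) (XT.lf (nat_lit 0) (nat_lit 10568339665) (nat_lit 152) (nat_lit 11648198547) (nat_lit 228) (nat_lit 1543791461) (nat_lit 31) (nat_lit 5) (nat_lit 33) (nat_lit 5) (nat_lit 34) (nat_lit 5) (nat_lit 348) (nat_lit 265) (nat_lit 167)) (XT.lf (nat_lit 0) (nat_lit 1853600841) (nat_lit 228) (nat_lit 5074324072) (nat_lit 76) (nat_lit 17386503365) (nat_lit 30) (nat_lit 5) (nat_lit 33) (nat_lit 5) (nat_lit 31) (nat_lit 5) (nat_lit 349) (nat_lit 265) (nat_lit 166)))) (XT.nd (nat_lit 78) (nat_lit 0) (nat_lit 0) (XT.lf (nat_lit 0) (nat_lit 3312082504) (nat_lit 152) (nat_lit 2026779751) (nat_lit 228) (nat_lit 19545333340) (nat_lit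 28) (nat_lit 5) (nat_lit 30) (nat_lit 5) (nat_lit 31) (nat_lit 5) (nat_lit 350) (nat_lit 265) (nat_lit 165)) (XT.nd (nat_lit 78) (nat_lit 0) (nat_lit 0) (XT.lf (nat_lit 0) (nat_lit 8994725696) (nat_lit 228) (nat_lit 13469232086) (nat_lit 76) (nat_lit 3005130016) (nat_lit 28) (nat_lit 5) (nat_lit 31) (nat_lit 5) (nat_lit 29) (nat_lit 5) (nat_lit 351) (nat_lit 265) (nat_lit 164)) (XT.lf (nat_lit 0) (nat_lit 12766014285) (nat_lit 228) (nat_lit 5166887550) (nat_lit 76) (nat_lit 8138465260) (nat_lit 28) (nat_lit 5) (nat_lit 31) (nat_lit 5) (nat_lit 29) (nat_lit 5) (nat_lit 352) (nat_lit 265) (nat_lit 163))))) (XT.nd (nat_lit 234) (nat_lit 228) (nat_lit 0) (XT.nd (nat_lit 78) (nat_lit 0) (nat_lit 0) (XT.lf (nat_lit 0) (nat_lit 3428561218) (nat_lit 152) (nat_lit 13240936886) (nat_lit 228) (nat_lit 10021657403) (nat_lit 26) (nat_lit 5) (nat_lit 28) (nat_lit 5) (nat_lit 29) (nat_lit 5) (nat_lit 353) (nat_lit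 265) (nat_lit 162)) (XT.nd (nat_lit 78) (nat_lit 0) (nat_lit 0) (XT.lf (nat_lit 0) (nat_lit 12365144109) (nat_lit 152) (nat_lit 8363404105) (nat_lit 228) (nat_lit 6599847577) (nat_lit 26) (nat_lit 5) (nat_lit 28) (nat_lit 5) (nat_lit 29) (nat_lit 5) (nat_lit 354) (nat_lit 265) (nat_lit 161)) (XT.lf (nat_lit 0) (nat_lit 21547838594) (nat_lit 152) (nat_lit 3348217002) (nat_lit 228) (nat_lit 3089108833) (nat_lit 26) (nat_lit 5) (nat_lit 28) (nat_lit 5) (nat_lit 29) (nat_lit 5) (nat_lit 355) (nat_lit 265) (nat_lit 160)))) (XT.nd (nat_lit 78) (nat_lit 0) (nat_lit 0) (XT.lf (nat_lit 0) (nat_lit 543989405) (nat_lit 228) (nat_lit 26315046157) (nat_lit 76) (nat_lit 1801640048) (nat_lit 23) (nat_lit 5) (nat_lit 26) (nat_lit 5) (nat_lit 24) (nat_lit 5) (nat_lit 356) (nat_lit 265) (nat_lit 159)) (XT.nd (nat_lit 78) (nat_lit 0) (nat_lit 0) (XT.lf (nat_lit 0) (nat_lit 4309818579) (nat_lit 228) (nat_lit 17916569517)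 (nat_lit 76) (nat_lit 7126582418) (nat_lit 23) (nat_lit 5) (nat_lit 26) (nat_lit 5) (nat_lit 24) (nat_lit 5) (nat_lit 357) (nat_lit 265) (nat_lit 158)) (XT.lf (nat_lit 0) (nat_lit 8176027848) (nat_lit 228) (nat_lit 9287226233) (nat_lit 76) (nat_lit 12603168440) (nat_lit 23) (nat_lit 5) (nat_lit 26) (nat_lit 5) (nat_lit 24) (nat_lit 5) (nat_lit 358) (nat_lit 265) (nat_lit 157))))))))
noncomputable def xc125 : XT := (XT.nd (nat_lit 1794) (nat_lit 228) (nat_lit 0) (XT.nd (nat_lit 858) (nat_lit 380) (nat_lit 0) (XT.nd (nat_lit 390) (nat_lit 228) (nat_lit 0) (XT.nd (nat_lit 156) (nat_lit 76) (nat_lit 0) (XT.nd (nat_lit 78) (nat_lit 152) (nat_lit 0) (XT.lf (nat_lit 0) (nat_lit 12145995454) (nat_lit 228) (nat_lit 419476104) (nat_lit 76) (nat_lit 18236183480) (nat_lit 23) (nat_lit 5) (nat_lit 26) (nat_lit 5) (nat_lit 24) (nat_lit 5) (nat_lit 359) (nat_lit 265) (nat_lit 156)) (XT.lf (nat_lit 0) (nat_lit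 8867465584) (nat_lit 152) (nat_lit 7440964218) (nat_lit 228) (nat_lit 15248323510) (nat_lit 21) (nat_lit 5) (nat_lit 23) (nat_lit 5) (nat_lit 24) (nat_lit 5) (nat_lit 360) (nat_lit 265) (nat_lit 155))) (XT.nd (nat_lit 78) (nat_lit 76) (nat_lit 0) (XT.lf (nat_lit 0) (nat_lit 18421932108) (nat_lit 152) (nat_lit 2166325754) (nat_lit 228) (nat_lit 11746480581) (nat_lit 21) (nat_lit 5) (nat_lit 23) (nat_lit 5) (nat_lit 24) (nat_lit 5) (nat_lit 361) (nat_lit 265) (nat_lit 154)) (XT.nd (nat_lit 78) (nat_lit 76) (nat_lit 0) (XT.lf (nat_lit 0) (nat_lit 25016432519) (nat_lit 228) (nat_lit 4923815709) (nat_lit 76) (nat_lit 3195225600) (nat_lit 21) (nat_lit 5) (nat_lit 24) (nat_lit 5) (nat_lit 22) (nat_lit 4) (nat_lit 362) (nat_lit 265) (nat_lit 153)) (XT.lf (nat_lit 0) (nat_lit 4380045840) (nat_lit 76) (nat_lit 25249844132) (nat_lit 152) (nat_lit 4328777159) (nat_lit 20) (nat_lit 5) (nat_lit 21) (nat_lit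 5) (nat_lit 22) (nat_lit 4) (nat_lit 363) (nat_lit 265) (nat_lit 152))))) (XT.nd (nat_lit 234) (nat_lit 152) (nat_lit 0) (XT.nd (nat_lit 78) (nat_lit 76) (nat_lit 0) (XT.lf (nat_lit 0) (nat_lit 14045320649) (nat_lit 76) (nat_lit 20375181085) (nat_lit 152) (nat_lit 384900701) (nat_lit 20) (nat_lit 5) (nat_lit 21) (nat_lit 5) (nat_lit 22) (nat_lit 4) (nat_lit 364) (nat_lit 265) (nat_lit 151)) (XT.nd (nat_lit 78) (nat_lit 0) (nat_lit 0) (XT.lf (nat_lit 0) (nat_lit 3594770306) (nat_lit 152) (nat_lit 11730650119) (nat_lit 76) (nat_lit 20351390077) (nat_lit 19) (nat_lit 5) (nat_lit 21) (nat_lit 5) (nat_lit 20) (nat_lit 5) (nat_lit 365) (nat_lit 265) (nat_lit 150)) (XT.lf (nat_lit 0) (nat_lit 7675644322) (nat_lit 152) (nat_lit 2451928576) (nat_lit 76) (nat_lit 26446995098) (nat_lit 19) (nat_lit 5) (nat_lit 21) (nat_lit 5) (nat_lit 20) (nat_lit 5) (nat_lit 366) (nat_lit 265) (nat_lit 149)))) (XT.nd (nat_lit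 78) (nat_lit 0) (nat_lit 0) (XT.lf (nat_lit 0) (nat_lit 7228953278) (nat_lit 152) (nat_lit 4709333798) (nat_lit 228) (nat_lit 25559198610) (nat_lit 17) (nat_lit 5) (nat_lit 19) (nat_lit 5) (nat_lit 20) (nat_lit 5) (nat_lit 367) (nat_lit 265) (nat_lit 148)) (XT.nd (nat_lit 78) (nat_lit 0) (nat_lit 0) (XT.lf (nat_lit 0) (nat_lit 16352107414) (nat_lit 228) (nat_lit 21222781399) (nat_lit 76) (nat_lit 872510669) (nat_lit 17) (nat_lit 5) (nat_lit 20) (nat_lit 5) (nat_lit 18) (nat_lit 4) (nat_lit 368) (nat_lit 265) (nat_lit 147)) (XT.lf (nat_lit 0) (nat_lit 20935179670) (nat_lit 228) (nat_lit 11969114949) (nat_lit 76) (nat_lit 6520418256) (nat_lit 17) (nat_lit 5) (nat_lit 20) (nat_lit 5) (nat_lit 18) (nat_lit 4) (nat_lit 369) (nat_lit 265) (nat_lit 146)))))) (XT.nd (nat_lit 468) (nat_lit 76) (nat_lit 0) (XT.nd (nat_lit 234) (nat_lit 228) (nat_lit 0) (XT.nd (nat_lit 78) (nat_lit 76) (nat_lit 0) (XT.lf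 (nat_lit 0) (nat_lit 25646239474) (nat_lit 228) (nat_lit 2454178333) (nat_lit 76) (nat_lit 12331220092) (nat_lit 17) (nat_lit 5) (nat_lit 20) (nat_lit 5) (nat_lit 18) (nat_lit 4) (nat_lit 370) (nat_lit 265) (nat_lit 145)) (XT.nd (nat_lit 78) (nat_lit 0) (nat_lit 0) (XT.lf (nat_lit 0) (nat_lit 7476230660) (nat_lit 76) (nat_lit 23085038729) (nat_lit 152) (nat_lit 10905629019) (nat_lit 16) (nat_lit 5) (nat_lit 17) (nat_lit 5) (nat_lit 18) (nat_lit 4) (nat_lit 371) (nat_lit 265) (nat_lit 144)) (XT.lf (nat_lit 0) (nat_lit 17739151791) (nat_lit 76) (nat_lit 17900270785) (nat_lit 152) (nat_lit 6893330669) (nat_lit 16) (nat_lit 5) (nat_lit 17) (nat_lit 5) (nat_lit 18) (nat_lit 4) (nat_lit 372) (nat_lit 265) (nat_lit 143)))) (XT.nd (nat_lit 78) (nat_lit 228) (nat_lit 0) (XT.lf (nat_lit 0) (nat_lit 28294709700) (nat_lit 76) (nat_lit 12566365985) (nat_lit 152) (nat_lit 2769779871) (nat_lit 16) (nat_lit 5)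 (nat_lit 17) (nat_lit 5) (nat_lit 18) (nat_lit 4) (nat_lit 373) (nat_lit 265) (nat_lit 142)) (XT.nd (nat_lit 78) (nat_lit 152) (nat_lit 0) (XT.lf (nat_lit 0) (nat_lit 1439968283) (nat_lit 152) (nat_lit 5624154495) (nat_lit 76) (nat_lit 37697618551) (nat_lit 15) (nat_lit 5) (nat_lit 17) (nat_lit 5) (nat_lit 16) (nat_lit 5) (nat_lit 374) (nat_lit 265) (nat_lit 141)) (XT.lf (nat_lit 0) (nat_lit 4423543289) (nat_lit 152) (nat_lit 1330892069) (nat_lit 228) (nat_lit 40170278657) (nat_lit 13) (nat_lit 5) (nat_lit 15) (nat_lit 5) (nat_lit 16) (nat_lit 5) (nat_lit 375) (nat_lit 265) (nat_lit 140))))) (XT.nd (nat_lit 234) (nat_lit 76) (nat_lit 0) (XT.nd (nat_lit 78) (nat_lit 0) (nat_lit 0) (XT.lf (nat_lit 0) (nat_lit 10291285904) (nat_lit 228) (nat_lit 32292047236) (nat_lit 76) (nat_lit 4536460027) (nat_lit 13) (nat_lit 5) (nat_lit 16) (nat_lit 5) (nat_lit 14) (nat_lit 4) (nat_lit 376) (nat_lit 265) (nat_lit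 139)) (XT.nd (nat_lit 78) (nat_lit 0) (nat_lit 0) (XT.lf (nat_lit 0) (nat_lit 14969286013) (nat_lit 228) (nat_lit 22834005035) (nat_lit 76) (nat_lit 10547287919) (nat_lit 13) (nat_lit 5) (nat_lit 16) (nat_lit 5) (nat_lit 14) (nat_lit 4) (nat_lit 377) (nat_lit 265) (nat_lit 138)) (XT.lf (nat_lit 0) (nat_lit 19779729910) (nat_lit 228) (nat_lit 13105986468) (nat_lit 76) (nat_lit 16732814285) (nat_lit 13) (nat_lit 5) (nat_lit 16) (nat_lit 5) (nat_lit 14) (nat_lit 4) (nat_lit 378) (nat_lit 265) (nat_lit 137)))) (XT.nd (nat_lit 78) (nat_lit 76) (nat_lit 0) (XT.lf (nat_lit 0) (nat_lit 24726820896) (nat_lit 228) (nat_lit 3099491324) (nat_lit 76) (nat_lit 23098443952) (nat_lit 13) (nat_lit 5) (nat_lit 16) (nat_lit 5) (nat_lit 14) (nat_lit 4) (nat_lit 379) (nat_lit 265) (nat_lit 136)) (XT.nd (nat_lit 78) (nat_lit 0) (nat_lit 0) (XT.lf (nat_lit 0) (nat_lit 7337403098) (nat_lit 76) (nat_lit 22548010180) (nat_lit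 152) (nat_lit 22382867630) (nat_lit 12) (nat_lit 5) (nat_lit 13) (nat_lit 5) (nat_lit 14) (nat_lit 4) (nat_lit 380) (nat_lit 265) (nat_lit 135)) (XT.lf (nat_lit 0) (nat_lit 18138093352) (nat_lit 76) (nat_lit 17084619211) (nat_lit 152) (nat_lit 18428685323) (nat_lit 12) (nat_lit 5) (nat_lit 13) (nat_lit 5) (nat_lit 14) (nat_lit 4) (nat_lit 381) (nat_lit 265) (nat_lit 134))))))) (XT.nd (nat_lit 936) (nat_lit 0) (nat_lit 0) (XT.nd (nat_lit 468) (nat_lit 76) (nat_lit 0) (XT.nd (nat_lit 234) (nat_lit 152) (nat_lit 0) (XT.nd (nat_lit 78) (nat_lit 0) (nat_lit 0) (XT.lf (nat_lit 0) (nat_lit 29250330979) (nat_lit 76) (nat_lit 11462664262) (nat_lit 152) (nat_lit 14363232029) (nat_lit 12) (nat_lit 5) (nat_lit 13) (nat_lit 5) (nat_lit 14) (nat_lit 4) (nat_lit 382) (nat_lit 265) (nat_lit 133)) (XT.nd (nat_lit 78) (nat_lit 0) (nat_lit 0) (XT.lf (nat_lit 0) (nat_lit 40683825702) (nat_lit 76) (nat_lit 5677232944)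 (nat_lit 152) (nat_lit 10182955410) (nat_lit 12) (nat_lit 5) (nat_lit 13) (nat_lit 5) (nat_lit 14) (nat_lit 4) (nat_lit 383) (nat_lit 265) (nat_lit 132)) (XT.lf (nat_lit 0) (nat_lit 52174498076) (nat_lit 152) (nat_lit 5610132923) (nat_lit 0) (nat_lit 271329974) (nat_lit 12) (nat_lit 5) (nat_lit 14) (nat_lit 4) (nat_lit 12) (nat_lit 4) (nat_lit 384) (nat_lit 265) (nat_lit 131)))) (XT.nd (nat_lit 78) (nat_lit 76) (nat_lit 0) (XT.lf (nat_lit 0) (nat_lit 4976760228) (nat_lit 76) (nat_lit 53283053324) (nat_lit 76) (nat_lit 1350532978) (nat_lit 11) (nat_lit 4) (nat_lit 12) (nat_lit 5) (nat_lit 12) (nat_lit 4) (nat_lit 385) (nat_lit 265) (nat_lit 130)) (XT.nd (nat_lit 78) (nat_lit 0) (nat_lit 0) (XT.lf (nat_lit 0) (nat_lit 3302259549) (nat_lit 152) (nat_lit 45257430784) (nat_lit 76) (nat_lit 12649201684) (nat_lit 10) (nat_lit 5) (nat_lit 12) (nat_lit 5) (nat_lit 11) (nat_lit 4) (nat_lit 386) (nat_lit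 265) (nat_lit 129)) (XT.lf (nat_lit 0) (nat_lit 8061118570) (nat_lit 152) (nat_lit 35624614275) (nat_lit 76) (nat_lit 19169455107) (nat_lit 10) (nat_lit 5) (nat_lit 12) (nat_lit 5) (nat_lit 11) (nat_lit 4) (nat_lit 387) (nat_lit 265) (nat_lit 128))))) (XT.nd (nat_lit 234) (nat_lit 76) (nat_lit 0) (XT.nd (nat_lit 78) (nat_lit 0) (nat_lit 0) (XT.lf (nat_lit 0) (nat_lit 12956556075) (nat_lit 152) (nat_lit 25713737602) (nat_lit 76) (nat_lit 25880768633) (nat_lit 10) (nat_lit 5) (nat_lit 12) (nat_lit 5) (nat_lit 11) (nat_lit 4) (nat_lit 388) (nat_lit 265) (nat_lit 127)) (XT.nd (nat_lit 78) (nat_lit 0) (nat_lit 0) (XT.lf (nat_lit 0) (nat_lit 17992849629) (nat_lit 152) (nat_lit 15516140775) (nat_lit 76) (nat_lit 32789006517) (nat_lit 10) (nat_lit 5) (nat_lit 12) (nat_lit 5) (nat_lit 11) (nat_lit 4) (nat_lit 389) (nat_lit 265) (nat_lit 126)) (XT.lf (nat_lit 0) (nat_lit 23174399878) (nat_lit 152) (nat_lit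 5022913274) (nat_lit 76) (nat_lit 39900205085) (nat_lit 10) (nat_lit 5) (nat_lit 12) (nat_lit 5) (nat_lit 11) (nat_lit 4) (nat_lit 390) (nat_lit 265) (nat_lit 125)))) (XT.nd (nat_lit 78) (nat_lit 0) (nat_lit 0) (XT.lf (nat_lit 0) (nat_lit 5890049829) (nat_lit 76) (nat_lit 22672303322) (nat_lit 152) (nat_lit 41387146936) (nat_lit 9) (nat_lit 5) (nat_lit 10) (nat_lit 5) (nat_lit 11) (nat_lit 4) (nat_lit 391) (nat_lit 265) (nat_lit 124)) (XT.nd (nat_lit 78) (nat_lit 0) (nat_lit 0) (XT.lf (nat_lit 0) (nat_lit 17223467326) (nat_lit 76) (nat_lit 16933606789) (nat_lit 152) (nat_lit 37698616894) (nat_lit 9) (nat_lit 5) (nat_lit 10) (nat_lit 5) (nat_lit 11) (nat_lit 4) (nat_lit 392) (nat_lit 265) (nat_lit 123)) (XT.lf (nat_lit 0) (nat_lit 28887276380) (nat_lit 76) (nat_lit 11026930733) (nat_lit 152) (nat_lit 33905026820) (nat_lit 9) (nat_lit 5) (nat_lit 10) (nat_lit 5) (nat_lit 11) (nat_lit 4) (nat_lit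 393) (nat_lit 265) (nat_lit 122)))))) (XT.nd (nat_lit 30810) (nat_lit 0) (nat_lit 18696) (XT.nd (nat_lit 234) (nat_lit 0) (nat_lit 0) (XT.nd (nat_lit 78) (nat_lit 0) (nat_lit 0) (XT.lf (nat_lit 0) (nat_lit 40891668667) (nat_lit 76) (nat_lit 4947113981) (nat_lit 152) (nat_lit 30003061927) (nat_lit 9) (nat_lit 5) (nat_lit 10) (nat_lit 5) (nat_lit 11) (nat_lit 4) (nat_lit 394) (nat_lit 265) (nat_lit 121)) (XT.nd (nat_lit 78) (nat_lit 0) (nat_lit 0) (XT.lf (nat_lit 0) (nat_lit 51948581170) (nat_lit 152) (nat_lit 24690760437) (nat_lit 0) (nat_lit 1285570552) (nat_lit 9) (nat_lit 5) (nat_lit 11) (nat_lit 4) (nat_lit 9) (nat_lit 4) (nat_lit 395) (nat_lit 265) (nat_lit 120)) (XT.lf (nat_lit 0) (nat_lit 58285649341) (nat_lit 152) (nat_lit 14181454607) (nat_lit 0) (nat_lit 7602051650) (nat_lit 9) (nat_lit 5) (nat_lit 11) (nat_lit 4) (nat_lit 9) (nat_lit 4) (nat_lit 396) (nat_lit 265) (nat_lit 119)))) (XT.nd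 (nat_lit 30420) (nat_lit 0) (nat_lit 19684) (XT.lf (nat_lit 0) (nat_lit 64807969721) (nat_lit 152) (nat_lit 3365520844) (nat_lit 0) (nat_lit 14104384580) (nat_lit 9) (nat_lit 5) (nat_lit 11) (nat_lit 4) (nat_lit 9) (nat_lit 4) (nat_lit 397) (nat_lit 265) (nat_lit 118)) (XT.nd (nat_lit 78) (nat_lit 0) (nat_lit 0) (XT.lf (nat_lit 0) (nat_lit 1078319439) (nat_lit 0) (nat_lit 1078319439) (nat_lit 380) (nat_lit 1144358705) (nat_lit 268) (nat_lit 5) (nat_lit 268) (nat_lit 3) (nat_lit 273) (nat_lit 3) (nat_lit 266) (nat_lit 266) (nat_lit 248)) (XT.lf (nat_lit 0) (nat_lit 5129613258) (nat_lit 0) (nat_lit 1388971191) (nat_lit 380) (nat_lit 111726755) (nat_lit 268) (nat_lit 5) (nat_lit 268) (nat_lit 3) (nat_lit 273) (nat_lit 3) (nat_lit 267) (nat_lit 266) (nat_lit 247))))) (XT.nd (nat_lit 234) (nat_lit 456) (nat_lit 0) (XT.nd (nat_lit 78) (nat_lit 0) (nat_lit 76) (XT.lf (nat_lit 76) (nat_lit 1497337064)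 (nat_lit 0) (nat_lit 521437074) (nat_lit 532) (nat_lit 4642441026) (nat_lit 262) (nat_lit 5) (nat_lit 261) (nat_lit 3) (nat_lit 268) (nat_lit 5) (nat_lit 268) (nat_lit 266) (nat_lit 246)) (XT.nd (nat_lit 78) (nat_lit 0) (nat_lit 0) (XT.lf (nat_lit 0) (nat_lit 4147634419) (nat_lit 456) (nat_lit 2127715444) (nat_lit 532) (nat_lit 419801450) (nat_lit 262) (nat_lit 5) (nat_lit 268) (nat_lit 5) (nat_lit 269) (nat_lit 5) (nat_lit 269) (nat_lit 266) (nat_lit 245)) (XT.lf (nat_lit 76) (nat_lit 968247353) (nat_lit 0) (nat_lit 5306785936) (nat_lit 532) (nat_lit 457264070) (nat_lit 263) (nat_lit 5) (nat_lit 262) (nat_lit 5) (nat_lit 269) (nat_lit 5) (nat_lit 270) (nat_lit 266) (nat_lit 244)))) (XT.nd (nat_lit 78) (nat_lit 0) (nat_lit 0) (XT.lf (nat_lit 0) (nat_lit 1605411904) (nat_lit 532) (nat_lit 2632084371) (nat_lit 608) (nat_lit 2534507045) (nat_lit 255) (nat_lit 5) (nat_lit 262) (nat_lit 5) (nat_lit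 263) (nat_lit 5) (nat_lit 271) (nat_lit 266) (nat_lit 243)) (XT.nd (nat_lit 78) (nat_lit 0) (nat_lit 0) (XT.lf (nat_lit 76) (nat_lit 555132418) (nat_lit 0) (nat_lit 3094385557) (nat_lit 608) (nat_lit 3165596763) (nat_lit 256) (nat_lit 5) (nat_lit 255) (nat_lit 5) (nat_lit 263) (nat_lit 5) (nat_lit 272) (nat_lit 266) (nat_lit 242)) (XT.lf (nat_lit 76) (nat_lit 3847349085) (nat_lit 0) (nat_lit 1859383631) (nat_lit 608) (nat_lit 1154439341) (nat_lit 256) (nat_lit 5) (nat_lit 255) (nat_lit 5) (nat_lit 263) (nat_lit 5) (nat_lit 273) (nat_lit 266) (nat_lit 241))))))))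
noncomputable def xc126 : XT := (XT.nd (nat_lit 1794) (nat_lit 5244) (nat_lit 0) (XT.nd (nat_lit 858) (nat_lit 5320) (nat_lit 0) (XT.nd (nat_lit 390) (nat_lit 2280) (nat_lit 0) (XT.nd (nat_lit 156) (nat_lit 608) (nat_lit 0) (XT.nd (nat_lit 78) (nat_lit 0) (nat_lit 76) (XT.lf (nat_lit 76) (nat_lit 281467063) (nat_lit 0) (nat_lit 546866239) (nat_lit 684) (nat_lit 6082332362) (nat_lit 248) (nat_lit 5) (nat_lit 247) (nat_lit 5) (nat_lit 256) (nat_lit 5) (nat_lit 274) (nat_lit 266) (nat_lit 240)) (XT.lf (nat_lit 0) (nat_lit 2814305995) (nat_lit 608) (nat_lit 3289901218) (nat_lit 684) (nat_lit 858275001) (nat_lit 248) (nat_lit 5) (nat_lit 256) (nat_lit 5) (nat_lit 257) (nat_lit 5) (nat_lit 275) (nat_lit 266) (nat_lit 239))) (XT.nd (nat_lit 78) (nat_lit 684) (nat_lit 0) (XT.lf (nat_lit 76) (nat_lit 100394841) (nat_lit 0) (nat_lit 4696373203) (nat_lit 684) (nat_lit 2221161050) (nat_lit 249) (nat_lit 5)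 (nat_lit 248) (nat_lit 5) (nat_lit 257) (nat_lit 5) (nat_lit 276) (nat_lit 266) (nat_lit 238)) (XT.nd (nat_lit 78) (nat_lit 684) (nat_lit 0) (XT.lf (nat_lit 76) (nat_lit 3614563019) (nat_lit 0) (nat_lit 3189481244) (nat_lit 684) (nat_lit 272212712) (nat_lit 249) (nat_lit 5) (nat_lit 248) (nat_lit 5) (nat_lit 257) (nat_lit 5) (nat_lit 277) (nat_lit 266) (nat_lit 237)) (XT.lf (nat_lit 76) (nat_lit 36398620) (nat_lit 0) (nat_lit 1598569366) (nat_lit 760) (nat_lit 5503025190) (nat_lit 240) (nat_lit 5) (nat_lit 239) (nat_lit 5) (nat_lit 249) (nat_lit 5) (nat_lit 278) (nat_lit 266) (nat_lit 236))))) (XT.nd (nat_lit 234) (nat_lit 1596) (nat_lit 0) (XT.nd (nat_lit 78) (nat_lit 760) (nat_lit 0) (XT.lf (nat_lit 0) (nat_lit 3564559682) (nat_lit 684) (nat_lit 3540885068) (nat_lit 76) (nat_lit 97098571) (nat_lit 240) (nat_lit 5) (nat_lit 249) (nat_lit 5) (nat_lit 241) (nat_lit 5) (nat_lit 279) (nat_lit 266)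 (nat_lit 235)) (XT.nd (nat_lit 78) (nat_lit 76) (nat_lit 0) (XT.lf (nat_lit 0) (nat_lit 66166573) (nat_lit 684) (nat_lit 5439209002) (nat_lit 760) (nat_lit 1765212280) (nat_lit 231) (nat_lit 5) (nat_lit 240) (nat_lit 5) (nat_lit 241) (nat_lit 5) (nat_lit 280) (nat_lit 266) (nat_lit 234)) (XT.lf (nat_lit 0) (nat_lit 134169849) (nat_lit 760) (nat_lit 3534399587) (nat_lit 76) (nat_lit 3672997294) (nat_lit 230) (nat_lit 5) (nat_lit 240) (nat_lit 5) (nat_lit 231) (nat_lit 5) (nat_lit 281) (nat_lit 266) (nat_lit 233)))) (XT.nd (nat_lit 78) (nat_lit 836) (nat_lit 0) (XT.lf (nat_lit 0) (nat_lit 186362630) (nat_lit 760) (nat_lit 1809816054) (nat_lit 836) (nat_lit 5419882810) (nat_lit 220) (nat_lit 5) (nat_lit 230) (nat_lit 5) (nat_lit 231) (nat_lit 5) (nat_lit 282) (nat_lit 266) (nat_lit 232)) (XT.nd (nat_lit 78) (nat_lit 836) (nat_lit 0) (XT.lf (nat_lit 0) (nat_lit 3891901744) (nat_lit 836) (nat_lit 3449011317)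 (nat_lit 76) (nat_lit 152682782) (nat_lit 220) (nat_lit 5) (nat_lit 231) (nat_lit 5) (nat_lit 221) (nat_lit 5) (nat_lit 283) (nat_lit 266) (nat_lit 231)) (XT.lf (nat_lit 0) (nat_lit 389011067) (nat_lit 836) (nat_lit 5419671620) (nat_lit 912) (nat_lit 1765984223) (nat_lit 209) (nat_lit 5) (nat_lit 220) (nat_lit 5) (nat_lit 221) (nat_lit 5) (nat_lit 284) (nat_lit 266) (nat_lit 230)))))) (XT.nd (nat_lit 468) (nat_lit 2204) (nat_lit 0) (XT.nd (nat_lit 234) (nat_lit 2128) (nat_lit 0) (XT.nd (nat_lit 78) (nat_lit 912) (nat_lit 0) (XT.lf (nat_lit 0) (nat_lit 100614521) (nat_lit 912) (nat_lit 3292364741) (nat_lit 76) (nat_lit 4265935725) (nat_lit 208) (nat_lit 5) (nat_lit 220) (nat_lit 5) (nat_lit 209) (nat_lit 5) (nat_lit 285) (nat_lit 266) (nat_lit 229)) (XT.nd (nat_lit 78) (nat_lit 0) (nat_lit 0) (XT.lf (nat_lit 0) (nat_lit 668062332) (nat_lit 912) (nat_lit 1270813780) (nat_lit 988) (nat_lit 5807879770)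 (nat_lit 196) (nat_lit 5) (nat_lit 208) (nat_lit 5) (nat_lit 209) (nat_lit 5) (nat_lit 286) (nat_lit 266) (nat_lit 228)) (XT.lf (nat_lit 0) (nat_lit 3820663186) (nat_lit 988) (nat_lit 3077170902) (nat_lit 76) (nat_lit 939867663) (nat_lit 196) (nat_lit 5) (nat_lit 209) (nat_lit 5) (nat_lit 197) (nat_lit 5) (nat_lit 287) (nat_lit 266) (nat_lit 227)))) (XT.nd (nat_lit 78) (nat_lit 1140) (nat_lit 0) (XT.lf (nat_lit 0) (nat_lit 1006203268) (nat_lit 988) (nat_lit 4722534122) (nat_lit 1064) (nat_lit 2203661152) (nat_lit 183) (nat_lit 5) (nat_lit 196) (nat_lit 5) (nat_lit 197) (nat_lit 5) (nat_lit 288) (nat_lit 266) (nat_lit 226)) (XT.nd (nat_lit 78) (nat_lit 1140) (nat_lit 0) (XT.lf (nat_lit 0) (nat_lit 5230354754) (nat_lit 988) (nat_lit 2443447576) (nat_lit 1064) (nat_lit 356855576) (nat_lit 183) (nat_lit 5) (nat_lit 196) (nat_lit 5) (nat_lit 197) (nat_lit 5) (nat_lit 289) (nat_lit 266) (nat_lit 225))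 (XT.lf (nat_lit 0) (nat_lit 1417563378) (nat_lit 1064) (nat_lit 60829858) (nat_lit 1140) (nat_lit 6654237910) (nat_lit 168) (nat_lit 5) (nat_lit 182) (nat_lit 5) (nat_lit 183) (nat_lit 5) (nat_lit 290) (nat_lit 266) (nat_lit 224))))) (XT.nd (nat_lit 234) (nat_lit 1140) (nat_lit 0) (XT.nd (nat_lit 78) (nat_lit 1064) (nat_lit 0) (XT.lf (nat_lit 0) (nat_lit 3363752592) (nat_lit 1140) (nat_lit 2490072715) (nat_lit 76) (nat_lit 2383769955) (nat_lit 168) (nat_lit 5) (nat_lit 183) (nat_lit 5) (nat_lit 169) (nat_lit 5) (nat_lit 291) (nat_lit 266) (nat_lit 223)) (XT.nd (nat_lit 78) (nat_lit 0) (nat_lit 0) (XT.lf (nat_lit 0) (nat_lit 1852749858) (nat_lit 1064) (nat_lit 3423434361) (nat_lit 1140) (nat_lit 3070510139) (nat_lit 154) (nat_lit 5) (nat_lit 168) (nat_lit 5) (nat_lit 169) (nat_lit 5) (nat_lit 292) (nat_lit 266) (nat_lit 222)) (XT.lf (nat_lit 0) (nat_lit 6332863298) (nat_lit 1064) (nat_lit 891341641)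 (nat_lit 1140) (nat_lit 1235613447) (nat_lit 154) (nat_lit 5) (nat_lit 168) (nat_lit 5) (nat_lit 169) (nat_lit 5) (nat_lit 293) (nat_lit 266) (nat_lit 221)))) (XT.nd (nat_lit 78) (nat_lit 532) (nat_lit 0) (XT.lf (nat_lit 0) (nat_lit 635022100) (nat_lit 608) (nat_lit 6226572180) (nat_lit 76) (nat_lit 1714842148) (nat_lit 146) (nat_lit 5) (nat_lit 154) (nat_lit 5) (nat_lit 147) (nat_lit 5) (nat_lit 294) (nat_lit 266) (nat_lit 220)) (XT.nd (nat_lit 78) (nat_lit 532) (nat_lit 0) (XT.lf (nat_lit 0) (nat_lit 2522295390) (nat_lit 608) (nat_lit 1757391387) (nat_lit 76) (nat_lit 4417028715) (nat_lit 146) (nat_lit 5) (nat_lit 154) (nat_lit 5) (nat_lit 147) (nat_lit 5) (nat_lit 295) (nat_lit 266) (nat_lit 219)) (XT.lf (nat_lit 0) (nat_lit 2858142569) (nat_lit 532) (nat_lit 1591671326) (nat_lit 608) (nat_lit 4371367690) (nat_lit 139) (nat_lit 5) (nat_lit 146) (nat_lit 5) (nat_lit 147) (nat_lit 5) (nat_lit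 296) (nat_lit 266) (nat_lit 218))))))) (XT.nd (nat_lit 936) (nat_lit 2280) (nat_lit 0) (XT.nd (nat_lit 468) (nat_lit 1368) (nat_lit 0) (XT.nd (nat_lit 234) (nat_lit 988) (nat_lit 0) (XT.nd (nat_lit 78) (nat_lit 608) (nat_lit 0) (XT.lf (nat_lit 0) (nat_lit 6421408857) (nat_lit 608) (nat_lit 1356613659) (nat_lit 76) (nat_lit 1171856538) (nat_lit 139) (nat_lit 5) (nat_lit 147) (nat_lit 5) (nat_lit 140) (nat_lit 5) (nat_lit 297) (nat_lit 266) (nat_lit 217)) (XT.nd (nat_lit 78) (nat_lit 76) (nat_lit 0) (XT.lf (nat_lit 0) (nat_lit 3395353209) (nat_lit 532) (nat_lit 5063462873) (nat_lit 608) (nat_lit 623503882) (nat_lit 132) (nat_lit 5) (nat_lit 139) (nat_lit 5) (nat_lit 140) (nat_lit 5) (nat_lit 298) (nat_lit 266) (nat_lit 216)) (XT.lf (nat_lit 0) (nat_lit 1284913260) (nat_lit 608) (nat_lit 957264549) (nat_lit 76) (nat_lit 6977075289) (nat_lit 131) (nat_lit 5) (nat_lit 139) (nat_lit 5) (nat_lit 132)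 (nat_lit 5) (nat_lit 299) (nat_lit 266) (nat_lit 215)))) (XT.nd (nat_lit 78) (nat_lit 456) (nat_lit 0) (XT.lf (nat_lit 0) (nat_lit 3242541496) (nat_lit 608) (nat_lit 5424313167) (nat_lit 76) (nat_lit 693195105) (nat_lit 124) (nat_lit 5) (nat_lit 132) (nat_lit 5) (nat_lit 125) (nat_lit 5) (nat_lit 300) (nat_lit 266) (nat_lit 214)) (XT.nd (nat_lit 78) (nat_lit 456) (nat_lit 0) (XT.lf (nat_lit 0) (nat_lit 5251398744) (nat_lit 608) (nat_lit 575098026) (nat_lit 76) (nat_lit 3678871814) (nat_lit 124) (nat_lit 5) (nat_lit 132) (nat_lit 5) (nat_lit 125) (nat_lit 5) (nat_lit 301) (nat_lit 266) (nat_lit 213)) (XT.lf (nat_lit 0) (nat_lit 4464802443) (nat_lit 456) (nat_lit 2860325236) (nat_lit 532) (nat_lit 2329852229) (nat_lit 118) (nat_lit 5) (nat_lit 124) (nat_lit 5) (nat_lit 125) (nat_lit 5) (nat_lit 302) (nat_lit 266) (nat_lit 212))))) (XT.nd (nat_lit 234) (nat_lit 456) (nat_lit 0) (XT.nd (nat_lit 78)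 (nat_lit 912) (nat_lit 0) (XT.lf (nat_lit 0) (nat_lit 9431173091) (nat_lit 532) (nat_lit 185810718) (nat_lit 76) (nat_lit 193061671) (nat_lit 118) (nat_lit 5) (nat_lit 125) (nat_lit 5) (nat_lit 119) (nat_lit 5) (nat_lit 303) (nat_lit 266) (nat_lit 211)) (XT.nd (nat_lit 78) (nat_lit 380) (nat_lit 0) (XT.lf (nat_lit 0) (nat_lit 1638957645) (nat_lit 532) (nat_lit 4988259573) (nat_lit 76) (nat_lit 3340936434) (nat_lit 111) (nat_lit 5) (nat_lit 118) (nat_lit 5) (nat_lit 112) (nat_lit 5) (nat_lit 304) (nat_lit 266) (nat_lit 210)) (XT.lf (nat_lit 0) (nat_lit 130404526) (nat_lit 380) (nat_lit 3546165530) (nat_lit 456) (nat_lit 6455379793) (nat_lit 106) (nat_lit 5) (nat_lit 111) (nat_lit 5) (nat_lit 112) (nat_lit 5) (nat_lit 305) (nat_lit 266) (nat_lit 209)))) (XT.nd (nat_lit 78) (nat_lit 456) (nat_lit 0) (XT.lf (nat_lit 0) (nat_lit 5463492263) (nat_lit 380) (nat_lit 326563224) (nat_lit 456) (nat_lit 4510223454)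 (nat_lit 106) (nat_lit 5) (nat_lit 111) (nat_lit 5) (nat_lit 112) (nat_lit 5) (nat_lit 306) (nat_lit 266) (nat_lit 208)) (XT.nd (nat_lit 78) (nat_lit 0) (nat_lit 0) (XT.lf (nat_lit 0) (nat_lit 421166462) (nat_lit 456) (nat_lit 7543922548) (nat_lit 532) (nat_lit 2508684150) (nat_lit 100) (nat_lit 5) (nat_lit 106) (nat_lit 5) (nat_lit 107) (nat_lit 5) (nat_lit 307) (nat_lit 266) (nat_lit 207)) (XT.lf (nat_lit 0) (nat_lit 5891885524) (nat_lit 456) (nat_lit 4331505166) (nat_lit 532) (nat_lit 428598830) (nat_lit 100) (nat_lit 5) (nat_lit 106) (nat_lit 5) (nat_lit 107) (nat_lit 5) (nat_lit 308) (nat_lit 266) (nat_lit 206)))))) (XT.nd (nat_lit 468) (nat_lit 1064) (nat_lit 0) (XT.nd (nat_lit 234) (nat_lit 380) (nat_lit 0) (XT.nd (nat_lit 78) (nat_lit 380) (nat_lit 0) (XT.lf (nat_lit 0) (nat_lit 646968591) (nat_lit 380) (nat_lit 1006277787) (nat_lit 456) (nat_lit 9182682206) (nat_lit 94) (nat_lit 5) (nat_lit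 99) (nat_lit 5) (nat_lit 100) (nat_lit 5) (nat_lit 309) (nat_lit 266) (nat_lit 205)) (XT.nd (nat_lit 78) (nat_lit 380) (nat_lit 0) (XT.lf (nat_lit 0) (nat_lit 3827829342) (nat_lit 456) (nat_lit 4779011044) (nat_lit 76) (nat_lit 2417304144) (nat_lit 94) (nat_lit 5) (nat_lit 100) (nat_lit 5) (nat_lit 95) (nat_lit 5) (nat_lit 310) (nat_lit 266) (nat_lit 204)) (XT.lf (nat_lit 0) (nat_lit 758334640) (nat_lit 380) (nat_lit 5294629128) (nat_lit 456) (nat_lit 5165535146) (nat_lit 89) (nat_lit 5) (nat_lit 94) (nat_lit 5) (nat_lit 95) (nat_lit 5) (nat_lit 311) (nat_lit 266) (nat_lit 203)))) (XT.nd (nat_lit 78) (nat_lit 380) (nat_lit 0) (XT.lf (nat_lit 0) (nat_lit 6520418882) (nat_lit 380) (nat_lit 1841305265) (nat_lit 456) (nat_lit 3056503505) (nat_lit 89) (nat_lit 5) (nat_lit 94) (nat_lit 5) (nat_lit 95) (nat_lit 5) (nat_lit 312) (nat_lit 266) (nat_lit 202)) (XT.nd (nat_lit 78) (nat_lit 76) (nat_lit 0)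 (XT.lf (nat_lit 0) (nat_lit 791277349) (nat_lit 304) (nat_lit 9942020970) (nat_lit 380) (nat_lit 890891834) (nat_lit 85) (nat_lit 5) (nat_lit 89) (nat_lit 5) (nat_lit 90) (nat_lit 5) (nat_lit 313) (nat_lit 266) (nat_lit 201)) (XT.lf (nat_lit 0) (nat_lit 1351352137) (nat_lit 380) (nat_lit 5154365825) (nat_lit 76) (nat_lit 5329138695) (nat_lit 84) (nat_lit 5) (nat_lit 89) (nat_lit 5) (nat_lit 85) (nat_lit 5) (nat_lit 314) (nat_lit 266) (nat_lit 200))))) (XT.nd (nat_lit 234) (nat_lit 380) (nat_lit 0) (XT.nd (nat_lit 78) (nat_lit 304) (nat_lit 0) (XT.lf (nat_lit 0) (nat_lit 660393762) (nat_lit 380) (nat_lit 2959423766) (nat_lit 456) (nat_lit 8432499524) (nat_lit 79) (nat_lit 5) (nat_lit 84) (nat_lit 5) (nat_lit 85) (nat_lit 5) (nat_lit 315) (nat_lit 266) (nat_lit 199)) (XT.nd (nat_lit 78) (nat_lit 304) (nat_lit 0) (XT.lf (nat_lit 0) (nat_lit 5986487453) (nat_lit 456) (nat_lit 5565326532) (nat_lit 76)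 (nat_lit 723625784) (nat_lit 79) (nat_lit 5) (nat_lit 85) (nat_lit 5) (nat_lit 80) (nat_lit 5) (nat_lit 316) (nat_lit 266) (nat_lit 198)) (XT.lf (nat_lit 0) (nat_lit 376578452) (nat_lit 304) (nat_lit 8052269292) (nat_lit 380) (nat_lit 4076309492) (nat_lit 75) (nat_lit 5) (nat_lit 79) (nat_lit 5) (nat_lit 80) (nat_lit 5) (nat_lit 317) (nat_lit 266) (nat_lit 197)))) (XT.nd (nat_lit 78) (nat_lit 380) (nat_lit 0) (XT.lf (nat_lit 0) (nat_lit 6573655479) (nat_lit 304) (nat_lit 4399256359) (nat_lit 380) (nat_lit 1768041956) (nat_lit 75) (nat_lit 5) (nat_lit 79) (nat_lit 5) (nat_lit 80) (nat_lit 5) (nat_lit 318) (nat_lit 266) (nat_lit 196)) (XT.nd (nat_lit 78) (nat_lit 304) (nat_lit 0) (XT.lf (nat_lit 0) (nat_lit 570317892) (nat_lit 380) (nat_lit 69705134) (nat_lit 76) (nat_lit 12344481576) (nat_lit 74) (nat_lit 5) (nat_lit 79) (nat_lit 5) (nat_lit 75) (nat_lit 5) (nat_lit 319) (nat_lit 266) (nat_lit 195))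 (XT.lf (nat_lit 0) (nat_lit 3008944847) (nat_lit 380) (nat_lit 6985346059) (nat_lit 76) (nat_lit 3238613418) (nat_lit 70) (nat_lit 5) (nat_lit 75) (nat_lit 5) (nat_lit 71) (nat_lit 5) (nat_lit 320) (nat_lit 266) (nat_lit 194))))))))
noncomputable def xc127 : XT := (XT.nd (nat_lit 1872) (nat_lit 1368) (nat_lit 0) (XT.nd (nat_lit 936) (nat_lit 1216) (nat_lit 0) (XT.nd (nat_lit 468) (nat_lit 532) (nat_lit 0) (XT.nd (nat_lit 234) (nat_lit 608) (nat_lit 0) (XT.nd (nat_lit 78) (nat_lit 304) (nat_lit 0) (XT.lf (nat_lit 0) (nat_lit 5501653217) (nat_lit 380) (nat_lit 775288948) (nat_lit 76) (nat_lit 7212422230) (nat_lit 70) (nat_lit 5) (nat_lit 75) (nat_lit 5) (nat_lit 71) (nat_lit 5) (nat_lit 321) (nat_lit 266) (nat_lit 193)) (XT.nd (nat_lit 78) (nat_lit 0) (nat_lit 0) (XT.lf (nat_lit 0) (nat_lit 5697314269) (nat_lit 304) (nat_lit 2401230455) (nat_lit 380) (nat_lit 5654126473) (nat_lit 66) (nat_lit 5)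 (nat_lit 70) (nat_lit 5) (nat_lit 71) (nat_lit 5) (nat_lit 322) (nat_lit 266) (nat_lit 192)) (XT.lf (nat_lit 0) (nat_lit 10771490200) (nat_lit 380) (nat_lit 1694301294) (nat_lit 76) (nat_lit 1558175262) (nat_lit 66) (nat_lit 5) (nat_lit 71) (nat_lit 5) (nat_lit 67) (nat_lit 5) (nat_lit 323) (nat_lit 266) (nat_lit 191)))) (XT.nd (nat_lit 78) (nat_lit 304) (nat_lit 0) (XT.lf (nat_lit 0) (nat_lit 4895081241) (nat_lit 304) (nat_lit 8676051020) (nat_lit 380) (nat_lit 730906649) (nat_lit 62) (nat_lit 5) (nat_lit 66) (nat_lit 5) (nat_lit 67) (nat_lit 5) (nat_lit 324) (nat_lit 266) (nat_lit 190)) (XT.nd (nat_lit 78) (nat_lit 228) (nat_lit 0) (XT.lf (nat_lit 0) (nat_lit 1822963537) (nat_lit 380) (nat_lit 2923600635) (nat_lit 76) (nat_lit 9841589792) (nat_lit 61) (nat_lit 5) (nat_lit 66) (nat_lit 5) (nat_lit 62) (nat_lit 5) (nat_lit 325) (nat_lit 266) (nat_lit 189)) (XT.lf (nat_lit 0) (nat_lit 3787503060)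 (nat_lit 228) (nat_lit 664162223) (nat_lit 304) (nat_lit 10430613084) (nat_lit 58) (nat_lit 5) (nat_lit 61) (nat_lit 5) (nat_lit 62) (nat_lit 5) (nat_lit 326) (nat_lit 266) (nat_lit 188))))) (XT.nd (nat_lit 234) (nat_lit 304) (nat_lit 0) (XT.nd (nat_lit 78) (nat_lit 228) (nat_lit 0) (XT.lf (nat_lit 0) (nat_lit 7199847271) (nat_lit 304) (nat_lit 4492522885) (nat_lit 76) (nat_lit 3491667072) (nat_lit 58) (nat_lit 5) (nat_lit 62) (nat_lit 5) (nat_lit 59) (nat_lit 5) (nat_lit 327) (nat_lit 266) (nat_lit 187)) (XT.nd (nat_lit 78) (nat_lit 0) (nat_lit 0) (XT.lf (nat_lit 0) (nat_lit 2313625616) (nat_lit 228) (nat_lit 7723110351) (nat_lit 304) (nat_lit 5457953497) (nat_lit 55) (nat_lit 5) (nat_lit 58) (nat_lit 5) (nat_lit 59) (nat_lit 5) (nat_lit 328) (nat_lit 266) (nat_lit 186)) (XT.lf (nat_lit 0) (nat_lit 9383629097) (nat_lit 228) (nat_lit 3598258574) (nat_lit 304) (nat_lit 2832106525) (nat_lit 55) (nat_lit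 5) (nat_lit 58) (nat_lit 5) (nat_lit 59) (nat_lit 5) (nat_lit 329) (nat_lit 266) (nat_lit 185)))) (XT.nd (nat_lit 78) (nat_lit 76) (nat_lit 0) (XT.lf (nat_lit 0) (nat_lit 494190753) (nat_lit 228) (nat_lit 15510547328) (nat_lit 304) (nat_lit 138486477) (nat_lit 52) (nat_lit 5) (nat_lit 55) (nat_lit 5) (nat_lit 56) (nat_lit 5) (nat_lit 330) (nat_lit 266) (nat_lit 184)) (XT.nd (nat_lit 78) (nat_lit 0) (nat_lit 0) (XT.lf (nat_lit 0) (nat_lit 2664139951) (nat_lit 304) (nat_lit 8815887979) (nat_lit 76) (nat_lit 4999179993) (nat_lit 51) (nat_lit 5) (nat_lit 55) (nat_lit 5) (nat_lit 52) (nat_lit 5) (nat_lit 331) (nat_lit 266) (nat_lit 183)) (XT.lf (nat_lit 0) (nat_lit 5527121143) (nat_lit 304) (nat_lit 1810377289) (nat_lit 76) (nat_lit 9488383978) (nat_lit 51) (nat_lit 5) (nat_lit 55) (nat_lit 5) (nat_lit 52) (nat_lit 5) (nat_lit 332) (nat_lit 266) (nat_lit 182)))))) (XT.nd (nat_lit 468) (nat_lit 456)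 (nat_lit 0) (XT.nd (nat_lit 234) (nat_lit 304) (nat_lit 0) (XT.nd (nat_lit 78) (nat_lit 228) (nat_lit 0) (XT.lf (nat_lit 0) (nat_lit 5481922860) (nat_lit 228) (nat_lit 3026433837) (nat_lit 304) (nat_lit 8673653311) (nat_lit 48) (nat_lit 5) (nat_lit 51) (nat_lit 5) (nat_lit 52) (nat_lit 5) (nat_lit 333) (nat_lit 266) (nat_lit 181)) (XT.nd (nat_lit 78) (nat_lit 228) (nat_lit 0) (XT.lf (nat_lit 0) (nat_lit 11590959733) (nat_lit 304) (nat_lit 4562520895) (nat_lit 76) (nat_lit 1395006023) (nat_lit 48) (nat_lit 5) (nat_lit 52) (nat_lit 5) (nat_lit 49) (nat_lit 5) (nat_lit 334) (nat_lit 266) (nat_lit 180)) (XT.lf (nat_lit 0) (nat_lit 2783843084) (nat_lit 228) (nat_lit 12019384873) (nat_lit 304) (nat_lit 3121636480) (nat_lit 45) (nat_lit 5) (nat_lit 48) (nat_lit 5) (nat_lit 49) (nat_lit 5) (nat_lit 335) (nat_lit 266) (nat_lit 179)))) (XT.nd (nat_lit 78) (nat_lit 304) (nat_lit 0) (XT.lf (nat_lit 0) (nat_lit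 10414728867) (nat_lit 228) (nat_lit 7723956761) (nat_lit 304) (nat_lit 173065088) (nat_lit 45) (nat_lit 5) (nat_lit 48) (nat_lit 5) (nat_lit 49) (nat_lit 5) (nat_lit 336) (nat_lit 266) (nat_lit 178)) (XT.nd (nat_lit 78) (nat_lit 228) (nat_lit 0) (XT.lf (nat_lit 0) (nat_lit 2789180991) (nat_lit 304) (nat_lit 492169271) (nat_lit 76) (nat_lit 15428654855) (nat_lit 44) (nat_lit 5) (nat_lit 48) (nat_lit 5) (nat_lit 45) (nat_lit 5) (nat_lit 337) (nat_lit 266) (nat_lit 177)) (XT.lf (nat_lit 0) (nat_lit 5901184046) (nat_lit 304) (nat_lit 11885267848) (nat_lit 76) (nat_lit 1331792761) (nat_lit 41) (nat_lit 5) (nat_lit 45) (nat_lit 5) (nat_lit 42) (nat_lit 5) (nat_lit 338) (nat_lit 266) (nat_lit 176))))) (XT.nd (nat_lit 234) (nat_lit 304) (nat_lit 0) (XT.nd (nat_lit 78) (nat_lit 152) (nat_lit 0) (XT.lf (nat_lit 0) (nat_lit 9125882439) (nat_lit 304) (nat_lit 4399440456) (nat_lit 76) (nat_lit 6012847799) (nat_lit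 41) (nat_lit 5) (nat_lit 45) (nat_lit 5) (nat_lit 42) (nat_lit 5) (nat_lit 339) (nat_lit 266) (nat_lit 175)) (XT.nd (nat_lit 78) (nat_lit 0) (nat_lit 0) (XT.lf (nat_lit 0) (nat_lit 3348847101) (nat_lit 152) (nat_lit 9113022623) (nat_lit 228) (nat_lit 7508407156) (nat_lit 39) (nat_lit 5) (nat_lit 41) (nat_lit 5) (nat_lit 42) (nat_lit 5) (nat_lit 340) (nat_lit 266) (nat_lit 174)) (XT.lf (nat_lit 0) (nat_lit 11392574019) (nat_lit 152) (nat_lit 4532397588) (nat_lit 228) (nat_lit 4489581857) (nat_lit 39) (nat_lit 5) (nat_lit 41) (nat_lit 5) (nat_lit 42) (nat_lit 5) (nat_lit 341) (nat_lit 266) (nat_lit 173)))) (XT.nd (nat_lit 78) (nat_lit 304) (nat_lit 0) (XT.lf (nat_lit 0) (nat_lit 19476775386) (nat_lit 228) (nat_lit 1223164354) (nat_lit 76) (nat_lit 172692066) (nat_lit 39) (nat_lit 5) (nat_lit 42) (nat_lit 5) (nat_lit 40) (nat_lit 5) (nat_lit 342) (nat_lit 266) (nat_lit 172)) (XT.nd (nat_lit 78) (nat_lit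 0) (nat_lit 0) (XT.lf (nat_lit 0) (nat_lit 1851116033) (nat_lit 304) (nat_lit 14486983695) (nat_lit 76) (nat_lit 5002991751) (nat_lit 35) (nat_lit 5) (nat_lit 39) (nat_lit 5) (nat_lit 36) (nat_lit 5) (nat_lit 343) (nat_lit 266) (nat_lit 171)) (XT.lf (nat_lit 0) (nat_lit 5163489709) (nat_lit 304) (nat_lit 6664545644) (nat_lit 76) (nat_lit 9995289779) (nat_lit 35) (nat_lit 5) (nat_lit 39) (nat_lit 5) (nat_lit 36) (nat_lit 5) (nat_lit 344) (nat_lit 266) (nat_lit 170))))))) (XT.nd (nat_lit 936) (nat_lit 684) (nat_lit 0) (XT.nd (nat_lit 468) (nat_lit 304) (nat_lit 0) (XT.nd (nat_lit 234) (nat_lit 228) (nat_lit 0) (XT.nd (nat_lit 78) (nat_lit 0) (nat_lit 0) (XT.lf (nat_lit 0) (nat_lit 1394396257) (nat_lit 152) (nat_lit 7178294094) (nat_lit 228) (nat_lit 13747427521) (nat_lit 33) (nat_lit 5) (nat_lit 35) (nat_lit 5) (nat_lit 36) (nat_lit 5) (nat_lit 345) (nat_lit 266) (nat_lit 169)) (XT.nd (nat_lit 78)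 (nat_lit 0) (nat_lit 0) (XT.lf (nat_lit 0) (nat_lit 9806592897) (nat_lit 152) (nat_lit 2329147864) (nat_lit 228) (nat_lit 10694541712) (nat_lit 33) (nat_lit 5) (nat_lit 35) (nat_lit 5) (nat_lit 36) (nat_lit 5) (nat_lit 346) (nat_lit 266) (nat_lit 168)) (XT.lf (nat_lit 0) (nat_lit 15815949983) (nat_lit 228) (nat_lit 4935002041) (nat_lit 76) (nat_lit 2604506817) (nat_lit 33) (nat_lit 5) (nat_lit 36) (nat_lit 5) (nat_lit 34) (nat_lit 5) (nat_lit 347) (nat_lit 266) (nat_lit 167)))) (XT.nd (nat_lit 78) (nat_lit 76) (nat_lit 0) (XT.lf (nat_lit 0) (nat_lit 3415879907) (nat_lit 152) (nat_lit 16231674344) (nat_lit 228) (nat_lit 4247620999) (nat_lit 31) (nat_lit 5) (nat_lit 33) (nat_lit 5) (nat_lit 34) (nat_lit 5) (nat_lit 348) (nat_lit 266) (nat_lit 166)) (XT.nd (nat_lit 78) (nat_lit 76) (nat_lit 0) (XT.lf (nat_lit 0) (nat_lit 12094625449) (nat_lit 152) (nat_lit 11534612591) (nat_lit 228) (nat_lit 820805163)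 (nat_lit 31) (nat_lit 5) (nat_lit 33) (nat_lit 5) (nat_lit 34) (nat_lit 5) (nat_lit 349) (nat_lit 266) (nat_lit 165)) (XT.lf (nat_lit 0) (nat_lit 2641527533) (nat_lit 228) (nat_lit 4037294598) (nat_lit 76) (nat_lit 18342399957) (nat_lit 30) (nat_lit 5) (nat_lit 33) (nat_lit 5) (nat_lit 31) (nat_lit 5) (nat_lit 350) (nat_lit 266) (nat_lit 164))))) (XT.nd (nat_lit 234) (nat_lit 152) (nat_lit 0) (XT.nd (nat_lit 78) (nat_lit 0) (nat_lit 0) (XT.lf (nat_lit 0) (nat_lit 4589044772) (nat_lit 152) (nat_lit 1632292158) (nat_lit 228) (nat_lit 19387065291) (nat_lit 28) (nat_lit 5) (nat_lit 30) (nat_lit 5) (nat_lit 31) (nat_lit 5) (nat_lit 351) (nat_lit 266) (nat_lit 163)) (XT.nd (nat_lit 78) (nat_lit 0) (nat_lit 0) (XT.lf (nat_lit 0) (nat_lit 9970087217) (nat_lit 228) (nat_lit 12712588175) (nat_lit 76) (nat_lit 3528688399) (nat_lit 28) (nat_lit 5) (nat_lit 31) (nat_lit 5) (nat_lit 29) (nat_lit 5) (nat_lit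 352) (nat_lit 266) (nat_lit 162)) (XT.lf (nat_lit 0) (nat_lit 13833965345) (nat_lit 228) (nat_lit 4194980707) (nat_lit 76) (nat_lit 8803400270) (nat_lit 28) (nat_lit 5) (nat_lit 31) (nat_lit 5) (nat_lit 29) (nat_lit 5) (nat_lit 353) (nat_lit 266) (nat_lit 161)))) (XT.nd (nat_lit 78) (nat_lit 0) (nat_lit 0) (XT.lf (nat_lit 0) (nat_lit 4647283352) (nat_lit 152) (nat_lit 13198046105) (nat_lit 228) (nat_lit 9625693500) (nat_lit 26) (nat_lit 5) (nat_lit 28) (nat_lit 5) (nat_lit 29) (nat_lit 5) (nat_lit 354) (nat_lit 266) (nat_lit 160)) (XT.nd (nat_lit 78) (nat_lit 0) (nat_lit 0) (XT.lf (nat_lit 0) (nat_lit 13819462799) (nat_lit 152) (nat_lit 8187006337) (nat_lit 228) (nat_lit 6121519097) (nat_lit 26) (nat_lit 5) (nat_lit 28) (nat_lit 5) (nat_lit 29) (nat_lit 5) (nat_lit 355) (nat_lit 266) (nat_lit 159)) (XT.lf (nat_lit 0) (nat_lit 23246083817) (nat_lit 152) (nat_lit 3033809249) (nat_lit 228) (nat_lit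 2525156945) (nat_lit 26) (nat_lit 5) (nat_lit 28) (nat_lit 5) (nat_lit 29) (nat_lit 5) (nat_lit 356) (nat_lit 266) (nat_lit 158)))))) (XT.nd (nat_lit 468) (nat_lit 304) (nat_lit 0) (XT.nd (nat_lit 234) (nat_lit 152) (nat_lit 0) (XT.nd (nat_lit 78) (nat_lit 0) (nat_lit 0) (XT.lf (nat_lit 0) (nat_lit 1199540710) (nat_lit 228) (nat_lit 26034221107) (nat_lit 76) (nat_lit 2267028620) (nat_lit 23) (nat_lit 5) (nat_lit 26) (nat_lit 5) (nat_lit 24) (nat_lit 5) (nat_lit 357) (nat_lit 266) (nat_lit 157)) (XT.nd (nat_lit 78) (nat_lit 0) (nat_lit 0) (XT.lf (nat_lit 0) (nat_lit 5059726363) (nat_lit 228) (nat_lit 17414963268) (nat_lit 76) (nat_lit 7739738503) (nat_lit 23) (nat_lit 5) (nat_lit 26) (nat_lit 5) (nat_lit 24) (nat_lit 5) (nat_lit 358) (nat_lit 266) (nat_lit 156)) (XT.lf (nat_lit 0) (nat_lit 9023845796) (nat_lit 228) (nat_lit 8557004832) (nat_lit 76) (nat_lit 13368990301) (nat_lit 23) (nat_lit 5)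 (nat_lit 26) (nat_lit 5) (nat_lit 24) (nat_lit 5) (nat_lit 359) (nat_lit 266) (nat_lit 155)))) (XT.nd (nat_lit 78) (nat_lit 0) (nat_lit 0) (XT.lf (nat_lit 0) (nat_lit 558288381) (nat_lit 152) (nat_lit 12542441033) (nat_lit 228) (nat_lit 18606781006) (nat_lit 21) (nat_lit 5) (nat_lit 23) (nat_lit 5) (nat_lit 24) (nat_lit 5) (nat_lit 360) (nat_lit 266) (nat_lit 154)) (XT.nd (nat_lit 78) (nat_lit 0) (nat_lit 0) (XT.lf (nat_lit 0) (nat_lit 10103341608) (nat_lit 152) (nat_lit 7271612917) (nat_lit 228) (nat_lit 15110713673) (nat_lit 21) (nat_lit 5) (nat_lit 23) (nat_lit 5) (nat_lit 24) (nat_lit 5) (nat_lit 361) (nat_lit 266) (nat_lit 153)) (XT.lf (nat_lit 0) (nat_lit 19916194010) (nat_lit 152) (nat_lit 1850169675) (nat_lit 228) (nat_lit 11521147288) (nat_lit 21) (nat_lit 5) (nat_lit 23) (nat_lit 5) (nat_lit 24) (nat_lit 5) (nat_lit 362) (nat_lit 266) (nat_lit 152))))) (XT.nd (nat_lit 234) (nat_lit 152)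 (nat_lit 0) (XT.nd (nat_lit 78) (nat_lit 152) (nat_lit 0) (XT.lf (nat_lit 0) (nat_lit 26314616653) (nat_lit 228) (nat_lit 4144142068) (nat_lit 76) (nat_lit 3653905984) (nat_lit 21) (nat_lit 5) (nat_lit 24) (nat_lit 5) (nat_lit 22) (nat_lit 4) (nat_lit 363) (nat_lit 266) (nat_lit 151)) (XT.nd (nat_lit 78) (nat_lit 76) (nat_lit 0) (XT.lf (nat_lit 0) (nat_lit 5429743287) (nat_lit 76) (nat_lit 25629609596) (nat_lit 152) (nat_lit 3901427562) (nat_lit 20) (nat_lit 5) (nat_lit 21) (nat_lit 5) (nat_lit 22) (nat_lit 4) (nat_lit 364) (nat_lit 266) (nat_lit 150)) (XT.lf (nat_lit 0) (nat_lit 141715274) (nat_lit 152) (nat_lit 20476562177) (nat_lit 76) (nat_lit 15215083532) (nat_lit 19) (nat_lit 5) (nat_lit 21) (nat_lit 5) (nat_lit 20) (nat_lit 5) (nat_lit 365) (nat_lit 266) (nat_lit 149)))) (XT.nd (nat_lit 78) (nat_lit 152) (nat_lit 0) (XT.lf (nat_lit 0) (nat_lit 4217590963) (nat_lit 152) (nat_lit 11206345191)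 (nat_lit 76) (nat_lit 21307336089) (nat_lit 19) (nat_lit 5) (nat_lit 21) (nat_lit 5) (nat_lit 20) (nat_lit 5) (nat_lit 366) (nat_lit 266) (nat_lit 148)) (XT.nd (nat_lit 78) (nat_lit 152) (nat_lit 0) (XT.lf (nat_lit 0) (nat_lit 8405891853) (nat_lit 152) (nat_lit 1674783102) (nat_lit 76) (nat_lit 27575748941) (nat_lit 19) (nat_lit 5) (nat_lit 21) (nat_lit 5) (nat_lit 20) (nat_lit 5) (nat_lit 367) (nat_lit 266) (nat_lit 147)) (XT.lf (nat_lit 0) (nat_lit 8288184979) (nat_lit 152) (nat_lit 4501763748) (nat_lit 228) (nat_lit 25817285465) (nat_lit 17) (nat_lit 5) (nat_lit 19) (nat_lit 5) (nat_lit 20) (nat_lit 5) (nat_lit 368) (nat_lit 266) (nat_lit 146))))))))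
noncomputable def xc128 : XT := (XT.nd (nat_lit 1794) (nat_lit 76) (nat_lit 0) (XT.nd (nat_lit 858) (nat_lit 228) (nat_lit 0) (XT.nd (nat_lit 390) (nat_lit 228) (nat_lit 0) (XT.nd (nat_lit 156) (nat_lit 76) (nat_lit 0) (XT.nd (nat_lit 78) (nat_lit 0) (nat_lit 0) (XT.lf (nat_lit 0) (nat_lit 17325065199) (nat_lit 228) (nat_lit 21030158232) (nat_lit 76) (nat_lit 1230766321) (nat_lit 17) (nat_lit 5) (nat_lit 20) (nat_lit 5) (nat_lit 18) (nat_lit 4) (nat_lit 369) (nat_lit 266) (nat_lit 145)) (XT.lf (nat_lit 0) (nat_lit 22031579295) (nat_lit 228) (nat_lit 11523036350) (nat_lit 76) (nat_lit 7038438893) (nat_lit 17) (nat_lit 5) (nat_lit 20) (nat_lit 5) (nat_lit 18) (nat_lit 4) (nat_lit 370) (nat_lit 266) (nat_lit 144))) (XT.nd (nat_lit 78) (nat_lit 76) (nat_lit 0) (XT.lf (nat_lit 0) (nat_lit 26870329800) (nat_lit 228) (nat_lit 1746102666) (nat_lit 76) (nat_lit 13014174257) (nat_lit 17) (nat_lit 5) (nat_lit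 20) (nat_lit 5) (nat_lit 18) (nat_lit 4) (nat_lit 371) (nat_lit 266) (nat_lit 143)) (XT.nd (nat_lit 78) (nat_lit 0) (nat_lit 0) (XT.lf (nat_lit 0) (nat_lit 8474554861) (nat_lit 76) (nat_lit 23452452489) (nat_lit 152) (nat_lit 10770101675) (nat_lit 16) (nat_lit 5) (nat_lit 17) (nat_lit 5) (nat_lit 18) (nat_lit 4) (nat_lit 372) (nat_lit 266) (nat_lit 142)) (XT.lf (nat_lit 0) (nat_lit 19022818851) (nat_lit 76) (nat_lit 18121611529) (nat_lit 152) (nat_lit 6650910963) (nat_lit 16) (nat_lit 5) (nat_lit 17) (nat_lit 5) (nat_lit 18) (nat_lit 4) (nat_lit 373) (nat_lit 266) (nat_lit 141))))) (XT.nd (nat_lit 234) (nat_lit 0) (nat_lit 0) (XT.nd (nat_lit 78) (nat_lit 228) (nat_lit 0) (XT.lf (nat_lit 0) (nat_lit 29873155366) (nat_lit 76) (nat_lit 12636883780) (nat_lit 152) (nat_lit 2416737708) (nat_lit 16) (nat_lit 5) (nat_lit 17) (nat_lit 5) (nat_lit 18) (nat_lit 4) (nat_lit 374) (nat_lit 266) (nat_lit 140))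 (XT.nd (nat_lit 78) (nat_lit 152) (nat_lit 0) (XT.lf (nat_lit 0) (nat_lit 1898337219) (nat_lit 152) (nat_lit 5075970059) (nat_lit 76) (nat_lit 39117538580) (nat_lit 15) (nat_lit 5) (nat_lit 17) (nat_lit 5) (nat_lit 16) (nat_lit 5) (nat_lit 375) (nat_lit 266) (nat_lit 139)) (XT.lf (nat_lit 0) (nat_lit 5266130138) (nat_lit 152) (nat_lit 1070839648) (nat_lit 228) (nat_lit 40952904519) (nat_lit 13) (nat_lit 5) (nat_lit 15) (nat_lit 5) (nat_lit 16) (nat_lit 5) (nat_lit 376) (nat_lit 266) (nat_lit 138)))) (XT.nd (nat_lit 78) (nat_lit 0) (nat_lit 0) (XT.lf (nat_lit 0) (nat_lit 11000786569) (nat_lit 228) (nat_lit 32562189140) (nat_lit 76) (nat_lit 4958112574) (nat_lit 13) (nat_lit 5) (nat_lit 16) (nat_lit 5) (nat_lit 14) (nat_lit 4) (nat_lit 377) (nat_lit 266) (nat_lit 137)) (XT.nd (nat_lit 78) (nat_lit 0) (nat_lit 0) (XT.lf (nat_lit 0) (nat_lit 15807453999) (nat_lit 228) (nat_lit 22840753814) (nat_lit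 76) (nat_lit 11140948058) (nat_lit 13) (nat_lit 5) (nat_lit 16) (nat_lit 5) (nat_lit 14) (nat_lit 4) (nat_lit 378) (nat_lit 266) (nat_lit 136)) (XT.lf (nat_lit 0) (nat_lit 20750878512) (nat_lit 228) (nat_lit 12840650167) (nat_lit 76) (nat_lit 17503965219) (nat_lit 13) (nat_lit 5) (nat_lit 16) (nat_lit 5) (nat_lit 14) (nat_lit 4) (nat_lit 379) (nat_lit 266) (nat_lit 135)))))) (XT.nd (nat_lit 468) (nat_lit 152) (nat_lit 0) (XT.nd (nat_lit 234) (nat_lit 0) (nat_lit 0) (XT.nd (nat_lit 78) (nat_lit 76) (nat_lit 0) (XT.lf (nat_lit 0) (nat_lit 25835379605) (nat_lit 228) (nat_lit 2553140243) (nat_lit 76) (nat_lit 24052723976) (nat_lit 13) (nat_lit 5) (nat_lit 16) (nat_lit 5) (nat_lit 14) (nat_lit 4) (nat_lit 380) (nat_lit 266) (nat_lit 134)) (XT.nd (nat_lit 78) (nat_lit 0) (nat_lit 0) (XT.lf (nat_lit 0) (nat_lit 8190593013) (nat_lit 76) (nat_lit 22953540023) (nat_lit 152) (nat_lit 22681086520) (nat_lit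 12) (nat_lit 5) (nat_lit 13) (nat_lit 5) (nat_lit 14) (nat_lit 4) (nat_lit 381) (nat_lit 266) (nat_lit 133)) (XT.lf (nat_lit 0) (nat_lit 19296865106) (nat_lit 76) (nat_lit 17334137921) (nat_lit 152) (nat_lit 18619150603) (nat_lit 12) (nat_lit 5) (nat_lit 13) (nat_lit 5) (nat_lit 14) (nat_lit 4) (nat_lit 382) (nat_lit 266) (nat_lit 132)))) (XT.nd (nat_lit 78) (nat_lit 0) (nat_lit 0) (XT.lf (nat_lit 0) (nat_lit 30724568048) (nat_lit 76) (nat_lit 11551185096) (nat_lit 152) (nat_lit 14442288912) (nat_lit 12) (nat_lit 5) (nat_lit 13) (nat_lit 5) (nat_lit 14) (nat_lit 4) (nat_lit 383) (nat_lit 266) (nat_lit 131)) (XT.nd (nat_lit 78) (nat_lit 0) (nat_lit 0) (XT.lf (nat_lit 0) (nat_lit 42483687210) (nat_lit 76) (nat_lit 5599628482) (nat_lit 152) (nat_lit 10146851764) (nat_lit 12) (nat_lit 5) (nat_lit 13) (nat_lit 5) (nat_lit 14) (nat_lit 4) (nat_lit 384) (nat_lit 266) (nat_lit 130)) (XT.lf (nat_lit 0)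 (nat_lit 54063818901) (nat_lit 152) (nat_lit 5208407215) (nat_lit 0) (nat_lit 515473378) (nat_lit 12) (nat_lit 5) (nat_lit 14) (nat_lit 4) (nat_lit 12) (nat_lit 4) (nat_lit 385) (nat_lit 266) (nat_lit 129))))) (XT.nd (nat_lit 234) (nat_lit 0) (nat_lit 0) (XT.nd (nat_lit 78) (nat_lit 76) (nat_lit 0) (XT.lf (nat_lit 0) (nat_lit 5690504204) (nat_lit 76) (nat_lit 54637175996) (nat_lit 76) (nat_lit 1061163168) (nat_lit 11) (nat_lit 4) (nat_lit 12) (nat_lit 5) (nat_lit 12) (nat_lit 4) (nat_lit 386) (nat_lit 266) (nat_lit 128)) (XT.nd (nat_lit 78) (nat_lit 0) (nat_lit 0) (XT.lf (nat_lit 0) (nat_lit 3715355043) (nat_lit 152) (nat_lit 46060703550) (nat_lit 76) (nat_lit 13259480098) (nat_lit 10) (nat_lit 5) (nat_lit 12) (nat_lit 5) (nat_lit 11) (nat_lit 4) (nat_lit 387) (nat_lit 266) (nat_lit 127)) (XT.lf (nat_lit 0) (nat_lit 8607833397) (nat_lit 152) (nat_lit 36155051579) (nat_lit 76) (nat_lit 19968618724)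 (nat_lit 10) (nat_lit 5) (nat_lit 12) (nat_lit 5) (nat_lit 11) (nat_lit 4) (nat_lit 388) (nat_lit 266) (nat_lit 126)))) (XT.nd (nat_lit 78) (nat_lit 0) (nat_lit 0) (XT.lf (nat_lit 0) (nat_lit 13641253990) (nat_lit 152) (nat_lit 25962527280) (nat_lit 76) (nat_lit 26874745055) (nat_lit 10) (nat_lit 5) (nat_lit 12) (nat_lit 5) (nat_lit 11) (nat_lit 4) (nat_lit 389) (nat_lit 266) (nat_lit 125)) (XT.nd (nat_lit 78) (nat_lit 0) (nat_lit 0) (XT.lf (nat_lit 0) (nat_lit 18820014956) (nat_lit 152) (nat_lit 15474224561) (nat_lit 76) (nat_lit 33983893571) (nat_lit 10) (nat_lit 5) (nat_lit 12) (nat_lit 5) (nat_lit 11) (nat_lit 4) (nat_lit 390) (nat_lit 266) (nat_lit 124)) (XT.lf (nat_lit 0) (nat_lit 24148641425) (nat_lit 152) (nat_lit 4680978888) (nat_lit 76) (nat_lit 41302276148) (nat_lit 10) (nat_lit 5) (nat_lit 12) (nat_lit 5) (nat_lit 11) (nat_lit 4) (nat_lit 391) (nat_lit 266) (nat_lit 123))))))) (XT.nd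 (nat_lit 31356) (nat_lit 0) (nat_lit 16036) (XT.nd (nat_lit 30888) (nat_lit 0) (nat_lit 18620) (XT.nd (nat_lit 234) (nat_lit 0) (nat_lit 0) (XT.nd (nat_lit 78) (nat_lit 0) (nat_lit 0) (XT.lf (nat_lit 0) (nat_lit 6554543483) (nat_lit 76) (nat_lit 23140252279) (nat_lit 152) (nat_lit 42344750288) (nat_lit 9) (nat_lit 5) (nat_lit 10) (nat_lit 5) (nat_lit 11) (nat_lit 4) (nat_lit 392) (nat_lit 266) (nat_lit 122)) (XT.nd (nat_lit 78) (nat_lit 0) (nat_lit 0) (XT.lf (nat_lit 0) (nat_lit 18213755966) (nat_lit 76) (nat_lit 17235576019) (nat_lit 152) (nat_lit 38553836512) (nat_lit 9) (nat_lit 5) (nat_lit 10) (nat_lit 5) (nat_lit 11) (nat_lit 4) (nat_lit 393) (nat_lit 266) (nat_lit 121)) (XT.lf (nat_lit 0) (nat_lit 30213685564) (nat_lit 76) (nat_lit 11157700817) (nat_lit 152) (nat_lit 34654469965) (nat_lit 9) (nat_lit 5) (nat_lit 10) (nat_lit 5) (nat_lit 11) (nat_lit 4) (nat_lit 394) (nat_lit 266) (nat_lit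 120)))) (XT.nd (nat_lit 78) (nat_lit 0) (nat_lit 0) (XT.lf (nat_lit 0) (nat_lit 42564817653) (nat_lit 76) (nat_lit 4901315908) (nat_lit 152) (nat_lit 30643243436) (nat_lit 9) (nat_lit 5) (nat_lit 10) (nat_lit 5) (nat_lit 11) (nat_lit 4) (nat_lit 395) (nat_lit 266) (nat_lit 119)) (XT.nd (nat_lit 78) (nat_lit 0) (nat_lit 0) (XT.lf (nat_lit 0) (nat_lit 53753693277) (nat_lit 152) (nat_lit 24992400762) (nat_lit 0) (nat_lit 1509013132) (nat_lit 9) (nat_lit 5) (nat_lit 11) (nat_lit 4) (nat_lit 9) (nat_lit 4) (nat_lit 396) (nat_lit 266) (nat_lit 118)) (XT.lf (nat_lit 0) (nat_lit 60273689376) (nat_lit 152) (nat_lit 14180604567) (nat_lit 0) (nat_lit 8009603941) (nat_lit 9) (nat_lit 5) (nat_lit 11) (nat_lit 4) (nat_lit 9) (nat_lit 4) (nat_lit 397) (nat_lit 266) (nat_lit 117))))) (XT.nd (nat_lit 234) (nat_lit 532) (nat_lit 0) (XT.nd (nat_lit 78) (nat_lit 0) (nat_lit 0) (XT.lf (nat_lit 0) (nat_lit 991639799)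 (nat_lit 532) (nat_lit 1169030954) (nat_lit 532) (nat_lit 1169030954) (nat_lit 261) (nat_lit 3) (nat_lit 268) (nat_lit 3) (nat_lit 268) (nat_lit 5) (nat_lit 267) (nat_lit 267) (nat_lit 246)) (XT.nd (nat_lit 78) (nat_lit 0) (nat_lit 0) (XT.lf (nat_lit 76) (nat_lit 620895956) (nat_lit 0) (nat_lit 3441809977) (nat_lit 532) (nat_lit 2629153764) (nat_lit 262) (nat_lit 5) (nat_lit 261) (nat_lit 3) (nat_lit 268) (nat_lit 5) (nat_lit 268) (nat_lit 267) (nat_lit 245)) (XT.lf (nat_lit 76) (nat_lit 3674538203) (nat_lit 0) (nat_lit 2473422613) (nat_lit 532) (nat_lit 579257476) (nat_lit 262) (nat_lit 5) (nat_lit 261) (nat_lit 3) (nat_lit 268) (nat_lit 5) (nat_lit 269) (nat_lit 267) (nat_lit 244)))) (XT.nd (nat_lit 78) (nat_lit 0) (nat_lit 0) (XT.lf (nat_lit 0) (nat_lit 1423417577) (nat_lit 532) (nat_lit 1151787) (nat_lit 608) (nat_lit 5341209742) (nat_lit 254) (nat_lit 5) (nat_lit 261) (nat_lit 3) (nat_lit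 262) (nat_lit 5) (nat_lit 270) (nat_lit 267) (nat_lit 243)) (XT.nd (nat_lit 78) (nat_lit 0) (nat_lit 76) (XT.lf (nat_lit 76) (nat_lit 3156444792) (nat_lit 0) (nat_lit 271902375) (nat_lit 608) (nat_lit 3378575326) (nat_lit 255) (nat_lit 5) (nat_lit 254) (nat_lit 5) (nat_lit 262) (nat_lit 5) (nat_lit 271) (nat_lit 267) (nat_lit 242)) (XT.lf (nat_lit 0) (nat_lit 5427870293) (nat_lit 532) (nat_lit 493007942) (nat_lit 608) (nat_lit 930594703) (nat_lit 255) (nat_lit 5) (nat_lit 262) (nat_lit 5) (nat_lit 263) (nat_lit 5) (nat_lit 272) (nat_lit 267) (nat_lit 241)))))) (XT.nd (nat_lit 468) (nat_lit 1444) (nat_lit 0) (XT.nd (nat_lit 234) (nat_lit 608) (nat_lit 0) (XT.nd (nat_lit 78) (nat_lit 0) (nat_lit 0) (XT.lf (nat_lit 0) (nat_lit 534986460) (nat_lit 608) (nat_lit 4136012065) (nat_lit 684) (nat_lit 2227691096) (nat_lit 247) (nat_lit 5) (nat_lit 255) (nat_lit 5) (nat_lit 256) (nat_lit 5) (nat_lit 273)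 (nat_lit 267) (nat_lit 240)) (XT.nd (nat_lit 78) (nat_lit 0) (nat_lit 0) (XT.lf (nat_lit 0) (nat_lit 2457359465) (nat_lit 608) (nat_lit 878800596) (nat_lit 684) (nat_lit 3612919347) (nat_lit 247) (nat_lit 5) (nat_lit 255) (nat_lit 5) (nat_lit 256) (nat_lit 5) (nat_lit 274) (nat_lit 267) (nat_lit 239)) (XT.lf (nat_lit 76) (nat_lit 2482212098) (nat_lit 0) (nat_lit 1909742902) (nat_lit 684) (nat_lit 2610572487) (nat_lit 248) (nat_lit 5) (nat_lit 247) (nat_lit 5) (nat_lit 256) (nat_lit 5) (nat_lit 275) (nat_lit 267) (nat_lit 238)))) (XT.nd (nat_lit 78) (nat_lit 608) (nat_lit 0) (XT.lf (nat_lit 76) (nat_lit 5920132923) (nat_lit 0) (nat_lit 405636035) (nat_lit 684) (nat_lit 733752440) (nat_lit 248) (nat_lit 5) (nat_lit 247) (nat_lit 5) (nat_lit 256) (nat_lit 5) (nat_lit 276) (nat_lit 267) (nat_lit 237)) (XT.nd (nat_lit 78) (nat_lit 0) (nat_lit 0) (XT.lf (nat_lit 0) (nat_lit 1143432854) (nat_lit 684)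 (nat_lit 4796142958) (nat_lit 760) (nat_lit 1179447098) (nat_lit 239) (nat_lit 5) (nat_lit 248) (nat_lit 5) (nat_lit 249) (nat_lit 5) (nat_lit 277) (nat_lit 267) (nat_lit 236)) (XT.lf (nat_lit 0) (nat_lit 3013039294) (nat_lit 684) (nat_lit 1323115979) (nat_lit 760) (nat_lit 2845573366) (nat_lit 239) (nat_lit 5) (nat_lit 248) (nat_lit 5) (nat_lit 249) (nat_lit 5) (nat_lit 278) (nat_lit 267) (nat_lit 235))))) (XT.nd (nat_lit 234) (nat_lit 760) (nat_lit 0) (XT.nd (nat_lit 78) (nat_lit 684) (nat_lit 0) (XT.lf (nat_lit 76) (nat_lit 2255266026) (nat_lit 0) (nat_lit 2642251344) (nat_lit 760) (nat_lit 2350192645) (nat_lit 240) (nat_lit 5) (nat_lit 239) (nat_lit 5) (nat_lit 249) (nat_lit 5) (nat_lit 279) (nat_lit 267) (nat_lit 234)) (XT.nd (nat_lit 78) (nat_lit 684) (nat_lit 0) (XT.lf (nat_lit 76) (nat_lit 5925697968) (nat_lit 0) (nat_lit 864721246) (nat_lit 760) (nat_lit 526848310) (nat_lit 240) (nat_lit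 5) (nat_lit 239) (nat_lit 5) (nat_lit 249) (nat_lit 5) (nat_lit 280) (nat_lit 267) (nat_lit 233)) (XT.lf (nat_lit 0) (nat_lit 1296393425) (nat_lit 760) (nat_lit 5092799584) (nat_lit 76) (nat_lit 1000326755) (nat_lit 230) (nat_lit 5) (nat_lit 240) (nat_lit 5) (nat_lit 231) (nat_lit 5) (nat_lit 281) (nat_lit 267) (nat_lit 232)))) (XT.nd (nat_lit 78) (nat_lit 760) (nat_lit 0) (XT.lf (nat_lit 0) (nat_lit 3127595969) (nat_lit 760) (nat_lit 1397444207) (nat_lit 76) (nat_lit 2939967683) (nat_lit 230) (nat_lit 5) (nat_lit 240) (nat_lit 5) (nat_lit 231) (nat_lit 5) (nat_lit 282) (nat_lit 267) (nat_lit 231)) (XT.nd (nat_lit 78) (nat_lit 0) (nat_lit 0) (XT.lf (nat_lit 0) (nat_lit 2412950804) (nat_lit 760) (nat_lit 2566793917) (nat_lit 836) (nat_lit 2564171847) (nat_lit 220) (nat_lit 5) (nat_lit 230) (nat_lit 5) (nat_lit 231) (nat_lit 5) (nat_lit 283) (nat_lit 267) (nat_lit 230)) (XT.lf (nat_lit 0) (nat_lit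 6323818167) (nat_lit 760) (nat_lit 521823761) (nat_lit 836) (nat_lit 780937393) (nat_lit 220) (nat_lit 5) (nat_lit 230) (nat_lit 5) (nat_lit 231) (nat_lit 5) (nat_lit 284) (nat_lit 267) (nat_lit 229))))))))
noncomputable def xc129 : XT := (XT.nd (nat_lit 1794) (nat_lit 4180) (nat_lit 0) (XT.nd (nat_lit 858) (nat_lit 3040) (nat_lit 0) (XT.nd (nat_lit 390) (nat_lit 2736) (nat_lit 0) (XT.nd (nat_lit 156) (nat_lit 1976) (nat_lit 0) (XT.nd (nat_lit 78) (nat_lit 0) (nat_lit 0) (XT.lf (nat_lit 0) (nat_lit 1021301965) (nat_lit 912) (nat_lit 5088959310) (nat_lit 76) (nat_lit 1601697617) (nat_lit 208) (nat_lit 5) (nat_lit 220) (nat_lit 5) (nat_lit 209) (nat_lit 5) (nat_lit 285) (nat_lit 267) (nat_lit 228)) (XT.lf (nat_lit 0) (nat_lit 2826711773) (nat_lit 912) (nat_lit 1163192754) (nat_lit 76) (nat_lit 3810940457) (nat_lit 208) (nat_lit 5) (nat_lit 220) (nat_lit 5) (nat_lit 209) (nat_lit 5) (nat_lit 286)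 (nat_lit 267) (nat_lit 227))) (XT.nd (nat_lit 78) (nat_lit 1064) (nat_lit 0) (XT.lf (nat_lit 0) (nat_lit 2894204553) (nat_lit 912) (nat_lit 1767810070) (nat_lit 988) (nat_lit 3231228663) (nat_lit 196) (nat_lit 5) (nat_lit 208) (nat_lit 5) (nat_lit 209) (nat_lit 5) (nat_lit 287) (nat_lit 267) (nat_lit 226)) (XT.nd (nat_lit 78) (nat_lit 1064) (nat_lit 0) (XT.lf (nat_lit 0) (nat_lit 6518352276) (nat_lit 988) (nat_lit 939945661) (nat_lit 76) (nat_lit 531250457) (nat_lit 196) (nat_lit 5) (nat_lit 209) (nat_lit 5) (nat_lit 197) (nat_lit 5) (nat_lit 288) (nat_lit 267) (nat_lit 225)) (XT.lf (nat_lit 0) (nat_lit 334130226) (nat_lit 1064) (nat_lit 4848079490) (nat_lit 76) (nat_lit 2906567210) (nat_lit 182) (nat_lit 5) (nat_lit 196) (nat_lit 5) (nat_lit 183) (nat_lit 5) (nat_lit 289) (nat_lit 267) (nat_lit 224))))) (XT.nd (nat_lit 234) (nat_lit 1672) (nat_lit 0) (XT.nd (nat_lit 78) (nat_lit 1064) (nat_lit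 0) (XT.lf (nat_lit 0) (nat_lit 2124669263) (nat_lit 1064) (nat_lit 682639981) (nat_lit 76) (nat_lit 5384521848) (nat_lit 182) (nat_lit 5) (nat_lit 196) (nat_lit 5) (nat_lit 183) (nat_lit 5) (nat_lit 290) (nat_lit 267) (nat_lit 223)) (XT.nd (nat_lit 78) (nat_lit 0) (nat_lit 0) (XT.lf (nat_lit 0) (nat_lit 3636678940) (nat_lit 1064) (nat_lit 319666526) (nat_lit 1140) (nat_lit 4342110187) (nat_lit 168) (nat_lit 5) (nat_lit 182) (nat_lit 5) (nat_lit 183) (nat_lit 5) (nat_lit 291) (nat_lit 267) (nat_lit 222)) (XT.lf (nat_lit 0) (nat_lit 5824985440) (nat_lit 1140) (nat_lit 373305341) (nat_lit 76) (nat_lit 2210626212) (nat_lit 168) (nat_lit 5) (nat_lit 183) (nat_lit 5) (nat_lit 169) (nat_lit 5) (nat_lit 292) (nat_lit 267) (nat_lit 221)))) (XT.nd (nat_lit 78) (nat_lit 608) (nat_lit 0) (XT.lf (nat_lit 0) (nat_lit 4078316914) (nat_lit 1064) (nat_lit 3668585129) (nat_lit 1140) (nat_lit 775969187) (nat_lit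 154) (nat_lit 5) (nat_lit 168) (nat_lit 5) (nat_lit 169) (nat_lit 5) (nat_lit 293) (nat_lit 267) (nat_lit 220)) (XT.nd (nat_lit 78) (nat_lit 532) (nat_lit 0) (XT.lf (nat_lit 0) (nat_lit 1024078964) (nat_lit 1140) (nat_lit 21960510) (nat_lit 76) (nat_lit 7595210169) (nat_lit 153) (nat_lit 5) (nat_lit 168) (nat_lit 5) (nat_lit 154) (nat_lit 5) (nat_lit 294) (nat_lit 267) (nat_lit 219)) (XT.lf (nat_lit 0) (nat_lit 2879480047) (nat_lit 608) (nat_lit 4205841642) (nat_lit 76) (nat_lit 1677206272) (nat_lit 146) (nat_lit 5) (nat_lit 154) (nat_lit 5) (nat_lit 147) (nat_lit 5) (nat_lit 295) (nat_lit 267) (nat_lit 218)))))) (XT.nd (nat_lit 468) (nat_lit 1368) (nat_lit 0) (XT.nd (nat_lit 234) (nat_lit 608) (nat_lit 0) (XT.nd (nat_lit 78) (nat_lit 532) (nat_lit 0) (XT.lf (nat_lit 0) (nat_lit 339747345) (nat_lit 532) (nat_lit 4422072361) (nat_lit 608) (nat_lit 4126571546) (nat_lit 139) (nat_lit 5) (nat_lit 146)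 (nat_lit 5) (nat_lit 147) (nat_lit 5) (nat_lit 296) (nat_lit 267) (nat_lit 217)) (XT.nd (nat_lit 78) (nat_lit 532) (nat_lit 0) (XT.lf (nat_lit 0) (nat_lit 5066105559) (nat_lit 532) (nat_lit 1635262618) (nat_lit 608) (nat_lit 2316722553) (nat_lit 139) (nat_lit 5) (nat_lit 146) (nat_lit 5) (nat_lit 147) (nat_lit 5) (nat_lit 297) (nat_lit 267) (nat_lit 216)) (XT.lf (nat_lit 0) (nat_lit 743314060) (nat_lit 532) (nat_lit 7934289866) (nat_lit 608) (nat_lit 474802289) (nat_lit 132) (nat_lit 5) (nat_lit 139) (nat_lit 5) (nat_lit 140) (nat_lit 5) (nat_lit 298) (nat_lit 267) (nat_lit 215)))) (XT.nd (nat_lit 78) (nat_lit 532) (nat_lit 0) (XT.lf (nat_lit 0) (nat_lit 1410907417) (nat_lit 608) (nat_lit 3701684333) (nat_lit 76) (nat_lit 4177336058) (nat_lit 131) (nat_lit 5) (nat_lit 139) (nat_lit 5) (nat_lit 132) (nat_lit 5) (nat_lit 299) (nat_lit 267) (nat_lit 214)) (XT.nd (nat_lit 78) (nat_lit 0) (nat_lit 0)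 (XT.lf (nat_lit 0) (nat_lit 1123036979) (nat_lit 532) (nat_lit 2192369099) (nat_lit 608) (nat_lit 6116948371) (nat_lit 124) (nat_lit 5) (nat_lit 131) (nat_lit 5) (nat_lit 132) (nat_lit 5) (nat_lit 300) (nat_lit 267) (nat_lit 213)) (XT.lf (nat_lit 0) (nat_lit 5284315810) (nat_lit 608) (nat_lit 3459675967) (nat_lit 76) (nat_lit 834914950) (nat_lit 124) (nat_lit 5) (nat_lit 132) (nat_lit 5) (nat_lit 125) (nat_lit 5) (nat_lit 301) (nat_lit 267) (nat_lit 212))))) (XT.nd (nat_lit 234) (nat_lit 380) (nat_lit 0) (XT.nd (nat_lit 78) (nat_lit 532) (nat_lit 0) (XT.lf (nat_lit 0) (nat_lit 1502370146) (nat_lit 456) (nat_lit 5808874465) (nat_lit 532) (nat_lit 2418711457) (nat_lit 118) (nat_lit 5) (nat_lit 124) (nat_lit 5) (nat_lit 125) (nat_lit 5) (nat_lit 302) (nat_lit 267) (nat_lit 211)) (XT.nd (nat_lit 78) (nat_lit 532) (nat_lit 0) (XT.lf (nat_lit 0) (nat_lit 6643901913) (nat_lit 456) (nat_lit 2753514806)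 (nat_lit 532) (nat_lit 488234143) (nat_lit 118) (nat_lit 5) (nat_lit 124) (nat_lit 5) (nat_lit 125) (nat_lit 5) (nat_lit 303) (nat_lit 267) (nat_lit 210)) (XT.lf (nat_lit 0) (nat_lit 1457129776) (nat_lit 532) (nat_lit 8174296190) (nat_lit 76) (nat_lit 414633738) (nat_lit 111) (nat_lit 5) (nat_lit 118) (nat_lit 5) (nat_lit 112) (nat_lit 5) (nat_lit 304) (nat_lit 267) (nat_lit 209)))) (XT.nd (nat_lit 78) (nat_lit 380) (nat_lit 0) (XT.lf (nat_lit 0) (nat_lit 3476134412) (nat_lit 532) (nat_lit 3078168395) (nat_lit 76) (nat_lit 3656141548) (nat_lit 111) (nat_lit 5) (nat_lit 118) (nat_lit 5) (nat_lit 112) (nat_lit 5) (nat_lit 305) (nat_lit 267) (nat_lit 208)) (XT.nd (nat_lit 78) (nat_lit 0) (nat_lit 0) (XT.lf (nat_lit 0) (nat_lit 2173862108) (nat_lit 380) (nat_lit 3368540543) (nat_lit 456) (nat_lit 4837816653) (nat_lit 106) (nat_lit 5) (nat_lit 111) (nat_lit 5) (nat_lit 112) (nat_lit 5) (nat_lit 306)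 (nat_lit 267) (nat_lit 207)) (XT.lf (nat_lit 0) (nat_lit 7607538240) (nat_lit 380) (nat_lit 60622302) (nat_lit 456) (nat_lit 2887059736) (nat_lit 106) (nat_lit 5) (nat_lit 111) (nat_lit 5) (nat_lit 112) (nat_lit 5) (nat_lit 307) (nat_lit 267) (nat_lit 206))))))) (XT.nd (nat_lit 936) (nat_lit 1824) (nat_lit 0) (XT.nd (nat_lit 468) (nat_lit 1064) (nat_lit 0) (XT.nd (nat_lit 234) (nat_lit 380) (nat_lit 0) (XT.nd (nat_lit 78) (nat_lit 456) (nat_lit 0) (XT.lf (nat_lit 0) (nat_lit 2445441903) (nat_lit 456) (nat_lit 7435270830) (nat_lit 532) (nat_lit 854124046) (nat_lit 100) (nat_lit 5) (nat_lit 106) (nat_lit 5) (nat_lit 107) (nat_lit 5) (nat_lit 308) (nat_lit 267) (nat_lit 205)) (XT.nd (nat_lit 78) (nat_lit 380) (nat_lit 0) (XT.lf (nat_lit 0) (nat_lit 1213823245) (nat_lit 532) (nat_lit 2910156836) (nat_lit 76) (nat_lit 6795610587) (nat_lit 99) (nat_lit 5) (nat_lit 106) (nat_lit 5) (nat_lit 100) (nat_lit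 5) (nat_lit 309) (nat_lit 267) (nat_lit 204)) (XT.lf (nat_lit 0) (nat_lit 2635389212) (nat_lit 380) (nat_lit 685086395) (nat_lit 456) (nat_lit 7789394234) (nat_lit 94) (nat_lit 5) (nat_lit 99) (nat_lit 5) (nat_lit 100) (nat_lit 5) (nat_lit 310) (nat_lit 267) (nat_lit 203)))) (XT.nd (nat_lit 78) (nat_lit 380) (nat_lit 0) (XT.lf (nat_lit 0) (nat_lit 5516459867) (nat_lit 456) (nat_lit 2964351777) (nat_lit 76) (nat_lit 2824311658) (nat_lit 94) (nat_lit 5) (nat_lit 100) (nat_lit 5) (nat_lit 95) (nat_lit 5) (nat_lit 311) (nat_lit 267) (nat_lit 202)) (XT.nd (nat_lit 78) (nat_lit 0) (nat_lit 0) (XT.lf (nat_lit 0) (nat_lit 2719917909) (nat_lit 380) (nat_lit 5061228959) (nat_lit 456) (nat_lit 3725051230) (nat_lit 89) (nat_lit 5) (nat_lit 94) (nat_lit 5) (nat_lit 95) (nat_lit 5) (nat_lit 312) (nat_lit 267) (nat_lit 201)) (XT.lf (nat_lit 0) (nat_lit 8598393808) (nat_lit 380) (nat_lit 1515729819) (nat_lit 456)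 (nat_lit 1599218057) (nat_lit 89) (nat_lit 5) (nat_lit 94) (nat_lit 5) (nat_lit 95) (nat_lit 5) (nat_lit 313) (nat_lit 267) (nat_lit 200))))) (XT.nd (nat_lit 234) (nat_lit 304) (nat_lit 0) (XT.nd (nat_lit 78) (nat_lit 380) (nat_lit 0) (XT.lf (nat_lit 0) (nat_lit 596910628) (nat_lit 380) (nat_lit 9209793501) (nat_lit 76) (nat_lit 2119328277) (nat_lit 84) (nat_lit 5) (nat_lit 89) (nat_lit 5) (nat_lit 85) (nat_lit 5) (nat_lit 314) (nat_lit 267) (nat_lit 199)) (XT.nd (nat_lit 78) (nat_lit 380) (nat_lit 0) (XT.lf (nat_lit 0) (nat_lit 2844924909) (nat_lit 380) (nat_lit 3426194881) (nat_lit 76) (nat_lit 5873007739) (nat_lit 84) (nat_lit 5) (nat_lit 89) (nat_lit 5) (nat_lit 85) (nat_lit 5) (nat_lit 315) (nat_lit 267) (nat_lit 198)) (XT.lf (nat_lit 0) (nat_lit 2544548651) (nat_lit 380) (nat_lit 2612495490) (nat_lit 456) (nat_lit 7211863205) (nat_lit 79) (nat_lit 5) (nat_lit 84) (nat_lit 5) (nat_lit 85)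 (nat_lit 5) (nat_lit 316) (nat_lit 267) (nat_lit 197)))) (XT.nd (nat_lit 78) (nat_lit 304) (nat_lit 0) (XT.lf (nat_lit 0) (nat_lit 7557169852) (nat_lit 456) (nat_lit 3882641694) (nat_lit 76) (nat_lit 1160100284) (nat_lit 79) (nat_lit 5) (nat_lit 85) (nat_lit 5) (nat_lit 80) (nat_lit 5) (nat_lit 317) (nat_lit 267) (nat_lit 196)) (XT.nd (nat_lit 78) (nat_lit 0) (nat_lit 0) (XT.lf (nat_lit 0) (nat_lit 2219386669) (nat_lit 304) (nat_lit 7830502765) (nat_lit 380) (nat_lit 2787378688) (nat_lit 75) (nat_lit 5) (nat_lit 79) (nat_lit 5) (nat_lit 80) (nat_lit 5) (nat_lit 318) (nat_lit 267) (nat_lit 195)) (XT.lf (nat_lit 0) (nat_lit 8549031030) (nat_lit 304) (nat_lit 4081394627) (nat_lit 380) (nat_lit 450966624) (nat_lit 75) (nat_lit 5) (nat_lit 79) (nat_lit 5) (nat_lit 80) (nat_lit 5) (nat_lit 319) (nat_lit 267) (nat_lit 194)))))) (XT.nd (nat_lit 468) (nat_lit 760) (nat_lit 0) (XT.nd (nat_lit 234) (nat_lit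 380) (nat_lit 0) (XT.nd (nat_lit 78) (nat_lit 304) (nat_lit 0) (XT.lf (nat_lit 0) (nat_lit 1715846854) (nat_lit 304) (nat_lit 192327432) (nat_lit 380) (nat_lit 11424414098) (nat_lit 70) (nat_lit 5) (nat_lit 74) (nat_lit 5) (nat_lit 75) (nat_lit 5) (nat_lit 320) (nat_lit 267) (nat_lit 193)) (XT.nd (nat_lit 78) (nat_lit 304) (nat_lit 0) (XT.lf (nat_lit 0) (nat_lit 4386539217) (nat_lit 380) (nat_lit 5422042906) (nat_lit 76) (nat_lit 3780913870) (nat_lit 70) (nat_lit 5) (nat_lit 75) (nat_lit 5) (nat_lit 71) (nat_lit 5) (nat_lit 321) (nat_lit 267) (nat_lit 192)) (XT.lf (nat_lit 0) (nat_lit 941042239) (nat_lit 304) (nat_lit 5984537539) (nat_lit 380) (nat_lit 6928975278) (nat_lit 66) (nat_lit 5) (nat_lit 70) (nat_lit 5) (nat_lit 71) (nat_lit 5) (nat_lit 322) (nat_lit 267) (nat_lit 191)))) (XT.nd (nat_lit 78) (nat_lit 380) (nat_lit 0) (XT.lf (nat_lit 0) (nat_lit 7572585658) (nat_lit 304) (nat_lit 1998726926)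 (nat_lit 380) (nat_lit 4555370655) (nat_lit 66) (nat_lit 5) (nat_lit 70) (nat_lit 5) (nat_lit 71) (nat_lit 5) (nat_lit 323) (nat_lit 267) (nat_lit 190)) (XT.nd (nat_lit 78) (nat_lit 380) (nat_lit 0) (XT.lf (nat_lit 0) (nat_lit 12293055383) (nat_lit 380) (nat_lit 57403651) (nat_lit 76) (nat_lit 2056649111) (nat_lit 66) (nat_lit 5) (nat_lit 71) (nat_lit 5) (nat_lit 67) (nat_lit 5) (nat_lit 324) (nat_lit 267) (nat_lit 189)) (XT.lf (nat_lit 0) (nat_lit 454661971) (nat_lit 380) (nat_lit 7985478477) (nat_lit 76) (nat_lit 6253860854) (nat_lit 61) (nat_lit 5) (nat_lit 66) (nat_lit 5) (nat_lit 62) (nat_lit 5) (nat_lit 325) (nat_lit 267) (nat_lit 188))))) (XT.nd (nat_lit 234) (nat_lit 532) (nat_lit 0) (XT.nd (nat_lit 78) (nat_lit 228) (nat_lit 0) (XT.lf (nat_lit 0) (nat_lit 3035715861) (nat_lit 380) (nat_lit 1364268631) (nat_lit 76) (nat_lit 10589585083) (nat_lit 61) (nat_lit 5) (nat_lit 66) (nat_lit 5)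 (nat_lit 62) (nat_lit 5) (nat_lit 326) (nat_lit 267) (nat_lit 187)) (XT.nd (nat_lit 78) (nat_lit 0) (nat_lit 0) (XT.lf (nat_lit 0) (nat_lit 5532020724) (nat_lit 228) (nat_lit 193205071) (nat_lit 304) (nat_lit 9567876817) (nat_lit 58) (nat_lit 5) (nat_lit 61) (nat_lit 5) (nat_lit 62) (nat_lit 5) (nat_lit 327) (nat_lit 267) (nat_lit 186)) (XT.lf (nat_lit 0) (nat_lit 8527230273) (nat_lit 304) (nat_lit 3013883018) (nat_lit 76) (nat_lit 4063701689) (nat_lit 58) (nat_lit 5) (nat_lit 62) (nat_lit 5) (nat_lit 59) (nat_lit 5) (nat_lit 328) (nat_lit 267) (nat_lit 185)))) (XT.nd (nat_lit 78) (nat_lit 304) (nat_lit 0) (XT.lf (nat_lit 0) (nat_lit 3980632139) (nat_lit 228) (nat_lit 7451580066) (nat_lit 304) (nat_lit 4493125808) (nat_lit 55) (nat_lit 5) (nat_lit 58) (nat_lit 5) (nat_lit 59) (nat_lit 5) (nat_lit 329) (nat_lit 267) (nat_lit 184)) (XT.nd (nat_lit 78) (nat_lit 304) (nat_lit 0) (XT.lf (nat_lit 0)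 (nat_lit 11216203750) (nat_lit 228) (nat_lit 3217639734) (nat_lit 304) (nat_lit 1821374289) (nat_lit 55) (nat_lit 5) (nat_lit 58) (nat_lit 5) (nat_lit 59) (nat_lit 5) (nat_lit 330) (nat_lit 267) (nat_lit 183)) (XT.lf (nat_lit 0) (nat_lit 922954631) (nat_lit 304) (nat_lit 14530656502) (nat_lit 76) (nat_lit 1140821502) (nat_lit 51) (nat_lit 5) (nat_lit 55) (nat_lit 5) (nat_lit 52) (nat_lit 5) (nat_lit 331) (nat_lit 267) (nat_lit 182))))))))
noncomputable def xc130 : XT := (XT.nd (nat_lit 1794) (nat_lit 1140) (nat_lit 0) (XT.nd (nat_lit 858) (nat_lit 836) (nat_lit 0) (XT.nd (nat_lit 390) (nat_lit 456) (nat_lit 0) (XT.nd (nat_lit 156) (nat_lit 456) (nat_lit 0) (XT.nd (nat_lit 78) (nat_lit 0) (nat_lit 0) (XT.lf (nat_lit 0) (nat_lit 3775920715) (nat_lit 304) (nat_lit 7540095527) (nat_lit 76) (nat_lit 5625403070) (nat_lit 51) (nat_lit 5) (nat_lit 55) (nat_lit 5) (nat_lit 52) (nat_lit 5) (nat_lit 332)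 (nat_lit 267) (nat_lit 181)) (XT.lf (nat_lit 0) (nat_lit 6694737268) (nat_lit 304) (nat_lit 369281723) (nat_lit 76) (nat_lit 10235411883) (nat_lit 51) (nat_lit 5) (nat_lit 55) (nat_lit 5) (nat_lit 52) (nat_lit 5) (nat_lit 333) (nat_lit 267) (nat_lit 180))) (XT.nd (nat_lit 78) (nat_lit 228) (nat_lit 0) (XT.lf (nat_lit 0) (nat_lit 7127126579) (nat_lit 228) (nat_lit 2623338433) (nat_lit 304) (nat_lit 7916259826) (nat_lit 48) (nat_lit 5) (nat_lit 51) (nat_lit 5) (nat_lit 52) (nat_lit 5) (nat_lit 334) (nat_lit 267) (nat_lit 179)) (XT.nd (nat_lit 78) (nat_lit 228) (nat_lit 0) (XT.lf (nat_lit 0) (nat_lit 12901411993) (nat_lit 304) (nat_lit 3236538323) (nat_lit 76) (nat_lit 1907002686) (nat_lit 48) (nat_lit 5) (nat_lit 52) (nat_lit 5) (nat_lit 49) (nat_lit 5) (nat_lit 335) (nat_lit 267) (nat_lit 178)) (XT.lf (nat_lit 0) (nat_lit 4315874829) (nat_lit 228) (nat_lit 11880056972) (nat_lit 304) (nat_lit 2237146044)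 (nat_lit 45) (nat_lit 5) (nat_lit 48) (nat_lit 5) (nat_lit 49) (nat_lit 5) (nat_lit 336) (nat_lit 267) (nat_lit 177))))) (XT.nd (nat_lit 234) (nat_lit 152) (nat_lit 0) (XT.nd (nat_lit 78) (nat_lit 228) (nat_lit 0) (XT.lf (nat_lit 0) (nat_lit 756340332) (nat_lit 304) (nat_lit 6706348600) (nat_lit 76) (nat_lit 11369519499) (nat_lit 44) (nat_lit 5) (nat_lit 48) (nat_lit 5) (nat_lit 45) (nat_lit 5) (nat_lit 337) (nat_lit 267) (nat_lit 176)) (XT.nd (nat_lit 78) (nat_lit 0) (nat_lit 0) (XT.lf (nat_lit 0) (nat_lit 894867931) (nat_lit 228) (nat_lit 2890589475) (nat_lit 304) (nat_lit 15457486684) (nat_lit 41) (nat_lit 5) (nat_lit 44) (nat_lit 5) (nat_lit 45) (nat_lit 5) (nat_lit 338) (nat_lit 267) (nat_lit 175)) (XT.lf (nat_lit 0) (nat_lit 6973678441) (nat_lit 304) (nat_lit 10847991089) (nat_lit 76) (nat_lit 1842304183) (nat_lit 41) (nat_lit 5) (nat_lit 45) (nat_lit 5) (nat_lit 42) (nat_lit 5) (nat_lit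 339) (nat_lit 267) (nat_lit 174)))) (XT.nd (nat_lit 78) (nat_lit 152) (nat_lit 0) (XT.lf (nat_lit 0) (nat_lit 10269036459) (nat_lit 304) (nat_lit 3178186005) (nat_lit 76) (nat_lit 6650085310) (nat_lit 41) (nat_lit 5) (nat_lit 45) (nat_lit 5) (nat_lit 42) (nat_lit 5) (nat_lit 340) (nat_lit 267) (nat_lit 173)) (XT.nd (nat_lit 78) (nat_lit 0) (nat_lit 0) (XT.lf (nat_lit 0) (nat_lit 4789283143) (nat_lit 152) (nat_lit 8903379162) (nat_lit 228) (nat_lit 6850115065) (nat_lit 39) (nat_lit 5) (nat_lit 41) (nat_lit 5) (nat_lit 42) (nat_lit 5) (nat_lit 341) (nat_lit 267) (nat_lit 172)) (XT.lf (nat_lit 0) (nat_lit 13035293597) (nat_lit 152) (nat_lit 4199404331) (nat_lit 228) (nat_lit 3766459308) (nat_lit 39) (nat_lit 5) (nat_lit 41) (nat_lit 5) (nat_lit 42) (nat_lit 5) (nat_lit 342) (nat_lit 267) (nat_lit 171)))))) (XT.nd (nat_lit 468) (nat_lit 380) (nat_lit 0) (XT.nd (nat_lit 234) (nat_lit 152) (nat_lit 0)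 (XT.nd (nat_lit 78) (nat_lit 76) (nat_lit 0) (XT.lf (nat_lit 0) (nat_lit 24370849) (nat_lit 228) (nat_lit 20849063573) (nat_lit 304) (nat_lit 600157590) (nat_lit 36) (nat_lit 5) (nat_lit 39) (nat_lit 5) (nat_lit 40) (nat_lit 5) (nat_lit 343) (nat_lit 267) (nat_lit 170)) (XT.nd (nat_lit 78) (nat_lit 0) (nat_lit 0) (XT.lf (nat_lit 0) (nat_lit 2716071147) (nat_lit 304) (nat_lit 13633515993) (nat_lit 76) (nat_lit 5606655042) (nat_lit 35) (nat_lit 5) (nat_lit 39) (nat_lit 5) (nat_lit 36) (nat_lit 5) (nat_lit 344) (nat_lit 267) (nat_lit 169)) (XT.lf (nat_lit 0) (nat_lit 6104240646) (nat_lit 304) (nat_lit 5613921613) (nat_lit 76) (nat_lit 10735511131) (nat_lit 35) (nat_lit 5) (nat_lit 39) (nat_lit 5) (nat_lit 36) (nat_lit 5) (nat_lit 345) (nat_lit 267) (nat_lit 168)))) (XT.nd (nat_lit 78) (nat_lit 0) (nat_lit 0) (XT.lf (nat_lit 0) (nat_lit 2674528149) (nat_lit 152) (nat_lit 6930203730) (nat_lit 228) (nat_lit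 13360990201) (nat_lit 33) (nat_lit 5) (nat_lit 35) (nat_lit 5) (nat_lit 36) (nat_lit 5) (nat_lit 346) (nat_lit 267) (nat_lit 167)) (XT.nd (nat_lit 78) (nat_lit 0) (nat_lit 0) (XT.lf (nat_lit 0) (nat_lit 11303023698) (nat_lit 152) (nat_lit 1949081342) (nat_lit 228) (nat_lit 10239785590) (nat_lit 33) (nat_lit 5) (nat_lit 35) (nat_lit 5) (nat_lit 36) (nat_lit 5) (nat_lit 347) (nat_lit 267) (nat_lit 166)) (XT.lf (nat_lit 0) (nat_lit 17025008253) (nat_lit 228) (nat_lit 3897413049) (nat_lit 76) (nat_lit 3110953662) (nat_lit 33) (nat_lit 5) (nat_lit 36) (nat_lit 5) (nat_lit 34) (nat_lit 5) (nat_lit 348) (nat_lit 267) (nat_lit 165))))) (XT.nd (nat_lit 234) (nat_lit 152) (nat_lit 0) (XT.nd (nat_lit 78) (nat_lit 76) (nat_lit 0) (XT.lf (nat_lit 0) (nat_lit 4692371445) (nat_lit 152) (nat_lit 16269079028) (nat_lit 228) (nat_lit 3628156384) (nat_lit 31) (nat_lit 5) (nat_lit 33) (nat_lit 5) (nat_lit 34) (nat_lit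 5) (nat_lit 349) (nat_lit 267) (nat_lit 164)) (XT.nd (nat_lit 78) (nat_lit 76) (nat_lit 0) (XT.lf (nat_lit 0) (nat_lit 13597284738) (nat_lit 152) (nat_lit 11444198982) (nat_lit 228) (nat_lit 120290245) (nat_lit 31) (nat_lit 5) (nat_lit 33) (nat_lit 5) (nat_lit 34) (nat_lit 5) (nat_lit 350) (nat_lit 267) (nat_lit 163)) (XT.lf (nat_lit 0) (nat_lit 3411053940) (nat_lit 228) (nat_lit 3037422583) (nat_lit 76) (nat_lit 19302042763) (nat_lit 30) (nat_lit 5) (nat_lit 33) (nat_lit 5) (nat_lit 31) (nat_lit 5) (nat_lit 351) (nat_lit 267) (nat_lit 162)))) (XT.nd (nat_lit 78) (nat_lit 0) (nat_lit 0) (XT.lf (nat_lit 0) (nat_lit 5836716861) (nat_lit 152) (nat_lit 1252105503) (nat_lit 228) (nat_lit 19266793896) (nat_lit 28) (nat_lit 5) (nat_lit 30) (nat_lit 5) (nat_lit 31) (nat_lit 5) (nat_lit 352) (nat_lit 267) (nat_lit 161)) (XT.nd (nat_lit 78) (nat_lit 0) (nat_lit 0) (XT.lf (nat_lit 0) (nat_lit 10934209864)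 (nat_lit 228) (nat_lit 11999875074) (nat_lit 76) (nat_lit 4043074344) (nat_lit 28) (nat_lit 5) (nat_lit 31) (nat_lit 5) (nat_lit 29) (nat_lit 5) (nat_lit 353) (nat_lit 267) (nat_lit 160)) (XT.lf (nat_lit 0) (nat_lit 14894634820) (nat_lit 228) (nat_lit 3258606102) (nat_lit 76) (nat_lit 9464128776) (nat_lit 28) (nat_lit 5) (nat_lit 31) (nat_lit 5) (nat_lit 29) (nat_lit 5) (nat_lit 354) (nat_lit 267) (nat_lit 159))))))) (XT.nd (nat_lit 936) (nat_lit 456) (nat_lit 0) (XT.nd (nat_lit 468) (nat_lit 304) (nat_lit 0) (XT.nd (nat_lit 234) (nat_lit 228) (nat_lit 0) (XT.nd (nat_lit 78) (nat_lit 0) (nat_lit 0) (XT.lf (nat_lit 0) (nat_lit 5838511918) (nat_lit 152) (nat_lit 13179133225) (nat_lit 228) (nat_lit 9257839152) (nat_lit 26) (nat_lit 5) (nat_lit 28) (nat_lit 5) (nat_lit 29) (nat_lit 5) (nat_lit 355) (nat_lit 267) (nat_lit 158)) (XT.nd (nat_lit 78) (nat_lit 0) (nat_lit 0) (XT.lf (nat_lit 0) (nat_lit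 15255221504) (nat_lit 152) (nat_lit 8029845398) (nat_lit 228) (nat_lit 5667664521) (nat_lit 26) (nat_lit 5) (nat_lit 28) (nat_lit 5) (nat_lit 29) (nat_lit 5) (nat_lit 356) (nat_lit 267) (nat_lit 157)) (XT.lf (nat_lit 0) (nat_lit 24934898196) (nat_lit 152) (nat_lit 2733783595) (nat_lit 228) (nat_lit 1981979471) (nat_lit 26) (nat_lit 5) (nat_lit 28) (nat_lit 5) (nat_lit 29) (nat_lit 5) (nat_lit 357) (nat_lit 267) (nat_lit 156)))) (XT.nd (nat_lit 78) (nat_lit 0) (nat_lit 0) (XT.lf (nat_lit 0) (nat_lit 1838064044) (nat_lit 228) (nat_lit 25806409552) (nat_lit 76) (nat_lit 2722766287) (nat_lit 23) (nat_lit 5) (nat_lit 26) (nat_lit 5) (nat_lit 24) (nat_lit 5) (nat_lit 358) (nat_lit 267) (nat_lit 155)) (XT.nd (nat_lit 78) (nat_lit 0) (nat_lit 0) (XT.lf (nat_lit 0) (nat_lit 5796505641) (nat_lit 228) (nat_lit 16957957614) (nat_lit 76) (nat_lit 8348364452) (nat_lit 23) (nat_lit 5) (nat_lit 26) (nat_lit 5)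 (nat_lit 24) (nat_lit 5) (nat_lit 359) (nat_lit 267) (nat_lit 154)) (XT.lf (nat_lit 0) (nat_lit 9862510188) (nat_lit 228) (nat_lit 7862788228) (nat_lit 76) (nat_lit 14135529713) (nat_lit 23) (nat_lit 5) (nat_lit 26) (nat_lit 5) (nat_lit 24) (nat_lit 5) (nat_lit 360) (nat_lit 267) (nat_lit 153))))) (XT.nd (nat_lit 234) (nat_lit 152) (nat_lit 0) (XT.nd (nat_lit 78) (nat_lit 0) (nat_lit 0) (XT.lf (nat_lit 0) (nat_lit 1516640971) (nat_lit 152) (nat_lit 12537568412) (nat_lit 228) (nat_lit 18587256726) (nat_lit 21) (nat_lit 5) (nat_lit 23) (nat_lit 5) (nat_lit 24) (nat_lit 5) (nat_lit 361) (nat_lit 267) (nat_lit 152)) (XT.nd (nat_lit 78) (nat_lit 0) (nat_lit 0) (XT.lf (nat_lit 0) (nat_lit 11320620437) (nat_lit 152) (nat_lit 7119716788) (nat_lit 228) (nat_lit 15003134393) (nat_lit 21) (nat_lit 5) (nat_lit 23) (nat_lit 5) (nat_lit 24) (nat_lit 5) (nat_lit 362) (nat_lit 267) (nat_lit 151)) (XT.lf (nat_lit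 0) (nat_lit 21401231850) (nat_lit 152) (nat_lit 1546408244) (nat_lit 228) (nat_lit 11322217931) (nat_lit 21) (nat_lit 5) (nat_lit 23) (nat_lit 5) (nat_lit 24) (nat_lit 5) (nat_lit 363) (nat_lit 267) (nat_lit 150)))) (XT.nd (nat_lit 78) (nat_lit 152) (nat_lit 0) (XT.lf (nat_lit 0) (nat_lit 27620306598) (nat_lit 228) (nat_lit 3394314089) (nat_lit 76) (nat_lit 4105519219) (nat_lit 21) (nat_lit 5) (nat_lit 24) (nat_lit 5) (nat_lit 22) (nat_lit 4) (nat_lit 364) (nat_lit 267) (nat_lit 149)) (XT.nd (nat_lit 78) (nat_lit 76) (nat_lit 0) (XT.lf (nat_lit 0) (nat_lit 6458217707) (nat_lit 76) (nat_lit 26042451264) (nat_lit 152) (nat_lit 3493243779) (nat_lit 20) (nat_lit 5) (nat_lit 21) (nat_lit 5) (nat_lit 22) (nat_lit 4) (nat_lit 365) (nat_lit 267) (nat_lit 148)) (XT.lf (nat_lit 0) (nat_lit 645944934) (nat_lit 152) (nat_lit 20240155711) (nat_lit 76) (nat_lit 16006880028) (nat_lit 19) (nat_lit 5) (nat_lit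 21) (nat_lit 5) (nat_lit 20) (nat_lit 5) (nat_lit 366) (nat_lit 267) (nat_lit 147)))))) (XT.nd (nat_lit 468) (nat_lit 304) (nat_lit 0) (XT.nd (nat_lit 234) (nat_lit 0) (nat_lit 0) (XT.nd (nat_lit 78) (nat_lit 152) (nat_lit 0) (XT.lf (nat_lit 0) (nat_lit 4829534422) (nat_lit 152) (nat_lit 10716609982) (nat_lit 76) (nat_lit 22272132861) (nat_lit 19) (nat_lit 5) (nat_lit 21) (nat_lit 5) (nat_lit 20) (nat_lit 5) (nat_lit 367) (nat_lit 267) (nat_lit 146)) (XT.nd (nat_lit 78) (nat_lit 152) (nat_lit 0) (XT.lf (nat_lit 0) (nat_lit 9129346016) (nat_lit 152) (nat_lit 923157115) (nat_lit 76) (nat_lit 28719115282) (nat_lit 19) (nat_lit 5) (nat_lit 21) (nat_lit 5) (nat_lit 20) (nat_lit 5) (nat_lit 368) (nat_lit 267) (nat_lit 145)) (XT.lf (nat_lit 0) (nat_lit 9330838543) (nat_lit 152) (nat_lit 4307992018) (nat_lit 228) (nat_lit 26112315760) (nat_lit 17) (nat_lit 5) (nat_lit 19) (nat_lit 5) (nat_lit 20) (nat_lit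 5) (nat_lit 369) (nat_lit 267) (nat_lit 144)))) (XT.nd (nat_lit 78) (nat_lit 0) (nat_lit 0) (XT.lf (nat_lit 0) (nat_lit 18299520296) (nat_lit 228) (nat_lit 20879361962) (nat_lit 76) (nat_lit 1580706874) (nat_lit 17) (nat_lit 5) (nat_lit 20) (nat_lit 5) (nat_lit 18) (nat_lit 4) (nat_lit 370) (nat_lit 267) (nat_lit 143)) (XT.nd (nat_lit 78) (nat_lit 0) (nat_lit 0) (XT.lf (nat_lit 0) (nat_lit 23133986035) (nat_lit 228) (nat_lit 11109794414) (nat_lit 76) (nat_lit 7553492606) (nat_lit 17) (nat_lit 5) (nat_lit 20) (nat_lit 5) (nat_lit 18) (nat_lit 4) (nat_lit 371) (nat_lit 267) (nat_lit 142)) (XT.lf (nat_lit 0) (nat_lit 28105041014) (nat_lit 228) (nat_lit 1061657565) (nat_lit 76) (nat_lit 13699648559) (nat_lit 17) (nat_lit 5) (nat_lit 20) (nat_lit 5) (nat_lit 18) (nat_lit 4) (nat_lit 372) (nat_lit 267) (nat_lit 141))))) (XT.nd (nat_lit 234) (nat_lit 228) (nat_lit 0) (XT.nd (nat_lit 78) (nat_lit 0) (nat_lit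 0) (XT.lf (nat_lit 0) (nat_lit 9458395882) (nat_lit 76) (nat_lit 23849552880) (nat_lit 152) (nat_lit 10657069165) (nat_lit 16) (nat_lit 5) (nat_lit 17) (nat_lit 5) (nat_lit 18) (nat_lit 4) (nat_lit 373) (nat_lit 267) (nat_lit 140)) (XT.nd (nat_lit 78) (nat_lit 0) (nat_lit 0) (XT.lf (nat_lit 0) (nat_lit 20301857179) (nat_lit 76) (nat_lit 18367713093) (nat_lit 152) (nat_lit 6427005709) (nat_lit 16) (nat_lit 5) (nat_lit 17) (nat_lit 5) (nat_lit 18) (nat_lit 4) (nat_lit 374) (nat_lit 267) (nat_lit 139)) (XT.lf (nat_lit 0) (nat_lit 31457072127) (nat_lit 76) (nat_lit 12727109923) (nat_lit 152) (nat_lit 2078140245) (nat_lit 16) (nat_lit 5) (nat_lit 17) (nat_lit 5) (nat_lit 18) (nat_lit 4) (nat_lit 375) (nat_lit 267) (nat_lit 138)))) (XT.nd (nat_lit 78) (nat_lit 152) (nat_lit 0) (XT.lf (nat_lit 0) (nat_lit 2346624773) (nat_lit 152) (nat_lit 4552493604) (nat_lit 76) (nat_lit 40563466918) (nat_lit 15) (nat_lit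 5) (nat_lit 17) (nat_lit 5) (nat_lit 16) (nat_lit 5) (nat_lit 376) (nat_lit 267) (nat_lit 137)) (XT.nd (nat_lit 78) (nat_lit 0) (nat_lit 0) (XT.lf (nat_lit 0) (nat_lit 6093244545) (nat_lit 152) (nat_lit 820205687) (nat_lit 228) (nat_lit 41783261380) (nat_lit 13) (nat_lit 5) (nat_lit 15) (nat_lit 5) (nat_lit 16) (nat_lit 5) (nat_lit 377) (nat_lit 267) (nat_lit 136)) (XT.lf (nat_lit 0) (nat_lit 11708566870) (nat_lit 228) (nat_lit 32880538919) (nat_lit 76) (nat_lit 5376022458) (nat_lit 13) (nat_lit 5) (nat_lit 16) (nat_lit 5) (nat_lit 14) (nat_lit 4) (nat_lit 378) (nat_lit 267) (nat_lit 135))))))))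
noncomputable def xc131 : XT := (XT.nd (nat_lit 32292) (nat_lit 0) (nat_lit 10412) (XT.nd (nat_lit 858) (nat_lit 76) (nat_lit 0) (XT.nd (nat_lit 390) (nat_lit 152) (nat_lit 0) (XT.nd (nat_lit 156) (nat_lit 76) (nat_lit 0) (XT.nd (nat_lit 78) (nat_lit 0) (nat_lit 0) (XT.lf (nat_lit 0) (nat_lit 16648431701) (nat_lit 228) (nat_lit 22886640608) (nat_lit 76) (nat_lit 11736503205) (nat_lit 13) (nat_lit 5) (nat_lit 16) (nat_lit 5) (nat_lit 14) (nat_lit 4) (nat_lit 379) (nat_lit 267) (nat_lit 134)) (XT.lf (nat_lit 0) (nat_lit 21729476791) (nat_lit 228) (nat_lit 12605155283) (nat_lit 76) (nat_lit 18282799424) (nat_lit 13) (nat_lit 5) (nat_lit 16) (nat_lit 5) (nat_lit 14) (nat_lit 4) (nat_lit 380) (nat_lit 267) (nat_lit 133))) (XT.nd (nat_lit 78) (nat_lit 76) (nat_lit 0) (XT.lf (nat_lit 0) (nat_lit 26956141890) (nat_lit 228) (nat_lit 2027099122) (nat_lit 76) (nat_lit 25020631178) (nat_lit 13) (nat_lit 5)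 (nat_lit 16) (nat_lit 5) (nat_lit 14) (nat_lit 4) (nat_lit 381) (nat_lit 267) (nat_lit 132)) (XT.nd (nat_lit 78) (nat_lit 0) (nat_lit 0) (XT.lf (nat_lit 0) (nat_lit 9033037943) (nat_lit 76) (nat_lit 23386787129) (nat_lit 152) (nat_lit 23009679038) (nat_lit 12) (nat_lit 5) (nat_lit 13) (nat_lit 5) (nat_lit 14) (nat_lit 4) (nat_lit 382) (nat_lit 267) (nat_lit 131)) (XT.lf (nat_lit 0) (nat_lit 20455117797) (nat_lit 76) (nat_lit 17606240608) (nat_lit 152) (nat_lit 18836132812) (nat_lit 12) (nat_lit 5) (nat_lit 13) (nat_lit 5) (nat_lit 14) (nat_lit 4) (nat_lit 383) (nat_lit 267) (nat_lit 130))))) (XT.nd (nat_lit 234) (nat_lit 152) (nat_lit 0) (XT.nd (nat_lit 78) (nat_lit 0) (nat_lit 0) (XT.lf (nat_lit 0) (nat_lit 32208777650) (nat_lit 76) (nat_lit 11657020211) (nat_lit 152) (nat_lit 14543914561) (nat_lit 12) (nat_lit 5) (nat_lit 13) (nat_lit 5) (nat_lit 14) (nat_lit 4) (nat_lit 384) (nat_lit 267) (nat_lit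 129)) (XT.nd (nat_lit 78) (nat_lit 0) (nat_lit 0) (XT.lf (nat_lit 0) (nat_lit 44304287690) (nat_lit 76) (nat_lit 5533927592) (nat_lit 152) (nat_lit 10129273804) (nat_lit 12) (nat_lit 5) (nat_lit 13) (nat_lit 5) (nat_lit 14) (nat_lit 4) (nat_lit 385) (nat_lit 267) (nat_lit 128)) (XT.lf (nat_lit 0) (nat_lit 55991215496) (nat_lit 152) (nat_lit 4827351772) (nat_lit 0) (nat_lit 753393517) (nat_lit 12) (nat_lit 5) (nat_lit 14) (nat_lit 4) (nat_lit 12) (nat_lit 4) (nat_lit 386) (nat_lit 267) (nat_lit 127)))) (XT.nd (nat_lit 78) (nat_lit 76) (nat_lit 0) (XT.lf (nat_lit 0) (nat_lit 6393259268) (nat_lit 76) (nat_lit 56045950125) (nat_lit 76) (nat_lit 782049058) (nat_lit 11) (nat_lit 4) (nat_lit 12) (nat_lit 5) (nat_lit 12) (nat_lit 4) (nat_lit 387) (nat_lit 267) (nat_lit 126)) (XT.nd (nat_lit 78) (nat_lit 0) (nat_lit 0) (XT.lf (nat_lit 0) (nat_lit 4122816928) (nat_lit 152) (nat_lit 46919902206) (nat_lit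 76) (nat_lit 13874817865) (nat_lit 10) (nat_lit 5) (nat_lit 12) (nat_lit 5) (nat_lit 11) (nat_lit 4) (nat_lit 388) (nat_lit 267) (nat_lit 125)) (XT.lf (nat_lit 0) (nat_lit 9153448237) (nat_lit 152) (nat_lit 36732302689) (nat_lit 76) (nat_lit 20778894144) (nat_lit 10) (nat_lit 5) (nat_lit 12) (nat_lit 5) (nat_lit 11) (nat_lit 4) (nat_lit 389) (nat_lit 267) (nat_lit 124)))))) (XT.nd (nat_lit 468) (nat_lit 0) (nat_lit 0) (XT.nd (nat_lit 234) (nat_lit 76) (nat_lit 0) (XT.nd (nat_lit 78) (nat_lit 0) (nat_lit 0) (XT.lf (nat_lit 0) (nat_lit 14329501161) (nat_lit 152) (nat_lit 26248781314) (nat_lit 76) (nat_lit 27886052317) (nat_lit 10) (nat_lit 5) (nat_lit 12) (nat_lit 5) (nat_lit 11) (nat_lit 4) (nat_lit 390) (nat_lit 267) (nat_lit 123)) (XT.nd (nat_lit 78) (nat_lit 0) (nat_lit 0) (XT.lf (nat_lit 0) (nat_lit 19655498464) (nat_lit 152) (nat_lit 15460177721) (nat_lit 76) (nat_lit 35202502524) (nat_lit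 10) (nat_lit 5) (nat_lit 12) (nat_lit 5) (nat_lit 11) (nat_lit 4) (nat_lit 391) (nat_lit 267) (nat_lit 122)) (XT.lf (nat_lit 0) (nat_lit 25136093930) (nat_lit 152) (nat_lit 4357064976) (nat_lit 76) (nat_lit 42734637778) (nat_lit 10) (nat_lit 5) (nat_lit 12) (nat_lit 5) (nat_lit 11) (nat_lit 4) (nat_lit 392) (nat_lit 267) (nat_lit 121)))) (XT.nd (nat_lit 78) (nat_lit 0) (nat_lit 0) (XT.lf (nat_lit 0) (nat_lit 7210970680) (nat_lit 76) (nat_lit 23634422009) (nat_lit 152) (nat_lit 43347385138) (nat_lit 9) (nat_lit 5) (nat_lit 10) (nat_lit 5) (nat_lit 11) (nat_lit 4) (nat_lit 393) (nat_lit 267) (nat_lit 120)) (XT.nd (nat_lit 78) (nat_lit 0) (nat_lit 0) (XT.lf (nat_lit 0) (nat_lit 19206567570) (nat_lit 76) (nat_lit 17558431806) (nat_lit 152) (nat_lit 39450541258) (nat_lit 9) (nat_lit 5) (nat_lit 10) (nat_lit 5) (nat_lit 11) (nat_lit 4) (nat_lit 394) (nat_lit 267) (nat_lit 119)) (XT.lf (nat_lit 0) (nat_lit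 31553493146) (nat_lit 76) (nat_lit 11303876993) (nat_lit 152) (nat_lit 35441763920) (nat_lit 9) (nat_lit 5) (nat_lit 10) (nat_lit 5) (nat_lit 11) (nat_lit 4) (nat_lit 395) (nat_lit 267) (nat_lit 118))))) (XT.nd (nat_lit 30732) (nat_lit 0) (nat_lit 18620) (XT.nd (nat_lit 78) (nat_lit 0) (nat_lit 0) (XT.lf (nat_lit 0) (nat_lit 44262535983) (nat_lit 76) (nat_lit 4865292426) (nat_lit 152) (nat_lit 31317550307) (nat_lit 9) (nat_lit 5) (nat_lit 10) (nat_lit 5) (nat_lit 11) (nat_lit 4) (nat_lit 396) (nat_lit 267) (nat_lit 117)) (XT.nd (nat_lit 30576) (nat_lit 0) (nat_lit 19152) (XT.lf (nat_lit 0) (nat_lit 55598799760) (nat_lit 152) (nat_lit 25328295428) (nat_lit 0) (nat_lit 1728546382) (nat_lit 9) (nat_lit 5) (nat_lit 11) (nat_lit 4) (nat_lit 9) (nat_lit 4) (nat_lit 397) (nat_lit 267) (nat_lit 116)) (XT.lf (nat_lit 0) (nat_lit 3045452325) (nat_lit 532) (nat_lit 158765610) (nat_lit 532) (nat_lit 158765610)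 (nat_lit 261) (nat_lit 3) (nat_lit 268) (nat_lit 3) (nat_lit 268) (nat_lit 5) (nat_lit 268) (nat_lit 268) (nat_lit 244)))) (XT.nd (nat_lit 78) (nat_lit 0) (nat_lit 0) (XT.lf (nat_lit 0) (nat_lit 1345253566) (nat_lit 532) (nat_lit 4066170390) (nat_lit 608) (nat_lit 1350860599) (nat_lit 254) (nat_lit 5) (nat_lit 261) (nat_lit 3) (nat_lit 262) (nat_lit 5) (nat_lit 269) (nat_lit 268) (nat_lit 243)) (XT.nd (nat_lit 78) (nat_lit 0) (nat_lit 0) (XT.lf (nat_lit 0) (nat_lit 3298928229) (nat_lit 532) (nat_lit 1040572805) (nat_lit 608) (nat_lit 2462412786) (nat_lit 254) (nat_lit 5) (nat_lit 261) (nat_lit 3) (nat_lit 262) (nat_lit 5) (nat_lit 270) (nat_lit 268) (nat_lit 242)) (XT.lf (nat_lit 76) (nat_lit 2076174350) (nat_lit 0) (nat_lit 3180700229) (nat_lit 608) (nat_lit 1587693665) (nat_lit 255) (nat_lit 5) (nat_lit 254) (nat_lit 5) (nat_lit 262) (nat_lit 5) (nat_lit 271) (nat_lit 268) (nat_lit 241)))))))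 (XT.nd (nat_lit 936) (nat_lit 5624) (nat_lit 0) (XT.nd (nat_lit 468) (nat_lit 1368) (nat_lit 0) (XT.nd (nat_lit 234) (nat_lit 608) (nat_lit 0) (XT.nd (nat_lit 78) (nat_lit 0) (nat_lit 0) (XT.lf (nat_lit 0) (nat_lit 314726734) (nat_lit 608) (nat_lit 1625632069) (nat_lit 684) (nat_lit 4950111242) (nat_lit 246) (nat_lit 5) (nat_lit 254) (nat_lit 5) (nat_lit 255) (nat_lit 5) (nat_lit 272) (nat_lit 268) (nat_lit 240)) (XT.nd (nat_lit 78) (nat_lit 0) (nat_lit 76) (XT.lf (nat_lit 76) (nat_lit 1586461911) (nat_lit 0) (nat_lit 599807275) (nat_lit 684) (nat_lit 4752877939) (nat_lit 247) (nat_lit 5) (nat_lit 246) (nat_lit 5) (nat_lit 255) (nat_lit 5) (nat_lit 273) (nat_lit 268) (nat_lit 239)) (XT.lf (nat_lit 0) (nat_lit 4068734014) (nat_lit 608) (nat_lit 2110571093) (nat_lit 684) (nat_lit 811519267) (nat_lit 247) (nat_lit 5) (nat_lit 255) (nat_lit 5) (nat_lit 256) (nat_lit 5) (nat_lit 274) (nat_lit 268) (nat_lit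 238)))) (XT.nd (nat_lit 78) (nat_lit 684) (nat_lit 0) (XT.lf (nat_lit 76) (nat_lit 1205268430) (nat_lit 0) (nat_lit 4752638334) (nat_lit 684) (nat_lit 1087815962) (nat_lit 248) (nat_lit 5) (nat_lit 247) (nat_lit 5) (nat_lit 256) (nat_lit 5) (nat_lit 275) (nat_lit 268) (nat_lit 237)) (XT.nd (nat_lit 78) (nat_lit 0) (nat_lit 0) (XT.lf (nat_lit 0) (nat_lit 740828502) (nat_lit 684) (nat_lit 2487903523) (nat_lit 760) (nat_lit 3874823019) (nat_lit 238) (nat_lit 5) (nat_lit 247) (nat_lit 5) (nat_lit 248) (nat_lit 5) (nat_lit 276) (nat_lit 268) (nat_lit 236)) (XT.lf (nat_lit 76) (nat_lit 931655353) (nat_lit 0) (nat_lit 1615164760) (nat_lit 760) (nat_lit 4617811266) (nat_lit 239) (nat_lit 5) (nat_lit 238) (nat_lit 5) (nat_lit 248) (nat_lit 5) (nat_lit 277) (nat_lit 268) (nat_lit 235))))) (XT.nd (nat_lit 234) (nat_lit 684) (nat_lit 0) (XT.nd (nat_lit 78) (nat_lit 760) (nat_lit 0) (XT.lf (nat_lit 0) (nat_lit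 4369917570) (nat_lit 684) (nat_lit 2765528586) (nat_lit 760) (nat_lit 93364043) (nat_lit 239) (nat_lit 5) (nat_lit 248) (nat_lit 5) (nat_lit 249) (nat_lit 5) (nat_lit 278) (nat_lit 268) (nat_lit 234)) (XT.nd (nat_lit 78) (nat_lit 760) (nat_lit 0) (XT.lf (nat_lit 76) (nat_lit 763248006) (nat_lit 0) (nat_lit 5446724837) (nat_lit 760) (nat_lit 1086226971) (nat_lit 240) (nat_lit 5) (nat_lit 239) (nat_lit 5) (nat_lit 249) (nat_lit 5) (nat_lit 279) (nat_lit 268) (nat_lit 233)) (XT.lf (nat_lit 0) (nat_lit 692971023) (nat_lit 760) (nat_lit 2960116427) (nat_lit 836) (nat_lit 3713421399) (nat_lit 229) (nat_lit 5) (nat_lit 239) (nat_lit 5) (nat_lit 240) (nat_lit 5) (nat_lit 280) (nat_lit 268) (nat_lit 232)))) (XT.nd (nat_lit 78) (nat_lit 684) (nat_lit 0) (XT.lf (nat_lit 76) (nat_lit 681144310) (nat_lit 0) (nat_lit 1770457958) (nat_lit 836) (nat_lit 4988705925) (nat_lit 230) (nat_lit 5) (nat_lit 229) (nat_lit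 5) (nat_lit 240) (nat_lit 5) (nat_lit 281) (nat_lit 268) (nat_lit 231)) (XT.nd (nat_lit 78) (nat_lit 760) (nat_lit 0) (XT.lf (nat_lit 0) (nat_lit 4237616320) (nat_lit 760) (nat_lit 3067925933) (nat_lit 76) (nat_lit 211676820) (nat_lit 230) (nat_lit 5) (nat_lit 240) (nat_lit 5) (nat_lit 231) (nat_lit 5) (nat_lit 282) (nat_lit 268) (nat_lit 230)) (XT.lf (nat_lit 0) (nat_lit 688294283) (nat_lit 760) (nat_lit 5357543047) (nat_lit 836) (nat_lit 1551673458) (nat_lit 220) (nat_lit 5) (nat_lit 230) (nat_lit 5) (nat_lit 231) (nat_lit 5) (nat_lit 283) (nat_lit 268) (nat_lit 229)))))) (XT.nd (nat_lit 468) (nat_lit 2736) (nat_lit 0) (XT.nd (nat_lit 234) (nat_lit 1976) (nat_lit 0) (XT.nd (nat_lit 78) (nat_lit 836) (nat_lit 0) (XT.lf (nat_lit 0) (nat_lit 199967504) (nat_lit 836) (nat_lit 3104157431) (nat_lit 76) (nat_lit 4376855509) (nat_lit 219) (nat_lit 5) (nat_lit 230) (nat_lit 5) (nat_lit 220) (nat_lit 5)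 (nat_lit 284) (nat_lit 268) (nat_lit 228)) (XT.nd (nat_lit 78) (nat_lit 0) (nat_lit 0) (XT.lf (nat_lit 0) (nat_lit 773555208) (nat_lit 836) (nat_lit 1153490057) (nat_lit 912) (nat_lit 5840946868) (nat_lit 208) (nat_lit 5) (nat_lit 219) (nat_lit 5) (nat_lit 220) (nat_lit 5) (nat_lit 285) (nat_lit 268) (nat_lit 227)) (XT.lf (nat_lit 0) (nat_lit 3695706866) (nat_lit 912) (nat_lit 3078576702) (nat_lit 76) (nat_lit 1083755011) (nat_lit 208) (nat_lit 5) (nat_lit 220) (nat_lit 5) (nat_lit 209) (nat_lit 5) (nat_lit 286) (nat_lit 268) (nat_lit 226)))) (XT.nd (nat_lit 78) (nat_lit 1064) (nat_lit 0) (XT.lf (nat_lit 0) (nat_lit 919912152) (nat_lit 912) (nat_lit 4567206684) (nat_lit 988) (nat_lit 2464690990) (nat_lit 196) (nat_lit 5) (nat_lit 208) (nat_lit 5) (nat_lit 209) (nat_lit 5) (nat_lit 287) (nat_lit 268) (nat_lit 225)) (XT.nd (nat_lit 78) (nat_lit 1064) (nat_lit 0) (XT.lf (nat_lit 0) (nat_lit 5060491856)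 (nat_lit 912) (nat_lit 2253375126) (nat_lit 988) (nat_lit 735190220) (nat_lit 196) (nat_lit 5) (nat_lit 208) (nat_lit 5) (nat_lit 209) (nat_lit 5) (nat_lit 288) (nat_lit 268) (nat_lit 224)) (XT.lf (nat_lit 0) (nat_lit 989710062) (nat_lit 1064) (nat_lit 7004132272) (nat_lit 76) (nat_lit 156264519) (nat_lit 182) (nat_lit 5) (nat_lit 196) (nat_lit 5) (nat_lit 183) (nat_lit 5) (nat_lit 289) (nat_lit 268) (nat_lit 223))))) (XT.nd (nat_lit 234) (nat_lit 1672) (nat_lit 0) (XT.nd (nat_lit 78) (nat_lit 1064) (nat_lit 0) (XT.lf (nat_lit 0) (nat_lit 2756831864) (nat_lit 1064) (nat_lit 2859406298) (nat_lit 76) (nat_lit 2637675325) (nat_lit 182) (nat_lit 5) (nat_lit 196) (nat_lit 5) (nat_lit 183) (nat_lit 5) (nat_lit 290) (nat_lit 268) (nat_lit 222)) (XT.nd (nat_lit 78) (nat_lit 0) (nat_lit 0) (XT.lf (nat_lit 0) (nat_lit 1396080243) (nat_lit 1064) (nat_lit 3148154639) (nat_lit 1140) (nat_lit 3817679857) (nat_lit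 168) (nat_lit 5) (nat_lit 182) (nat_lit 5) (nat_lit 183) (nat_lit 5) (nat_lit 291) (nat_lit 268) (nat_lit 221)) (XT.lf (nat_lit 0) (nat_lit 5797422876) (nat_lit 1064) (nat_lit 571514767) (nat_lit 1140) (nat_lit 2104803636) (nat_lit 168) (nat_lit 5) (nat_lit 182) (nat_lit 5) (nat_lit 183) (nat_lit 5) (nat_lit 292) (nat_lit 268) (nat_lit 220)))) (XT.nd (nat_lit 78) (nat_lit 608) (nat_lit 0) (XT.lf (nat_lit 0) (nat_lit 1714624231) (nat_lit 1064) (nat_lit 6526421020) (nat_lit 1140) (nat_lit 348190246) (nat_lit 154) (nat_lit 5) (nat_lit 168) (nat_lit 5) (nat_lit 169) (nat_lit 5) (nat_lit 293) (nat_lit 268) (nat_lit 219)) (XT.nd (nat_lit 78) (nat_lit 532) (nat_lit 0) (XT.lf (nat_lit 0) (nat_lit 1422101550) (nat_lit 1140) (nat_lit 2476451349) (nat_lit 76) (nat_lit 4809623003) (nat_lit 153) (nat_lit 5) (nat_lit 168) (nat_lit 5) (nat_lit 154) (nat_lit 5) (nat_lit 294) (nat_lit 268) (nat_lit 218)) (XT.lf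 (nat_lit 0) (nat_lit 2050160211) (nat_lit 532) (nat_lit 1165856867) (nat_lit 608) (nat_lit 5615323541) (nat_lit 146) (nat_lit 5) (nat_lit 153) (nat_lit 5) (nat_lit 154) (nat_lit 5) (nat_lit 295) (nat_lit 268) (nat_lit 217))))))))
noncomputable def xc132 : XT := (XT.nd (nat_lit 1794) (nat_lit 3040) (nat_lit 0) (XT.nd (nat_lit 858) (nat_lit 2432) (nat_lit 0) (XT.nd (nat_lit 390) (nat_lit 1520) (nat_lit 0) (XT.nd (nat_lit 156) (nat_lit 608) (nat_lit 0) (XT.nd (nat_lit 78) (nat_lit 532) (nat_lit 0) (XT.lf (nat_lit 0) (nat_lit 5063524250) (nat_lit 608) (nat_lit 2251210309) (nat_lit 76) (nat_lit 1643554941) (nat_lit 146) (nat_lit 5) (nat_lit 154) (nat_lit 5) (nat_lit 147) (nat_lit 5) (nat_lit 296) (nat_lit 268) (nat_lit 216)) (XT.lf (nat_lit 0) (nat_lit 2410346283) (nat_lit 532) (nat_lit 4550696816) (nat_lit 608) (nat_lit 2128246199) (nat_lit 139) (nat_lit 5) (nat_lit 146) (nat_lit 5) (nat_lit 147) (nat_lit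 5) (nat_lit 297) (nat_lit 268) (nat_lit 215))) (XT.nd (nat_lit 78) (nat_lit 608) (nat_lit 0) (XT.lf (nat_lit 0) (nat_lit 7218483404) (nat_lit 532) (nat_lit 1680400385) (nat_lit 608) (nat_lit 325911129) (nat_lit 139) (nat_lit 5) (nat_lit 146) (nat_lit 5) (nat_lit 147) (nat_lit 5) (nat_lit 298) (nat_lit 268) (nat_lit 214)) (XT.nd (nat_lit 78) (nat_lit 0) (nat_lit 0) (XT.lf (nat_lit 0) (nat_lit 1501646800) (nat_lit 608) (nat_lit 6569558938) (nat_lit 76) (nat_lit 1292761312) (nat_lit 131) (nat_lit 5) (nat_lit 139) (nat_lit 5) (nat_lit 132) (nat_lit 5) (nat_lit 299) (nat_lit 268) (nat_lit 213)) (XT.lf (nat_lit 0) (nat_lit 3376681341) (nat_lit 608) (nat_lit 1786419358) (nat_lit 76) (nat_lit 4344211950) (nat_lit 131) (nat_lit 5) (nat_lit 139) (nat_lit 5) (nat_lit 132) (nat_lit 5) (nat_lit 300) (nat_lit 268) (nat_lit 212))))) (XT.nd (nat_lit 234) (nat_lit 532) (nat_lit 0) (XT.nd (nat_lit 78) (nat_lit 456)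 (nat_lit 0) (XT.lf (nat_lit 0) (nat_lit 3163177755) (nat_lit 532) (nat_lit 2138401710) (nat_lit 608) (nat_lit 4353639824) (nat_lit 124) (nat_lit 5) (nat_lit 131) (nat_lit 5) (nat_lit 132) (nat_lit 5) (nat_lit 301) (nat_lit 268) (nat_lit 211)) (XT.nd (nat_lit 78) (nat_lit 456) (nat_lit 0) (XT.lf (nat_lit 0) (nat_lit 7275721209) (nat_lit 608) (nat_lit 1558219197) (nat_lit 76) (nat_lit 973944858) (nat_lit 124) (nat_lit 5) (nat_lit 132) (nat_lit 5) (nat_lit 125) (nat_lit 5) (nat_lit 302) (nat_lit 268) (nat_lit 210)) (XT.lf (nat_lit 0) (nat_lit 3533029015) (nat_lit 456) (nat_lit 5796130808) (nat_lit 532) (nat_lit 635434303) (nat_lit 118) (nat_lit 5) (nat_lit 124) (nat_lit 5) (nat_lit 125) (nat_lit 5) (nat_lit 303) (nat_lit 268) (nat_lit 209)))) (XT.nd (nat_lit 78) (nat_lit 456) (nat_lit 0) (XT.lf (nat_lit 0) (nat_lit 1273557490) (nat_lit 532) (nat_lit 1368139326) (nat_lit 76) (nat_lit 7484556159) (nat_lit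 117) (nat_lit 5) (nat_lit 124) (nat_lit 5) (nat_lit 118) (nat_lit 5) (nat_lit 304) (nat_lit 268) (nat_lit 208)) (XT.nd (nat_lit 78) (nat_lit 0) (nat_lit 0) (XT.lf (nat_lit 0) (nat_lit 3236773803) (nat_lit 532) (nat_lit 6419778508) (nat_lit 76) (nat_lit 635788304) (nat_lit 111) (nat_lit 5) (nat_lit 118) (nat_lit 5) (nat_lit 112) (nat_lit 5) (nat_lit 305) (nat_lit 268) (nat_lit 207)) (XT.lf (nat_lit 0) (nat_lit 5265787507) (nat_lit 532) (nat_lit 1229011925) (nat_lit 76) (nat_lit 3968462254) (nat_lit 111) (nat_lit 5) (nat_lit 118) (nat_lit 5) (nat_lit 112) (nat_lit 5) (nat_lit 306) (nat_lit 268) (nat_lit 206)))))) (XT.nd (nat_lit 468) (nat_lit 1140) (nat_lit 0) (XT.nd (nat_lit 234) (nat_lit 380) (nat_lit 0) (XT.nd (nat_lit 78) (nat_lit 532) (nat_lit 0) (XT.lf (nat_lit 0) (nat_lit 4161545164) (nat_lit 380) (nat_lit 3201890139) (nat_lit 456) (nat_lit 3275698317) (nat_lit 106) (nat_lit 5) (nat_lit 111)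 (nat_lit 5) (nat_lit 112) (nat_lit 5) (nat_lit 307) (nat_lit 268) (nat_lit 205)) (XT.nd (nat_lit 78) (nat_lit 532) (nat_lit 0) (XT.lf (nat_lit 0) (nat_lit 9506667210) (nat_lit 456) (nat_lit 1120574323) (nat_lit 76) (nat_lit 193615048) (nat_lit 106) (nat_lit 5) (nat_lit 112) (nat_lit 5) (nat_lit 107) (nat_lit 5) (nat_lit 308) (nat_lit 268) (nat_lit 204)) (XT.lf (nat_lit 0) (nat_lit 736123773) (nat_lit 532) (nat_lit 6599030994) (nat_lit 76) (nat_lit 3671412035) (nat_lit 99) (nat_lit 5) (nat_lit 106) (nat_lit 5) (nat_lit 100) (nat_lit 5) (nat_lit 309) (nat_lit 268) (nat_lit 203)))) (XT.nd (nat_lit 78) (nat_lit 380) (nat_lit 0) (XT.lf (nat_lit 0) (nat_lit 2802378227) (nat_lit 532) (nat_lit 1123103236) (nat_lit 76) (nat_lit 7272601022) (nat_lit 99) (nat_lit 5) (nat_lit 106) (nat_lit 5) (nat_lit 100) (nat_lit 5) (nat_lit 310) (nat_lit 268) (nat_lit 202)) (XT.nd (nat_lit 78) (nat_lit 0) (nat_lit 0) (XT.lf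 (nat_lit 0) (nat_lit 4570433132) (nat_lit 380) (nat_lit 374429896) (nat_lit 456) (nat_lit 6450101758) (nat_lit 94) (nat_lit 5) (nat_lit 99) (nat_lit 5) (nat_lit 100) (nat_lit 5) (nat_lit 311) (nat_lit 268) (nat_lit 201)) (XT.lf (nat_lit 0) (nat_lit 7165407000) (nat_lit 456) (nat_lit 1207651640) (nat_lit 76) (nat_lit 3224328395) (nat_lit 94) (nat_lit 5) (nat_lit 100) (nat_lit 5) (nat_lit 95) (nat_lit 5) (nat_lit 312) (nat_lit 268) (nat_lit 200))))) (XT.nd (nat_lit 234) (nat_lit 380) (nat_lit 0) (XT.nd (nat_lit 78) (nat_lit 380) (nat_lit 0) (XT.lf (nat_lit 0) (nat_lit 4629051718) (nat_lit 380) (nat_lit 4843342912) (nat_lit 456) (nat_lit 2332938152) (nat_lit 89) (nat_lit 5) (nat_lit 94) (nat_lit 5) (nat_lit 95) (nat_lit 5) (nat_lit 313) (nat_lit 268) (nat_lit 199)) (XT.nd (nat_lit 78) (nat_lit 380) (nat_lit 0) (XT.lf (nat_lit 0) (nat_lit 10630652682) (nat_lit 380) (nat_lit 1202247425) (nat_lit 456)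 (nat_lit 187131866) (nat_lit 89) (nat_lit 5) (nat_lit 94) (nat_lit 5) (nat_lit 95) (nat_lit 5) (nat_lit 314) (nat_lit 268) (nat_lit 198)) (XT.lf (nat_lit 0) (nat_lit 2025528828) (nat_lit 380) (nat_lit 7658124278) (nat_lit 76) (nat_lit 2555718691) (nat_lit 84) (nat_lit 5) (nat_lit 89) (nat_lit 5) (nat_lit 85) (nat_lit 5) (nat_lit 315) (nat_lit 268) (nat_lit 197)))) (XT.nd (nat_lit 78) (nat_lit 380) (nat_lit 0) (XT.lf (nat_lit 0) (nat_lit 4299894871) (nat_lit 380) (nat_lit 1754259341) (nat_lit 76) (nat_lit 6411149976) (nat_lit 84) (nat_lit 5) (nat_lit 89) (nat_lit 5) (nat_lit 85) (nat_lit 5) (nat_lit 316) (nat_lit 268) (nat_lit 196)) (XT.nd (nat_lit 78) (nat_lit 0) (nat_lit 0) (XT.lf (nat_lit 0) (nat_lit 4378207268) (nat_lit 380) (nat_lit 2280170959) (nat_lit 456) (nat_lit 6039199114) (nat_lit 79) (nat_lit 5) (nat_lit 84) (nat_lit 5) (nat_lit 85) (nat_lit 5) (nat_lit 317) (nat_lit 268) (nat_lit 195))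 (XT.lf (nat_lit 0) (nat_lit 9095118593) (nat_lit 456) (nat_lit 2255653479) (nat_lit 76) (nat_lit 1585859770) (nat_lit 79) (nat_lit 5) (nat_lit 85) (nat_lit 5) (nat_lit 80) (nat_lit 5) (nat_lit 318) (nat_lit 268) (nat_lit 194))))))) (XT.nd (nat_lit 936) (nat_lit 1216) (nat_lit 0) (XT.nd (nat_lit 468) (nat_lit 836) (nat_lit 0) (XT.nd (nat_lit 234) (nat_lit 304) (nat_lit 0) (XT.nd (nat_lit 78) (nat_lit 380) (nat_lit 0) (XT.lf (nat_lit 0) (nat_lit 4012342916) (nat_lit 304) (nat_lit 7628680545) (nat_lit 380) (nat_lit 1540789766) (nat_lit 75) (nat_lit 5) (nat_lit 79) (nat_lit 5) (nat_lit 80) (nat_lit 5) (nat_lit 319) (nat_lit 268) (nat_lit 193)) (XT.nd (nat_lit 78) (nat_lit 304) (nat_lit 0) (XT.lf (nat_lit 0) (nat_lit 810833494) (nat_lit 380) (nat_lit 2960798344) (nat_lit 76) (nat_lit 9662572529) (nat_lit 74) (nat_lit 5) (nat_lit 79) (nat_lit 5) (nat_lit 75) (nat_lit 5) (nat_lit 320) (nat_lit 268) (nat_lit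 192)) (XT.lf (nat_lit 0) (nat_lit 3213346376) (nat_lit 380) (nat_lit 10242112812) (nat_lit 76) (nat_lit 237945082) (nat_lit 70) (nat_lit 5) (nat_lit 75) (nat_lit 5) (nat_lit 71) (nat_lit 5) (nat_lit 321) (nat_lit 268) (nat_lit 191)))) (XT.nd (nat_lit 78) (nat_lit 304) (nat_lit 0) (XT.lf (nat_lit 0) (nat_lit 5731563638) (nat_lit 380) (nat_lit 3913610278) (nat_lit 76) (nat_lit 4313930361) (nat_lit 70) (nat_lit 5) (nat_lit 75) (nat_lit 5) (nat_lit 71) (nat_lit 5) (nat_lit 322) (nat_lit 268) (nat_lit 190)) (XT.nd (nat_lit 78) (nat_lit 0) (nat_lit 0) (XT.lf (nat_lit 0) (nat_lit 2623984148) (nat_lit 304) (nat_lit 5703354789) (nat_lit 380) (nat_lit 5905408020) (nat_lit 66) (nat_lit 5) (nat_lit 70) (nat_lit 5) (nat_lit 71) (nat_lit 5) (nat_lit 323) (nat_lit 268) (nat_lit 189)) (XT.lf (nat_lit 0) (nat_lit 9406278414) (nat_lit 304) (nat_lit 1611388854) (nat_lit 380) (nat_lit 3496462341) (nat_lit 66) (nat_lit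 5) (nat_lit 70) (nat_lit 5) (nat_lit 71) (nat_lit 5) (nat_lit 324) (nat_lit 268) (nat_lit 188))))) (XT.nd (nat_lit 234) (nat_lit 228) (nat_lit 0) (XT.nd (nat_lit 78) (nat_lit 304) (nat_lit 0) (XT.lf (nat_lit 0) (nat_lit 1562202706) (nat_lit 304) (nat_lit 12244287425) (nat_lit 380) (nat_lit 996960248) (nat_lit 62) (nat_lit 5) (nat_lit 66) (nat_lit 5) (nat_lit 67) (nat_lit 5) (nat_lit 325) (nat_lit 268) (nat_lit 187)) (XT.nd (nat_lit 78) (nat_lit 228) (nat_lit 0) (XT.lf (nat_lit 0) (nat_lit 1592635246) (nat_lit 380) (nat_lit 6625974848) (nat_lit 76) (nat_lit 6881037455) (nat_lit 61) (nat_lit 5) (nat_lit 66) (nat_lit 5) (nat_lit 62) (nat_lit 5) (nat_lit 326) (nat_lit 268) (nat_lit 186)) (XT.lf (nat_lit 0) (nat_lit 150227986) (nat_lit 228) (nat_lit 4069589275) (nat_lit 304) (nat_lit 11185246767) (nat_lit 58) (nat_lit 5) (nat_lit 61) (nat_lit 5) (nat_lit 62) (nat_lit 5) (nat_lit 327) (nat_lit 268) (nat_lit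 185)))) (XT.nd (nat_lit 78) (nat_lit 228) (nat_lit 0) (XT.lf (nat_lit 0) (nat_lit 6974086719) (nat_lit 304) (nat_lit 8485578556) (nat_lit 76) (nat_lit 258556380) (nat_lit 58) (nat_lit 5) (nat_lit 62) (nat_lit 5) (nat_lit 59) (nat_lit 5) (nat_lit 328) (nat_lit 268) (nat_lit 184)) (XT.nd (nat_lit 78) (nat_lit 228) (nat_lit 0) (XT.lf (nat_lit 0) (nat_lit 9830636571) (nat_lit 304) (nat_lit 1583500608) (nat_lit 76) (nat_lit 4626073296) (nat_lit 58) (nat_lit 5) (nat_lit 62) (nat_lit 5) (nat_lit 59) (nat_lit 5) (nat_lit 329) (nat_lit 268) (nat_lit 183)) (XT.lf (nat_lit 0) (nat_lit 5605940210) (nat_lit 228) (nat_lit 7200790966) (nat_lit 304) (nat_lit 3564137610) (nat_lit 55) (nat_lit 5) (nat_lit 58) (nat_lit 5) (nat_lit 59) (nat_lit 5) (nat_lit 330) (nat_lit 268) (nat_lit 182)))))) (XT.nd (nat_lit 468) (nat_lit 684) (nat_lit 0) (XT.nd (nat_lit 234) (nat_lit 228) (nat_lit 0) (XT.nd (nat_lit 78) (nat_lit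 304) (nat_lit 0) (XT.lf (nat_lit 0) (nat_lit 13014718122) (nat_lit 228) (nat_lit 2853648050) (nat_lit 304) (nat_lit 843217487) (nat_lit 55) (nat_lit 5) (nat_lit 58) (nat_lit 5) (nat_lit 59) (nat_lit 5) (nat_lit 331) (nat_lit 268) (nat_lit 181)) (XT.nd (nat_lit 78) (nat_lit 0) (nat_lit 0) (XT.lf (nat_lit 0) (nat_lit 1952445761) (nat_lit 304) (nat_lit 13471169313) (nat_lit 76) (nat_lit 1637422533) (nat_lit 51) (nat_lit 5) (nat_lit 55) (nat_lit 5) (nat_lit 52) (nat_lit 5) (nat_lit 332) (nat_lit 268) (nat_lit 180)) (XT.lf (nat_lit 0) (nat_lit 4861822114) (nat_lit 304) (nat_lit 6314447048) (nat_lit 76) (nat_lit 6243074275) (nat_lit 51) (nat_lit 5) (nat_lit 55) (nat_lit 5) (nat_lit 52) (nat_lit 5) (nat_lit 333) (nat_lit 268) (nat_lit 179)))) (XT.nd (nat_lit 78) (nat_lit 0) (nat_lit 0) (XT.lf (nat_lit 0) (nat_lit 1049687419) (nat_lit 228) (nat_lit 6800277134) (nat_lit 304) (nat_lit 9938711148) (nat_lit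 48) (nat_lit 5) (nat_lit 51) (nat_lit 5) (nat_lit 52) (nat_lit 5) (nat_lit 334) (nat_lit 268) (nat_lit 178)) (XT.nd (nat_lit 78) (nat_lit 0) (nat_lit 0) (XT.lf (nat_lit 0) (nat_lit 8736685529) (nat_lit 228) (nat_lit 2236501383) (nat_lit 304) (nat_lit 7194559117) (nat_lit 48) (nat_lit 5) (nat_lit 51) (nat_lit 5) (nat_lit 52) (nat_lit 5) (nat_lit 335) (nat_lit 268) (nat_lit 177)) (XT.lf (nat_lit 0) (nat_lit 14195913555) (nat_lit 304) (nat_lit 1954750318) (nat_lit 76) (nat_lit 2407370918) (nat_lit 48) (nat_lit 5) (nat_lit 52) (nat_lit 5) (nat_lit 49) (nat_lit 5) (nat_lit 336) (nat_lit 268) (nat_lit 176))))) (XT.nd (nat_lit 234) (nat_lit 152) (nat_lit 0) (XT.nd (nat_lit 78) (nat_lit 304) (nat_lit 0) (XT.lf (nat_lit 0) (nat_lit 5810716756) (nat_lit 228) (nat_lit 11765246081) (nat_lit 304) (nat_lit 1382270105) (nat_lit 45) (nat_lit 5) (nat_lit 48) (nat_lit 5) (nat_lit 49) (nat_lit 5) (nat_lit 337) (nat_lit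 268) (nat_lit 175)) (XT.nd (nat_lit 78) (nat_lit 228) (nat_lit 0) (XT.lf (nat_lit 0) (nat_lit 1656699443) (nat_lit 304) (nat_lit 5563519461) (nat_lit 76) (nat_lit 12149671198) (nat_lit 44) (nat_lit 5) (nat_lit 48) (nat_lit 5) (nat_lit 45) (nat_lit 5) (nat_lit 338) (nat_lit 268) (nat_lit 174)) (XT.lf (nat_lit 0) (nat_lit 2252556903) (nat_lit 228) (nat_lit 2511362831) (nat_lit 304) (nat_lit 15029439007) (nat_lit 41) (nat_lit 5) (nat_lit 44) (nat_lit 5) (nat_lit 45) (nat_lit 5) (nat_lit 339) (nat_lit 268) (nat_lit 173)))) (XT.nd (nat_lit 78) (nat_lit 152) (nat_lit 0) (XT.lf (nat_lit 0) (nat_lit 8026944666) (nat_lit 304) (nat_lit 9859607847) (nat_lit 76) (nat_lit 2341119014) (nat_lit 41) (nat_lit 5) (nat_lit 45) (nat_lit 5) (nat_lit 42) (nat_lit 5) (nat_lit 340) (nat_lit 268) (nat_lit 172)) (XT.nd (nat_lit 78) (nat_lit 152) (nat_lit 0) (XT.lf (nat_lit 0) (nat_lit 11396579273) (nat_lit 304) (nat_lit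 1997975298) (nat_lit 76) (nat_lit 7280214768) (nat_lit 41) (nat_lit 5) (nat_lit 45) (nat_lit 5) (nat_lit 42) (nat_lit 5) (nat_lit 341) (nat_lit 268) (nat_lit 171)) (XT.lf (nat_lit 0) (nat_lit 6196012470) (nat_lit 152) (nat_lit 8715174533) (nat_lit 228) (nat_lit 6222793269) (nat_lit 39) (nat_lit 5) (nat_lit 41) (nat_lit 5) (nat_lit 42) (nat_lit 5) (nat_lit 342) (nat_lit 268) (nat_lit 170))))))))
noncomputable def xc133 : XT := (XT.nd (nat_lit 1794) (nat_lit 836) (nat_lit 0) (XT.nd (nat_lit 858) (nat_lit 532) (nat_lit 0) (XT.nd (nat_lit 390) (nat_lit 380) (nat_lit 0) (XT.nd (nat_lit 156) (nat_lit 152) (nat_lit 0) (XT.nd (nat_lit 78) (nat_lit 304) (nat_lit 0) (XT.lf (nat_lit 0) (nat_lit 14652615350) (nat_lit 152) (nat_lit 3883341796) (nat_lit 228) (nat_lit 3070884885) (nat_lit 39) (nat_lit 5) (nat_lit 41) (nat_lit 5) (nat_lit 42) (nat_lit 5) (nat_lit 343) (nat_lit 268) (nat_lit 169)) (XT.lf (nat_lit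 0) (nat_lit 179746500) (nat_lit 304) (nat_lit 20836195244) (nat_lit 76) (nat_lit 1077684798) (nat_lit 35) (nat_lit 5) (nat_lit 39) (nat_lit 5) (nat_lit 36) (nat_lit 5) (nat_lit 344) (nat_lit 268) (nat_lit 168))) (XT.nd (nat_lit 78) (nat_lit 152) (nat_lit 0) (XT.lf (nat_lit 0) (nat_lit 3560510802) (nat_lit 304) (nat_lit 12828385162) (nat_lit 76) (nat_lit 6202391255) (nat_lit 35) (nat_lit 5) (nat_lit 39) (nat_lit 5) (nat_lit 36) (nat_lit 5) (nat_lit 345) (nat_lit 268) (nat_lit 167)) (XT.nd (nat_lit 78) (nat_lit 152) (nat_lit 0) (XT.lf (nat_lit 0) (nat_lit 7028103322) (nat_lit 304) (nat_lit 4603566143) (nat_lit 76) (nat_lit 11472660506) (nat_lit 35) (nat_lit 5) (nat_lit 39) (nat_lit 5) (nat_lit 36) (nat_lit 5) (nat_lit 346) (nat_lit 268) (nat_lit 166)) (XT.lf (nat_lit 0) (nat_lit 3921980512) (nat_lit 152) (nat_lit 6701273960) (nat_lit 228) (nat_lit 13008817603) (nat_lit 33) (nat_lit 5) (nat_lit 35)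 (nat_lit 5) (nat_lit 36) (nat_lit 5) (nat_lit 347) (nat_lit 268) (nat_lit 165))))) (XT.nd (nat_lit 234) (nat_lit 228) (nat_lit 0) (XT.nd (nat_lit 78) (nat_lit 152) (nat_lit 0) (XT.lf (nat_lit 0) (nat_lit 12775334330) (nat_lit 152) (nat_lit 1583441275) (nat_lit 228) (nat_lit 9815908958) (nat_lit 33) (nat_lit 5) (nat_lit 35) (nat_lit 5) (nat_lit 36) (nat_lit 5) (nat_lit 348) (nat_lit 268) (nat_lit 164)) (XT.nd (nat_lit 78) (nat_lit 152) (nat_lit 0) (XT.lf (nat_lit 0) (nat_lit 18228170387) (nat_lit 228) (nat_lit 2896756919) (nat_lit 76) (nat_lit 3608007072) (nat_lit 33) (nat_lit 5) (nat_lit 36) (nat_lit 5) (nat_lit 34) (nat_lit 5) (nat_lit 349) (nat_lit 268) (nat_lit 163)) (XT.lf (nat_lit 0) (nat_lit 5939764457) (nat_lit 152) (nat_lit 16333411607) (nat_lit 228) (nat_lit 3032982558) (nat_lit 31) (nat_lit 5) (nat_lit 33) (nat_lit 5) (nat_lit 34) (nat_lit 5) (nat_lit 350) (nat_lit 268) (nat_lit 162))))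 (XT.nd (nat_lit 78) (nat_lit 152) (nat_lit 0) (XT.lf (nat_lit 0) (nat_lit 548694082) (nat_lit 228) (nat_lit 10821892278) (nat_lit 76) (nat_lit 14525358627) (nat_lit 30) (nat_lit 5) (nat_lit 33) (nat_lit 5) (nat_lit 31) (nat_lit 5) (nat_lit 351) (nat_lit 268) (nat_lit 161)) (XT.nd (nat_lit 78) (nat_lit 152) (nat_lit 0) (XT.lf (nat_lit 0) (nat_lit 4164041209) (nat_lit 228) (nat_lit 2071903869) (nat_lit 76) (nat_lit 20266975296) (nat_lit 30) (nat_lit 5) (nat_lit 33) (nat_lit 5) (nat_lit 31) (nat_lit 5) (nat_lit 352) (nat_lit 268) (nat_lit 160)) (XT.lf (nat_lit 0) (nat_lit 7058100530) (nat_lit 152) (nat_lit 885148525) (nat_lit 228) (nat_lit 19183205335) (nat_lit 28) (nat_lit 5) (nat_lit 30) (nat_lit 5) (nat_lit 31) (nat_lit 5) (nat_lit 353) (nat_lit 268) (nat_lit 159)))))) (XT.nd (nat_lit 468) (nat_lit 152) (nat_lit 0) (XT.nd (nat_lit 234) (nat_lit 228) (nat_lit 0) (XT.nd (nat_lit 78) (nat_lit 152)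 (nat_lit 0) (XT.lf (nat_lit 0) (nat_lit 11889081320) (nat_lit 228) (nat_lit 11328585864) (nat_lit 76) (nat_lit 4549440845) (nat_lit 28) (nat_lit 5) (nat_lit 31) (nat_lit 5) (nat_lit 29) (nat_lit 5) (nat_lit 354) (nat_lit 268) (nat_lit 158)) (XT.nd (nat_lit 78) (nat_lit 152) (nat_lit 0) (XT.lf (nat_lit 0) (nat_lit 15950061399) (nat_lit 228) (nat_lit 2355116264) (nat_lit 76) (nat_lit 10121911154) (nat_lit 28) (nat_lit 5) (nat_lit 31) (nat_lit 5) (nat_lit 29) (nat_lit 5) (nat_lit 355) (nat_lit 268) (nat_lit 157)) (XT.lf (nat_lit 0) (nat_lit 7005099140) (nat_lit 152) (nat_lit 13183467291) (nat_lit 228) (nat_lit 8916642144) (nat_lit 26) (nat_lit 5) (nat_lit 28) (nat_lit 5) (nat_lit 29) (nat_lit 5) (nat_lit 356) (nat_lit 268) (nat_lit 156)))) (XT.nd (nat_lit 78) (nat_lit 228) (nat_lit 0) (XT.lf (nat_lit 0) (nat_lit 16675433357) (nat_lit 152) (nat_lit 7891090341) (nat_lit 228) (nat_lit 5236789424) (nat_lit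 26) (nat_lit 5) (nat_lit 28) (nat_lit 5) (nat_lit 29) (nat_lit 5) (nat_lit 357) (nat_lit 268) (nat_lit 155)) (XT.nd (nat_lit 78) (nat_lit 228) (nat_lit 0) (XT.lf (nat_lit 0) (nat_lit 26617464761) (nat_lit 152) (nat_lit 2447204463) (nat_lit 228) (nat_lit 1458035911) (nat_lit 26) (nat_lit 5) (nat_lit 28) (nat_lit 5) (nat_lit 29) (nat_lit 5) (nat_lit 358) (nat_lit 268) (nat_lit 154)) (XT.lf (nat_lit 0) (nat_lit 2461154983) (nat_lit 228) (nat_lit 25629675089) (nat_lit 76) (nat_lit 3169918979) (nat_lit 23) (nat_lit 5) (nat_lit 26) (nat_lit 5) (nat_lit 24) (nat_lit 5) (nat_lit 359) (nat_lit 268) (nat_lit 153))))) (XT.nd (nat_lit 234) (nat_lit 0) (nat_lit 0) (XT.nd (nat_lit 78) (nat_lit 152) (nat_lit 0) (XT.lf (nat_lit 0) (nat_lit 6521807624) (nat_lit 228) (nat_lit 16543466489) (nat_lit 76) (nat_lit 8953640341) (nat_lit 23) (nat_lit 5) (nat_lit 26) (nat_lit 5) (nat_lit 24) (nat_lit 5) (nat_lit 360) (nat_lit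 268) (nat_lit 152)) (XT.nd (nat_lit 78) (nat_lit 152) (nat_lit 0) (XT.lf (nat_lit 0) (nat_lit 10693731914) (nat_lit 228) (nat_lit 7202332210) (nat_lit 76) (nat_lit 14904085852) (nat_lit 23) (nat_lit 5) (nat_lit 26) (nat_lit 5) (nat_lit 24) (nat_lit 5) (nat_lit 361) (nat_lit 268) (nat_lit 151)) (XT.lf (nat_lit 0) (nat_lit 2449692220) (nat_lit 152) (nat_lit 12554428943) (nat_lit 228) (nat_lit 18600310651) (nat_lit 21) (nat_lit 5) (nat_lit 23) (nat_lit 5) (nat_lit 24) (nat_lit 5) (nat_lit 362) (nat_lit 268) (nat_lit 150)))) (XT.nd (nat_lit 78) (nat_lit 0) (nat_lit 0) (XT.lf (nat_lit 0) (nat_lit 12521940040) (nat_lit 152) (nat_lit 6984505844) (nat_lit 228) (nat_lit 14924525730) (nat_lit 21) (nat_lit 5) (nat_lit 23) (nat_lit 5) (nat_lit 24) (nat_lit 5) (nat_lit 363) (nat_lit 268) (nat_lit 149)) (XT.nd (nat_lit 78) (nat_lit 0) (nat_lit 0) (XT.lf (nat_lit 0) (nat_lit 22879871709) (nat_lit 152) (nat_lit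 1254157338) (nat_lit 228) (nat_lit 11148580880) (nat_lit 21) (nat_lit 5) (nat_lit 23) (nat_lit 5) (nat_lit 24) (nat_lit 5) (nat_lit 364) (nat_lit 268) (nat_lit 148)) (XT.lf (nat_lit 0) (nat_lit 28935532297) (nat_lit 228) (nat_lit 2672171186) (nat_lit 76) (nat_lit 4551048878) (nat_lit 21) (nat_lit 5) (nat_lit 24) (nat_lit 5) (nat_lit 22) (nat_lit 4) (nat_lit 365) (nat_lit 268) (nat_lit 147))))))) (XT.nd (nat_lit 936) (nat_lit 380) (nat_lit 0) (XT.nd (nat_lit 468) (nat_lit 152) (nat_lit 0) (XT.nd (nat_lit 234) (nat_lit 152) (nat_lit 0) (XT.nd (nat_lit 78) (nat_lit 76) (nat_lit 0) (XT.lf (nat_lit 0) (nat_lit 7467858404) (nat_lit 76) (nat_lit 26488116714) (nat_lit 152) (nat_lit 3102964638) (nat_lit 20) (nat_lit 5) (nat_lit 21) (nat_lit 5) (nat_lit 22) (nat_lit 4) (nat_lit 366) (nat_lit 268) (nat_lit 146)) (XT.nd (nat_lit 78) (nat_lit 0) (nat_lit 0) (XT.lf (nat_lit 0) (nat_lit 1136600689) (nat_lit 152)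 (nat_lit 20045490903) (nat_lit 76) (nat_lit 16803180302) (nat_lit 19) (nat_lit 5) (nat_lit 21) (nat_lit 5) (nat_lit 20) (nat_lit 5) (nat_lit 367) (nat_lit 268) (nat_lit 145)) (XT.lf (nat_lit 0) (nat_lit 5431971335) (nat_lit 152) (nat_lit 10259594224) (nat_lit 76) (nat_lit 23247184102) (nat_lit 19) (nat_lit 5) (nat_lit 21) (nat_lit 5) (nat_lit 20) (nat_lit 5) (nat_lit 368) (nat_lit 268) (nat_lit 144)))) (XT.nd (nat_lit 78) (nat_lit 152) (nat_lit 0) (XT.lf (nat_lit 0) (nat_lit 9847450553) (nat_lit 152) (nat_lit 195012937) (nat_lit 76) (nat_lit 29878637532) (nat_lit 19) (nat_lit 5) (nat_lit 21) (nat_lit 5) (nat_lit 20) (nat_lit 5) (nat_lit 369) (nat_lit 268) (nat_lit 143)) (XT.nd (nat_lit 78) (nat_lit 0) (nat_lit 0) (XT.lf (nat_lit 0) (nat_lit 10359192406) (nat_lit 152) (nat_lit 4127283015) (nat_lit 228) (nat_lit 26443721553) (nat_lit 17) (nat_lit 5) (nat_lit 19) (nat_lit 5) (nat_lit 20) (nat_lit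 5) (nat_lit 370) (nat_lit 268) (nat_lit 142)) (XT.lf (nat_lit 0) (nat_lit 19277107225) (nat_lit 228) (nat_lit 20768914640) (nat_lit 76) (nat_lit 1923177154) (nat_lit 17) (nat_lit 5) (nat_lit 20) (nat_lit 5) (nat_lit 18) (nat_lit 4) (nat_lit 371) (nat_lit 268) (nat_lit 141))))) (XT.nd (nat_lit 234) (nat_lit 76) (nat_lit 0) (XT.nd (nat_lit 78) (nat_lit 76) (nat_lit 0) (XT.lf (nat_lit 0) (nat_lit 24244123403) (nat_lit 228) (nat_lit 10727721081) (nat_lit 76) (nat_lit 8066552796) (nat_lit 17) (nat_lit 5) (nat_lit 20) (nat_lit 5) (nat_lit 18) (nat_lit 4) (nat_lit 372) (nat_lit 268) (nat_lit 140)) (XT.nd (nat_lit 78) (nat_lit 76) (nat_lit 0) (XT.lf (nat_lit 0) (nat_lit 29352190096) (nat_lit 228) (nat_lit 398976063) (nat_lit 76) (nat_lit 14388750066) (nat_lit 17) (nat_lit 5) (nat_lit 20) (nat_lit 5) (nat_lit 18) (nat_lit 4) (nat_lit 373) (nat_lit 268) (nat_lit 139)) (XT.lf (nat_lit 0) (nat_lit 10429869858)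 (nat_lit 76) (nat_lit 24276159096) (nat_lit 152) (nat_lit 10565681646) (nat_lit 16) (nat_lit 5) (nat_lit 17) (nat_lit 5) (nat_lit 18) (nat_lit 4) (nat_lit 374) (nat_lit 268) (nat_lit 138)))) (XT.nd (nat_lit 78) (nat_lit 76) (nat_lit 0) (XT.lf (nat_lit 0) (nat_lit 21578604253) (nat_lit 76) (nat_lit 18638278108) (nat_lit 152) (nat_lit 6220690061) (nat_lit 16) (nat_lit 5) (nat_lit 17) (nat_lit 5) (nat_lit 18) (nat_lit 4) (nat_lit 375) (nat_lit 268) (nat_lit 137)) (XT.nd (nat_lit 78) (nat_lit 76) (nat_lit 0) (XT.lf (nat_lit 0) (nat_lit 33049028328) (nat_lit 76) (nat_lit 12836625766) (nat_lit 152) (nat_lit 1752983656) (nat_lit 16) (nat_lit 5) (nat_lit 17) (nat_lit 5) (nat_lit 18) (nat_lit 4) (nat_lit 376) (nat_lit 268) (nat_lit 136)) (XT.lf (nat_lit 0) (nat_lit 2785896584) (nat_lit 152) (nat_lit 4052103989) (nat_lit 76) (nat_lit 42037136106) (nat_lit 15) (nat_lit 5) (nat_lit 17) (nat_lit 5) (nat_lit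 16) (nat_lit 5) (nat_lit 377) (nat_lit 268) (nat_lit 135)))))) (XT.nd (nat_lit 468) (nat_lit 152) (nat_lit 0) (XT.nd (nat_lit 234) (nat_lit 76) (nat_lit 0) (XT.nd (nat_lit 78) (nat_lit 0) (nat_lit 0) (XT.lf (nat_lit 0) (nat_lit 6906761556) (nat_lit 152) (nat_lit 578284238) (nat_lit 228) (nat_lit 42661388994) (nat_lit 13) (nat_lit 5) (nat_lit 15) (nat_lit 5) (nat_lit 16) (nat_lit 5) (nat_lit 378) (nat_lit 268) (nat_lit 134)) (XT.nd (nat_lit 78) (nat_lit 0) (nat_lit 0) (XT.lf (nat_lit 0) (nat_lit 12415895801) (nat_lit 228) (nat_lit 33246240698) (nat_lit 76) (nat_lit 5791018379) (nat_lit 13) (nat_lit 5) (nat_lit 16) (nat_lit 5) (nat_lit 14) (nat_lit 4) (nat_lit 379) (nat_lit 268) (nat_lit 133)) (XT.lf (nat_lit 0) (nat_lit 17493585549) (nat_lit 228) (nat_lit 22970604498) (nat_lit 76) (nat_lit 12334923784) (nat_lit 13) (nat_lit 5) (nat_lit 16) (nat_lit 5) (nat_lit 14) (nat_lit 4) (nat_lit 380) (nat_lit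 268) (nat_lit 132)))) (XT.nd (nat_lit 78) (nat_lit 76) (nat_lit 0) (XT.lf (nat_lit 0) (nat_lit 22716993034) (nat_lit 228) (nat_lit 12398227098) (nat_lit 76) (nat_lit 19070434361) (nat_lit 13) (nat_lit 5) (nat_lit 16) (nat_lit 5) (nat_lit 14) (nat_lit 4) (nat_lit 381) (nat_lit 268) (nat_lit 131)) (XT.nd (nat_lit 78) (nat_lit 76) (nat_lit 0) (XT.lf (nat_lit 0) (nat_lit 28090682398) (nat_lit 228) (nat_lit 1519870500) (nat_lit 76) (nat_lit 26003435506) (nat_lit 13) (nat_lit 5) (nat_lit 16) (nat_lit 5) (nat_lit 14) (nat_lit 4) (nat_lit 382) (nat_lit 268) (nat_lit 130)) (XT.lf (nat_lit 0) (nat_lit 9866501641) (nat_lit 76) (nat_lit 23847690306) (nat_lit 152) (nat_lit 23368326390) (nat_lit 12) (nat_lit 5) (nat_lit 13) (nat_lit 5) (nat_lit 14) (nat_lit 4) (nat_lit 383) (nat_lit 268) (nat_lit 129))))) (XT.nd (nat_lit 234) (nat_lit 152) (nat_lit 0) (XT.nd (nat_lit 78) (nat_lit 0) (nat_lit 0) (XT.lf (nat_lit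 0) (nat_lit 21614861195) (nat_lit 76) (nat_lit 17900738081) (nat_lit 152) (nat_lit 19079233283) (nat_lit 12) (nat_lit 5) (nat_lit 13) (nat_lit 5) (nat_lit 14) (nat_lit 4) (nat_lit 384) (nat_lit 268) (nat_lit 128)) (XT.nd (nat_lit 78) (nat_lit 0) (nat_lit 0) (XT.lf (nat_lit 0) (nat_lit 33705225314) (nat_lit 76) (nat_lit 11779847570) (nat_lit 152) (nat_lit 14667626645) (nat_lit 12) (nat_lit 5) (nat_lit 13) (nat_lit 5) (nat_lit 14) (nat_lit 4) (nat_lit 385) (nat_lit 268) (nat_lit 127)) (XT.lf (nat_lit 0) (nat_lit 46148158393) (nat_lit 76) (nat_lit 5479670422) (nat_lit 152) (nat_lit 10129651676) (nat_lit 12) (nat_lit 5) (nat_lit 13) (nat_lit 5) (nat_lit 14) (nat_lit 4) (nat_lit 386) (nat_lit 268) (nat_lit 126)))) (XT.nd (nat_lit 78) (nat_lit 152) (nat_lit 0) (XT.lf (nat_lit 0) (nat_lit 57958898070) (nat_lit 152) (nat_lit 4465708323) (nat_lit 0) (nat_lit 985681380) (nat_lit 12) (nat_lit 5) (nat_lit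 14) (nat_lit 4) (nat_lit 12) (nat_lit 4) (nat_lit 387) (nat_lit 268) (nat_lit 125)) (XT.nd (nat_lit 78) (nat_lit 76) (nat_lit 0) (XT.lf (nat_lit 0) (nat_lit 7086555714) (nat_lit 76) (nat_lit 57510210002) (nat_lit 76) (nat_lit 512411270) (nat_lit 11) (nat_lit 4) (nat_lit 12) (nat_lit 5) (nat_lit 12) (nat_lit 4) (nat_lit 388) (nat_lit 268) (nat_lit 124)) (XT.lf (nat_lit 0) (nat_lit 4525510987) (nat_lit 152) (nat_lit 47834877488) (nat_lit 76) (nat_lit 14496127311) (nat_lit 10) (nat_lit 5) (nat_lit 12) (nat_lit 5) (nat_lit 11) (nat_lit 4) (nat_lit 389) (nat_lit 268) (nat_lit 123))))))))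
noncomputable def xc134 : XT := (XT.nd (nat_lit 32448) (nat_lit 0) (nat_lit 7372) (XT.nd (nat_lit 31512) (nat_lit 0) (nat_lit 15960) (XT.nd (nat_lit 390) (nat_lit 0) (nat_lit 0) (XT.nd (nat_lit 156) (nat_lit 76) (nat_lit 0) (XT.nd (nat_lit 78) (nat_lit 0) (nat_lit 0) (XT.lf (nat_lit 0) (nat_lit 9698934744) (nat_lit 152) (nat_lit 37355998193) (nat_lit 76) (nat_lit 21601353114) (nat_lit 10) (nat_lit 5) (nat_lit 12) (nat_lit 5) (nat_lit 11) (nat_lit 4) (nat_lit 390) (nat_lit 268) (nat_lit 122)) (XT.lf (nat_lit 0) (nat_lit 15022379457) (nat_lit 152) (nat_lit 26571901475) (nat_lit 76) (nat_lit 28915927232) (nat_lit 10) (nat_lit 5) (nat_lit 12) (nat_lit 5) (nat_lit 11) (nat_lit 4) (nat_lit 391) (nat_lit 268) (nat_lit 121))) (XT.nd (nat_lit 78) (nat_lit 76) (nat_lit 0) (XT.lf (nat_lit 0) (nat_lit 20500496681) (nat_lit 152) (nat_lit 15473164336) (nat_lit 76) (nat_lit 36446241042) (nat_lit 10) (nat_lit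 5) (nat_lit 12) (nat_lit 5) (nat_lit 11) (nat_lit 4) (nat_lit 392) (nat_lit 268) (nat_lit 120)) (XT.nd (nat_lit 78) (nat_lit 76) (nat_lit 0) (XT.lf (nat_lit 0) (nat_lit 26138073120) (nat_lit 152) (nat_lit 4050088851) (nat_lit 76) (nat_lit 44198874428) (nat_lit 10) (nat_lit 5) (nat_lit 12) (nat_lit 5) (nat_lit 11) (nat_lit 4) (nat_lit 393) (nat_lit 268) (nat_lit 119)) (XT.lf (nat_lit 0) (nat_lit 7860696816) (nat_lit 76) (nat_lit 24154899821) (nat_lit 152) (nat_lit 44395466547) (nat_lit 9) (nat_lit 5) (nat_lit 10) (nat_lit 5) (nat_lit 11) (nat_lit 4) (nat_lit 394) (nat_lit 268) (nat_lit 118))))) (XT.nd (nat_lit 30888) (nat_lit 0) (nat_lit 18012) (XT.nd (nat_lit 78) (nat_lit 0) (nat_lit 0) (XT.lf (nat_lit 0) (nat_lit 20203538399) (nat_lit 76) (nat_lit 17902121801) (nat_lit 152) (nat_lit 40389067064) (nat_lit 9) (nat_lit 5) (nat_lit 10) (nat_lit 5) (nat_lit 11) (nat_lit 4) (nat_lit 395) (nat_lit 268)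 (nat_lit 117)) (XT.nd (nat_lit 30732) (nat_lit 0) (nat_lit 18620) (XT.lf (nat_lit 0) (nat_lit 32908616194) (nat_lit 76) (nat_lit 11465262275) (nat_lit 152) (nat_lit 36267162049) (nat_lit 9) (nat_lit 5) (nat_lit 10) (nat_lit 5) (nat_lit 11) (nat_lit 4) (nat_lit 396) (nat_lit 268) (nat_lit 116)) (XT.lf (nat_lit 0) (nat_lit 813744240) (nat_lit 0) (nat_lit 813744240) (nat_lit 532) (nat_lit 1772646256) (nat_lit 254) (nat_lit 5) (nat_lit 254) (nat_lit 3) (nat_lit 261) (nat_lit 3) (nat_lit 269) (nat_lit 269) (nat_lit 242)))) (XT.nd (nat_lit 78) (nat_lit 608) (nat_lit 0) (XT.lf (nat_lit 0) (nat_lit 4685551940) (nat_lit 0) (nat_lit 475426338) (nat_lit 532) (nat_lit 1680452200) (nat_lit 254) (nat_lit 5) (nat_lit 254) (nat_lit 3) (nat_lit 261) (nat_lit 3) (nat_lit 270) (nat_lit 269) (nat_lit 241)) (XT.nd (nat_lit 78) (nat_lit 0) (nat_lit 0) (XT.lf (nat_lit 0) (nat_lit 178472902) (nat_lit 608) (nat_lit 5963711394)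 (nat_lit 684) (nat_lit 743482122) (nat_lit 246) (nat_lit 5) (nat_lit 254) (nat_lit 5) (nat_lit 255) (nat_lit 5) (nat_lit 271) (nat_lit 269) (nat_lit 240)) (XT.lf (nat_lit 0) (nat_lit 2014793684) (nat_lit 608) (nat_lit 2856008765) (nat_lit 684) (nat_lit 2061454376) (nat_lit 246) (nat_lit 5) (nat_lit 254) (nat_lit 5) (nat_lit 255) (nat_lit 5) (nat_lit 272) (nat_lit 269) (nat_lit 239)))))) (XT.nd (nat_lit 468) (nat_lit 1368) (nat_lit 0) (XT.nd (nat_lit 234) (nat_lit 0) (nat_lit 76) (XT.nd (nat_lit 78) (nat_lit 684) (nat_lit 0) (XT.lf (nat_lit 76) (nat_lit 311995084) (nat_lit 0) (nat_lit 3527994956) (nat_lit 684) (nat_lit 3142424464) (nat_lit 247) (nat_lit 5) (nat_lit 246) (nat_lit 5) (nat_lit 255) (nat_lit 5) (nat_lit 273) (nat_lit 269) (nat_lit 238)) (XT.nd (nat_lit 78) (nat_lit 684) (nat_lit 0) (XT.lf (nat_lit 76) (nat_lit 3594948953) (nat_lit 0) (nat_lit 2086264815) (nat_lit 684) (nat_lit 1354202807)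 (nat_lit 247) (nat_lit 5) (nat_lit 246) (nat_lit 5) (nat_lit 255) (nat_lit 5) (nat_lit 274) (nat_lit 269) (nat_lit 237)) (XT.lf (nat_lit 0) (nat_lit 411730029) (nat_lit 684) (nat_lit 157304655) (nat_lit 760) (nat_lit 6522993571) (nat_lit 237) (nat_lit 5) (nat_lit 246) (nat_lit 5) (nat_lit 247) (nat_lit 5) (nat_lit 275) (nat_lit 269) (nat_lit 236)))) (XT.nd (nat_lit 78) (nat_lit 0) (nat_lit 0) (XT.lf (nat_lit 0) (nat_lit 2180295370) (nat_lit 684) (nat_lit 3925116814) (nat_lit 760) (nat_lit 1045380399) (nat_lit 238) (nat_lit 5) (nat_lit 247) (nat_lit 5) (nat_lit 248) (nat_lit 5) (nat_lit 276) (nat_lit 269) (nat_lit 235)) (XT.nd (nat_lit 78) (nat_lit 0) (nat_lit 0) (XT.lf (nat_lit 0) (nat_lit 3946433734) (nat_lit 684) (nat_lit 543336107) (nat_lit 760) (nat_lit 2723372496) (nat_lit 238) (nat_lit 5) (nat_lit 247) (nat_lit 5) (nat_lit 248) (nat_lit 5) (nat_lit 277) (nat_lit 269) (nat_lit 234)) (XT.lf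 (nat_lit 76) (nat_lit 2959013412) (nat_lit 0) (nat_lit 2774091401) (nat_lit 760) (nat_lit 1545384691) (nat_lit 239) (nat_lit 5) (nat_lit 238) (nat_lit 5) (nat_lit 248) (nat_lit 5) (nat_lit 278) (nat_lit 269) (nat_lit 233))))) (XT.nd (nat_lit 234) (nat_lit 684) (nat_lit 0) (XT.nd (nat_lit 78) (nat_lit 0) (nat_lit 76) (XT.lf (nat_lit 0) (nat_lit 168454714) (nat_lit 760) (nat_lit 809893250) (nat_lit 836) (nat_lit 6369168565) (nat_lit 228) (nat_lit 5) (nat_lit 238) (nat_lit 5) (nat_lit 239) (nat_lit 5) (nat_lit 279) (nat_lit 269) (nat_lit 232)) (XT.nd (nat_lit 78) (nat_lit 0) (nat_lit 0) (XT.lf (nat_lit 0) (nat_lit 1880137629) (nat_lit 760) (nat_lit 4622232584) (nat_lit 836) (nat_lit 916600816) (nat_lit 229) (nat_lit 5) (nat_lit 239) (nat_lit 5) (nat_lit 240) (nat_lit 5) (nat_lit 280) (nat_lit 269) (nat_lit 231)) (XT.lf (nat_lit 0) (nat_lit 3604167264) (nat_lit 760) (nat_lit 1014014040) (nat_lit 836)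 (nat_lit 2875694246) (nat_lit 229) (nat_lit 5) (nat_lit 239) (nat_lit 5) (nat_lit 240) (nat_lit 5) (nat_lit 281) (nat_lit 269) (nat_lit 230)))) (XT.nd (nat_lit 78) (nat_lit 760) (nat_lit 0) (XT.lf (nat_lit 76) (nat_lit 2716534461) (nat_lit 0) (nat_lit 2634205357) (nat_lit 836) (nat_lit 2221295032) (nat_lit 230) (nat_lit 5) (nat_lit 229) (nat_lit 5) (nat_lit 240) (nat_lit 5) (nat_lit 282) (nat_lit 269) (nat_lit 229)) (XT.nd (nat_lit 78) (nat_lit 760) (nat_lit 0) (XT.lf (nat_lit 76) (nat_lit 6541241370) (nat_lit 0) (nat_lit 564656679) (nat_lit 836) (nat_lit 548083676) (nat_lit 230) (nat_lit 5) (nat_lit 229) (nat_lit 5) (nat_lit 240) (nat_lit 5) (nat_lit 283) (nat_lit 269) (nat_lit 228)) (XT.lf (nat_lit 0) (nat_lit 1141242265) (nat_lit 836) (nat_lit 5008557600) (nat_lit 76) (nat_lit 1588703687) (nat_lit 219) (nat_lit 5) (nat_lit 230) (nat_lit 5) (nat_lit 220) (nat_lit 5) (nat_lit 284) (nat_lit 269)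 (nat_lit 227))))))) (XT.nd (nat_lit 936) (nat_lit 3040) (nat_lit 0) (XT.nd (nat_lit 468) (nat_lit 2736) (nat_lit 0) (XT.nd (nat_lit 234) (nat_lit 1976) (nat_lit 0) (XT.nd (nat_lit 78) (nat_lit 836) (nat_lit 0) (XT.lf (nat_lit 0) (nat_lit 2835363448) (nat_lit 836) (nat_lit 1165658565) (nat_lit 76) (nat_lit 3825539832) (nat_lit 219) (nat_lit 5) (nat_lit 230) (nat_lit 5) (nat_lit 220) (nat_lit 5) (nat_lit 285) (nat_lit 269) (nat_lit 226)) (XT.nd (nat_lit 78) (nat_lit 0) (nat_lit 0) (XT.lf (nat_lit 0) (nat_lit 2808467576) (nat_lit 836) (nat_lit 1748539336) (nat_lit 912) (nat_lit 3361068142) (nat_lit 208) (nat_lit 5) (nat_lit 219) (nat_lit 5) (nat_lit 220) (nat_lit 5) (nat_lit 286) (nat_lit 269) (nat_lit 225)) (XT.lf (nat_lit 0) (nat_lit 6298580938) (nat_lit 912) (nat_lit 1132050614) (nat_lit 76) (nat_lit 582764471) (nat_lit 208) (nat_lit 5) (nat_lit 220) (nat_lit 5) (nat_lit 209) (nat_lit 5) (nat_lit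 287) (nat_lit 269) (nat_lit 224)))) (XT.nd (nat_lit 78) (nat_lit 1064) (nat_lit 0) (XT.lf (nat_lit 0) (nat_lit 2966403853) (nat_lit 912) (nat_lit 5124155655) (nat_lit 988) (nat_lit 21179969) (nat_lit 196) (nat_lit 5) (nat_lit 208) (nat_lit 5) (nat_lit 209) (nat_lit 5) (nat_lit 288) (nat_lit 269) (nat_lit 223)) (XT.nd (nat_lit 78) (nat_lit 988) (nat_lit 0) (XT.lf (nat_lit 0) (nat_lit 1653964842) (nat_lit 988) (nat_lit 1058011454) (nat_lit 76) (nat_lit 5501731555) (nat_lit 195) (nat_lit 5) (nat_lit 208) (nat_lit 5) (nat_lit 196) (nat_lit 5) (nat_lit 289) (nat_lit 269) (nat_lit 222)) (XT.lf (nat_lit 0) (nat_lit 3175176240) (nat_lit 988) (nat_lit 188442109) (nat_lit 1064) (nat_lit 4955668681) (nat_lit 182) (nat_lit 5) (nat_lit 195) (nat_lit 5) (nat_lit 196) (nat_lit 5) (nat_lit 290) (nat_lit 269) (nat_lit 221))))) (XT.nd (nat_lit 234) (nat_lit 1596) (nat_lit 0) (XT.nd (nat_lit 78) (nat_lit 1140) (nat_lit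 0) (XT.lf (nat_lit 0) (nat_lit 5113716980) (nat_lit 1064) (nat_lit 933579875) (nat_lit 76) (nat_lit 2381157642) (nat_lit 182) (nat_lit 5) (nat_lit 196) (nat_lit 5) (nat_lit 183) (nat_lit 5) (nat_lit 291) (nat_lit 269) (nat_lit 220)) (XT.nd (nat_lit 78) (nat_lit 76) (nat_lit 0) (XT.lf (nat_lit 0) (nat_lit 3429849609) (nat_lit 1064) (nat_lit 3477801458) (nat_lit 1140) (nat_lit 1633598742) (nat_lit 168) (nat_lit 5) (nat_lit 182) (nat_lit 5) (nat_lit 183) (nat_lit 5) (nat_lit 292) (nat_lit 269) (nat_lit 219)) (XT.lf (nat_lit 0) (nat_lit 62470627) (nat_lit 1140) (nat_lit 753910383) (nat_lit 76) (nat_lit 7842114938) (nat_lit 167) (nat_lit 5) (nat_lit 182) (nat_lit 5) (nat_lit 168) (nat_lit 5) (nat_lit 293) (nat_lit 269) (nat_lit 218)))) (XT.nd (nat_lit 78) (nat_lit 532) (nat_lit 0) (XT.lf (nat_lit 0) (nat_lit 1789870676) (nat_lit 1140) (nat_lit 5044628649) (nat_lit 76) (nat_lit 1943961369) (nat_lit 153)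 (nat_lit 5) (nat_lit 168) (nat_lit 5) (nat_lit 154) (nat_lit 5) (nat_lit 294) (nat_lit 269) (nat_lit 217)) (XT.nd (nat_lit 78) (nat_lit 532) (nat_lit 0) (XT.lf (nat_lit 0) (nat_lit 3543898918) (nat_lit 1140) (nat_lit 577178358) (nat_lit 76) (nat_lit 4781785368) (nat_lit 153) (nat_lit 5) (nat_lit 168) (nat_lit 5) (nat_lit 154) (nat_lit 5) (nat_lit 295) (nat_lit 269) (nat_lit 216)) (XT.lf (nat_lit 0) (nat_lit 4065882858) (nat_lit 532) (nat_lit 1283976881) (nat_lit 608) (nat_lit 3681237608) (nat_lit 146) (nat_lit 5) (nat_lit 153) (nat_lit 5) (nat_lit 154) (nat_lit 5) (nat_lit 296) (nat_lit 269) (nat_lit 215)))))) (XT.nd (nat_lit 468) (nat_lit 1368) (nat_lit 0) (XT.nd (nat_lit 234) (nat_lit 1064) (nat_lit 0) (XT.nd (nat_lit 78) (nat_lit 608) (nat_lit 0) (XT.lf (nat_lit 0) (nat_lit 7192675525) (nat_lit 608) (nat_lit 357386846) (nat_lit 76) (nat_lit 1613714149) (nat_lit 146) (nat_lit 5) (nat_lit 154)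 (nat_lit 5) (nat_lit 147) (nat_lit 5) (nat_lit 297) (nat_lit 269) (nat_lit 214)) (XT.nd (nat_lit 78) (nat_lit 76) (nat_lit 0) (XT.lf (nat_lit 0) (nat_lit 4424787427) (nat_lit 532) (nat_lit 4683411787) (nat_lit 608) (nat_lit 191789604) (nat_lit 139) (nat_lit 5) (nat_lit 146) (nat_lit 5) (nat_lit 147) (nat_lit 5) (nat_lit 298) (nat_lit 269) (nat_lit 213)) (XT.lf (nat_lit 0) (nat_lit 1575008479) (nat_lit 608) (nat_lit 136204338) (nat_lit 76) (nat_lit 7729688769) (nat_lit 138) (nat_lit 5) (nat_lit 146) (nat_lit 5) (nat_lit 139) (nat_lit 5) (nat_lit 299) (nat_lit 269) (nat_lit 212)))) (XT.nd (nat_lit 78) (nat_lit 532) (nat_lit 0) (XT.lf (nat_lit 0) (nat_lit 3414120187) (nat_lit 608) (nat_lit 4799349099) (nat_lit 76) (nat_lit 1371889598) (nat_lit 131) (nat_lit 5) (nat_lit 139) (nat_lit 5) (nat_lit 132) (nat_lit 5) (nat_lit 300) (nat_lit 269) (nat_lit 211)) (XT.nd (nat_lit 78) (nat_lit 0) (nat_lit 0)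 (XT.lf (nat_lit 0) (nat_lit 71377599) (nat_lit 532) (nat_lit 5220323300) (nat_lit 608) (nat_lit 4443017171) (nat_lit 124) (nat_lit 5) (nat_lit 131) (nat_lit 5) (nat_lit 132) (nat_lit 5) (nat_lit 301) (nat_lit 269) (nat_lit 210)) (XT.lf (nat_lit 0) (nat_lit 5149344335) (nat_lit 532) (nat_lit 2089688776) (nat_lit 608) (nat_lit 2649187281) (nat_lit 124) (nat_lit 5) (nat_lit 131) (nat_lit 5) (nat_lit 132) (nat_lit 5) (nat_lit 302) (nat_lit 269) (nat_lit 209))))) (XT.nd (nat_lit 234) (nat_lit 380) (nat_lit 0) (XT.nd (nat_lit 78) (nat_lit 532) (nat_lit 0) (XT.lf (nat_lit 0) (nat_lit 290847371) (nat_lit 456) (nat_lit 8933602626) (nat_lit 532) (nat_lit 822551035) (nat_lit 118) (nat_lit 5) (nat_lit 124) (nat_lit 5) (nat_lit 125) (nat_lit 5) (nat_lit 303) (nat_lit 269) (nat_lit 208)) (XT.nd (nat_lit 78) (nat_lit 456) (nat_lit 0) (XT.lf (nat_lit 0) (nat_lit 1073444787) (nat_lit 532) (nat_lit 4709455500) (nat_lit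 76) (nat_lit 4426342315) (nat_lit 117) (nat_lit 5) (nat_lit 124) (nat_lit 5) (nat_lit 118) (nat_lit 5) (nat_lit 304) (nat_lit 269) (nat_lit 207)) (XT.lf (nat_lit 0) (nat_lit 452822731) (nat_lit 456) (nat_lit 2528508388) (nat_lit 532) (nat_lit 7395687508) (nat_lit 111) (nat_lit 5) (nat_lit 117) (nat_lit 5) (nat_lit 118) (nat_lit 5) (nat_lit 305) (nat_lit 269) (nat_lit 206)))) (XT.nd (nat_lit 78) (nat_lit 380) (nat_lit 0) (XT.lf (nat_lit 0) (nat_lit 4970157660) (nat_lit 532) (nat_lit 4727418929) (nat_lit 76) (nat_lit 851596380) (nat_lit 111) (nat_lit 5) (nat_lit 118) (nat_lit 5) (nat_lit 112) (nat_lit 5) (nat_lit 306) (nat_lit 269) (nat_lit 205)) (XT.nd (nat_lit 78) (nat_lit 0) (nat_lit 0) (XT.lf (nat_lit 0) (nat_lit 575397180) (nat_lit 380) (nat_lit 6442517005) (nat_lit 456) (nat_lit 3708654308) (nat_lit 106) (nat_lit 5) (nat_lit 111) (nat_lit 5) (nat_lit 112) (nat_lit 5) (nat_lit 307) (nat_lit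 269) (nat_lit 204)) (XT.lf (nat_lit 0) (nat_lit 6098501231) (nat_lit 380) (nat_lit 3045607679) (nat_lit 456) (nat_lit 1764719727) (nat_lit 106) (nat_lit 5) (nat_lit 111) (nat_lit 5) (nat_lit 112) (nat_lit 5) (nat_lit 308) (nat_lit 269) (nat_lit 203))))))))
noncomputable def xc135 : XT := (XT.nd (nat_lit 1794) (nat_lit 2052) (nat_lit 0) (XT.nd (nat_lit 858) (nat_lit 1824) (nat_lit 0) (XT.nd (nat_lit 390) (nat_lit 760) (nat_lit 0) (XT.nd (nat_lit 156) (nat_lit 760) (nat_lit 0) (XT.nd (nat_lit 78) (nat_lit 0) (nat_lit 0) (XT.lf (nat_lit 0) (nat_lit 213511498) (nat_lit 532) (nat_lit 10435501857) (nat_lit 76) (nat_lit 448106202) (nat_lit 99) (nat_lit 5) (nat_lit 106) (nat_lit 5) (nat_lit 100) (nat_lit 5) (nat_lit 309) (nat_lit 269) (nat_lit 202)) (XT.lf (nat_lit 0) (nat_lit 2265139802) (nat_lit 532) (nat_lit 4977236578) (nat_lit 76) (nat_lit 4046721500) (nat_lit 99) (nat_lit 5) (nat_lit 106) (nat_lit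 5) (nat_lit 100) (nat_lit 5) (nat_lit 310) (nat_lit 269) (nat_lit 201))) (XT.nd (nat_lit 78) (nat_lit 380) (nat_lit 0) (XT.lf (nat_lit 0) (nat_lit 622105660) (nat_lit 380) (nat_lit 3733365057) (nat_lit 456) (nat_lit 7132097243) (nat_lit 94) (nat_lit 5) (nat_lit 99) (nat_lit 5) (nat_lit 100) (nat_lit 5) (nat_lit 311) (nat_lit 269) (nat_lit 200)) (XT.nd (nat_lit 78) (nat_lit 380) (nat_lit 0) (XT.lf (nat_lit 0) (nat_lit 6456987397) (nat_lit 380) (nat_lit 73466458) (nat_lit 456) (nat_lit 5160925667) (nat_lit 94) (nat_lit 5) (nat_lit 99) (nat_lit 5) (nat_lit 100) (nat_lit 5) (nat_lit 312) (nat_lit 269) (nat_lit 199)) (XT.lf (nat_lit 0) (nat_lit 505670195) (nat_lit 380) (nat_lit 8277856873) (nat_lit 456) (nat_lit 3117437465) (nat_lit 89) (nat_lit 5) (nat_lit 94) (nat_lit 5) (nat_lit 95) (nat_lit 5) (nat_lit 313) (nat_lit 269) (nat_lit 198))))) (XT.nd (nat_lit 234) (nat_lit 380) (nat_lit 0) (XT.nd (nat_lit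 78) (nat_lit 380) (nat_lit 0) (XT.lf (nat_lit 0) (nat_lit 6490551483) (nat_lit 380) (nat_lit 4640143890) (nat_lit 456) (nat_lit 985389663) (nat_lit 89) (nat_lit 5) (nat_lit 94) (nat_lit 5) (nat_lit 95) (nat_lit 5) (nat_lit 314) (nat_lit 269) (nat_lit 197)) (XT.nd (nat_lit 78) (nat_lit 0) (nat_lit 0) (XT.lf (nat_lit 0) (nat_lit 277577306) (nat_lit 304) (nat_lit 885499860) (nat_lit 380) (nat_lit 11174990997) (nat_lit 84) (nat_lit 5) (nat_lit 88) (nat_lit 5) (nat_lit 89) (nat_lit 5) (nat_lit 315) (nat_lit 269) (nat_lit 196)) (XT.lf (nat_lit 0) (nat_lit 3416024999) (nat_lit 380) (nat_lit 6164837534) (nat_lit 76) (nat_lit 2983799965) (nat_lit 84) (nat_lit 5) (nat_lit 89) (nat_lit 5) (nat_lit 85) (nat_lit 5) (nat_lit 316) (nat_lit 269) (nat_lit 195)))) (XT.nd (nat_lit 78) (nat_lit 380) (nat_lit 0) (XT.lf (nat_lit 0) (nat_lit 5719892014) (nat_lit 380) (nat_lit 134042003) (nat_lit 76) (nat_lit 6944658955)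 (nat_lit 84) (nat_lit 5) (nat_lit 89) (nat_lit 5) (nat_lit 85) (nat_lit 5) (nat_lit 317) (nat_lit 269) (nat_lit 194)) (XT.nd (nat_lit 78) (nat_lit 0) (nat_lit 0) (XT.lf (nat_lit 0) (nat_lit 6165998162) (nat_lit 380) (nat_lit 1961452517) (nat_lit 456) (nat_lit 4911090530) (nat_lit 79) (nat_lit 5) (nat_lit 84) (nat_lit 5) (nat_lit 85) (nat_lit 5) (nat_lit 318) (nat_lit 269) (nat_lit 193)) (XT.lf (nat_lit 0) (nat_lit 10603935621) (nat_lit 456) (nat_lit 679937783) (nat_lit 76) (nat_lit 2001949539) (nat_lit 79) (nat_lit 5) (nat_lit 85) (nat_lit 5) (nat_lit 80) (nat_lit 5) (nat_lit 319) (nat_lit 269) (nat_lit 192)))))) (XT.nd (nat_lit 468) (nat_lit 836) (nat_lit 0) (XT.nd (nat_lit 234) (nat_lit 304) (nat_lit 0) (XT.nd (nat_lit 78) (nat_lit 380) (nat_lit 0) (XT.lf (nat_lit 0) (nat_lit 5759986883) (nat_lit 304) (nat_lit 7445874166) (nat_lit 380) (nat_lit 333162688) (nat_lit 75) (nat_lit 5) (nat_lit 79)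 (nat_lit 5) (nat_lit 80) (nat_lit 5) (nat_lit 320) (nat_lit 269) (nat_lit 191)) (XT.nd (nat_lit 78) (nat_lit 304) (nat_lit 0) (XT.lf (nat_lit 0) (nat_lit 2028734835) (nat_lit 380) (nat_lit 1444316677) (nat_lit 76) (nat_lit 10326697947) (nat_lit 74) (nat_lit 5) (nat_lit 79) (nat_lit 5) (nat_lit 75) (nat_lit 5) (nat_lit 321) (nat_lit 269) (nat_lit 190)) (XT.lf (nat_lit 0) (nat_lit 4487832442) (nat_lit 380) (nat_lit 8926954919) (nat_lit 76) (nat_lit 652451468) (nat_lit 70) (nat_lit 5) (nat_lit 75) (nat_lit 5) (nat_lit 71) (nat_lit 5) (nat_lit 322) (nat_lit 269) (nat_lit 189)))) (XT.nd (nat_lit 78) (nat_lit 304) (nat_lit 0) (XT.lf (nat_lit 0) (nat_lit 7047283047) (nat_lit 380) (nat_lit 2455852297) (nat_lit 76) (nat_lit 4838851218) (nat_lit 70) (nat_lit 5) (nat_lit 75) (nat_lit 5) (nat_lit 71) (nat_lit 5) (nat_lit 323) (nat_lit 269) (nat_lit 188)) (XT.nd (nat_lit 78) (nat_lit 0) (nat_lit 0) (XT.lf (nat_lit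 0) (nat_lit 4262427155) (nat_lit 304) (nat_lit 5440183705) (nat_lit 380) (nat_lit 4921823237) (nat_lit 66) (nat_lit 5) (nat_lit 70) (nat_lit 5) (nat_lit 71) (nat_lit 5) (nat_lit 324) (nat_lit 269) (nat_lit 187)) (XT.lf (nat_lit 0) (nat_lit 11202761409) (nat_lit 304) (nat_lit 1238107483) (nat_lit 380) (nat_lit 2474417353) (nat_lit 66) (nat_lit 5) (nat_lit 70) (nat_lit 5) (nat_lit 71) (nat_lit 5) (nat_lit 325) (nat_lit 269) (nat_lit 186))))) (XT.nd (nat_lit 234) (nat_lit 228) (nat_lit 0) (XT.nd (nat_lit 78) (nat_lit 228) (nat_lit 0) (XT.lf (nat_lit 0) (nat_lit 84754698) (nat_lit 380) (nat_lit 12076121023) (nat_lit 76) (nat_lit 3052824984) (nat_lit 61) (nat_lit 5) (nat_lit 66) (nat_lit 5) (nat_lit 62) (nat_lit 5) (nat_lit 326) (nat_lit 269) (nat_lit 185)) (XT.nd (nat_lit 78) (nat_lit 228) (nat_lit 0) (XT.lf (nat_lit 0) (nat_lit 2700206382) (nat_lit 380) (nat_lit 5317479154) (nat_lit 76) (nat_lit 7501796766)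 (nat_lit 61) (nat_lit 5) (nat_lit 66) (nat_lit 5) (nat_lit 62) (nat_lit 5) (nat_lit 327) (nat_lit 269) (nat_lit 184)) (XT.lf (nat_lit 0) (nat_lit 1647232559) (nat_lit 228) (nat_lit 3742450368) (nat_lit 304) (nat_lit 10444913613) (nat_lit 58) (nat_lit 5) (nat_lit 61) (nat_lit 5) (nat_lit 62) (nat_lit 5) (nat_lit 328) (nat_lit 269) (nat_lit 183)))) (XT.nd (nat_lit 78) (nat_lit 228) (nat_lit 0) (XT.lf (nat_lit 0) (nat_lit 8200386398) (nat_lit 304) (nat_lit 7263642126) (nat_lit 76) (nat_lit 693944679) (nat_lit 58) (nat_lit 5) (nat_lit 62) (nat_lit 5) (nat_lit 59) (nat_lit 5) (nat_lit 329) (nat_lit 269) (nat_lit 182)) (XT.nd (nat_lit 78) (nat_lit 228) (nat_lit 0) (XT.lf (nat_lit 0) (nat_lit 11113009142) (nat_lit 304) (nat_lit 197506804) (nat_lit 76) (nat_lit 5180031813) (nat_lit 58) (nat_lit 5) (nat_lit 62) (nat_lit 5) (nat_lit 59) (nat_lit 5) (nat_lit 330) (nat_lit 269) (nat_lit 181)) (XT.lf (nat_lit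 0) (nat_lit 7193563329) (nat_lit 228) (nat_lit 6969707048) (nat_lit 304) (nat_lit 2668345203) (nat_lit 55) (nat_lit 5) (nat_lit 58) (nat_lit 5) (nat_lit 59) (nat_lit 5) (nat_lit 331) (nat_lit 269) (nat_lit 180))))))) (XT.nd (nat_lit 936) (nat_lit 836) (nat_lit 0) (XT.nd (nat_lit 468) (nat_lit 684) (nat_lit 0) (XT.nd (nat_lit 234) (nat_lit 228) (nat_lit 0) (XT.nd (nat_lit 78) (nat_lit 228) (nat_lit 0) (XT.lf (nat_lit 0) (nat_lit 102948313) (nat_lit 304) (nat_lit 2401184508) (nat_lit 76) (nat_lit 14679273633) (nat_lit 54) (nat_lit 5) (nat_lit 58) (nat_lit 5) (nat_lit 55) (nat_lit 5) (nat_lit 332) (nat_lit 269) (nat_lit 179)) (XT.nd (nat_lit 78) (nat_lit 0) (nat_lit 0) (XT.lf (nat_lit 0) (nat_lit 2955314063) (nat_lit 304) (nat_lit 12465739980) (nat_lit 76) (nat_lit 2122379299) (nat_lit 51) (nat_lit 5) (nat_lit 55) (nat_lit 5) (nat_lit 52) (nat_lit 5) (nat_lit 333) (nat_lit 269) (nat_lit 178)) (XT.lf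 (nat_lit 0) (nat_lit 5924467971) (nat_lit 304) (nat_lit 5135371322) (nat_lit 76) (nat_lit 6853506396) (nat_lit 51) (nat_lit 5) (nat_lit 55) (nat_lit 5) (nat_lit 52) (nat_lit 5) (nat_lit 334) (nat_lit 269) (nat_lit 177)))) (XT.nd (nat_lit 78) (nat_lit 0) (nat_lit 0) (XT.lf (nat_lit 0) (nat_lit 2436270423) (nat_lit 228) (nat_lit 6552307581) (nat_lit 304) (nat_lit 9305621507) (nat_lit 48) (nat_lit 5) (nat_lit 51) (nat_lit 5) (nat_lit 52) (nat_lit 5) (nat_lit 335) (nat_lit 269) (nat_lit 176)) (XT.nd (nat_lit 78) (nat_lit 0) (nat_lit 0) (XT.lf (nat_lit 0) (nat_lit 10314409767) (nat_lit 228) (nat_lit 1864782961) (nat_lit 304) (nat_lit 6506268731) (nat_lit 48) (nat_lit 5) (nat_lit 51) (nat_lit 5) (nat_lit 52) (nat_lit 5) (nat_lit 336) (nat_lit 269) (nat_lit 175)) (XT.lf (nat_lit 0) (nat_lit 15477158293) (nat_lit 304) (nat_lit 713662265) (nat_lit 76) (nat_lit 2897311106) (nat_lit 48) (nat_lit 5) (nat_lit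 52) (nat_lit 5) (nat_lit 49) (nat_lit 5) (nat_lit 337) (nat_lit 269) (nat_lit 174))))) (XT.nd (nat_lit 234) (nat_lit 152) (nat_lit 0) (XT.nd (nat_lit 78) (nat_lit 304) (nat_lit 0) (XT.lf (nat_lit 0) (nat_lit 7272026365) (nat_lit 228) (nat_lit 11674040394) (nat_lit 304) (nat_lit 554673905) (nat_lit 45) (nat_lit 5) (nat_lit 48) (nat_lit 5) (nat_lit 49) (nat_lit 5) (nat_lit 338) (nat_lit 269) (nat_lit 173)) (XT.nd (nat_lit 78) (nat_lit 228) (nat_lit 0) (XT.lf (nat_lit 0) (nat_lit 2533687541) (nat_lit 304) (nat_lit 4463557670) (nat_lit 76) (nat_lit 12928023257) (nat_lit 44) (nat_lit 5) (nat_lit 48) (nat_lit 5) (nat_lit 45) (nat_lit 5) (nat_lit 339) (nat_lit 269) (nat_lit 172)) (XT.lf (nat_lit 0) (nat_lit 3574580716) (nat_lit 228) (nat_lit 2147506497) (nat_lit 304) (nat_lit 14639741277) (nat_lit 41) (nat_lit 5) (nat_lit 44) (nat_lit 5) (nat_lit 45) (nat_lit 5) (nat_lit 340) (nat_lit 269) (nat_lit 171))))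 (XT.nd (nat_lit 78) (nat_lit 152) (nat_lit 0) (XT.lf (nat_lit 0) (nat_lit 9063356617) (nat_lit 304) (nat_lit 8916991920) (nat_lit 76) (nat_lit 2829436952) (nat_lit 41) (nat_lit 5) (nat_lit 45) (nat_lit 5) (nat_lit 42) (nat_lit 5) (nat_lit 341) (nat_lit 269) (nat_lit 170)) (XT.nd (nat_lit 78) (nat_lit 152) (nat_lit 0) (XT.lf (nat_lit 0) (nat_lit 12510907342) (nat_lit 304) (nat_lit 855580419) (nat_lit 76) (nat_lit 7904528364) (nat_lit 41) (nat_lit 5) (nat_lit 45) (nat_lit 5) (nat_lit 42) (nat_lit 5) (nat_lit 342) (nat_lit 269) (nat_lit 169)) (XT.lf (nat_lit 0) (nat_lit 7572439392) (nat_lit 152) (nat_lit 8547460192) (nat_lit 228) (nat_lit 5624459396) (nat_lit 39) (nat_lit 5) (nat_lit 41) (nat_lit 5) (nat_lit 42) (nat_lit 5) (nat_lit 343) (nat_lit 269) (nat_lit 168)))))) (XT.nd (nat_lit 468) (nat_lit 380) (nat_lit 0) (XT.nd (nat_lit 234) (nat_lit 152) (nat_lit 0) (XT.nd (nat_lit 78) (nat_lit 304) (nat_lit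 0) (XT.lf (nat_lit 0) (nat_lit 16248064245) (nat_lit 152) (nat_lit 3583172558) (nat_lit 228) (nat_lit 2400858352) (nat_lit 39) (nat_lit 5) (nat_lit 41) (nat_lit 5) (nat_lit 42) (nat_lit 5) (nat_lit 344) (nat_lit 269) (nat_lit 167)) (XT.nd (nat_lit 78) (nat_lit 0) (nat_lit 0) (XT.lf (nat_lit 0) (nat_lit 925874352) (nat_lit 304) (nat_lit 20282507983) (nat_lit 76) (nat_lit 1525099382) (nat_lit 35) (nat_lit 5) (nat_lit 39) (nat_lit 5) (nat_lit 36) (nat_lit 5) (nat_lit 345) (nat_lit 269) (nat_lit 166)) (XT.lf (nat_lit 0) (nat_lit 4386486763) (nat_lit 304) (nat_lit 12068796797) (nat_lit 76) (nat_lit 6791457207) (nat_lit 35) (nat_lit 5) (nat_lit 39) (nat_lit 5) (nat_lit 36) (nat_lit 5) (nat_lit 346) (nat_lit 269) (nat_lit 165)))) (XT.nd (nat_lit 78) (nat_lit 152) (nat_lit 0) (XT.lf (nat_lit 0) (nat_lit 7937160633) (nat_lit 304) (nat_lit 3630566409) (nat_lit 76) (nat_lit 12208096840) (nat_lit 35) (nat_lit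 5) (nat_lit 39) (nat_lit 5) (nat_lit 36) (nat_lit 5) (nat_lit 347) (nat_lit 269) (nat_lit 164)) (XT.nd (nat_lit 78) (nat_lit 0) (nat_lit 0) (XT.lf (nat_lit 0) (nat_lit 5139853443) (nat_lit 152) (nat_lit 6490552463) (nat_lit 228) (nat_lit 12689305239) (nat_lit 33) (nat_lit 5) (nat_lit 35) (nat_lit 5) (nat_lit 36) (nat_lit 5) (nat_lit 348) (nat_lit 269) (nat_lit 163)) (XT.lf (nat_lit 0) (nat_lit 14226762821) (nat_lit 152) (nat_lit 1231177800) (nat_lit 228) (nat_lit 9421282448) (nat_lit 33) (nat_lit 5) (nat_lit 35) (nat_lit 5) (nat_lit 36) (nat_lit 5) (nat_lit 349) (nat_lit 269) (nat_lit 162))))) (XT.nd (nat_lit 234) (nat_lit 152) (nat_lit 0) (XT.nd (nat_lit 78) (nat_lit 228) (nat_lit 0) (XT.lf (nat_lit 0) (nat_lit 19427680110) (nat_lit 228) (nat_lit 1930234685) (nat_lit 76) (nat_lit 4096796629) (nat_lit 33) (nat_lit 5) (nat_lit 36) (nat_lit 5) (nat_lit 34) (nat_lit 5) (nat_lit 350) (nat_lit 269)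 (nat_lit 161)) (XT.nd (nat_lit 78) (nat_lit 76) (nat_lit 0) (XT.lf (nat_lit 0) (nat_lit 7161054637) (nat_lit 152) (nat_lit 16423998560) (nat_lit 228) (nat_lit 2460367061) (nat_lit 31) (nat_lit 5) (nat_lit 33) (nat_lit 5) (nat_lit 34) (nat_lit 5) (nat_lit 351) (nat_lit 269) (nat_lit 160)) (XT.lf (nat_lit 0) (nat_lit 1196859420) (nat_lit 228) (nat_lit 10120683617) (nat_lit 76) (nat_lit 15335751666) (nat_lit 30) (nat_lit 5) (nat_lit 33) (nat_lit 5) (nat_lit 31) (nat_lit 5) (nat_lit 352) (nat_lit 269) (nat_lit 159)))) (XT.nd (nat_lit 78) (nat_lit 152) (nat_lit 0) (XT.lf (nat_lit 0) (nat_lit 4902267800) (nat_lit 228) (nat_lit 1138075131) (nat_lit 76) (nat_lit 21238705215) (nat_lit 30) (nat_lit 5) (nat_lit 33) (nat_lit 5) (nat_lit 31) (nat_lit 5) (nat_lit 353) (nat_lit 269) (nat_lit 158)) (XT.nd (nat_lit 78) (nat_lit 0) (nat_lit 0) (XT.lf (nat_lit 0) (nat_lit 8256064832) (nat_lit 152) (nat_lit 530403949)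 (nat_lit 228) (nat_lit 19135087226) (nat_lit 28) (nat_lit 5) (nat_lit 30) (nat_lit 5) (nat_lit 31) (nat_lit 5) (nat_lit 354) (nat_lit 269) (nat_lit 157)) (XT.lf (nat_lit 0) (nat_lit 12836615443) (nat_lit 228) (nat_lit 10696357982) (nat_lit 76) (nat_lit 5048893502) (nat_lit 28) (nat_lit 5) (nat_lit 31) (nat_lit 5) (nat_lit 29) (nat_lit 5) (nat_lit 355) (nat_lit 269) (nat_lit 156))))))))
noncomputable def xc136 : XT := (XT.nd (nat_lit 1794) (nat_lit 456) (nat_lit 0) (XT.nd (nat_lit 858) (nat_lit 456) (nat_lit 0) (XT.nd (nat_lit 390) (nat_lit 152) (nat_lit 0) (XT.nd (nat_lit 156) (nat_lit 228) (nat_lit 0) (XT.nd (nat_lit 78) (nat_lit 152) (nat_lit 0) (XT.lf (nat_lit 0) (nat_lit 17002215361) (nat_lit 228) (nat_lit 1481997463) (nat_lit 76) (nat_lit 10777965995) (nat_lit 28) (nat_lit 5) (nat_lit 31) (nat_lit 5) (nat_lit 29) (nat_lit 5) (nat_lit 356) (nat_lit 269) (nat_lit 155)) (XT.lf (nat_lit 0) (nat_lit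 8149771733) (nat_lit 152) (nat_lit 13210378670) (nat_lit 228) (nat_lit 8600738464) (nat_lit 26) (nat_lit 5) (nat_lit 28) (nat_lit 5) (nat_lit 29) (nat_lit 5) (nat_lit 357) (nat_lit 269) (nat_lit 154))) (XT.nd (nat_lit 78) (nat_lit 228) (nat_lit 0) (XT.lf (nat_lit 0) (nat_lit 18082996959) (nat_lit 152) (nat_lit 7769966120) (nat_lit 228) (nat_lit 4827482482) (nat_lit 26) (nat_lit 5) (nat_lit 28) (nat_lit 5) (nat_lit 29) (nat_lit 5) (nat_lit 358) (nat_lit 269) (nat_lit 153)) (XT.nd (nat_lit 78) (nat_lit 228) (nat_lit 0) (XT.lf (nat_lit 0) (nat_lit 28296863074) (nat_lit 152) (nat_lit 2173186683) (nat_lit 228) (nat_lit 951863760) (nat_lit 26) (nat_lit 5) (nat_lit 28) (nat_lit 5) (nat_lit 29) (nat_lit 5) (nat_lit 359) (nat_lit 269) (nat_lit 152)) (XT.lf (nat_lit 0) (nat_lit 3070336053) (nat_lit 228) (nat_lit 25502225678) (nat_lit 76) (nat_lit 3609506795) (nat_lit 23) (nat_lit 5) (nat_lit 26) (nat_lit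 5) (nat_lit 24) (nat_lit 5) (nat_lit 360) (nat_lit 269) (nat_lit 151))))) (XT.nd (nat_lit 234) (nat_lit 0) (nat_lit 0) (XT.nd (nat_lit 78) (nat_lit 152) (nat_lit 0) (XT.lf (nat_lit 0) (nat_lit 7237215659) (nat_lit 228) (nat_lit 16169537800) (nat_lit 76) (nat_lit 9556706101) (nat_lit 23) (nat_lit 5) (nat_lit 26) (nat_lit 5) (nat_lit 24) (nat_lit 5) (nat_lit 361) (nat_lit 269) (nat_lit 150)) (XT.nd (nat_lit 78) (nat_lit 152) (nat_lit 0) (XT.lf (nat_lit 0) (nat_lit 11519159217) (nat_lit 228) (nat_lit 6573516076) (nat_lit 76) (nat_lit 15675923525) (nat_lit 23) (nat_lit 5) (nat_lit 26) (nat_lit 5) (nat_lit 24) (nat_lit 5) (nat_lit 362) (nat_lit 269) (nat_lit 149)) (XT.lf (nat_lit 0) (nat_lit 3359785890) (nat_lit 152) (nat_lit 12592418659) (nat_lit 228) (nat_lit 18645016383) (nat_lit 21) (nat_lit 5) (nat_lit 23) (nat_lit 5) (nat_lit 24) (nat_lit 5) (nat_lit 363) (nat_lit 269) (nat_lit 148)))) (XT.nd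 (nat_lit 78) (nat_lit 0) (nat_lit 0) (XT.lf (nat_lit 0) (nat_lit 13709834070) (nat_lit 152) (nat_lit 6865261260) (nat_lit 228) (nat_lit 14873908503) (nat_lit 21) (nat_lit 5) (nat_lit 23) (nat_lit 5) (nat_lit 24) (nat_lit 5) (nat_lit 364) (nat_lit 269) (nat_lit 147)) (XT.nd (nat_lit 78) (nat_lit 0) (nat_lit 0) (XT.lf (nat_lit 0) (nat_lit 24354846334) (nat_lit 152) (nat_lit 972578408) (nat_lit 228) (nat_lit 10999200445) (nat_lit 21) (nat_lit 5) (nat_lit 23) (nat_lit 5) (nat_lit 24) (nat_lit 5) (nat_lit 365) (nat_lit 269) (nat_lit 146)) (XT.lf (nat_lit 0) (nat_lit 30262280989) (nat_lit 228) (nat_lit 1975663378) (nat_lit 76) (nat_lit 4991439410) (nat_lit 21) (nat_lit 5) (nat_lit 24) (nat_lit 5) (nat_lit 22) (nat_lit 4) (nat_lit 366) (nat_lit 269) (nat_lit 145)))))) (XT.nd (nat_lit 468) (nat_lit 152) (nat_lit 0) (XT.nd (nat_lit 234) (nat_lit 152) (nat_lit 0) (XT.nd (nat_lit 78) (nat_lit 76) (nat_lit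 0) (XT.lf (nat_lit 0) (nat_lit 8460952659) (nat_lit 76) (nat_lit 26966417405) (nat_lit 152) (nat_lit 2729396536) (nat_lit 20) (nat_lit 5) (nat_lit 21) (nat_lit 5) (nat_lit 22) (nat_lit 4) (nat_lit 367) (nat_lit 269) (nat_lit 144)) (XT.nd (nat_lit 78) (nat_lit 0) (nat_lit 0) (XT.lf (nat_lit 0) (nat_lit 1614922866) (nat_lit 152) (nat_lit 19891016738) (nat_lit 76) (nat_lit 17605224502) (nat_lit 19) (nat_lit 5) (nat_lit 21) (nat_lit 5) (nat_lit 20) (nat_lit 5) (nat_lit 368) (nat_lit 269) (nat_lit 143)) (XT.lf (nat_lit 0) (nat_lit 6026216064) (nat_lit 152) (nat_lit 9833557884) (nat_lit 76) (nat_lit 24233870297) (nat_lit 19) (nat_lit 5) (nat_lit 21) (nat_lit 5) (nat_lit 20) (nat_lit 5) (nat_lit 369) (nat_lit 269) (nat_lit 142)))) (XT.nd (nat_lit 78) (nat_lit 0) (nat_lit 0) (XT.lf (nat_lit 0) (nat_lit 521768912) (nat_lit 152) (nat_lit 10044844592) (nat_lit 228) (nat_lit 30539088620) (nat_lit 17) (nat_lit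 5) (nat_lit 19) (nat_lit 5) (nat_lit 20) (nat_lit 5) (nat_lit 370) (nat_lit 269) (nat_lit 141)) (XT.nd (nat_lit 78) (nat_lit 0) (nat_lit 0) (XT.lf (nat_lit 0) (nat_lit 11375434015) (nat_lit 152) (nat_lit 3958945070) (nat_lit 228) (nat_lit 26811014083) (nat_lit 17) (nat_lit 5) (nat_lit 19) (nat_lit 5) (nat_lit 20) (nat_lit 5) (nat_lit 371) (nat_lit 269) (nat_lit 140)) (XT.lf (nat_lit 0) (nat_lit 20259418294) (nat_lit 228) (nat_lit 20697450850) (nat_lit 76) (nat_lit 2258984519) (nat_lit 17) (nat_lit 5) (nat_lit 20) (nat_lit 5) (nat_lit 18) (nat_lit 4) (nat_lit 372) (nat_lit 269) (nat_lit 139))))) (XT.nd (nat_lit 234) (nat_lit 76) (nat_lit 0) (XT.nd (nat_lit 78) (nat_lit 76) (nat_lit 0) (XT.lf (nat_lit 0) (nat_lit 25363678029) (nat_lit 228) (nat_lit 10375250549) (nat_lit 76) (nat_lit 8578561079) (nat_lit 17) (nat_lit 5) (nat_lit 20) (nat_lit 5) (nat_lit 18) (nat_lit 4) (nat_lit 373) (nat_lit 269)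 (nat_lit 138)) (XT.nd (nat_lit 78) (nat_lit 0) (nat_lit 0) (XT.lf (nat_lit 0) (nat_lit 248567395) (nat_lit 76) (nat_lit 30367384508) (nat_lit 152) (nat_lit 14836381836) (nat_lit 16) (nat_lit 5) (nat_lit 17) (nat_lit 5) (nat_lit 18) (nat_lit 4) (nat_lit 374) (nat_lit 269) (nat_lit 137)) (XT.lf (nat_lit 0) (nat_lit 11391009991) (nat_lit 76) (nat_lit 24732146414) (nat_lit 152) (nat_lit 10495151299) (nat_lit 16) (nat_lit 5) (nat_lit 17) (nat_lit 5) (nat_lit 18) (nat_lit 4) (nat_lit 375) (nat_lit 269) (nat_lit 136)))) (XT.nd (nat_lit 78) (nat_lit 76) (nat_lit 0) (XT.lf (nat_lit 0) (nat_lit 22855325524) (nat_lit 76) (nat_lit 18933059990) (nat_lit 152) (nat_lit 6031096397) (nat_lit 16) (nat_lit 5) (nat_lit 17) (nat_lit 5) (nat_lit 18) (nat_lit 4) (nat_lit 376) (nat_lit 269) (nat_lit 135)) (XT.nd (nat_lit 78) (nat_lit 76) (nat_lit 0) (XT.lf (nat_lit 0) (nat_lit 34651531356) (nat_lit 76) (nat_lit 12965058072)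 (nat_lit 152) (nat_lit 1440316501) (nat_lit 16) (nat_lit 5) (nat_lit 17) (nat_lit 5) (nat_lit 18) (nat_lit 4) (nat_lit 377) (nat_lit 269) (nat_lit 134)) (XT.lf (nat_lit 0) (nat_lit 3217171726) (nat_lit 152) (nat_lit 3573267049) (nat_lit 76) (nat_lit 43540275998) (nat_lit 15) (nat_lit 5) (nat_lit 17) (nat_lit 5) (nat_lit 16) (nat_lit 5) (nat_lit 378) (nat_lit 269) (nat_lit 133))))))) (XT.nd (nat_lit 936) (nat_lit 76) (nat_lit 0) (XT.nd (nat_lit 468) (nat_lit 152) (nat_lit 0) (XT.nd (nat_lit 234) (nat_lit 76) (nat_lit 0) (XT.nd (nat_lit 78) (nat_lit 0) (nat_lit 0) (XT.lf (nat_lit 0) (nat_lit 7708478187) (nat_lit 152) (nat_lit 344404922) (nat_lit 228) (nat_lit 43587408222) (nat_lit 13) (nat_lit 5) (nat_lit 15) (nat_lit 5) (nat_lit 16) (nat_lit 5) (nat_lit 379) (nat_lit 269) (nat_lit 132)) (XT.nd (nat_lit 78) (nat_lit 0) (nat_lit 0) (XT.lf (nat_lit 0) (nat_lit 13124004614) (nat_lit 228) (nat_lit 33658545076)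 (nat_lit 76) (nat_lit 6203899885) (nat_lit 13) (nat_lit 5) (nat_lit 16) (nat_lit 5) (nat_lit 14) (nat_lit 4) (nat_lit 380) (nat_lit 269) (nat_lit 131)) (XT.lf (nat_lit 0) (nat_lit 18344249367) (nat_lit 228) (nat_lit 23091681037) (nat_lit 76) (nat_lit 12937156891) (nat_lit 13) (nat_lit 5) (nat_lit 16) (nat_lit 5) (nat_lit 14) (nat_lit 4) (nat_lit 381) (nat_lit 269) (nat_lit 130)))) (XT.nd (nat_lit 78) (nat_lit 76) (nat_lit 0) (XT.lf (nat_lit 0) (nat_lit 23714868118) (nat_lit 228) (nat_lit 12218677217) (nat_lit 76) (nat_lit 19867970103) (nat_lit 13) (nat_lit 5) (nat_lit 16) (nat_lit 5) (nat_lit 14) (nat_lit 4) (nat_lit 382) (nat_lit 269) (nat_lit 129)) (XT.nd (nat_lit 78) (nat_lit 76) (nat_lit 0) (XT.lf (nat_lit 0) (nat_lit 29240553640) (nat_lit 228) (nat_lit 1030032931) (nat_lit 76) (nat_lit 27002395573) (nat_lit 13) (nat_lit 5) (nat_lit 16) (nat_lit 5) (nat_lit 14) (nat_lit 4) (nat_lit 383) (nat_lit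 269) (nat_lit 128)) (XT.lf (nat_lit 0) (nat_lit 10692681025) (nat_lit 76) (nat_lit 24336237768) (nat_lit 152) (nat_lit 23756770830) (nat_lit 12) (nat_lit 5) (nat_lit 13) (nat_lit 5) (nat_lit 14) (nat_lit 4) (nat_lit 384) (nat_lit 269) (nat_lit 127))))) (XT.nd (nat_lit 234) (nat_lit 152) (nat_lit 0) (XT.nd (nat_lit 78) (nat_lit 0) (nat_lit 0) (XT.lf (nat_lit 0) (nat_lit 22778049103) (nat_lit 76) (nat_lit 18217485226) (nat_lit 152) (nat_lit 19348109939) (nat_lit 12) (nat_lit 5) (nat_lit 13) (nat_lit 5) (nat_lit 14) (nat_lit 4) (nat_lit 385) (nat_lit 269) (nat_lit 126)) (XT.nd (nat_lit 78) (nat_lit 0) (nat_lit 0) (XT.lf (nat_lit 0) (nat_lit 35216131658) (nat_lit 76) (nat_lit 11919383776) (nat_lit 152) (nat_lit 14812994918) (nat_lit 12) (nat_lit 5) (nat_lit 13) (nat_lit 5) (nat_lit 14) (nat_lit 4) (nat_lit 386) (nat_lit 269) (nat_lit 125)) (XT.lf (nat_lit 0) (nat_lit 48017796916) (nat_lit 76) (nat_lit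 5436430223) (nat_lit 152) (nat_lit 10147463045) (nat_lit 12) (nat_lit 5) (nat_lit 13) (nat_lit 5) (nat_lit 14) (nat_lit 4) (nat_lit 387) (nat_lit 269) (nat_lit 124)))) (XT.nd (nat_lit 78) (nat_lit 152) (nat_lit 0) (XT.lf (nat_lit 0) (nat_lit 59969081837) (nat_lit 152) (nat_lit 4122288677) (nat_lit 0) (nat_lit 1212901041) (nat_lit 12) (nat_lit 5) (nat_lit 14) (nat_lit 4) (nat_lit 12) (nat_lit 4) (nat_lit 388) (nat_lit 269) (nat_lit 123)) (XT.nd (nat_lit 78) (nat_lit 76) (nat_lit 0) (XT.lf (nat_lit 0) (nat_lit 7771862979) (nat_lit 76) (nat_lit 59030861172) (nat_lit 76) (nat_lit 251509444) (nat_lit 11) (nat_lit 4) (nat_lit 12) (nat_lit 5) (nat_lit 12) (nat_lit 4) (nat_lit 389) (nat_lit 269) (nat_lit 122)) (XT.lf (nat_lit 0) (nat_lit 4924269578) (nat_lit 152) (nat_lit 48805580534) (nat_lit 76) (nat_lit 15124304476) (nat_lit 10) (nat_lit 5) (nat_lit 12) (nat_lit 5) (nat_lit 11) (nat_lit 4) (nat_lit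 390) (nat_lit 269) (nat_lit 121)))))) (XT.nd (nat_lit 31200) (nat_lit 0) (nat_lit 17328) (XT.nd (nat_lit 234) (nat_lit 76) (nat_lit 0) (XT.nd (nat_lit 78) (nat_lit 0) (nat_lit 0) (XT.lf (nat_lit 0) (nat_lit 10245236050) (nat_lit 152) (nat_lit 38025859423) (nat_lit 76) (nat_lit 22437057150) (nat_lit 10) (nat_lit 5) (nat_lit 12) (nat_lit 5) (nat_lit 11) (nat_lit 4) (nat_lit 391) (nat_lit 269) (nat_lit 120)) (XT.nd (nat_lit 78) (nat_lit 0) (nat_lit 0) (XT.lf (nat_lit 0) (nat_lit 15720947213) (nat_lit 152) (nat_lit 26931370445) (nat_lit 76) (nat_lit 29965602566) (nat_lit 10) (nat_lit 5) (nat_lit 12) (nat_lit 5) (nat_lit 11) (nat_lit 4) (nat_lit 392) (nat_lit 269) (nat_lit 119)) (XT.lf (nat_lit 0) (nat_lit 21356187671) (nat_lit 152) (nat_lit 15512419388) (nat_lit 76) (nat_lit 37716519066) (nat_lit 10) (nat_lit 5) (nat_lit 12) (nat_lit 5) (nat_lit 11) (nat_lit 4) (nat_lit 393) (nat_lit 269) (nat_lit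 118)))) (XT.nd (nat_lit 78) (nat_lit 76) (nat_lit 0) (XT.lf (nat_lit 0) (nat_lit 27155881420) (nat_lit 152) (nat_lit 3759028528) (nat_lit 76) (nat_lit 45696579295) (nat_lit 10) (nat_lit 5) (nat_lit 12) (nat_lit 5) (nat_lit 11) (nat_lit 4) (nat_lit 394) (nat_lit 269) (nat_lit 117)) (XT.nd (nat_lit 78) (nat_lit 0) (nat_lit 0) (XT.lf (nat_lit 0) (nat_lit 8505035974) (nat_lit 76) (nat_lit 24701815788) (nat_lit 152) (nat_lit 45489475755) (nat_lit 9) (nat_lit 5) (nat_lit 10) (nat_lit 5) (nat_lit 11) (nat_lit 4) (nat_lit 395) (nat_lit 269) (nat_lit 116)) (XT.lf (nat_lit 0) (nat_lit 21206264214) (nat_lit 76) (nat_lit 18266631059) (nat_lit 152) (nat_lit 41369812097) (nat_lit 9) (nat_lit 5) (nat_lit 10) (nat_lit 5) (nat_lit 11) (nat_lit 4) (nat_lit 396) (nat_lit 269) (nat_lit 115))))) (XT.nd (nat_lit 234) (nat_lit 608) (nat_lit 0) (XT.nd (nat_lit 78) (nat_lit 0) (nat_lit 0) (XT.lf (nat_lit 0) (nat_lit 72317615)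 (nat_lit 684) (nat_lit 1684770858) (nat_lit 684) (nat_lit 1684770858) (nat_lit 245) (nat_lit 3) (nat_lit 254) (nat_lit 3) (nat_lit 254) (nat_lit 5) (nat_lit 270) (nat_lit 270) (nat_lit 240)) (XT.nd (nat_lit 78) (nat_lit 0) (nat_lit 0) (XT.lf (nat_lit 0) (nat_lit 1919443299) (nat_lit 684) (nat_lit 336615006) (nat_lit 684) (nat_lit 4673044376) (nat_lit 245) (nat_lit 3) (nat_lit 254) (nat_lit 3) (nat_lit 254) (nat_lit 5) (nat_lit 271) (nat_lit 270) (nat_lit 239)) (XT.lf (nat_lit 76) (nat_lit 2806341486) (nat_lit 0) (nat_lit 898949269) (nat_lit 684) (nat_lit 3272006749) (nat_lit 246) (nat_lit 5) (nat_lit 245) (nat_lit 3) (nat_lit 254) (nat_lit 5) (nat_lit 272) (nat_lit 270) (nat_lit 238)))) (XT.nd (nat_lit 78) (nat_lit 684) (nat_lit 0) (XT.lf (nat_lit 0) (nat_lit 5485744695) (nat_lit 608) (nat_lit 1019059932) (nat_lit 684) (nat_lit 524080417) (nat_lit 246) (nat_lit 5) (nat_lit 254) (nat_lit 5) (nat_lit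 255) (nat_lit 5) (nat_lit 273) (nat_lit 270) (nat_lit 237)) (XT.nd (nat_lit 78) (nat_lit 0) (nat_lit 0) (XT.lf (nat_lit 0) (nat_lit 197490289) (nat_lit 684) (nat_lit 4860042796) (nat_lit 760) (nat_lit 2025650173) (nat_lit 237) (nat_lit 5) (nat_lit 246) (nat_lit 5) (nat_lit 247) (nat_lit 5) (nat_lit 274) (nat_lit 270) (nat_lit 236)) (XT.lf (nat_lit 0) (nat_lit 1905231833) (nat_lit 684) (nat_lit 1608549340) (nat_lit 760) (nat_lit 3626656376) (nat_lit 237) (nat_lit 5) (nat_lit 246) (nat_lit 5) (nat_lit 247) (nat_lit 5) (nat_lit 275) (nat_lit 270) (nat_lit 235))))))))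
noncomputable def xc137 : XT := (XT.nd (nat_lit 1794) (nat_lit 5244) (nat_lit 0) (XT.nd (nat_lit 858) (nat_lit 5244) (nat_lit 0) (XT.nd (nat_lit 390) (nat_lit 1520) (nat_lit 0) (XT.nd (nat_lit 156) (nat_lit 684) (nat_lit 0) (XT.nd (nat_lit 78) (nat_lit 0) (nat_lit 0) (XT.lf (nat_lit 76) (nat_lit 1737635541) (nat_lit 0) (nat_lit 1880666681) (nat_lit 760) (nat_lit 3582642325) (nat_lit 238) (nat_lit 5) (nat_lit 237) (nat_lit 5) (nat_lit 247) (nat_lit 5) (nat_lit 276) (nat_lit 270) (nat_lit 234)) (XT.lf (nat_lit 76) (nat_lit 5180779148) (nat_lit 0) (nat_lit 157095743) (nat_lit 760) (nat_lit 1926891936) (nat_lit 238) (nat_lit 5) (nat_lit 237) (nat_lit 5) (nat_lit 247) (nat_lit 5) (nat_lit 277) (nat_lit 270) (nat_lit 233))) (XT.nd (nat_lit 78) (nat_lit 760) (nat_lit 0) (XT.lf (nat_lit 76) (nat_lit 1370399153) (nat_lit 0) (nat_lit 5708242028) (nat_lit 760) (nat_lit 252923310) (nat_lit 239) (nat_lit 5)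 (nat_lit 238) (nat_lit 5) (nat_lit 248) (nat_lit 5) (nat_lit 278) (nat_lit 270) (nat_lit 232)) (XT.nd (nat_lit 78) (nat_lit 0) (nat_lit 0) (XT.lf (nat_lit 0) (nat_lit 1406892470) (nat_lit 760) (nat_lit 2482940898) (nat_lit 836) (nat_lit 3511318666) (nat_lit 228) (nat_lit 5) (nat_lit 238) (nat_lit 5) (nat_lit 239) (nat_lit 5) (nat_lit 279) (nat_lit 270) (nat_lit 231)) (XT.lf (nat_lit 76) (nat_lit 1080900900) (nat_lit 0) (nat_lit 1984141425) (nat_lit 836) (nat_lit 4409237330) (nat_lit 229) (nat_lit 5) (nat_lit 228) (nat_lit 5) (nat_lit 239) (nat_lit 5) (nat_lit 280) (nat_lit 270) (nat_lit 230))))) (XT.nd (nat_lit 234) (nat_lit 760) (nat_lit 0) (XT.nd (nat_lit 78) (nat_lit 836) (nat_lit 0) (XT.lf (nat_lit 0) (nat_lit 4742762253) (nat_lit 760) (nat_lit 2785262785) (nat_lit 836) (nat_lit 22613604) (nat_lit 229) (nat_lit 5) (nat_lit 239) (nat_lit 5) (nat_lit 240) (nat_lit 5) (nat_lit 281) (nat_lit 270)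 (nat_lit 229)) (XT.nd (nat_lit 78) (nat_lit 836) (nat_lit 0) (XT.lf (nat_lit 76) (nat_lit 891047033) (nat_lit 0) (nat_lit 5554296456) (nat_lit 836) (nat_lit 1184837469) (nat_lit 230) (nat_lit 5) (nat_lit 229) (nat_lit 5) (nat_lit 240) (nat_lit 5) (nat_lit 282) (nat_lit 270) (nat_lit 228)) (XT.lf (nat_lit 0) (nat_lit 452677155) (nat_lit 836) (nat_lit 3020083184) (nat_lit 912) (nat_lit 4240071304) (nat_lit 218) (nat_lit 5) (nat_lit 229) (nat_lit 5) (nat_lit 230) (nat_lit 5) (nat_lit 283) (nat_lit 270) (nat_lit 227)))) (XT.nd (nat_lit 78) (nat_lit 760) (nat_lit 0) (XT.lf (nat_lit 76) (nat_lit 776484357) (nat_lit 0) (nat_lit 1294911386) (nat_lit 912) (nat_lit 5727654946) (nat_lit 219) (nat_lit 5) (nat_lit 218) (nat_lit 5) (nat_lit 230) (nat_lit 5) (nat_lit 284) (nat_lit 270) (nat_lit 226)) (XT.nd (nat_lit 78) (nat_lit 836) (nat_lit 0) (XT.lf (nat_lit 0) (nat_lit 3728292076) (nat_lit 836) (nat_lit 3186364241)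 (nat_lit 76) (nat_lit 973625630) (nat_lit 219) (nat_lit 5) (nat_lit 230) (nat_lit 5) (nat_lit 220) (nat_lit 5) (nat_lit 285) (nat_lit 270) (nat_lit 225)) (XT.lf (nat_lit 0) (nat_lit 728589160) (nat_lit 836) (nat_lit 4677297616) (nat_lit 912) (nat_lit 2575284426) (nat_lit 208) (nat_lit 5) (nat_lit 219) (nat_lit 5) (nat_lit 220) (nat_lit 5) (nat_lit 286) (nat_lit 270) (nat_lit 224)))))) (XT.nd (nat_lit 468) (nat_lit 2204) (nat_lit 0) (XT.nd (nat_lit 234) (nat_lit 2052) (nat_lit 0) (XT.nd (nat_lit 78) (nat_lit 988) (nat_lit 0) (XT.lf (nat_lit 0) (nat_lit 4788947177) (nat_lit 836) (nat_lit 2329268283) (nat_lit 912) (nat_lit 959207065) (nat_lit 208) (nat_lit 5) (nat_lit 219) (nat_lit 5) (nat_lit 220) (nat_lit 5) (nat_lit 287) (nat_lit 270) (nat_lit 223)) (XT.nd (nat_lit 78) (nat_lit 0) (nat_lit 0) (XT.lf (nat_lit 0) (nat_lit 653096046) (nat_lit 988) (nat_lit 7413335619) (nat_lit 76) (nat_lit 111182492)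 (nat_lit 195) (nat_lit 5) (nat_lit 208) (nat_lit 5) (nat_lit 196) (nat_lit 5) (nat_lit 288) (nat_lit 270) (nat_lit 222)) (XT.lf (nat_lit 0) (nat_lit 2305245448) (nat_lit 988) (nat_lit 3345183330) (nat_lit 76) (nat_lit 2629873604) (nat_lit 195) (nat_lit 5) (nat_lit 208) (nat_lit 5) (nat_lit 196) (nat_lit 5) (nat_lit 289) (nat_lit 270) (nat_lit 221)))) (XT.nd (nat_lit 78) (nat_lit 1064) (nat_lit 0) (XT.lf (nat_lit 0) (nat_lit 823702836) (nat_lit 988) (nat_lit 3146667936) (nat_lit 1064) (nat_lit 4416893717) (nat_lit 182) (nat_lit 5) (nat_lit 195) (nat_lit 5) (nat_lit 196) (nat_lit 5) (nat_lit 290) (nat_lit 270) (nat_lit 220)) (XT.nd (nat_lit 78) (nat_lit 1064) (nat_lit 0) (XT.lf (nat_lit 0) (nat_lit 5149210976) (nat_lit 988) (nat_lit 526452648) (nat_lit 1064) (nat_lit 2822158218) (nat_lit 182) (nat_lit 5) (nat_lit 195) (nat_lit 5) (nat_lit 196) (nat_lit 5) (nat_lit 291) (nat_lit 270) (nat_lit 219))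 (XT.lf (nat_lit 0) (nat_lit 953146089) (nat_lit 1064) (nat_lit 6466777538) (nat_lit 1140) (nat_lit 1192228129) (nat_lit 168) (nat_lit 5) (nat_lit 182) (nat_lit 5) (nat_lit 183) (nat_lit 5) (nat_lit 292) (nat_lit 270) (nat_lit 218))))) (XT.nd (nat_lit 234) (nat_lit 1064) (nat_lit 0) (XT.nd (nat_lit 78) (nat_lit 1064) (nat_lit 0) (XT.lf (nat_lit 0) (nat_lit 474609443) (nat_lit 1140) (nat_lit 3324434046) (nat_lit 76) (nat_lit 4930887528) (nat_lit 167) (nat_lit 5) (nat_lit 182) (nat_lit 5) (nat_lit 168) (nat_lit 5) (nat_lit 293) (nat_lit 270) (nat_lit 217)) (XT.nd (nat_lit 78) (nat_lit 0) (nat_lit 0) (XT.lf (nat_lit 0) (nat_lit 1113287739) (nat_lit 1064) (nat_lit 1024265824) (nat_lit 1140) (nat_lit 6714316492) (nat_lit 153) (nat_lit 5) (nat_lit 167) (nat_lit 5) (nat_lit 168) (nat_lit 5) (nat_lit 294) (nat_lit 270) (nat_lit 216)) (XT.lf (nat_lit 0) (nat_lit 3862143807) (nat_lit 1140) (nat_lit 3279883497)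 (nat_lit 76) (nat_lit 1835167273) (nat_lit 153) (nat_lit 5) (nat_lit 168) (nat_lit 5) (nat_lit 154) (nat_lit 5) (nat_lit 295) (nat_lit 270) (nat_lit 215)))) (XT.nd (nat_lit 78) (nat_lit 532) (nat_lit 0) (XT.lf (nat_lit 0) (nat_lit 1290973573) (nat_lit 532) (nat_lit 4331435445) (nat_lit 608) (nat_lit 3484429413) (nat_lit 146) (nat_lit 5) (nat_lit 153) (nat_lit 5) (nat_lit 154) (nat_lit 5) (nat_lit 296) (nat_lit 270) (nat_lit 214)) (XT.nd (nat_lit 78) (nat_lit 532) (nat_lit 0) (XT.lf (nat_lit 0) (nat_lit 6029897085) (nat_lit 532) (nat_lit 1400867672) (nat_lit 608) (nat_lit 1809823817) (nat_lit 146) (nat_lit 5) (nat_lit 153) (nat_lit 5) (nat_lit 154) (nat_lit 5) (nat_lit 297) (nat_lit 270) (nat_lit 213)) (XT.lf (nat_lit 0) (nat_lit 1510129308) (nat_lit 532) (nat_lit 7776586335) (nat_lit 608) (nat_lit 91908499) (nat_lit 139) (nat_lit 5) (nat_lit 146) (nat_lit 5) (nat_lit 147) (nat_lit 5) (nat_lit 298)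 (nat_lit 270) (nat_lit 212))))))) (XT.nd (nat_lit 936) (nat_lit 2204) (nat_lit 0) (XT.nd (nat_lit 468) (nat_lit 1368) (nat_lit 0) (XT.nd (nat_lit 234) (nat_lit 1064) (nat_lit 0) (XT.nd (nat_lit 78) (nat_lit 532) (nat_lit 0) (XT.lf (nat_lit 0) (nat_lit 1654997363) (nat_lit 608) (nat_lit 3148617090) (nat_lit 76) (nat_lit 4716465962) (nat_lit 138) (nat_lit 5) (nat_lit 146) (nat_lit 5) (nat_lit 139) (nat_lit 5) (nat_lit 299) (nat_lit 270) (nat_lit 211)) (XT.nd (nat_lit 78) (nat_lit 0) (nat_lit 0) (XT.lf (nat_lit 0) (nat_lit 1709516348) (nat_lit 532) (nat_lit 1724015957) (nat_lit 608) (nat_lit 6232855735) (nat_lit 131) (nat_lit 5) (nat_lit 138) (nat_lit 5) (nat_lit 139) (nat_lit 5) (nat_lit 300) (nat_lit 270) (nat_lit 210)) (XT.lf (nat_lit 0) (nat_lit 5276769998) (nat_lit 608) (nat_lit 3088963839) (nat_lit 76) (nat_lit 1451075740) (nat_lit 131) (nat_lit 5) (nat_lit 139) (nat_lit 5) (nat_lit 132) (nat_lit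 5) (nat_lit 301) (nat_lit 270) (nat_lit 209)))) (XT.nd (nat_lit 78) (nat_lit 532) (nat_lit 0) (XT.lf (nat_lit 0) (nat_lit 1909704604) (nat_lit 532) (nat_lit 5267355343) (nat_lit 608) (nat_lit 2794694348) (nat_lit 124) (nat_lit 5) (nat_lit 131) (nat_lit 5) (nat_lit 132) (nat_lit 5) (nat_lit 302) (nat_lit 270) (nat_lit 208)) (XT.nd (nat_lit 78) (nat_lit 532) (nat_lit 0) (XT.lf (nat_lit 0) (nat_lit 7086529206) (nat_lit 532) (nat_lit 2045993366) (nat_lit 608) (nat_lit 998941212) (nat_lit 124) (nat_lit 5) (nat_lit 131) (nat_lit 5) (nat_lit 132) (nat_lit 5) (nat_lit 303) (nat_lit 270) (nat_lit 207)) (XT.lf (nat_lit 0) (nat_lit 834518991) (nat_lit 532) (nat_lit 8187524167) (nat_lit 76) (nat_lit 1273720878) (nat_lit 117) (nat_lit 5) (nat_lit 124) (nat_lit 5) (nat_lit 118) (nat_lit 5) (nat_lit 304) (nat_lit 270) (nat_lit 206))))) (XT.nd (nat_lit 234) (nat_lit 912) (nat_lit 0) (XT.nd (nat_lit 78) (nat_lit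 456) (nat_lit 0) (XT.lf (nat_lit 0) (nat_lit 2722360845) (nat_lit 532) (nat_lit 3051544955) (nat_lit 76) (nat_lit 4690263252) (nat_lit 117) (nat_lit 5) (nat_lit 124) (nat_lit 5) (nat_lit 118) (nat_lit 5) (nat_lit 305) (nat_lit 270) (nat_lit 205)) (XT.nd (nat_lit 78) (nat_lit 0) (nat_lit 0) (XT.lf (nat_lit 0) (nat_lit 2247962464) (nat_lit 456) (nat_lit 2409557982) (nat_lit 532) (nat_lit 5980439808) (nat_lit 111) (nat_lit 5) (nat_lit 117) (nat_lit 5) (nat_lit 118) (nat_lit 5) (nat_lit 306) (nat_lit 270) (nat_lit 204)) (XT.lf (nat_lit 0) (nat_lit 6661613831) (nat_lit 532) (nat_lit 3092492573) (nat_lit 76) (nat_lit 1062585337) (nat_lit 111) (nat_lit 5) (nat_lit 118) (nat_lit 5) (nat_lit 112) (nat_lit 5) (nat_lit 307) (nat_lit 270) (nat_lit 203)))) (XT.nd (nat_lit 78) (nat_lit 532) (nat_lit 0) (XT.lf (nat_lit 0) (nat_lit 2351988913) (nat_lit 380) (nat_lit 6390803035) (nat_lit 456) (nat_lit 2257535744)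 (nat_lit 106) (nat_lit 5) (nat_lit 111) (nat_lit 5) (nat_lit 112) (nat_lit 5) (nat_lit 308) (nat_lit 270) (nat_lit 202)) (XT.nd (nat_lit 78) (nat_lit 532) (nat_lit 0) (XT.lf (nat_lit 0) (nat_lit 7989543469) (nat_lit 380) (nat_lit 2899122045) (nat_lit 456) (nat_lit 300789287) (nat_lit 106) (nat_lit 5) (nat_lit 111) (nat_lit 5) (nat_lit 112) (nat_lit 5) (nat_lit 309) (nat_lit 270) (nat_lit 201)) (XT.lf (nat_lit 0) (nat_lit 1682957927) (nat_lit 532) (nat_lit 8981804441) (nat_lit 76) (nat_lit 718993178) (nat_lit 99) (nat_lit 5) (nat_lit 106) (nat_lit 5) (nat_lit 100) (nat_lit 5) (nat_lit 310) (nat_lit 270) (nat_lit 200)))))) (XT.nd (nat_lit 468) (nat_lit 1064) (nat_lit 0) (XT.nd (nat_lit 234) (nat_lit 760) (nat_lit 0) (XT.nd (nat_lit 78) (nat_lit 380) (nat_lit 0) (XT.lf (nat_lit 0) (nat_lit 3753522232) (nat_lit 532) (nat_lit 3411250305) (nat_lit 76) (nat_lit 4418068573) (nat_lit 99) (nat_lit 5) (nat_lit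 106) (nat_lit 5) (nat_lit 100) (nat_lit 5) (nat_lit 311) (nat_lit 270) (nat_lit 199)) (XT.nd (nat_lit 78) (nat_lit 0) (nat_lit 0) (XT.lf (nat_lit 0) (nat_lit 2339255501) (nat_lit 380) (nat_lit 3542262771) (nat_lit 456) (nat_lit 5906565846) (nat_lit 94) (nat_lit 5) (nat_lit 99) (nat_lit 5) (nat_lit 100) (nat_lit 5) (nat_lit 312) (nat_lit 270) (nat_lit 198)) (XT.lf (nat_lit 0) (nat_lit 8083210029) (nat_lit 456) (nat_lit 3701682966) (nat_lit 76) (nat_lit 214338774) (nat_lit 94) (nat_lit 5) (nat_lit 100) (nat_lit 5) (nat_lit 95) (nat_lit 5) (nat_lit 313) (nat_lit 270) (nat_lit 197)))) (XT.nd (nat_lit 78) (nat_lit 380) (nat_lit 0) (XT.lf (nat_lit 0) (nat_lit 2193294876) (nat_lit 380) (nat_lit 8187843736) (nat_lit 456) (nat_lit 1834711430) (nat_lit 89) (nat_lit 5) (nat_lit 94) (nat_lit 5) (nat_lit 95) (nat_lit 5) (nat_lit 314) (nat_lit 270) (nat_lit 196)) (XT.nd (nat_lit 78) (nat_lit 304) (nat_lit 0)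 (XT.lf (nat_lit 0) (nat_lit 314944858) (nat_lit 456) (nat_lit 4132729001) (nat_lit 76) (nat_lit 7990885150) (nat_lit 88) (nat_lit 5) (nat_lit 94) (nat_lit 5) (nat_lit 89) (nat_lit 5) (nat_lit 315) (nat_lit 270) (nat_lit 195)) (XT.lf (nat_lit 0) (nat_lit 1921524594) (nat_lit 304) (nat_lit 564100335) (nat_lit 380) (nat_lit 10182015281) (nat_lit 84) (nat_lit 5) (nat_lit 88) (nat_lit 5) (nat_lit 89) (nat_lit 5) (nat_lit 316) (nat_lit 270) (nat_lit 194))))) (XT.nd (nat_lit 234) (nat_lit 684) (nat_lit 0) (XT.nd (nat_lit 78) (nat_lit 380) (nat_lit 0) (XT.lf (nat_lit 0) (nat_lit 4771904095) (nat_lit 380) (nat_lit 4725661186) (nat_lit 76) (nat_lit 3404551323) (nat_lit 84) (nat_lit 5) (nat_lit 89) (nat_lit 5) (nat_lit 85) (nat_lit 5) (nat_lit 317) (nat_lit 270) (nat_lit 193)) (XT.nd (nat_lit 78) (nat_lit 0) (nat_lit 0) (XT.lf (nat_lit 0) (nat_lit 1467387721) (nat_lit 380) (nat_lit 5655098080) (nat_lit 456)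 (nat_lit 6021306100) (nat_lit 79) (nat_lit 5) (nat_lit 84) (nat_lit 5) (nat_lit 85) (nat_lit 5) (nat_lit 318) (nat_lit 270) (nat_lit 192)) (XT.lf (nat_lit 0) (nat_lit 7912336083) (nat_lit 380) (nat_lit 1655394999) (nat_lit 456) (nat_lit 3824296977) (nat_lit 79) (nat_lit 5) (nat_lit 84) (nat_lit 5) (nat_lit 85) (nat_lit 5) (nat_lit 319) (nat_lit 270) (nat_lit 191)))) (XT.nd (nat_lit 78) (nat_lit 380) (nat_lit 0) (XT.lf (nat_lit 0) (nat_lit 865603383) (nat_lit 304) (nat_lit 11229785126) (nat_lit 380) (nat_lit 1552085116) (nat_lit 75) (nat_lit 5) (nat_lit 79) (nat_lit 5) (nat_lit 80) (nat_lit 5) (nat_lit 320) (nat_lit 270) (nat_lit 190)) (XT.nd (nat_lit 78) (nat_lit 304) (nat_lit 0) (XT.lf (nat_lit 0) (nat_lit 822350648) (nat_lit 380) (nat_lit 6450560176) (nat_lit 76) (nat_lit 6635993226) (nat_lit 74) (nat_lit 5) (nat_lit 79) (nat_lit 5) (nat_lit 75) (nat_lit 5) (nat_lit 321) (nat_lit 270) (nat_lit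 189)) (XT.lf (nat_lit 0) (nat_lit 26015995) (nat_lit 304) (nat_lit 3188891137) (nat_lit 380) (nat_lit 10963497834) (nat_lit 70) (nat_lit 5) (nat_lit 74) (nat_lit 5) (nat_lit 75) (nat_lit 5) (nat_lit 322) (nat_lit 270) (nat_lit 188))))))))
noncomputable def xc138 : XT := (XT.nd (nat_lit 1794) (nat_lit 1520) (nat_lit 0) (XT.nd (nat_lit 858) (nat_lit 1140) (nat_lit 0) (XT.nd (nat_lit 390) (nat_lit 532) (nat_lit 0) (XT.nd (nat_lit 156) (nat_lit 684) (nat_lit 0) (XT.nd (nat_lit 78) (nat_lit 0) (nat_lit 0) (XT.lf (nat_lit 0) (nat_lit 5732926152) (nat_lit 380) (nat_lit 7665475908) (nat_lit 76) (nat_lit 1056008454) (nat_lit 70) (nat_lit 5) (nat_lit 75) (nat_lit 5) (nat_lit 71) (nat_lit 5) (nat_lit 323) (nat_lit 270) (nat_lit 187)) (XT.lf (nat_lit 0) (nat_lit 8336816817) (nat_lit 380) (nat_lit 1044782567) (nat_lit 76) (nat_lit 5356816213) (nat_lit 70) (nat_lit 5) (nat_lit 75) (nat_lit 5) (nat_lit 71) (nat_lit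 5) (nat_lit 324) (nat_lit 270) (nat_lit 186))) (XT.nd (nat_lit 78) (nat_lit 380) (nat_lit 0) (XT.lf (nat_lit 0) (nat_lit 5860488943) (nat_lit 304) (nat_lit 5194046462) (nat_lit 380) (nat_lit 3975362538) (nat_lit 66) (nat_lit 5) (nat_lit 70) (nat_lit 5) (nat_lit 71) (nat_lit 5) (nat_lit 325) (nat_lit 270) (nat_lit 185)) (XT.nd (nat_lit 78) (nat_lit 380) (nat_lit 0) (XT.lf (nat_lit 0) (nat_lit 12966212187) (nat_lit 304) (nat_lit 877830557) (nat_lit 380) (nat_lit 1486401917) (nat_lit 66) (nat_lit 5) (nat_lit 70) (nat_lit 5) (nat_lit 71) (nat_lit 5) (nat_lit 326) (nat_lit 270) (nat_lit 184)) (XT.lf (nat_lit 0) (nat_lit 1116221687) (nat_lit 380) (nat_lit 10975030926) (nat_lit 76) (nat_lit 3546670110) (nat_lit 61) (nat_lit 5) (nat_lit 66) (nat_lit 5) (nat_lit 62) (nat_lit 5) (nat_lit 327) (nat_lit 270) (nat_lit 183))))) (XT.nd (nat_lit 234) (nat_lit 304) (nat_lit 0) (XT.nd (nat_lit 78) (nat_lit 228)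 (nat_lit 0) (XT.lf (nat_lit 0) (nat_lit 3780168251) (nat_lit 380) (nat_lit 4056252337) (nat_lit 76) (nat_lit 8117394724) (nat_lit 61) (nat_lit 5) (nat_lit 66) (nat_lit 5) (nat_lit 62) (nat_lit 5) (nat_lit 328) (nat_lit 270) (nat_lit 182)) (XT.nd (nat_lit 78) (nat_lit 0) (nat_lit 0) (XT.lf (nat_lit 0) (nat_lit 3103471795) (nat_lit 228) (nat_lit 3431284738) (nat_lit 304) (nat_lit 9744130985) (nat_lit 58) (nat_lit 5) (nat_lit 61) (nat_lit 5) (nat_lit 62) (nat_lit 5) (nat_lit 329) (nat_lit 270) (nat_lit 181)) (XT.lf (nat_lit 0) (nat_lit 9405090683) (nat_lit 304) (nat_lit 6089804960) (nat_lit 76) (nat_lit 1117846824) (nat_lit 58) (nat_lit 5) (nat_lit 62) (nat_lit 5) (nat_lit 59) (nat_lit 5) (nat_lit 330) (nat_lit 270) (nat_lit 180)))) (XT.nd (nat_lit 78) (nat_lit 76) (nat_lit 0) (XT.lf (nat_lit 0) (nat_lit 1170621152) (nat_lit 228) (nat_lit 11217800595) (nat_lit 304) (nat_lit 4567407841) (nat_lit 55)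 (nat_lit 5) (nat_lit 58) (nat_lit 5) (nat_lit 59) (nat_lit 5) (nat_lit 331) (nat_lit 270) (nat_lit 179)) (XT.nd (nat_lit 78) (nat_lit 76) (nat_lit 0) (XT.lf (nat_lit 0) (nat_lit 8747333196) (nat_lit 228) (nat_lit 6757356421) (nat_lit 304) (nat_lit 1803239055) (nat_lit 55) (nat_lit 5) (nat_lit 58) (nat_lit 5) (nat_lit 59) (nat_lit 5) (nat_lit 332) (nat_lit 270) (nat_lit 178)) (XT.lf (nat_lit 0) (nat_lit 1005758215) (nat_lit 304) (nat_lit 1155246334) (nat_lit 76) (nat_lit 15509838139) (nat_lit 54) (nat_lit 5) (nat_lit 58) (nat_lit 5) (nat_lit 55) (nat_lit 5) (nat_lit 333) (nat_lit 270) (nat_lit 177)))))) (XT.nd (nat_lit 468) (nat_lit 380) (nat_lit 0) (XT.nd (nat_lit 234) (nat_lit 304) (nat_lit 0) (XT.nd (nat_lit 78) (nat_lit 228) (nat_lit 0) (XT.lf (nat_lit 0) (nat_lit 3934062023) (nat_lit 304) (nat_lit 11511062531) (nat_lit 76) (nat_lit 2596866108) (nat_lit 51) (nat_lit 5) (nat_lit 55) (nat_lit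 5) (nat_lit 52) (nat_lit 5) (nat_lit 334) (nat_lit 270) (nat_lit 176)) (XT.nd (nat_lit 78) (nat_lit 228) (nat_lit 0) (XT.lf (nat_lit 0) (nat_lit 6966365639) (nat_lit 304) (nat_lit 3999481346) (nat_lit 76) (nat_lit 7457961520) (nat_lit 51) (nat_lit 5) (nat_lit 55) (nat_lit 5) (nat_lit 52) (nat_lit 5) (nat_lit 335) (nat_lit 270) (nat_lit 175)) (XT.lf (nat_lit 0) (nat_lit 3786663071) (nat_lit 228) (nat_lit 6322844320) (nat_lit 304) (nat_lit 8706996793) (nat_lit 48) (nat_lit 5) (nat_lit 51) (nat_lit 5) (nat_lit 52) (nat_lit 5) (nat_lit 336) (nat_lit 270) (nat_lit 174)))) (XT.nd (nat_lit 78) (nat_lit 304) (nat_lit 0) (XT.lf (nat_lit 0) (nat_lit 11863943551) (nat_lit 228) (nat_lit 1507102675) (nat_lit 304) (nat_lit 5849230230) (nat_lit 48) (nat_lit 5) (nat_lit 51) (nat_lit 5) (nat_lit 52) (nat_lit 5) (nat_lit 337) (nat_lit 270) (nat_lit 173)) (XT.nd (nat_lit 78) (nat_lit 76) (nat_lit 0) (XT.lf (nat_lit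 0) (nat_lit 499801505) (nat_lit 228) (nat_lit 16252741682) (nat_lit 304) (nat_lit 2882973608) (nat_lit 45) (nat_lit 5) (nat_lit 48) (nat_lit 5) (nat_lit 49) (nat_lit 5) (nat_lit 338) (nat_lit 270) (nat_lit 172)) (XT.lf (nat_lit 0) (nat_lit 243025648) (nat_lit 304) (nat_lit 11360115584) (nat_lit 76) (nat_lit 8457817149) (nat_lit 44) (nat_lit 5) (nat_lit 48) (nat_lit 5) (nat_lit 45) (nat_lit 5) (nat_lit 339) (nat_lit 270) (nat_lit 171))))) (XT.nd (nat_lit 234) (nat_lit 152) (nat_lit 0) (XT.nd (nat_lit 78) (nat_lit 228) (nat_lit 0) (XT.lf (nat_lit 0) (nat_lit 3389495618) (nat_lit 304) (nat_lit 3403320397) (nat_lit 76) (nat_lit 13705968510) (nat_lit 44) (nat_lit 5) (nat_lit 48) (nat_lit 5) (nat_lit 45) (nat_lit 5) (nat_lit 340) (nat_lit 270) (nat_lit 170)) (XT.nd (nat_lit 78) (nat_lit 0) (nat_lit 0) (XT.lf (nat_lit 0) (nat_lit 4864254847) (nat_lit 228) (nat_lit 1797946191) (nat_lit 304) (nat_lit 14286605397)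 (nat_lit 41) (nat_lit 5) (nat_lit 44) (nat_lit 5) (nat_lit 45) (nat_lit 5) (nat_lit 341) (nat_lit 270) (nat_lit 169)) (XT.lf (nat_lit 0) (nat_lit 10085190025) (nat_lit 304) (nat_lit 8017186981) (nat_lit 76) (nat_lit 3308404676) (nat_lit 41) (nat_lit 5) (nat_lit 45) (nat_lit 5) (nat_lit 42) (nat_lit 5) (nat_lit 342) (nat_lit 270) (nat_lit 168)))) (XT.nd (nat_lit 78) (nat_lit 0) (nat_lit 0) (XT.lf (nat_lit 0) (nat_lit 257084042) (nat_lit 152) (nat_lit 13359711777) (nat_lit 228) (nat_lit 8269657843) (nat_lit 39) (nat_lit 5) (nat_lit 41) (nat_lit 5) (nat_lit 42) (nat_lit 5) (nat_lit 343) (nat_lit 270) (nat_lit 167)) (XT.nd (nat_lit 78) (nat_lit 0) (nat_lit 0) (XT.lf (nat_lit 0) (nat_lit 8921816880) (nat_lit 152) (nat_lit 8399350510) (nat_lit 228) (nat_lit 5053238732) (nat_lit 39) (nat_lit 5) (nat_lit 41) (nat_lit 5) (nat_lit 42) (nat_lit 5) (nat_lit 344) (nat_lit 270) (nat_lit 166)) (XT.lf (nat_lit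 0) (nat_lit 17825024916) (nat_lit 152) (nat_lit 3297916776) (nat_lit 228) (nat_lit 1754481728) (nat_lit 39) (nat_lit 5) (nat_lit 41) (nat_lit 5) (nat_lit 42) (nat_lit 5) (nat_lit 345) (nat_lit 270) (nat_lit 165))))))) (XT.nd (nat_lit 936) (nat_lit 684) (nat_lit 0) (XT.nd (nat_lit 468) (nat_lit 380) (nat_lit 0) (XT.nd (nat_lit 234) (nat_lit 152) (nat_lit 0) (XT.nd (nat_lit 78) (nat_lit 0) (nat_lit 0) (XT.lf (nat_lit 0) (nat_lit 1651864794) (nat_lit 304) (nat_lit 19779876505) (nat_lit 76) (nat_lit 1962108883) (nat_lit 35) (nat_lit 5) (nat_lit 39) (nat_lit 5) (nat_lit 36) (nat_lit 5) (nat_lit 346) (nat_lit 270) (nat_lit 164)) (XT.nd (nat_lit 78) (nat_lit 0) (nat_lit 0) (XT.lf (nat_lit 0) (nat_lit 5195959241) (nat_lit 304) (nat_lit 11352116314) (nat_lit 76) (nat_lit 7375061621) (nat_lit 35) (nat_lit 5) (nat_lit 39) (nat_lit 5) (nat_lit 36) (nat_lit 5) (nat_lit 347) (nat_lit 270) (nat_lit 163)) (XT.lf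 (nat_lit 0) (nat_lit 8833409311) (nat_lit 304) (nat_lit 2692158754) (nat_lit 76) (nat_lit 12943136539) (nat_lit 35) (nat_lit 5) (nat_lit 39) (nat_lit 5) (nat_lit 36) (nat_lit 5) (nat_lit 348) (nat_lit 270) (nat_lit 162)))) (XT.nd (nat_lit 78) (nat_lit 0) (nat_lit 0) (XT.lf (nat_lit 0) (nat_lit 6331105805) (nat_lit 152) (nat_lit 6297146014) (nat_lit 228) (nat_lit 12400951601) (nat_lit 33) (nat_lit 5) (nat_lit 35) (nat_lit 5) (nat_lit 36) (nat_lit 5) (nat_lit 349) (nat_lit 270) (nat_lit 161)) (XT.nd (nat_lit 78) (nat_lit 0) (nat_lit 0) (XT.lf (nat_lit 0) (nat_lit 15660416928) (nat_lit 152) (nat_lit 891294665) (nat_lit 228) (nat_lit 9054374519) (nat_lit 33) (nat_lit 5) (nat_lit 35) (nat_lit 5) (nat_lit 36) (nat_lit 5) (nat_lit 350) (nat_lit 270) (nat_lit 160)) (XT.lf (nat_lit 0) (nat_lit 20625709507) (nat_lit 228) (nat_lit 995187684) (nat_lit 76) (nat_lit 4578404783) (nat_lit 33) (nat_lit 5) (nat_lit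 36) (nat_lit 5) (nat_lit 34) (nat_lit 5) (nat_lit 351) (nat_lit 270) (nat_lit 159))))) (XT.nd (nat_lit 234) (nat_lit 152) (nat_lit 0) (XT.nd (nat_lit 78) (nat_lit 76) (nat_lit 0) (XT.lf (nat_lit 0) (nat_lit 8359105474) (nat_lit 152) (nat_lit 16540231200) (nat_lit 228) (nat_lit 1908666739) (nat_lit 31) (nat_lit 5) (nat_lit 33) (nat_lit 5) (nat_lit 34) (nat_lit 5) (nat_lit 352) (nat_lit 270) (nat_lit 158)) (XT.nd (nat_lit 78) (nat_lit 0) (nat_lit 0) (XT.lf (nat_lit 0) (nat_lit 1828207295) (nat_lit 228) (nat_lit 9457327568) (nat_lit 76) (nat_lit 16148951072) (nat_lit 30) (nat_lit 5) (nat_lit 33) (nat_lit 5) (nat_lit 31) (nat_lit 5) (nat_lit 353) (nat_lit 270) (nat_lit 157)) (XT.lf (nat_lit 0) (nat_lit 5627434953) (nat_lit 228) (nat_lit 233405194) (nat_lit 76) (nat_lit 22218707979) (nat_lit 30) (nat_lit 5) (nat_lit 33) (nat_lit 5) (nat_lit 31) (nat_lit 5) (nat_lit 354) (nat_lit 270) (nat_lit 156))))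 (XT.nd (nat_lit 78) (nat_lit 0) (nat_lit 0) (XT.lf (nat_lit 0) (nat_lit 9433354928) (nat_lit 152) (nat_lit 186905160) (nat_lit 228) (nat_lit 19121323584) (nat_lit 28) (nat_lit 5) (nat_lit 30) (nat_lit 5) (nat_lit 31) (nat_lit 5) (nat_lit 355) (nat_lit 270) (nat_lit 155)) (XT.nd (nat_lit 78) (nat_lit 0) (nat_lit 0) (XT.lf (nat_lit 0) (nat_lit 13778657712) (nat_lit 228) (nat_lit 10100964946) (nat_lit 76) (nat_lit 5542493808) (nat_lit 28) (nat_lit 5) (nat_lit 31) (nat_lit 5) (nat_lit 29) (nat_lit 5) (nat_lit 356) (nat_lit 270) (nat_lit 154)) (XT.lf (nat_lit 0) (nat_lit 18053003963) (nat_lit 228) (nat_lit 636861488) (nat_lit 76) (nat_lit 11433473423) (nat_lit 28) (nat_lit 5) (nat_lit 31) (nat_lit 5) (nat_lit 29) (nat_lit 5) (nat_lit 357) (nat_lit 270) (nat_lit 153)))))) (XT.nd (nat_lit 468) (nat_lit 304) (nat_lit 0) (XT.nd (nat_lit 234) (nat_lit 228) (nat_lit 0) (XT.nd (nat_lit 78) (nat_lit 0) (nat_lit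 0) (XT.lf (nat_lit 0) (nat_lit 9275139256) (nat_lit 152) (nat_lit 13259256116) (nat_lit 228) (nat_lit 8308847390) (nat_lit 26) (nat_lit 5) (nat_lit 28) (nat_lit 5) (nat_lit 29) (nat_lit 5) (nat_lit 358) (nat_lit 270) (nat_lit 152)) (XT.nd (nat_lit 78) (nat_lit 0) (nat_lit 0) (XT.lf (nat_lit 0) (nat_lit 19480704703) (nat_lit 152) (nat_lit 7665750624) (nat_lit 228) (nat_lit 4438410618) (nat_lit 26) (nat_lit 5) (nat_lit 28) (nat_lit 5) (nat_lit 29) (nat_lit 5) (nat_lit 359) (nat_lit 270) (nat_lit 151)) (XT.lf (nat_lit 0) (nat_lit 29976077544) (nat_lit 152) (nat_lit 1910892497) (nat_lit 228) (nat_lit 462073713) (nat_lit 26) (nat_lit 5) (nat_lit 28) (nat_lit 5) (nat_lit 29) (nat_lit 5) (nat_lit 360) (nat_lit 270) (nat_lit 150)))) (XT.nd (nat_lit 78) (nat_lit 0) (nat_lit 0) (XT.lf (nat_lit 0) (nat_lit 3667061480) (nat_lit 228) (nat_lit 25422406348) (nat_lit 76) (nat_lit 4042507097) (nat_lit 23) (nat_lit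 5) (nat_lit 26) (nat_lit 5) (nat_lit 24) (nat_lit 5) (nat_lit 361) (nat_lit 270) (nat_lit 149)) (XT.nd (nat_lit 78) (nat_lit 0) (nat_lit 0) (XT.lf (nat_lit 0) (nat_lit 7944249940) (nat_lit 228) (nat_lit 15834346167) (nat_lit 76) (nat_lit 10158664661) (nat_lit 23) (nat_lit 5) (nat_lit 26) (nat_lit 5) (nat_lit 24) (nat_lit 5) (nat_lit 362) (nat_lit 270) (nat_lit 148)) (XT.lf (nat_lit 0) (nat_lit 12340382354) (nat_lit 228) (nat_lit 5974335377) (nat_lit 76) (nat_lit 16452276354) (nat_lit 23) (nat_lit 5) (nat_lit 26) (nat_lit 5) (nat_lit 24) (nat_lit 5) (nat_lit 363) (nat_lit 270) (nat_lit 147))))) (XT.nd (nat_lit 234) (nat_lit 152) (nat_lit 0) (XT.nd (nat_lit 78) (nat_lit 0) (nat_lit 0) (XT.lf (nat_lit 0) (nat_lit 4249157941) (nat_lit 152) (nat_lit 12650987568) (nat_lit 228) (nat_lit 18720529012) (nat_lit 21) (nat_lit 5) (nat_lit 23) (nat_lit 5) (nat_lit 24) (nat_lit 5) (nat_lit 364) (nat_lit 270)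 (nat_lit 146)) (XT.nd (nat_lit 78) (nat_lit 0) (nat_lit 0) (XT.lf (nat_lit 0) (nat_lit 14886739261) (nat_lit 152) (nat_lit 6761312640) (nat_lit 228) (nat_lit 14850380261) (nat_lit 21) (nat_lit 5) (nat_lit 23) (nat_lit 5) (nat_lit 24) (nat_lit 5) (nat_lit 365) (nat_lit 270) (nat_lit 145)) (XT.lf (nat_lit 0) (nat_lit 25828802568) (nat_lit 152) (nat_lit 700875705) (nat_lit 228) (nat_lit 10873112868) (nat_lit 21) (nat_lit 5) (nat_lit 23) (nat_lit 5) (nat_lit 24) (nat_lit 5) (nat_lit 366) (nat_lit 270) (nat_lit 144)))) (XT.nd (nat_lit 78) (nat_lit 152) (nat_lit 0) (XT.lf (nat_lit 0) (nat_lit 31602501876) (nat_lit 228) (nat_lit 1302844540) (nat_lit 76) (nat_lit 5427598905) (nat_lit 21) (nat_lit 5) (nat_lit 24) (nat_lit 5) (nat_lit 22) (nat_lit 4) (nat_lit 367) (nat_lit 270) (nat_lit 143)) (XT.nd (nat_lit 78) (nat_lit 76) (nat_lit 0) (XT.lf (nat_lit 0) (nat_lit 9439692638) (nat_lit 76) (nat_lit 27477226488)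 (nat_lit 152) (nat_lit 2371409415) (nat_lit 20) (nat_lit 5) (nat_lit 21) (nat_lit 5) (nat_lit 22) (nat_lit 4) (nat_lit 368) (nat_lit 270) (nat_lit 142)) (XT.lf (nat_lit 0) (nat_lit 2082094425) (nat_lit 152) (nat_lit 19775296593) (nat_lit 76) (nat_lit 18414226550) (nat_lit 19) (nat_lit 5) (nat_lit 21) (nat_lit 5) (nat_lit 20) (nat_lit 5) (nat_lit 369) (nat_lit 270) (nat_lit 141))))))))
noncomputable def xc139 : XT := (XT.nd (nat_lit 1794) (nat_lit 76) (nat_lit 0) (XT.nd (nat_lit 858) (nat_lit 228) (nat_lit 0) (XT.nd (nat_lit 390) (nat_lit 304) (nat_lit 0) (XT.nd (nat_lit 156) (nat_lit 0) (nat_lit 0) (XT.nd (nat_lit 78) (nat_lit 152) (nat_lit 0) (XT.lf (nat_lit 0) (nat_lit 6613530578) (nat_lit 152) (nat_lit 9436864963) (nat_lit 76) (nat_lit 25233551757) (nat_lit 19) (nat_lit 5) (nat_lit 21) (nat_lit 5) (nat_lit 20) (nat_lit 5) (nat_lit 370) (nat_lit 270) (nat_lit 140)) (XT.lf (nat_lit 0) (nat_lit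 1222340267) (nat_lit 152) (nat_lit 10062542904) (nat_lit 228) (nat_lit 31041650486) (nat_lit 17) (nat_lit 5) (nat_lit 19) (nat_lit 5) (nat_lit 20) (nat_lit 5) (nat_lit 371) (nat_lit 270) (nat_lit 139))) (XT.nd (nat_lit 78) (nat_lit 0) (nat_lit 0) (XT.lf (nat_lit 0) (nat_lit 12381666247) (nat_lit 152) (nat_lit 3802327960) (nat_lit 228) (nat_lit 27213780630) (nat_lit 17) (nat_lit 5) (nat_lit 19) (nat_lit 5) (nat_lit 20) (nat_lit 5) (nat_lit 372) (nat_lit 270) (nat_lit 138)) (XT.nd (nat_lit 78) (nat_lit 0) (nat_lit 0) (XT.lf (nat_lit 0) (nat_lit 21248007565) (nat_lit 228) (nat_lit 20663712081) (nat_lit 76) (nat_lit 2588901335) (nat_lit 17) (nat_lit 5) (nat_lit 20) (nat_lit 5) (nat_lit 18) (nat_lit 4) (nat_lit 373) (nat_lit 270) (nat_lit 137)) (XT.lf (nat_lit 0) (nat_lit 26494303634) (nat_lit 228) (nat_lit 10050913604) (nat_lit 76) (nat_lit 9090429835) (nat_lit 17) (nat_lit 5) (nat_lit 20) (nat_lit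 5) (nat_lit 18) (nat_lit 4) (nat_lit 374) (nat_lit 270) (nat_lit 136))))) (XT.nd (nat_lit 234) (nat_lit 228) (nat_lit 0) (XT.nd (nat_lit 78) (nat_lit 0) (nat_lit 0) (XT.lf (nat_lit 0) (nat_lit 885387560) (nat_lit 76) (nat_lit 31014039582) (nat_lit 152) (nat_lit 14905258926) (nat_lit 16) (nat_lit 5) (nat_lit 17) (nat_lit 5) (nat_lit 18) (nat_lit 4) (nat_lit 375) (nat_lit 270) (nat_lit 135)) (XT.nd (nat_lit 78) (nat_lit 0) (nat_lit 0) (XT.lf (nat_lit 0) (nat_lit 12343772469) (nat_lit 76) (nat_lit 25217444339) (nat_lit 152) (nat_lit 10444749173) (nat_lit 16) (nat_lit 5) (nat_lit 17) (nat_lit 5) (nat_lit 18) (nat_lit 4) (nat_lit 376) (nat_lit 270) (nat_lit 134)) (XT.lf (nat_lit 0) (nat_lit 24134220413) (nat_lit 76) (nat_lit 19251861045) (nat_lit 152) (nat_lit 5857411168) (nat_lit 16) (nat_lit 5) (nat_lit 17) (nat_lit 5) (nat_lit 18) (nat_lit 4) (nat_lit 377) (nat_lit 270) (nat_lit 133)))) (XT.nd (nat_lit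 78) (nat_lit 228) (nat_lit 0) (XT.lf (nat_lit 0) (nat_lit 36267033727) (nat_lit 76) (nat_lit 13112077052) (nat_lit 152) (nat_lit 1139236557) (nat_lit 16) (nat_lit 5) (nat_lit 17) (nat_lit 5) (nat_lit 18) (nat_lit 4) (nat_lit 378) (nat_lit 270) (nat_lit 132)) (XT.nd (nat_lit 78) (nat_lit 152) (nat_lit 0) (XT.lf (nat_lit 0) (nat_lit 3641425821) (nat_lit 152) (nat_lit 3114530420) (nat_lit 76) (nat_lit 45074616816) (nat_lit 15) (nat_lit 5) (nat_lit 17) (nat_lit 5) (nat_lit 16) (nat_lit 5) (nat_lit 379) (nat_lit 270) (nat_lit 131)) (XT.lf (nat_lit 0) (nat_lit 8500118794) (nat_lit 152) (nat_lit 117930733) (nat_lit 228) (nat_lit 44561518884) (nat_lit 13) (nat_lit 5) (nat_lit 15) (nat_lit 5) (nat_lit 16) (nat_lit 5) (nat_lit 380) (nat_lit 270) (nat_lit 130)))))) (XT.nd (nat_lit 468) (nat_lit 152) (nat_lit 0) (XT.nd (nat_lit 234) (nat_lit 76) (nat_lit 0) (XT.nd (nat_lit 78) (nat_lit 0) (nat_lit 0) (XT.lf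 (nat_lit 0) (nat_lit 13834090045) (nat_lit 228) (nat_lit 34116804734) (nat_lit 76) (nat_lit 6615439593) (nat_lit 13) (nat_lit 5) (nat_lit 16) (nat_lit 5) (nat_lit 14) (nat_lit 4) (nat_lit 381) (nat_lit 270) (nat_lit 129)) (XT.nd (nat_lit 78) (nat_lit 0) (nat_lit 0) (XT.lf (nat_lit 0) (nat_lit 19201727618) (nat_lit 228) (nat_lit 23248997784) (nat_lit 76) (nat_lit 13544128599) (nat_lit 13) (nat_lit 5) (nat_lit 16) (nat_lit 5) (nat_lit 14) (nat_lit 4) (nat_lit 382) (nat_lit 270) (nat_lit 128)) (XT.lf (nat_lit 0) (nat_lit 24724518792) (nat_lit 228) (nat_lit 12065399005) (nat_lit 76) (nat_lit 20676491732) (nat_lit 13) (nat_lit 5) (nat_lit 16) (nat_lit 5) (nat_lit 14) (nat_lit 4) (nat_lit 383) (nat_lit 270) (nat_lit 127)))) (XT.nd (nat_lit 78) (nat_lit 76) (nat_lit 0) (XT.lf (nat_lit 0) (nat_lit 30407289308) (nat_lit 228) (nat_lit 556236318) (nat_lit 76) (nat_lit 28018761154) (nat_lit 13) (nat_lit 5)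 (nat_lit 16) (nat_lit 5) (nat_lit 14) (nat_lit 4) (nat_lit 384) (nat_lit 270) (nat_lit 126)) (XT.nd (nat_lit 78) (nat_lit 0) (nat_lit 0) (XT.lf (nat_lit 0) (nat_lit 11513211040) (nat_lit 76) (nat_lit 24852465680) (nat_lit 152) (nat_lit 24174813428) (nat_lit 12) (nat_lit 5) (nat_lit 13) (nat_lit 5) (nat_lit 14) (nat_lit 4) (nat_lit 385) (nat_lit 270) (nat_lit 125)) (XT.lf (nat_lit 0) (nat_lit 23946584347) (nat_lit 76) (nat_lit 18556379472) (nat_lit 152) (nat_lit 19642475056) (nat_lit 12) (nat_lit 5) (nat_lit 13) (nat_lit 5) (nat_lit 14) (nat_lit 4) (nat_lit 386) (nat_lit 270) (nat_lit 124))))) (XT.nd (nat_lit 234) (nat_lit 152) (nat_lit 0) (XT.nd (nat_lit 78) (nat_lit 0) (nat_lit 0) (XT.lf (nat_lit 0) (nat_lit 36743677521) (nat_lit 76) (nat_lit 12075382463) (nat_lit 152) (nat_lit 14979638959) (nat_lit 12) (nat_lit 5) (nat_lit 13) (nat_lit 5) (nat_lit 14) (nat_lit 4) (nat_lit 387) (nat_lit 270) (nat_lit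 123)) (XT.nd (nat_lit 78) (nat_lit 0) (nat_lit 0) (XT.lf (nat_lit 0) (nat_lit 49915672488) (nat_lit 76) (nat_lit 5403811647) (nat_lit 152) (nat_lit 10182230813) (nat_lit 12) (nat_lit 5) (nat_lit 13) (nat_lit 5) (nat_lit 14) (nat_lit 4) (nat_lit 388) (nat_lit 270) (nat_lit 122)) (XT.lf (nat_lit 0) (nat_lit 62023990681) (nat_lit 152) (nat_lit 3795970632) (nat_lit 0) (nat_lit 1435591418) (nat_lit 12) (nat_lit 5) (nat_lit 14) (nat_lit 4) (nat_lit 12) (nat_lit 4) (nat_lit 389) (nat_lit 270) (nat_lit 121)))) (XT.nd (nat_lit 78) (nat_lit 0) (nat_lit 0) (XT.lf (nat_lit 0) (nat_lit 1333626) (nat_lit 152) (nat_lit 60607532826) (nat_lit 76) (nat_lit 8449246846) (nat_lit 10) (nat_lit 5) (nat_lit 12) (nat_lit 5) (nat_lit 11) (nat_lit 4) (nat_lit 390) (nat_lit 270) (nat_lit 120)) (XT.nd (nat_lit 78) (nat_lit 0) (nat_lit 0) (XT.lf (nat_lit 0) (nat_lit 5319894038) (nat_lit 152) (nat_lit 49832059876) (nat_lit 76)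 (nat_lit 15760231127) (nat_lit 10) (nat_lit 5) (nat_lit 12) (nat_lit 5) (nat_lit 11) (nat_lit 4) (nat_lit 391) (nat_lit 270) (nat_lit 119)) (XT.lf (nat_lit 0) (nat_lit 10793269221) (nat_lit 152) (nat_lit 38741695327) (nat_lit 76) (nat_lit 23287059657) (nat_lit 10) (nat_lit 5) (nat_lit 12) (nat_lit 5) (nat_lit 11) (nat_lit 4) (nat_lit 392) (nat_lit 270) (nat_lit 118))))))) (XT.nd (nat_lit 31746) (nat_lit 0) (nat_lit 14136) (XT.nd (nat_lit 31278) (nat_lit 0) (nat_lit 16568) (XT.nd (nat_lit 234) (nat_lit 76) (nat_lit 0) (XT.nd (nat_lit 78) (nat_lit 0) (nat_lit 0) (XT.lf (nat_lit 0) (nat_lit 16426241736) (nat_lit 152) (nat_lit 27326748570) (nat_lit 76) (nat_lit 31036309277) (nat_lit 10) (nat_lit 5) (nat_lit 12) (nat_lit 5) (nat_lit 11) (nat_lit 4) (nat_lit 393) (nat_lit 270) (nat_lit 117)) (XT.nd (nat_lit 78) (nat_lit 0) (nat_lit 0) (XT.lf (nat_lit 0) (nat_lit 22223733599) (nat_lit 152) (nat_lit 15577245379)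 (nat_lit 76) (nat_lit 39014751176) (nat_lit 10) (nat_lit 5) (nat_lit 12) (nat_lit 5) (nat_lit 11) (nat_lit 4) (nat_lit 394) (nat_lit 270) (nat_lit 116)) (XT.lf (nat_lit 0) (nat_lit 28190810579) (nat_lit 152) (nat_lit 3482919199) (nat_lit 76) (nat_lit 47229356808) (nat_lit 10) (nat_lit 5) (nat_lit 12) (nat_lit 5) (nat_lit 11) (nat_lit 4) (nat_lit 395) (nat_lit 270) (nat_lit 115)))) (XT.nd (nat_lit 30888) (nat_lit 0) (nat_lit 17936) (XT.lf (nat_lit 0) (nat_lit 9145254687) (nat_lit 76) (nat_lit 25275341721) (nat_lit 152) (nat_lit 46629959078) (nat_lit 9) (nat_lit 5) (nat_lit 10) (nat_lit 5) (nat_lit 11) (nat_lit 4) (nat_lit 396) (nat_lit 270) (nat_lit 114)) (XT.nd (nat_lit 78) (nat_lit 0) (nat_lit 0) (XT.lf (nat_lit 0) (nat_lit 1830085998) (nat_lit 684) (nat_lit 828856825) (nat_lit 684) (nat_lit 828856825) (nat_lit 245) (nat_lit 3) (nat_lit 254) (nat_lit 3) (nat_lit 254) (nat_lit 5) (nat_lit 271)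 (nat_lit 271) (nat_lit 238)) (XT.lf (nat_lit 76) (nat_lit 1441526914) (nat_lit 0) (nat_lit 3958286337) (nat_lit 684) (nat_lit 1625454643) (nat_lit 246) (nat_lit 5) (nat_lit 245) (nat_lit 3) (nat_lit 254) (nat_lit 5) (nat_lit 272) (nat_lit 271) (nat_lit 237))))) (XT.nd (nat_lit 234) (nat_lit 684) (nat_lit 0) (XT.nd (nat_lit 78) (nat_lit 0) (nat_lit 0) (XT.lf (nat_lit 0) (nat_lit 63516182) (nat_lit 684) (nat_lit 2445299162) (nat_lit 760) (nat_lit 4569229158) (nat_lit 236) (nat_lit 5) (nat_lit 245) (nat_lit 3) (nat_lit 246) (nat_lit 5) (nat_lit 273) (nat_lit 271) (nat_lit 236)) (XT.nd (nat_lit 78) (nat_lit 0) (nat_lit 76) (XT.lf (nat_lit 76) (nat_lit 751074264) (nat_lit 0) (nat_lit 962206279) (nat_lit 760) (nat_lit 5420519942) (nat_lit 237) (nat_lit 5) (nat_lit 236) (nat_lit 5) (nat_lit 246) (nat_lit 5) (nat_lit 274) (nat_lit 271) (nat_lit 235)) (XT.lf (nat_lit 0) (nat_lit 3380932075) (nat_lit 684)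 (nat_lit 3140092271) (nat_lit 760) (nat_lit 671310952) (nat_lit 237) (nat_lit 5) (nat_lit 246) (nat_lit 5) (nat_lit 247) (nat_lit 5) (nat_lit 275) (nat_lit 271) (nat_lit 234)))) (XT.nd (nat_lit 78) (nat_lit 760) (nat_lit 0) (XT.lf (nat_lit 76) (nat_lit 157680619) (nat_lit 0) (nat_lit 4891191927) (nat_lit 760) (nat_lit 2205399203) (nat_lit 238) (nat_lit 5) (nat_lit 237) (nat_lit 5) (nat_lit 247) (nat_lit 5) (nat_lit 276) (nat_lit 271) (nat_lit 233)) (XT.nd (nat_lit 78) (nat_lit 760) (nat_lit 0) (XT.lf (nat_lit 76) (nat_lit 3583415213) (nat_lit 0) (nat_lit 3155792341) (nat_lit 760) (nat_lit 579836959) (nat_lit 238) (nat_lit 5) (nat_lit 237) (nat_lit 5) (nat_lit 247) (nat_lit 5) (nat_lit 277) (nat_lit 271) (nat_lit 232)) (XT.lf (nat_lit 0) (nat_lit 1014798644) (nat_lit 760) (nat_lit 319971872) (nat_lit 836) (nat_lit 6052564757) (nat_lit 227) (nat_lit 5) (nat_lit 237) (nat_lit 5) (nat_lit 238) (nat_lit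 5) (nat_lit 278) (nat_lit 271) (nat_lit 231)))))) (XT.nd (nat_lit 468) (nat_lit 1748) (nat_lit 0) (XT.nd (nat_lit 234) (nat_lit 760) (nat_lit 0) (XT.nd (nat_lit 78) (nat_lit 0) (nat_lit 0) (XT.lf (nat_lit 0) (nat_lit 2625716187) (nat_lit 760) (nat_lit 4243497429) (nat_lit 836) (nat_lit 589022274) (nat_lit 228) (nat_lit 5) (nat_lit 238) (nat_lit 5) (nat_lit 239) (nat_lit 5) (nat_lit 279) (nat_lit 271) (nat_lit 230)) (XT.nd (nat_lit 78) (nat_lit 0) (nat_lit 0) (XT.lf (nat_lit 0) (nat_lit 4246326127) (nat_lit 760) (nat_lit 718595456) (nat_lit 836) (nat_lit 2567633301) (nat_lit 228) (nat_lit 5) (nat_lit 238) (nat_lit 5) (nat_lit 239) (nat_lit 5) (nat_lit 280) (nat_lit 271) (nat_lit 229)) (XT.lf (nat_lit 76) (nat_lit 2934133815) (nat_lit 0) (nat_lit 2956116736) (nat_lit 836) (nat_lit 1719740462) (nat_lit 229) (nat_lit 5) (nat_lit 228) (nat_lit 5) (nat_lit 239) (nat_lit 5) (nat_lit 281) (nat_lit 271)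 (nat_lit 228)))) (XT.nd (nat_lit 78) (nat_lit 760) (nat_lit 0) (XT.lf (nat_lit 76) (nat_lit 6676345043) (nat_lit 0) (nat_lit 862119254) (nat_lit 836) (nat_lit 152761488) (nat_lit 229) (nat_lit 5) (nat_lit 228) (nat_lit 5) (nat_lit 239) (nat_lit 5) (nat_lit 282) (nat_lit 271) (nat_lit 227)) (XT.nd (nat_lit 78) (nat_lit 0) (nat_lit 0) (XT.lf (nat_lit 0) (nat_lit 1420873415) (nat_lit 836) (nat_lit 5027548532) (nat_lit 912) (nat_lit 1326527007) (nat_lit 218) (nat_lit 5) (nat_lit 229) (nat_lit 5) (nat_lit 230) (nat_lit 5) (nat_lit 283) (nat_lit 271) (nat_lit 226)) (XT.lf (nat_lit 0) (nat_lit 3007463245) (nat_lit 836) (nat_lit 1264056217) (nat_lit 912) (nat_lit 3590668622) (nat_lit 218) (nat_lit 5) (nat_lit 229) (nat_lit 5) (nat_lit 230) (nat_lit 5) (nat_lit 284) (nat_lit 271) (nat_lit 225))))) (XT.nd (nat_lit 234) (nat_lit 988) (nat_lit 0) (XT.nd (nat_lit 78) (nat_lit 760) (nat_lit 0) (XT.lf (nat_lit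 76) (nat_lit 2628304140) (nat_lit 0) (nat_lit 1990000452) (nat_lit 912) (nat_lit 3334550982) (nat_lit 219) (nat_lit 5) (nat_lit 218) (nat_lit 5) (nat_lit 230) (nat_lit 5) (nat_lit 285) (nat_lit 271) (nat_lit 224)) (XT.nd (nat_lit 78) (nat_lit 836) (nat_lit 0) (XT.lf (nat_lit 0) (nat_lit 6246411498) (nat_lit 836) (nat_lit 1422731786) (nat_lit 76) (nat_lit 378139171) (nat_lit 219) (nat_lit 5) (nat_lit 230) (nat_lit 5) (nat_lit 220) (nat_lit 5) (nat_lit 286) (nat_lit 271) (nat_lit 223)) (XT.lf (nat_lit 0) (nat_lit 2591442537) (nat_lit 836) (nat_lit 5330502725) (nat_lit 912) (nat_lit 222743812) (nat_lit 208) (nat_lit 5) (nat_lit 219) (nat_lit 5) (nat_lit 220) (nat_lit 5) (nat_lit 287) (nat_lit 271) (nat_lit 222)))) (XT.nd (nat_lit 78) (nat_lit 912) (nat_lit 0) (XT.lf (nat_lit 0) (nat_lit 1344290993) (nat_lit 912) (nat_lit 1539228383) (nat_lit 76) (nat_lit 5362124363) (nat_lit 207) (nat_lit 5) (nat_lit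 219) (nat_lit 5) (nat_lit 208) (nat_lit 5) (nat_lit 288) (nat_lit 271) (nat_lit 221)) (XT.nd (nat_lit 78) (nat_lit 0) (nat_lit 0) (XT.lf (nat_lit 0) (nat_lit 2608743857) (nat_lit 912) (nat_lit 325947324) (nat_lit 988) (nat_lit 5415540343) (nat_lit 195) (nat_lit 5) (nat_lit 207) (nat_lit 5) (nat_lit 208) (nat_lit 5) (nat_lit 289) (nat_lit 271) (nat_lit 220)) (XT.lf (nat_lit 0) (nat_lit 4567479558) (nat_lit 988) (nat_lit 1603421135) (nat_lit 76) (nat_lit 2287308759) (nat_lit 195) (nat_lit 5) (nat_lit 208) (nat_lit 5) (nat_lit 196) (nat_lit 5) (nat_lit 290) (nat_lit 271) (nat_lit 219))))))))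
noncomputable def xc140 : XT := (XT.nd (nat_lit 1794) (nat_lit 3496) (nat_lit 0) (XT.nd (nat_lit 858) (nat_lit 2812) (nat_lit 0) (XT.nd (nat_lit 390) (nat_lit 1672) (nat_lit 0) (XT.nd (nat_lit 156) (nat_lit 2204) (nat_lit 0) (XT.nd (nat_lit 78) (nat_lit 0) (nat_lit 0) (XT.lf (nat_lit 0) (nat_lit 2672471637) (nat_lit 988) (nat_lit 3563744941) (nat_lit 1064) (nat_lit 2333691282) (nat_lit 182) (nat_lit 5) (nat_lit 195) (nat_lit 5) (nat_lit 196) (nat_lit 5) (nat_lit 291) (nat_lit 271) (nat_lit 218)) (XT.lf (nat_lit 0) (nat_lit 7074617127) (nat_lit 988) (nat_lit 855524836) (nat_lit 1064) (nat_lit 755648938) (nat_lit 182) (nat_lit 5) (nat_lit 195) (nat_lit 5) (nat_lit 196) (nat_lit 5) (nat_lit 292) (nat_lit 271) (nat_lit 217))) (XT.nd (nat_lit 78) (nat_lit 1064) (nat_lit 0) (XT.lf (nat_lit 0) (nat_lit 858474846) (nat_lit 1140) (nat_lit 6008880418) (nat_lit 76) (nat_lit 1937455449) (nat_lit 167) (nat_lit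 5) (nat_lit 182) (nat_lit 5) (nat_lit 168) (nat_lit 5) (nat_lit 293) (nat_lit 271) (nat_lit 216)) (XT.nd (nat_lit 78) (nat_lit 1064) (nat_lit 0) (XT.lf (nat_lit 0) (nat_lit 2491281916) (nat_lit 1140) (nat_lit 1610486310) (nat_lit 76) (nat_lit 4825925069) (nat_lit 167) (nat_lit 5) (nat_lit 182) (nat_lit 5) (nat_lit 168) (nat_lit 5) (nat_lit 294) (nat_lit 271) (nat_lit 215)) (XT.lf (nat_lit 0) (nat_lit 2942585945) (nat_lit 1064) (nat_lit 1220468374) (nat_lit 1140) (nat_lit 4891586316) (nat_lit 153) (nat_lit 5) (nat_lit 167) (nat_lit 5) (nat_lit 168) (nat_lit 5) (nat_lit 295) (nat_lit 271) (nat_lit 214))))) (XT.nd (nat_lit 234) (nat_lit 1064) (nat_lit 0) (XT.nd (nat_lit 78) (nat_lit 608) (nat_lit 0) (XT.lf (nat_lit 0) (nat_lit 5880710554) (nat_lit 1140) (nat_lit 1572187052) (nat_lit 76) (nat_lit 1732702320) (nat_lit 153) (nat_lit 5) (nat_lit 168) (nat_lit 5) (nat_lit 154) (nat_lit 5) (nat_lit 296)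 (nat_lit 271) (nat_lit 213)) (XT.nd (nat_lit 78) (nat_lit 76) (nat_lit 0) (XT.lf (nat_lit 0) (nat_lit 3118088937) (nat_lit 532) (nat_lit 4537467329) (nat_lit 608) (nat_lit 1664835190) (nat_lit 146) (nat_lit 5) (nat_lit 153) (nat_lit 5) (nat_lit 154) (nat_lit 5) (nat_lit 297) (nat_lit 271) (nat_lit 212)) (XT.lf (nat_lit 0) (nat_lit 3888644) (nat_lit 608) (nat_lit 1512838431) (nat_lit 76) (nat_lit 7943163325) (nat_lit 145) (nat_lit 5) (nat_lit 153) (nat_lit 5) (nat_lit 146) (nat_lit 5) (nat_lit 298) (nat_lit 271) (nat_lit 211)))) (XT.nd (nat_lit 78) (nat_lit 532) (nat_lit 0) (XT.lf (nat_lit 0) (nat_lit 1702022171) (nat_lit 608) (nat_lit 6287191698) (nat_lit 76) (nat_lit 1613548690) (nat_lit 138) (nat_lit 5) (nat_lit 146) (nat_lit 5) (nat_lit 139) (nat_lit 5) (nat_lit 299) (nat_lit 271) (nat_lit 210)) (XT.nd (nat_lit 78) (nat_lit 532) (nat_lit 0) (XT.lf (nat_lit 0) (nat_lit 3447211028) (nat_lit 608)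 (nat_lit 1479533859) (nat_lit 76) (nat_lit 4823357741) (nat_lit 138) (nat_lit 5) (nat_lit 146) (nat_lit 5) (nat_lit 139) (nat_lit 5) (nat_lit 300) (nat_lit 271) (nat_lit 209)) (XT.lf (nat_lit 0) (nat_lit 3507053958) (nat_lit 532) (nat_lit 1738079820) (nat_lit 608) (nat_lit 4656780963) (nat_lit 131) (nat_lit 5) (nat_lit 138) (nat_lit 5) (nat_lit 139) (nat_lit 5) (nat_lit 301) (nat_lit 271) (nat_lit 208)))))) (XT.nd (nat_lit 468) (nat_lit 1292) (nat_lit 0) (XT.nd (nat_lit 234) (nat_lit 912) (nat_lit 0) (XT.nd (nat_lit 78) (nat_lit 608) (nat_lit 0) (XT.lf (nat_lit 0) (nat_lit 7094255120) (nat_lit 608) (nat_lit 1433715200) (nat_lit 76) (nat_lit 1530454419) (nat_lit 131) (nat_lit 5) (nat_lit 139) (nat_lit 5) (nat_lit 132) (nat_lit 5) (nat_lit 302) (nat_lit 271) (nat_lit 207)) (XT.nd (nat_lit 78) (nat_lit 76) (nat_lit 0) (XT.lf (nat_lit 0) (nat_lit 3697776850) (nat_lit 532) (nat_lit 5322088554) (nat_lit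 608) (nat_lit 1199193735) (nat_lit 124) (nat_lit 5) (nat_lit 131) (nat_lit 5) (nat_lit 132) (nat_lit 5) (nat_lit 303) (nat_lit 271) (nat_lit 206)) (XT.lf (nat_lit 0) (nat_lit 589781331) (nat_lit 608) (nat_lit 1411357123) (nat_lit 76) (nat_lit 8383758123) (nat_lit 123) (nat_lit 5) (nat_lit 131) (nat_lit 5) (nat_lit 124) (nat_lit 5) (nat_lit 304) (nat_lit 271) (nat_lit 205)))) (XT.nd (nat_lit 78) (nat_lit 456) (nat_lit 0) (XT.lf (nat_lit 0) (nat_lit 2429178556) (nat_lit 532) (nat_lit 6686359397) (nat_lit 76) (nat_lit 1439243832) (nat_lit 117) (nat_lit 5) (nat_lit 124) (nat_lit 5) (nat_lit 118) (nat_lit 5) (nat_lit 305) (nat_lit 271) (nat_lit 204)) (XT.nd (nat_lit 78) (nat_lit 456) (nat_lit 0) (XT.lf (nat_lit 0) (nat_lit 4327938462) (nat_lit 532) (nat_lit 1447178203) (nat_lit 76) (nat_lit 4954574380) (nat_lit 117) (nat_lit 5) (nat_lit 124) (nat_lit 5) (nat_lit 118) (nat_lit 5) (nat_lit 306) (nat_lit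 271) (nat_lit 203)) (XT.lf (nat_lit 0) (nat_lit 3994687840) (nat_lit 456) (nat_lit 2298221705) (nat_lit 532) (nat_lit 4616711966) (nat_lit 111) (nat_lit 5) (nat_lit 117) (nat_lit 5) (nat_lit 118) (nat_lit 5) (nat_lit 307) (nat_lit 271) (nat_lit 202))))) (XT.nd (nat_lit 234) (nat_lit 836) (nat_lit 0) (XT.nd (nat_lit 78) (nat_lit 456) (nat_lit 0) (XT.lf (nat_lit 0) (nat_lit 8315276404) (nat_lit 532) (nat_lit 1510511082) (nat_lit 76) (nat_lit 1269258887) (nat_lit 111) (nat_lit 5) (nat_lit 118) (nat_lit 5) (nat_lit 112) (nat_lit 5) (nat_lit 308) (nat_lit 271) (nat_lit 201)) (XT.nd (nat_lit 78) (nat_lit 76) (nat_lit 0) (XT.lf (nat_lit 0) (nat_lit 4080885669) (nat_lit 380) (nat_lit 6351601044) (nat_lit 456) (nat_lit 852570523) (nat_lit 106) (nat_lit 5) (nat_lit 111) (nat_lit 5) (nat_lit 112) (nat_lit 5) (nat_lit 309) (nat_lit 271) (nat_lit 200)) (XT.lf (nat_lit 0) (nat_lit 1098129476) (nat_lit 456) (nat_lit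 1652677197) (nat_lit 76) (nat_lit 8730047351) (nat_lit 105) (nat_lit 5) (nat_lit 111) (nat_lit 5) (nat_lit 106) (nat_lit 5) (nat_lit 310) (nat_lit 271) (nat_lit 199)))) (XT.nd (nat_lit 78) (nat_lit 380) (nat_lit 0) (XT.lf (nat_lit 0) (nat_lit 3112503204) (nat_lit 532) (nat_lit 7585915496) (nat_lit 76) (nat_lit 983228437) (nat_lit 99) (nat_lit 5) (nat_lit 106) (nat_lit 5) (nat_lit 100) (nat_lit 5) (nat_lit 311) (nat_lit 271) (nat_lit 198)) (XT.nd (nat_lit 78) (nat_lit 380) (nat_lit 0) (XT.lf (nat_lit 0) (nat_lit 5205017744) (nat_lit 532) (nat_lit 1896749875) (nat_lit 76) (nat_lit 4786208168) (nat_lit 99) (nat_lit 5) (nat_lit 106) (nat_lit 5) (nat_lit 100) (nat_lit 5) (nat_lit 312) (nat_lit 271) (nat_lit 197)) (XT.lf (nat_lit 0) (nat_lit 4010419753) (nat_lit 380) (nat_lit 3362826782) (nat_lit 456) (nat_lit 4726901370) (nat_lit 94) (nat_lit 5) (nat_lit 99) (nat_lit 5) (nat_lit 100) (nat_lit 5) (nat_lit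 313) (nat_lit 271) (nat_lit 196))))))) (XT.nd (nat_lit 936) (nat_lit 1368) (nat_lit 0) (XT.nd (nat_lit 468) (nat_lit 988) (nat_lit 0) (XT.nd (nat_lit 234) (nat_lit 684) (nat_lit 0) (XT.nd (nat_lit 78) (nat_lit 456) (nat_lit 0) (XT.lf (nat_lit 0) (nat_lit 9605346209) (nat_lit 456) (nat_lit 2220676210) (nat_lit 76) (nat_lit 492738607) (nat_lit 94) (nat_lit 5) (nat_lit 100) (nat_lit 5) (nat_lit 95) (nat_lit 5) (nat_lit 314) (nat_lit 271) (nat_lit 195)) (XT.nd (nat_lit 78) (nat_lit 76) (nat_lit 0) (XT.lf (nat_lit 0) (nat_lit 3835542564) (nat_lit 380) (nat_lit 8114552813) (nat_lit 456) (nat_lit 592505946) (nat_lit 89) (nat_lit 5) (nat_lit 94) (nat_lit 5) (nat_lit 95) (nat_lit 5) (nat_lit 315) (nat_lit 271) (nat_lit 194)) (XT.lf (nat_lit 0) (nat_lit 1559279484) (nat_lit 456) (nat_lit 2699717538) (nat_lit 76) (nat_lit 8513788349) (nat_lit 88) (nat_lit 5) (nat_lit 94) (nat_lit 5) (nat_lit 89) (nat_lit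 5) (nat_lit 316) (nat_lit 271) (nat_lit 193)))) (XT.nd (nat_lit 78) (nat_lit 380) (nat_lit 0) (XT.lf (nat_lit 0) (nat_lit 3520899025) (nat_lit 304) (nat_lit 253033411) (nat_lit 380) (nat_lit 9235495868) (nat_lit 84) (nat_lit 5) (nat_lit 88) (nat_lit 5) (nat_lit 89) (nat_lit 5) (nat_lit 317) (nat_lit 271) (nat_lit 192)) (XT.nd (nat_lit 78) (nat_lit 380) (nat_lit 0) (XT.lf (nat_lit 0) (nat_lit 6096509372) (nat_lit 380) (nat_lit 3336540764) (nat_lit 76) (nat_lit 3818910842) (nat_lit 84) (nat_lit 5) (nat_lit 89) (nat_lit 5) (nat_lit 85) (nat_lit 5) (nat_lit 318) (nat_lit 271) (nat_lit 191)) (XT.lf (nat_lit 0) (nat_lit 3027290882) (nat_lit 380) (nat_lit 5470478116) (nat_lit 456) (nat_lit 5003764440) (nat_lit 79) (nat_lit 5) (nat_lit 84) (nat_lit 5) (nat_lit 85) (nat_lit 5) (nat_lit 319) (nat_lit 271) (nat_lit 190))))) (XT.nd (nat_lit 234) (nat_lit 608) (nat_lit 0) (XT.nd (nat_lit 78) (nat_lit 380) (nat_lit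 0) (XT.lf (nat_lit 0) (nat_lit 9621435805) (nat_lit 380) (nat_lit 1361102571) (nat_lit 456) (nat_lit 2775743515) (nat_lit 79) (nat_lit 5) (nat_lit 84) (nat_lit 5) (nat_lit 85) (nat_lit 5) (nat_lit 320) (nat_lit 271) (nat_lit 189)) (XT.nd (nat_lit 78) (nat_lit 76) (nat_lit 0) (XT.lf (nat_lit 0) (nat_lit 2380757421) (nat_lit 304) (nat_lit 11189945245) (nat_lit 380) (nat_lit 451196595) (nat_lit 75) (nat_lit 5) (nat_lit 79) (nat_lit 5) (nat_lit 80) (nat_lit 5) (nat_lit 321) (nat_lit 271) (nat_lit 188)) (XT.lf (nat_lit 0) (nat_lit 1939312596) (nat_lit 380) (nat_lit 5174994935) (nat_lit 76) (nat_lit 7177563181) (nat_lit 74) (nat_lit 5) (nat_lit 79) (nat_lit 5) (nat_lit 75) (nat_lit 5) (nat_lit 322) (nat_lit 271) (nat_lit 187)))) (XT.nd (nat_lit 78) (nat_lit 304) (nat_lit 0) (XT.lf (nat_lit 0) (nat_lit 1481475756) (nat_lit 304) (nat_lit 2904338973) (nat_lit 380) (nat_lit 10184221471) (nat_lit 70) (nat_lit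 5) (nat_lit 74) (nat_lit 5) (nat_lit 75) (nat_lit 5) (nat_lit 323) (nat_lit 271) (nat_lit 186)) (XT.nd (nat_lit 78) (nat_lit 304) (nat_lit 0) (XT.lf (nat_lit 0) (nat_lit 6951627800) (nat_lit 380) (nat_lit 6453939894) (nat_lit 76) (nat_lit 1449629930) (nat_lit 70) (nat_lit 5) (nat_lit 75) (nat_lit 5) (nat_lit 71) (nat_lit 5) (nat_lit 324) (nat_lit 271) (nat_lit 185)) (XT.lf (nat_lit 0) (nat_lit 329824872) (nat_lit 304) (nat_lit 9276493979) (nat_lit 380) (nat_lit 5542265549) (nat_lit 66) (nat_lit 5) (nat_lit 70) (nat_lit 5) (nat_lit 71) (nat_lit 5) (nat_lit 325) (nat_lit 271) (nat_lit 184)))))) (XT.nd (nat_lit 468) (nat_lit 760) (nat_lit 0) (XT.nd (nat_lit 234) (nat_lit 228) (nat_lit 0) (XT.nd (nat_lit 78) (nat_lit 380) (nat_lit 0) (XT.lf (nat_lit 0) (nat_lit 7422097723) (nat_lit 304) (nat_lit 4964023050) (nat_lit 380) (nat_lit 3063314718) (nat_lit 66) (nat_lit 5) (nat_lit 70) (nat_lit 5) (nat_lit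 71) (nat_lit 5) (nat_lit 326) (nat_lit 271) (nat_lit 183)) (XT.nd (nat_lit 78) (nat_lit 380) (nat_lit 0) (XT.lf (nat_lit 0) (nat_lit 14700629729) (nat_lit 304) (nat_lit 529558866) (nat_lit 380) (nat_lit 529723396) (nat_lit 66) (nat_lit 5) (nat_lit 70) (nat_lit 5) (nat_lit 71) (nat_lit 5) (nat_lit 327) (nat_lit 271) (nat_lit 182)) (XT.lf (nat_lit 0) (nat_lit 2119568218) (nat_lit 380) (nat_lit 9924911765) (nat_lit 76) (nat_lit 4032239199) (nat_lit 61) (nat_lit 5) (nat_lit 66) (nat_lit 5) (nat_lit 62) (nat_lit 5) (nat_lit 328) (nat_lit 271) (nat_lit 181)))) (XT.nd (nat_lit 78) (nat_lit 228) (nat_lit 0) (XT.lf (nat_lit 0) (nat_lit 4835184834) (nat_lit 380) (nat_lit 2838745645) (nat_lit 76) (nat_lit 8729041795) (nat_lit 61) (nat_lit 5) (nat_lit 66) (nat_lit 5) (nat_lit 62) (nat_lit 5) (nat_lit 329) (nat_lit 271) (nat_lit 180)) (XT.nd (nat_lit 78) (nat_lit 0) (nat_lit 0) (XT.lf (nat_lit 0) (nat_lit 4522640855)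 (nat_lit 228) (nat_lit 3135091278) (nat_lit 304) (nat_lit 9080540090) (nat_lit 58) (nat_lit 5) (nat_lit 61) (nat_lit 5) (nat_lit 62) (nat_lit 5) (nat_lit 330) (nat_lit 271) (nat_lit 179)) (XT.lf (nat_lit 0) (nat_lit 10590903213) (nat_lit 304) (nat_lit 4960644618) (nat_lit 76) (nat_lit 1531327373) (nat_lit 58) (nat_lit 5) (nat_lit 62) (nat_lit 5) (nat_lit 59) (nat_lit 5) (nat_lit 331) (nat_lit 271) (nat_lit 178))))) (XT.nd (nat_lit 234) (nat_lit 228) (nat_lit 0) (XT.nd (nat_lit 78) (nat_lit 304) (nat_lit 0) (XT.lf (nat_lit 0) (nat_lit 2504732958) (nat_lit 228) (nat_lit 11145167779) (nat_lit 304) (nat_lit 3786802403) (nat_lit 55) (nat_lit 5) (nat_lit 58) (nat_lit 5) (nat_lit 59) (nat_lit 5) (nat_lit 332) (nat_lit 271) (nat_lit 177)) (XT.nd (nat_lit 78) (nat_lit 304) (nat_lit 0) (XT.lf (nat_lit 0) (nat_lit 10270911612) (nat_lit 228) (nat_lit 6562827761) (nat_lit 304) (nat_lit 966435573) (nat_lit 55)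 (nat_lit 5) (nat_lit 58) (nat_lit 5) (nat_lit 59) (nat_lit 5) (nat_lit 333) (nat_lit 271) (nat_lit 176)) (XT.lf (nat_lit 0) (nat_lit 53456021) (nat_lit 228) (nat_lit 1831062553) (nat_lit 304) (nat_lit 16289979121) (nat_lit 51) (nat_lit 5) (nat_lit 54) (nat_lit 5) (nat_lit 55) (nat_lit 5) (nat_lit 334) (nat_lit 271) (nat_lit 175)))) (XT.nd (nat_lit 78) (nat_lit 228) (nat_lit 0) (XT.lf (nat_lit 0) (nat_lit 4891077698) (nat_lit 304) (nat_lit 10604014683) (nat_lit 76) (nat_lit 3062005035) (nat_lit 51) (nat_lit 5) (nat_lit 55) (nat_lit 5) (nat_lit 52) (nat_lit 5) (nat_lit 335) (nat_lit 271) (nat_lit 174)) (XT.nd (nat_lit 78) (nat_lit 228) (nat_lit 0) (XT.lf (nat_lit 0) (nat_lit 7989913710) (nat_lit 304) (nat_lit 2903563143) (nat_lit 76) (nat_lit 8057654679) (nat_lit 51) (nat_lit 5) (nat_lit 55) (nat_lit 5) (nat_lit 52) (nat_lit 5) (nat_lit 336) (nat_lit 271) (nat_lit 173)) (XT.lf (nat_lit 0) (nat_lit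 5104244993) (nat_lit 228) (nat_lit 6110953168) (nat_lit 304) (nat_lit 8140802268) (nat_lit 48) (nat_lit 5) (nat_lit 51) (nat_lit 5) (nat_lit 52) (nat_lit 5) (nat_lit 337) (nat_lit 271) (nat_lit 172))))))))
noncomputable def xc141 : XT := (XT.nd (nat_lit 1794) (nat_lit 988) (nat_lit 0) (XT.nd (nat_lit 858) (nat_lit 684) (nat_lit 0) (XT.nd (nat_lit 390) (nat_lit 456) (nat_lit 0) (XT.nd (nat_lit 156) (nat_lit 304) (nat_lit 0) (XT.nd (nat_lit 78) (nat_lit 228) (nat_lit 0) (XT.lf (nat_lit 0) (nat_lit 13388776449) (nat_lit 228) (nat_lit 1162435677) (nat_lit 304) (nat_lit 5221401866) (nat_lit 48) (nat_lit 5) (nat_lit 51) (nat_lit 5) (nat_lit 52) (nat_lit 5) (nat_lit 338) (nat_lit 271) (nat_lit 171)) (XT.lf (nat_lit 0) (nat_lit 1692571982) (nat_lit 228) (nat_lit 16333851805) (nat_lit 304) (nat_lit 2174145867) (nat_lit 45) (nat_lit 5) (nat_lit 48) (nat_lit 5) (nat_lit 49) (nat_lit 5) (nat_lit 339) (nat_lit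 271) (nat_lit 170))) (XT.nd (nat_lit 78) (nat_lit 228) (nat_lit 0) (XT.lf (nat_lit 0) (nat_lit 1007401321) (nat_lit 304) (nat_lit 10541555940) (nat_lit 76) (nat_lit 9090293951) (nat_lit 44) (nat_lit 5) (nat_lit 48) (nat_lit 5) (nat_lit 45) (nat_lit 5) (nat_lit 340) (nat_lit 271) (nat_lit 169)) (XT.nd (nat_lit 78) (nat_lit 228) (nat_lit 0) (XT.lf (nat_lit 0) (nat_lit 4226214374) (nat_lit 304) (nat_lit 2379824755) (nat_lit 76) (nat_lit 14484858523) (nat_lit 44) (nat_lit 5) (nat_lit 48) (nat_lit 5) (nat_lit 45) (nat_lit 5) (nat_lit 341) (nat_lit 271) (nat_lit 168)) (XT.lf (nat_lit 0) (nat_lit 6124742498) (nat_lit 228) (nat_lit 1461663537) (nat_lit 304) (nat_lit 13968358316) (nat_lit 41) (nat_lit 5) (nat_lit 44) (nat_lit 5) (nat_lit 45) (nat_lit 5) (nat_lit 342) (nat_lit 271) (nat_lit 167))))) (XT.nd (nat_lit 234) (nat_lit 304) (nat_lit 0) (XT.nd (nat_lit 78) (nat_lit 152) (nat_lit 0) (XT.lf (nat_lit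 0) (nat_lit 11094629229) (nat_lit 304) (nat_lit 7157396533) (nat_lit 76) (nat_lit 3779119361) (nat_lit 41) (nat_lit 5) (nat_lit 45) (nat_lit 5) (nat_lit 42) (nat_lit 5) (nat_lit 343) (nat_lit 271) (nat_lit 166)) (XT.nd (nat_lit 78) (nat_lit 0) (nat_lit 0) (XT.lf (nat_lit 0) (nat_lit 1354315307) (nat_lit 152) (nat_lit 13367752172) (nat_lit 228) (nat_lit 7799345204) (nat_lit 39) (nat_lit 5) (nat_lit 41) (nat_lit 5) (nat_lit 42) (nat_lit 5) (nat_lit 344) (nat_lit 271) (nat_lit 165)) (XT.lf (nat_lit 0) (nat_lit 10247256574) (nat_lit 152) (nat_lit 8270019414) (nat_lit 228) (nat_lit 4507357860) (nat_lit 39) (nat_lit 5) (nat_lit 41) (nat_lit 5) (nat_lit 42) (nat_lit 5) (nat_lit 345) (nat_lit 271) (nat_lit 164)))) (XT.nd (nat_lit 78) (nat_lit 304) (nat_lit 0) (XT.lf (nat_lit 0) (nat_lit 19386751574) (nat_lit 152) (nat_lit 3026648832) (nat_lit 228) (nat_lit 1129953041) (nat_lit 39) (nat_lit 5) (nat_lit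 41) (nat_lit 5) (nat_lit 42) (nat_lit 5) (nat_lit 346) (nat_lit 271) (nat_lit 163)) (XT.nd (nat_lit 78) (nat_lit 0) (nat_lit 0) (XT.lf (nat_lit 0) (nat_lit 2359554597) (nat_lit 304) (nat_lit 19325948152) (nat_lit 76) (nat_lit 2389768943) (nat_lit 35) (nat_lit 5) (nat_lit 39) (nat_lit 5) (nat_lit 36) (nat_lit 5) (nat_lit 347) (nat_lit 271) (nat_lit 162)) (XT.lf (nat_lit 0) (nat_lit 5990802930) (nat_lit 304) (nat_lit 10675859757) (nat_lit 76) (nat_lit 7954368610) (nat_lit 35) (nat_lit 5) (nat_lit 39) (nat_lit 5) (nat_lit 36) (nat_lit 5) (nat_lit 348) (nat_lit 271) (nat_lit 161)))))) (XT.nd (nat_lit 468) (nat_lit 304) (nat_lit 0) (XT.nd (nat_lit 234) (nat_lit 228) (nat_lit 0) (XT.nd (nat_lit 78) (nat_lit 152) (nat_lit 0) (XT.lf (nat_lit 0) (nat_lit 9718765873) (nat_lit 304) (nat_lit 1785719588) (nat_lit 76) (nat_lit 13679056985) (nat_lit 35) (nat_lit 5) (nat_lit 39) (nat_lit 5) (nat_lit 36) (nat_lit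 5) (nat_lit 349) (nat_lit 271) (nat_lit 160)) (XT.nd (nat_lit 78) (nat_lit 0) (nat_lit 0) (XT.lf (nat_lit 0) (nat_lit 7498564437) (nat_lit 152) (nat_lit 6120217221) (nat_lit 228) (nat_lit 12142352573) (nat_lit 33) (nat_lit 5) (nat_lit 35) (nat_lit 5) (nat_lit 36) (nat_lit 5) (nat_lit 350) (nat_lit 271) (nat_lit 159)) (XT.lf (nat_lit 0) (nat_lit 17079283279) (nat_lit 152) (nat_lit 562845958) (nat_lit 228) (nat_lit 8713745972) (nat_lit 33) (nat_lit 5) (nat_lit 35) (nat_lit 5) (nat_lit 36) (nat_lit 5) (nat_lit 351) (nat_lit 271) (nat_lit 158)))) (XT.nd (nat_lit 78) (nat_lit 228) (nat_lit 0) (XT.lf (nat_lit 0) (nat_lit 21824364846) (nat_lit 228) (nat_lit 89088898) (nat_lit 76) (nat_lit 5053870091) (nat_lit 33) (nat_lit 5) (nat_lit 36) (nat_lit 5) (nat_lit 34) (nat_lit 5) (nat_lit 352) (nat_lit 271) (nat_lit 157)) (XT.nd (nat_lit 78) (nat_lit 76) (nat_lit 0) (XT.lf (nat_lit 0) (nat_lit 9536657031) (nat_lit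 152) (nat_lit 16681562730) (nat_lit 228) (nat_lit 1376322316) (nat_lit 31) (nat_lit 5) (nat_lit 33) (nat_lit 5) (nat_lit 34) (nat_lit 5) (nat_lit 353) (nat_lit 271) (nat_lit 156)) (XT.lf (nat_lit 0) (nat_lit 2444314794) (nat_lit 228) (nat_lit 8829579249) (nat_lit 76) (nat_lit 16966275533) (nat_lit 30) (nat_lit 5) (nat_lit 33) (nat_lit 5) (nat_lit 31) (nat_lit 5) (nat_lit 354) (nat_lit 271) (nat_lit 155))))) (XT.nd (nat_lit 234) (nat_lit 152) (nat_lit 0) (XT.nd (nat_lit 78) (nat_lit 0) (nat_lit 0) (XT.lf (nat_lit 0) (nat_lit 657340257) (nat_lit 152) (nat_lit 5690150365) (nat_lit 228) (nat_lit 22557408814) (nat_lit 28) (nat_lit 5) (nat_lit 30) (nat_lit 5) (nat_lit 31) (nat_lit 5) (nat_lit 355) (nat_lit 271) (nat_lit 154)) (XT.nd (nat_lit 78) (nat_lit 0) (nat_lit 0) (XT.lf (nat_lit 0) (nat_lit 10447739486) (nat_lit 228) (nat_lit 18996029161) (nat_lit 76) (nat_lit 143412741) (nat_lit 28) (nat_lit 5)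 (nat_lit 31) (nat_lit 5) (nat_lit 29) (nat_lit 5) (nat_lit 356) (nat_lit 271) (nat_lit 153)) (XT.lf (nat_lit 0) (nat_lit 14716990396) (nat_lit 228) (nat_lit 9540308556) (nat_lit 76) (nat_lit 6031262261) (nat_lit 28) (nat_lit 5) (nat_lit 31) (nat_lit 5) (nat_lit 29) (nat_lit 5) (nat_lit 357) (nat_lit 271) (nat_lit 152)))) (XT.nd (nat_lit 78) (nat_lit 0) (nat_lit 0) (XT.lf (nat_lit 0) (nat_lit 186195465) (nat_lit 152) (nat_lit 18919870919) (nat_lit 228) (nat_lit 11905172604) (nat_lit 26) (nat_lit 5) (nat_lit 28) (nat_lit 5) (nat_lit 29) (nat_lit 5) (nat_lit 358) (nat_lit 271) (nat_lit 151)) (XT.nd (nat_lit 78) (nat_lit 0) (nat_lit 0) (XT.lf (nat_lit 0) (nat_lit 10383702012) (nat_lit 152) (nat_lit 13329544014) (nat_lit 228) (nat_lit 8039766852) (nat_lit 26) (nat_lit 5) (nat_lit 28) (nat_lit 5) (nat_lit 29) (nat_lit 5) (nat_lit 359) (nat_lit 271) (nat_lit 150)) (XT.lf (nat_lit 0) (nat_lit 20871250677)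 (nat_lit 152) (nat_lit 7577771894) (nat_lit 228) (nat_lit 4068314433) (nat_lit 26) (nat_lit 5) (nat_lit 28) (nat_lit 5) (nat_lit 29) (nat_lit 5) (nat_lit 360) (nat_lit 271) (nat_lit 149))))))) (XT.nd (nat_lit 936) (nat_lit 304) (nat_lit 0) (XT.nd (nat_lit 468) (nat_lit 304) (nat_lit 0) (XT.nd (nat_lit 234) (nat_lit 152) (nat_lit 0) (XT.nd (nat_lit 78) (nat_lit 152) (nat_lit 0) (XT.lf (nat_lit 0) (nat_lit 12407913) (nat_lit 228) (nat_lit 1646995530) (nat_lit 76) (nat_lit 31645472130) (nat_lit 25) (nat_lit 5) (nat_lit 28) (nat_lit 5) (nat_lit 26) (nat_lit 5) (nat_lit 361) (nat_lit 271) (nat_lit 148)) (XT.nd (nat_lit 78) (nat_lit 0) (nat_lit 0) (XT.lf (nat_lit 0) (nat_lit 4252721685) (nat_lit 228) (nat_lit 25388692357) (nat_lit 76) (nat_lit 4469857433) (nat_lit 23) (nat_lit 5) (nat_lit 26) (nat_lit 5) (nat_lit 24) (nat_lit 5) (nat_lit 362) (nat_lit 271) (nat_lit 147)) (XT.lf (nat_lit 0) (nat_lit 8644371963)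 (nat_lit 228) (nat_lit 15536186084) (nat_lit 76) (nat_lit 10760584914) (nat_lit 23) (nat_lit 5) (nat_lit 26) (nat_lit 5) (nat_lit 24) (nat_lit 5) (nat_lit 363) (nat_lit 271) (nat_lit 146)))) (XT.nd (nat_lit 78) (nat_lit 152) (nat_lit 0) (XT.lf (nat_lit 0) (nat_lit 13158938024) (nat_lit 228) (nat_lit 5402895081) (nat_lit 76) (nat_lit 17234349803) (nat_lit 23) (nat_lit 5) (nat_lit 26) (nat_lit 5) (nat_lit 24) (nat_lit 5) (nat_lit 364) (nat_lit 271) (nat_lit 145)) (XT.nd (nat_lit 78) (nat_lit 0) (nat_lit 0) (XT.lf (nat_lit 0) (nat_lit 5119943523) (nat_lit 152) (nat_lit 12729637139) (nat_lit 228) (nat_lit 18826081293) (nat_lit 21) (nat_lit 5) (nat_lit 23) (nat_lit 5) (nat_lit 24) (nat_lit 5) (nat_lit 365) (nat_lit 271) (nat_lit 144)) (XT.lf (nat_lit 0) (nat_lit 16055002453) (nat_lit 152) (nat_lit 6672035461) (nat_lit 228) (nat_lit 14853111485) (nat_lit 21) (nat_lit 5) (nat_lit 23) (nat_lit 5) (nat_lit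 24) (nat_lit 5) (nat_lit 366) (nat_lit 271) (nat_lit 143))))) (XT.nd (nat_lit 234) (nat_lit 228) (nat_lit 0) (XT.nd (nat_lit 78) (nat_lit 76) (nat_lit 0) (XT.lf (nat_lit 0) (nat_lit 27304308406) (nat_lit 152) (nat_lit 438293667) (nat_lit 228) (nat_lit 10769422581) (nat_lit 21) (nat_lit 5) (nat_lit 23) (nat_lit 5) (nat_lit 24) (nat_lit 5) (nat_lit 367) (nat_lit 271) (nat_lit 142)) (XT.nd (nat_lit 78) (nat_lit 76) (nat_lit 0) (XT.lf (nat_lit 0) (nat_lit 32958110591) (nat_lit 228) (nat_lit 651866025) (nat_lit 76) (nat_lit 5860401716) (nat_lit 21) (nat_lit 5) (nat_lit 24) (nat_lit 5) (nat_lit 22) (nat_lit 4) (nat_lit 368) (nat_lit 271) (nat_lit 141)) (XT.lf (nat_lit 0) (nat_lit 10406181936) (nat_lit 76) (nat_lit 28020476793) (nat_lit 152) (nat_lit 2027932961) (nat_lit 20) (nat_lit 5) (nat_lit 21) (nat_lit 5) (nat_lit 22) (nat_lit 4) (nat_lit 369) (nat_lit 271) (nat_lit 140)))) (XT.nd (nat_lit 78) (nat_lit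 152) (nat_lit 0) (XT.lf (nat_lit 0) (nat_lit 2539244667) (nat_lit 152) (nat_lit 19697002426) (nat_lit 76) (nat_lit 19231376989) (nat_lit 19) (nat_lit 5) (nat_lit 21) (nat_lit 5) (nat_lit 20) (nat_lit 5) (nat_lit 370) (nat_lit 271) (nat_lit 139)) (XT.nd (nat_lit 78) (nat_lit 152) (nat_lit 0) (XT.lf (nat_lit 0) (nat_lit 7195128154) (nat_lit 152) (nat_lit 9067977644) (nat_lit 76) (nat_lit 26247571555) (nat_lit 19) (nat_lit 5) (nat_lit 21) (nat_lit 5) (nat_lit 20) (nat_lit 5) (nat_lit 371) (nat_lit 271) (nat_lit 138)) (XT.lf (nat_lit 0) (nat_lit 1904611652) (nat_lit 152) (nat_lit 10097054665) (nat_lit 228) (nat_lit 31583032160) (nat_lit 17) (nat_lit 5) (nat_lit 19) (nat_lit 5) (nat_lit 20) (nat_lit 5) (nat_lit 372) (nat_lit 271) (nat_lit 137)))))) (XT.nd (nat_lit 468) (nat_lit 228) (nat_lit 0) (XT.nd (nat_lit 234) (nat_lit 76) (nat_lit 0) (XT.nd (nat_lit 78) (nat_lit 0) (nat_lit 0) (XT.lf (nat_lit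 0) (nat_lit 13379913494) (nat_lit 152) (nat_lit 3656820589) (nat_lit 228) (nat_lit 27651681582) (nat_lit 17) (nat_lit 5) (nat_lit 19) (nat_lit 5) (nat_lit 20) (nat_lit 5) (nat_lit 373) (nat_lit 271) (nat_lit 136)) (XT.nd (nat_lit 78) (nat_lit 0) (nat_lit 0) (XT.lf (nat_lit 0) (nat_lit 22244394650) (nat_lit 228) (nat_lit 20666541442) (nat_lit 76) (nat_lit 2913667330) (nat_lit 17) (nat_lit 5) (nat_lit 20) (nat_lit 5) (nat_lit 18) (nat_lit 4) (nat_lit 374) (nat_lit 271) (nat_lit 135)) (XT.lf (nat_lit 0) (nat_lit 27637624838) (nat_lit 228) (nat_lit 9753332273) (nat_lit 76) (nat_lit 9603044628) (nat_lit 17) (nat_lit 5) (nat_lit 20) (nat_lit 5) (nat_lit 18) (nat_lit 4) (nat_lit 375) (nat_lit 271) (nat_lit 134)))) (XT.nd (nat_lit 78) (nat_lit 0) (nat_lit 0) (XT.lf (nat_lit 0) (nat_lit 1505184311) (nat_lit 76) (nat_lit 31695270024) (nat_lit 152) (nat_lit 14997798572) (nat_lit 16) (nat_lit 5) (nat_lit 17)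 (nat_lit 5) (nat_lit 18) (nat_lit 4) (nat_lit 376) (nat_lit 271) (nat_lit 133)) (XT.nd (nat_lit 78) (nat_lit 0) (nat_lit 0) (XT.lf (nat_lit 0) (nat_lit 13290042074) (nat_lit 76) (nat_lit 25732034908) (nat_lit 152) (nat_lit 10413802210) (nat_lit 16) (nat_lit 5) (nat_lit 17) (nat_lit 5) (nat_lit 18) (nat_lit 4) (nat_lit 377) (nat_lit 271) (nat_lit 132)) (XT.lf (nat_lit 0) (nat_lit 25417428027) (nat_lit 76) (nat_lit 19594530699) (nat_lit 152) (nat_lit 5698871912) (nat_lit 16) (nat_lit 5) (nat_lit 17) (nat_lit 5) (nat_lit 18) (nat_lit 4) (nat_lit 378) (nat_lit 271) (nat_lit 131))))) (XT.nd (nat_lit 234) (nat_lit 0) (nat_lit 0) (XT.nd (nat_lit 78) (nat_lit 228) (nat_lit 0) (XT.lf (nat_lit 0) (nat_lit 37897938915) (nat_lit 76) (nat_lit 13277394532) (nat_lit 152) (nat_lit 848887838) (nat_lit 16) (nat_lit 5) (nat_lit 17) (nat_lit 5) (nat_lit 18) (nat_lit 4) (nat_lit 379) (nat_lit 271) (nat_lit 130)) (XT.nd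 (nat_lit 78) (nat_lit 152) (nat_lit 0) (XT.lf (nat_lit 0) (nat_lit 4059593983) (nat_lit 152) (nat_lit 2674518656) (nat_lit 76) (nat_lit 46641892117) (nat_lit 15) (nat_lit 5) (nat_lit 17) (nat_lit 5) (nat_lit 16) (nat_lit 5) (nat_lit 380) (nat_lit 271) (nat_lit 129)) (XT.lf (nat_lit 0) (nat_lit 9182574152) (nat_lit 228) (nat_lit 45483231790) (nat_lit 76) (nat_lit 99758637) (nat_lit 13) (nat_lit 5) (nat_lit 16) (nat_lit 5) (nat_lit 14) (nat_lit 4) (nat_lit 381) (nat_lit 271) (nat_lit 128)))) (XT.nd (nat_lit 78) (nat_lit 0) (nat_lit 0) (XT.lf (nat_lit 0) (nat_lit 14547317377) (nat_lit 228) (nat_lit 34620470347) (nat_lit 76) (nat_lit 7026385306) (nat_lit 13) (nat_lit 5) (nat_lit 16) (nat_lit 5) (nat_lit 14) (nat_lit 4) (nat_lit 382) (nat_lit 271) (nat_lit 127)) (XT.nd (nat_lit 78) (nat_lit 0) (nat_lit 0) (XT.lf (nat_lit 0) (nat_lit 20067298505) (nat_lit 228) (nat_lit 23441770118) (nat_lit 76) (nat_lit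 14156746171) (nat_lit 13) (nat_lit 5) (nat_lit 16) (nat_lit 5) (nat_lit 14) (nat_lit 4) (nat_lit 383) (nat_lit 271) (nat_lit 126)) (XT.lf (nat_lit 0) (nat_lit 25747340821) (nat_lit 228) (nat_lit 11937363305) (nat_lit 76) (nat_lit 21497071643) (nat_lit 13) (nat_lit 5) (nat_lit 16) (nat_lit 5) (nat_lit 14) (nat_lit 4) (nat_lit 384) (nat_lit 271) (nat_lit 125))))))))
noncomputable def xc142 : XT := (XT.nd (nat_lit 32682) (nat_lit 0) (nat_lit 8132) (XT.nd (nat_lit 858) (nat_lit 0) (nat_lit 0) (XT.nd (nat_lit 390) (nat_lit 152) (nat_lit 0) (XT.nd (nat_lit 156) (nat_lit 0) (nat_lit 0) (XT.nd (nat_lit 78) (nat_lit 76) (nat_lit 0) (XT.lf (nat_lit 0) (nat_lit 31592407468) (nat_lit 228) (nat_lit 97197515) (nat_lit 76) (nat_lit 29053775600) (nat_lit 13) (nat_lit 5) (nat_lit 16) (nat_lit 5) (nat_lit 14) (nat_lit 4) (nat_lit 385) (nat_lit 271) (nat_lit 124)) (XT.lf (nat_lit 0) (nat_lit 12329669285) (nat_lit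 76) (nat_lit 25396456824) (nat_lit 152) (nat_lit 24622312024) (nat_lit 12) (nat_lit 5) (nat_lit 13) (nat_lit 5) (nat_lit 14) (nat_lit 4) (nat_lit 386) (nat_lit 271) (nat_lit 123))) (XT.nd (nat_lit 78) (nat_lit 0) (nat_lit 0) (XT.lf (nat_lit 0) (nat_lit 25122323542) (nat_lit 76) (nat_lit 18917359373) (nat_lit 152) (nat_lit 19962093185) (nat_lit 12) (nat_lit 5) (nat_lit 13) (nat_lit 5) (nat_lit 14) (nat_lit 4) (nat_lit 387) (nat_lit 271) (nat_lit 122)) (XT.nd (nat_lit 78) (nat_lit 0) (nat_lit 0) (XT.lf (nat_lit 0) (nat_lit 38290008880) (nat_lit 76) (nat_lit 12247632789) (nat_lit 152) (nat_lit 15167226067) (nat_lit 12) (nat_lit 5) (nat_lit 13) (nat_lit 5) (nat_lit 14) (nat_lit 4) (nat_lit 388) (nat_lit 271) (nat_lit 121)) (XT.lf (nat_lit 0) (nat_lit 51844231044) (nat_lit 76) (nat_lit 5381449154) (nat_lit 152) (nat_lit 10233520979) (nat_lit 12) (nat_lit 5) (nat_lit 13) (nat_lit 5) (nat_lit 14) (nat_lit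 4) (nat_lit 389) (nat_lit 271) (nat_lit 120))))) (XT.nd (nat_lit 234) (nat_lit 0) (nat_lit 0) (XT.nd (nat_lit 78) (nat_lit 152) (nat_lit 0) (XT.lf (nat_lit 0) (nat_lit 64125860735) (nat_lit 152) (nat_lit 3485694123) (nat_lit 0) (nat_lit 1654267932) (nat_lit 12) (nat_lit 5) (nat_lit 14) (nat_lit 4) (nat_lit 12) (nat_lit 4) (nat_lit 390) (nat_lit 271) (nat_lit 119)) (XT.nd (nat_lit 78) (nat_lit 0) (nat_lit 0) (XT.lf (nat_lit 0) (nat_lit 242049725) (nat_lit 152) (nat_lit 62000818933) (nat_lit 76) (nat_lit 8879615044) (nat_lit 10) (nat_lit 5) (nat_lit 12) (nat_lit 5) (nat_lit 11) (nat_lit 4) (nat_lit 391) (nat_lit 271) (nat_lit 118)) (XT.lf (nat_lit 0) (nat_lit 5713156965) (nat_lit 152) (nat_lit 50914458684) (nat_lit 76) (nat_lit 16404776695) (nat_lit 10) (nat_lit 5) (nat_lit 12) (nat_lit 5) (nat_lit 11) (nat_lit 4) (nat_lit 392) (nat_lit 271) (nat_lit 117)))) (XT.nd (nat_lit 78) (nat_lit 0) (nat_lit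 0) (XT.lf (nat_lit 0) (nat_lit 11343927595) (nat_lit 152) (nat_lit 39503399596) (nat_lit 76) (nat_lit 24152407985) (nat_lit 10) (nat_lit 5) (nat_lit 12) (nat_lit 5) (nat_lit 11) (nat_lit 4) (nat_lit 393) (nat_lit 271) (nat_lit 116)) (XT.nd (nat_lit 78) (nat_lit 0) (nat_lit 0) (XT.lf (nat_lit 0) (nat_lit 17139281705) (nat_lit 152) (nat_lit 27757670842) (nat_lit 76) (nat_lit 32129278690) (nat_lit 10) (nat_lit 5) (nat_lit 12) (nat_lit 5) (nat_lit 11) (nat_lit 4) (nat_lit 394) (nat_lit 271) (nat_lit 115)) (XT.lf (nat_lit 0) (nat_lit 23104283196) (nat_lit 152) (nat_lit 15667009163) (nat_lit 76) (nat_lit 40342358890) (nat_lit 10) (nat_lit 5) (nat_lit 12) (nat_lit 5) (nat_lit 11) (nat_lit 4) (nat_lit 395) (nat_lit 271) (nat_lit 114)))))) (XT.nd (nat_lit 31356) (nat_lit 0) (nat_lit 15732) (XT.nd (nat_lit 31122) (nat_lit 0) (nat_lit 17176) (XT.nd (nat_lit 30966) (nat_lit 0) (nat_lit 17176) (XT.lf (nat_lit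 0) (nat_lit 29244144206) (nat_lit 152) (nat_lit 3220849903) (nat_lit 76) (nat_lit 48798825064) (nat_lit 10) (nat_lit 5) (nat_lit 12) (nat_lit 5) (nat_lit 11) (nat_lit 4) (nat_lit 396) (nat_lit 271) (nat_lit 113)) (XT.nd (nat_lit 78) (nat_lit 0) (nat_lit 0) (XT.lf (nat_lit 0) (nat_lit 693414) (nat_lit 0) (nat_lit 693414) (nat_lit 684) (nat_lit 3537020675) (nat_lit 236) (nat_lit 5) (nat_lit 236) (nat_lit 3) (nat_lit 245) (nat_lit 3) (nat_lit 272) (nat_lit 272) (nat_lit 236)) (XT.lf (nat_lit 0) (nat_lit 1628276055) (nat_lit 684) (nat_lit 3969732968) (nat_lit 760) (nat_lit 1532146502) (nat_lit 236) (nat_lit 5) (nat_lit 245) (nat_lit 3) (nat_lit 246) (nat_lit 5) (nat_lit 273) (nat_lit 272) (nat_lit 235)))) (XT.nd (nat_lit 78) (nat_lit 0) (nat_lit 0) (XT.lf (nat_lit 0) (nat_lit 3240008375) (nat_lit 684) (nat_lit 804651699) (nat_lit 760) (nat_lit 3142470216) (nat_lit 236) (nat_lit 5) (nat_lit 245) (nat_lit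 3) (nat_lit 246) (nat_lit 5) (nat_lit 274) (nat_lit 272) (nat_lit 234)) (XT.nd (nat_lit 78) (nat_lit 0) (nat_lit 0) (XT.lf (nat_lit 76) (nat_lit 2470808945) (nat_lit 0) (nat_lit 2392307579) (nat_lit 760) (nat_lit 2383960434) (nat_lit 237) (nat_lit 5) (nat_lit 236) (nat_lit 5) (nat_lit 246) (nat_lit 5) (nat_lit 275) (nat_lit 272) (nat_lit 233)) (XT.lf (nat_lit 76) (nat_lit 5828561982) (nat_lit 0) (nat_lit 655210941) (nat_lit 760) (nat_lit 826732364) (nat_lit 237) (nat_lit 5) (nat_lit 236) (nat_lit 5) (nat_lit 246) (nat_lit 5) (nat_lit 276) (nat_lit 272) (nat_lit 232))))) (XT.nd (nat_lit 234) (nat_lit 760) (nat_lit 0) (XT.nd (nat_lit 78) (nat_lit 0) (nat_lit 0) (XT.lf (nat_lit 0) (nat_lit 733533879) (nat_lit 760) (nat_lit 5480195929) (nat_lit 836) (nat_lit 1162878259) (nat_lit 227) (nat_lit 5) (nat_lit 237) (nat_lit 5) (nat_lit 238) (nat_lit 5) (nat_lit 277) (nat_lit 272) (nat_lit 231)) (XT.nd (nat_lit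 78) (nat_lit 0) (nat_lit 0) (XT.lf (nat_lit 0) (nat_lit 2288954817) (nat_lit 760) (nat_lit 2087144307) (nat_lit 836) (nat_lit 3069536621) (nat_lit 227) (nat_lit 5) (nat_lit 237) (nat_lit 5) (nat_lit 238) (nat_lit 5) (nat_lit 278) (nat_lit 272) (nat_lit 230)) (XT.lf (nat_lit 76) (nat_lit 1401478725) (nat_lit 0) (nat_lit 2448044231) (nat_lit 836) (nat_lit 3668589062) (nat_lit 228) (nat_lit 5) (nat_lit 227) (nat_lit 5) (nat_lit 238) (nat_lit 5) (nat_lit 279) (nat_lit 272) (nat_lit 229)))) (XT.nd (nat_lit 78) (nat_lit 760) (nat_lit 0) (XT.lf (nat_lit 76) (nat_lit 5004305922) (nat_lit 0) (nat_lit 419973044) (nat_lit 836) (nat_lit 2169590939) (nat_lit 228) (nat_lit 5) (nat_lit 227) (nat_lit 5) (nat_lit 238) (nat_lit 5) (nat_lit 280) (nat_lit 272) (nat_lit 228)) (XT.nd (nat_lit 78) (nat_lit 836) (nat_lit 0) (XT.lf (nat_lit 76) (nat_lit 1012888883) (nat_lit 0) (nat_lit 6007218152) (nat_lit 836) (nat_lit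 652703321) (nat_lit 229) (nat_lit 5) (nat_lit 228) (nat_lit 5) (nat_lit 239) (nat_lit 5) (nat_lit 281) (nat_lit 272) (nat_lit 227)) (XT.lf (nat_lit 0) (nat_lit 871122887) (nat_lit 836) (nat_lit 3024953361) (nat_lit 912) (nat_lit 3858522489) (nat_lit 217) (nat_lit 5) (nat_lit 228) (nat_lit 5) (nat_lit 229) (nat_lit 5) (nat_lit 282) (nat_lit 272) (nat_lit 226))))))) (XT.nd (nat_lit 936) (nat_lit 3800) (nat_lit 0) (XT.nd (nat_lit 468) (nat_lit 2964) (nat_lit 0) (XT.nd (nat_lit 234) (nat_lit 836) (nat_lit 0) (XT.nd (nat_lit 78) (nat_lit 0) (nat_lit 76) (XT.lf (nat_lit 76) (nat_lit 692170134) (nat_lit 0) (nat_lit 1692141957) (nat_lit 912) (nat_lit 5455745925) (nat_lit 218) (nat_lit 5) (nat_lit 217) (nat_lit 5) (nat_lit 229) (nat_lit 5) (nat_lit 283) (nat_lit 272) (nat_lit 225)) (XT.nd (nat_lit 78) (nat_lit 0) (nat_lit 0) (XT.lf (nat_lit 0) (nat_lit 3930689691) (nat_lit 836) (nat_lit 3385530850) (nat_lit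 912) (nat_lit 612337555) (nat_lit 218) (nat_lit 5) (nat_lit 229) (nat_lit 5) (nat_lit 230) (nat_lit 5) (nat_lit 284) (nat_lit 272) (nat_lit 224)) (XT.lf (nat_lit 76) (nat_lit 447377417) (nat_lit 0) (nat_lit 5049940358) (nat_lit 912) (nat_lit 2523287201) (nat_lit 219) (nat_lit 5) (nat_lit 218) (nat_lit 5) (nat_lit 230) (nat_lit 5) (nat_lit 285) (nat_lit 272) (nat_lit 223)))) (XT.nd (nat_lit 78) (nat_lit 912) (nat_lit 0) (XT.lf (nat_lit 76) (nat_lit 4430713687) (nat_lit 0) (nat_lit 2668271230) (nat_lit 912) (nat_lit 1016891582) (nat_lit 219) (nat_lit 5) (nat_lit 218) (nat_lit 5) (nat_lit 230) (nat_lit 5) (nat_lit 286) (nat_lit 272) (nat_lit 222)) (XT.nd (nat_lit 78) (nat_lit 0) (nat_lit 76) (XT.lf (nat_lit 76) (nat_lit 286014094) (nat_lit 0) (nat_lit 195651374) (nat_lit 988) (nat_lit 7733562849) (nat_lit 207) (nat_lit 5) (nat_lit 206) (nat_lit 5) (nat_lit 219) (nat_lit 5) (nat_lit 287) (nat_lit 272)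 (nat_lit 221)) (XT.lf (nat_lit 0) (nat_lit 2020677171) (nat_lit 912) (nat_lit 3932780174) (nat_lit 76) (nat_lit 2363418783) (nat_lit 207) (nat_lit 5) (nat_lit 219) (nat_lit 5) (nat_lit 208) (nat_lit 5) (nat_lit 288) (nat_lit 272) (nat_lit 220))))) (XT.nd (nat_lit 234) (nat_lit 1140) (nat_lit 0) (XT.nd (nat_lit 78) (nat_lit 988) (nat_lit 0) (XT.lf (nat_lit 0) (nat_lit 150401855) (nat_lit 912) (nat_lit 3415883397) (nat_lit 988) (nat_lit 4856568136) (nat_lit 195) (nat_lit 5) (nat_lit 207) (nat_lit 5) (nat_lit 208) (nat_lit 5) (nat_lit 289) (nat_lit 272) (nat_lit 219)) (XT.nd (nat_lit 78) (nat_lit 988) (nat_lit 0) (XT.lf (nat_lit 0) (nat_lit 4402889439) (nat_lit 912) (nat_lit 753054825) (nat_lit 988) (nat_lit 3376225313) (nat_lit 195) (nat_lit 5) (nat_lit 207) (nat_lit 5) (nat_lit 208) (nat_lit 5) (nat_lit 290) (nat_lit 272) (nat_lit 218)) (XT.lf (nat_lit 0) (nat_lit 86537490) (nat_lit 988) (nat_lit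 6685983475) (nat_lit 1064) (nat_lit 1872954917) (nat_lit 182) (nat_lit 5) (nat_lit 195) (nat_lit 5) (nat_lit 196) (nat_lit 5) (nat_lit 291) (nat_lit 272) (nat_lit 217)))) (XT.nd (nat_lit 78) (nat_lit 1140) (nat_lit 0) (XT.lf (nat_lit 0) (nat_lit 4471995129) (nat_lit 988) (nat_lit 3974811278) (nat_lit 1064) (nat_lit 315183548) (nat_lit 182) (nat_lit 5) (nat_lit 195) (nat_lit 5) (nat_lit 196) (nat_lit 5) (nat_lit 292) (nat_lit 272) (nat_lit 216)) (XT.nd (nat_lit 78) (nat_lit 0) (nat_lit 0) (XT.lf (nat_lit 0) (nat_lit 62085522) (nat_lit 1064) (nat_lit 1163501013) (nat_lit 1140) (nat_lit 7657278402) (nat_lit 167) (nat_lit 5) (nat_lit 181) (nat_lit 5) (nat_lit 182) (nat_lit 5) (nat_lit 293) (nat_lit 272) (nat_lit 215)) (XT.lf (nat_lit 0) (nat_lit 2828339955) (nat_lit 1140) (nat_lit 4428291727) (nat_lit 76) (nat_lit 1750055730) (nat_lit 167) (nat_lit 5) (nat_lit 182) (nat_lit 5) (nat_lit 168) (nat_lit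 5) (nat_lit 294) (nat_lit 272) (nat_lit 214)))))) (XT.nd (nat_lit 468) (nat_lit 1596) (nat_lit 0) (XT.nd (nat_lit 234) (nat_lit 608) (nat_lit 0) (XT.nd (nat_lit 78) (nat_lit 532) (nat_lit 0) (XT.lf (nat_lit 0) (nat_lit 51777528) (nat_lit 1064) (nat_lit 4402226837) (nat_lit 1140) (nat_lit 4681050794) (nat_lit 153) (nat_lit 5) (nat_lit 167) (nat_lit 5) (nat_lit 168) (nat_lit 5) (nat_lit 295) (nat_lit 272) (nat_lit 213)) (XT.nd (nat_lit 78) (nat_lit 532) (nat_lit 0) (XT.lf (nat_lit 0) (nat_lit 4723671114) (nat_lit 1064) (nat_lit 1413058082) (nat_lit 1140) (nat_lit 3130369280) (nat_lit 153) (nat_lit 5) (nat_lit 167) (nat_lit 5) (nat_lit 168) (nat_lit 5) (nat_lit 296) (nat_lit 272) (nat_lit 212)) (XT.lf (nat_lit 0) (nat_lit 84716282) (nat_lit 532) (nat_lit 7766709462) (nat_lit 608) (nat_lit 1552303772) (nat_lit 146) (nat_lit 5) (nat_lit 153) (nat_lit 5) (nat_lit 154) (nat_lit 5) (nat_lit 297) (nat_lit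 272) (nat_lit 211)))) (XT.nd (nat_lit 78) (nat_lit 532) (nat_lit 0) (XT.lf (nat_lit 0) (nat_lit 96964312) (nat_lit 608) (nat_lit 4647368897) (nat_lit 76) (nat_lit 4799413619) (nat_lit 145) (nat_lit 5) (nat_lit 153) (nat_lit 5) (nat_lit 146) (nat_lit 5) (nat_lit 298) (nat_lit 272) (nat_lit 210)) (XT.nd (nat_lit 78) (nat_lit 0) (nat_lit 0) (XT.lf (nat_lit 0) (nat_lit 118376840) (nat_lit 532) (nat_lit 1613254742) (nat_lit 608) (nat_lit 7956923454) (nat_lit 138) (nat_lit 5) (nat_lit 145) (nat_lit 5) (nat_lit 146) (nat_lit 5) (nat_lit 299) (nat_lit 272) (nat_lit 209)) (XT.lf (nat_lit 0) (nat_lit 3444892296) (nat_lit 608) (nat_lit 4763630998) (nat_lit 76) (nat_lit 1628360783) (nat_lit 138) (nat_lit 5) (nat_lit 146) (nat_lit 5) (nat_lit 139) (nat_lit 5) (nat_lit 300) (nat_lit 272) (nat_lit 208))))) (XT.nd (nat_lit 234) (nat_lit 532) (nat_lit 0) (XT.nd (nat_lit 78) (nat_lit 532) (nat_lit 0) (XT.lf (nat_lit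 0) (nat_lit 141141538) (nat_lit 532) (nat_lit 5053376015) (nat_lit 608) (nat_lit 4795657782) (nat_lit 131) (nat_lit 5) (nat_lit 138) (nat_lit 5) (nat_lit 139) (nat_lit 5) (nat_lit 301) (nat_lit 272) (nat_lit 207)) (XT.nd (nat_lit 78) (nat_lit 532) (nat_lit 0) (XT.lf (nat_lit 0) (nat_lit 5258275680) (nat_lit 532) (nat_lit 1754727243) (nat_lit 608) (nat_lit 3134630830) (nat_lit 131) (nat_lit 5) (nat_lit 138) (nat_lit 5) (nat_lit 139) (nat_lit 5) (nat_lit 302) (nat_lit 272) (nat_lit 206)) (XT.lf (nat_lit 0) (nat_lit 174253594) (nat_lit 532) (nat_lit 8698442396) (nat_lit 608) (nat_lit 1437578165) (nat_lit 124) (nat_lit 5) (nat_lit 131) (nat_lit 5) (nat_lit 132) (nat_lit 5) (nat_lit 303) (nat_lit 272) (nat_lit 205)))) (XT.nd (nat_lit 78) (nat_lit 456) (nat_lit 0) (XT.lf (nat_lit 0) (nat_lit 340984566) (nat_lit 608) (nat_lit 5039965041) (nat_lit 76) (nat_lit 5095709505) (nat_lit 123) (nat_lit 5) (nat_lit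 131) (nat_lit 5) (nat_lit 124) (nat_lit 5) (nat_lit 304) (nat_lit 272) (nat_lit 204)) (XT.nd (nat_lit 78) (nat_lit 0) (nat_lit 0) (XT.lf (nat_lit 0) (nat_lit 166128898) (nat_lit 456) (nat_lit 1949788929) (nat_lit 532) (nat_lit 8532586481) (nat_lit 117) (nat_lit 5) (nat_lit 123) (nat_lit 5) (nat_lit 124) (nat_lit 5) (nat_lit 305) (nat_lit 272) (nat_lit 203)) (XT.lf (nat_lit 0) (nat_lit 3981575069) (nat_lit 532) (nat_lit 5240432605) (nat_lit 76) (nat_lit 1602424284) (nat_lit 117) (nat_lit 5) (nat_lit 124) (nat_lit 5) (nat_lit 118) (nat_lit 5) (nat_lit 306) (nat_lit 272) (nat_lit 202))))))))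
noncomputable def xc143 : XT := (XT.nd (nat_lit 1872) (nat_lit 2280) (nat_lit 0) (XT.nd (nat_lit 936) (nat_lit 1748) (nat_lit 0) (XT.nd (nat_lit 468) (nat_lit 1140) (nat_lit 0) (XT.nd (nat_lit 234) (nat_lit 532) (nat_lit 0) (XT.nd (nat_lit 78) (nat_lit 380) (nat_lit 0) (XT.lf (nat_lit 0) (nat_lit 110115961) (nat_lit 456) (nat_lit 5785147465) (nat_lit 532) (nat_lit 5110662052) (nat_lit 111) (nat_lit 5) (nat_lit 117) (nat_lit 5) (nat_lit 118) (nat_lit 5) (nat_lit 307) (nat_lit 272) (nat_lit 201)) (XT.nd (nat_lit 78) (nat_lit 380) (nat_lit 0) (XT.lf (nat_lit 0) (nat_lit 5697417063) (nat_lit 456) (nat_lit 2194086052) (nat_lit 532) (nat_lit 3300654897) (nat_lit 111) (nat_lit 5) (nat_lit 117) (nat_lit 5) (nat_lit 118) (nat_lit 5) (nat_lit 308) (nat_lit 272) (nat_lit 200)) (XT.lf (nat_lit 0) (nat_lit 23245597) (nat_lit 380) (nat_lit 9912071828) (nat_lit 456) (nat_lit 1449076493) (nat_lit 106) (nat_lit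 5) (nat_lit 111) (nat_lit 5) (nat_lit 112) (nat_lit 5) (nat_lit 309) (nat_lit 272) (nat_lit 199)))) (XT.nd (nat_lit 78) (nat_lit 456) (nat_lit 0) (XT.lf (nat_lit 0) (nat_lit 500053111) (nat_lit 456) (nat_lit 5819376428) (nat_lit 76) (nat_lit 5261351328) (nat_lit 105) (nat_lit 5) (nat_lit 111) (nat_lit 5) (nat_lit 106) (nat_lit 5) (nat_lit 310) (nat_lit 272) (nat_lit 198)) (XT.nd (nat_lit 78) (nat_lit 456) (nat_lit 0) (XT.lf (nat_lit 0) (nat_lit 2452495620) (nat_lit 456) (nat_lit 156161401) (nat_lit 76) (nat_lit 9174796093) (nat_lit 105) (nat_lit 5) (nat_lit 111) (nat_lit 5) (nat_lit 106) (nat_lit 5) (nat_lit 311) (nat_lit 272) (nat_lit 197)) (XT.lf (nat_lit 0) (nat_lit 4505771354) (nat_lit 532) (nat_lit 6243747388) (nat_lit 76) (nat_lit 1241460764) (nat_lit 99) (nat_lit 5) (nat_lit 106) (nat_lit 5) (nat_lit 100) (nat_lit 5) (nat_lit 312) (nat_lit 272) (nat_lit 196))))) (XT.nd (nat_lit 234) (nat_lit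 760) (nat_lit 0) (XT.nd (nat_lit 78) (nat_lit 380) (nat_lit 0) (XT.lf (nat_lit 0) (nat_lit 6623200367) (nat_lit 532) (nat_lit 429627543) (nat_lit 76) (nat_lit 5151867688) (nat_lit 99) (nat_lit 5) (nat_lit 106) (nat_lit 5) (nat_lit 100) (nat_lit 5) (nat_lit 313) (nat_lit 272) (nat_lit 195)) (XT.nd (nat_lit 78) (nat_lit 0) (nat_lit 0) (XT.lf (nat_lit 0) (nat_lit 5639815754) (nat_lit 380) (nat_lit 3194408285) (nat_lit 456) (nat_lit 3589736358) (nat_lit 94) (nat_lit 5) (nat_lit 99) (nat_lit 5) (nat_lit 100) (nat_lit 5) (nat_lit 314) (nat_lit 272) (nat_lit 194)) (XT.lf (nat_lit 0) (nat_lit 11099689911) (nat_lit 456) (nat_lit 786629849) (nat_lit 76) (nat_lit 763878264) (nat_lit 94) (nat_lit 5) (nat_lit 100) (nat_lit 5) (nat_lit 95) (nat_lit 5) (nat_lit 315) (nat_lit 272) (nat_lit 193)))) (XT.nd (nat_lit 78) (nat_lit 304) (nat_lit 0) (XT.lf (nat_lit 0) (nat_lit 600546377) (nat_lit 456) (nat_lit 7450760114)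 (nat_lit 76) (nat_lit 4829952352) (nat_lit 88) (nat_lit 5) (nat_lit 94) (nat_lit 5) (nat_lit 89) (nat_lit 5) (nat_lit 316) (nat_lit 272) (nat_lit 192)) (XT.nd (nat_lit 78) (nat_lit 304) (nat_lit 0) (XT.lf (nat_lit 0) (nat_lit 2770056625) (nat_lit 456) (nat_lit 1313093518) (nat_lit 76) (nat_lit 9036123147) (nat_lit 88) (nat_lit 5) (nat_lit 94) (nat_lit 5) (nat_lit 89) (nat_lit 5) (nat_lit 317) (nat_lit 272) (nat_lit 191)) (XT.lf (nat_lit 0) (nat_lit 5031682170) (nat_lit 380) (nat_lit 8284378655) (nat_lit 76) (nat_lit 47590413) (nat_lit 84) (nat_lit 5) (nat_lit 89) (nat_lit 5) (nat_lit 85) (nat_lit 5) (nat_lit 318) (nat_lit 272) (nat_lit 190)))))) (XT.nd (nat_lit 468) (nat_lit 684) (nat_lit 0) (XT.nd (nat_lit 234) (nat_lit 684) (nat_lit 0) (XT.nd (nat_lit 78) (nat_lit 380) (nat_lit 0) (XT.lf (nat_lit 0) (nat_lit 7393032850) (nat_lit 380) (nat_lit 1993626093) (nat_lit 76) (nat_lit 4227778271) (nat_lit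 84) (nat_lit 5) (nat_lit 89) (nat_lit 5) (nat_lit 85) (nat_lit 5) (nat_lit 319) (nat_lit 272) (nat_lit 189)) (XT.nd (nat_lit 78) (nat_lit 0) (nat_lit 0) (XT.lf (nat_lit 0) (nat_lit 4546973337) (nat_lit 380) (nat_lit 5300656267) (nat_lit 456) (nat_lit 4024477013) (nat_lit 79) (nat_lit 5) (nat_lit 84) (nat_lit 5) (nat_lit 85) (nat_lit 5) (nat_lit 320) (nat_lit 272) (nat_lit 188)) (XT.lf (nat_lit 0) (nat_lit 11297325218) (nat_lit 380) (nat_lit 1077725753) (nat_lit 456) (nat_lit 1762510616) (nat_lit 79) (nat_lit 5) (nat_lit 84) (nat_lit 5) (nat_lit 85) (nat_lit 5) (nat_lit 321) (nat_lit 272) (nat_lit 187)))) (XT.nd (nat_lit 78) (nat_lit 304) (nat_lit 0) (XT.lf (nat_lit 0) (nat_lit 604813226) (nat_lit 380) (nat_lit 10559615554) (nat_lit 76) (nat_lit 3244960060) (nat_lit 74) (nat_lit 5) (nat_lit 79) (nat_lit 5) (nat_lit 75) (nat_lit 5) (nat_lit 322) (nat_lit 272) (nat_lit 186)) (XT.nd (nat_lit 78) (nat_lit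 304) (nat_lit 0) (XT.lf (nat_lit 0) (nat_lit 3027081406) (nat_lit 380) (nat_lit 3945494057) (nat_lit 76) (nat_lit 7715719898) (nat_lit 74) (nat_lit 5) (nat_lit 79) (nat_lit 5) (nat_lit 75) (nat_lit 5) (nat_lit 323) (nat_lit 272) (nat_lit 185)) (XT.lf (nat_lit 0) (nat_lit 2897094769) (nat_lit 304) (nat_lit 2633076363) (nat_lit 380) (nat_lit 9445180957) (nat_lit 70) (nat_lit 5) (nat_lit 74) (nat_lit 5) (nat_lit 75) (nat_lit 5) (nat_lit 324) (nat_lit 272) (nat_lit 184))))) (XT.nd (nat_lit 234) (nat_lit 380) (nat_lit 0) (XT.nd (nat_lit 78) (nat_lit 304) (nat_lit 0) (XT.lf (nat_lit 0) (nat_lit 8146804839) (nat_lit 380) (nat_lit 5288805813) (nat_lit 76) (nat_lit 1834283143) (nat_lit 70) (nat_lit 5) (nat_lit 75) (nat_lit 5) (nat_lit 71) (nat_lit 5) (nat_lit 325) (nat_lit 272) (nat_lit 183)) (XT.nd (nat_lit 78) (nat_lit 0) (nat_lit 0) (XT.lf (nat_lit 0) (nat_lit 1685150795) (nat_lit 304) (nat_lit 9180182191)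 (nat_lit 380) (nat_lit 4707262937) (nat_lit 66) (nat_lit 5) (nat_lit 70) (nat_lit 5) (nat_lit 71) (nat_lit 5) (nat_lit 326) (nat_lit 272) (nat_lit 182)) (XT.lf (nat_lit 0) (nat_lit 8951004515) (nat_lit 304) (nat_lit 4749248006) (nat_lit 380) (nat_lit 2183106802) (nat_lit 66) (nat_lit 5) (nat_lit 70) (nat_lit 5) (nat_lit 71) (nat_lit 5) (nat_lit 327) (nat_lit 272) (nat_lit 181)))) (XT.nd (nat_lit 78) (nat_lit 0) (nat_lit 0) (XT.lf (nat_lit 0) (nat_lit 206028295) (nat_lit 304) (nat_lit 186360731) (nat_lit 380) (nat_lit 15811447800) (nat_lit 61) (nat_lit 5) (nat_lit 65) (nat_lit 5) (nat_lit 66) (nat_lit 5) (nat_lit 328) (nat_lit 272) (nat_lit 180)) (XT.nd (nat_lit 78) (nat_lit 0) (nat_lit 0) (XT.lf (nat_lit 0) (nat_lit 3097341221) (nat_lit 380) (nat_lit 8922470515) (nat_lit 76) (nat_lit 4510609509) (nat_lit 61) (nat_lit 5) (nat_lit 66) (nat_lit 5) (nat_lit 62) (nat_lit 5) (nat_lit 329) (nat_lit 272)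 (nat_lit 179)) (XT.lf (nat_lit 0) (nat_lit 5867799560) (nat_lit 380) (nat_lit 1661588983) (nat_lit 76) (nat_lit 9337906383) (nat_lit 61) (nat_lit 5) (nat_lit 66) (nat_lit 5) (nat_lit 62) (nat_lit 5) (nat_lit 330) (nat_lit 272) (nat_lit 178))))))) (XT.nd (nat_lit 936) (nat_lit 988) (nat_lit 0) (XT.nd (nat_lit 468) (nat_lit 532) (nat_lit 0) (XT.nd (nat_lit 234) (nat_lit 304) (nat_lit 0) (XT.nd (nat_lit 78) (nat_lit 228) (nat_lit 0) (XT.lf (nat_lit 0) (nat_lit 5908263436) (nat_lit 228) (nat_lit 2852923823) (nat_lit 304) (nat_lit 8451914890) (nat_lit 58) (nat_lit 5) (nat_lit 61) (nat_lit 5) (nat_lit 62) (nat_lit 5) (nat_lit 331) (nat_lit 272) (nat_lit 177)) (XT.nd (nat_lit 78) (nat_lit 228) (nat_lit 0) (XT.lf (nat_lit 0) (nat_lit 11760416350) (nat_lit 304) (nat_lit 3872915280) (nat_lit 76) (nat_lit 1935401934) (nat_lit 58) (nat_lit 5) (nat_lit 62) (nat_lit 5) (nat_lit 59) (nat_lit 5) (nat_lit 332)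 (nat_lit 272) (nat_lit 176)) (XT.lf (nat_lit 0) (nat_lit 3804300597) (nat_lit 228) (nat_lit 11093843829) (nat_lit 304) (nat_lit 3035454384) (nat_lit 55) (nat_lit 5) (nat_lit 58) (nat_lit 5) (nat_lit 59) (nat_lit 5) (nat_lit 333) (nat_lit 272) (nat_lit 175)))) (XT.nd (nat_lit 78) (nat_lit 304) (nat_lit 0) (XT.lf (nat_lit 0) (nat_lit 11767801727) (nat_lit 228) (nat_lit 6385266978) (nat_lit 304) (nat_lit 155669328) (nat_lit 55) (nat_lit 5) (nat_lit 58) (nat_lit 5) (nat_lit 59) (nat_lit 5) (nat_lit 334) (nat_lit 272) (nat_lit 174)) (XT.nd (nat_lit 78) (nat_lit 0) (nat_lit 0) (XT.lf (nat_lit 0) (nat_lit 1249367518) (nat_lit 228) (nat_lit 1502557887) (nat_lit 304) (nat_lit 15942526567) (nat_lit 51) (nat_lit 5) (nat_lit 54) (nat_lit 5) (nat_lit 55) (nat_lit 5) (nat_lit 335) (nat_lit 272) (nat_lit 173)) (XT.lf (nat_lit 0) (nat_lit 5828642166) (nat_lit 304) (nat_lit 9741647120) (nat_lit 76) (nat_lit 3518869374)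 (nat_lit 51) (nat_lit 5) (nat_lit 55) (nat_lit 5) (nat_lit 52) (nat_lit 5) (nat_lit 336) (nat_lit 272) (nat_lit 172))))) (XT.nd (nat_lit 234) (nat_lit 304) (nat_lit 0) (XT.nd (nat_lit 78) (nat_lit 228) (nat_lit 0) (XT.lf (nat_lit 0) (nat_lit 8997409312) (nat_lit 304) (nat_lit 1844565179) (nat_lit 76) (nat_lit 8653757318) (nat_lit 51) (nat_lit 5) (nat_lit 55) (nat_lit 5) (nat_lit 52) (nat_lit 5) (nat_lit 337) (nat_lit 272) (nat_lit 171)) (XT.nd (nat_lit 78) (nat_lit 0) (nat_lit 0) (XT.lf (nat_lit 0) (nat_lit 6392240879) (nat_lit 228) (nat_lit 5915757415) (nat_lit 304) (nat_lit 7605118305) (nat_lit 48) (nat_lit 5) (nat_lit 51) (nat_lit 5) (nat_lit 52) (nat_lit 5) (nat_lit 338) (nat_lit 272) (nat_lit 170)) (XT.lf (nat_lit 0) (nat_lit 14892253855) (nat_lit 228) (nat_lit 829809380) (nat_lit 304) (nat_lit 4620851659) (nat_lit 48) (nat_lit 5) (nat_lit 51) (nat_lit 5) (nat_lit 52) (nat_lit 5) (nat_lit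 339) (nat_lit 272) (nat_lit 169)))) (XT.nd (nat_lit 78) (nat_lit 76) (nat_lit 0) (XT.lf (nat_lit 0) (nat_lit 2853516387) (nat_lit 228) (nat_lit 16440728394) (nat_lit 304) (nat_lit 1489707741) (nat_lit 45) (nat_lit 5) (nat_lit 48) (nat_lit 5) (nat_lit 49) (nat_lit 5) (nat_lit 340) (nat_lit 272) (nat_lit 168)) (XT.nd (nat_lit 78) (nat_lit 0) (nat_lit 0) (XT.lf (nat_lit 0) (nat_lit 1751248493) (nat_lit 304) (nat_lit 9764991693) (nat_lit 76) (nat_lit 9720003699) (nat_lit 44) (nat_lit 5) (nat_lit 48) (nat_lit 5) (nat_lit 45) (nat_lit 5) (nat_lit 341) (nat_lit 272) (nat_lit 167)) (XT.lf (nat_lit 0) (nat_lit 5045840740) (nat_lit 304) (nat_lit 1390238017) (nat_lit 76) (nat_lit 15266007123) (nat_lit 44) (nat_lit 5) (nat_lit 48) (nat_lit 5) (nat_lit 45) (nat_lit 5) (nat_lit 342) (nat_lit 272) (nat_lit 166)))))) (XT.nd (nat_lit 468) (nat_lit 304) (nat_lit 0) (XT.nd (nat_lit 234) (nat_lit 304) (nat_lit 0)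 (XT.nd (nat_lit 78) (nat_lit 152) (nat_lit 0) (XT.lf (nat_lit 0) (nat_lit 7359064475) (nat_lit 228) (nat_lit 1137692687) (nat_lit 304) (nat_lit 13683435795) (nat_lit 41) (nat_lit 5) (nat_lit 44) (nat_lit 5) (nat_lit 45) (nat_lit 5) (nat_lit 343) (nat_lit 272) (nat_lit 165)) (XT.nd (nat_lit 78) (nat_lit 152) (nat_lit 0) (XT.lf (nat_lit 0) (nat_lit 12093773605) (nat_lit 304) (nat_lit 6334974440) (nat_lit 76) (nat_lit 4242632018) (nat_lit 41) (nat_lit 5) (nat_lit 45) (nat_lit 5) (nat_lit 42) (nat_lit 5) (nat_lit 344) (nat_lit 272) (nat_lit 164)) (XT.lf (nat_lit 0) (nat_lit 2421920677) (nat_lit 152) (nat_lit 13398579290) (nat_lit 228) (nat_lit 7356162420) (nat_lit 39) (nat_lit 5) (nat_lit 41) (nat_lit 5) (nat_lit 42) (nat_lit 5) (nat_lit 345) (nat_lit 272) (nat_lit 163)))) (XT.nd (nat_lit 78) (nat_lit 304) (nat_lit 0) (XT.lf (nat_lit 0) (nat_lit 11551738262) (nat_lit 152) (nat_lit 8158697232) (nat_lit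 228) (nat_lit 3985138654) (nat_lit 39) (nat_lit 5) (nat_lit 41) (nat_lit 5) (nat_lit 42) (nat_lit 5) (nat_lit 346) (nat_lit 272) (nat_lit 162)) (XT.nd (nat_lit 78) (nat_lit 304) (nat_lit 0) (XT.lf (nat_lit 0) (nat_lit 20936377414) (nat_lit 152) (nat_lit 2768494157) (nat_lit 228) (nat_lit 525560427) (nat_lit 39) (nat_lit 5) (nat_lit 41) (nat_lit 5) (nat_lit 42) (nat_lit 5) (nat_lit 347) (nat_lit 272) (nat_lit 161)) (XT.lf (nat_lit 0) (nat_lit 3050695518) (nat_lit 304) (nat_lit 18918522669) (nat_lit 76) (nat_lit 2809088361) (nat_lit 35) (nat_lit 5) (nat_lit 39) (nat_lit 5) (nat_lit 36) (nat_lit 5) (nat_lit 348) (nat_lit 272) (nat_lit 160))))) (XT.nd (nat_lit 234) (nat_lit 152) (nat_lit 0) (XT.nd (nat_lit 78) (nat_lit 152) (nat_lit 0) (XT.lf (nat_lit 0) (nat_lit 6772812730) (nat_lit 304) (nat_lit 10037685134) (nat_lit 76) (nat_lit 8530500978) (nat_lit 35) (nat_lit 5) (nat_lit 39) (nat_lit 5) (nat_lit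 36) (nat_lit 5) (nat_lit 349) (nat_lit 272) (nat_lit 159)) (XT.nd (nat_lit 78) (nat_lit 152) (nat_lit 0) (XT.lf (nat_lit 0) (nat_lit 10595072259) (nat_lit 304) (nat_lit 908756792) (nat_lit 76) (nat_lit 14417099869) (nat_lit 35) (nat_lit 5) (nat_lit 39) (nat_lit 5) (nat_lit 36) (nat_lit 5) (nat_lit 350) (nat_lit 272) (nat_lit 158)) (XT.lf (nat_lit 0) (nat_lit 8644932869) (nat_lit 152) (nat_lit 5958981459) (nat_lit 228) (nat_lit 11912196177) (nat_lit 33) (nat_lit 5) (nat_lit 35) (nat_lit 5) (nat_lit 36) (nat_lit 5) (nat_lit 351) (nat_lit 272) (nat_lit 157)))) (XT.nd (nat_lit 78) (nat_lit 152) (nat_lit 0) (XT.lf (nat_lit 0) (nat_lit 18486236047) (nat_lit 152) (nat_lit 244933007) (nat_lit 228) (nat_lit 8398044786) (nat_lit 33) (nat_lit 5) (nat_lit 35) (nat_lit 5) (nat_lit 36) (nat_lit 5) (nat_lit 352) (nat_lit 272) (nat_lit 156)) (XT.nd (nat_lit 78) (nat_lit 0) (nat_lit 0) (XT.lf (nat_lit 0) (nat_lit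 806197047) (nat_lit 152) (nat_lit 22227244741) (nat_lit 228) (nat_lit 4725742891) (nat_lit 31) (nat_lit 5) (nat_lit 33) (nat_lit 5) (nat_lit 34) (nat_lit 5) (nat_lit 353) (nat_lit 272) (nat_lit 155)) (XT.lf (nat_lit 0) (nat_lit 10696334264) (nat_lit 152) (nat_lit 16847505507) (nat_lit 228) (nat_lit 861853267) (nat_lit 31) (nat_lit 5) (nat_lit 33) (nat_lit 5) (nat_lit 34) (nat_lit 5) (nat_lit 354) (nat_lit 272) (nat_lit 154))))))))
noncomputable def xc144 : XT := (XT.nd (nat_lit 1794) (nat_lit 456) (nat_lit 0) (XT.nd (nat_lit 858) (nat_lit 532) (nat_lit 0) (XT.nd (nat_lit 390) (nat_lit 228) (nat_lit 0) (XT.nd (nat_lit 156) (nat_lit 152) (nat_lit 0) (XT.nd (nat_lit 78) (nat_lit 152) (nat_lit 0) (XT.lf (nat_lit 0) (nat_lit 3046686825) (nat_lit 228) (nat_lit 8235320480) (nat_lit 76) (nat_lit 17789012436) (nat_lit 30) (nat_lit 5) (nat_lit 33) (nat_lit 5) (nat_lit 31) (nat_lit 5) (nat_lit 355) (nat_lit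 272) (nat_lit 153)) (XT.lf (nat_lit 0) (nat_lit 1527783609) (nat_lit 152) (nat_lit 5531942982) (nat_lit 228) (nat_lit 22696195932) (nat_lit 28) (nat_lit 5) (nat_lit 30) (nat_lit 5) (nat_lit 31) (nat_lit 5) (nat_lit 356) (nat_lit 272) (nat_lit 152))) (XT.nd (nat_lit 78) (nat_lit 152) (nat_lit 0) (XT.lf (nat_lit 0) (nat_lit 11270854149) (nat_lit 228) (nat_lit 18727380581) (nat_lit 76) (nat_lit 460815744) (nat_lit 28) (nat_lit 5) (nat_lit 31) (nat_lit 5) (nat_lit 29) (nat_lit 5) (nat_lit 357) (nat_lit 272) (nat_lit 151)) (XT.nd (nat_lit 78) (nat_lit 152) (nat_lit 0) (XT.lf (nat_lit 0) (nat_lit 15653337466) (nat_lit 228) (nat_lit 9012411546) (nat_lit 76) (nat_lit 6516181314) (nat_lit 28) (nat_lit 5) (nat_lit 31) (nat_lit 5) (nat_lit 29) (nat_lit 5) (nat_lit 358) (nat_lit 272) (nat_lit 150)) (XT.lf (nat_lit 0) (nat_lit 997906162) (nat_lit 152) (nat_lit 19169515798) (nat_lit 228) (nat_lit 11759079278)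 (nat_lit 26) (nat_lit 5) (nat_lit 28) (nat_lit 5) (nat_lit 29) (nat_lit 5) (nat_lit 359) (nat_lit 272) (nat_lit 149))))) (XT.nd (nat_lit 234) (nat_lit 152) (nat_lit 0) (XT.nd (nat_lit 78) (nat_lit 76) (nat_lit 0) (XT.lf (nat_lit 0) (nat_lit 11477858541) (nat_lit 152) (nat_lit 13420739801) (nat_lit 228) (nat_lit 7792369077) (nat_lit 26) (nat_lit 5) (nat_lit 28) (nat_lit 5) (nat_lit 29) (nat_lit 5) (nat_lit 360) (nat_lit 272) (nat_lit 148)) (XT.nd (nat_lit 78) (nat_lit 76) (nat_lit 0) (XT.lf (nat_lit 0) (nat_lit 22257238167) (nat_lit 152) (nat_lit 7505405504) (nat_lit 228) (nat_lit 3716003884) (nat_lit 26) (nat_lit 5) (nat_lit 28) (nat_lit 5) (nat_lit 29) (nat_lit 5) (nat_lit 361) (nat_lit 272) (nat_lit 147)) (XT.lf (nat_lit 0) (nat_lit 464336956) (nat_lit 228) (nat_lit 949318319) (nat_lit 76) (nat_lit 32876438068) (nat_lit 25) (nat_lit 5) (nat_lit 28) (nat_lit 5) (nat_lit 26) (nat_lit 5) (nat_lit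 362) (nat_lit 272) (nat_lit 146)))) (XT.nd (nat_lit 78) (nat_lit 0) (nat_lit 0) (XT.lf (nat_lit 0) (nat_lit 4828647534) (nat_lit 228) (nat_lit 25399682770) (nat_lit 76) (nat_lit 4892458314) (nat_lit 23) (nat_lit 5) (nat_lit 26) (nat_lit 5) (nat_lit 24) (nat_lit 5) (nat_lit 363) (nat_lit 272) (nat_lit 145)) (XT.nd (nat_lit 78) (nat_lit 0) (nat_lit 0) (XT.lf (nat_lit 0) (nat_lit 9338988752) (nat_lit 228) (nat_lit 15273465495) (nat_lit 76) (nat_lit 11363504557) (nat_lit 23) (nat_lit 5) (nat_lit 26) (nat_lit 5) (nat_lit 24) (nat_lit 5) (nat_lit 364) (nat_lit 272) (nat_lit 144)) (XT.lf (nat_lit 0) (nat_lit 13976313572) (nat_lit 228) (nat_lit 4857403126) (nat_lit 76) (nat_lit 18023324079) (nat_lit 23) (nat_lit 5) (nat_lit 26) (nat_lit 5) (nat_lit 24) (nat_lit 5) (nat_lit 365) (nat_lit 272) (nat_lit 143)))))) (XT.nd (nat_lit 468) (nat_lit 228) (nat_lit 0) (XT.nd (nat_lit 234) (nat_lit 152) (nat_lit 0)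 (XT.nd (nat_lit 78) (nat_lit 0) (nat_lit 0) (XT.lf (nat_lit 0) (nat_lit 5974183590) (nat_lit 152) (nat_lit 12827917944) (nat_lit 228) (nat_lit 18960980058) (nat_lit 21) (nat_lit 5) (nat_lit 23) (nat_lit 5) (nat_lit 24) (nat_lit 5) (nat_lit 366) (nat_lit 272) (nat_lit 142)) (XT.nd (nat_lit 78) (nat_lit 0) (nat_lit 0) (XT.lf (nat_lit 0) (nat_lit 17216887245) (nat_lit 152) (nat_lit 6596848652) (nat_lit 228) (nat_lit 14881342039) (nat_lit 21) (nat_lit 5) (nat_lit 23) (nat_lit 5) (nat_lit 24) (nat_lit 5) (nat_lit 367) (nat_lit 272) (nat_lit 141)) (XT.lf (nat_lit 0) (nat_lit 28783859716) (nat_lit 152) (nat_lit 184114445) (nat_lit 228) (nat_lit 10687298666) (nat_lit 21) (nat_lit 5) (nat_lit 23) (nat_lit 5) (nat_lit 24) (nat_lit 5) (nat_lit 368) (nat_lit 272) (nat_lit 140)))) (XT.nd (nat_lit 78) (nat_lit 152) (nat_lit 0) (XT.lf (nat_lit 0) (nat_lit 34330993468) (nat_lit 228) (nat_lit 20970643) (nat_lit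 76) (nat_lit 6290690951) (nat_lit 21) (nat_lit 5) (nat_lit 24) (nat_lit 5) (nat_lit 22) (nat_lit 4) (nat_lit 369) (nat_lit 272) (nat_lit 139)) (XT.nd (nat_lit 78) (nat_lit 76) (nat_lit 0) (XT.lf (nat_lit 0) (nat_lit 11362441783) (nat_lit 76) (nat_lit 28596158973) (nat_lit 152) (nat_lit 1697953025) (nat_lit 20) (nat_lit 5) (nat_lit 21) (nat_lit 5) (nat_lit 22) (nat_lit 4) (nat_lit 370) (nat_lit 272) (nat_lit 138)) (XT.lf (nat_lit 0) (nat_lit 2987452744) (nat_lit 152) (nat_lit 19654909326) (nat_lit 76) (nat_lit 20057845721) (nat_lit 19) (nat_lit 5) (nat_lit 21) (nat_lit 5) (nat_lit 20) (nat_lit 5) (nat_lit 371) (nat_lit 272) (nat_lit 137))))) (XT.nd (nat_lit 234) (nat_lit 76) (nat_lit 0) (XT.nd (nat_lit 78) (nat_lit 152) (nat_lit 0) (XT.lf (nat_lit 0) (nat_lit 7772176890) (nat_lit 152) (nat_lit 8725450787) (nat_lit 76) (nat_lit 27277258335) (nat_lit 19) (nat_lit 5) (nat_lit 21) (nat_lit 5) (nat_lit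 20) (nat_lit 5) (nat_lit 372) (nat_lit 272) (nat_lit 136)) (XT.nd (nat_lit 78) (nat_lit 0) (nat_lit 0) (XT.lf (nat_lit 0) (nat_lit 2570291029) (nat_lit 152) (nat_lit 10147949597) (nat_lit 228) (nat_lit 32163035293) (nat_lit 17) (nat_lit 5) (nat_lit 19) (nat_lit 5) (nat_lit 20) (nat_lit 5) (nat_lit 373) (nat_lit 272) (nat_lit 135)) (XT.lf (nat_lit 0) (nat_lit 14372127431) (nat_lit 152) (nat_lit 3521848791) (nat_lit 228) (nat_lit 28124447727) (nat_lit 17) (nat_lit 5) (nat_lit 19) (nat_lit 5) (nat_lit 20) (nat_lit 5) (nat_lit 374) (nat_lit 272) (nat_lit 134)))) (XT.nd (nat_lit 78) (nat_lit 76) (nat_lit 0) (XT.lf (nat_lit 0) (nat_lit 23250068330) (nat_lit 228) (nat_lit 20704878715) (nat_lit 76) (nat_lit 3233991814) (nat_lit 17) (nat_lit 5) (nat_lit 20) (nat_lit 5) (nat_lit 18) (nat_lit 4) (nat_lit 375) (nat_lit 272) (nat_lit 133)) (XT.nd (nat_lit 78) (nat_lit 76) (nat_lit 0) (XT.lf (nat_lit 0) (nat_lit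 28795240807) (nat_lit 228) (nat_lit 9481214795) (nat_lit 76) (nat_lit 10117266514) (nat_lit 17) (nat_lit 5) (nat_lit 20) (nat_lit 5) (nat_lit 18) (nat_lit 4) (nat_lit 376) (nat_lit 272) (nat_lit 132)) (XT.lf (nat_lit 0) (nat_lit 2109520841) (nat_lit 76) (nat_lit 32411241949) (nat_lit 152) (nat_lit 15113470939) (nat_lit 16) (nat_lit 5) (nat_lit 17) (nat_lit 5) (nat_lit 18) (nat_lit 4) (nat_lit 377) (nat_lit 272) (nat_lit 131))))))) (XT.nd (nat_lit 936) (nat_lit 152) (nat_lit 0) (XT.nd (nat_lit 468) (nat_lit 76) (nat_lit 0) (XT.nd (nat_lit 234) (nat_lit 228) (nat_lit 0) (XT.nd (nat_lit 78) (nat_lit 0) (nat_lit 0) (XT.lf (nat_lit 0) (nat_lit 14231637512) (nat_lit 76) (nat_lit 26275951123) (nat_lit 152) (nat_lit 10401690460) (nat_lit 16) (nat_lit 5) (nat_lit 17) (nat_lit 5) (nat_lit 18) (nat_lit 4) (nat_lit 378) (nat_lit 272) (nat_lit 130)) (XT.nd (nat_lit 78) (nat_lit 0) (nat_lit 0) (XT.lf (nat_lit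 0) (nat_lit 26707032592) (nat_lit 76) (nat_lit 19960963871) (nat_lit 152) (nat_lit 5554764462) (nat_lit 16) (nat_lit 5) (nat_lit 17) (nat_lit 5) (nat_lit 18) (nat_lit 4) (nat_lit 379) (nat_lit 272) (nat_lit 129)) (XT.lf (nat_lit 0) (nat_lit 39546606912) (nat_lit 76) (nat_lit 13460762243) (nat_lit 152) (nat_lit 568457766) (nat_lit 16) (nat_lit 5) (nat_lit 17) (nat_lit 5) (nat_lit 18) (nat_lit 4) (nat_lit 380) (nat_lit 272) (nat_lit 128)))) (XT.nd (nat_lit 78) (nat_lit 152) (nat_lit 0) (XT.lf (nat_lit 0) (nat_lit 4472573608) (nat_lit 152) (nat_lit 2251928618) (nat_lit 76) (nat_lit 48243841685) (nat_lit 15) (nat_lit 5) (nat_lit 17) (nat_lit 5) (nat_lit 16) (nat_lit 5) (nat_lit 381) (nat_lit 272) (nat_lit 127)) (XT.nd (nat_lit 78) (nat_lit 0) (nat_lit 0) (XT.lf (nat_lit 0) (nat_lit 9747570435) (nat_lit 228) (nat_lit 46343031143) (nat_lit 76) (nat_lit 309045110) (nat_lit 13) (nat_lit 5) (nat_lit 16)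 (nat_lit 5) (nat_lit 14) (nat_lit 4) (nat_lit 382) (nat_lit 272) (nat_lit 126)) (XT.lf (nat_lit 0) (nat_lit 15264823363) (nat_lit 228) (nat_lit 35169086788) (nat_lit 76) (nat_lit 7437462025) (nat_lit 13) (nat_lit 5) (nat_lit 16) (nat_lit 5) (nat_lit 14) (nat_lit 4) (nat_lit 383) (nat_lit 272) (nat_lit 125))))) (XT.nd (nat_lit 234) (nat_lit 0) (nat_lit 0) (XT.nd (nat_lit 78) (nat_lit 76) (nat_lit 0) (XT.lf (nat_lit 0) (nat_lit 20942216941) (nat_lit 228) (nat_lit 23669297328) (nat_lit 76) (nat_lit 14775900167) (nat_lit 13) (nat_lit 5) (nat_lit 16) (nat_lit 5) (nat_lit 14) (nat_lit 4) (nat_lit 384) (nat_lit 272) (nat_lit 124)) (XT.nd (nat_lit 78) (nat_lit 76) (nat_lit 0) (XT.lf (nat_lit 0) (nat_lit 26784711997) (nat_lit 228) (nat_lit 11833614405) (nat_lit 76) (nat_lit 22330771765) (nat_lit 13) (nat_lit 5) (nat_lit 16) (nat_lit 5) (nat_lit 14) (nat_lit 4) (nat_lit 385) (nat_lit 272) (nat_lit 123))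 (XT.lf (nat_lit 0) (nat_lit 355235769) (nat_lit 76) (nat_lit 32445592600) (nat_lit 152) (nat_lit 29756857135) (nat_lit 12) (nat_lit 5) (nat_lit 13) (nat_lit 5) (nat_lit 14) (nat_lit 4) (nat_lit 386) (nat_lit 272) (nat_lit 122)))) (XT.nd (nat_lit 78) (nat_lit 0) (nat_lit 0) (XT.lf (nat_lit 0) (nat_lit 13143580397) (nat_lit 76) (nat_lit 25968339381) (nat_lit 152) (nat_lit 25099179324) (nat_lit 12) (nat_lit 5) (nat_lit 13) (nat_lit 5) (nat_lit 14) (nat_lit 4) (nat_lit 387) (nat_lit 272) (nat_lit 121)) (XT.nd (nat_lit 78) (nat_lit 0) (nat_lit 0) (XT.lf (nat_lit 0) (nat_lit 26307081630) (nat_lit 76) (nat_lit 19300403312) (nat_lit 152) (nat_lit 20306779222) (nat_lit 12) (nat_lit 5) (nat_lit 13) (nat_lit 5) (nat_lit 14) (nat_lit 4) (nat_lit 388) (nat_lit 272) (nat_lit 120)) (XT.lf (nat_lit 0) (nat_lit 39857241556) (nat_lit 76) (nat_lit 12435958042) (nat_lit 152) (nat_lit 15375469297) (nat_lit 12) (nat_lit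 5) (nat_lit 13) (nat_lit 5) (nat_lit 14) (nat_lit 4) (nat_lit 389) (nat_lit 272) (nat_lit 119)))))) (XT.nd (nat_lit 31512) (nat_lit 0) (nat_lit 16416) (XT.nd (nat_lit 234) (nat_lit 0) (nat_lit 0) (XT.nd (nat_lit 78) (nat_lit 152) (nat_lit 0) (XT.lf (nat_lit 0) (nat_lit 53805900121) (nat_lit 76) (nat_lit 5369005512) (nat_lit 152) (nat_lit 10300940636) (nat_lit 12) (nat_lit 5) (nat_lit 13) (nat_lit 5) (nat_lit 14) (nat_lit 4) (nat_lit 390) (nat_lit 272) (nat_lit 118)) (XT.nd (nat_lit 78) (nat_lit 152) (nat_lit 0) (XT.lf (nat_lit 0) (nat_lit 66276943874) (nat_lit 152) (nat_lit 3190457587) (nat_lit 0) (nat_lit 1869424080) (nat_lit 12) (nat_lit 5) (nat_lit 14) (nat_lit 4) (nat_lit 12) (nat_lit 4) (nat_lit 391) (nat_lit 272) (nat_lit 117)) (XT.lf (nat_lit 0) (nat_lit 476171514) (nat_lit 152) (nat_lit 63460296910) (nat_lit 76) (nat_lit 9312740034) (nat_lit 10) (nat_lit 5) (nat_lit 12) (nat_lit 5) (nat_lit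 11) (nat_lit 4) (nat_lit 392) (nat_lit 272) (nat_lit 116)))) (XT.nd (nat_lit 78) (nat_lit 0) (nat_lit 0) (XT.lf (nat_lit 0) (nat_lit 6104804391) (nat_lit 152) (nat_lit 52053012259) (nat_lit 76) (nat_lit 17058800130) (nat_lit 10) (nat_lit 5) (nat_lit 12) (nat_lit 5) (nat_lit 11) (nat_lit 4) (nat_lit 393) (nat_lit 272) (nat_lit 115)) (XT.nd (nat_lit 78) (nat_lit 0) (nat_lit 0) (XT.lf (nat_lit 0) (nat_lit 11898083012) (nat_lit 152) (nat_lit 40310948006) (nat_lit 76) (nat_lit 25034145403) (nat_lit 10) (nat_lit 5) (nat_lit 12) (nat_lit 5) (nat_lit 11) (nat_lit 4) (nat_lit 394) (nat_lit 272) (nat_lit 114)) (XT.lf (nat_lit 0) (nat_lit 17861069465) (nat_lit 152) (nat_lit 28223844095) (nat_lit 76) (nat_lit 33245744602) (nat_lit 10) (nat_lit 5) (nat_lit 12) (nat_lit 5) (nat_lit 11) (nat_lit 4) (nat_lit 395) (nat_lit 272) (nat_lit 113))))) (XT.nd (nat_lit 234) (nat_lit 760) (nat_lit 0) (XT.nd (nat_lit 78)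 (nat_lit 0) (nat_lit 0) (XT.lf (nat_lit 0) (nat_lit 798193824) (nat_lit 0) (nat_lit 798193824) (nat_lit 684) (nat_lit 1996314330) (nat_lit 236) (nat_lit 5) (nat_lit 236) (nat_lit 3) (nat_lit 245) (nat_lit 3) (nat_lit 273) (nat_lit 273) (nat_lit 234)) (XT.nd (nat_lit 78) (nat_lit 0) (nat_lit 0) (XT.lf (nat_lit 0) (nat_lit 4759247353) (nat_lit 684) (nat_lit 2424741037) (nat_lit 760) (nat_lit 59823697) (nat_lit 236) (nat_lit 5) (nat_lit 245) (nat_lit 3) (nat_lit 246) (nat_lit 5) (nat_lit 274) (nat_lit 273) (nat_lit 233)) (XT.lf (nat_lit 76) (nat_lit 802483550) (nat_lit 0) (nat_lit 5534791482) (nat_lit 760) (nat_lit 967909491) (nat_lit 237) (nat_lit 5) (nat_lit 236) (nat_lit 5) (nat_lit 246) (nat_lit 5) (nat_lit 275) (nat_lit 273) (nat_lit 232)))) (XT.nd (nat_lit 78) (nat_lit 0) (nat_lit 0) (XT.lf (nat_lit 0) (nat_lit 549121524) (nat_lit 760) (nat_lit 3230208716) (nat_lit 836) (nat_lit 3590042728)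 (nat_lit 226) (nat_lit 5) (nat_lit 236) (nat_lit 5) (nat_lit 237) (nat_lit 5) (nat_lit 276) (nat_lit 273) (nat_lit 231)) (XT.nd (nat_lit 78) (nat_lit 0) (nat_lit 76) (XT.lf (nat_lit 76) (nat_lit 100981334) (nat_lit 0) (nat_lit 1935639999) (nat_lit 836) (nat_lit 5400382150) (nat_lit 227) (nat_lit 5) (nat_lit 226) (nat_lit 5) (nat_lit 237) (nat_lit 5) (nat_lit 277) (nat_lit 273) (nat_lit 230)) (XT.lf (nat_lit 0) (nat_lit 3546348377) (nat_lit 760) (nat_lit 3940899950) (nat_lit 836) (nat_lit 20218824) (nat_lit 227) (nat_lit 5) (nat_lit 237) (nat_lit 5) (nat_lit 238) (nat_lit 5) (nat_lit 278) (nat_lit 273) (nat_lit 229))))))))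
noncomputable def xc145 : XT := (XT.nd (nat_lit 1794) (nat_lit 5168) (nat_lit 0) (XT.nd (nat_lit 858) (nat_lit 5168) (nat_lit 0) (XT.nd (nat_lit 390) (nat_lit 760) (nat_lit 0) (XT.nd (nat_lit 156) (nat_lit 836) (nat_lit 0) (XT.nd (nat_lit 78) (nat_lit 0) (nat_lit 0) (XT.lf (nat_lit 0) (nat_lit 5067146259) (nat_lit 760) (nat_lit 495679164) (nat_lit 836) (nat_lit 2018374386) (nat_lit 227) (nat_lit 5) (nat_lit 237) (nat_lit 5) (nat_lit 238) (nat_lit 5) (nat_lit 279) (nat_lit 273) (nat_lit 228)) (XT.lf (nat_lit 76) (nat_lit 3081386093) (nat_lit 0) (nat_lit 3529971351) (nat_lit 836) (nat_lit 1046578030) (nat_lit 228) (nat_lit 5) (nat_lit 227) (nat_lit 5) (nat_lit 238) (nat_lit 5) (nat_lit 280) (nat_lit 273) (nat_lit 227))) (XT.nd (nat_lit 78) (nat_lit 0) (nat_lit 76) (XT.lf (nat_lit 0) (nat_lit 409662139) (nat_lit 836) (nat_lit 997885731) (nat_lit 912) (nat_lit 6330794435) (nat_lit 216) (nat_lit 5)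 (nat_lit 227) (nat_lit 5) (nat_lit 228) (nat_lit 5) (nat_lit 281) (nat_lit 273) (nat_lit 226)) (XT.nd (nat_lit 78) (nat_lit 0) (nat_lit 0) (XT.lf (nat_lit 0) (nat_lit 1872766777) (nat_lit 836) (nat_lit 5130778631) (nat_lit 912) (nat_lit 817892822) (nat_lit 217) (nat_lit 5) (nat_lit 228) (nat_lit 5) (nat_lit 229) (nat_lit 5) (nat_lit 282) (nat_lit 273) (nat_lit 225)) (XT.lf (nat_lit 0) (nat_lit 3355443475) (nat_lit 836) (nat_lit 1443393148) (nat_lit 912) (nat_lit 3109030843) (nat_lit 217) (nat_lit 5) (nat_lit 228) (nat_lit 5) (nat_lit 229) (nat_lit 5) (nat_lit 283) (nat_lit 273) (nat_lit 224))))) (XT.nd (nat_lit 234) (nat_lit 836) (nat_lit 0) (XT.nd (nat_lit 78) (nat_lit 0) (nat_lit 0) (XT.lf (nat_lit 76) (nat_lit 2368848867) (nat_lit 0) (nat_lit 2489499466) (nat_lit 912) (nat_lit 3139376387) (nat_lit 218) (nat_lit 5) (nat_lit 217) (nat_lit 5) (nat_lit 229) (nat_lit 5) (nat_lit 284) (nat_lit 273)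 (nat_lit 223)) (XT.nd (nat_lit 78) (nat_lit 0) (nat_lit 76) (XT.lf (nat_lit 76) (nat_lit 6293370109) (nat_lit 0) (nat_lit 81587814) (nat_lit 912) (nat_lit 1716365682) (nat_lit 218) (nat_lit 5) (nat_lit 217) (nat_lit 5) (nat_lit 229) (nat_lit 5) (nat_lit 285) (nat_lit 273) (nat_lit 222)) (XT.lf (nat_lit 76) (nat_lit 2134158373) (nat_lit 0) (nat_lit 5801992709) (nat_lit 912) (nat_lit 251708216) (nat_lit 219) (nat_lit 5) (nat_lit 218) (nat_lit 5) (nat_lit 230) (nat_lit 5) (nat_lit 286) (nat_lit 273) (nat_lit 221)))) (XT.nd (nat_lit 78) (nat_lit 0) (nat_lit 0) (XT.lf (nat_lit 0) (nat_lit 1207480728) (nat_lit 912) (nat_lit 2111707723) (nat_lit 988) (nat_lit 4968582184) (nat_lit 206) (nat_lit 5) (nat_lit 218) (nat_lit 5) (nat_lit 219) (nat_lit 5) (nat_lit 287) (nat_lit 273) (nat_lit 220)) (XT.nd (nat_lit 78) (nat_lit 0) (nat_lit 76) (XT.lf (nat_lit 76) (nat_lit 1952125064) (nat_lit 0) (nat_lit 729283318)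 (nat_lit 988) (nat_lit 5710008298) (nat_lit 207) (nat_lit 5) (nat_lit 206) (nat_lit 5) (nat_lit 219) (nat_lit 5) (nat_lit 288) (nat_lit 273) (nat_lit 219)) (XT.lf (nat_lit 0) (nat_lit 4198015714) (nat_lit 912) (nat_lit 2368363377) (nat_lit 76) (nat_lit 1931929252) (nat_lit 207) (nat_lit 5) (nat_lit 219) (nat_lit 5) (nat_lit 208) (nat_lit 5) (nat_lit 289) (nat_lit 273) (nat_lit 218)))))) (XT.nd (nat_lit 468) (nat_lit 2204) (nat_lit 0) (XT.nd (nat_lit 234) (nat_lit 1064) (nat_lit 0) (XT.nd (nat_lit 78) (nat_lit 1064) (nat_lit 0) (XT.lf (nat_lit 0) (nat_lit 1820819994) (nat_lit 912) (nat_lit 3923533765) (nat_lit 988) (nat_lit 2864613490) (nat_lit 195) (nat_lit 5) (nat_lit 207) (nat_lit 5) (nat_lit 208) (nat_lit 5) (nat_lit 290) (nat_lit 273) (nat_lit 217)) (XT.nd (nat_lit 78) (nat_lit 1064) (nat_lit 0) (XT.lf (nat_lit 0) (nat_lit 6152360668) (nat_lit 912) (nat_lit 1169019156) (nat_lit 988) (nat_lit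 1402122082) (nat_lit 195) (nat_lit 5) (nat_lit 207) (nat_lit 5) (nat_lit 208) (nat_lit 5) (nat_lit 291) (nat_lit 273) (nat_lit 216)) (XT.lf (nat_lit 0) (nat_lit 96621317) (nat_lit 1064) (nat_lit 7084261110) (nat_lit 76) (nat_lit 1660807817) (nat_lit 181) (nat_lit 5) (nat_lit 195) (nat_lit 5) (nat_lit 182) (nat_lit 5) (nat_lit 292) (nat_lit 273) (nat_lit 215)))) (XT.nd (nat_lit 78) (nat_lit 1064) (nat_lit 0) (XT.lf (nat_lit 0) (nat_lit 1611909747) (nat_lit 1064) (nat_lit 2752563047) (nat_lit 76) (nat_lit 4598619763) (nat_lit 181) (nat_lit 5) (nat_lit 195) (nat_lit 5) (nat_lit 182) (nat_lit 5) (nat_lit 293) (nat_lit 273) (nat_lit 214)) (XT.nd (nat_lit 78) (nat_lit 0) (nat_lit 0) (XT.lf (nat_lit 0) (nat_lit 1710655054) (nat_lit 1064) (nat_lit 1441522335) (nat_lit 1140) (nat_lit 5936649383) (nat_lit 167) (nat_lit 5) (nat_lit 181) (nat_lit 5) (nat_lit 182) (nat_lit 5) (nat_lit 294) (nat_lit 273) (nat_lit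 213)) (XT.lf (nat_lit 0) (nat_lit 4745701100) (nat_lit 1140) (nat_lit 2901365660) (nat_lit 76) (nat_lit 1571128065) (nat_lit 167) (nat_lit 5) (nat_lit 182) (nat_lit 5) (nat_lit 168) (nat_lit 5) (nat_lit 295) (nat_lit 273) (nat_lit 212))))) (XT.nd (nat_lit 234) (nat_lit 532) (nat_lit 0) (XT.nd (nat_lit 78) (nat_lit 608) (nat_lit 0) (XT.lf (nat_lit 0) (nat_lit 1696833370) (nat_lit 1064) (nat_lit 4685726319) (nat_lit 1140) (nat_lit 2969089477) (nat_lit 153) (nat_lit 5) (nat_lit 167) (nat_lit 5) (nat_lit 168) (nat_lit 5) (nat_lit 296) (nat_lit 273) (nat_lit 211)) (XT.nd (nat_lit 78) (nat_lit 608) (nat_lit 0) (XT.lf (nat_lit 0) (nat_lit 6461014758) (nat_lit 1064) (nat_lit 1602471842) (nat_lit 1140) (nat_lit 1425840708) (nat_lit 153) (nat_lit 5) (nat_lit 167) (nat_lit 5) (nat_lit 168) (nat_lit 5) (nat_lit 297) (nat_lit 273) (nat_lit 210)) (XT.lf (nat_lit 0) (nat_lit 158815251) (nat_lit 608) (nat_lit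 7908923821) (nat_lit 76) (nat_lit 1563465471) (nat_lit 145) (nat_lit 5) (nat_lit 153) (nat_lit 5) (nat_lit 146) (nat_lit 5) (nat_lit 298) (nat_lit 273) (nat_lit 209)))) (XT.nd (nat_lit 78) (nat_lit 532) (nat_lit 0) (XT.lf (nat_lit 0) (nat_lit 1776075541) (nat_lit 608) (nat_lit 3161265239) (nat_lit 76) (nat_lit 4839225308) (nat_lit 145) (nat_lit 5) (nat_lit 153) (nat_lit 5) (nat_lit 146) (nat_lit 5) (nat_lit 299) (nat_lit 273) (nat_lit 208)) (XT.nd (nat_lit 78) (nat_lit 0) (nat_lit 0) (XT.lf (nat_lit 0) (nat_lit 1731516353) (nat_lit 532) (nat_lit 1694917396) (nat_lit 608) (nat_lit 6500378676) (nat_lit 138) (nat_lit 5) (nat_lit 145) (nat_lit 5) (nat_lit 146) (nat_lit 5) (nat_lit 300) (nat_lit 273) (nat_lit 207)) (XT.lf (nat_lit 0) (nat_lit 5142931741) (nat_lit 608) (nat_lit 3292649410) (nat_lit 76) (nat_lit 1645545692) (nat_lit 138) (nat_lit 5) (nat_lit 146) (nat_lit 5) (nat_lit 139) (nat_lit 5)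 (nat_lit 301) (nat_lit 273) (nat_lit 206))))))) (XT.nd (nat_lit 936) (nat_lit 2204) (nat_lit 0) (XT.nd (nat_lit 468) (nat_lit 1368) (nat_lit 0) (XT.nd (nat_lit 234) (nat_lit 456) (nat_lit 0) (XT.nd (nat_lit 78) (nat_lit 608) (nat_lit 0) (XT.lf (nat_lit 0) (nat_lit 1743443846) (nat_lit 532) (nat_lit 5170516158) (nat_lit 608) (nat_lit 3326077456) (nat_lit 131) (nat_lit 5) (nat_lit 138) (nat_lit 5) (nat_lit 139) (nat_lit 5) (nat_lit 302) (nat_lit 273) (nat_lit 205)) (XT.nd (nat_lit 78) (nat_lit 608) (nat_lit 0) (XT.lf (nat_lit 0) (nat_lit 6967546341) (nat_lit 532) (nat_lit 1773911645) (nat_lit 608) (nat_lit 1662213386) (nat_lit 131) (nat_lit 5) (nat_lit 138) (nat_lit 5) (nat_lit 139) (nat_lit 5) (nat_lit 303) (nat_lit 273) (nat_lit 204)) (XT.lf (nat_lit 0) (nat_lit 55034510) (nat_lit 608) (nat_lit 8809282769) (nat_lit 76) (nat_lit 1707800846) (nat_lit 123) (nat_lit 5) (nat_lit 131) (nat_lit 5) (nat_lit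 124) (nat_lit 5) (nat_lit 304) (nat_lit 273) (nat_lit 203)))) (XT.nd (nat_lit 78) (nat_lit 456) (nat_lit 0) (XT.lf (nat_lit 0) (nat_lit 1814171504) (nat_lit 608) (nat_lit 3621664029) (nat_lit 76) (nat_lit 5308626985) (nat_lit 123) (nat_lit 5) (nat_lit 131) (nat_lit 5) (nat_lit 124) (nat_lit 5) (nat_lit 305) (nat_lit 273) (nat_lit 202)) (XT.nd (nat_lit 78) (nat_lit 0) (nat_lit 0) (XT.lf (nat_lit 0) (nat_lit 1725225474) (nat_lit 456) (nat_lit 1889455961) (nat_lit 532) (nat_lit 7307687725) (nat_lit 117) (nat_lit 5) (nat_lit 123) (nat_lit 5) (nat_lit 124) (nat_lit 5) (nat_lit 306) (nat_lit 273) (nat_lit 201)) (XT.lf (nat_lit 0) (nat_lit 5495612911) (nat_lit 532) (nat_lit 3845644853) (nat_lit 76) (nat_lit 1763611478) (nat_lit 117) (nat_lit 5) (nat_lit 124) (nat_lit 5) (nat_lit 118) (nat_lit 5) (nat_lit 307) (nat_lit 273) (nat_lit 200))))) (XT.nd (nat_lit 234) (nat_lit 532) (nat_lit 0) (XT.nd (nat_lit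 78) (nat_lit 380) (nat_lit 0) (XT.lf (nat_lit 0) (nat_lit 1650204476) (nat_lit 456) (nat_lit 5790660817) (nat_lit 532) (nat_lit 3851789265) (nat_lit 111) (nat_lit 5) (nat_lit 117) (nat_lit 5) (nat_lit 118) (nat_lit 5) (nat_lit 308) (nat_lit 273) (nat_lit 199)) (XT.nd (nat_lit 78) (nat_lit 380) (nat_lit 0) (XT.lf (nat_lit 0) (nat_lit 7360363882) (nat_lit 456) (nat_lit 2096761962) (nat_lit 532) (nat_lit 2028613720) (nat_lit 111) (nat_lit 5) (nat_lit 117) (nat_lit 5) (nat_lit 118) (nat_lit 5) (nat_lit 309) (nat_lit 273) (nat_lit 198)) (XT.lf (nat_lit 0) (nat_lit 1541556320) (nat_lit 380) (nat_lit 9998103905) (nat_lit 456) (nat_lit 144827634) (nat_lit 106) (nat_lit 5) (nat_lit 111) (nat_lit 5) (nat_lit 112) (nat_lit 5) (nat_lit 310) (nat_lit 273) (nat_lit 197)))) (XT.nd (nat_lit 78) (nat_lit 456) (nat_lit 0) (XT.lf (nat_lit 0) (nat_lit 1797988937) (nat_lit 456) (nat_lit 4492893535) (nat_lit 76) (nat_lit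 5596713539) (nat_lit 105) (nat_lit 5) (nat_lit 111) (nat_lit 5) (nat_lit 106) (nat_lit 5) (nat_lit 311) (nat_lit 273) (nat_lit 196)) (XT.nd (nat_lit 78) (nat_lit 0) (nat_lit 0) (XT.lf (nat_lit 0) (nat_lit 1322300470) (nat_lit 456) (nat_lit 2462047995) (nat_lit 532) (nat_lit 8312801403) (nat_lit 99) (nat_lit 5) (nat_lit 105) (nat_lit 5) (nat_lit 106) (nat_lit 5) (nat_lit 312) (nat_lit 273) (nat_lit 195)) (XT.lf (nat_lit 0) (nat_lit 5866218368) (nat_lit 532) (nat_lit 4951424055) (nat_lit 76) (nat_lit 1494309708) (nat_lit 99) (nat_lit 5) (nat_lit 106) (nat_lit 5) (nat_lit 100) (nat_lit 5) (nat_lit 313) (nat_lit 273) (nat_lit 194)))))) (XT.nd (nat_lit 468) (nat_lit 1064) (nat_lit 0) (XT.nd (nat_lit 234) (nat_lit 380) (nat_lit 0) (XT.nd (nat_lit 78) (nat_lit 380) (nat_lit 0) (XT.lf (nat_lit 0) (nat_lit 1013806209) (nat_lit 380) (nat_lit 7007421780) (nat_lit 456) (nat_lit 4511688196) (nat_lit 94) (nat_lit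 5) (nat_lit 99) (nat_lit 5) (nat_lit 100) (nat_lit 5) (nat_lit 314) (nat_lit 273) (nat_lit 193)) (XT.nd (nat_lit 78) (nat_lit 380) (nat_lit 0) (XT.lf (nat_lit 0) (nat_lit 7231466073) (nat_lit 380) (nat_lit 3036396344) (nat_lit 456) (nat_lit 2491874623) (nat_lit 94) (nat_lit 5) (nat_lit 99) (nat_lit 5) (nat_lit 100) (nat_lit 5) (nat_lit 315) (nat_lit 273) (nat_lit 192)) (XT.lf (nat_lit 0) (nat_lit 616320123) (nat_lit 380) (nat_lit 11959228390) (nat_lit 456) (nat_lit 418040464) (nat_lit 89) (nat_lit 5) (nat_lit 94) (nat_lit 5) (nat_lit 95) (nat_lit 5) (nat_lit 316) (nat_lit 273) (nat_lit 191)))) (XT.nd (nat_lit 78) (nat_lit 304) (nat_lit 0) (XT.lf (nat_lit 0) (nat_lit 1748658648) (nat_lit 456) (nat_lit 6249413455) (nat_lit 76) (nat_lit 5233997667) (nat_lit 88) (nat_lit 5) (nat_lit 94) (nat_lit 5) (nat_lit 89) (nat_lit 5) (nat_lit 317) (nat_lit 273) (nat_lit 190)) (XT.nd (nat_lit 78) (nat_lit 0) (nat_lit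 0) (XT.lf (nat_lit 0) (nat_lit 31496700) (nat_lit 304) (nat_lit 3919144856) (nat_lit 380) (nat_lit 9527611688) (nat_lit 84) (nat_lit 5) (nat_lit 88) (nat_lit 5) (nat_lit 89) (nat_lit 5) (nat_lit 318) (nat_lit 273) (nat_lit 189)) (XT.lf (nat_lit 0) (nat_lit 6263825059) (nat_lit 380) (nat_lit 7131928564) (nat_lit 76) (nat_lit 334746381) (nat_lit 84) (nat_lit 5) (nat_lit 89) (nat_lit 5) (nat_lit 85) (nat_lit 5) (nat_lit 319) (nat_lit 273) (nat_lit 188))))) (XT.nd (nat_lit 234) (nat_lit 684) (nat_lit 0) (XT.nd (nat_lit 78) (nat_lit 380) (nat_lit 0) (XT.lf (nat_lit 0) (nat_lit 8664525217) (nat_lit 380) (nat_lit 693258710) (nat_lit 76) (nat_lit 4632017692) (nat_lit 84) (nat_lit 5) (nat_lit 89) (nat_lit 5) (nat_lit 85) (nat_lit 5) (nat_lit 320) (nat_lit 273) (nat_lit 187)) (XT.nd (nat_lit 78) (nat_lit 0) (nat_lit 0) (XT.lf (nat_lit 0) (nat_lit 6030223643) (nat_lit 380) (nat_lit 5144909066) (nat_lit 456)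 (nat_lit 3080643163) (nat_lit 79) (nat_lit 5) (nat_lit 84) (nat_lit 5) (nat_lit 85) (nat_lit 5) (nat_lit 321) (nat_lit 273) (nat_lit 186)) (XT.lf (nat_lit 0) (nat_lit 12943857698) (nat_lit 380) (nat_lit 804458604) (nat_lit 456) (nat_lit 781824614) (nat_lit 79) (nat_lit 5) (nat_lit 84) (nat_lit 5) (nat_lit 85) (nat_lit 5) (nat_lit 322) (nat_lit 273) (nat_lit 185)))) (XT.nd (nat_lit 78) (nat_lit 304) (nat_lit 0) (XT.lf (nat_lit 0) (nat_lit 1622559014) (nat_lit 380) (nat_lit 9531985839) (nat_lit 76) (nat_lit 3655735873) (nat_lit 74) (nat_lit 5) (nat_lit 79) (nat_lit 5) (nat_lit 75) (nat_lit 5) (nat_lit 323) (nat_lit 273) (nat_lit 184)) (XT.nd (nat_lit 78) (nat_lit 304) (nat_lit 0) (XT.lf (nat_lit 0) (nat_lit 4088380635) (nat_lit 380) (nat_lit 2758598508) (nat_lit 76) (nat_lit 8251489564) (nat_lit 74) (nat_lit 5) (nat_lit 79) (nat_lit 5) (nat_lit 75) (nat_lit 5) (nat_lit 324) (nat_lit 273) (nat_lit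 183)) (XT.lf (nat_lit 0) (nat_lit 4276471312) (nat_lit 304) (nat_lit 2374249087) (nat_lit 380) (nat_lit 8743931656) (nat_lit 70) (nat_lit 5) (nat_lit 74) (nat_lit 5) (nat_lit 75) (nat_lit 5) (nat_lit 325) (nat_lit 273) (nat_lit 182))))))))
noncomputable def xc146 : XT := (XT.nd (nat_lit 1794) (nat_lit 1444) (nat_lit 0) (XT.nd (nat_lit 858) (nat_lit 988) (nat_lit 0) (XT.nd (nat_lit 390) (nat_lit 760) (nat_lit 0) (XT.nd (nat_lit 156) (nat_lit 380) (nat_lit 0) (XT.nd (nat_lit 78) (nat_lit 304) (nat_lit 0) (XT.lf (nat_lit 0) (nat_lit 9321200695) (nat_lit 380) (nat_lit 4166715649) (nat_lit 76) (nat_lit 2210891725) (nat_lit 70) (nat_lit 5) (nat_lit 75) (nat_lit 5) (nat_lit 71) (nat_lit 5) (nat_lit 326) (nat_lit 273) (nat_lit 181)) (XT.lf (nat_lit 0) (nat_lit 3003903242) (nat_lit 304) (nat_lit 9102485001) (nat_lit 380) (nat_lit 3904687274) (nat_lit 66) (nat_lit 5) (nat_lit 70) (nat_lit 5) (nat_lit 71)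 (nat_lit 5) (nat_lit 327) (nat_lit 273) (nat_lit 180))) (XT.nd (nat_lit 78) (nat_lit 380) (nat_lit 0) (XT.lf (nat_lit 0) (nat_lit 10450794770) (nat_lit 304) (nat_lit 4548907334) (nat_lit 380) (nat_lit 1332295587) (nat_lit 66) (nat_lit 5) (nat_lit 70) (nat_lit 5) (nat_lit 71) (nat_lit 5) (nat_lit 328) (nat_lit 273) (nat_lit 179)) (XT.nd (nat_lit 78) (nat_lit 0) (nat_lit 0) (XT.lf (nat_lit 0) (nat_lit 1289874723) (nat_lit 380) (nat_lit 15213578600) (nat_lit 76) (nat_lit 158787446) (nat_lit 61) (nat_lit 5) (nat_lit 66) (nat_lit 5) (nat_lit 62) (nat_lit 5) (nat_lit 329) (nat_lit 273) (nat_lit 178)) (XT.lf (nat_lit 0) (nat_lit 4051969401) (nat_lit 380) (nat_lit 7964592171) (nat_lit 76) (nat_lit 4982814527) (nat_lit 61) (nat_lit 5) (nat_lit 66) (nat_lit 5) (nat_lit 62) (nat_lit 5) (nat_lit 330) (nat_lit 273) (nat_lit 177))))) (XT.nd (nat_lit 234) (nat_lit 532) (nat_lit 0) (XT.nd (nat_lit 78) (nat_lit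 228) (nat_lit 0) (XT.lf (nat_lit 0) (nat_lit 6880443199) (nat_lit 380) (nat_lit 521579896) (nat_lit 76) (nat_lit 9945118072) (nat_lit 61) (nat_lit 5) (nat_lit 66) (nat_lit 5) (nat_lit 62) (nat_lit 5) (nat_lit 331) (nat_lit 273) (nat_lit 176)) (XT.nd (nat_lit 78) (nat_lit 0) (nat_lit 0) (XT.lf (nat_lit 0) (nat_lit 7263702832) (nat_lit 228) (nat_lit 2583887924) (nat_lit 304) (nat_lit 7856154397) (nat_lit 58) (nat_lit 5) (nat_lit 61) (nat_lit 5) (nat_lit 62) (nat_lit 5) (nat_lit 332) (nat_lit 273) (nat_lit 175)) (XT.lf (nat_lit 0) (nat_lit 12916118878) (nat_lit 304) (nat_lit 2823537015) (nat_lit 76) (nat_lit 2331040332) (nat_lit 58) (nat_lit 5) (nat_lit 62) (nat_lit 5) (nat_lit 59) (nat_lit 5) (nat_lit 333) (nat_lit 273) (nat_lit 174)))) (XT.nd (nat_lit 78) (nat_lit 304) (nat_lit 0) (XT.lf (nat_lit 0) (nat_lit 5072568224) (nat_lit 228) (nat_lit 11063119712) (nat_lit 304) (nat_lit 2311217712) (nat_lit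 55) (nat_lit 5) (nat_lit 58) (nat_lit 5) (nat_lit 59) (nat_lit 5) (nat_lit 334) (nat_lit 273) (nat_lit 173)) (XT.nd (nat_lit 78) (nat_lit 228) (nat_lit 0) (XT.lf (nat_lit 0) (nat_lit 618897019) (nat_lit 304) (nat_lit 5598727417) (nat_lit 76) (nat_lit 12616212035) (nat_lit 54) (nat_lit 5) (nat_lit 58) (nat_lit 5) (nat_lit 55) (nat_lit 5) (nat_lit 335) (nat_lit 273) (nat_lit 172)) (XT.lf (nat_lit 0) (nat_lit 2412598206) (nat_lit 228) (nat_lit 1186208908) (nat_lit 304) (nat_lit 15632648977) (nat_lit 51) (nat_lit 5) (nat_lit 54) (nat_lit 5) (nat_lit 55) (nat_lit 5) (nat_lit 336) (nat_lit 273) (nat_lit 171)))))) (XT.nd (nat_lit 468) (nat_lit 456) (nat_lit 0) (XT.nd (nat_lit 234) (nat_lit 304) (nat_lit 0) (XT.nd (nat_lit 78) (nat_lit 228) (nat_lit 0) (XT.lf (nat_lit 0) (nat_lit 6748936568) (nat_lit 304) (nat_lit 8921173370) (nat_lit 76) (nat_lit 3968486911) (nat_lit 51) (nat_lit 5) (nat_lit 55) (nat_lit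 5) (nat_lit 52) (nat_lit 5) (nat_lit 337) (nat_lit 273) (nat_lit 170)) (XT.nd (nat_lit 78) (nat_lit 228) (nat_lit 0) (XT.lf (nat_lit 0) (nat_lit 9991055026) (nat_lit 304) (nat_lit 819588384) (nat_lit 76) (nat_lit 9247400577) (nat_lit 51) (nat_lit 5) (nat_lit 55) (nat_lit 5) (nat_lit 52) (nat_lit 5) (nat_lit 338) (nat_lit 273) (nat_lit 169)) (XT.lf (nat_lit 0) (nat_lit 7653730545) (nat_lit 228) (nat_lit 5736434636) (nat_lit 304) (nat_lit 7098133735) (nat_lit 48) (nat_lit 5) (nat_lit 51) (nat_lit 5) (nat_lit 52) (nat_lit 5) (nat_lit 339) (nat_lit 273) (nat_lit 168)))) (XT.nd (nat_lit 78) (nat_lit 304) (nat_lit 0) (XT.lf (nat_lit 0) (nat_lit 16377586946) (nat_lit 228) (nat_lit 508300261) (nat_lit 304) (nat_lit 4045750880) (nat_lit 48) (nat_lit 5) (nat_lit 51) (nat_lit 5) (nat_lit 52) (nat_lit 5) (nat_lit 340) (nat_lit 273) (nat_lit 167)) (XT.nd (nat_lit 78) (nat_lit 76) (nat_lit 0) (XT.lf (nat_lit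 0) (nat_lit 3985560983) (nat_lit 228) (nat_lit 16572805024) (nat_lit 304) (nat_lit 827770165) (nat_lit 45) (nat_lit 5) (nat_lit 48) (nat_lit 5) (nat_lit 49) (nat_lit 5) (nat_lit 341) (nat_lit 273) (nat_lit 166)) (XT.lf (nat_lit 0) (nat_lit 2476446079) (nat_lit 304) (nat_lit 9027862336) (nat_lit 76) (nat_lit 10348111426) (nat_lit 44) (nat_lit 5) (nat_lit 48) (nat_lit 5) (nat_lit 45) (nat_lit 5) (nat_lit 342) (nat_lit 273) (nat_lit 165))))) (XT.nd (nat_lit 234) (nat_lit 228) (nat_lit 0) (XT.nd (nat_lit 78) (nat_lit 228) (nat_lit 0) (XT.lf (nat_lit 0) (nat_lit 5850284051) (nat_lit 304) (nat_lit 431868354) (nat_lit 76) (nat_lit 16050693760) (nat_lit 44) (nat_lit 5) (nat_lit 48) (nat_lit 5) (nat_lit 45) (nat_lit 5) (nat_lit 343) (nat_lit 273) (nat_lit 164)) (XT.nd (nat_lit 78) (nat_lit 0) (nat_lit 0) (XT.lf (nat_lit 0) (nat_lit 8570108538) (nat_lit 228) (nat_lit 825117128) (nat_lit 304) (nat_lit 13430376543)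 (nat_lit 41) (nat_lit 5) (nat_lit 44) (nat_lit 5) (nat_lit 45) (nat_lit 5) (nat_lit 344) (nat_lit 273) (nat_lit 163)) (XT.lf (nat_lit 0) (nat_lit 13084643651) (nat_lit 304) (nat_lit 5547415992) (nat_lit 76) (nat_lit 4699950639) (nat_lit 41) (nat_lit 5) (nat_lit 45) (nat_lit 5) (nat_lit 42) (nat_lit 5) (nat_lit 345) (nat_lit 273) (nat_lit 162)))) (XT.nd (nat_lit 78) (nat_lit 76) (nat_lit 0) (XT.lf (nat_lit 0) (nat_lit 3462601589) (nat_lit 152) (nat_lit 13451582528) (nat_lit 228) (nat_lit 6938556088) (nat_lit 39) (nat_lit 5) (nat_lit 41) (nat_lit 5) (nat_lit 42) (nat_lit 5) (nat_lit 346) (nat_lit 273) (nat_lit 161)) (XT.nd (nat_lit 78) (nat_lit 76) (nat_lit 0) (XT.lf (nat_lit 0) (nat_lit 12838118849) (nat_lit 152) (nat_lit 8064667722) (nat_lit 228) (nat_lit 3484992615) (nat_lit 39) (nat_lit 5) (nat_lit 41) (nat_lit 5) (nat_lit 42) (nat_lit 5) (nat_lit 347) (nat_lit 273) (nat_lit 160)) (XT.lf (nat_lit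 0) (nat_lit 59146311) (nat_lit 228) (nat_lit 2462882663) (nat_lit 76) (nat_lit 22417179958) (nat_lit 38) (nat_lit 5) (nat_lit 41) (nat_lit 5) (nat_lit 39) (nat_lit 5) (nat_lit 348) (nat_lit 273) (nat_lit 159))))))) (XT.nd (nat_lit 936) (nat_lit 532) (nat_lit 0) (XT.nd (nat_lit 468) (nat_lit 380) (nat_lit 0) (XT.nd (nat_lit 234) (nat_lit 304) (nat_lit 0) (XT.nd (nat_lit 78) (nat_lit 0) (nat_lit 0) (XT.lf (nat_lit 0) (nat_lit 3726959793) (nat_lit 304) (nat_lit 18555543964) (nat_lit 76) (nat_lit 3221032187) (nat_lit 35) (nat_lit 5) (nat_lit 39) (nat_lit 5) (nat_lit 36) (nat_lit 5) (nat_lit 349) (nat_lit 273) (nat_lit 158)) (XT.nd (nat_lit 78) (nat_lit 0) (nat_lit 0) (XT.lf (nat_lit 0) (nat_lit 7543709160) (nat_lit 304) (nat_lit 9435384247) (nat_lit 76) (nat_lit 9104543362) (nat_lit 35) (nat_lit 5) (nat_lit 39) (nat_lit 5) (nat_lit 36) (nat_lit 5) (nat_lit 350) (nat_lit 273) (nat_lit 157)) (XT.lf (nat_lit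 0) (nat_lit 11464101173) (nat_lit 304) (nat_lit 58901592) (nat_lit 76) (nat_lit 15158474374) (nat_lit 35) (nat_lit 5) (nat_lit 39) (nat_lit 5) (nat_lit 36) (nat_lit 5) (nat_lit 351) (nat_lit 273) (nat_lit 156)))) (XT.nd (nat_lit 78) (nat_lit 152) (nat_lit 0) (XT.lf (nat_lit 0) (nat_lit 9772799564) (nat_lit 152) (nat_lit 5812703981) (nat_lit 228) (nat_lit 11709257630) (nat_lit 33) (nat_lit 5) (nat_lit 35) (nat_lit 5) (nat_lit 36) (nat_lit 5) (nat_lit 352) (nat_lit 273) (nat_lit 155)) (XT.nd (nat_lit 78) (nat_lit 152) (nat_lit 0) (XT.lf (nat_lit 0) (nat_lit 19821355103) (nat_lit 228) (nat_lit 8043311170) (nat_lit 76) (nat_lit 62063354) (nat_lit 33) (nat_lit 5) (nat_lit 36) (nat_lit 5) (nat_lit 34) (nat_lit 5) (nat_lit 353) (nat_lit 273) (nat_lit 154)) (XT.lf (nat_lit 0) (nat_lit 1678516475) (nat_lit 152) (nat_lit 22569300816) (nat_lit 228) (nat_lit 4327943606) (nat_lit 31) (nat_lit 5) (nat_lit 33)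 (nat_lit 5) (nat_lit 34) (nat_lit 5) (nat_lit 354) (nat_lit 273) (nat_lit 153))))) (XT.nd (nat_lit 234) (nat_lit 152) (nat_lit 0) (XT.nd (nat_lit 78) (nat_lit 228) (nat_lit 0) (XT.lf (nat_lit 0) (nat_lit 11840654891) (nat_lit 152) (nat_lit 17037628471) (nat_lit 228) (nat_lit 363852970) (nat_lit 31) (nat_lit 5) (nat_lit 33) (nat_lit 5) (nat_lit 34) (nat_lit 5) (nat_lit 355) (nat_lit 273) (nat_lit 152)) (XT.nd (nat_lit 78) (nat_lit 152) (nat_lit 0) (XT.lf (nat_lit 0) (nat_lit 3636760807) (nat_lit 228) (nat_lit 7672552451) (nat_lit 76) (nat_lit 18618420991) (nat_lit 30) (nat_lit 5) (nat_lit 33) (nat_lit 5) (nat_lit 31) (nat_lit 5) (nat_lit 356) (nat_lit 273) (nat_lit 151)) (XT.lf (nat_lit 0) (nat_lit 2375505274) (nat_lit 152) (nat_lit 5387870265) (nat_lit 228) (nat_lit 22870026342) (nat_lit 28) (nat_lit 5) (nat_lit 30) (nat_lit 5) (nat_lit 31) (nat_lit 5) (nat_lit 357) (nat_lit 273) (nat_lit 150))))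 (XT.nd (nat_lit 78) (nat_lit 152) (nat_lit 0) (XT.lf (nat_lit 0) (nat_lit 12089404393) (nat_lit 228) (nat_lit 18498807565) (nat_lit 76) (nat_lit 769767580) (nat_lit 28) (nat_lit 5) (nat_lit 31) (nat_lit 5) (nat_lit 29) (nat_lit 5) (nat_lit 358) (nat_lit 273) (nat_lit 149)) (XT.nd (nat_lit 78) (nat_lit 152) (nat_lit 0) (XT.lf (nat_lit 0) (nat_lit 16589369259) (nat_lit 228) (nat_lit 8515410655) (nat_lit 76) (nat_lit 6998198174) (nat_lit 28) (nat_lit 5) (nat_lit 31) (nat_lit 5) (nat_lit 29) (nat_lit 5) (nat_lit 359) (nat_lit 273) (nat_lit 148)) (XT.lf (nat_lit 0) (nat_lit 1787693317) (nat_lit 152) (nat_lit 19444901726) (nat_lit 228) (nat_lit 11637491675) (nat_lit 26) (nat_lit 5) (nat_lit 28) (nat_lit 5) (nat_lit 29) (nat_lit 5) (nat_lit 360) (nat_lit 273) (nat_lit 147)))))) (XT.nd (nat_lit 468) (nat_lit 304) (nat_lit 0) (XT.nd (nat_lit 234) (nat_lit 152) (nat_lit 0) (XT.nd (nat_lit 78) (nat_lit 76)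 (nat_lit 0) (XT.lf (nat_lit 0) (nat_lit 12559912714) (nat_lit 152) (nat_lit 13532391562) (nat_lit 228) (nat_lit 7565596478) (nat_lit 26) (nat_lit 5) (nat_lit 28) (nat_lit 5) (nat_lit 29) (nat_lit 5) (nat_lit 361) (nat_lit 273) (nat_lit 146)) (XT.nd (nat_lit 78) (nat_lit 76) (nat_lit 0) (XT.lf (nat_lit 0) (nat_lit 23641186785) (nat_lit 152) (nat_lit 7448072103) (nat_lit 228) (nat_lit 3380354223) (nat_lit 26) (nat_lit 5) (nat_lit 28) (nat_lit 5) (nat_lit 29) (nat_lit 5) (nat_lit 362) (nat_lit 273) (nat_lit 145)) (XT.lf (nat_lit 0) (nat_lit 903902662) (nat_lit 228) (nat_lit 273596646) (nat_lit 76) (nat_lit 34128167890) (nat_lit 25) (nat_lit 5) (nat_lit 28) (nat_lit 5) (nat_lit 26) (nat_lit 5) (nat_lit 363) (nat_lit 273) (nat_lit 144)))) (XT.nd (nat_lit 78) (nat_lit 0) (nat_lit 0) (XT.lf (nat_lit 0) (nat_lit 5396114368) (nat_lit 228) (nat_lit 25454094446) (nat_lit 76) (nat_lit 5311175846) (nat_lit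 23) (nat_lit 5) (nat_lit 26) (nat_lit 5) (nat_lit 24) (nat_lit 5) (nat_lit 364) (nat_lit 273) (nat_lit 143)) (XT.nd (nat_lit 78) (nat_lit 0) (nat_lit 0) (XT.lf (nat_lit 0) (nat_lit 10029456869) (nat_lit 228) (nat_lit 15044699743) (nat_lit 76) (nat_lit 11968432783) (nat_lit 23) (nat_lit 5) (nat_lit 26) (nat_lit 5) (nat_lit 24) (nat_lit 5) (nat_lit 365) (nat_lit 273) (nat_lit 142)) (XT.lf (nat_lit 0) (nat_lit 14793950993) (nat_lit 228) (nat_lit 4336164330) (nat_lit 76) (nat_lit 18820356898) (nat_lit 23) (nat_lit 5) (nat_lit 26) (nat_lit 5) (nat_lit 24) (nat_lit 5) (nat_lit 366) (nat_lit 273) (nat_lit 141))))) (XT.nd (nat_lit 234) (nat_lit 152) (nat_lit 0) (XT.nd (nat_lit 78) (nat_lit 0) (nat_lit 0) (XT.lf (nat_lit 0) (nat_lit 6813831155) (nat_lit 152) (nat_lit 12945427451) (nat_lit 228) (nat_lit 19124602867) (nat_lit 21) (nat_lit 5) (nat_lit 23) (nat_lit 5) (nat_lit 24) (nat_lit 5) (nat_lit 367)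 (nat_lit 273) (nat_lit 140)) (XT.nd (nat_lit 78) (nat_lit 0) (nat_lit 0) (XT.lf (nat_lit 0) (nat_lit 18374580326) (nat_lit 152) (nat_lit 6535212333) (nat_lit 228) (nat_lit 14934377842) (nat_lit 21) (nat_lit 5) (nat_lit 23) (nat_lit 5) (nat_lit 24) (nat_lit 5) (nat_lit 368) (nat_lit 273) (nat_lit 139)) (XT.lf (nat_lit 0) (nat_lit 30208141499) (nat_lit 228) (nat_lit 10564226411) (nat_lit 76) (nat_lit 61127866) (nat_lit 21) (nat_lit 5) (nat_lit 24) (nat_lit 5) (nat_lit 22) (nat_lit 4) (nat_lit 369) (nat_lit 273) (nat_lit 138)))) (XT.nd (nat_lit 78) (nat_lit 76) (nat_lit 0) (XT.lf (nat_lit 0) (nat_lit 603285300) (nat_lit 76) (nat_lit 35125525495) (nat_lit 152) (nat_lit 6121794679) (nat_lit 20) (nat_lit 5) (nat_lit 21) (nat_lit 5) (nat_lit 22) (nat_lit 4) (nat_lit 370) (nat_lit 273) (nat_lit 137)) (XT.nd (nat_lit 78) (nat_lit 76) (nat_lit 0) (XT.lf (nat_lit 0) (nat_lit 12310416920) (nat_lit 76) (nat_lit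 29204319806) (nat_lit 152) (nat_lit 1380508238) (nat_lit 20) (nat_lit 5) (nat_lit 21) (nat_lit 5) (nat_lit 22) (nat_lit 4) (nat_lit 371) (nat_lit 273) (nat_lit 136)) (XT.lf (nat_lit 0) (nat_lit 3427750977) (nat_lit 152) (nat_lit 19647890405) (nat_lit 76) (nat_lit 20894784620) (nat_lit 19) (nat_lit 5) (nat_lit 21) (nat_lit 5) (nat_lit 20) (nat_lit 5) (nat_lit 372) (nat_lit 273) (nat_lit 135))))))))
noncomputable def xc147 : XT := (XT.nd (nat_lit 32916) (nat_lit 0) (nat_lit 10868) (XT.nd (nat_lit 858) (nat_lit 228) (nat_lit 0) (XT.nd (nat_lit 390) (nat_lit 304) (nat_lit 0) (XT.nd (nat_lit 156) (nat_lit 0) (nat_lit 0) (XT.nd (nat_lit 78) (nat_lit 152) (nat_lit 0) (XT.lf (nat_lit 0) (nat_lit 8345803023) (nat_lit 152) (nat_lit 8407926737) (nat_lit 76) (nat_lit 28323929024) (nat_lit 19) (nat_lit 5) (nat_lit 21) (nat_lit 5) (nat_lit 20) (nat_lit 5) (nat_lit 373) (nat_lit 273) (nat_lit 134)) (XT.lf (nat_lit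 0) (nat_lit 3221008044) (nat_lit 152) (nat_lit 10214838167) (nat_lit 228) (nat_lit 32781533825) (nat_lit 17) (nat_lit 5) (nat_lit 19) (nat_lit 5) (nat_lit 20) (nat_lit 5) (nat_lit 374) (nat_lit 273) (nat_lit 133))) (XT.nd (nat_lit 78) (nat_lit 0) (nat_lit 0) (XT.lf (nat_lit 0) (nat_lit 15360192500) (nat_lit 152) (nat_lit 3396873266) (nat_lit 228) (nat_lit 28631877734) (nat_lit 17) (nat_lit 5) (nat_lit 19) (nat_lit 5) (nat_lit 20) (nat_lit 5) (nat_lit 375) (nat_lit 273) (nat_lit 132)) (XT.nd (nat_lit 78) (nat_lit 0) (nat_lit 0) (XT.lf (nat_lit 0) (nat_lit 24266490015) (nat_lit 228) (nat_lit 20777755711) (nat_lit 76) (nat_lit 3550555789) (nat_lit 17) (nat_lit 5) (nat_lit 20) (nat_lit 5) (nat_lit 18) (nat_lit 4) (nat_lit 376) (nat_lit 273) (nat_lit 131)) (XT.lf (nat_lit 0) (nat_lit 29968728745) (nat_lit 228) (nat_lit 9233350883) (nat_lit 76) (nat_lit 10633934238) (nat_lit 17) (nat_lit 5) (nat_lit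 20) (nat_lit 5) (nat_lit 18) (nat_lit 4) (nat_lit 377) (nat_lit 273) (nat_lit 130))))) (XT.nd (nat_lit 234) (nat_lit 228) (nat_lit 0) (XT.nd (nat_lit 78) (nat_lit 0) (nat_lit 0) (XT.lf (nat_lit 0) (nat_lit 2699888191) (nat_lit 76) (nat_lit 33162176458) (nat_lit 152) (nat_lit 15251801459) (nat_lit 16) (nat_lit 5) (nat_lit 17) (nat_lit 5) (nat_lit 18) (nat_lit 4) (nat_lit 378) (nat_lit 273) (nat_lit 129)) (XT.nd (nat_lit 78) (nat_lit 0) (nat_lit 0) (XT.lf (nat_lit 0) (nat_lit 15170316467) (nat_lit 76) (nat_lit 26849275532) (nat_lit 152) (nat_lit 10407844467) (nat_lit 16) (nat_lit 5) (nat_lit 17) (nat_lit 5) (nat_lit 18) (nat_lit 4) (nat_lit 379) (nat_lit 273) (nat_lit 128)) (XT.lf (nat_lit 0) (nat_lit 28005068647) (nat_lit 76) (nat_lit 20351099462) (nat_lit 152) (nat_lit 5424420302) (nat_lit 16) (nat_lit 5) (nat_lit 17) (nat_lit 5) (nat_lit 18) (nat_lit 4) (nat_lit 380) (nat_lit 273) (nat_lit 127))))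 (XT.nd (nat_lit 78) (nat_lit 228) (nat_lit 0) (XT.lf (nat_lit 0) (nat_lit 41215359563) (nat_lit 76) (nat_lit 13661970231) (nat_lit 152) (nat_lit 297174515) (nat_lit 16) (nat_lit 5) (nat_lit 17) (nat_lit 5) (nat_lit 18) (nat_lit 4) (nat_lit 381) (nat_lit 273) (nat_lit 126)) (XT.nd (nat_lit 78) (nat_lit 152) (nat_lit 0) (XT.lf (nat_lit 0) (nat_lit 4881227021) (nat_lit 152) (nat_lit 1845525125) (nat_lit 76) (nat_lit 49882214344) (nat_lit 15) (nat_lit 5) (nat_lit 17) (nat_lit 5) (nat_lit 16) (nat_lit 5) (nat_lit 382) (nat_lit 273) (nat_lit 125)) (XT.lf (nat_lit 0) (nat_lit 10312897029) (nat_lit 228) (nat_lit 47257596184) (nat_lit 76) (nat_lit 512768075) (nat_lit 13) (nat_lit 5) (nat_lit 16) (nat_lit 5) (nat_lit 14) (nat_lit 4) (nat_lit 383) (nat_lit 273) (nat_lit 124)))))) (XT.nd (nat_lit 468) (nat_lit 152) (nat_lit 0) (XT.nd (nat_lit 234) (nat_lit 76) (nat_lit 0) (XT.nd (nat_lit 78) (nat_lit 0) (nat_lit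 0) (XT.lf (nat_lit 0) (nat_lit 15987719016) (nat_lit 228) (nat_lit 35762289592) (nat_lit 76) (nat_lit 7849373858) (nat_lit 13) (nat_lit 5) (nat_lit 16) (nat_lit 5) (nat_lit 14) (nat_lit 4) (nat_lit 384) (nat_lit 273) (nat_lit 123)) (XT.nd (nat_lit 78) (nat_lit 0) (nat_lit 0) (XT.lf (nat_lit 0) (nat_lit 21827717383) (nat_lit 228) (nat_lit 23930958967) (nat_lit 76) (nat_lit 15402466466) (nat_lit 13) (nat_lit 5) (nat_lit 16) (nat_lit 5) (nat_lit 14) (nat_lit 4) (nat_lit 385) (nat_lit 273) (nat_lit 122)) (XT.lf (nat_lit 0) (nat_lit 27837995041) (nat_lit 228) (nat_lit 11753266253) (nat_lit 76) (nat_lit 23178645688) (nat_lit 13) (nat_lit 5) (nat_lit 16) (nat_lit 5) (nat_lit 14) (nat_lit 4) (nat_lit 386) (nat_lit 273) (nat_lit 121)))) (XT.nd (nat_lit 78) (nat_lit 0) (nat_lit 0) (XT.lf (nat_lit 0) (nat_lit 796981224) (nat_lit 76) (nat_lit 33234483535) (nat_lit 152) (nat_lit 30395386091) (nat_lit 12) (nat_lit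 5) (nat_lit 13) (nat_lit 5) (nat_lit 14) (nat_lit 4) (nat_lit 387) (nat_lit 273) (nat_lit 120)) (XT.nd (nat_lit 78) (nat_lit 0) (nat_lit 0) (XT.lf (nat_lit 0) (nat_lit 13956420218) (nat_lit 76) (nat_lit 26568285831) (nat_lit 152) (nat_lit 25605381151) (nat_lit 12) (nat_lit 5) (nat_lit 13) (nat_lit 5) (nat_lit 14) (nat_lit 4) (nat_lit 388) (nat_lit 273) (nat_lit 119)) (XT.lf (nat_lit 0) (nat_lit 27502636224) (nat_lit 76) (nat_lit 19705528294) (nat_lit 152) (nat_lit 20676396626) (nat_lit 12) (nat_lit 5) (nat_lit 13) (nat_lit 5) (nat_lit 14) (nat_lit 4) (nat_lit 389) (nat_lit 273) (nat_lit 118))))) (XT.nd (nat_lit 234) (nat_lit 152) (nat_lit 0) (XT.nd (nat_lit 78) (nat_lit 0) (nat_lit 0) (XT.lf (nat_lit 0) (nat_lit 41447465739) (nat_lit 76) (nat_lit 12640214340) (nat_lit 152) (nat_lit 15604125635) (nat_lit 12) (nat_lit 5) (nat_lit 13) (nat_lit 5) (nat_lit 14) (nat_lit 4) (nat_lit 390) (nat_lit 273)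 (nat_lit 117)) (XT.nd (nat_lit 78) (nat_lit 0) (nat_lit 0) (XT.lf (nat_lit 0) (nat_lit 55803093568) (nat_lit 76) (nat_lit 5366170392) (nat_lit 152) (nat_lit 10384136097) (nat_lit 12) (nat_lit 5) (nat_lit 13) (nat_lit 5) (nat_lit 14) (nat_lit 4) (nat_lit 391) (nat_lit 273) (nat_lit 116)) (XT.lf (nat_lit 0) (nat_lit 68479511138) (nat_lit 152) (nat_lit 2909314532) (nat_lit 0) (nat_lit 2081532922) (nat_lit 12) (nat_lit 5) (nat_lit 14) (nat_lit 4) (nat_lit 12) (nat_lit 4) (nat_lit 392) (nat_lit 273) (nat_lit 115)))) (XT.nd (nat_lit 78) (nat_lit 0) (nat_lit 0) (XT.lf (nat_lit 0) (nat_lit 704294248) (nat_lit 152) (nat_lit 64986552240) (nat_lit 76) (nat_lit 9749287413) (nat_lit 10) (nat_lit 5) (nat_lit 12) (nat_lit 5) (nat_lit 11) (nat_lit 4) (nat_lit 393) (nat_lit 273) (nat_lit 114)) (XT.nd (nat_lit 78) (nat_lit 0) (nat_lit 0) (XT.lf (nat_lit 0) (nat_lit 6495557831) (nat_lit 152) (nat_lit 53248045755)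 (nat_lit 76) (nat_lit 17723151685) (nat_lit 10) (nat_lit 5) (nat_lit 12) (nat_lit 5) (nat_lit 11) (nat_lit 4) (nat_lit 394) (nat_lit 273) (nat_lit 113)) (XT.lf (nat_lit 0) (nat_lit 12456587938) (nat_lit 152) (nat_lit 41164395988) (nat_lit 76) (nat_lit 25933313019) (nat_lit 10) (nat_lit 5) (nat_lit 12) (nat_lit 5) (nat_lit 11) (nat_lit 4) (nat_lit 395) (nat_lit 273) (nat_lit 112))))))) (XT.nd (nat_lit 936) (nat_lit 4788) (nat_lit 0) (XT.nd (nat_lit 468) (nat_lit 684) (nat_lit 0) (XT.nd (nat_lit 234) (nat_lit 0) (nat_lit 76) (XT.nd (nat_lit 78) (nat_lit 836) (nat_lit 0) (XT.lf (nat_lit 0) (nat_lit 1573840655) (nat_lit 0) (nat_lit 1573840655) (nat_lit 684) (nat_lit 503920825) (nat_lit 236) (nat_lit 5) (nat_lit 236) (nat_lit 3) (nat_lit 245) (nat_lit 3) (nat_lit 274) (nat_lit 274) (nat_lit 232)) (XT.nd (nat_lit 78) (nat_lit 0) (nat_lit 76) (XT.lf (nat_lit 0) (nat_lit 445550391) (nat_lit 836) (nat_lit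 946719310) (nat_lit 836) (nat_lit 5973829453) (nat_lit 225) (nat_lit 3) (nat_lit 236) (nat_lit 3) (nat_lit 236) (nat_lit 5) (nat_lit 275) (nat_lit 274) (nat_lit 231)) (XT.lf (nat_lit 0) (nat_lit 1893075719) (nat_lit 760) (nat_lit 5070971780) (nat_lit 836) (nat_lit 467546654) (nat_lit 226) (nat_lit 5) (nat_lit 236) (nat_lit 5) (nat_lit 237) (nat_lit 5) (nat_lit 276) (nat_lit 274) (nat_lit 230)))) (XT.nd (nat_lit 78) (nat_lit 0) (nat_lit 0) (XT.lf (nat_lit 0) (nat_lit 3352554853) (nat_lit 760) (nat_lit 1756991714) (nat_lit 836) (nat_lit 2390583896) (nat_lit 226) (nat_lit 5) (nat_lit 236) (nat_lit 5) (nat_lit 237) (nat_lit 5) (nat_lit 277) (nat_lit 274) (nat_lit 229)) (XT.nd (nat_lit 78) (nat_lit 0) (nat_lit 0) (XT.lf (nat_lit 76) (nat_lit 1658740672) (nat_lit 0) (nat_lit 3159710416) (nat_lit 836) (nat_lit 2753521242) (nat_lit 227) (nat_lit 5) (nat_lit 226) (nat_lit 5) (nat_lit 237) (nat_lit 5) (nat_lit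 278) (nat_lit 274) (nat_lit 228)) (XT.lf (nat_lit 76) (nat_lit 5183221016) (nat_lit 0) (nat_lit 1110800161) (nat_lit 836) (nat_lit 1353102078) (nat_lit 227) (nat_lit 5) (nat_lit 226) (nat_lit 5) (nat_lit 237) (nat_lit 5) (nat_lit 279) (nat_lit 274) (nat_lit 227))))) (XT.nd (nat_lit 234) (nat_lit 0) (nat_lit 76) (XT.nd (nat_lit 78) (nat_lit 0) (nat_lit 0) (XT.lf (nat_lit 0) (nat_lit 56734061) (nat_lit 836) (nat_lit 6656671191) (nat_lit 912) (nat_lit 1012140818) (nat_lit 216) (nat_lit 5) (nat_lit 227) (nat_lit 5) (nat_lit 228) (nat_lit 5) (nat_lit 280) (nat_lit 274) (nat_lit 226)) (XT.nd (nat_lit 78) (nat_lit 0) (nat_lit 0) (XT.lf (nat_lit 0) (nat_lit 1468044448) (nat_lit 836) (nat_lit 3103596254) (nat_lit 912) (nat_lit 3234801826) (nat_lit 216) (nat_lit 5) (nat_lit 227) (nat_lit 5) (nat_lit 228) (nat_lit 5) (nat_lit 281) (nat_lit 274) (nat_lit 225)) (XT.lf (nat_lit 76) (nat_lit 535924295) (nat_lit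 0) (nat_lit 2342620736) (nat_lit 912) (nat_lit 5012626127) (nat_lit 217) (nat_lit 5) (nat_lit 216) (nat_lit 5) (nat_lit 228) (nat_lit 5) (nat_lit 282) (nat_lit 274) (nat_lit 224)))) (XT.nd (nat_lit 78) (nat_lit 0) (nat_lit 0) (XT.lf (nat_lit 0) (nat_lit 4315539004) (nat_lit 836) (nat_lit 3661101201) (nat_lit 912) (nat_lit 2383664) (nat_lit 217) (nat_lit 5) (nat_lit 228) (nat_lit 5) (nat_lit 229) (nat_lit 5) (nat_lit 283) (nat_lit 274) (nat_lit 223)) (XT.nd (nat_lit 78) (nat_lit 0) (nat_lit 0) (XT.lf (nat_lit 76) (nat_lit 91400046) (nat_lit 0) (nat_lit 5682662243) (nat_lit 912) (nat_lit 2296201730) (nat_lit 218) (nat_lit 5) (nat_lit 217) (nat_lit 5) (nat_lit 229) (nat_lit 5) (nat_lit 284) (nat_lit 274) (nat_lit 222)) (XT.lf (nat_lit 76) (nat_lit 4000771745) (nat_lit 0) (nat_lit 3267920194) (nat_lit 912) (nat_lit 895880313) (nat_lit 218) (nat_lit 5) (nat_lit 217) (nat_lit 5) (nat_lit 229) (nat_lit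 5) (nat_lit 285) (nat_lit 274) (nat_lit 221)))))) (XT.nd (nat_lit 468) (nat_lit 3192) (nat_lit 0) (XT.nd (nat_lit 234) (nat_lit 760) (nat_lit 0) (XT.nd (nat_lit 78) (nat_lit 0) (nat_lit 76) (XT.lf (nat_lit 0) (nat_lit 491942403) (nat_lit 912) (nat_lit 270363978) (nat_lit 988) (nat_lit 7500656701) (nat_lit 205) (nat_lit 5) (nat_lit 217) (nat_lit 5) (nat_lit 218) (nat_lit 5) (nat_lit 286) (nat_lit 274) (nat_lit 220)) (XT.nd (nat_lit 78) (nat_lit 0) (nat_lit 0) (XT.lf (nat_lit 0) (nat_lit 1915159375) (nat_lit 912) (nat_lit 4607633637) (nat_lit 988) (nat_lit 1840986339) (nat_lit 206) (nat_lit 5) (nat_lit 218) (nat_lit 5) (nat_lit 219) (nat_lit 5) (nat_lit 287) (nat_lit 274) (nat_lit 219)) (XT.lf (nat_lit 0) (nat_lit 3349879667) (nat_lit 912) (nat_lit 597208318) (nat_lit 988) (nat_lit 4521558012) (nat_lit 206) (nat_lit 5) (nat_lit 218) (nat_lit 5) (nat_lit 219) (nat_lit 5) (nat_lit 288) (nat_lit 274)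 (nat_lit 218)))) (XT.nd (nat_lit 78) (nat_lit 836) (nat_lit 0) (XT.lf (nat_lit 76) (nat_lit 3573070328) (nat_lit 0) (nat_lit 1248628500) (nat_lit 988) (nat_lit 3755225564) (nat_lit 207) (nat_lit 5) (nat_lit 206) (nat_lit 5) (nat_lit 219) (nat_lit 5) (nat_lit 289) (nat_lit 274) (nat_lit 217)) (XT.nd (nat_lit 78) (nat_lit 912) (nat_lit 0) (XT.lf (nat_lit 0) (nat_lit 6319166128) (nat_lit 912) (nat_lit 853590730) (nat_lit 76) (nat_lit 1516334396) (nat_lit 207) (nat_lit 5) (nat_lit 219) (nat_lit 5) (nat_lit 208) (nat_lit 5) (nat_lit 290) (nat_lit 274) (nat_lit 216)) (XT.lf (nat_lit 0) (nat_lit 3445720853) (nat_lit 912) (nat_lit 4423155006) (nat_lit 988) (nat_lit 935610157) (nat_lit 195) (nat_lit 5) (nat_lit 207) (nat_lit 5) (nat_lit 208) (nat_lit 5) (nat_lit 291) (nat_lit 274) (nat_lit 215))))) (XT.nd (nat_lit 234) (nat_lit 2128) (nat_lit 0) (XT.nd (nat_lit 78) (nat_lit 988) (nat_lit 0) (XT.lf (nat_lit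 0) (nat_lit 502076070) (nat_lit 988) (nat_lit 1067735160) (nat_lit 76) (nat_lit 7354325491) (nat_lit 194) (nat_lit 5) (nat_lit 207) (nat_lit 5) (nat_lit 195) (nat_lit 5) (nat_lit 292) (nat_lit 274) (nat_lit 214)) (XT.nd (nat_lit 78) (nat_lit 0) (nat_lit 0) (XT.lf (nat_lit 0) (nat_lit 1973514059) (nat_lit 1064) (nat_lit 5682215161) (nat_lit 76) (nat_lit 1391162493) (nat_lit 181) (nat_lit 5) (nat_lit 195) (nat_lit 5) (nat_lit 182) (nat_lit 5) (nat_lit 293) (nat_lit 274) (nat_lit 213)) (XT.lf (nat_lit 0) (nat_lit 3479678790) (nat_lit 1064) (nat_lit 1267592576) (nat_lit 76) (nat_lit 4426413735) (nat_lit 181) (nat_lit 5) (nat_lit 195) (nat_lit 5) (nat_lit 182) (nat_lit 5) (nat_lit 294) (nat_lit 274) (nat_lit 212)))) (XT.nd (nat_lit 78) (nat_lit 1064) (nat_lit 0) (XT.lf (nat_lit 0) (nat_lit 3314153956) (nat_lit 1064) (nat_lit 1713928426) (nat_lit 1140) (nat_lit 4276359412) (nat_lit 167) (nat_lit 5) (nat_lit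 181) (nat_lit 5) (nat_lit 182) (nat_lit 5) (nat_lit 295) (nat_lit 274) (nat_lit 211)) (XT.nd (nat_lit 78) (nat_lit 1064) (nat_lit 0) (XT.lf (nat_lit 0) (nat_lit 6615389455) (nat_lit 1140) (nat_lit 1423909677) (nat_lit 76) (nat_lit 1400117562) (nat_lit 167) (nat_lit 5) (nat_lit 182) (nat_lit 5) (nat_lit 168) (nat_lit 5) (nat_lit 296) (nat_lit 274) (nat_lit 210)) (XT.lf (nat_lit 0) (nat_lit 3296897119) (nat_lit 1064) (nat_lit 4969037930) (nat_lit 1140) (nat_lit 1312104248) (nat_lit 153) (nat_lit 5) (nat_lit 167) (nat_lit 5) (nat_lit 168) (nat_lit 5) (nat_lit 297) (nat_lit 274) (nat_lit 209))))))))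
noncomputable def xc148 : XT := (XT.nd (nat_lit 1794) (nat_lit 3268) (nat_lit 0) (XT.nd (nat_lit 858) (nat_lit 2508) (nat_lit 0) (XT.nd (nat_lit 390) (nat_lit 1596) (nat_lit 0) (XT.nd (nat_lit 156) (nat_lit 532) (nat_lit 0) (XT.nd (nat_lit 78) (nat_lit 532) (nat_lit 0) (XT.lf (nat_lit 0) (nat_lit 222164420) (nat_lit 1140) (nat_lit 1564720503) (nat_lit 76) (nat_lit 7934474975) (nat_lit 152) (nat_lit 5) (nat_lit 167) (nat_lit 5) (nat_lit 153) (nat_lit 5) (nat_lit 298) (nat_lit 274) (nat_lit 208)) (XT.lf (nat_lit 0) (nat_lit 1790960582) (nat_lit 608) (nat_lit 6568012191) (nat_lit 76) (nat_lit 1509232815) (nat_lit 145) (nat_lit 5) (nat_lit 153) (nat_lit 5) (nat_lit 146) (nat_lit 5) (nat_lit 299) (nat_lit 274) (nat_lit 207))) (XT.nd (nat_lit 78) (nat_lit 532) (nat_lit 0) (XT.lf (nat_lit 0) (nat_lit 3409339237) (nat_lit 608) (nat_lit 1723890241) (nat_lit 76) (nat_lit 4886211174) (nat_lit 145) (nat_lit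 5) (nat_lit 153) (nat_lit 5) (nat_lit 146) (nat_lit 5) (nat_lit 300) (nat_lit 274) (nat_lit 206)) (XT.nd (nat_lit 78) (nat_lit 0) (nat_lit 0) (XT.lf (nat_lit 0) (nat_lit 3300653104) (nat_lit 532) (nat_lit 1777120382) (nat_lit 608) (nat_lit 5097451982) (nat_lit 138) (nat_lit 5) (nat_lit 145) (nat_lit 5) (nat_lit 146) (nat_lit 5) (nat_lit 301) (nat_lit 274) (nat_lit 205)) (XT.lf (nat_lit 0) (nat_lit 6800370485) (nat_lit 608) (nat_lit 1870182293) (nat_lit 76) (nat_lit 1665063901) (nat_lit 138) (nat_lit 5) (nat_lit 146) (nat_lit 5) (nat_lit 139) (nat_lit 5) (nat_lit 302) (nat_lit 274) (nat_lit 204))))) (XT.nd (nat_lit 234) (nat_lit 456) (nat_lit 0) (XT.nd (nat_lit 78) (nat_lit 608) (nat_lit 0) (XT.lf (nat_lit 0) (nat_lit 3302079578) (nat_lit 532) (nat_lit 5293148716) (nat_lit 608) (nat_lit 1905028353) (nat_lit 131) (nat_lit 5) (nat_lit 138) (nat_lit 5) (nat_lit 139) (nat_lit 5) (nat_lit 303) (nat_lit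 274) (nat_lit 203)) (XT.nd (nat_lit 78) (nat_lit 608) (nat_lit 0) (XT.lf (nat_lit 0) (nat_lit 8639031389) (nat_lit 532) (nat_lit 1795592172) (nat_lit 608) (nat_lit 235544422) (nat_lit 131) (nat_lit 5) (nat_lit 138) (nat_lit 5) (nat_lit 139) (nat_lit 5) (nat_lit 304) (nat_lit 274) (nat_lit 202)) (XT.lf (nat_lit 0) (nat_lit 1477032536) (nat_lit 608) (nat_lit 7549774880) (nat_lit 76) (nat_lit 1817332148) (nat_lit 123) (nat_lit 5) (nat_lit 131) (nat_lit 5) (nat_lit 124) (nat_lit 5) (nat_lit 305) (nat_lit 274) (nat_lit 201)))) (XT.nd (nat_lit 78) (nat_lit 456) (nat_lit 0) (XT.lf (nat_lit 0) (nat_lit 3247574311) (nat_lit 608) (nat_lit 2250909705) (nat_lit 76) (nat_lit 5524485092) (nat_lit 123) (nat_lit 5) (nat_lit 131) (nat_lit 5) (nat_lit 124) (nat_lit 5) (nat_lit 306) (nat_lit 274) (nat_lit 200)) (XT.nd (nat_lit 78) (nat_lit 0) (nat_lit 0) (XT.lf (nat_lit 0) (nat_lit 3241882520) (nat_lit 456) (nat_lit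 1834134139) (nat_lit 532) (nat_lit 6131050367) (nat_lit 117) (nat_lit 5) (nat_lit 123) (nat_lit 5) (nat_lit 124) (nat_lit 5) (nat_lit 307) (nat_lit 274) (nat_lit 199)) (XT.lf (nat_lit 0) (nat_lit 6975016684) (nat_lit 532) (nat_lit 2498104660) (nat_lit 76) (nat_lit 1923141055) (nat_lit 117) (nat_lit 5) (nat_lit 124) (nat_lit 5) (nat_lit 118) (nat_lit 5) (nat_lit 308) (nat_lit 274) (nat_lit 198)))))) (XT.nd (nat_lit 468) (nat_lit 1140) (nat_lit 0) (XT.nd (nat_lit 234) (nat_lit 456) (nat_lit 0) (XT.nd (nat_lit 78) (nat_lit 456) (nat_lit 0) (XT.lf (nat_lit 0) (nat_lit 3148277899) (nat_lit 456) (nat_lit 5805985815) (nat_lit 532) (nat_lit 2636215930) (nat_lit 111) (nat_lit 5) (nat_lit 117) (nat_lit 5) (nat_lit 118) (nat_lit 5) (nat_lit 309) (nat_lit 274) (nat_lit 197)) (XT.nd (nat_lit 78) (nat_lit 456) (nat_lit 0) (XT.lf (nat_lit 0) (nat_lit 8987550806) (nat_lit 456) (nat_lit 2005883436) (nat_lit 532)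 (nat_lit 797115808) (nat_lit 111) (nat_lit 5) (nat_lit 117) (nat_lit 5) (nat_lit 118) (nat_lit 5) (nat_lit 310) (nat_lit 274) (nat_lit 196)) (XT.lf (nat_lit 0) (nat_lit 1099305644) (nat_lit 456) (nat_lit 8988441679) (nat_lit 76) (nat_lit 1907892673) (nat_lit 105) (nat_lit 5) (nat_lit 111) (nat_lit 5) (nat_lit 106) (nat_lit 5) (nat_lit 311) (nat_lit 274) (nat_lit 195)))) (XT.nd (nat_lit 78) (nat_lit 456) (nat_lit 0) (XT.lf (nat_lit 0) (nat_lit 3061217165) (nat_lit 456) (nat_lit 3212783381) (nat_lit 76) (nat_lit 5931946146) (nat_lit 105) (nat_lit 5) (nat_lit 111) (nat_lit 5) (nat_lit 106) (nat_lit 5) (nat_lit 312) (nat_lit 274) (nat_lit 194)) (XT.nd (nat_lit 78) (nat_lit 0) (nat_lit 0) (XT.lf (nat_lit 0) (nat_lit 2762994907) (nat_lit 456) (nat_lit 2322418089) (nat_lit 532) (nat_lit 7337085014) (nat_lit 99) (nat_lit 5) (nat_lit 105) (nat_lit 5) (nat_lit 106) (nat_lit 5) (nat_lit 313) (nat_lit 274)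 (nat_lit 193)) (XT.lf (nat_lit 0) (nat_lit 7197143061) (nat_lit 532) (nat_lit 3705268167) (nat_lit 76) (nat_lit 1742367505) (nat_lit 99) (nat_lit 5) (nat_lit 106) (nat_lit 5) (nat_lit 100) (nat_lit 5) (nat_lit 314) (nat_lit 274) (nat_lit 192))))) (XT.nd (nat_lit 234) (nat_lit 304) (nat_lit 0) (XT.nd (nat_lit 78) (nat_lit 456) (nat_lit 0) (XT.lf (nat_lit 0) (nat_lit 2425245489) (nat_lit 380) (nat_lit 6971193763) (nat_lit 456) (nat_lit 3476598235) (nat_lit 94) (nat_lit 5) (nat_lit 99) (nat_lit 5) (nat_lit 100) (nat_lit 5) (nat_lit 315) (nat_lit 274) (nat_lit 191)) (XT.nd (nat_lit 78) (nat_lit 456) (nat_lit 0) (XT.lf (nat_lit 0) (nat_lit 8789211118) (nat_lit 380) (nat_lit 2888215739) (nat_lit 456) (nat_lit 1430280757) (nat_lit 94) (nat_lit 5) (nat_lit 99) (nat_lit 5) (nat_lit 100) (nat_lit 5) (nat_lit 316) (nat_lit 274) (nat_lit 190)) (XT.lf (nat_lit 0) (nat_lit 675000986) (nat_lit 456) (nat_lit 11361079497)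 (nat_lit 76) (nat_lit 1312851172) (nat_lit 88) (nat_lit 5) (nat_lit 94) (nat_lit 5) (nat_lit 89) (nat_lit 5) (nat_lit 317) (nat_lit 274) (nat_lit 189)))) (XT.nd (nat_lit 78) (nat_lit 304) (nat_lit 0) (XT.lf (nat_lit 0) (nat_lit 2866342161) (nat_lit 456) (nat_lit 5093819732) (nat_lit 76) (nat_lit 5635288258) (nat_lit 88) (nat_lit 5) (nat_lit 94) (nat_lit 5) (nat_lit 89) (nat_lit 5) (nat_lit 318) (nat_lit 274) (nat_lit 188)) (XT.nd (nat_lit 78) (nat_lit 0) (nat_lit 0) (XT.lf (nat_lit 0) (nat_lit 1362350314) (nat_lit 304) (nat_lit 3753792203) (nat_lit 380) (nat_lit 8733471204) (nat_lit 84) (nat_lit 5) (nat_lit 88) (nat_lit 5) (nat_lit 89) (nat_lit 5) (nat_lit 319) (nat_lit 274) (nat_lit 187)) (XT.lf (nat_lit 0) (nat_lit 7470867367) (nat_lit 380) (nat_lit 6025327037) (nat_lit 76) (nat_lit 614115057) (nat_lit 84) (nat_lit 5) (nat_lit 89) (nat_lit 5) (nat_lit 85) (nat_lit 5) (nat_lit 320) (nat_lit 274)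 (nat_lit 186))))))) (XT.nd (nat_lit 936) (nat_lit 1292) (nat_lit 0) (XT.nd (nat_lit 468) (nat_lit 912) (nat_lit 0) (XT.nd (nat_lit 234) (nat_lit 608) (nat_lit 0) (XT.nd (nat_lit 78) (nat_lit 76) (nat_lit 0) (XT.lf (nat_lit 0) (nat_lit 579345128) (nat_lit 380) (nat_lit 9340129094) (nat_lit 456) (nat_lit 4458683944) (nat_lit 79) (nat_lit 5) (nat_lit 84) (nat_lit 5) (nat_lit 85) (nat_lit 5) (nat_lit 321) (nat_lit 274) (nat_lit 185)) (XT.nd (nat_lit 78) (nat_lit 76) (nat_lit 0) (XT.lf (nat_lit 0) (nat_lit 7480657268) (nat_lit 380) (nat_lit 5002558356) (nat_lit 456) (nat_lit 2169604865) (nat_lit 79) (nat_lit 5) (nat_lit 84) (nat_lit 5) (nat_lit 85) (nat_lit 5) (nat_lit 322) (nat_lit 274) (nat_lit 184)) (XT.lf (nat_lit 0) (nat_lit 165654470) (nat_lit 456) (nat_lit 373208813) (nat_lit 76) (nat_lit 14397396577) (nat_lit 78) (nat_lit 5) (nat_lit 84) (nat_lit 5) (nat_lit 79) (nat_lit 5) (nat_lit 323) (nat_lit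 274) (nat_lit 183)))) (XT.nd (nat_lit 78) (nat_lit 304) (nat_lit 0) (XT.lf (nat_lit 0) (nat_lit 2613455966) (nat_lit 380) (nat_lit 8550702336) (nat_lit 76) (nat_lit 4060842967) (nat_lit 74) (nat_lit 5) (nat_lit 79) (nat_lit 5) (nat_lit 75) (nat_lit 5) (nat_lit 324) (nat_lit 274) (nat_lit 182)) (XT.nd (nat_lit 78) (nat_lit 304) (nat_lit 0) (XT.lf (nat_lit 0) (nat_lit 5125808929) (nat_lit 380) (nat_lit 1611023378) (nat_lit 76) (nat_lit 8785864366) (nat_lit 74) (nat_lit 5) (nat_lit 79) (nat_lit 5) (nat_lit 75) (nat_lit 5) (nat_lit 325) (nat_lit 274) (nat_lit 181)) (XT.lf (nat_lit 0) (nat_lit 5623036448) (nat_lit 304) (nat_lit 2127049218) (nat_lit 380) (nat_lit 8078165216) (nat_lit 70) (nat_lit 5) (nat_lit 74) (nat_lit 5) (nat_lit 75) (nat_lit 5) (nat_lit 326) (nat_lit 274) (nat_lit 180))))) (XT.nd (nat_lit 234) (nat_lit 608) (nat_lit 0) (XT.nd (nat_lit 78) (nat_lit 304) (nat_lit 0) (XT.lf (nat_lit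 0) (nat_lit 10477443097) (nat_lit 380) (nat_lit 3084483319) (nat_lit 76) (nat_lit 2580338552) (nat_lit 70) (nat_lit 5) (nat_lit 75) (nat_lit 5) (nat_lit 71) (nat_lit 5) (nat_lit 327) (nat_lit 274) (nat_lit 179)) (XT.nd (nat_lit 78) (nat_lit 0) (nat_lit 0) (XT.lf (nat_lit 0) (nat_lit 4289418514) (nat_lit 304) (nat_lit 9042726432) (nat_lit 380) (nat_lit 3132211951) (nat_lit 66) (nat_lit 5) (nat_lit 70) (nat_lit 5) (nat_lit 71) (nat_lit 5) (nat_lit 328) (nat_lit 274) (nat_lit 178)) (XT.lf (nat_lit 0) (nat_lit 11924899365) (nat_lit 304) (nat_lit 4362235603) (nat_lit 380) (nat_lit 508559658) (nat_lit 66) (nat_lit 5) (nat_lit 70) (nat_lit 5) (nat_lit 71) (nat_lit 5) (nat_lit 329) (nat_lit 274) (nat_lit 177)))) (XT.nd (nat_lit 78) (nat_lit 228) (nat_lit 0) (XT.lf (nat_lit 0) (nat_lit 2165180618) (nat_lit 380) (nat_lit 14480129203) (nat_lit 76) (nat_lit 490625567) (nat_lit 61) (nat_lit 5) (nat_lit 66)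 (nat_lit 5) (nat_lit 62) (nat_lit 5) (nat_lit 330) (nat_lit 274) (nat_lit 176)) (XT.nd (nat_lit 78) (nat_lit 228) (nat_lit 0) (XT.lf (nat_lit 0) (nat_lit 4985770864) (nat_lit 380) (nat_lit 7048329203) (nat_lit 76) (nat_lit 5449847019) (nat_lit 61) (nat_lit 5) (nat_lit 66) (nat_lit 5) (nat_lit 62) (nat_lit 5) (nat_lit 331) (nat_lit 274) (nat_lit 175)) (XT.lf (nat_lit 0) (nat_lit 595956066) (nat_lit 228) (nat_lit 7285213960) (nat_lit 304) (nat_lit 9961543326) (nat_lit 58) (nat_lit 5) (nat_lit 61) (nat_lit 5) (nat_lit 62) (nat_lit 5) (nat_lit 332) (nat_lit 274) (nat_lit 174)))))) (XT.nd (nat_lit 468) (nat_lit 760) (nat_lit 0) (XT.nd (nat_lit 234) (nat_lit 304) (nat_lit 0) (XT.nd (nat_lit 78) (nat_lit 228) (nat_lit 0) (XT.lf (nat_lit 0) (nat_lit 8592172399) (nat_lit 228) (nat_lit 2327137793) (nat_lit 304) (nat_lit 7291275413) (nat_lit 58) (nat_lit 5) (nat_lit 61) (nat_lit 5) (nat_lit 62) (nat_lit 5)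 (nat_lit 333) (nat_lit 274) (nat_lit 173)) (XT.nd (nat_lit 78) (nat_lit 228) (nat_lit 0) (XT.lf (nat_lit 0) (nat_lit 14060403309) (nat_lit 304) (nat_lit 1809585642) (nat_lit 76) (nat_lit 2719169620) (nat_lit 58) (nat_lit 5) (nat_lit 62) (nat_lit 5) (nat_lit 59) (nat_lit 5) (nat_lit 334) (nat_lit 274) (nat_lit 172)) (XT.lf (nat_lit 0) (nat_lit 6312631602) (nat_lit 228) (nat_lit 11052342521) (nat_lit 304) (nat_lit 1612055513) (nat_lit 55) (nat_lit 5) (nat_lit 58) (nat_lit 5) (nat_lit 59) (nat_lit 5) (nat_lit 335) (nat_lit 274) (nat_lit 171)))) (XT.nd (nat_lit 78) (nat_lit 228) (nat_lit 0) (XT.lf (nat_lit 0) (nat_lit 1369019805) (nat_lit 304) (nat_lit 4695056005) (nat_lit 76) (nat_lit 13311955562) (nat_lit 54) (nat_lit 5) (nat_lit 58) (nat_lit 5) (nat_lit 55) (nat_lit 5) (nat_lit 336) (nat_lit 274) (nat_lit 170)) (XT.nd (nat_lit 78) (nat_lit 0) (nat_lit 0) (XT.lf (nat_lit 0) (nat_lit 3546103179) (nat_lit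 228) (nat_lit 881116774) (nat_lit 304) (nat_lit 15358718287) (nat_lit 51) (nat_lit 5) (nat_lit 54) (nat_lit 5) (nat_lit 55) (nat_lit 5) (nat_lit 337) (nat_lit 274) (nat_lit 169)) (XT.lf (nat_lit 0) (nat_lit 7654048776) (nat_lit 304) (nat_lit 8139960270) (nat_lit 76) (nat_lit 4411843012) (nat_lit 51) (nat_lit 5) (nat_lit 55) (nat_lit 5) (nat_lit 52) (nat_lit 5) (nat_lit 338) (nat_lit 274) (nat_lit 168))))) (XT.nd (nat_lit 234) (nat_lit 532) (nat_lit 0) (XT.nd (nat_lit 78) (nat_lit 0) (nat_lit 0) (XT.lf (nat_lit 0) (nat_lit 177588681) (nat_lit 228) (nat_lit 10797083835) (nat_lit 304) (nat_lit 9663796823) (nat_lit 48) (nat_lit 5) (nat_lit 51) (nat_lit 5) (nat_lit 52) (nat_lit 5) (nat_lit 339) (nat_lit 274) (nat_lit 167)) (XT.nd (nat_lit 78) (nat_lit 0) (nat_lit 0) (XT.lf (nat_lit 0) (nat_lit 8891658457) (nat_lit 228) (nat_lit 5572213694) (nat_lit 304) (nat_lit 6618139564) (nat_lit 48) (nat_lit 5)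 (nat_lit 51) (nat_lit 5) (nat_lit 52) (nat_lit 5) (nat_lit 340) (nat_lit 274) (nat_lit 166)) (XT.lf (nat_lit 0) (nat_lit 17847862123) (nat_lit 228) (nat_lit 197030842) (nat_lit 304) (nat_lit 3494367888) (nat_lit 48) (nat_lit 5) (nat_lit 51) (nat_lit 5) (nat_lit 52) (nat_lit 5) (nat_lit 341) (nat_lit 274) (nat_lit 165)))) (XT.nd (nat_lit 78) (nat_lit 304) (nat_lit 0) (XT.lf (nat_lit 0) (nat_lit 5091497032) (nat_lit 228) (nat_lit 16729575167) (nat_lit 304) (nat_lit 186537846) (nat_lit 45) (nat_lit 5) (nat_lit 48) (nat_lit 5) (nat_lit 49) (nat_lit 5) (nat_lit 342) (nat_lit 274) (nat_lit 164)) (XT.nd (nat_lit 78) (nat_lit 228) (nat_lit 0) (XT.lf (nat_lit 0) (nat_lit 3184786149) (nat_lit 304) (nat_lit 8327749853) (nat_lit 76) (nat_lit 10975745472) (nat_lit 44) (nat_lit 5) (nat_lit 48) (nat_lit 5) (nat_lit 45) (nat_lit 5) (nat_lit 343) (nat_lit 274) (nat_lit 163)) (XT.lf (nat_lit 0) (nat_lit 507751968)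 (nat_lit 228) (nat_lit 6138500735) (nat_lit 304) (nat_lit 16337295565) (nat_lit 41) (nat_lit 5) (nat_lit 44) (nat_lit 5) (nat_lit 45) (nat_lit 5) (nat_lit 344) (nat_lit 274) (nat_lit 162))))))))
noncomputable def xc149 : XT := (XT.nd (nat_lit 1794) (nat_lit 836) (nat_lit 0) (XT.nd (nat_lit 858) (nat_lit 608) (nat_lit 0) (XT.nd (nat_lit 390) (nat_lit 532) (nat_lit 0) (XT.nd (nat_lit 156) (nat_lit 228) (nat_lit 0) (XT.nd (nat_lit 78) (nat_lit 0) (nat_lit 0) (XT.lf (nat_lit 0) (nat_lit 9760638252) (nat_lit 228) (nat_lit 523066664) (nat_lit 304) (nat_lit 13207816707) (nat_lit 41) (nat_lit 5) (nat_lit 44) (nat_lit 5) (nat_lit 45) (nat_lit 5) (nat_lit 345) (nat_lit 274) (nat_lit 161)) (XT.lf (nat_lit 0) (nat_lit 14069186766) (nat_lit 304) (nat_lit 4792349471) (nat_lit 76) (nat_lit 5152043192) (nat_lit 41) (nat_lit 5) (nat_lit 45) (nat_lit 5) (nat_lit 42) (nat_lit 5) (nat_lit 346) (nat_lit 274) (nat_lit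 160))) (XT.nd (nat_lit 78) (nat_lit 76) (nat_lit 0) (XT.lf (nat_lit 0) (nat_lit 4478934432) (nat_lit 152) (nat_lit 13526207259) (nat_lit 228) (nat_lit 6545062091) (nat_lit 39) (nat_lit 5) (nat_lit 41) (nat_lit 5) (nat_lit 42) (nat_lit 5) (nat_lit 347) (nat_lit 274) (nat_lit 159)) (XT.nd (nat_lit 78) (nat_lit 76) (nat_lit 0) (XT.lf (nat_lit 0) (nat_lit 14109140857) (nat_lit 152) (nat_lit 7987265283) (nat_lit 228) (nat_lit 3005415521) (nat_lit 39) (nat_lit 5) (nat_lit 41) (nat_lit 5) (nat_lit 42) (nat_lit 5) (nat_lit 348) (nat_lit 274) (nat_lit 158)) (XT.lf (nat_lit 0) (nat_lit 616967742) (nat_lit 228) (nat_lit 1665065883) (nat_lit 76) (nat_lit 23388109487) (nat_lit 38) (nat_lit 5) (nat_lit 41) (nat_lit 5) (nat_lit 39) (nat_lit 5) (nat_lit 349) (nat_lit 274) (nat_lit 157))))) (XT.nd (nat_lit 234) (nat_lit 152) (nat_lit 0) (XT.nd (nat_lit 78) (nat_lit 152) (nat_lit 0) (XT.lf (nat_lit 0) (nat_lit 4389945333)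 (nat_lit 304) (nat_lit 18235092379) (nat_lit 76) (nat_lit 3626524661) (nat_lit 35) (nat_lit 5) (nat_lit 39) (nat_lit 5) (nat_lit 36) (nat_lit 5) (nat_lit 350) (nat_lit 274) (nat_lit 156)) (XT.nd (nat_lit 78) (nat_lit 152) (nat_lit 0) (XT.lf (nat_lit 0) (nat_lit 8305143489) (nat_lit 304) (nat_lit 8866874994) (nat_lit 76) (nat_lit 9677545205) (nat_lit 35) (nat_lit 5) (nat_lit 39) (nat_lit 5) (nat_lit 36) (nat_lit 5) (nat_lit 351) (nat_lit 274) (nat_lit 155)) (XT.lf (nat_lit 0) (nat_lit 781345982) (nat_lit 152) (nat_lit 11553725947) (nat_lit 228) (nat_lit 15130524993) (nat_lit 33) (nat_lit 5) (nat_lit 35) (nat_lit 5) (nat_lit 36) (nat_lit 5) (nat_lit 352) (nat_lit 274) (nat_lit 154)))) (XT.nd (nat_lit 78) (nat_lit 152) (nat_lit 0) (XT.lf (nat_lit 0) (nat_lit 10884645732) (nat_lit 152) (nat_lit 5680697202) (nat_lit 228) (nat_lit 11532394692) (nat_lit 33) (nat_lit 5) (nat_lit 35) (nat_lit 5) (nat_lit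 36) (nat_lit 5) (nat_lit 353) (nat_lit 274) (nat_lit 153)) (XT.nd (nat_lit 78) (nat_lit 152) (nat_lit 0) (XT.lf (nat_lit 0) (nat_lit 20916208835) (nat_lit 228) (nat_lit 7477248003) (nat_lit 76) (nat_lit 355584640) (nat_lit 33) (nat_lit 5) (nat_lit 36) (nat_lit 5) (nat_lit 34) (nat_lit 5) (nat_lit 354) (nat_lit 274) (nat_lit 152)) (XT.lf (nat_lit 0) (nat_lit 2528319152) (nat_lit 152) (nat_lit 22940261198) (nat_lit 228) (nat_lit 3949183958) (nat_lit 31) (nat_lit 5) (nat_lit 33) (nat_lit 5) (nat_lit 34) (nat_lit 5) (nat_lit 355) (nat_lit 274) (nat_lit 151)))))) (XT.nd (nat_lit 468) (nat_lit 228) (nat_lit 0) (XT.nd (nat_lit 234) (nat_lit 152) (nat_lit 0) (XT.nd (nat_lit 78) (nat_lit 152) (nat_lit 0) (XT.lf (nat_lit 0) (nat_lit 116693435) (nat_lit 228) (nat_lit 17133682951) (nat_lit 76) (nat_lit 12854165041) (nat_lit 30) (nat_lit 5) (nat_lit 33) (nat_lit 5) (nat_lit 31) (nat_lit 5) (nat_lit 356) (nat_lit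 274) (nat_lit 150)) (XT.nd (nat_lit 78) (nat_lit 152) (nat_lit 0) (XT.lf (nat_lit 0) (nat_lit 4215911118) (nat_lit 228) (nat_lit 7139388801) (nat_lit 76) (nat_lit 19455735221) (nat_lit 30) (nat_lit 5) (nat_lit 33) (nat_lit 5) (nat_lit 31) (nat_lit 5) (nat_lit 357) (nat_lit 274) (nat_lit 149)) (XT.lf (nat_lit 0) (nat_lit 3202626928) (nat_lit 152) (nat_lit 5257272415) (nat_lit 228) (nat_lit 23078178722) (nat_lit 28) (nat_lit 5) (nat_lit 30) (nat_lit 5) (nat_lit 31) (nat_lit 5) (nat_lit 358) (nat_lit 274) (nat_lit 148)))) (XT.nd (nat_lit 78) (nat_lit 152) (nat_lit 0) (XT.lf (nat_lit 0) (nat_lit 12904932805) (nat_lit 228) (nat_lit 18308749232) (nat_lit 76) (nat_lit 1071046453) (nat_lit 28) (nat_lit 5) (nat_lit 31) (nat_lit 5) (nat_lit 29) (nat_lit 5) (nat_lit 359) (nat_lit 274) (nat_lit 147)) (XT.nd (nat_lit 78) (nat_lit 152) (nat_lit 0) (XT.lf (nat_lit 0) (nat_lit 17526706920) (nat_lit 228) (nat_lit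 8047550101) (nat_lit 76) (nat_lit 7478227465) (nat_lit 28) (nat_lit 5) (nat_lit 31) (nat_lit 5) (nat_lit 29) (nat_lit 5) (nat_lit 360) (nat_lit 274) (nat_lit 146)) (XT.lf (nat_lit 0) (nat_lit 2557555590) (nat_lit 152) (nat_lit 19745753211) (nat_lit 228) (nat_lit 11539486648) (nat_lit 26) (nat_lit 5) (nat_lit 28) (nat_lit 5) (nat_lit 29) (nat_lit 5) (nat_lit 361) (nat_lit 274) (nat_lit 145))))) (XT.nd (nat_lit 234) (nat_lit 0) (nat_lit 0) (XT.nd (nat_lit 78) (nat_lit 228) (nat_lit 0) (XT.lf (nat_lit 0) (nat_lit 13632080458) (nat_lit 152) (nat_lit 13664095769) (nat_lit 228) (nat_lit 7358457792) (nat_lit 26) (nat_lit 5) (nat_lit 28) (nat_lit 5) (nat_lit 29) (nat_lit 5) (nat_lit 362) (nat_lit 274) (nat_lit 144)) (XT.nd (nat_lit 78) (nat_lit 228) (nat_lit 0) (XT.lf (nat_lit 0) (nat_lit 25025539245) (nat_lit 152) (nat_lit 7405235101) (nat_lit 228) (nat_lit 3060302150) (nat_lit 26) (nat_lit 5) (nat_lit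 28) (nat_lit 5) (nat_lit 29) (nat_lit 5) (nat_lit 363) (nat_lit 274) (nat_lit 143)) (XT.lf (nat_lit 0) (nat_lit 389574649) (nat_lit 152) (nat_lit 946392295) (nat_lit 228) (nat_lit 35016382635) (nat_lit 23) (nat_lit 5) (nat_lit 25) (nat_lit 5) (nat_lit 26) (nat_lit 5) (nat_lit 364) (nat_lit 274) (nat_lit 142)))) (XT.nd (nat_lit 78) (nat_lit 0) (nat_lit 0) (XT.lf (nat_lit 0) (nat_lit 5956345813) (nat_lit 228) (nat_lit 25550756389) (nat_lit 76) (nat_lit 5726844218) (nat_lit 23) (nat_lit 5) (nat_lit 26) (nat_lit 5) (nat_lit 24) (nat_lit 5) (nat_lit 365) (nat_lit 274) (nat_lit 141)) (XT.nd (nat_lit 78) (nat_lit 0) (nat_lit 0) (XT.lf (nat_lit 0) (nat_lit 10717086219) (nat_lit 228) (nat_lit 14848505891) (nat_lit 76) (nat_lit 12576352851) (nat_lit 23) (nat_lit 5) (nat_lit 26) (nat_lit 5) (nat_lit 24) (nat_lit 5) (nat_lit 366) (nat_lit 274) (nat_lit 140)) (XT.lf (nat_lit 0) (nat_lit 15613250731) (nat_lit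 228) (nat_lit 3837574654) (nat_lit 76) (nat_lit 19626586134) (nat_lit 23) (nat_lit 5) (nat_lit 26) (nat_lit 5) (nat_lit 24) (nat_lit 5) (nat_lit 367) (nat_lit 274) (nat_lit 139))))))) (XT.nd (nat_lit 936) (nat_lit 304) (nat_lit 0) (XT.nd (nat_lit 468) (nat_lit 228) (nat_lit 0) (XT.nd (nat_lit 234) (nat_lit 152) (nat_lit 0) (XT.nd (nat_lit 78) (nat_lit 0) (nat_lit 0) (XT.lf (nat_lit 0) (nat_lit 7640757219) (nat_lit 152) (nat_lit 13081807965) (nat_lit 228) (nat_lit 19316394877) (nat_lit 21) (nat_lit 5) (nat_lit 23) (nat_lit 5) (nat_lit 24) (nat_lit 5) (nat_lit 368) (nat_lit 274) (nat_lit 138)) (XT.nd (nat_lit 78) (nat_lit 0) (nat_lit 0) (XT.lf (nat_lit 0) (nat_lit 19530197473) (nat_lit 152) (nat_lit 6486625684) (nat_lit 228) (nat_lit 15011587744) (nat_lit 21) (nat_lit 5) (nat_lit 23) (nat_lit 5) (nat_lit 24) (nat_lit 5) (nat_lit 369) (nat_lit 274) (nat_lit 137)) (XT.lf (nat_lit 0) (nat_lit 31465927857)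 (nat_lit 228) (nat_lit 10285898064) (nat_lit 76) (nat_lit 295844374) (nat_lit 21) (nat_lit 5) (nat_lit 24) (nat_lit 5) (nat_lit 22) (nat_lit 4) (nat_lit 370) (nat_lit 274) (nat_lit 136)))) (XT.nd (nat_lit 78) (nat_lit 76) (nat_lit 0) (XT.lf (nat_lit 0) (nat_lit 1210803164) (nat_lit 76) (nat_lit 35936840837) (nat_lit 152) (nat_lit 5947794755) (nat_lit 20) (nat_lit 5) (nat_lit 21) (nat_lit 5) (nat_lit 22) (nat_lit 4) (nat_lit 371) (nat_lit 274) (nat_lit 135)) (XT.nd (nat_lit 78) (nat_lit 76) (nat_lit 0) (XT.lf (nat_lit 0) (nat_lit 13251981181) (nat_lit 76) (nat_lit 29845060640) (nat_lit 152) (nat_lit 1074686821) (nat_lit 20) (nat_lit 5) (nat_lit 21) (nat_lit 5) (nat_lit 22) (nat_lit 4) (nat_lit 372) (nat_lit 274) (nat_lit 134)) (XT.lf (nat_lit 0) (nat_lit 3861127998) (nat_lit 152) (nat_lit 19674911997) (nat_lit 76) (nat_lit 21743330041) (nat_lit 19) (nat_lit 5) (nat_lit 21) (nat_lit 5) (nat_lit 20)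 (nat_lit 5) (nat_lit 373) (nat_lit 274) (nat_lit 133))))) (XT.nd (nat_lit 234) (nat_lit 76) (nat_lit 0) (XT.nd (nat_lit 78) (nat_lit 152) (nat_lit 0) (XT.lf (nat_lit 0) (nat_lit 8917094095) (nat_lit 152) (nat_lit 8114130442) (nat_lit 76) (nat_lit 29388891442) (nat_lit 19) (nat_lit 5) (nat_lit 21) (nat_lit 5) (nat_lit 20) (nat_lit 5) (nat_lit 374) (nat_lit 274) (nat_lit 132)) (XT.nd (nat_lit 78) (nat_lit 0) (nat_lit 0) (XT.lf (nat_lit 0) (nat_lit 3858319107) (nat_lit 152) (nat_lit 10297369731) (nat_lit 228) (nat_lit 33438471661) (nat_lit 17) (nat_lit 5) (nat_lit 19) (nat_lit 5) (nat_lit 20) (nat_lit 5) (nat_lit 375) (nat_lit 274) (nat_lit 131)) (XT.lf (nat_lit 0) (nat_lit 16345931111) (nat_lit 152) (nat_lit 3281387638) (nat_lit 228) (nat_lit 29173835834) (nat_lit 17) (nat_lit 5) (nat_lit 19) (nat_lit 5) (nat_lit 20) (nat_lit 5) (nat_lit 376) (nat_lit 274) (nat_lit 130)))) (XT.nd (nat_lit 78) (nat_lit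 76) (nat_lit 0) (XT.lf (nat_lit 0) (nat_lit 25295097058) (nat_lit 228) (nat_lit 20884291921) (nat_lit 76) (nat_lit 3864013947) (nat_lit 17) (nat_lit 5) (nat_lit 20) (nat_lit 5) (nat_lit 18) (nat_lit 4) (nat_lit 377) (nat_lit 274) (nat_lit 129)) (XT.nd (nat_lit 78) (nat_lit 76) (nat_lit 0) (XT.lf (nat_lit 0) (nat_lit 31159647251) (nat_lit 228) (nat_lit 9008607273) (nat_lit 76) (nat_lit 11153866328) (nat_lit 17) (nat_lit 5) (nat_lit 20) (nat_lit 5) (nat_lit 18) (nat_lit 4) (nat_lit 378) (nat_lit 274) (nat_lit 128)) (XT.lf (nat_lit 0) (nat_lit 3277709913) (nat_lit 76) (nat_lit 33948348426) (nat_lit 152) (nat_lit 15412368409) (nat_lit 16) (nat_lit 5) (nat_lit 17) (nat_lit 5) (nat_lit 18) (nat_lit 4) (nat_lit 379) (nat_lit 274) (nat_lit 127)))))) (XT.nd (nat_lit 468) (nat_lit 76) (nat_lit 0) (XT.nd (nat_lit 234) (nat_lit 228) (nat_lit 0) (XT.nd (nat_lit 78) (nat_lit 0) (nat_lit 0) (XT.lf (nat_lit 0)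 (nat_lit 16107780404) (nat_lit 76) (nat_lit 27452138918) (nat_lit 152) (nat_lit 10431742817) (nat_lit 16) (nat_lit 5) (nat_lit 17) (nat_lit 5) (nat_lit 18) (nat_lit 4) (nat_lit 380) (nat_lit 274) (nat_lit 126)) (XT.nd (nat_lit 78) (nat_lit 0) (nat_lit 0) (XT.lf (nat_lit 0) (nat_lit 29313525991) (nat_lit 76) (nat_lit 20764918971) (nat_lit 152) (nat_lit 5307214091) (nat_lit 16) (nat_lit 5) (nat_lit 17) (nat_lit 5) (nat_lit 18) (nat_lit 4) (nat_lit 381) (nat_lit 274) (nat_lit 125)) (XT.lf (nat_lit 0) (nat_lit 42906485675) (nat_lit 76) (nat_lit 13880845381) (nat_lit 152) (nat_lit 34304489) (nat_lit 16) (nat_lit 5) (nat_lit 17) (nat_lit 5) (nat_lit 18) (nat_lit 4) (nat_lit 382) (nat_lit 274) (nat_lit 124)))) (XT.nd (nat_lit 78) (nat_lit 152) (nat_lit 0) (XT.lf (nat_lit 0) (nat_lit 5286383980) (nat_lit 152) (nat_lit 1454136847) (nat_lit 76) (nat_lit 51558770706) (nat_lit 15) (nat_lit 5) (nat_lit 17)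 (nat_lit 5) (nat_lit 16) (nat_lit 5) (nat_lit 383) (nat_lit 274) (nat_lit 123)) (XT.nd (nat_lit 78) (nat_lit 0) (nat_lit 0) (XT.lf (nat_lit 0) (nat_lit 10879517873) (nat_lit 228) (nat_lit 48226906789) (nat_lit 76) (nat_lit 711440410) (nat_lit 13) (nat_lit 5) (nat_lit 16) (nat_lit 5) (nat_lit 14) (nat_lit 4) (nat_lit 384) (nat_lit 274) (nat_lit 122)) (XT.lf (nat_lit 0) (nat_lit 16717092270) (nat_lit 228) (nat_lit 36399801696) (nat_lit 76) (nat_lit 8262805844) (nat_lit 13) (nat_lit 5) (nat_lit 16) (nat_lit 5) (nat_lit 14) (nat_lit 4) (nat_lit 385) (nat_lit 274) (nat_lit 121))))) (XT.nd (nat_lit 234) (nat_lit 0) (nat_lit 0) (XT.nd (nat_lit 78) (nat_lit 76) (nat_lit 0) (XT.lf (nat_lit 0) (nat_lit 22725016558) (nat_lit 228) (nat_lit 24226211441) (nat_lit 76) (nat_lit 16037308197) (nat_lit 13) (nat_lit 5) (nat_lit 16) (nat_lit 5) (nat_lit 14) (nat_lit 4) (nat_lit 386) (nat_lit 274) (nat_lit 120)) (XT.nd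 (nat_lit 78) (nat_lit 76) (nat_lit 0) (XT.lf (nat_lit 0) (nat_lit 28908540381) (nat_lit 228) (nat_lit 11695498906) (nat_lit 76) (nat_lit 24041740726) (nat_lit 13) (nat_lit 5) (nat_lit 16) (nat_lit 5) (nat_lit 14) (nat_lit 4) (nat_lit 387) (nat_lit 274) (nat_lit 119)) (XT.lf (nat_lit 0) (nat_lit 1227232806) (nat_lit 76) (nat_lit 34057630924) (nat_lit 152) (nat_lit 31067661701) (nat_lit 12) (nat_lit 5) (nat_lit 13) (nat_lit 5) (nat_lit 14) (nat_lit 4) (nat_lit 388) (nat_lit 274) (nat_lit 118)))) (XT.nd (nat_lit 78) (nat_lit 0) (nat_lit 0) (XT.lf (nat_lit 0) (nat_lit 14769619762) (nat_lit 76) (nat_lit 27196511963) (nat_lit 152) (nat_lit 26140934845) (nat_lit 12) (nat_lit 5) (nat_lit 13) (nat_lit 5) (nat_lit 14) (nat_lit 4) (nat_lit 389) (nat_lit 274) (nat_lit 117)) (XT.nd (nat_lit 78) (nat_lit 0) (nat_lit 0) (XT.lf (nat_lit 0) (nat_lit 28710731754) (nat_lit 76) (nat_lit 20132788858) (nat_lit 152)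 (nat_lit 21070855767) (nat_lit 12) (nat_lit 5) (nat_lit 13) (nat_lit 5) (nat_lit 14) (nat_lit 4) (nat_lit 390) (nat_lit 274) (nat_lit 116)) (XT.lf (nat_lit 0) (nat_lit 43062750336) (nat_lit 76) (nat_lit 12860289425) (nat_lit 152) (nat_lit 15852994299) (nat_lit 12) (nat_lit 5) (nat_lit 13) (nat_lit 5) (nat_lit 14) (nat_lit 4) (nat_lit 391) (nat_lit 274) (nat_lit 115))))))))
noncomputable def xc150 : XT := (XT.nd (nat_lit 32994) (nat_lit 0) (nat_lit 6384) (XT.nd (nat_lit 32058) (nat_lit 0) (nat_lit 12996) (XT.nd (nat_lit 31590) (nat_lit 0) (nat_lit 15580) (XT.nd (nat_lit 156) (nat_lit 152) (nat_lit 0) (XT.nd (nat_lit 78) (nat_lit 0) (nat_lit 0) (XT.lf (nat_lit 0) (nat_lit 57838216108) (nat_lit 76) (nat_lit 5372659052) (nat_lit 152) (nat_lit 10482791146) (nat_lit 12) (nat_lit 5) (nat_lit 13) (nat_lit 5) (nat_lit 14) (nat_lit 4) (nat_lit 392) (nat_lit 274) (nat_lit 114)) (XT.lf (nat_lit 0) (nat_lit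 70735856080) (nat_lit 152) (nat_lit 2641370308) (nat_lit 0) (nat_lit 2291048491) (nat_lit 12) (nat_lit 5) (nat_lit 14) (nat_lit 4) (nat_lit 12) (nat_lit 4) (nat_lit 393) (nat_lit 274) (nat_lit 113))) (XT.nd (nat_lit 78) (nat_lit 0) (nat_lit 0) (XT.lf (nat_lit 0) (nat_lit 926985512) (nat_lit 152) (nat_lit 66580268349) (nat_lit 76) (nat_lit 10189909290) (nat_lit 10) (nat_lit 5) (nat_lit 12) (nat_lit 5) (nat_lit 11) (nat_lit 4) (nat_lit 394) (nat_lit 274) (nat_lit 112)) (XT.nd (nat_lit 31278) (nat_lit 0) (nat_lit 16340) (XT.lf (nat_lit 0) (nat_lit 6886116252) (nat_lit 152) (nat_lit 54499972120) (nat_lit 76) (nat_lit 18398674638) (nat_lit 10) (nat_lit 5) (nat_lit 12) (nat_lit 5) (nat_lit 11) (nat_lit 4) (nat_lit 395) (nat_lit 274) (nat_lit 111)) (XT.lf (nat_lit 0) (nat_lit 925713577) (nat_lit 836) (nat_lit 1394544708) (nat_lit 836) (nat_lit 1394544708) (nat_lit 225) (nat_lit 3) (nat_lit 236) (nat_lit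 3) (nat_lit 236) (nat_lit 5) (nat_lit 275) (nat_lit 275) (nat_lit 230))))) (XT.nd (nat_lit 234) (nat_lit 760) (nat_lit 0) (XT.nd (nat_lit 78) (nat_lit 0) (nat_lit 0) (XT.lf (nat_lit 76) (nat_lit 472072107) (nat_lit 0) (nat_lit 2777059765) (nat_lit 836) (nat_lit 4247528904) (nat_lit 226) (nat_lit 5) (nat_lit 225) (nat_lit 3) (nat_lit 236) (nat_lit 5) (nat_lit 276) (nat_lit 275) (nat_lit 229)) (XT.nd (nat_lit 78) (nat_lit 0) (nat_lit 76) (XT.lf (nat_lit 76) (nat_lit 3860187304) (nat_lit 0) (nat_lit 803187516) (nat_lit 836) (nat_lit 2903242629) (nat_lit 226) (nat_lit 5) (nat_lit 225) (nat_lit 3) (nat_lit 236) (nat_lit 5) (nat_lit 277) (nat_lit 275) (nat_lit 228)) (XT.lf (nat_lit 0) (nat_lit 6080108294) (nat_lit 760) (nat_lit 329709701) (nat_lit 836) (nat_lit 1230177637) (nat_lit 226) (nat_lit 5) (nat_lit 236) (nat_lit 5) (nat_lit 237) (nat_lit 5) (nat_lit 278) (nat_lit 275) (nat_lit 227)))) (XT.nd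 (nat_lit 78) (nat_lit 836) (nat_lit 0) (XT.lf (nat_lit 76) (nat_lit 3173984934) (nat_lit 0) (nat_lit 4353569706) (nat_lit 836) (nat_lit 188495272) (nat_lit 227) (nat_lit 5) (nat_lit 226) (nat_lit 5) (nat_lit 237) (nat_lit 5) (nat_lit 279) (nat_lit 275) (nat_lit 226)) (XT.nd (nat_lit 78) (nat_lit 0) (nat_lit 76) (XT.lf (nat_lit 0) (nat_lit 1153856966) (nat_lit 836) (nat_lit 1045671795) (nat_lit 912) (nat_lit 5596007086) (nat_lit 215) (nat_lit 5) (nat_lit 226) (nat_lit 5) (nat_lit 227) (nat_lit 5) (nat_lit 280) (nat_lit 275) (nat_lit 225)) (XT.lf (nat_lit 0) (nat_lit 2509877479) (nat_lit 836) (nat_lit 5303082541) (nat_lit 912) (nat_lit 65185564) (nat_lit 216) (nat_lit 5) (nat_lit 227) (nat_lit 5) (nat_lit 228) (nat_lit 5) (nat_lit 281) (nat_lit 275) (nat_lit 224)))))) (XT.nd (nat_lit 468) (nat_lit 1824) (nat_lit 0) (XT.nd (nat_lit 234) (nat_lit 836) (nat_lit 0) (XT.nd (nat_lit 78) (nat_lit 0) (nat_lit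 0) (XT.lf (nat_lit 0) (nat_lit 3892125973) (nat_lit 836) (nat_lit 1688656777) (nat_lit 912) (nat_lit 2382992019) (nat_lit 216) (nat_lit 5) (nat_lit 227) (nat_lit 5) (nat_lit 228) (nat_lit 5) (nat_lit 282) (nat_lit 275) (nat_lit 223)) (XT.nd (nat_lit 78) (nat_lit 0) (nat_lit 0) (XT.lf (nat_lit 76) (nat_lit 2045264611) (nat_lit 0) (nat_lit 3244709556) (nat_lit 912) (nat_lit 2762879135) (nat_lit 217) (nat_lit 5) (nat_lit 216) (nat_lit 5) (nat_lit 228) (nat_lit 5) (nat_lit 283) (nat_lit 275) (nat_lit 222)) (XT.lf (nat_lit 76) (nat_lit 5897254643) (nat_lit 0) (nat_lit 805078679) (nat_lit 912) (nat_lit 1443195004) (nat_lit 217) (nat_lit 5) (nat_lit 216) (nat_lit 5) (nat_lit 228) (nat_lit 5) (nat_lit 284) (nat_lit 275) (nat_lit 221)))) (XT.nd (nat_lit 78) (nat_lit 912) (nat_lit 0) (XT.lf (nat_lit 76) (nat_lit 1609537594) (nat_lit 0) (nat_lit 6536380696) (nat_lit 912) (nat_lit 95498107) (nat_lit 218) (nat_lit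 5) (nat_lit 217) (nat_lit 5) (nat_lit 229) (nat_lit 5) (nat_lit 285) (nat_lit 275) (nat_lit 220)) (XT.nd (nat_lit 78) (nat_lit 0) (nat_lit 0) (XT.lf (nat_lit 0) (nat_lit 1255736774) (nat_lit 912) (nat_lit 2760878980) (nat_lit 988) (nat_lit 4323635456) (nat_lit 205) (nat_lit 5) (nat_lit 217) (nat_lit 5) (nat_lit 218) (nat_lit 5) (nat_lit 286) (nat_lit 275) (nat_lit 219)) (XT.lf (nat_lit 76) (nat_lit 1220056528) (nat_lit 0) (nat_lit 1395932455) (nat_lit 988) (nat_lit 5827011819) (nat_lit 206) (nat_lit 5) (nat_lit 205) (nat_lit 5) (nat_lit 218) (nat_lit 5) (nat_lit 287) (nat_lit 275) (nat_lit 218))))) (XT.nd (nat_lit 234) (nat_lit 1900) (nat_lit 0) (XT.nd (nat_lit 78) (nat_lit 0) (nat_lit 0) (XT.lf (nat_lit 0) (nat_lit 4017443784) (nat_lit 912) (nat_lit 3213968824) (nat_lit 988) (nat_lit 1317495893) (nat_lit 206) (nat_lit 5) (nat_lit 218) (nat_lit 5) (nat_lit 219) (nat_lit 5) (nat_lit 288) (nat_lit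 275) (nat_lit 217)) (XT.nd (nat_lit 78) (nat_lit 0) (nat_lit 0) (XT.lf (nat_lit 76) (nat_lit 889508502) (nat_lit 0) (nat_lit 4554689538) (nat_lit 988) (nat_lit 3214382637) (nat_lit 207) (nat_lit 5) (nat_lit 206) (nat_lit 5) (nat_lit 219) (nat_lit 5) (nat_lit 289) (nat_lit 275) (nat_lit 216)) (XT.lf (nat_lit 76) (nat_lit 5152956861) (nat_lit 0) (nat_lit 1754997414) (nat_lit 988) (nat_lit 1863845209) (nat_lit 207) (nat_lit 5) (nat_lit 206) (nat_lit 5) (nat_lit 219) (nat_lit 5) (nat_lit 290) (nat_lit 275) (nat_lit 215)))) (XT.nd (nat_lit 78) (nat_lit 1064) (nat_lit 0) (XT.lf (nat_lit 0) (nat_lit 627843831) (nat_lit 912) (nat_lit 7767609228) (nat_lit 988) (nat_lit 493646946) (nat_lit 195) (nat_lit 5) (nat_lit 207) (nat_lit 5) (nat_lit 208) (nat_lit 5) (nat_lit 291) (nat_lit 275) (nat_lit 214)) (XT.nd (nat_lit 78) (nat_lit 988) (nat_lit 0) (XT.lf (nat_lit 0) (nat_lit 917340502) (nat_lit 988) (nat_lit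 3989237546) (nat_lit 76) (nat_lit 4102624613) (nat_lit 194) (nat_lit 5) (nat_lit 207) (nat_lit 5) (nat_lit 195) (nat_lit 5) (nat_lit 292) (nat_lit 275) (nat_lit 213)) (XT.lf (nat_lit 0) (nat_lit 384460336) (nat_lit 988) (nat_lit 1944348564) (nat_lit 1064) (nat_lit 6804983927) (nat_lit 181) (nat_lit 5) (nat_lit 194) (nat_lit 5) (nat_lit 195) (nat_lit 5) (nat_lit 293) (nat_lit 275) (nat_lit 212))))))) (XT.nd (nat_lit 936) (nat_lit 2736) (nat_lit 0) (XT.nd (nat_lit 468) (nat_lit 1672) (nat_lit 0) (XT.nd (nat_lit 234) (nat_lit 1140) (nat_lit 0) (XT.nd (nat_lit 78) (nat_lit 1064) (nat_lit 0) (XT.lf (nat_lit 0) (nat_lit 3799138656) (nat_lit 1064) (nat_lit 4330790974) (nat_lit 76) (nat_lit 1131766669) (nat_lit 181) (nat_lit 5) (nat_lit 195) (nat_lit 5) (nat_lit 182) (nat_lit 5) (nat_lit 294) (nat_lit 275) (nat_lit 211)) (XT.nd (nat_lit 78) (nat_lit 0) (nat_lit 0) (XT.lf (nat_lit 0) (nat_lit 175365386)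 (nat_lit 1064) (nat_lit 5125359559) (nat_lit 1140) (nat_lit 4093166578) (nat_lit 167) (nat_lit 5) (nat_lit 181) (nat_lit 5) (nat_lit 182) (nat_lit 5) (nat_lit 295) (nat_lit 275) (nat_lit 210)) (XT.lf (nat_lit 0) (nat_lit 4876656386) (nat_lit 1064) (nat_lit 1981351954) (nat_lit 1140) (nat_lit 2671791816) (nat_lit 167) (nat_lit 5) (nat_lit 181) (nat_lit 5) (nat_lit 182) (nat_lit 5) (nat_lit 296) (nat_lit 275) (nat_lit 209)))) (XT.nd (nat_lit 78) (nat_lit 76) (nat_lit 0) (XT.lf (nat_lit 0) (nat_lit 8221899) (nat_lit 1064) (nat_lit 8433870514) (nat_lit 1140) (nat_lit 1228356255) (nat_lit 153) (nat_lit 5) (nat_lit 167) (nat_lit 5) (nat_lit 168) (nat_lit 5) (nat_lit 297) (nat_lit 275) (nat_lit 208)) (XT.nd (nat_lit 78) (nat_lit 0) (nat_lit 0) (XT.lf (nat_lit 0) (nat_lit 288615652) (nat_lit 1140) (nat_lit 4961124936) (nat_lit 76) (nat_lit 4564504627) (nat_lit 152) (nat_lit 5) (nat_lit 167) (nat_lit 5)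 (nat_lit 153) (nat_lit 5) (nat_lit 298) (nat_lit 275) (nat_lit 207)) (XT.lf (nat_lit 0) (nat_lit 1795539092) (nat_lit 1140) (nat_lit 159758839) (nat_lit 76) (nat_lit 8007678495) (nat_lit 152) (nat_lit 5) (nat_lit 167) (nat_lit 5) (nat_lit 153) (nat_lit 5) (nat_lit 299) (nat_lit 275) (nat_lit 206))))) (XT.nd (nat_lit 234) (nat_lit 608) (nat_lit 0) (XT.nd (nat_lit 78) (nat_lit 532) (nat_lit 0) (XT.lf (nat_lit 0) (nat_lit 3378651953) (nat_lit 608) (nat_lit 5277467163) (nat_lit 76) (nat_lit 1459178835) (nat_lit 145) (nat_lit 5) (nat_lit 153) (nat_lit 5) (nat_lit 146) (nat_lit 5) (nat_lit 300) (nat_lit 275) (nat_lit 205)) (XT.nd (nat_lit 78) (nat_lit 532) (nat_lit 0) (XT.lf (nat_lit 0) (nat_lit 5000903447) (nat_lit 608) (nat_lit 331349284) (nat_lit 76) (nat_lit 4940243175) (nat_lit 145) (nat_lit 5) (nat_lit 153) (nat_lit 5) (nat_lit 146) (nat_lit 5) (nat_lit 301) (nat_lit 275) (nat_lit 204)) (XT.lf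 (nat_lit 0) (nat_lit 4829770972) (nat_lit 532) (nat_lit 1859989526) (nat_lit 608) (nat_lit 3744165669) (nat_lit 138) (nat_lit 5) (nat_lit 145) (nat_lit 5) (nat_lit 146) (nat_lit 5) (nat_lit 302) (nat_lit 275) (nat_lit 203)))) (XT.nd (nat_lit 78) (nat_lit 608) (nat_lit 0) (XT.lf (nat_lit 0) (nat_lit 8421245388) (nat_lit 608) (nat_lit 492366940) (nat_lit 76) (nat_lit 1686881064) (nat_lit 138) (nat_lit 5) (nat_lit 146) (nat_lit 5) (nat_lit 139) (nat_lit 5) (nat_lit 303) (nat_lit 275) (nat_lit 202)) (XT.nd (nat_lit 78) (nat_lit 76) (nat_lit 0) (XT.lf (nat_lit 0) (nat_lit 4821004740) (nat_lit 532) (nat_lit 5421324903) (nat_lit 608) (nat_lit 528649723) (nat_lit 131) (nat_lit 5) (nat_lit 138) (nat_lit 5) (nat_lit 139) (nat_lit 5) (nat_lit 304) (nat_lit 275) (nat_lit 201)) (XT.lf (nat_lit 0) (nat_lit 1126741082) (nat_lit 608) (nat_lit 681614498) (nat_lit 76) (nat_lit 9138590920) (nat_lit 130) (nat_lit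 5) (nat_lit 138) (nat_lit 5) (nat_lit 131) (nat_lit 5) (nat_lit 305) (nat_lit 275) (nat_lit 200)))))) (XT.nd (nat_lit 468) (nat_lit 1216) (nat_lit 0) (XT.nd (nat_lit 234) (nat_lit 532) (nat_lit 0) (XT.nd (nat_lit 78) (nat_lit 456) (nat_lit 0) (XT.lf (nat_lit 0) (nat_lit 2860156776) (nat_lit 608) (nat_lit 6339953326) (nat_lit 76) (nat_lit 1926802887) (nat_lit 123) (nat_lit 5) (nat_lit 131) (nat_lit 5) (nat_lit 124) (nat_lit 5) (nat_lit 306) (nat_lit 275) (nat_lit 199)) (XT.nd (nat_lit 78) (nat_lit 456) (nat_lit 0) (XT.lf (nat_lit 0) (nat_lit 4644820242) (nat_lit 608) (nat_lit 923956607) (nat_lit 76) (nat_lit 5743569911) (nat_lit 123) (nat_lit 5) (nat_lit 131) (nat_lit 5) (nat_lit 124) (nat_lit 5) (nat_lit 307) (nat_lit 275) (nat_lit 198)) (XT.lf (nat_lit 0) (nat_lit 4719948008) (nat_lit 456) (nat_lit 1783582237) (nat_lit 532) (nat_lit 4999242421) (nat_lit 117) (nat_lit 5) (nat_lit 123) (nat_lit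 5) (nat_lit 124) (nat_lit 5) (nat_lit 308) (nat_lit 275) (nat_lit 197)))) (XT.nd (nat_lit 78) (nat_lit 532) (nat_lit 0) (XT.lf (nat_lit 0) (nat_lit 8423342861) (nat_lit 532) (nat_lit 1194115253) (nat_lit 76) (nat_lit 2081336025) (nat_lit 117) (nat_lit 5) (nat_lit 124) (nat_lit 5) (nat_lit 118) (nat_lit 5) (nat_lit 309) (nat_lit 275) (nat_lit 196)) (XT.nd (nat_lit 78) (nat_lit 76) (nat_lit 0) (XT.lf (nat_lit 0) (nat_lit 4608139836) (nat_lit 456) (nat_lit 5830863073) (nat_lit 532) (nat_lit 1460587530) (nat_lit 111) (nat_lit 5) (nat_lit 117) (nat_lit 5) (nat_lit 118) (nat_lit 5) (nat_lit 310) (nat_lit 275) (nat_lit 195)) (XT.lf (nat_lit 0) (nat_lit 389390859) (nat_lit 532) (nat_lit 1527783290) (nat_lit 76) (nat_lit 10189498658) (nat_lit 110) (nat_lit 5) (nat_lit 117) (nat_lit 5) (nat_lit 111) (nat_lit 5) (nat_lit 311) (nat_lit 275) (nat_lit 194))))) (XT.nd (nat_lit 234) (nat_lit 380) (nat_lit 0) (XT.nd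 (nat_lit 78) (nat_lit 456) (nat_lit 0) (XT.lf (nat_lit 0) (nat_lit 2306351377) (nat_lit 456) (nat_lit 7884408559) (nat_lit 76) (nat_lit 2127586930) (nat_lit 105) (nat_lit 5) (nat_lit 111) (nat_lit 5) (nat_lit 106) (nat_lit 5) (nat_lit 312) (nat_lit 275) (nat_lit 193)) (XT.nd (nat_lit 78) (nat_lit 456) (nat_lit 0) (XT.lf (nat_lit 0) (nat_lit 4292924129) (nat_lit 456) (nat_lit 1975490795) (nat_lit 76) (nat_lit 6267630236) (nat_lit 105) (nat_lit 5) (nat_lit 111) (nat_lit 5) (nat_lit 106) (nat_lit 5) (nat_lit 313) (nat_lit 275) (nat_lit 192)) (XT.lf (nat_lit 0) (nat_lit 4166485585) (nat_lit 456) (nat_lit 2190854563) (nat_lit 532) (nat_lit 6402422909) (nat_lit 99) (nat_lit 5) (nat_lit 105) (nat_lit 5) (nat_lit 106) (nat_lit 5) (nat_lit 314) (nat_lit 275) (nat_lit 191)))) (XT.nd (nat_lit 78) (nat_lit 380) (nat_lit 0) (XT.lf (nat_lit 0) (nat_lit 8501697320) (nat_lit 532) (nat_lit 2501789008) (nat_lit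 76) (nat_lit 1986200888) (nat_lit 99) (nat_lit 5) (nat_lit 106) (nat_lit 5) (nat_lit 100) (nat_lit 5) (nat_lit 315) (nat_lit 275) (nat_lit 190)) (XT.nd (nat_lit 78) (nat_lit 0) (nat_lit 0) (XT.lf (nat_lit 0) (nat_lit 3799751458) (nat_lit 380) (nat_lit 6948026183) (nat_lit 456) (nat_lit 2477643653) (nat_lit 94) (nat_lit 5) (nat_lit 99) (nat_lit 5) (nat_lit 100) (nat_lit 5) (nat_lit 316) (nat_lit 275) (nat_lit 189)) (XT.lf (nat_lit 0) (nat_lit 10316721048) (nat_lit 380) (nat_lit 2749324936) (nat_lit 456) (nat_lit 402070220) (nat_lit 94) (nat_lit 5) (nat_lit 99) (nat_lit 5) (nat_lit 100) (nat_lit 5) (nat_lit 317) (nat_lit 275) (nat_lit 188))))))))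
noncomputable def xc151 : XT := (XT.nd (nat_lit 1794) (nat_lit 1672) (nat_lit 0) (XT.nd (nat_lit 858) (nat_lit 1672) (nat_lit 0) (XT.nd (nat_lit 390) (nat_lit 684) (nat_lit 0) (XT.nd (nat_lit 156) (nat_lit 684) (nat_lit 0) (XT.nd (nat_lit 78) (nat_lit 0) (nat_lit 0) (XT.lf (nat_lit 0) (nat_lit 1729448835) (nat_lit 456) (nat_lit 10397954478) (nat_lit 76) (nat_lit 1589392689) (nat_lit 88) (nat_lit 5) (nat_lit 94) (nat_lit 5) (nat_lit 89) (nat_lit 5) (nat_lit 318) (nat_lit 275) (nat_lit 187)) (XT.lf (nat_lit 0) (nat_lit 3956407978) (nat_lit 456) (nat_lit 3980656262) (nat_lit 76) (nat_lit 6034595432) (nat_lit 88) (nat_lit 5) (nat_lit 94) (nat_lit 5) (nat_lit 89) (nat_lit 5) (nat_lit 319) (nat_lit 275) (nat_lit 186))) (XT.nd (nat_lit 78) (nat_lit 380) (nat_lit 0) (XT.lf (nat_lit 0) (nat_lit 2656787336) (nat_lit 304) (nat_lit 3599720138) (nat_lit 380) (nat_lit 7977501134) (nat_lit 84) (nat_lit 5) (nat_lit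 88) (nat_lit 5) (nat_lit 89) (nat_lit 5) (nat_lit 320) (nat_lit 275) (nat_lit 185)) (XT.nd (nat_lit 78) (nat_lit 380) (nat_lit 0) (XT.lf (nat_lit 0) (nat_lit 8655618853) (nat_lit 380) (nat_lit 4961332975) (nat_lit 76) (nat_lit 886404363) (nat_lit 84) (nat_lit 5) (nat_lit 89) (nat_lit 5) (nat_lit 85) (nat_lit 5) (nat_lit 321) (nat_lit 275) (nat_lit 184)) (XT.lf (nat_lit 0) (nat_lit 1829275886) (nat_lit 380) (nat_lit 9332276674) (nat_lit 456) (nat_lit 3618213790) (nat_lit 79) (nat_lit 5) (nat_lit 84) (nat_lit 5) (nat_lit 85) (nat_lit 5) (nat_lit 322) (nat_lit 275) (nat_lit 183))))) (XT.nd (nat_lit 234) (nat_lit 304) (nat_lit 0) (XT.nd (nat_lit 78) (nat_lit 380) (nat_lit 0) (XT.lf (nat_lit 0) (nat_lit 8901727864) (nat_lit 380) (nat_lit 4872968803) (nat_lit 456) (nat_lit 1288837990) (nat_lit 79) (nat_lit 5) (nat_lit 84) (nat_lit 5) (nat_lit 85) (nat_lit 5) (nat_lit 323) (nat_lit 275) (nat_lit 182))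 (XT.nd (nat_lit 78) (nat_lit 0) (nat_lit 0) (XT.lf (nat_lit 0) (nat_lit 812447919) (nat_lit 304) (nat_lit 266372323) (nat_lit 380) (nat_lit 14276998742) (nat_lit 74) (nat_lit 5) (nat_lit 78) (nat_lit 5) (nat_lit 79) (nat_lit 5) (nat_lit 324) (nat_lit 275) (nat_lit 181)) (XT.lf (nat_lit 0) (nat_lit 3579992533) (nat_lit 380) (nat_lit 7612725265) (nat_lit 76) (nat_lit 4461144096) (nat_lit 74) (nat_lit 5) (nat_lit 79) (nat_lit 5) (nat_lit 75) (nat_lit 5) (nat_lit 325) (nat_lit 275) (nat_lit 180)))) (XT.nd (nat_lit 78) (nat_lit 304) (nat_lit 0) (XT.lf (nat_lit 0) (nat_lit 6141848138) (nat_lit 380) (nat_lit 499647146) (nat_lit 76) (nat_lit 9319805190) (nat_lit 74) (nat_lit 5) (nat_lit 79) (nat_lit 5) (nat_lit 75) (nat_lit 5) (nat_lit 326) (nat_lit 275) (nat_lit 179)) (XT.nd (nat_lit 78) (nat_lit 0) (nat_lit 0) (XT.lf (nat_lit 0) (nat_lit 6940064798) (nat_lit 304) (nat_lit 1890712385) (nat_lit 380) (nat_lit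 7445701622) (nat_lit 70) (nat_lit 5) (nat_lit 74) (nat_lit 5) (nat_lit 75) (nat_lit 5) (nat_lit 327) (nat_lit 275) (nat_lit 178)) (XT.lf (nat_lit 0) (nat_lit 11618051980) (nat_lit 380) (nat_lit 2039084178) (nat_lit 76) (nat_lit 2943468451) (nat_lit 70) (nat_lit 5) (nat_lit 75) (nat_lit 5) (nat_lit 71) (nat_lit 5) (nat_lit 328) (nat_lit 275) (nat_lit 177)))))) (XT.nd (nat_lit 468) (nat_lit 760) (nat_lit 0) (XT.nd (nat_lit 234) (nat_lit 228) (nat_lit 0) (XT.nd (nat_lit 78) (nat_lit 380) (nat_lit 0) (XT.lf (nat_lit 0) (nat_lit 5544878498) (nat_lit 304) (nat_lit 9000281089) (nat_lit 380) (nat_lit 2387629963) (nat_lit 66) (nat_lit 5) (nat_lit 70) (nat_lit 5) (nat_lit 71) (nat_lit 5) (nat_lit 329) (nat_lit 275) (nat_lit 176)) (XT.nd (nat_lit 78) (nat_lit 304) (nat_lit 0) (XT.lf (nat_lit 0) (nat_lit 284643202) (nat_lit 380) (nat_lit 3900995678) (nat_lit 76) (nat_lit 13089087475) (nat_lit 65) (nat_lit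 5) (nat_lit 70) (nat_lit 5) (nat_lit 66) (nat_lit 5) (nat_lit 330) (nat_lit 275) (nat_lit 175)) (XT.lf (nat_lit 0) (nat_lit 3018720873) (nat_lit 380) (nat_lit 13792978968) (nat_lit 76) (nat_lit 813643418) (nat_lit 61) (nat_lit 5) (nat_lit 66) (nat_lit 5) (nat_lit 62) (nat_lit 5) (nat_lit 331) (nat_lit 275) (nat_lit 174)))) (XT.nd (nat_lit 78) (nat_lit 228) (nat_lit 0) (XT.lf (nat_lit 0) (nat_lit 5900960337) (nat_lit 380) (nat_lit 6170891593) (nat_lit 76) (nat_lit 5912661928) (nat_lit 61) (nat_lit 5) (nat_lit 66) (nat_lit 5) (nat_lit 62) (nat_lit 5) (nat_lit 332) (nat_lit 275) (nat_lit 173)) (XT.nd (nat_lit 78) (nat_lit 0) (nat_lit 0) (XT.lf (nat_lit 0) (nat_lit 1692046866) (nat_lit 228) (nat_lit 7179239536) (nat_lit 304) (nat_lit 9483143396) (nat_lit 58) (nat_lit 5) (nat_lit 61) (nat_lit 5) (nat_lit 62) (nat_lit 5) (nat_lit 333) (nat_lit 275) (nat_lit 172)) (XT.lf (nat_lit 0) (nat_lit 9896745453)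 (nat_lit 228) (nat_lit 2081873439) (nat_lit 304) (nat_lit 6755405686) (nat_lit 58) (nat_lit 5) (nat_lit 61) (nat_lit 5) (nat_lit 62) (nat_lit 5) (nat_lit 334) (nat_lit 275) (nat_lit 171))))) (XT.nd (nat_lit 234) (nat_lit 456) (nat_lit 0) (XT.nd (nat_lit 78) (nat_lit 304) (nat_lit 0) (XT.lf (nat_lit 0) (nat_lit 15195572807) (nat_lit 304) (nat_lit 828283162) (nat_lit 76) (nat_lit 3100676914) (nat_lit 58) (nat_lit 5) (nat_lit 62) (nat_lit 5) (nat_lit 59) (nat_lit 5) (nat_lit 335) (nat_lit 275) (nat_lit 170)) (XT.nd (nat_lit 78) (nat_lit 76) (nat_lit 0) (XT.lf (nat_lit 0) (nat_lit 7527447756) (nat_lit 228) (nat_lit 11060912720) (nat_lit 304) (nat_lit 936033420) (nat_lit 55) (nat_lit 5) (nat_lit 58) (nat_lit 5) (nat_lit 59) (nat_lit 5) (nat_lit 336) (nat_lit 275) (nat_lit 169)) (XT.lf (nat_lit 0) (nat_lit 2099651975) (nat_lit 304) (nat_lit 3825790582) (nat_lit 76) (nat_lit 14010359535) (nat_lit 54)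 (nat_lit 5) (nat_lit 58) (nat_lit 5) (nat_lit 55) (nat_lit 5) (nat_lit 337) (nat_lit 275) (nat_lit 168)))) (XT.nd (nat_lit 78) (nat_lit 228) (nat_lit 0) (XT.lf (nat_lit 0) (nat_lit 4652700269) (nat_lit 228) (nat_lit 586428209) (nat_lit 304) (nat_lit 15119215760) (nat_lit 51) (nat_lit 5) (nat_lit 54) (nat_lit 5) (nat_lit 55) (nat_lit 5) (nat_lit 338) (nat_lit 275) (nat_lit 167)) (XT.nd (nat_lit 78) (nat_lit 228) (nat_lit 0) (XT.lf (nat_lit 0) (nat_lit 8545979704) (nat_lit 304) (nat_lit 7395518959) (nat_lit 76) (nat_lit 4849883564) (nat_lit 51) (nat_lit 5) (nat_lit 55) (nat_lit 5) (nat_lit 52) (nat_lit 5) (nat_lit 339) (nat_lit 275) (nat_lit 166)) (XT.lf (nat_lit 0) (nat_lit 1161863910) (nat_lit 228) (nat_lit 10794477922) (nat_lit 304) (nat_lit 9280955210) (nat_lit 48) (nat_lit 5) (nat_lit 51) (nat_lit 5) (nat_lit 52) (nat_lit 5) (nat_lit 340) (nat_lit 275) (nat_lit 165))))))) (XT.nd (nat_lit 936)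 (nat_lit 684) (nat_lit 0) (XT.nd (nat_lit 468) (nat_lit 456) (nat_lit 0) (XT.nd (nat_lit 234) (nat_lit 228) (nat_lit 0) (XT.nd (nat_lit 78) (nat_lit 304) (nat_lit 0) (XT.lf (nat_lit 0) (nat_lit 10108842743) (nat_lit 228) (nat_lit 5422371923) (nat_lit 304) (nat_lit 6163523054) (nat_lit 48) (nat_lit 5) (nat_lit 51) (nat_lit 5) (nat_lit 52) (nat_lit 5) (nat_lit 341) (nat_lit 275) (nat_lit 164)) (XT.nd (nat_lit 78) (nat_lit 304) (nat_lit 0) (XT.lf (nat_lit 0) (nat_lit 19202224514) (nat_lit 304) (nat_lit 2861236879) (nat_lit 76) (nat_lit 102787494) (nat_lit 48) (nat_lit 5) (nat_lit 52) (nat_lit 5) (nat_lit 49) (nat_lit 5) (nat_lit 342) (nat_lit 275) (nat_lit 163)) (XT.lf (nat_lit 0) (nat_lit 427194552) (nat_lit 304) (nat_lit 16479081191) (nat_lit 76) (nat_lit 5742481153) (nat_lit 44) (nat_lit 5) (nat_lit 48) (nat_lit 5) (nat_lit 45) (nat_lit 5) (nat_lit 343) (nat_lit 275) (nat_lit 162)))) (XT.nd (nat_lit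 78) (nat_lit 228) (nat_lit 0) (XT.lf (nat_lit 0) (nat_lit 3877979548) (nat_lit 304) (nat_lit 7662370403) (nat_lit 76) (nat_lit 11604000494) (nat_lit 44) (nat_lit 5) (nat_lit 48) (nat_lit 5) (nat_lit 45) (nat_lit 5) (nat_lit 344) (nat_lit 275) (nat_lit 161)) (XT.nd (nat_lit 78) (nat_lit 0) (nat_lit 0) (XT.lf (nat_lit 0) (nat_lit 1429223807) (nat_lit 228) (nat_lit 6005370342) (nat_lit 304) (nat_lit 16220160905) (nat_lit 41) (nat_lit 5) (nat_lit 44) (nat_lit 5) (nat_lit 45) (nat_lit 5) (nat_lit 345) (nat_lit 275) (nat_lit 160)) (XT.lf (nat_lit 0) (nat_lit 10933301360) (nat_lit 228) (nat_lit 230714571) (nat_lit 304) (nat_lit 13014484676) (nat_lit 41) (nat_lit 5) (nat_lit 44) (nat_lit 5) (nat_lit 45) (nat_lit 5) (nat_lit 346) (nat_lit 275) (nat_lit 159))))) (XT.nd (nat_lit 234) (nat_lit 304) (nat_lit 0) (XT.nd (nat_lit 78) (nat_lit 152) (nat_lit 0) (XT.lf (nat_lit 0) (nat_lit 15049282735) (nat_lit 304)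 (nat_lit 4067528192) (nat_lit 76) (nat_lit 5599840452) (nat_lit 41) (nat_lit 5) (nat_lit 45) (nat_lit 5) (nat_lit 42) (nat_lit 5) (nat_lit 347) (nat_lit 275) (nat_lit 158)) (XT.nd (nat_lit 78) (nat_lit 0) (nat_lit 0) (XT.lf (nat_lit 0) (nat_lit 5473378622) (nat_lit 152) (nat_lit 13621952243) (nat_lit 228) (nat_lit 6174300486) (nat_lit 39) (nat_lit 5) (nat_lit 41) (nat_lit 5) (nat_lit 42) (nat_lit 5) (nat_lit 348) (nat_lit 275) (nat_lit 157)) (XT.lf (nat_lit 0) (nat_lit 15367440478) (nat_lit 152) (nat_lit 7925872335) (nat_lit 228) (nat_lit 2544982386) (nat_lit 39) (nat_lit 5) (nat_lit 41) (nat_lit 5) (nat_lit 42) (nat_lit 5) (nat_lit 349) (nat_lit 275) (nat_lit 156)))) (XT.nd (nat_lit 78) (nat_lit 228) (nat_lit 0) (XT.lf (nat_lit 0) (nat_lit 1159604442) (nat_lit 228) (nat_lit 893353932) (nat_lit 76) (nat_lit 24371036710) (nat_lit 38) (nat_lit 5) (nat_lit 41) (nat_lit 5) (nat_lit 39) (nat_lit 5)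 (nat_lit 350) (nat_lit 275) (nat_lit 155)) (XT.nd (nat_lit 78) (nat_lit 0) (nat_lit 0) (XT.lf (nat_lit 0) (nat_lit 5041180639) (nat_lit 304) (nat_lit 17955377403) (nat_lit 76) (nat_lit 4026451996) (nat_lit 35) (nat_lit 5) (nat_lit 39) (nat_lit 5) (nat_lit 36) (nat_lit 5) (nat_lit 351) (nat_lit 275) (nat_lit 154)) (XT.lf (nat_lit 0) (nat_lit 9058702595) (nat_lit 304) (nat_lit 8330194110) (nat_lit 76) (nat_lit 10250523595) (nat_lit 35) (nat_lit 5) (nat_lit 39) (nat_lit 5) (nat_lit 36) (nat_lit 5) (nat_lit 352) (nat_lit 275) (nat_lit 153)))))) (XT.nd (nat_lit 468) (nat_lit 304) (nat_lit 0) (XT.nd (nat_lit 234) (nat_lit 228) (nat_lit 0) (XT.nd (nat_lit 78) (nat_lit 0) (nat_lit 0) (XT.lf (nat_lit 0) (nat_lit 1599604014) (nat_lit 152) (nat_lit 11602873746) (nat_lit 228) (nat_lit 15071682814) (nat_lit 33) (nat_lit 5) (nat_lit 35) (nat_lit 5) (nat_lit 36) (nat_lit 5) (nat_lit 353) (nat_lit 275) (nat_lit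 152)) (XT.nd (nat_lit 78) (nat_lit 0) (nat_lit 0) (XT.lf (nat_lit 0) (nat_lit 11982852728) (nat_lit 152) (nat_lit 5562318138) (nat_lit 228) (nat_lit 11380543302) (nat_lit 33) (nat_lit 5) (nat_lit 35) (nat_lit 5) (nat_lit 36) (nat_lit 5) (nat_lit 354) (nat_lit 275) (nat_lit 151)) (XT.lf (nat_lit 0) (nat_lit 22015193902) (nat_lit 228) (nat_lit 6940548852) (nat_lit 76) (nat_lit 641169123) (nat_lit 33) (nat_lit 5) (nat_lit 36) (nat_lit 5) (nat_lit 34) (nat_lit 5) (nat_lit 355) (nat_lit 275) (nat_lit 150)))) (XT.nd (nat_lit 78) (nat_lit 76) (nat_lit 0) (XT.lf (nat_lit 0) (nat_lit 3357724371) (nat_lit 152) (nat_lit 23339922855) (nat_lit 228) (nat_lit 3588257124) (nat_lit 31) (nat_lit 5) (nat_lit 33) (nat_lit 5) (nat_lit 34) (nat_lit 5) (nat_lit 356) (nat_lit 275) (nat_lit 149)) (XT.nd (nat_lit 78) (nat_lit 0) (nat_lit 0) (XT.lf (nat_lit 0) (nat_lit 576551020) (nat_lit 228) (nat_lit 16906586426) (nat_lit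 76) (nat_lit 13510432323) (nat_lit 30) (nat_lit 5) (nat_lit 33) (nat_lit 5) (nat_lit 31) (nat_lit 5) (nat_lit 357) (nat_lit 275) (nat_lit 148)) (XT.lf (nat_lit 0) (nat_lit 4785453289) (nat_lit 228) (nat_lit 6634049093) (nat_lit 76) (nat_lit 20302166822) (nat_lit 30) (nat_lit 5) (nat_lit 33) (nat_lit 5) (nat_lit 31) (nat_lit 5) (nat_lit 358) (nat_lit 275) (nat_lit 147))))) (XT.nd (nat_lit 234) (nat_lit 152) (nat_lit 0) (XT.nd (nat_lit 78) (nat_lit 0) (nat_lit 0) (XT.lf (nat_lit 0) (nat_lit 4011172977) (nat_lit 152) (nat_lit 5139532053) (nat_lit 228) (nat_lit 23320011867) (nat_lit 28) (nat_lit 5) (nat_lit 30) (nat_lit 5) (nat_lit 31) (nat_lit 5) (nat_lit 359) (nat_lit 275) (nat_lit 146)) (XT.nd (nat_lit 78) (nat_lit 0) (nat_lit 0) (XT.lf (nat_lit 0) (nat_lit 13718931841) (nat_lit 228) (nat_lit 18155756491) (nat_lit 76) (nat_lit 1365394686) (nat_lit 28) (nat_lit 5) (nat_lit 31) (nat_lit 5) (nat_lit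 29) (nat_lit 5) (nat_lit 360) (nat_lit 275) (nat_lit 145)) (XT.lf (nat_lit 0) (nat_lit 18466926625) (nat_lit 228) (nat_lit 7607175422) (nat_lit 76) (nat_lit 7957153745) (nat_lit 28) (nat_lit 5) (nat_lit 31) (nat_lit 5) (nat_lit 29) (nat_lit 5) (nat_lit 361) (nat_lit 275) (nat_lit 144)))) (XT.nd (nat_lit 78) (nat_lit 0) (nat_lit 0) (XT.lf (nat_lit 0) (nat_lit 3309399114) (nat_lit 152) (nat_lit 20071846643) (nat_lit 228) (nat_lit 11464208548) (nat_lit 26) (nat_lit 5) (nat_lit 28) (nat_lit 5) (nat_lit 29) (nat_lit 5) (nat_lit 362) (nat_lit 275) (nat_lit 143)) (XT.nd (nat_lit 78) (nat_lit 0) (nat_lit 0) (XT.lf (nat_lit 0) (nat_lit 14696496131) (nat_lit 152) (nat_lit 13815495181) (nat_lit 228) (nat_lit 7170024439) (nat_lit 26) (nat_lit 5) (nat_lit 28) (nat_lit 5) (nat_lit 29) (nat_lit 5) (nat_lit 363) (nat_lit 275) (nat_lit 142)) (XT.lf (nat_lit 0) (nat_lit 26412667810) (nat_lit 152) (nat_lit 7376398502)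 (nat_lit 228) (nat_lit 2754842198) (nat_lit 26) (nat_lit 5) (nat_lit 28) (nat_lit 5) (nat_lit 29) (nat_lit 5) (nat_lit 364) (nat_lit 275) (nat_lit 141))))))))
noncomputable def xc152 : XT := (XT.nd (nat_lit 1794) (nat_lit 76) (nat_lit 0) (XT.nd (nat_lit 858) (nat_lit 456) (nat_lit 0) (XT.nd (nat_lit 390) (nat_lit 152) (nat_lit 0) (XT.nd (nat_lit 156) (nat_lit 152) (nat_lit 0) (XT.nd (nat_lit 78) (nat_lit 0) (nat_lit 0) (XT.lf (nat_lit 0) (nat_lit 1039387687) (nat_lit 152) (nat_lit 720964037) (nat_lit 228) (nat_lit 35670719423) (nat_lit 23) (nat_lit 5) (nat_lit 25) (nat_lit 5) (nat_lit 26) (nat_lit 5) (nat_lit 365) (nat_lit 275) (nat_lit 140)) (XT.lf (nat_lit 0) (nat_lit 6510517396) (nat_lit 228) (nat_lit 25688604475) (nat_lit 76) (nat_lit 6140268073) (nat_lit 23) (nat_lit 5) (nat_lit 26) (nat_lit 5) (nat_lit 24) (nat_lit 5) (nat_lit 366) (nat_lit 275) (nat_lit 139))) (XT.nd (nat_lit 78) (nat_lit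 152) (nat_lit 0) (XT.lf (nat_lit 0) (nat_lit 11403143668) (nat_lit 228) (nat_lit 14683597373) (nat_lit 76) (nat_lit 13188224532) (nat_lit 23) (nat_lit 5) (nat_lit 26) (nat_lit 5) (nat_lit 24) (nat_lit 5) (nat_lit 367) (nat_lit 275) (nat_lit 138)) (XT.nd (nat_lit 78) (nat_lit 152) (nat_lit 0) (XT.lf (nat_lit 0) (nat_lit 16435575304) (nat_lit 228) (nat_lit 3360115781) (nat_lit 76) (nat_lit 20443132354) (nat_lit 23) (nat_lit 5) (nat_lit 26) (nat_lit 5) (nat_lit 24) (nat_lit 5) (nat_lit 368) (nat_lit 275) (nat_lit 137)) (XT.lf (nat_lit 0) (nat_lit 8456756380) (nat_lit 152) (nat_lit 13236744710) (nat_lit 228) (nat_lit 19535865914) (nat_lit 21) (nat_lit 5) (nat_lit 23) (nat_lit 5) (nat_lit 24) (nat_lit 5) (nat_lit 369) (nat_lit 275) (nat_lit 136))))) (XT.nd (nat_lit 234) (nat_lit 76) (nat_lit 0) (XT.nd (nat_lit 78) (nat_lit 76) (nat_lit 0) (XT.lf (nat_lit 0) (nat_lit 20685789266) (nat_lit 152) (nat_lit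 6450624946) (nat_lit 228) (nat_lit 15112400610) (nat_lit 21) (nat_lit 5) (nat_lit 23) (nat_lit 5) (nat_lit 24) (nat_lit 5) (nat_lit 370) (nat_lit 275) (nat_lit 135)) (XT.nd (nat_lit 78) (nat_lit 76) (nat_lit 0) (XT.lf (nat_lit 0) (nat_lit 32741267851) (nat_lit 228) (nat_lit 10033389947) (nat_lit 76) (nat_lit 524233959) (nat_lit 21) (nat_lit 5) (nat_lit 24) (nat_lit 5) (nat_lit 22) (nat_lit 4) (nat_lit 371) (nat_lit 275) (nat_lit 134)) (XT.lf (nat_lit 0) (nat_lit 1802711485) (nat_lit 76) (nat_lit 36786413285) (nat_lit 152) (nat_lit 5789105623) (nat_lit 20) (nat_lit 5) (nat_lit 21) (nat_lit 5) (nat_lit 22) (nat_lit 4) (nat_lit 372) (nat_lit 275) (nat_lit 133)))) (XT.nd (nat_lit 78) (nat_lit 76) (nat_lit 0) (XT.lf (nat_lit 0) (nat_lit 14188942777) (nat_lit 76) (nat_lit 30518535977) (nat_lit 152) (nat_lit 779623567) (nat_lit 20) (nat_lit 5) (nat_lit 21) (nat_lit 5) (nat_lit 22) (nat_lit 4) (nat_lit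 373) (nat_lit 275) (nat_lit 132)) (XT.nd (nat_lit 78) (nat_lit 0) (nat_lit 0) (XT.lf (nat_lit 0) (nat_lit 4288531724) (nat_lit 152) (nat_lit 19735029166) (nat_lit 76) (nat_lit 22604605230) (nat_lit 19) (nat_lit 5) (nat_lit 21) (nat_lit 5) (nat_lit 20) (nat_lit 5) (nat_lit 374) (nat_lit 275) (nat_lit 131)) (XT.lf (nat_lit 0) (nat_lit 9487101953) (nat_lit 152) (nat_lit 7842864850) (nat_lit 76) (nat_lit 30473446814) (nat_lit 19) (nat_lit 5) (nat_lit 21) (nat_lit 5) (nat_lit 20) (nat_lit 5) (nat_lit 375) (nat_lit 275) (nat_lit 130)))))) (XT.nd (nat_lit 468) (nat_lit 228) (nat_lit 0) (XT.nd (nat_lit 234) (nat_lit 76) (nat_lit 0) (XT.nd (nat_lit 78) (nat_lit 0) (nat_lit 0) (XT.lf (nat_lit 0) (nat_lit 4483712210) (nat_lit 152) (nat_lit 10395230797) (nat_lit 228) (nat_lit 34133860537) (nat_lit 17) (nat_lit 5) (nat_lit 19) (nat_lit 5) (nat_lit 20) (nat_lit 5) (nat_lit 376) (nat_lit 275) (nat_lit 129)) (XT.nd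 (nat_lit 78) (nat_lit 0) (nat_lit 0) (XT.lf (nat_lit 0) (nat_lit 17331108589) (nat_lit 152) (nat_lit 3174916621) (nat_lit 228) (nat_lit 29750249673) (nat_lit 17) (nat_lit 5) (nat_lit 19) (nat_lit 5) (nat_lit 20) (nat_lit 5) (nat_lit 377) (nat_lit 275) (nat_lit 128)) (XT.lf (nat_lit 0) (nat_lit 26337305934) (nat_lit 228) (nat_lit 21023690448) (nat_lit 76) (nat_lit 4174996562) (nat_lit 17) (nat_lit 5) (nat_lit 20) (nat_lit 5) (nat_lit 18) (nat_lit 4) (nat_lit 378) (nat_lit 275) (nat_lit 127)))) (XT.nd (nat_lit 78) (nat_lit 76) (nat_lit 0) (XT.lf (nat_lit 0) (nat_lit 32369539547) (nat_lit 228) (nat_lit 8805923520) (nat_lit 76) (nat_lit 11677863091) (nat_lit 17) (nat_lit 5) (nat_lit 20) (nat_lit 5) (nat_lit 18) (nat_lit 4) (nat_lit 379) (nat_lit 275) (nat_lit 126)) (XT.nd (nat_lit 78) (nat_lit 0) (nat_lit 0) (XT.lf (nat_lit 0) (nat_lit 3844346496) (nat_lit 76) (nat_lit 34770085404) (nat_lit 152) (nat_lit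 15594800641) (nat_lit 16) (nat_lit 5) (nat_lit 17) (nat_lit 5) (nat_lit 18) (nat_lit 4) (nat_lit 380) (nat_lit 275) (nat_lit 125)) (XT.lf (nat_lit 0) (nat_lit 17045679142) (nat_lit 76) (nat_lit 28084719129) (nat_lit 152) (nat_lit 10472909839) (nat_lit 16) (nat_lit 5) (nat_lit 17) (nat_lit 5) (nat_lit 18) (nat_lit 4) (nat_lit 381) (nat_lit 275) (nat_lit 124))))) (XT.nd (nat_lit 234) (nat_lit 152) (nat_lit 0) (XT.nd (nat_lit 78) (nat_lit 76) (nat_lit 0) (XT.lf (nat_lit 0) (nat_lit 30634354417) (nat_lit 76) (nat_lit 21202445223) (nat_lit 152) (nat_lit 5202561328) (nat_lit 16) (nat_lit 5) (nat_lit 17) (nat_lit 5) (nat_lit 18) (nat_lit 4) (nat_lit 382) (nat_lit 275) (nat_lit 123)) (XT.nd (nat_lit 78) (nat_lit 0) (nat_lit 0) (XT.lf (nat_lit 0) (nat_lit 216540472) (nat_lit 152) (nat_lit 13898522940) (nat_lit 76) (nat_lit 44403518815) (nat_lit 15) (nat_lit 5) (nat_lit 17) (nat_lit 5) (nat_lit 16) (nat_lit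 5) (nat_lit 383) (nat_lit 275) (nat_lit 122)) (XT.lf (nat_lit 0) (nat_lit 5688844053) (nat_lit 152) (nat_lit 1076652431) (nat_lit 76) (nat_lit 53275285860) (nat_lit 15) (nat_lit 5) (nat_lit 17) (nat_lit 5) (nat_lit 16) (nat_lit 5) (nat_lit 384) (nat_lit 275) (nat_lit 121)))) (XT.nd (nat_lit 78) (nat_lit 0) (nat_lit 0) (XT.lf (nat_lit 0) (nat_lit 11448371064) (nat_lit 228) (nat_lit 49251037698) (nat_lit 76) (nat_lit 905551360) (nat_lit 13) (nat_lit 5) (nat_lit 16) (nat_lit 5) (nat_lit 14) (nat_lit 4) (nat_lit 385) (nat_lit 275) (nat_lit 120)) (XT.nd (nat_lit 78) (nat_lit 0) (nat_lit 0) (XT.lf (nat_lit 0) (nat_lit 17454010527) (nat_lit 228) (nat_lit 37081430412) (nat_lit 76) (nat_lit 8678425687) (nat_lit 13) (nat_lit 5) (nat_lit 16) (nat_lit 5) (nat_lit 14) (nat_lit 4) (nat_lit 386) (nat_lit 275) (nat_lit 119)) (XT.lf (nat_lit 0) (nat_lit 23635316074) (nat_lit 228) (nat_lit 24554584838) (nat_lit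 76) (nat_lit 16681277606) (nat_lit 13) (nat_lit 5) (nat_lit 16) (nat_lit 5) (nat_lit 14) (nat_lit 4) (nat_lit 387) (nat_lit 275) (nat_lit 118))))))) (XT.nd (nat_lit 32292) (nat_lit 0) (nat_lit 13832) (XT.nd (nat_lit 468) (nat_lit 0) (nat_lit 0) (XT.nd (nat_lit 234) (nat_lit 0) (nat_lit 0) (XT.nd (nat_lit 78) (nat_lit 76) (nat_lit 0) (XT.lf (nat_lit 0) (nat_lit 29997688844) (nat_lit 228) (nat_lit 11659555188) (nat_lit 76) (nat_lit 24921099902) (nat_lit 13) (nat_lit 5) (nat_lit 16) (nat_lit 5) (nat_lit 14) (nat_lit 4) (nat_lit 388) (nat_lit 275) (nat_lit 117)) (XT.nd (nat_lit 78) (nat_lit 0) (nat_lit 0) (XT.lf (nat_lit 0) (nat_lit 1647066233) (nat_lit 76) (nat_lit 34915454567) (nat_lit 152) (nat_lit 31773858794) (nat_lit 12) (nat_lit 5) (nat_lit 13) (nat_lit 5) (nat_lit 14) (nat_lit 4) (nat_lit 389) (nat_lit 275) (nat_lit 116)) (XT.lf (nat_lit 0) (nat_lit 15584568980) (nat_lit 76) (nat_lit 27853275977)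 (nat_lit 152) (nat_lit 26705907786) (nat_lit 12) (nat_lit 5) (nat_lit 13) (nat_lit 5) (nat_lit 14) (nat_lit 4) (nat_lit 390) (nat_lit 275) (nat_lit 115)))) (XT.nd (nat_lit 78) (nat_lit 0) (nat_lit 0) (XT.lf (nat_lit 0) (nat_lit 29933083440) (nat_lit 76) (nat_lit 20582276072) (nat_lit 152) (nat_lit 21490112406) (nat_lit 12) (nat_lit 5) (nat_lit 13) (nat_lit 5) (nat_lit 14) (nat_lit 4) (nat_lit 391) (nat_lit 275) (nat_lit 114)) (XT.nd (nat_lit 78) (nat_lit 0) (nat_lit 0) (XT.lf (nat_lit 0) (nat_lit 44705147150) (nat_lit 76) (nat_lit 13096101553) (nat_lit 152) (nat_lit 16121915164) (nat_lit 12) (nat_lit 5) (nat_lit 13) (nat_lit 5) (nat_lit 14) (nat_lit 4) (nat_lit 392) (nat_lit 275) (nat_lit 113)) (XT.lf (nat_lit 0) (nat_lit 59913667740) (nat_lit 76) (nat_lit 5388211101) (nat_lit 152) (nat_lit 10596625400) (nat_lit 12) (nat_lit 5) (nat_lit 13) (nat_lit 5) (nat_lit 14) (nat_lit 4) (nat_lit 393) (nat_lit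 275) (nat_lit 112))))) (XT.nd (nat_lit 31590) (nat_lit 0) (nat_lit 15428) (XT.nd (nat_lit 31434) (nat_lit 0) (nat_lit 16188) (XT.lf (nat_lit 0) (nat_lit 73048298063) (nat_lit 152) (nat_lit 2385779047) (nat_lit 0) (nat_lit 2498407132) (nat_lit 12) (nat_lit 5) (nat_lit 14) (nat_lit 4) (nat_lit 12) (nat_lit 4) (nat_lit 394) (nat_lit 275) (nat_lit 111)) (XT.nd (nat_lit 78) (nat_lit 0) (nat_lit 0) (XT.lf (nat_lit 0) (nat_lit 2305755433) (nat_lit 836) (nat_lit 738331937) (nat_lit 836) (nat_lit 738331937) (nat_lit 225) (nat_lit 3) (nat_lit 236) (nat_lit 3) (nat_lit 236) (nat_lit 5) (nat_lit 276) (nat_lit 276) (nat_lit 228)) (XT.lf (nat_lit 76) (nat_lit 1868645257) (nat_lit 0) (nat_lit 4117017013) (nat_lit 836) (nat_lit 1650397197) (nat_lit 226) (nat_lit 5) (nat_lit 225) (nat_lit 3) (nat_lit 236) (nat_lit 5) (nat_lit 277) (nat_lit 276) (nat_lit 227)))) (XT.nd (nat_lit 78) (nat_lit 760) (nat_lit 0) (XT.lf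 (nat_lit 76) (nat_lit 5318139512) (nat_lit 0) (nat_lit 2047327272) (nat_lit 836) (nat_lit 345138379) (nat_lit 226) (nat_lit 5) (nat_lit 225) (nat_lit 3) (nat_lit 236) (nat_lit 5) (nat_lit 278) (nat_lit 276) (nat_lit 226)) (XT.nd (nat_lit 78) (nat_lit 0) (nat_lit 0) (XT.lf (nat_lit 0) (nat_lit 941661940) (nat_lit 836) (nat_lit 6721427248) (nat_lit 912) (nat_lit 125267500) (nat_lit 215) (nat_lit 5) (nat_lit 226) (nat_lit 5) (nat_lit 227) (nat_lit 5) (nat_lit 279) (nat_lit 276) (nat_lit 225)) (XT.lf (nat_lit 0) (nat_lit 2256586102) (nat_lit 836) (nat_lit 3240780579) (nat_lit 912) (nat_lit 2371188662) (nat_lit 215) (nat_lit 5) (nat_lit 226) (nat_lit 5) (nat_lit 227) (nat_lit 5) (nat_lit 280) (nat_lit 276) (nat_lit 224)))))) (XT.nd (nat_lit 468) (nat_lit 760) (nat_lit 0) (XT.nd (nat_lit 234) (nat_lit 836) (nat_lit 0) (XT.nd (nat_lit 78) (nat_lit 0) (nat_lit 0) (XT.lf (nat_lit 76) (nat_lit 323127569)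 (nat_lit 0) (nat_lit 3244128551) (nat_lit 912) (nat_lit 4385322469) (nat_lit 216) (nat_lit 5) (nat_lit 215) (nat_lit 5) (nat_lit 227) (nat_lit 5) (nat_lit 281) (nat_lit 276) (nat_lit 223)) (XT.nd (nat_lit 78) (nat_lit 0) (nat_lit 76) (XT.lf (nat_lit 76) (nat_lit 4033191730) (nat_lit 0) (nat_lit 871074001) (nat_lit 912) (nat_lit 3135350656) (nat_lit 216) (nat_lit 5) (nat_lit 215) (nat_lit 5) (nat_lit 227) (nat_lit 5) (nat_lit 282) (nat_lit 276) (nat_lit 222)) (XT.lf (nat_lit 0) (nat_lit 6252305899) (nat_lit 836) (nat_lit 317837203) (nat_lit 912) (nat_lit 1560096011) (nat_lit 216) (nat_lit 5) (nat_lit 227) (nat_lit 5) (nat_lit 228) (nat_lit 5) (nat_lit 283) (nat_lit 276) (nat_lit 221)))) (XT.nd (nat_lit 78) (nat_lit 912) (nat_lit 0) (XT.lf (nat_lit 76) (nat_lit 3514165756) (nat_lit 0) (nat_lit 4126111733) (nat_lit 912) (nat_lit 583416771) (nat_lit 217) (nat_lit 5) (nat_lit 216) (nat_lit 5) (nat_lit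 228) (nat_lit 5) (nat_lit 284) (nat_lit 276) (nat_lit 220)) (XT.nd (nat_lit 78) (nat_lit 0) (nat_lit 76) (XT.lf (nat_lit 0) (nat_lit 696110271) (nat_lit 912) (nat_lit 887315585) (nat_lit 988) (nat_lit 6737579464) (nat_lit 204) (nat_lit 5) (nat_lit 216) (nat_lit 5) (nat_lit 217) (nat_lit 5) (nat_lit 285) (nat_lit 276) (nat_lit 219)) (XT.lf (nat_lit 0) (nat_lit 2001116745) (nat_lit 912) (nat_lit 5355165913) (nat_lit 988) (nat_lit 1064905263) (nat_lit 205) (nat_lit 5) (nat_lit 217) (nat_lit 5) (nat_lit 218) (nat_lit 5) (nat_lit 286) (nat_lit 276) (nat_lit 218))))) (XT.nd (nat_lit 234) (nat_lit 836) (nat_lit 0) (XT.nd (nat_lit 78) (nat_lit 0) (nat_lit 0) (XT.lf (nat_lit 0) (nat_lit 3329875264) (nat_lit 912) (nat_lit 1411934739) (nat_lit 988) (nat_lit 3783115410) (nat_lit 205) (nat_lit 5) (nat_lit 217) (nat_lit 5) (nat_lit 218) (nat_lit 5) (nat_lit 287) (nat_lit 276) (nat_lit 217)) (XT.nd (nat_lit 78)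 (nat_lit 0) (nat_lit 76) (XT.lf (nat_lit 76) (nat_lit 2674391868) (nat_lit 0) (nat_lit 2010856739) (nat_lit 988) (nat_lit 3947008779) (nat_lit 206) (nat_lit 5) (nat_lit 205) (nat_lit 5) (nat_lit 218) (nat_lit 5) (nat_lit 288) (nat_lit 276) (nat_lit 216)) (XT.lf (nat_lit 0) (nat_lit 6065415140) (nat_lit 912) (nat_lit 1866431039) (nat_lit 988) (nat_lit 811521630) (nat_lit 206) (nat_lit 5) (nat_lit 218) (nat_lit 5) (nat_lit 219) (nat_lit 5) (nat_lit 289) (nat_lit 276) (nat_lit 215)))) (XT.nd (nat_lit 78) (nat_lit 912) (nat_lit 0) (XT.lf (nat_lit 76) (nat_lit 2345994167) (nat_lit 0) (nat_lit 5146582709) (nat_lit 988) (nat_lit 1365147007) (nat_lit 207) (nat_lit 5) (nat_lit 206) (nat_lit 5) (nat_lit 219) (nat_lit 5) (nat_lit 290) (nat_lit 276) (nat_lit 214)) (XT.nd (nat_lit 78) (nat_lit 912) (nat_lit 0) (XT.lf (nat_lit 76) (nat_lit 6695701305) (nat_lit 0) (nat_lit 2249640040) (nat_lit 988) (nat_lit 30763372)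 (nat_lit 207) (nat_lit 5) (nat_lit 206) (nat_lit 5) (nat_lit 219) (nat_lit 5) (nat_lit 291) (nat_lit 276) (nat_lit 213)) (XT.lf (nat_lit 0) (nat_lit 1309440339) (nat_lit 988) (nat_lit 7027480921) (nat_lit 76) (nat_lit 761041248) (nat_lit 194) (nat_lit 5) (nat_lit 207) (nat_lit 5) (nat_lit 195) (nat_lit 5) (nat_lit 292) (nat_lit 276) (nat_lit 212))))))))
noncomputable def xc153 : XT := (XT.nd (nat_lit 1794) (nat_lit 3648) (nat_lit 0) (XT.nd (nat_lit 858) (nat_lit 2964) (nat_lit 0) (XT.nd (nat_lit 390) (nat_lit 2204) (nat_lit 0) (XT.nd (nat_lit 156) (nat_lit 1064) (nat_lit 0) (XT.nd (nat_lit 78) (nat_lit 988) (nat_lit 0) (XT.lf (nat_lit 0) (nat_lit 2700176135) (nat_lit 988) (nat_lit 2675200744) (nat_lit 76) (nat_lit 3847832807) (nat_lit 194) (nat_lit 5) (nat_lit 207) (nat_lit 5) (nat_lit 195) (nat_lit 5) (nat_lit 293) (nat_lit 276) (nat_lit 211)) (XT.lf (nat_lit 0) (nat_lit 1815652055) (nat_lit 988)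 (nat_lit 2300857459) (nat_lit 1064) (nat_lit 5236257550) (nat_lit 181) (nat_lit 5) (nat_lit 194) (nat_lit 5) (nat_lit 195) (nat_lit 5) (nat_lit 294) (nat_lit 276) (nat_lit 210))) (XT.nd (nat_lit 78) (nat_lit 1064) (nat_lit 0) (XT.lf (nat_lit 0) (nat_lit 5578132304) (nat_lit 1064) (nat_lit 3026186809) (nat_lit 76) (nat_lit 881875103) (nat_lit 181) (nat_lit 5) (nat_lit 195) (nat_lit 5) (nat_lit 182) (nat_lit 5) (nat_lit 295) (nat_lit 276) (nat_lit 209)) (XT.nd (nat_lit 78) (nat_lit 0) (nat_lit 0) (XT.lf (nat_lit 0) (nat_lit 1601090243) (nat_lit 1064) (nat_lit 5488834594) (nat_lit 1140) (nat_lit 2533574801) (nat_lit 167) (nat_lit 5) (nat_lit 181) (nat_lit 5) (nat_lit 182) (nat_lit 5) (nat_lit 296) (nat_lit 276) (nat_lit 208)) (XT.lf (nat_lit 0) (nat_lit 6402047238) (nat_lit 1064) (nat_lit 2244398579) (nat_lit 1140) (nat_lit 1118560353) (nat_lit 167) (nat_lit 5) (nat_lit 181) (nat_lit 5) (nat_lit 182)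 (nat_lit 5) (nat_lit 297) (nat_lit 276) (nat_lit 207))))) (XT.nd (nat_lit 234) (nat_lit 532) (nat_lit 0) (XT.nd (nat_lit 78) (nat_lit 532) (nat_lit 0) (XT.lf (nat_lit 0) (nat_lit 326191541) (nat_lit 1140) (nat_lit 8488028351) (nat_lit 76) (nat_lit 1096682827) (nat_lit 152) (nat_lit 5) (nat_lit 167) (nat_lit 5) (nat_lit 153) (nat_lit 5) (nat_lit 298) (nat_lit 276) (nat_lit 206)) (XT.nd (nat_lit 78) (nat_lit 532) (nat_lit 0) (XT.lf (nat_lit 0) (nat_lit 1818351539) (nat_lit 1140) (nat_lit 3700343850) (nat_lit 76) (nat_lit 4541409931) (nat_lit 152) (nat_lit 5) (nat_lit 167) (nat_lit 5) (nat_lit 153) (nat_lit 5) (nat_lit 299) (nat_lit 276) (nat_lit 205)) (XT.lf (nat_lit 0) (nat_lit 1227968576) (nat_lit 532) (nat_lit 2110014866) (nat_lit 608) (nat_lit 6876375488) (nat_lit 145) (nat_lit 5) (nat_lit 152) (nat_lit 5) (nat_lit 153) (nat_lit 5) (nat_lit 300) (nat_lit 276) (nat_lit 204)))) (XT.nd (nat_lit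 78) (nat_lit 532) (nat_lit 0) (XT.lf (nat_lit 0) (nat_lit 4925918340) (nat_lit 608) (nat_lit 4033599271) (nat_lit 76) (nat_lit 1413095622) (nat_lit 145) (nat_lit 5) (nat_lit 153) (nat_lit 5) (nat_lit 146) (nat_lit 5) (nat_lit 301) (nat_lit 276) (nat_lit 203)) (XT.nd (nat_lit 78) (nat_lit 0) (nat_lit 0) (XT.lf (nat_lit 0) (nat_lit 1040362828) (nat_lit 532) (nat_lit 5524361363) (nat_lit 608) (nat_lit 3970846908) (nat_lit 138) (nat_lit 5) (nat_lit 145) (nat_lit 5) (nat_lit 146) (nat_lit 5) (nat_lit 302) (nat_lit 276) (nat_lit 202)) (XT.lf (nat_lit 0) (nat_lit 6322668885) (nat_lit 532) (nat_lit 1943648135) (nat_lit 608) (nat_lit 2436743375) (nat_lit 138) (nat_lit 5) (nat_lit 145) (nat_lit 5) (nat_lit 146) (nat_lit 5) (nat_lit 303) (nat_lit 276) (nat_lit 201)))))) (XT.nd (nat_lit 468) (nat_lit 1368) (nat_lit 0) (XT.nd (nat_lit 234) (nat_lit 456) (nat_lit 0) (XT.nd (nat_lit 78) (nat_lit 608) (nat_lit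 0) (XT.lf (nat_lit 0) (nat_lit 861276560) (nat_lit 532) (nat_lit 9156415317) (nat_lit 608) (nat_lit 857970348) (nat_lit 131) (nat_lit 5) (nat_lit 138) (nat_lit 5) (nat_lit 139) (nat_lit 5) (nat_lit 304) (nat_lit 276) (nat_lit 200)) (XT.nd (nat_lit 78) (nat_lit 532) (nat_lit 0) (XT.lf (nat_lit 0) (nat_lit 790987604) (nat_lit 608) (nat_lit 4756128961) (nat_lit 76) (nat_lit 5505016697) (nat_lit 130) (nat_lit 5) (nat_lit 138) (nat_lit 5) (nat_lit 131) (nat_lit 5) (nat_lit 305) (nat_lit 276) (nat_lit 199)) (XT.lf (nat_lit 0) (nat_lit 637672338) (nat_lit 532) (nat_lit 1815283666) (nat_lit 608) (nat_lit 8781309651) (nat_lit 123) (nat_lit 5) (nat_lit 130) (nat_lit 5) (nat_lit 131) (nat_lit 5) (nat_lit 306) (nat_lit 276) (nat_lit 198)))) (XT.nd (nat_lit 78) (nat_lit 456) (nat_lit 0) (XT.lf (nat_lit 0) (nat_lit 4207921384) (nat_lit 608) (nat_lit 5176287470) (nat_lit 76) (nat_lit 2036403349) (nat_lit 123)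 (nat_lit 5) (nat_lit 131) (nat_lit 5) (nat_lit 124) (nat_lit 5) (nat_lit 307) (nat_lit 276) (nat_lit 197)) (XT.nd (nat_lit 78) (nat_lit 0) (nat_lit 0) (XT.lf (nat_lit 0) (nat_lit 369975764) (nat_lit 456) (nat_lit 5642949310) (nat_lit 532) (nat_lit 5599745420) (nat_lit 117) (nat_lit 5) (nat_lit 123) (nat_lit 5) (nat_lit 124) (nat_lit 5) (nat_lit 308) (nat_lit 276) (nat_lit 196)) (XT.lf (nat_lit 0) (nat_lit 6163091375) (nat_lit 456) (nat_lit 1737574267) (nat_lit 532) (nat_lit 3909009064) (nat_lit 117) (nat_lit 5) (nat_lit 123) (nat_lit 5) (nat_lit 124) (nat_lit 5) (nat_lit 309) (nat_lit 276) (nat_lit 195))))) (XT.nd (nat_lit 234) (nat_lit 836) (nat_lit 0) (XT.nd (nat_lit 78) (nat_lit 76) (nat_lit 0) (XT.lf (nat_lit 0) (nat_lit 71227368) (nat_lit 456) (nat_lit 9773448123) (nat_lit 532) (nat_lit 2167965002) (nat_lit 111) (nat_lit 5) (nat_lit 117) (nat_lit 5) (nat_lit 118) (nat_lit 5) (nat_lit 310)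 (nat_lit 276) (nat_lit 194)) (XT.nd (nat_lit 78) (nat_lit 76) (nat_lit 0) (XT.lf (nat_lit 0) (nat_lit 6033417305) (nat_lit 456) (nat_lit 5865057213) (nat_lit 532) (nat_lit 321716045) (nat_lit 111) (nat_lit 5) (nat_lit 117) (nat_lit 5) (nat_lit 118) (nat_lit 5) (nat_lit 311) (nat_lit 276) (nat_lit 193)) (XT.lf (nat_lit 0) (nat_lit 1526908106) (nat_lit 532) (nat_lit 299779768) (nat_lit 76) (nat_lit 10607526234) (nat_lit 110) (nat_lit 5) (nat_lit 117) (nat_lit 5) (nat_lit 111) (nat_lit 5) (nat_lit 312) (nat_lit 276) (nat_lit 192)))) (XT.nd (nat_lit 78) (nat_lit 456) (nat_lit 0) (XT.lf (nat_lit 0) (nat_lit 3482212257) (nat_lit 456) (nat_lit 6826109664) (nat_lit 76) (nat_lit 2344546291) (nat_lit 105) (nat_lit 5) (nat_lit 111) (nat_lit 5) (nat_lit 106) (nat_lit 5) (nat_lit 313) (nat_lit 276) (nat_lit 191)) (XT.nd (nat_lit 78) (nat_lit 456) (nat_lit 0) (XT.lf (nat_lit 0) (nat_lit 5496149076) (nat_lit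 456) (nat_lit 777637895) (nat_lit 76) (nat_lit 6604330748) (nat_lit 105) (nat_lit 5) (nat_lit 111) (nat_lit 5) (nat_lit 106) (nat_lit 5) (nat_lit 314) (nat_lit 276) (nat_lit 190)) (XT.lf (nat_lit 0) (nat_lit 5536273094) (nat_lit 456) (nat_lit 2066895904) (nat_lit 532) (nat_lit 5506009730) (nat_lit 99) (nat_lit 5) (nat_lit 105) (nat_lit 5) (nat_lit 106) (nat_lit 5) (nat_lit 315) (nat_lit 276) (nat_lit 189))))))) (XT.nd (nat_lit 936) (nat_lit 1444) (nat_lit 0) (XT.nd (nat_lit 468) (nat_lit 1064) (nat_lit 0) (XT.nd (nat_lit 234) (nat_lit 684) (nat_lit 0) (XT.nd (nat_lit 78) (nat_lit 456) (nat_lit 0) (XT.lf (nat_lit 0) (nat_lit 9782895819) (nat_lit 532) (nat_lit 1337671027) (nat_lit 76) (nat_lit 2226352810) (nat_lit 99) (nat_lit 5) (nat_lit 106) (nat_lit 5) (nat_lit 100) (nat_lit 5) (nat_lit 316) (nat_lit 276) (nat_lit 188)) (XT.nd (nat_lit 78) (nat_lit 76) (nat_lit 0) (XT.lf (nat_lit 0) (nat_lit 5140766910)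 (nat_lit 380) (nat_lit 6937498741) (nat_lit 456) (nat_lit 1512051643) (nat_lit 94) (nat_lit 5) (nat_lit 99) (nat_lit 5) (nat_lit 100) (nat_lit 5) (nat_lit 317) (nat_lit 276) (nat_lit 187)) (XT.lf (nat_lit 0) (nat_lit 583879671) (nat_lit 456) (nat_lit 2029438460) (nat_lit 76) (nat_lit 11227731345) (nat_lit 93) (nat_lit 5) (nat_lit 99) (nat_lit 5) (nat_lit 94) (nat_lit 5) (nat_lit 318) (nat_lit 276) (nat_lit 186)))) (XT.nd (nat_lit 78) (nat_lit 304) (nat_lit 0) (XT.lf (nat_lit 0) (nat_lit 2756162933) (nat_lit 456) (nat_lit 9480788197) (nat_lit 76) (nat_lit 1860616728) (nat_lit 88) (nat_lit 5) (nat_lit 94) (nat_lit 5) (nat_lit 89) (nat_lit 5) (nat_lit 319) (nat_lit 276) (nat_lit 185)) (XT.nd (nat_lit 78) (nat_lit 304) (nat_lit 0) (XT.lf (nat_lit 0) (nat_lit 5021537726) (nat_lit 456) (nat_lit 2906770208) (nat_lit 76) (nat_lit 6432664614) (nat_lit 88) (nat_lit 5) (nat_lit 94) (nat_lit 5) (nat_lit 89)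 (nat_lit 5) (nat_lit 320) (nat_lit 276) (nat_lit 184)) (XT.lf (nat_lit 0) (nat_lit 3918097622) (nat_lit 304) (nat_lit 3456334769) (nat_lit 380) (nat_lit 7257287846) (nat_lit 84) (nat_lit 5) (nat_lit 88) (nat_lit 5) (nat_lit 89) (nat_lit 5) (nat_lit 321) (nat_lit 276) (nat_lit 183))))) (XT.nd (nat_lit 234) (nat_lit 684) (nat_lit 0) (XT.nd (nat_lit 78) (nat_lit 380) (nat_lit 0) (XT.lf (nat_lit 0) (nat_lit 9820769052) (nat_lit 380) (nat_lit 3936873055) (nat_lit 76) (nat_lit 1152289409) (nat_lit 84) (nat_lit 5) (nat_lit 89) (nat_lit 5) (nat_lit 85) (nat_lit 5) (nat_lit 322) (nat_lit 276) (nat_lit 182)) (XT.nd (nat_lit 78) (nat_lit 0) (nat_lit 0) (XT.lf (nat_lit 0) (nat_lit 3045951131) (nat_lit 380) (nat_lit 9340724291) (nat_lit 456) (nat_lit 2808454358) (nat_lit 79) (nat_lit 5) (nat_lit 84) (nat_lit 5) (nat_lit 85) (nat_lit 5) (nat_lit 323) (nat_lit 276) (nat_lit 181)) (XT.lf (nat_lit 0) (nat_lit 10296737922)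 (nat_lit 380) (nat_lit 4755545553) (nat_lit 456) (nat_lit 435944055) (nat_lit 79) (nat_lit 5) (nat_lit 84) (nat_lit 5) (nat_lit 85) (nat_lit 5) (nat_lit 324) (nat_lit 276) (nat_lit 180)))) (XT.nd (nat_lit 78) (nat_lit 304) (nat_lit 0) (XT.lf (nat_lit 0) (nat_lit 1970812440) (nat_lit 380) (nat_lit 13817327914) (nat_lit 76) (nat_lit 1355219) (nat_lit 74) (nat_lit 5) (nat_lit 79) (nat_lit 5) (nat_lit 75) (nat_lit 5) (nat_lit 325) (nat_lit 276) (nat_lit 179)) (XT.nd (nat_lit 78) (nat_lit 304) (nat_lit 0) (XT.lf (nat_lit 0) (nat_lit 4524542737) (nat_lit 380) (nat_lit 6715177962) (nat_lit 76) (nat_lit 4857468607) (nat_lit 74) (nat_lit 5) (nat_lit 79) (nat_lit 5) (nat_lit 75) (nat_lit 5) (nat_lit 326) (nat_lit 276) (nat_lit 178)) (XT.lf (nat_lit 0) (nat_lit 590011704) (nat_lit 304) (nat_lit 6554530836) (nat_lit 380) (nat_lit 9269904037) (nat_lit 70) (nat_lit 5) (nat_lit 74) (nat_lit 5) (nat_lit 75) (nat_lit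 5) (nat_lit 327) (nat_lit 276) (nat_lit 177)))))) (XT.nd (nat_lit 468) (nat_lit 760) (nat_lit 0) (XT.nd (nat_lit 234) (nat_lit 380) (nat_lit 0) (XT.nd (nat_lit 78) (nat_lit 304) (nat_lit 0) (XT.lf (nat_lit 0) (nat_lit 8230684744) (nat_lit 304) (nat_lit 1664515188) (nat_lit 380) (nat_lit 6844481711) (nat_lit 70) (nat_lit 5) (nat_lit 74) (nat_lit 5) (nat_lit 75) (nat_lit 5) (nat_lit 328) (nat_lit 276) (nat_lit 176)) (XT.nd (nat_lit 78) (nat_lit 304) (nat_lit 0) (XT.lf (nat_lit 0) (nat_lit 12745446955) (nat_lit 380) (nat_lit 1027645108) (nat_lit 76) (nat_lit 3301090765) (nat_lit 70) (nat_lit 5) (nat_lit 75) (nat_lit 5) (nat_lit 71) (nat_lit 5) (nat_lit 329) (nat_lit 276) (nat_lit 175)) (XT.lf (nat_lit 0) (nat_lit 6773320648) (nat_lit 304) (nat_lit 8974571606) (nat_lit 380) (nat_lit 1668846621) (nat_lit 66) (nat_lit 5) (nat_lit 70) (nat_lit 5) (nat_lit 71) (nat_lit 5) (nat_lit 330) (nat_lit 276) (nat_lit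 174)))) (XT.nd (nat_lit 78) (nat_lit 304) (nat_lit 0) (XT.lf (nat_lit 0) (nat_lit 1045598470) (nat_lit 380) (nat_lit 2970906879) (nat_lit 76) (nat_lit 13752907167) (nat_lit 65) (nat_lit 5) (nat_lit 70) (nat_lit 5) (nat_lit 66) (nat_lit 5) (nat_lit 331) (nat_lit 276) (nat_lit 173)) (XT.nd (nat_lit 78) (nat_lit 0) (nat_lit 0) (XT.lf (nat_lit 0) (nat_lit 3852599340) (nat_lit 380) (nat_lit 13149596021) (nat_lit 76) (nat_lit 1128654175) (nat_lit 61) (nat_lit 5) (nat_lit 66) (nat_lit 5) (nat_lit 62) (nat_lit 5) (nat_lit 332) (nat_lit 276) (nat_lit 172)) (XT.lf (nat_lit 0) (nat_lit 6799655983) (nat_lit 380) (nat_lit 5329637451) (nat_lit 76) (nat_lit 6372179121) (nat_lit 61) (nat_lit 5) (nat_lit 66) (nat_lit 5) (nat_lit 62) (nat_lit 5) (nat_lit 333) (nat_lit 276) (nat_lit 171))))) (XT.nd (nat_lit 234) (nat_lit 304) (nat_lit 0) (XT.nd (nat_lit 78) (nat_lit 228) (nat_lit 0) (XT.lf (nat_lit 0) (nat_lit 2759126604)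 (nat_lit 228) (nat_lit 7088715277) (nat_lit 304) (nat_lit 9035008582) (nat_lit 58) (nat_lit 5) (nat_lit 61) (nat_lit 5) (nat_lit 62) (nat_lit 5) (nat_lit 334) (nat_lit 276) (nat_lit 170)) (XT.nd (nat_lit 78) (nat_lit 228) (nat_lit 0) (XT.lf (nat_lit 0) (nat_lit 11180364644) (nat_lit 228) (nat_lit 1847337948) (nat_lit 304) (nat_lit 6246777452) (nat_lit 58) (nat_lit 5) (nat_lit 61) (nat_lit 5) (nat_lit 62) (nat_lit 5) (nat_lit 335) (nat_lit 276) (nat_lit 169)) (XT.lf (nat_lit 0) (nat_lit 125459451) (nat_lit 228) (nat_lit 16199594298) (nat_lit 304) (nat_lit 3352158633) (nat_lit 55) (nat_lit 5) (nat_lit 58) (nat_lit 5) (nat_lit 59) (nat_lit 5) (nat_lit 336) (nat_lit 276) (nat_lit 168)))) (XT.nd (nat_lit 78) (nat_lit 304) (nat_lit 0) (XT.lf (nat_lit 0) (nat_lit 8719844104) (nat_lit 228) (nat_lit 11088281551) (nat_lit 304) (nat_lit 281313254) (nat_lit 55) (nat_lit 5) (nat_lit 58) (nat_lit 5) (nat_lit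 59) (nat_lit 5) (nat_lit 337) (nat_lit 276) (nat_lit 167)) (XT.nd (nat_lit 78) (nat_lit 228) (nat_lit 0) (XT.lf (nat_lit 0) (nat_lit 2812619455) (nat_lit 304) (nat_lit 2988432050) (nat_lit 76) (nat_lit 14712549204) (nat_lit 54) (nat_lit 5) (nat_lit 58) (nat_lit 5) (nat_lit 55) (nat_lit 5) (nat_lit 338) (nat_lit 276) (nat_lit 166)) (XT.lf (nat_lit 0) (nat_lit 5735078896) (nat_lit 228) (nat_lit 301332708) (nat_lit 304) (nat_lit 14912726179) (nat_lit 51) (nat_lit 5) (nat_lit 54) (nat_lit 5) (nat_lit 55) (nat_lit 5) (nat_lit 339) (nat_lit 276) (nat_lit 165))))))))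
noncomputable def xc154 : XT := (XT.nd (nat_lit 1794) (nat_lit 1140) (nat_lit 0) (XT.nd (nat_lit 858) (nat_lit 836) (nat_lit 0) (XT.nd (nat_lit 390) (nat_lit 380) (nat_lit 0) (XT.nd (nat_lit 156) (nat_lit 304) (nat_lit 0) (XT.nd (nat_lit 78) (nat_lit 228) (nat_lit 0) (XT.lf (nat_lit 0) (nat_lit 9426649287) (nat_lit 304) (nat_lit 6685496397) (nat_lit 76) (nat_lit 5283517748) (nat_lit 51) (nat_lit 5) (nat_lit 55) (nat_lit 5) (nat_lit 52) (nat_lit 5) (nat_lit 340) (nat_lit 276) (nat_lit 164)) (XT.lf (nat_lit 0) (nat_lit 2119471800) (nat_lit 228) (nat_lit 10810537326) (nat_lit 304) (nat_lit 8925247267) (nat_lit 48) (nat_lit 5) (nat_lit 51) (nat_lit 5) (nat_lit 52) (nat_lit 5) (nat_lit 341) (nat_lit 276) (nat_lit 163))) (XT.nd (nat_lit 78) (nat_lit 304) (nat_lit 0) (XT.lf (nat_lit 0) (nat_lit 11307983727) (nat_lit 228) (nat_lit 5286232465) (nat_lit 304) (nat_lit 5732762144) (nat_lit 48) (nat_lit 5)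 (nat_lit 51) (nat_lit 5) (nat_lit 52) (nat_lit 5) (nat_lit 342) (nat_lit 276) (nat_lit 162)) (XT.nd (nat_lit 78) (nat_lit 304) (nat_lit 0) (XT.lf (nat_lit 0) (nat_lit 20360754780) (nat_lit 304) (nat_lit 2062020717) (nat_lit 76) (nat_lit 390317472) (nat_lit 48) (nat_lit 5) (nat_lit 52) (nat_lit 5) (nat_lit 49) (nat_lit 5) (nat_lit 343) (nat_lit 276) (nat_lit 161)) (XT.lf (nat_lit 0) (nat_lit 1020252927) (nat_lit 304) (nat_lit 16084898339) (nat_lit 76) (nat_lit 6205030014) (nat_lit 44) (nat_lit 5) (nat_lit 48) (nat_lit 5) (nat_lit 45) (nat_lit 5) (nat_lit 344) (nat_lit 276) (nat_lit 160))))) (XT.nd (nat_lit 234) (nat_lit 152) (nat_lit 0) (XT.nd (nat_lit 78) (nat_lit 228) (nat_lit 0) (XT.lf (nat_lit 0) (nat_lit 4557661204) (nat_lit 304) (nat_lit 7029566480) (nat_lit 76) (nat_lit 12233940340) (nat_lit 44) (nat_lit 5) (nat_lit 48) (nat_lit 5) (nat_lit 45) (nat_lit 5) (nat_lit 345) (nat_lit 276) (nat_lit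 159)) (XT.nd (nat_lit 78) (nat_lit 0) (nat_lit 0) (XT.lf (nat_lit 0) (nat_lit 2326317958) (nat_lit 228) (nat_lit 5886459518) (nat_lit 304) (nat_lit 16134371041) (nat_lit 41) (nat_lit 5) (nat_lit 44) (nat_lit 5) (nat_lit 45) (nat_lit 5) (nat_lit 346) (nat_lit 276) (nat_lit 158)) (XT.lf (nat_lit 0) (nat_lit 12038419453) (nat_lit 304) (nat_lit 12796977950) (nat_lit 76) (nat_lit 51696235) (nat_lit 41) (nat_lit 5) (nat_lit 45) (nat_lit 5) (nat_lit 42) (nat_lit 5) (nat_lit 347) (nat_lit 276) (nat_lit 157)))) (XT.nd (nat_lit 78) (nat_lit 152) (nat_lit 0) (XT.lf (nat_lit 0) (nat_lit 16026748931) (nat_lit 304) (nat_lit 3370822996) (nat_lit 76) (nat_lit 6044238685) (nat_lit 41) (nat_lit 5) (nat_lit 45) (nat_lit 5) (nat_lit 42) (nat_lit 5) (nat_lit 348) (nat_lit 276) (nat_lit 156)) (XT.nd (nat_lit 78) (nat_lit 0) (nat_lit 0) (XT.lf (nat_lit 0) (nat_lit 6448284248) (nat_lit 152) (nat_lit 13738367212) (nat_lit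 228) (nat_lit 5824970665) (nat_lit 39) (nat_lit 5) (nat_lit 41) (nat_lit 5) (nat_lit 42) (nat_lit 5) (nat_lit 349) (nat_lit 276) (nat_lit 155)) (XT.lf (nat_lit 0) (nat_lit 16615555214) (nat_lit 152) (nat_lit 7879916856) (nat_lit 228) (nat_lit 2102342697) (nat_lit 39) (nat_lit 5) (nat_lit 41) (nat_lit 5) (nat_lit 42) (nat_lit 5) (nat_lit 350) (nat_lit 276) (nat_lit 154)))))) (XT.nd (nat_lit 468) (nat_lit 380) (nat_lit 0) (XT.nd (nat_lit 234) (nat_lit 152) (nat_lit 0) (XT.nd (nat_lit 78) (nat_lit 228) (nat_lit 0) (XT.lf (nat_lit 0) (nat_lit 1688433170) (nat_lit 228) (nat_lit 145657493) (nat_lit 76) (nat_lit 25367304901) (nat_lit 38) (nat_lit 5) (nat_lit 41) (nat_lit 5) (nat_lit 39) (nat_lit 5) (nat_lit 351) (nat_lit 276) (nat_lit 153)) (XT.nd (nat_lit 78) (nat_lit 0) (nat_lit 0) (XT.lf (nat_lit 0) (nat_lit 5682129457) (nat_lit 304) (nat_lit 17714730828) (nat_lit 76) (nat_lit 4421665006) (nat_lit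 35) (nat_lit 5) (nat_lit 39) (nat_lit 5) (nat_lit 36) (nat_lit 5) (nat_lit 352) (nat_lit 276) (nat_lit 152)) (XT.lf (nat_lit 0) (nat_lit 9805913576) (nat_lit 304) (nat_lit 7823490324) (nat_lit 76) (nat_lit 10824465954) (nat_lit 35) (nat_lit 5) (nat_lit 39) (nat_lit 5) (nat_lit 36) (nat_lit 5) (nat_lit 353) (nat_lit 276) (nat_lit 151)))) (XT.nd (nat_lit 78) (nat_lit 0) (nat_lit 0) (XT.lf (nat_lit 0) (nat_lit 2396784002) (nat_lit 152) (nat_lit 11670571629) (nat_lit 228) (nat_lit 15040509773) (nat_lit 33) (nat_lit 5) (nat_lit 35) (nat_lit 5) (nat_lit 36) (nat_lit 5) (nat_lit 354) (nat_lit 276) (nat_lit 150)) (XT.nd (nat_lit 78) (nat_lit 0) (nat_lit 0) (XT.lf (nat_lit 0) (nat_lit 13069709055) (nat_lit 152) (nat_lit 5456966003) (nat_lit 228) (nat_lit 11252713459) (nat_lit 33) (nat_lit 5) (nat_lit 35) (nat_lit 5) (nat_lit 36) (nat_lit 5) (nat_lit 355) (nat_lit 276) (nat_lit 149)) (XT.lf (nat_lit 0) (nat_lit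 23120082561) (nat_lit 228) (nat_lit 6431434192) (nat_lit 76) (nat_lit 919539783) (nat_lit 33) (nat_lit 5) (nat_lit 36) (nat_lit 5) (nat_lit 34) (nat_lit 5) (nat_lit 356) (nat_lit 276) (nat_lit 148))))) (XT.nd (nat_lit 234) (nat_lit 152) (nat_lit 0) (XT.nd (nat_lit 78) (nat_lit 76) (nat_lit 0) (XT.lf (nat_lit 0) (nat_lit 4168754570) (nat_lit 152) (nat_lit 23768138092) (nat_lit 228) (nat_lit 3244022142) (nat_lit 31) (nat_lit 5) (nat_lit 33) (nat_lit 5) (nat_lit 34) (nat_lit 5) (nat_lit 357) (nat_lit 276) (nat_lit 147)) (XT.nd (nat_lit 78) (nat_lit 0) (nat_lit 0) (XT.lf (nat_lit 0) (nat_lit 1024007587) (nat_lit 228) (nat_lit 16715219580) (nat_lit 76) (nat_lit 14170851647) (nat_lit 30) (nat_lit 5) (nat_lit 33) (nat_lit 5) (nat_lit 31) (nat_lit 5) (nat_lit 358) (nat_lit 276) (nat_lit 146)) (XT.lf (nat_lit 0) (nat_lit 5346647991) (nat_lit 228) (nat_lit 6154852664) (nat_lit 76) (nat_lit 21158907898) (nat_lit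 30) (nat_lit 5) (nat_lit 33) (nat_lit 5) (nat_lit 31) (nat_lit 5) (nat_lit 359) (nat_lit 276) (nat_lit 145)))) (XT.nd (nat_lit 78) (nat_lit 0) (nat_lit 0) (XT.lf (nat_lit 0) (nat_lit 4803076873) (nat_lit 152) (nat_lit 5034071928) (nat_lit 228) (nat_lit 23594961251) (nat_lit 28) (nat_lit 5) (nat_lit 30) (nat_lit 5) (nat_lit 31) (nat_lit 5) (nat_lit 360) (nat_lit 276) (nat_lit 144)) (XT.nd (nat_lit 78) (nat_lit 0) (nat_lit 0) (XT.lf (nat_lit 0) (nat_lit 14532847852) (nat_lit 228) (nat_lit 18038486291) (nat_lit 76) (nat_lit 1653521048) (nat_lit 28) (nat_lit 5) (nat_lit 31) (nat_lit 5) (nat_lit 29) (nat_lit 5) (nat_lit 361) (nat_lit 276) (nat_lit 143)) (XT.lf (nat_lit 0) (nat_lit 19411563603) (nat_lit 228) (nat_lit 7192727680) (nat_lit 76) (nat_lit 8435833912) (nat_lit 28) (nat_lit 5) (nat_lit 31) (nat_lit 5) (nat_lit 29) (nat_lit 5) (nat_lit 362) (nat_lit 276) (nat_lit 142))))))) (XT.nd (nat_lit 936)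 (nat_lit 532) (nat_lit 0) (XT.nd (nat_lit 468) (nat_lit 228) (nat_lit 0) (XT.nd (nat_lit 234) (nat_lit 228) (nat_lit 0) (XT.nd (nat_lit 78) (nat_lit 0) (nat_lit 0) (XT.lf (nat_lit 0) (nat_lit 4045043475) (nat_lit 152) (nat_lit 20423008390) (nat_lit 228) (nat_lit 11410865788) (nat_lit 26) (nat_lit 5) (nat_lit 28) (nat_lit 5) (nat_lit 29) (nat_lit 5) (nat_lit 363) (nat_lit 276) (nat_lit 141)) (XT.nd (nat_lit 78) (nat_lit 0) (nat_lit 0) (XT.lf (nat_lit 0) (nat_lit 15755218575) (nat_lit 152) (nat_lit 13986276879) (nat_lit 228) (nat_lit 6999427098) (nat_lit 26) (nat_lit 5) (nat_lit 28) (nat_lit 5) (nat_lit 29) (nat_lit 5) (nat_lit 364) (nat_lit 276) (nat_lit 140)) (XT.lf (nat_lit 0) (nat_lit 27804880427) (nat_lit 152) (nat_lit 7361104868) (nat_lit 228) (nat_lit 2463023314) (nat_lit 26) (nat_lit 5) (nat_lit 28) (nat_lit 5) (nat_lit 29) (nat_lit 5) (nat_lit 365) (nat_lit 276) (nat_lit 139)))) (XT.nd (nat_lit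 78) (nat_lit 0) (nat_lit 0) (XT.lf (nat_lit 0) (nat_lit 1672064085) (nat_lit 152) (nat_lit 503343239) (nat_lit 228) (nat_lit 36367427215) (nat_lit 23) (nat_lit 5) (nat_lit 25) (nat_lit 5) (nat_lit 26) (nat_lit 5) (nat_lit 366) (nat_lit 276) (nat_lit 138)) (XT.nd (nat_lit 78) (nat_lit 0) (nat_lit 0) (XT.lf (nat_lit 0) (nat_lit 7059759968) (nat_lit 228) (nat_lit 25866676497) (nat_lit 76) (nat_lit 6552224751) (nat_lit 23) (nat_lit 5) (nat_lit 26) (nat_lit 5) (nat_lit 24) (nat_lit 5) (nat_lit 367) (nat_lit 276) (nat_lit 137)) (XT.lf (nat_lit 0) (nat_lit 12088856474) (nat_lit 228) (nat_lit 14548778972) (nat_lit 76) (nat_lit 13804986449) (nat_lit 23) (nat_lit 5) (nat_lit 26) (nat_lit 5) (nat_lit 24) (nat_lit 5) (nat_lit 368) (nat_lit 276) (nat_lit 136))))) (XT.nd (nat_lit 234) (nat_lit 76) (nat_lit 0) (XT.nd (nat_lit 78) (nat_lit 152) (nat_lit 0) (XT.lf (nat_lit 0) (nat_lit 17262252753) (nat_lit 228)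 (nat_lit 2902350010) (nat_lit 76) (nat_lit 21271101258) (nat_lit 23) (nat_lit 5) (nat_lit 26) (nat_lit 5) (nat_lit 24) (nat_lit 5) (nat_lit 369) (nat_lit 276) (nat_lit 135)) (XT.nd (nat_lit 78) (nat_lit 0) (nat_lit 0) (XT.lf (nat_lit 0) (nat_lit 9263552147) (nat_lit 152) (nat_lit 13409964033) (nat_lit 228) (nat_lit 19782587750) (nat_lit 21) (nat_lit 5) (nat_lit 23) (nat_lit 5) (nat_lit 24) (nat_lit 5) (nat_lit 370) (nat_lit 276) (nat_lit 134)) (XT.lf (nat_lit 0) (nat_lit 21843346512) (nat_lit 152) (nat_lit 6426781541) (nat_lit 228) (nat_lit 15236302588) (nat_lit 21) (nat_lit 5) (nat_lit 23) (nat_lit 5) (nat_lit 24) (nat_lit 5) (nat_lit 371) (nat_lit 276) (nat_lit 133)))) (XT.nd (nat_lit 78) (nat_lit 76) (nat_lit 0) (XT.lf (nat_lit 0) (nat_lit 34035846501) (nat_lit 228) (nat_lit 9805515163) (nat_lit 76) (nat_lit 746874216) (nat_lit 21) (nat_lit 5) (nat_lit 24) (nat_lit 5) (nat_lit 22) (nat_lit 4)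 (nat_lit 372) (nat_lit 276) (nat_lit 132)) (XT.nd (nat_lit 78) (nat_lit 0) (nat_lit 0) (XT.lf (nat_lit 0) (nat_lit 2380484247) (nat_lit 76) (nat_lit 37674591623) (nat_lit 152) (nat_lit 5645008055) (nat_lit 20) (nat_lit 5) (nat_lit 21) (nat_lit 5) (nat_lit 22) (nat_lit 4) (nat_lit 373) (nat_lit 276) (nat_lit 131)) (XT.lf (nat_lit 0) (nat_lit 15123049330) (nat_lit 76) (nat_lit 31224952191) (nat_lit 152) (nat_lit 494496995) (nat_lit 20) (nat_lit 5) (nat_lit 21) (nat_lit 5) (nat_lit 22) (nat_lit 4) (nat_lit 374) (nat_lit 276) (nat_lit 130)))))) (XT.nd (nat_lit 468) (nat_lit 304) (nat_lit 0) (XT.nd (nat_lit 234) (nat_lit 0) (nat_lit 0) (XT.nd (nat_lit 78) (nat_lit 152) (nat_lit 0) (XT.lf (nat_lit 0) (nat_lit 4710872175) (nat_lit 152) (nat_lit 19827381492) (nat_lit 76) (nat_lit 23479722638) (nat_lit 19) (nat_lit 5) (nat_lit 21) (nat_lit 5) (nat_lit 20) (nat_lit 5) (nat_lit 375) (nat_lit 276) (nat_lit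 129)) (XT.nd (nat_lit 78) (nat_lit 152) (nat_lit 0) (XT.lf (nat_lit 0) (nat_lit 10056845593) (nat_lit 152) (nat_lit 7593006572) (nat_lit 76) (nat_lit 31578892210) (nat_lit 19) (nat_lit 5) (nat_lit 21) (nat_lit 5) (nat_lit 20) (nat_lit 5) (nat_lit 376) (nat_lit 276) (nat_lit 128)) (XT.lf (nat_lit 0) (nat_lit 5098611484) (nat_lit 152) (nat_lit 10508143404) (nat_lit 228) (nat_lit 34867778065) (nat_lit 17) (nat_lit 5) (nat_lit 19) (nat_lit 5) (nat_lit 20) (nat_lit 5) (nat_lit 377) (nat_lit 276) (nat_lit 127)))) (XT.nd (nat_lit 78) (nat_lit 0) (nat_lit 0) (XT.lf (nat_lit 0) (nat_lit 18317437872) (nat_lit 152) (nat_lit 3077014298) (nat_lit 228) (nat_lit 30361108340) (nat_lit 17) (nat_lit 5) (nat_lit 19) (nat_lit 5) (nat_lit 20) (nat_lit 5) (nat_lit 378) (nat_lit 276) (nat_lit 126)) (XT.nd (nat_lit 78) (nat_lit 0) (nat_lit 0) (XT.lf (nat_lit 0) (nat_lit 27394515286) (nat_lit 228) (nat_lit 21195234199)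 (nat_lit 76) (nat_lit 4484111287) (nat_lit 17) (nat_lit 5) (nat_lit 20) (nat_lit 5) (nat_lit 18) (nat_lit 4) (nat_lit 379) (nat_lit 276) (nat_lit 125)) (XT.lf (nat_lit 0) (nat_lit 33599936581) (nat_lit 228) (nat_lit 8624308058) (nat_lit 76) (nat_lit 12206708526) (nat_lit 17) (nat_lit 5) (nat_lit 20) (nat_lit 5) (nat_lit 18) (nat_lit 4) (nat_lit 380) (nat_lit 276) (nat_lit 124))))) (XT.nd (nat_lit 234) (nat_lit 228) (nat_lit 0) (XT.nd (nat_lit 78) (nat_lit 0) (nat_lit 0) (XT.lf (nat_lit 0) (nat_lit 4401099537) (nat_lit 76) (nat_lit 35627766649) (nat_lit 152) (nat_lit 15798775474) (nat_lit 16) (nat_lit 5) (nat_lit 17) (nat_lit 5) (nat_lit 18) (nat_lit 4) (nat_lit 381) (nat_lit 276) (nat_lit 123)) (XT.nd (nat_lit 78) (nat_lit 0) (nat_lit 0) (XT.lf (nat_lit 0) (nat_lit 17985615192) (nat_lit 76) (nat_lit 28747240007) (nat_lit 152) (nat_lit 10530913459) (nat_lit 16) (nat_lit 5) (nat_lit 17) (nat_lit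 5) (nat_lit 18) (nat_lit 4) (nat_lit 382) (nat_lit 276) (nat_lit 122)) (XT.lf (nat_lit 0) (nat_lit 31969468230) (nat_lit 76) (nat_lit 21663741205) (nat_lit 152) (nat_lit 5109916152) (nat_lit 16) (nat_lit 5) (nat_lit 17) (nat_lit 5) (nat_lit 18) (nat_lit 4) (nat_lit 383) (nat_lit 276) (nat_lit 121)))) (XT.nd (nat_lit 78) (nat_lit 152) (nat_lit 0) (XT.lf (nat_lit 0) (nat_lit 459802271) (nat_lit 152) (nat_lit 13906635403) (nat_lit 76) (nat_lit 45900432178) (nat_lit 15) (nat_lit 5) (nat_lit 17) (nat_lit 5) (nat_lit 16) (nat_lit 5) (nat_lit 384) (nat_lit 276) (nat_lit 120)) (XT.nd (nat_lit 78) (nat_lit 152) (nat_lit 0) (XT.lf (nat_lit 0) (nat_lit 6089378875) (nat_lit 152) (nat_lit 712016833) (nat_lit 76) (nat_lit 55033552008) (nat_lit 15) (nat_lit 5) (nat_lit 17) (nat_lit 5) (nat_lit 16) (nat_lit 5) (nat_lit 385) (nat_lit 276) (nat_lit 119)) (XT.lf (nat_lit 0) (nat_lit 12020371214) (nat_lit 228) (nat_lit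 50330155883) (nat_lit 76) (nat_lit 1095568064) (nat_lit 13) (nat_lit 5) (nat_lit 16) (nat_lit 5) (nat_lit 14) (nat_lit 4) (nat_lit 386) (nat_lit 276) (nat_lit 118))))))))
noncomputable def xc155 : XT := (XT.nd (nat_lit 33228) (nat_lit 0) (nat_lit 6612) (XT.nd (nat_lit 32292) (nat_lit 0) (nat_lit 13756) (XT.nd (nat_lit 390) (nat_lit 0) (nat_lit 0) (XT.nd (nat_lit 156) (nat_lit 76) (nat_lit 0) (XT.nd (nat_lit 78) (nat_lit 0) (nat_lit 0) (XT.lf (nat_lit 0) (nat_lit 18199523094) (nat_lit 228) (nat_lit 37807064639) (nat_lit 76) (nat_lit 9096885412) (nat_lit 13) (nat_lit 5) (nat_lit 16) (nat_lit 5) (nat_lit 14) (nat_lit 4) (nat_lit 387) (nat_lit 276) (nat_lit 117)) (XT.lf (nat_lit 0) (nat_lit 24559804926) (nat_lit 228) (nat_lit 24915679970) (nat_lit 76) (nat_lit 17335217832) (nat_lit 13) (nat_lit 5) (nat_lit 16) (nat_lit 5) (nat_lit 14) (nat_lit 4) (nat_lit 388) (nat_lit 276) (nat_lit 116))) (XT.nd (nat_lit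 78) (nat_lit 76) (nat_lit 0) (XT.lf (nat_lit 0) (nat_lit 31106774237) (nat_lit 228) (nat_lit 11644737559) (nat_lit 76) (nat_lit 25817763868) (nat_lit 13) (nat_lit 5) (nat_lit 16) (nat_lit 5) (nat_lit 14) (nat_lit 4) (nat_lit 389) (nat_lit 276) (nat_lit 115)) (XT.nd (nat_lit 78) (nat_lit 0) (nat_lit 0) (XT.lf (nat_lit 0) (nat_lit 2057507953) (nat_lit 76) (nat_lit 35808421752) (nat_lit 152) (nat_lit 32514205524) (nat_lit 12) (nat_lit 5) (nat_lit 13) (nat_lit 5) (nat_lit 14) (nat_lit 4) (nat_lit 390) (nat_lit 276) (nat_lit 114)) (XT.lf (nat_lit 0) (nat_lit 16402620353) (nat_lit 76) (nat_lit 28538877701) (nat_lit 152) (nat_lit 27300416055) (nat_lit 12) (nat_lit 5) (nat_lit 13) (nat_lit 5) (nat_lit 14) (nat_lit 4) (nat_lit 391) (nat_lit 276) (nat_lit 113))))) (XT.nd (nat_lit 31668) (nat_lit 0) (nat_lit 15352) (XT.nd (nat_lit 78) (nat_lit 0) (nat_lit 0) (XT.lf (nat_lit 0) (nat_lit 31171381092) (nat_lit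 76) (nat_lit 21054116632) (nat_lit 152) (nat_lit 21934166298) (nat_lit 12) (nat_lit 5) (nat_lit 13) (nat_lit 5) (nat_lit 14) (nat_lit 4) (nat_lit 392) (nat_lit 276) (nat_lit 112)) (XT.nd (nat_lit 78) (nat_lit 0) (nat_lit 0) (XT.lf (nat_lit 0) (nat_lit 46376694914) (nat_lit 76) (nat_lit 13347598461) (nat_lit 152) (nat_lit 16410767298) (nat_lit 12) (nat_lit 5) (nat_lit 13) (nat_lit 5) (nat_lit 14) (nat_lit 4) (nat_lit 393) (nat_lit 276) (nat_lit 111)) (XT.lf (nat_lit 0) (nat_lit 62031848014) (nat_lit 76) (nat_lit 5412589338) (nat_lit 152) (nat_lit 10725392783) (nat_lit 12) (nat_lit 5) (nat_lit 13) (nat_lit 5) (nat_lit 14) (nat_lit 4) (nat_lit 394) (nat_lit 276) (nat_lit 110)))) (XT.nd (nat_lit 78) (nat_lit 836) (nat_lit 0) (XT.lf (nat_lit 0) (nat_lit 3649572689) (nat_lit 836) (nat_lit 102503658) (nat_lit 836) (nat_lit 102503658) (nat_lit 225) (nat_lit 3) (nat_lit 236) (nat_lit 3) (nat_lit 236) (nat_lit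 5) (nat_lit 277) (nat_lit 277) (nat_lit 226)) (XT.nd (nat_lit 78) (nat_lit 0) (nat_lit 0) (XT.lf (nat_lit 0) (nat_lit 851305070) (nat_lit 836) (nat_lit 4565134805) (nat_lit 912) (nat_lit 2367857972) (nat_lit 214) (nat_lit 5) (nat_lit 225) (nat_lit 3) (nat_lit 226) (nat_lit 5) (nat_lit 278) (nat_lit 277) (nat_lit 225)) (XT.lf (nat_lit 0) (nat_lit 2096146189) (nat_lit 836) (nat_lit 1141442541) (nat_lit 912) (nat_lit 4625472425) (nat_lit 214) (nat_lit 5) (nat_lit 225) (nat_lit 3) (nat_lit 226) (nat_lit 5) (nat_lit 279) (nat_lit 277) (nat_lit 224)))))) (XT.nd (nat_lit 468) (nat_lit 836) (nat_lit 0) (XT.nd (nat_lit 234) (nat_lit 760) (nat_lit 0) (XT.nd (nat_lit 78) (nat_lit 0) (nat_lit 76) (XT.lf (nat_lit 76) (nat_lit 2406685001) (nat_lit 0) (nat_lit 948017062) (nat_lit 912) (nat_lit 4590301787) (nat_lit 215) (nat_lit 5) (nat_lit 214) (nat_lit 5) (nat_lit 226) (nat_lit 5) (nat_lit 280) (nat_lit 277)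 (nat_lit 223)) (XT.nd (nat_lit 78) (nat_lit 0) (nat_lit 0) (XT.lf (nat_lit 0) (nat_lit 4630766545) (nat_lit 836) (nat_lit 1984737845) (nat_lit 912) (nat_lit 1414612321) (nat_lit 215) (nat_lit 5) (nat_lit 226) (nat_lit 5) (nat_lit 227) (nat_lit 5) (nat_lit 281) (nat_lit 277) (nat_lit 222)) (XT.lf (nat_lit 76) (nat_lit 1672820232) (nat_lit 0) (nat_lit 4253638207) (nat_lit 912) (nat_lit 2191985554) (nat_lit 216) (nat_lit 5) (nat_lit 215) (nat_lit 5) (nat_lit 227) (nat_lit 5) (nat_lit 282) (nat_lit 277) (nat_lit 221)))) (XT.nd (nat_lit 78) (nat_lit 836) (nat_lit 0) (XT.lf (nat_lit 76) (nat_lit 5455157226) (nat_lit 0) (nat_lit 1782823502) (nat_lit 912) (nat_lit 972230022) (nat_lit 216) (nat_lit 5) (nat_lit 215) (nat_lit 5) (nat_lit 227) (nat_lit 5) (nat_lit 283) (nat_lit 277) (nat_lit 220)) (XT.nd (nat_lit 78) (nat_lit 0) (nat_lit 0) (XT.lf (nat_lit 0) (nat_lit 253826412) (nat_lit 912) (nat_lit 7275387818)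 (nat_lit 988) (nat_lit 776269569) (nat_lit 204) (nat_lit 5) (nat_lit 216) (nat_lit 5) (nat_lit 217) (nat_lit 5) (nat_lit 284) (nat_lit 277) (nat_lit 219)) (XT.lf (nat_lit 0) (nat_lit 1501675111) (nat_lit 912) (nat_lit 3472108587) (nat_lit 988) (nat_lit 3429496111) (nat_lit 204) (nat_lit 5) (nat_lit 216) (nat_lit 5) (nat_lit 217) (nat_lit 5) (nat_lit 285) (nat_lit 277) (nat_lit 218))))) (XT.nd (nat_lit 234) (nat_lit 836) (nat_lit 0) (XT.nd (nat_lit 78) (nat_lit 0) (nat_lit 76) (XT.lf (nat_lit 76) (nat_lit 427345124) (nat_lit 0) (nat_lit 2323725567) (nat_lit 988) (nat_lit 5754103132) (nat_lit 205) (nat_lit 5) (nat_lit 204) (nat_lit 5) (nat_lit 217) (nat_lit 5) (nat_lit 286) (nat_lit 277) (nat_lit 217)) (XT.nd (nat_lit 78) (nat_lit 0) (nat_lit 0) (XT.lf (nat_lit 0) (nat_lit 4038302079) (nat_lit 912) (nat_lit 4125752336) (nat_lit 988) (nat_lit 446144547) (nat_lit 205) (nat_lit 5) (nat_lit 217) (nat_lit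 5) (nat_lit 218) (nat_lit 5) (nat_lit 287) (nat_lit 277) (nat_lit 216)) (XT.lf (nat_lit 0) (nat_lit 5349336407) (nat_lit 912) (nat_lit 104711660) (nat_lit 988) (nat_lit 3264853655) (nat_lit 205) (nat_lit 5) (nat_lit 217) (nat_lit 5) (nat_lit 218) (nat_lit 5) (nat_lit 288) (nat_lit 277) (nat_lit 215)))) (XT.nd (nat_lit 78) (nat_lit 912) (nat_lit 0) (XT.lf (nat_lit 76) (nat_lit 4090973557) (nat_lit 0) (nat_lit 2611333550) (nat_lit 988) (nat_lit 2128560343) (nat_lit 206) (nat_lit 5) (nat_lit 205) (nat_lit 5) (nat_lit 218) (nat_lit 5) (nat_lit 289) (nat_lit 277) (nat_lit 214)) (XT.nd (nat_lit 78) (nat_lit 988) (nat_lit 0) (XT.lf (nat_lit 0) (nat_lit 8064182233) (nat_lit 912) (nat_lit 561356150) (nat_lit 988) (nat_lit 321682022) (nat_lit 206) (nat_lit 5) (nat_lit 218) (nat_lit 5) (nat_lit 219) (nat_lit 5) (nat_lit 290) (nat_lit 277) (nat_lit 213)) (XT.lf (nat_lit 0) (nat_lit 419527028) (nat_lit 988)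 (nat_lit 5306335890) (nat_lit 1064) (nat_lit 3340334580) (nat_lit 193) (nat_lit 5) (nat_lit 206) (nat_lit 5) (nat_lit 207) (nat_lit 5) (nat_lit 291) (nat_lit 277) (nat_lit 212))))))) (XT.nd (nat_lit 936) (nat_lit 2964) (nat_lit 0) (XT.nd (nat_lit 468) (nat_lit 2204) (nat_lit 0) (XT.nd (nat_lit 234) (nat_lit 1976) (nat_lit 0) (XT.nd (nat_lit 78) (nat_lit 0) (nat_lit 76) (XT.lf (nat_lit 0) (nat_lit 1714747906) (nat_lit 988) (nat_lit 1001686257) (nat_lit 1064) (nat_lit 6472978765) (nat_lit 193) (nat_lit 5) (nat_lit 206) (nat_lit 5) (nat_lit 207) (nat_lit 5) (nat_lit 292) (nat_lit 277) (nat_lit 211)) (XT.nd (nat_lit 78) (nat_lit 0) (nat_lit 0) (XT.lf (nat_lit 0) (nat_lit 3052913276) (nat_lit 988) (nat_lit 5846350079) (nat_lit 76) (nat_lit 417007879) (nat_lit 194) (nat_lit 5) (nat_lit 207) (nat_lit 5) (nat_lit 195) (nat_lit 5) (nat_lit 293) (nat_lit 277) (nat_lit 210)) (XT.lf (nat_lit 0) (nat_lit 4435734551)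 (nat_lit 988) (nat_lit 1404043884) (nat_lit 76) (nat_lit 3607088563) (nat_lit 194) (nat_lit 5) (nat_lit 207) (nat_lit 5) (nat_lit 195) (nat_lit 5) (nat_lit 294) (nat_lit 277) (nat_lit 209)))) (XT.nd (nat_lit 78) (nat_lit 1064) (nat_lit 0) (XT.lf (nat_lit 0) (nat_lit 3208285354) (nat_lit 988) (nat_lit 2650944958) (nat_lit 1064) (nat_lit 3722239711) (nat_lit 181) (nat_lit 5) (nat_lit 194) (nat_lit 5) (nat_lit 195) (nat_lit 5) (nat_lit 295) (nat_lit 277) (nat_lit 208)) (XT.nd (nat_lit 78) (nat_lit 1064) (nat_lit 0) (XT.lf (nat_lit 0) (nat_lit 7314916831) (nat_lit 1064) (nat_lit 1764792289) (nat_lit 76) (nat_lit 640780630) (nat_lit 181) (nat_lit 5) (nat_lit 195) (nat_lit 5) (nat_lit 182) (nat_lit 5) (nat_lit 296) (nat_lit 277) (nat_lit 207)) (XT.lf (nat_lit 0) (nat_lit 2988046406) (nat_lit 1064) (nat_lit 5851175424) (nat_lit 1140) (nat_lit 1023771153) (nat_lit 167) (nat_lit 5) (nat_lit 181) (nat_lit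 5) (nat_lit 182) (nat_lit 5) (nat_lit 297) (nat_lit 277) (nat_lit 206))))) (XT.nd (nat_lit 234) (nat_lit 1064) (nat_lit 0) (XT.nd (nat_lit 78) (nat_lit 1064) (nat_lit 0) (XT.lf (nat_lit 0) (nat_lit 379943441) (nat_lit 1140) (nat_lit 2119868656) (nat_lit 76) (nat_lit 7510254216) (nat_lit 166) (nat_lit 5) (nat_lit 181) (nat_lit 5) (nat_lit 167) (nat_lit 5) (nat_lit 298) (nat_lit 277) (nat_lit 205)) (XT.nd (nat_lit 78) (nat_lit 0) (nat_lit 0) (XT.lf (nat_lit 0) (nat_lit 1812751479) (nat_lit 1140) (nat_lit 7374111110) (nat_lit 76) (nat_lit 974214541) (nat_lit 152) (nat_lit 5) (nat_lit 167) (nat_lit 5) (nat_lit 153) (nat_lit 5) (nat_lit 299) (nat_lit 277) (nat_lit 204)) (XT.lf (nat_lit 0) (nat_lit 3306663437) (nat_lit 1140) (nat_lit 2482656989) (nat_lit 76) (nat_lit 4526808762) (nat_lit 152) (nat_lit 5) (nat_lit 167) (nat_lit 5) (nat_lit 153) (nat_lit 5) (nat_lit 300) (nat_lit 277) (nat_lit 203))))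 (XT.nd (nat_lit 78) (nat_lit 532) (nat_lit 0) (XT.lf (nat_lit 0) (nat_lit 2580478366) (nat_lit 532) (nat_lit 2262292923) (nat_lit 608) (nat_lit 5633193083) (nat_lit 145) (nat_lit 5) (nat_lit 152) (nat_lit 5) (nat_lit 153) (nat_lit 5) (nat_lit 301) (nat_lit 277) (nat_lit 202)) (XT.nd (nat_lit 78) (nat_lit 532) (nat_lit 0) (XT.lf (nat_lit 0) (nat_lit 6436601751) (nat_lit 608) (nat_lit 2832906894) (nat_lit 76) (nat_lit 1370788164) (nat_lit 145) (nat_lit 5) (nat_lit 153) (nat_lit 5) (nat_lit 146) (nat_lit 5) (nat_lit 302) (nat_lit 277) (nat_lit 201)) (XT.lf (nat_lit 0) (nat_lit 2380316221) (nat_lit 532) (nat_lit 5717139702) (nat_lit 608) (nat_lit 2711576913) (nat_lit 138) (nat_lit 5) (nat_lit 145) (nat_lit 5) (nat_lit 146) (nat_lit 5) (nat_lit 303) (nat_lit 277) (nat_lit 200)))))) (XT.nd (nat_lit 468) (nat_lit 1368) (nat_lit 0) (XT.nd (nat_lit 234) (nat_lit 988) (nat_lit 0) (XT.nd (nat_lit 78) (nat_lit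 608) (nat_lit 0) (XT.lf (nat_lit 0) (nat_lit 7782972746) (nat_lit 532) (nat_lit 2028217287) (nat_lit 608) (nat_lit 1171597712) (nat_lit 138) (nat_lit 5) (nat_lit 145) (nat_lit 5) (nat_lit 146) (nat_lit 5) (nat_lit 304) (nat_lit 277) (nat_lit 199)) (XT.nd (nat_lit 78) (nat_lit 0) (nat_lit 0) (XT.lf (nat_lit 0) (nat_lit 419817889) (nat_lit 608) (nat_lit 8979030490) (nat_lit 76) (nat_lit 1762433205) (nat_lit 130) (nat_lit 5) (nat_lit 138) (nat_lit 5) (nat_lit 131) (nat_lit 5) (nat_lit 305) (nat_lit 277) (nat_lit 198)) (XT.lf (nat_lit 0) (nat_lit 2063535673) (nat_lit 608) (nat_lit 3610179831) (nat_lit 76) (nat_lit 5670267824) (nat_lit 130) (nat_lit 5) (nat_lit 138) (nat_lit 5) (nat_lit 131) (nat_lit 5) (nat_lit 306) (nat_lit 277) (nat_lit 197)))) (XT.nd (nat_lit 78) (nat_lit 456) (nat_lit 0) (XT.lf (nat_lit 0) (nat_lit 1932801850) (nat_lit 532) (nat_lit 1818453609) (nat_lit 608) (nat_lit 7781112981)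 (nat_lit 123) (nat_lit 5) (nat_lit 130) (nat_lit 5) (nat_lit 131) (nat_lit 5) (nat_lit 307) (nat_lit 277) (nat_lit 196)) (XT.nd (nat_lit 78) (nat_lit 456) (nat_lit 0) (XT.lf (nat_lit 0) (nat_lit 5523677270) (nat_lit 608) (nat_lit 4055428997) (nat_lit 76) (nat_lit 2146318500) (nat_lit 123) (nat_lit 5) (nat_lit 131) (nat_lit 5) (nat_lit 124) (nat_lit 5) (nat_lit 308) (nat_lit 277) (nat_lit 195)) (XT.lf (nat_lit 0) (nat_lit 1644710888) (nat_lit 456) (nat_lit 5715620861) (nat_lit 532) (nat_lit 4563649793) (nat_lit 117) (nat_lit 5) (nat_lit 123) (nat_lit 5) (nat_lit 124) (nat_lit 5) (nat_lit 309) (nat_lit 277) (nat_lit 194))))) (XT.nd (nat_lit 234) (nat_lit 836) (nat_lit 0) (XT.nd (nat_lit 78) (nat_lit 532) (nat_lit 0) (XT.lf (nat_lit 0) (nat_lit 7574815040) (nat_lit 456) (nat_lit 1695898652) (nat_lit 532) (nat_lit 2857261870) (nat_lit 117) (nat_lit 5) (nat_lit 123) (nat_lit 5) (nat_lit 124) (nat_lit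 5) (nat_lit 310) (nat_lit 277) (nat_lit 193)) (XT.nd (nat_lit 78) (nat_lit 76) (nat_lit 0) (XT.lf (nat_lit 0) (nat_lit 1322911057) (nat_lit 456) (nat_lit 9930018797) (nat_lit 532) (nat_lit 1084762097) (nat_lit 111) (nat_lit 5) (nat_lit 117) (nat_lit 5) (nat_lit 118) (nat_lit 5) (nat_lit 311) (nat_lit 277) (nat_lit 192)) (XT.lf (nat_lit 0) (nat_lit 768142841) (nat_lit 532) (nat_lit 5132456178) (nat_lit 76) (nat_lit 6651672545) (nat_lit 110) (nat_lit 5) (nat_lit 117) (nat_lit 5) (nat_lit 111) (nat_lit 5) (nat_lit 312) (nat_lit 277) (nat_lit 191)))) (XT.nd (nat_lit 78) (nat_lit 456) (nat_lit 0) (XT.lf (nat_lit 0) (nat_lit 909691766) (nat_lit 380) (nat_lit 1732976052) (nat_lit 456) (nat_lit 10130698459) (nat_lit 105) (nat_lit 5) (nat_lit 110) (nat_lit 5) (nat_lit 111) (nat_lit 5) (nat_lit 313) (nat_lit 277) (nat_lit 190)) (XT.nd (nat_lit 78) (nat_lit 456) (nat_lit 0) (XT.lf (nat_lit 0) (nat_lit 4629821559)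 (nat_lit 456) (nat_lit 5810390406) (nat_lit 76) (nat_lit 2559224044) (nat_lit 105) (nat_lit 5) (nat_lit 111) (nat_lit 5) (nat_lit 106) (nat_lit 5) (nat_lit 314) (nat_lit 277) (nat_lit 189)) (XT.lf (nat_lit 0) (nat_lit 391628989) (nat_lit 456) (nat_lit 6285929266) (nat_lit 532) (nat_lit 6554733505) (nat_lit 99) (nat_lit 5) (nat_lit 105) (nat_lit 5) (nat_lit 106) (nat_lit 5) (nat_lit 315) (nat_lit 277) (nat_lit 188))))))))
noncomputable def xc156 : XT := (XT.nd (nat_lit 1794) (nat_lit 1976) (nat_lit 0) (XT.nd (nat_lit 858) (nat_lit 1520) (nat_lit 0) (XT.nd (nat_lit 390) (nat_lit 1064) (nat_lit 0) (XT.nd (nat_lit 156) (nat_lit 836) (nat_lit 0) (XT.nd (nat_lit 78) (nat_lit 0) (nat_lit 0) (XT.lf (nat_lit 0) (nat_lit 6875698021) (nat_lit 456) (nat_lit 1950107140) (nat_lit 532) (nat_lit 4645187698) (nat_lit 99) (nat_lit 5) (nat_lit 105) (nat_lit 5) (nat_lit 106) (nat_lit 5) (nat_lit 316) (nat_lit 277)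 (nat_lit 187)) (XT.lf (nat_lit 0) (nat_lit 11043625205) (nat_lit 532) (nat_lit 209763029) (nat_lit 76) (nat_lit 2463344068) (nat_lit 99) (nat_lit 5) (nat_lit 106) (nat_lit 5) (nat_lit 100) (nat_lit 5) (nat_lit 317) (nat_lit 277) (nat_lit 186))) (XT.nd (nat_lit 78) (nat_lit 456) (nat_lit 0) (XT.lf (nat_lit 0) (nat_lit 6451576692) (nat_lit 380) (nat_lit 6939225147) (nat_lit 456) (nat_lit 577187610) (nat_lit 94) (nat_lit 5) (nat_lit 99) (nat_lit 5) (nat_lit 100) (nat_lit 5) (nat_lit 318) (nat_lit 277) (nat_lit 185)) (XT.nd (nat_lit 78) (nat_lit 380) (nat_lit 0) (XT.lf (nat_lit 0) (nat_lit 1534500771) (nat_lit 456) (nat_lit 947407430) (nat_lit 76) (nat_lit 11744935829) (nat_lit 93) (nat_lit 5) (nat_lit 99) (nat_lit 5) (nat_lit 94) (nat_lit 5) (nat_lit 319) (nat_lit 277) (nat_lit 184)) (XT.lf (nat_lit 0) (nat_lit 3757719188) (nat_lit 456) (nat_lit 8606662579) (nat_lit 76) (nat_lit 2127145248) (nat_lit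 88) (nat_lit 5) (nat_lit 94) (nat_lit 5) (nat_lit 89) (nat_lit 5) (nat_lit 320) (nat_lit 277) (nat_lit 183))))) (XT.nd (nat_lit 234) (nat_lit 760) (nat_lit 0) (XT.nd (nat_lit 78) (nat_lit 304) (nat_lit 0) (XT.lf (nat_lit 0) (nat_lit 6064291981) (nat_lit 456) (nat_lit 1869168203) (nat_lit 76) (nat_lit 6830217386) (nat_lit 88) (nat_lit 5) (nat_lit 94) (nat_lit 5) (nat_lit 89) (nat_lit 5) (nat_lit 321) (nat_lit 277) (nat_lit 182)) (XT.nd (nat_lit 78) (nat_lit 0) (nat_lit 0) (XT.lf (nat_lit 0) (nat_lit 5149418161) (nat_lit 304) (nat_lit 3323077906) (nat_lit 380) (nat_lit 6570549584) (nat_lit 84) (nat_lit 5) (nat_lit 88) (nat_lit 5) (nat_lit 89) (nat_lit 5) (nat_lit 322) (nat_lit 277) (nat_lit 181)) (XT.lf (nat_lit 0) (nat_lit 10968895407) (nat_lit 380) (nat_lit 2949031553) (nat_lit 76) (nat_lit 1412414615) (nat_lit 84) (nat_lit 5) (nat_lit 89) (nat_lit 5) (nat_lit 85) (nat_lit 5) (nat_lit 323) (nat_lit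 277) (nat_lit 180)))) (XT.nd (nat_lit 78) (nat_lit 380) (nat_lit 0) (XT.lf (nat_lit 0) (nat_lit 4232434734) (nat_lit 380) (nat_lit 9365011734) (nat_lit 456) (nat_lit 2027116655) (nat_lit 79) (nat_lit 5) (nat_lit 84) (nat_lit 5) (nat_lit 85) (nat_lit 5) (nat_lit 324) (nat_lit 277) (nat_lit 179)) (XT.nd (nat_lit 78) (nat_lit 304) (nat_lit 0) (XT.lf (nat_lit 0) (nat_lit 383720762) (nat_lit 456) (nat_lit 4262136441) (nat_lit 76) (nat_lit 11281253275) (nat_lit 78) (nat_lit 5) (nat_lit 84) (nat_lit 5) (nat_lit 79) (nat_lit 5) (nat_lit 325) (nat_lit 277) (nat_lit 178)) (XT.lf (nat_lit 0) (nat_lit 2842704219) (nat_lit 380) (nat_lit 13138712740) (nat_lit 76) (nat_lit 256240718) (nat_lit 74) (nat_lit 5) (nat_lit 79) (nat_lit 5) (nat_lit 75) (nat_lit 5) (nat_lit 326) (nat_lit 277) (nat_lit 177)))))) (XT.nd (nat_lit 468) (nat_lit 836) (nat_lit 0) (XT.nd (nat_lit 234) (nat_lit 380) (nat_lit 0) (XT.nd (nat_lit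 78) (nat_lit 304) (nat_lit 0) (XT.lf (nat_lit 0) (nat_lit 5449373587) (nat_lit 380) (nat_lit 5855337173) (nat_lit 76) (nat_lit 5250614842) (nat_lit 74) (nat_lit 5) (nat_lit 79) (nat_lit 5) (nat_lit 75) (nat_lit 5) (nat_lit 327) (nat_lit 277) (nat_lit 176)) (XT.nd (nat_lit 78) (nat_lit 0) (nat_lit 0) (XT.lf (nat_lit 0) (nat_lit 1658603318) (nat_lit 304) (nat_lit 6476488539) (nat_lit 380) (nat_lit 8747427411) (nat_lit 70) (nat_lit 5) (nat_lit 74) (nat_lit 5) (nat_lit 75) (nat_lit 5) (nat_lit 328) (nat_lit 277) (nat_lit 175)) (XT.lf (nat_lit 0) (nat_lit 9497888066) (nat_lit 304) (nat_lit 1447772758) (nat_lit 380) (nat_lit 6272560096) (nat_lit 70) (nat_lit 5) (nat_lit 74) (nat_lit 5) (nat_lit 75) (nat_lit 5) (nat_lit 329) (nat_lit 277) (nat_lit 174)))) (XT.nd (nat_lit 78) (nat_lit 380) (nat_lit 0) (XT.lf (nat_lit 0) (nat_lit 13861954408) (nat_lit 380) (nat_lit 47435160) (nat_lit 76) (nat_lit 3653981779)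 (nat_lit 70) (nat_lit 5) (nat_lit 75) (nat_lit 5) (nat_lit 71) (nat_lit 5) (nat_lit 330) (nat_lit 277) (nat_lit 173)) (XT.nd (nat_lit 78) (nat_lit 76) (nat_lit 0) (XT.lf (nat_lit 0) (nat_lit 7977647419) (nat_lit 304) (nat_lit 8965066257) (nat_lit 380) (nat_lit 973872675) (nat_lit 66) (nat_lit 5) (nat_lit 70) (nat_lit 5) (nat_lit 71) (nat_lit 5) (nat_lit 331) (nat_lit 277) (nat_lit 172)) (XT.lf (nat_lit 0) (nat_lit 1786190641) (nat_lit 380) (nat_lit 2073024310) (nat_lit 76) (nat_lit 14421076499) (nat_lit 65) (nat_lit 5) (nat_lit 70) (nat_lit 5) (nat_lit 66) (nat_lit 5) (nat_lit 332) (nat_lit 277) (nat_lit 171))))) (XT.nd (nat_lit 234) (nat_lit 304) (nat_lit 0) (XT.nd (nat_lit 78) (nat_lit 228) (nat_lit 0) (XT.lf (nat_lit 0) (nat_lit 4668824734) (nat_lit 380) (nat_lit 12547597601) (nat_lit 76) (nat_lit 1436433543) (nat_lit 61) (nat_lit 5) (nat_lit 66) (nat_lit 5) (nat_lit 62) (nat_lit 5) (nat_lit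 333) (nat_lit 277) (nat_lit 170)) (XT.nd (nat_lit 78) (nat_lit 228) (nat_lit 0) (XT.lf (nat_lit 0) (nat_lit 7683885869) (nat_lit 380) (nat_lit 4522064147) (nat_lit 76) (nat_lit 6829285992) (nat_lit 61) (nat_lit 5) (nat_lit 66) (nat_lit 5) (nat_lit 62) (nat_lit 5) (nat_lit 334) (nat_lit 277) (nat_lit 169)) (XT.lf (nat_lit 0) (nat_lit 3799877905) (nat_lit 228) (nat_lit 7013035285) (nat_lit 304) (nat_lit 8615485632) (nat_lit 58) (nat_lit 5) (nat_lit 61) (nat_lit 5) (nat_lit 62) (nat_lit 5) (nat_lit 335) (nat_lit 277) (nat_lit 168)))) (XT.nd (nat_lit 78) (nat_lit 304) (nat_lit 0) (XT.lf (nat_lit 0) (nat_lit 12445850828) (nat_lit 228) (nat_lit 1622814930) (nat_lit 304) (nat_lit 5763721351) (nat_lit 58) (nat_lit 5) (nat_lit 61) (nat_lit 5) (nat_lit 62) (nat_lit 5) (nat_lit 336) (nat_lit 277) (nat_lit 167)) (XT.nd (nat_lit 78) (nat_lit 76) (nat_lit 0) (XT.lf (nat_lit 0) (nat_lit 1067643541) (nat_lit 228)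 (nat_lit 16389991301) (nat_lit 304) (nat_lit 2789809637) (nat_lit 55) (nat_lit 5) (nat_lit 58) (nat_lit 5) (nat_lit 59) (nat_lit 5) (nat_lit 337) (nat_lit 277) (nat_lit 166)) (XT.lf (nat_lit 0) (nat_lit 346947990) (nat_lit 304) (nat_lit 10783497127) (nat_lit 76) (nat_lit 9542075617) (nat_lit 54) (nat_lit 5) (nat_lit 58) (nat_lit 5) (nat_lit 55) (nat_lit 5) (nat_lit 338) (nat_lit 277) (nat_lit 165))))))) (XT.nd (nat_lit 936) (nat_lit 836) (nat_lit 0) (XT.nd (nat_lit 468) (nat_lit 684) (nat_lit 0) (XT.nd (nat_lit 234) (nat_lit 228) (nat_lit 0) (XT.nd (nat_lit 78) (nat_lit 228) (nat_lit 0) (XT.lf (nat_lit 0) (nat_lit 3509664567) (nat_lit 304) (nat_lit 2180609048) (nat_lit 76) (nat_lit 15419623562) (nat_lit 54) (nat_lit 5) (nat_lit 58) (nat_lit 5) (nat_lit 55) (nat_lit 5) (nat_lit 339) (nat_lit 277) (nat_lit 164)) (XT.nd (nat_lit 78) (nat_lit 0) (nat_lit 0) (XT.lf (nat_lit 0) (nat_lit 6795808442) (nat_lit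 228) (nat_lit 25059892) (nat_lit 304) (nat_lit 14737932403) (nat_lit 51) (nat_lit 5) (nat_lit 54) (nat_lit 5) (nat_lit 55) (nat_lit 5) (nat_lit 340) (nat_lit 277) (nat_lit 163)) (XT.lf (nat_lit 0) (nat_lit 10297902147) (nat_lit 304) (nat_lit 6007667348) (nat_lit 76) (nat_lit 5713620676) (nat_lit 51) (nat_lit 5) (nat_lit 55) (nat_lit 5) (nat_lit 52) (nat_lit 5) (nat_lit 341) (nat_lit 277) (nat_lit 162)))) (XT.nd (nat_lit 78) (nat_lit 0) (nat_lit 0) (XT.lf (nat_lit 0) (nat_lit 3052838189) (nat_lit 228) (nat_lit 10844746052) (nat_lit 304) (nat_lit 8595270121) (nat_lit 48) (nat_lit 5) (nat_lit 51) (nat_lit 5) (nat_lit 52) (nat_lit 5) (nat_lit 342) (nat_lit 277) (nat_lit 161)) (XT.nd (nat_lit 78) (nat_lit 0) (nat_lit 0) (XT.lf (nat_lit 0) (nat_lit 12491672011) (nat_lit 228) (nat_lit 5163161775) (nat_lit 304) (nat_lit 5324420189) (nat_lit 48) (nat_lit 5) (nat_lit 51) (nat_lit 5) (nat_lit 52) (nat_lit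 5) (nat_lit 343) (nat_lit 277) (nat_lit 160)) (XT.lf (nat_lit 0) (nat_lit 21520605165) (nat_lit 304) (nat_lit 1289633749) (nat_lit 76) (nat_lit 670144966) (nat_lit 48) (nat_lit 5) (nat_lit 52) (nat_lit 5) (nat_lit 49) (nat_lit 5) (nat_lit 344) (nat_lit 277) (nat_lit 159))))) (XT.nd (nat_lit 234) (nat_lit 152) (nat_lit 0) (XT.nd (nat_lit 78) (nat_lit 228) (nat_lit 0) (XT.lf (nat_lit 0) (nat_lit 1597794757) (nat_lit 304) (nat_lit 15729896711) (nat_lit 76) (nat_lit 6664792400) (nat_lit 44) (nat_lit 5) (nat_lit 48) (nat_lit 5) (nat_lit 45) (nat_lit 5) (nat_lit 345) (nat_lit 277) (nat_lit 158)) (XT.nd (nat_lit 78) (nat_lit 228) (nat_lit 0) (XT.lf (nat_lit 0) (nat_lit 5225395159) (nat_lit 304) (nat_lit 6427299514) (nat_lit 76) (nat_lit 12866600770) (nat_lit 44) (nat_lit 5) (nat_lit 48) (nat_lit 5) (nat_lit 45) (nat_lit 5) (nat_lit 346) (nat_lit 277) (nat_lit 157)) (XT.lf (nat_lit 0) (nat_lit 3201289359)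 (nat_lit 228) (nat_lit 5781149321) (nat_lit 304) (nat_lit 16078865279) (nat_lit 41) (nat_lit 5) (nat_lit 44) (nat_lit 5) (nat_lit 45) (nat_lit 5) (nat_lit 347) (nat_lit 277) (nat_lit 156)))) (XT.nd (nat_lit 78) (nat_lit 152) (nat_lit 0) (XT.lf (nat_lit 0) (nat_lit 12910239720) (nat_lit 304) (nat_lit 12386002781) (nat_lit 76) (nat_lit 321599569) (nat_lit 41) (nat_lit 5) (nat_lit 45) (nat_lit 5) (nat_lit 42) (nat_lit 5) (nat_lit 348) (nat_lit 277) (nat_lit 155)) (XT.nd (nat_lit 78) (nat_lit 152) (nat_lit 0) (XT.lf (nat_lit 0) (nat_lit 17003345266) (nat_lit 304) (nat_lit 2700215155) (nat_lit 76) (nat_lit 6486102201) (nat_lit 41) (nat_lit 5) (nat_lit 45) (nat_lit 5) (nat_lit 42) (nat_lit 5) (nat_lit 349) (nat_lit 277) (nat_lit 154)) (XT.lf (nat_lit 0) (nat_lit 7405899301) (nat_lit 152) (nat_lit 13875050608) (nat_lit 228) (nat_lit 5495846813) (nat_lit 39) (nat_lit 5) (nat_lit 41) (nat_lit 5) (nat_lit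 42) (nat_lit 5) (nat_lit 350) (nat_lit 277) (nat_lit 153)))))) (XT.nd (nat_lit 468) (nat_lit 380) (nat_lit 0) (XT.nd (nat_lit 234) (nat_lit 152) (nat_lit 0) (XT.nd (nat_lit 78) (nat_lit 304) (nat_lit 0) (XT.lf (nat_lit 0) (nat_lit 17855931118) (nat_lit 152) (nat_lit 7848870070) (nat_lit 228) (nat_lit 1676215918) (nat_lit 39) (nat_lit 5) (nat_lit 41) (nat_lit 5) (nat_lit 42) (nat_lit 5) (nat_lit 351) (nat_lit 277) (nat_lit 152)) (XT.nd (nat_lit 78) (nat_lit 0) (nat_lit 0) (XT.lf (nat_lit 0) (nat_lit 591553886) (nat_lit 228) (nat_lit 1618899300) (nat_lit 304) (nat_lit 25792373675) (nat_lit 35) (nat_lit 5) (nat_lit 38) (nat_lit 5) (nat_lit 39) (nat_lit 5) (nat_lit 352) (nat_lit 277) (nat_lit 151)) (XT.lf (nat_lit 0) (nat_lit 6314195188) (nat_lit 304) (nat_lit 17511600317) (nat_lit 76) (nat_lit 4812981607) (nat_lit 35) (nat_lit 5) (nat_lit 39) (nat_lit 5) (nat_lit 36) (nat_lit 5) (nat_lit 353) (nat_lit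 277) (nat_lit 150)))) (XT.nd (nat_lit 78) (nat_lit 152) (nat_lit 0) (XT.lf (nat_lit 0) (nat_lit 10548248117) (nat_lit 304) (nat_lit 7345017912) (nat_lit 76) (nat_lit 11400332603) (nat_lit 35) (nat_lit 5) (nat_lit 39) (nat_lit 5) (nat_lit 36) (nat_lit 5) (nat_lit 354) (nat_lit 277) (nat_lit 149)) (XT.nd (nat_lit 78) (nat_lit 0) (nat_lit 0) (XT.lf (nat_lit 0) (nat_lit 3174872711) (nat_lit 152) (nat_lit 11756395885) (nat_lit 228) (nat_lit 15036146288) (nat_lit 33) (nat_lit 5) (nat_lit 35) (nat_lit 5) (nat_lit 36) (nat_lit 5) (nat_lit 355) (nat_lit 277) (nat_lit 148)) (XT.lf (nat_lit 0) (nat_lit 14147417015) (nat_lit 152) (nat_lit 5364079942) (nat_lit 228) (nat_lit 11147985369) (nat_lit 33) (nat_lit 5) (nat_lit 35) (nat_lit 5) (nat_lit 36) (nat_lit 5) (nat_lit 356) (nat_lit 277) (nat_lit 147))))) (XT.nd (nat_lit 234) (nat_lit 152) (nat_lit 0) (XT.nd (nat_lit 78) (nat_lit 228) (nat_lit 0) (XT.lf (nat_lit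 0) (nat_lit 24232605617) (nat_lit 228) (nat_lit 5948223833) (nat_lit 76) (nat_lit 1191386120) (nat_lit 33) (nat_lit 5) (nat_lit 36) (nat_lit 5) (nat_lit 34) (nat_lit 5) (nat_lit 357) (nat_lit 277) (nat_lit 146)) (XT.nd (nat_lit 78) (nat_lit 76) (nat_lit 0) (XT.lf (nat_lit 0) (nat_lit 4963341637) (nat_lit 152) (nat_lit 24224812692) (nat_lit 228) (nat_lit 2915400025) (nat_lit 31) (nat_lit 5) (nat_lit 33) (nat_lit 5) (nat_lit 34) (nat_lit 5) (nat_lit 358) (nat_lit 277) (nat_lit 145)) (XT.lf (nat_lit 0) (nat_lit 1460194905) (nat_lit 228) (nat_lit 16558212185) (nat_lit 76) (nat_lit 14836439401) (nat_lit 30) (nat_lit 5) (nat_lit 33) (nat_lit 5) (nat_lit 31) (nat_lit 5) (nat_lit 359) (nat_lit 277) (nat_lit 144)))) (XT.nd (nat_lit 78) (nat_lit 152) (nat_lit 0) (XT.lf (nat_lit 0) (nat_lit 5900704800) (nat_lit 228) (nat_lit 5700212824) (nat_lit 76) (nat_lit 22027133587) (nat_lit 30) (nat_lit 5) (nat_lit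 33) (nat_lit 5) (nat_lit 31) (nat_lit 5) (nat_lit 360) (nat_lit 277) (nat_lit 143)) (XT.nd (nat_lit 78) (nat_lit 0) (nat_lit 0) (XT.lf (nat_lit 0) (nat_lit 5580187095) (nat_lit 152) (nat_lit 4940352747) (nat_lit 228) (nat_lit 23902535820) (nat_lit 28) (nat_lit 5) (nat_lit 30) (nat_lit 5) (nat_lit 31) (nat_lit 5) (nat_lit 361) (nat_lit 277) (nat_lit 142)) (XT.lf (nat_lit 0) (nat_lit 15348084918) (nat_lit 228) (nat_lit 17955696215) (nat_lit 76) (nat_lit 1936102946) (nat_lit 28) (nat_lit 5) (nat_lit 31) (nat_lit 5) (nat_lit 29) (nat_lit 5) (nat_lit 362) (nat_lit 277) (nat_lit 141))))))))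
noncomputable def xc157 : XT := (XT.nd (nat_lit 1794) (nat_lit 228) (nat_lit 0) (XT.nd (nat_lit 858) (nat_lit 456) (nat_lit 0) (XT.nd (nat_lit 390) (nat_lit 152) (nat_lit 0) (XT.nd (nat_lit 156) (nat_lit 228) (nat_lit 0) (XT.nd (nat_lit 78) (nat_lit 152) (nat_lit 0) (XT.lf (nat_lit 0) (nat_lit 20362115978) (nat_lit 228) (nat_lit 6802737991) (nat_lit 76) (nat_lit 8915099479) (nat_lit 28) (nat_lit 5) (nat_lit 31) (nat_lit 5) (nat_lit 29) (nat_lit 5) (nat_lit 363) (nat_lit 277) (nat_lit 140)) (XT.lf (nat_lit 0) (nat_lit 4766227362) (nat_lit 152) (nat_lit 20799113052) (nat_lit 228) (nat_lit 11378727612) (nat_lit 26) (nat_lit 5) (nat_lit 28) (nat_lit 5) (nat_lit 29) (nat_lit 5) (nat_lit 364) (nat_lit 277) (nat_lit 139))) (XT.nd (nat_lit 78) (nat_lit 228) (nat_lit 0) (XT.lf (nat_lit 0) (nat_lit 16810236863) (nat_lit 152) (nat_lit 14176170438) (nat_lit 228) (nat_lit 6845852484) (nat_lit 26) (nat_lit 5)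 (nat_lit 28) (nat_lit 5) (nat_lit 29) (nat_lit 5) (nat_lit 365) (nat_lit 277) (nat_lit 138)) (XT.nd (nat_lit 78) (nat_lit 228) (nat_lit 0) (XT.lf (nat_lit 0) (nat_lit 29204426579) (nat_lit 152) (nat_lit 7358933405) (nat_lit 228) (nat_lit 2183945638) (nat_lit 26) (nat_lit 5) (nat_lit 28) (nat_lit 5) (nat_lit 29) (nat_lit 5) (nat_lit 366) (nat_lit 277) (nat_lit 137)) (XT.lf (nat_lit 0) (nat_lit 2289192514) (nat_lit 152) (nat_lit 292927729) (nat_lit 228) (nat_lit 37106471720) (nat_lit 23) (nat_lit 5) (nat_lit 25) (nat_lit 5) (nat_lit 26) (nat_lit 5) (nat_lit 367) (nat_lit 277) (nat_lit 136))))) (XT.nd (nat_lit 234) (nat_lit 152) (nat_lit 0) (XT.nd (nat_lit 78) (nat_lit 0) (nat_lit 0) (XT.lf (nat_lit 0) (nat_lit 7605162958) (nat_lit 228) (nat_lit 26084107547) (nat_lit 76) (nat_lit 6963466427) (nat_lit 23) (nat_lit 5) (nat_lit 26) (nat_lit 5) (nat_lit 24) (nat_lit 5) (nat_lit 368) (nat_lit 277) (nat_lit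 135)) (XT.nd (nat_lit 78) (nat_lit 0) (nat_lit 0) (XT.lf (nat_lit 0) (nat_lit 12775415557) (nat_lit 228) (nat_lit 14442942103) (nat_lit 76) (nat_lit 14427558307) (nat_lit 23) (nat_lit 5) (nat_lit 26) (nat_lit 5) (nat_lit 24) (nat_lit 5) (nat_lit 369) (nat_lit 277) (nat_lit 134)) (XT.lf (nat_lit 0) (nat_lit 18094579936) (nat_lit 228) (nat_lit 2462915425) (nat_lit 76) (nat_lit 22111586009) (nat_lit 23) (nat_lit 5) (nat_lit 26) (nat_lit 5) (nat_lit 24) (nat_lit 5) (nat_lit 370) (nat_lit 277) (nat_lit 133)))) (XT.nd (nat_lit 78) (nat_lit 0) (nat_lit 0) (XT.lf (nat_lit 0) (nat_lit 10062801982) (nat_lit 152) (nat_lit 13601231737) (nat_lit 228) (nat_lit 20056191556) (nat_lit 21) (nat_lit 5) (nat_lit 23) (nat_lit 5) (nat_lit 24) (nat_lit 5) (nat_lit 371) (nat_lit 277) (nat_lit 132)) (XT.nd (nat_lit 78) (nat_lit 0) (nat_lit 0) (XT.lf (nat_lit 0) (nat_lit 23004805423) (nat_lit 152) (nat_lit 6414700310) (nat_lit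 228) (nat_lit 15382834553) (nat_lit 21) (nat_lit 5) (nat_lit 23) (nat_lit 5) (nat_lit 24) (nat_lit 5) (nat_lit 372) (nat_lit 277) (nat_lit 131)) (XT.lf (nat_lit 0) (nat_lit 35351332882) (nat_lit 228) (nat_lit 9601163810) (nat_lit 76) (nat_lit 964316014) (nat_lit 21) (nat_lit 5) (nat_lit 24) (nat_lit 5) (nat_lit 22) (nat_lit 4) (nat_lit 373) (nat_lit 277) (nat_lit 130)))))) (XT.nd (nat_lit 468) (nat_lit 152) (nat_lit 0) (XT.nd (nat_lit 234) (nat_lit 152) (nat_lit 0) (XT.nd (nat_lit 78) (nat_lit 76) (nat_lit 0) (XT.lf (nat_lit 0) (nat_lit 2945528163) (nat_lit 76) (nat_lit 38601780959) (nat_lit 152) (nat_lit 5514828899) (nat_lit 20) (nat_lit 5) (nat_lit 21) (nat_lit 5) (nat_lit 22) (nat_lit 4) (nat_lit 374) (nat_lit 277) (nat_lit 129)) (XT.nd (nat_lit 78) (nat_lit 76) (nat_lit 0) (XT.lf (nat_lit 0) (nat_lit 16055992644) (nat_lit 76) (nat_lit 31964566376) (nat_lit 152) (nat_lit 218526665) (nat_lit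 20) (nat_lit 5) (nat_lit 21) (nat_lit 5) (nat_lit 22) (nat_lit 4) (nat_lit 375) (nat_lit 277) (nat_lit 128)) (XT.lf (nat_lit 0) (nat_lit 5129024148) (nat_lit 152) (nat_lit 19951189128) (nat_lit 76) (nat_lit 24369786154) (nat_lit 19) (nat_lit 5) (nat_lit 21) (nat_lit 5) (nat_lit 20) (nat_lit 5) (nat_lit 376) (nat_lit 277) (nat_lit 127)))) (XT.nd (nat_lit 78) (nat_lit 152) (nat_lit 0) (XT.lf (nat_lit 0) (nat_lit 10627313881) (nat_lit 152) (nat_lit 7363501810) (nat_lit 76) (nat_lit 32706522895) (nat_lit 19) (nat_lit 5) (nat_lit 21) (nat_lit 5) (nat_lit 20) (nat_lit 5) (nat_lit 377) (nat_lit 277) (nat_lit 126)) (XT.nd (nat_lit 78) (nat_lit 0) (nat_lit 0) (XT.lf (nat_lit 0) (nat_lit 5704381504) (nat_lit 152) (nat_lit 10635863607) (nat_lit 228) (nat_lit 35640365947) (nat_lit 17) (nat_lit 5) (nat_lit 19) (nat_lit 5) (nat_lit 20) (nat_lit 5) (nat_lit 378) (nat_lit 277) (nat_lit 125)) (XT.lf (nat_lit 0)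 (nat_lit 19306583995) (nat_lit 152) (nat_lit 2987262494) (nat_lit 228) (nat_lit 31006460561) (nat_lit 17) (nat_lit 5) (nat_lit 19) (nat_lit 5) (nat_lit 20) (nat_lit 5) (nat_lit 379) (nat_lit 277) (nat_lit 124))))) (XT.nd (nat_lit 234) (nat_lit 76) (nat_lit 0) (XT.nd (nat_lit 78) (nat_lit 76) (nat_lit 0) (XT.lf (nat_lit 0) (nat_lit 28468108849) (nat_lit 228) (nat_lit 21398282325) (nat_lit 76) (nat_lit 4791944861) (nat_lit 17) (nat_lit 5) (nat_lit 20) (nat_lit 5) (nat_lit 18) (nat_lit 4) (nat_lit 380) (nat_lit 277) (nat_lit 123)) (XT.nd (nat_lit 78) (nat_lit 76) (nat_lit 0) (XT.lf (nat_lit 0) (nat_lit 34852360023) (nat_lit 228) (nat_lit 8462834484) (nat_lit 76) (nat_lit 12741172146) (nat_lit 17) (nat_lit 5) (nat_lit 20) (nat_lit 5) (nat_lit 18) (nat_lit 4) (nat_lit 381) (nat_lit 277) (nat_lit 122)) (XT.lf (nat_lit 0) (nat_lit 4949215703) (nat_lit 76) (nat_lit 36521822274) (nat_lit 152) (nat_lit 16024016723)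 (nat_lit 16) (nat_lit 5) (nat_lit 17) (nat_lit 5) (nat_lit 18) (nat_lit 4) (nat_lit 382) (nat_lit 277) (nat_lit 121)))) (XT.nd (nat_lit 78) (nat_lit 76) (nat_lit 0) (XT.lf (nat_lit 0) (nat_lit 18929147900) (nat_lit 76) (nat_lit 29439970436) (nat_lit 152) (nat_lit 10605363177) (nat_lit 16) (nat_lit 5) (nat_lit 17) (nat_lit 5) (nat_lit 18) (nat_lit 4) (nat_lit 383) (nat_lit 277) (nat_lit 120)) (XT.nd (nat_lit 78) (nat_lit 76) (nat_lit 0) (XT.lf (nat_lit 0) (nat_lit 33320750580) (nat_lit 76) (nat_lit 22148909003) (nat_lit 152) (nat_lit 5028769282) (nat_lit 16) (nat_lit 5) (nat_lit 17) (nat_lit 5) (nat_lit 18) (nat_lit 4) (nat_lit 384) (nat_lit 277) (nat_lit 119)) (XT.lf (nat_lit 0) (nat_lit 696770612) (nat_lit 152) (nat_lit 13938460514) (nat_lit 76) (nat_lit 47432792300) (nat_lit 15) (nat_lit 5) (nat_lit 17) (nat_lit 5) (nat_lit 16) (nat_lit 5) (nat_lit 385) (nat_lit 277) (nat_lit 118))))))) (XT.nd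 (nat_lit 32448) (nat_lit 0) (nat_lit 13680) (XT.nd (nat_lit 468) (nat_lit 0) (nat_lit 0) (XT.nd (nat_lit 234) (nat_lit 76) (nat_lit 0) (XT.nd (nat_lit 78) (nat_lit 152) (nat_lit 0) (XT.lf (nat_lit 0) (nat_lit 6488734292) (nat_lit 152) (nat_lit 359227871) (nat_lit 76) (nat_lit 56835381051) (nat_lit 15) (nat_lit 5) (nat_lit 17) (nat_lit 5) (nat_lit 16) (nat_lit 5) (nat_lit 386) (nat_lit 277) (nat_lit 117)) (XT.nd (nat_lit 78) (nat_lit 0) (nat_lit 0) (XT.lf (nat_lit 0) (nat_lit 12596411721) (nat_lit 228) (nat_lit 51464518146) (nat_lit 76) (nat_lit 1281937003) (nat_lit 13) (nat_lit 5) (nat_lit 16) (nat_lit 5) (nat_lit 14) (nat_lit 4) (nat_lit 387) (nat_lit 277) (nat_lit 116)) (XT.lf (nat_lit 0) (nat_lit 18954663515) (nat_lit 228) (nat_lit 38576672294) (nat_lit 76) (nat_lit 9518822942) (nat_lit 13) (nat_lit 5) (nat_lit 16) (nat_lit 5) (nat_lit 14) (nat_lit 4) (nat_lit 388) (nat_lit 277) (nat_lit 115))))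 (XT.nd (nat_lit 78) (nat_lit 76) (nat_lit 0) (XT.lf (nat_lit 0) (nat_lit 25499661917) (nat_lit 228) (nat_lit 25309165627) (nat_lit 76) (nat_lit 17999964628) (nat_lit 13) (nat_lit 5) (nat_lit 16) (nat_lit 5) (nat_lit 14) (nat_lit 4) (nat_lit 389) (nat_lit 277) (nat_lit 114)) (XT.nd (nat_lit 78) (nat_lit 76) (nat_lit 0) (XT.lf (nat_lit 0) (nat_lit 32237125856) (nat_lit 228) (nat_lit 11650405179) (nat_lit 76) (nat_lit 26732772765) (nat_lit 13) (nat_lit 5) (nat_lit 16) (nat_lit 5) (nat_lit 14) (nat_lit 4) (nat_lit 390) (nat_lit 277) (nat_lit 113)) (XT.lf (nat_lit 0) (nat_lit 2459538341) (nat_lit 76) (nat_lit 36737046682) (nat_lit 152) (nat_lit 33288982209) (nat_lit 12) (nat_lit 5) (nat_lit 13) (nat_lit 5) (nat_lit 14) (nat_lit 4) (nat_lit 391) (nat_lit 277) (nat_lit 112))))) (XT.nd (nat_lit 31746) (nat_lit 0) (nat_lit 15352) (XT.nd (nat_lit 78) (nat_lit 0) (nat_lit 0) (XT.lf (nat_lit 0) (nat_lit 17225092312)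 (nat_lit 76) (nat_lit 29253657893) (nat_lit 152) (nat_lit 27924623216) (nat_lit 12) (nat_lit 5) (nat_lit 13) (nat_lit 5) (nat_lit 14) (nat_lit 4) (nat_lit 392) (nat_lit 277) (nat_lit 111)) (XT.nd (nat_lit 78) (nat_lit 0) (nat_lit 0) (XT.lf (nat_lit 0) (nat_lit 32427292766) (nat_lit 76) (nat_lit 21548472034) (nat_lit 152) (nat_lit 22403059908) (nat_lit 12) (nat_lit 5) (nat_lit 13) (nat_lit 5) (nat_lit 14) (nat_lit 4) (nat_lit 393) (nat_lit 277) (nat_lit 110)) (XT.lf (nat_lit 0) (nat_lit 48079423180) (nat_lit 76) (nat_lit 13614756418) (nat_lit 152) (nat_lit 16719467619) (nat_lit 12) (nat_lit 5) (nat_lit 13) (nat_lit 5) (nat_lit 14) (nat_lit 4) (nat_lit 394) (nat_lit 277) (nat_lit 109)))) (XT.nd (nat_lit 78) (nat_lit 0) (nat_lit 0) (XT.lf (nat_lit 0) (nat_lit 509583445) (nat_lit 0) (nat_lit 509583445) (nat_lit 836) (nat_lit 2911513475) (nat_lit 214) (nat_lit 5) (nat_lit 214) (nat_lit 3) (nat_lit 225)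 (nat_lit 3) (nat_lit 278) (nat_lit 278) (nat_lit 224)) (XT.nd (nat_lit 78) (nat_lit 0) (nat_lit 0) (XT.lf (nat_lit 0) (nat_lit 3250341097) (nat_lit 836) (nat_lit 3421137521) (nat_lit 912) (nat_lit 1269683428) (nat_lit 214) (nat_lit 5) (nat_lit 225) (nat_lit 3) (nat_lit 226) (nat_lit 5) (nat_lit 279) (nat_lit 278) (nat_lit 223)) (XT.lf (nat_lit 76) (nat_lit 69308712) (nat_lit 0) (nat_lit 4394753999) (nat_lit 912) (nat_lit 3560438508) (nat_lit 215) (nat_lit 5) (nat_lit 214) (nat_lit 5) (nat_lit 226) (nat_lit 5) (nat_lit 280) (nat_lit 278) (nat_lit 222)))))) (XT.nd (nat_lit 468) (nat_lit 836) (nat_lit 0) (XT.nd (nat_lit 234) (nat_lit 836) (nat_lit 0) (XT.nd (nat_lit 78) (nat_lit 0) (nat_lit 76) (XT.lf (nat_lit 76) (nat_lit 3710335049) (nat_lit 0) (nat_lit 1994093967) (nat_lit 912) (nat_lit 2406305959) (nat_lit 215) (nat_lit 5) (nat_lit 214) (nat_lit 5) (nat_lit 226) (nat_lit 5) (nat_lit 281) (nat_lit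 278) (nat_lit 221)) (XT.nd (nat_lit 78) (nat_lit 0) (nat_lit 0) (XT.lf (nat_lit 0) (nat_lit 6943770849) (nat_lit 836) (nat_lit 768696842) (nat_lit 912) (nat_lit 488333563) (nat_lit 215) (nat_lit 5) (nat_lit 226) (nat_lit 5) (nat_lit 227) (nat_lit 5) (nat_lit 282) (nat_lit 278) (nat_lit 220)) (XT.lf (nat_lit 76) (nat_lit 2986082260) (nat_lit 0) (nat_lit 5241069956) (nat_lit 912) (nat_lit 66307107) (nat_lit 216) (nat_lit 5) (nat_lit 215) (nat_lit 5) (nat_lit 227) (nat_lit 5) (nat_lit 283) (nat_lit 278) (nat_lit 219)))) (XT.nd (nat_lit 78) (nat_lit 0) (nat_lit 76) (XT.lf (nat_lit 0) (nat_lit 1104236331) (nat_lit 912) (nat_lit 1555700480) (nat_lit 988) (nat_lit 5729713748) (nat_lit 203) (nat_lit 5) (nat_lit 215) (nat_lit 5) (nat_lit 216) (nat_lit 5) (nat_lit 284) (nat_lit 278) (nat_lit 218)) (XT.nd (nat_lit 78) (nat_lit 0) (nat_lit 0) (XT.lf (nat_lit 0) (nat_lit 2291410415) (nat_lit 912) (nat_lit 6160708318)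 (nat_lit 988) (nat_lit 37191163) (nat_lit 204) (nat_lit 5) (nat_lit 216) (nat_lit 5) (nat_lit 217) (nat_lit 5) (nat_lit 285) (nat_lit 278) (nat_lit 217)) (XT.lf (nat_lit 0) (nat_lit 3517569258) (nat_lit 912) (nat_lit 2282154238) (nat_lit 988) (nat_lit 2792219350) (nat_lit 204) (nat_lit 5) (nat_lit 216) (nat_lit 5) (nat_lit 217) (nat_lit 5) (nat_lit 286) (nat_lit 278) (nat_lit 216))))) (XT.nd (nat_lit 234) (nat_lit 912) (nat_lit 0) (XT.nd (nat_lit 78) (nat_lit 0) (nat_lit 0) (XT.lf (nat_lit 76) (nat_lit 1721595657) (nat_lit 0) (nat_lit 3037765719) (nat_lit 988) (nat_lit 3939010400) (nat_lit 205) (nat_lit 5) (nat_lit 204) (nat_lit 5) (nat_lit 217) (nat_lit 5) (nat_lit 287) (nat_lit 278) (nat_lit 215)) (XT.nd (nat_lit 78) (nat_lit 0) (nat_lit 76) (XT.lf (nat_lit 76) (nat_lit 5867727336) (nat_lit 0) (nat_lit 156887128) (nat_lit 988) (nat_lit 2783872939) (nat_lit 205) (nat_lit 5) (nat_lit 204) (nat_lit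 5) (nat_lit 217) (nat_lit 5) (nat_lit 288) (nat_lit 278) (nat_lit 214)) (XT.lf (nat_lit 76) (nat_lit 1187427622) (nat_lit 0) (nat_lit 6143177166) (nat_lit 988) (nat_lit 1591296039) (nat_lit 206) (nat_lit 5) (nat_lit 205) (nat_lit 5) (nat_lit 218) (nat_lit 5) (nat_lit 289) (nat_lit 278) (nat_lit 213)))) (XT.nd (nat_lit 78) (nat_lit 988) (nat_lit 0) (XT.lf (nat_lit 76) (nat_lit 5473340744) (nat_lit 0) (nat_lit 3198817782) (nat_lit 988) (nat_lit 366742066) (nat_lit 206) (nat_lit 5) (nat_lit 205) (nat_lit 5) (nat_lit 218) (nat_lit 5) (nat_lit 290) (nat_lit 278) (nat_lit 212)) (XT.nd (nat_lit 78) (nat_lit 0) (nat_lit 76) (XT.lf (nat_lit 76) (nat_lit 708804921) (nat_lit 0) (nat_lit 140859123) (nat_lit 1064) (nat_lit 8310382316) (nat_lit 193) (nat_lit 5) (nat_lit 192) (nat_lit 5) (nat_lit 206) (nat_lit 5) (nat_lit 291) (nat_lit 278) (nat_lit 211)) (XT.lf (nat_lit 0) (nat_lit 2127079701) (nat_lit 988)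 (nat_lit 4157929200) (nat_lit 1064) (nat_lit 2998821059) (nat_lit 193) (nat_lit 5) (nat_lit 206) (nat_lit 5) (nat_lit 207) (nat_lit 5) (nat_lit 292) (nat_lit 278) (nat_lit 210))))))))
noncomputable def xc158 : XT := (XT.nd (nat_lit 1794) (nat_lit 3876) (nat_lit 0) (XT.nd (nat_lit 858) (nat_lit 3040) (nat_lit 0) (XT.nd (nat_lit 390) (nat_lit 2736) (nat_lit 0) (XT.nd (nat_lit 156) (nat_lit 912) (nat_lit 0) (XT.nd (nat_lit 78) (nat_lit 0) (nat_lit 76) (XT.lf (nat_lit 76) (nat_lit 242506759) (nat_lit 0) (nat_lit 3171613602) (nat_lit 1064) (nat_lit 5998134669) (nat_lit 194) (nat_lit 5) (nat_lit 193) (nat_lit 5) (nat_lit 207) (nat_lit 5) (nat_lit 293) (nat_lit 278) (nat_lit 209)) (XT.lf (nat_lit 0) (nat_lit 4750862938) (nat_lit 988) (nat_lit 4709689239) (nat_lit 76) (nat_lit 83713039) (nat_lit 194) (nat_lit 5) (nat_lit 207) (nat_lit 5) (nat_lit 195) (nat_lit 5) (nat_lit 294) (nat_lit 278) (nat_lit 208)))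 (XT.nd (nat_lit 78) (nat_lit 988) (nat_lit 0) (XT.lf (nat_lit 0) (nat_lit 6128381601) (nat_lit 988) (nat_lit 172328945) (nat_lit 76) (nat_lit 3379568135) (nat_lit 194) (nat_lit 5) (nat_lit 207) (nat_lit 5) (nat_lit 195) (nat_lit 5) (nat_lit 295) (nat_lit 278) (nat_lit 207)) (XT.nd (nat_lit 78) (nat_lit 0) (nat_lit 0) (XT.lf (nat_lit 0) (nat_lit 4565881579) (nat_lit 988) (nat_lit 2995400986) (nat_lit 1064) (nat_lit 2258729633) (nat_lit 181) (nat_lit 5) (nat_lit 194) (nat_lit 5) (nat_lit 195) (nat_lit 5) (nat_lit 296) (nat_lit 278) (nat_lit 206)) (XT.lf (nat_lit 0) (nat_lit 9013712586) (nat_lit 1064) (nat_lit 543176605) (nat_lit 76) (nat_lit 407811830) (nat_lit 181) (nat_lit 5) (nat_lit 195) (nat_lit 5) (nat_lit 182) (nat_lit 5) (nat_lit 297) (nat_lit 278) (nat_lit 205))))) (XT.nd (nat_lit 234) (nat_lit 532) (nat_lit 0) (XT.nd (nat_lit 78) (nat_lit 1064) (nat_lit 0) (XT.lf (nat_lit 0) (nat_lit 431702837)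 (nat_lit 1140) (nat_lit 5776976890) (nat_lit 76) (nat_lit 3903689381) (nat_lit 166) (nat_lit 5) (nat_lit 181) (nat_lit 5) (nat_lit 167) (nat_lit 5) (nat_lit 298) (nat_lit 278) (nat_lit 204)) (XT.nd (nat_lit 78) (nat_lit 1064) (nat_lit 0) (XT.lf (nat_lit 0) (nat_lit 1814264404) (nat_lit 1140) (nat_lit 927074680) (nat_lit 76) (nat_lit 7523575087) (nat_lit 166) (nat_lit 5) (nat_lit 181) (nat_lit 5) (nat_lit 167) (nat_lit 5) (nat_lit 299) (nat_lit 278) (nat_lit 203)) (XT.lf (nat_lit 0) (nat_lit 3259135335) (nat_lit 1140) (nat_lit 6305337185) (nat_lit 76) (nat_lit 856991009) (nat_lit 152) (nat_lit 5) (nat_lit 167) (nat_lit 5) (nat_lit 153) (nat_lit 5) (nat_lit 300) (nat_lit 278) (nat_lit 202)))) (XT.nd (nat_lit 78) (nat_lit 532) (nat_lit 0) (XT.lf (nat_lit 0) (nat_lit 4757320924) (nat_lit 1140) (nat_lit 1304712176) (nat_lit 76) (nat_lit 4520428590) (nat_lit 152) (nat_lit 5) (nat_lit 167) (nat_lit 5)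 (nat_lit 153) (nat_lit 5) (nat_lit 301) (nat_lit 278) (nat_lit 201)) (XT.nd (nat_lit 78) (nat_lit 0) (nat_lit 0) (XT.lf (nat_lit 0) (nat_lit 3898038568) (nat_lit 532) (nat_lit 2414031642) (nat_lit 608) (nat_lit 4435920924) (nat_lit 145) (nat_lit 5) (nat_lit 152) (nat_lit 5) (nat_lit 153) (nat_lit 5) (nat_lit 302) (nat_lit 278) (nat_lit 200)) (XT.lf (nat_lit 0) (nat_lit 7914369292) (nat_lit 608) (nat_lit 1672064753) (nat_lit 76) (nat_lit 1332073627) (nat_lit 145) (nat_lit 5) (nat_lit 153) (nat_lit 5) (nat_lit 146) (nat_lit 5) (nat_lit 303) (nat_lit 278) (nat_lit 199)))))) (XT.nd (nat_lit 468) (nat_lit 1368) (nat_lit 0) (XT.nd (nat_lit 234) (nat_lit 532) (nat_lit 0) (XT.nd (nat_lit 78) (nat_lit 608) (nat_lit 0) (XT.lf (nat_lit 0) (nat_lit 3685341043) (nat_lit 532) (nat_lit 5914148755) (nat_lit 608) (nat_lit 1493654353) (nat_lit 138) (nat_lit 5) (nat_lit 145) (nat_lit 5) (nat_lit 146) (nat_lit 5)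 (nat_lit 304) (nat_lit 278) (nat_lit 198)) (XT.nd (nat_lit 78) (nat_lit 532) (nat_lit 0) (XT.lf (nat_lit 0) (nat_lit 53614380) (nat_lit 608) (nat_lit 2059660318) (nat_lit 76) (nat_lit 9159990939) (nat_lit 137) (nat_lit 5) (nat_lit 145) (nat_lit 5) (nat_lit 138) (nat_lit 5) (nat_lit 305) (nat_lit 278) (nat_lit 197)) (XT.lf (nat_lit 0) (nat_lit 1644857514) (nat_lit 608) (nat_lit 7997301406) (nat_lit 76) (nat_lit 1815403897) (nat_lit 130) (nat_lit 5) (nat_lit 138) (nat_lit 5) (nat_lit 131) (nat_lit 5) (nat_lit 306) (nat_lit 278) (nat_lit 196)))) (XT.nd (nat_lit 78) (nat_lit 532) (nat_lit 0) (XT.lf (nat_lit 0) (nat_lit 3302572897) (nat_lit 608) (nat_lit 2503825033) (nat_lit 76) (nat_lit 5840470709) (nat_lit 130) (nat_lit 5) (nat_lit 138) (nat_lit 5) (nat_lit 131) (nat_lit 5) (nat_lit 307) (nat_lit 278) (nat_lit 195)) (XT.nd (nat_lit 78) (nat_lit 0) (nat_lit 0) (XT.lf (nat_lit 0) (nat_lit 3193537666)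 (nat_lit 532) (nat_lit 1824662824) (nat_lit 608) (nat_lit 6823448283) (nat_lit 123) (nat_lit 5) (nat_lit 130) (nat_lit 5) (nat_lit 131) (nat_lit 5) (nat_lit 308) (nat_lit 278) (nat_lit 194)) (XT.lf (nat_lit 0) (nat_lit 6810622619) (nat_lit 608) (nat_lit 2974200833) (nat_lit 76) (nat_lit 2256728464) (nat_lit 123) (nat_lit 5) (nat_lit 131) (nat_lit 5) (nat_lit 124) (nat_lit 5) (nat_lit 309) (nat_lit 278) (nat_lit 193))))) (XT.nd (nat_lit 234) (nat_lit 456) (nat_lit 0) (XT.nd (nat_lit 78) (nat_lit 456) (nat_lit 0) (XT.lf (nat_lit 0) (nat_lit 2885150199) (nat_lit 456) (nat_lit 5796018765) (nat_lit 532) (nat_lit 3565590873) (nat_lit 117) (nat_lit 5) (nat_lit 123) (nat_lit 5) (nat_lit 124) (nat_lit 5) (nat_lit 310) (nat_lit 278) (nat_lit 192)) (XT.nd (nat_lit 78) (nat_lit 456) (nat_lit 0) (XT.lf (nat_lit 0) (nat_lit 8958465301) (nat_lit 456) (nat_lit 1658357435) (nat_lit 532) (nat_lit 1841068646) (nat_lit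 117) (nat_lit 5) (nat_lit 123) (nat_lit 5) (nat_lit 124) (nat_lit 5) (nat_lit 311) (nat_lit 278) (nat_lit 191)) (XT.lf (nat_lit 0) (nat_lit 2540416155) (nat_lit 456) (nat_lit 10099129872) (nat_lit 532) (nat_lit 34976885) (nat_lit 111) (nat_lit 5) (nat_lit 117) (nat_lit 5) (nat_lit 118) (nat_lit 5) (nat_lit 312) (nat_lit 278) (nat_lit 190)))) (XT.nd (nat_lit 78) (nat_lit 380) (nat_lit 0) (XT.lf (nat_lit 0) (nat_lit 1821486113) (nat_lit 532) (nat_lit 4120688538) (nat_lit 76) (nat_lit 6954032129) (nat_lit 110) (nat_lit 5) (nat_lit 117) (nat_lit 5) (nat_lit 111) (nat_lit 5) (nat_lit 313) (nat_lit 278) (nat_lit 189)) (XT.nd (nat_lit 78) (nat_lit 0) (nat_lit 0) (XT.lf (nat_lit 0) (nat_lit 2091295007) (nat_lit 380) (nat_lit 1642039081) (nat_lit 456) (nat_lit 9391217841) (nat_lit 105) (nat_lit 5) (nat_lit 110) (nat_lit 5) (nat_lit 111) (nat_lit 5) (nat_lit 314) (nat_lit 278) (nat_lit 188)) (XT.lf (nat_lit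 0) (nat_lit 5751978469) (nat_lit 456) (nat_lit 4834261410) (nat_lit 76) (nat_lit 2772056344) (nat_lit 105) (nat_lit 5) (nat_lit 111) (nat_lit 5) (nat_lit 106) (nat_lit 5) (nat_lit 315) (nat_lit 278) (nat_lit 187))))))) (XT.nd (nat_lit 936) (nat_lit 1520) (nat_lit 0) (XT.nd (nat_lit 468) (nat_lit 1064) (nat_lit 0) (XT.nd (nat_lit 234) (nat_lit 456) (nat_lit 0) (XT.nd (nat_lit 78) (nat_lit 380) (nat_lit 0) (XT.lf (nat_lit 0) (nat_lit 1542539736) (nat_lit 456) (nat_lit 6300919143) (nat_lit 532) (nat_lit 5755256749) (nat_lit 99) (nat_lit 5) (nat_lit 105) (nat_lit 5) (nat_lit 106) (nat_lit 5) (nat_lit 316) (nat_lit 278) (nat_lit 186)) (XT.nd (nat_lit 78) (nat_lit 380) (nat_lit 0) (XT.lf (nat_lit 0) (nat_lit 8187951367) (nat_lit 456) (nat_lit 1840078314) (nat_lit 532) (nat_lit 3817437735) (nat_lit 99) (nat_lit 5) (nat_lit 105) (nat_lit 5) (nat_lit 106) (nat_lit 5) (nat_lit 317) (nat_lit 278) (nat_lit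 185)) (XT.lf (nat_lit 0) (nat_lit 902543923) (nat_lit 380) (nat_lit 11392784676) (nat_lit 456) (nat_lit 1803806730) (nat_lit 94) (nat_lit 5) (nat_lit 99) (nat_lit 5) (nat_lit 100) (nat_lit 5) (nat_lit 318) (nat_lit 278) (nat_lit 184)))) (XT.nd (nat_lit 78) (nat_lit 380) (nat_lit 0) (XT.lf (nat_lit 0) (nat_lit 323024562) (nat_lit 456) (nat_lit 6626564990) (nat_lit 76) (nat_lit 7409031478) (nat_lit 93) (nat_lit 5) (nat_lit 99) (nat_lit 5) (nat_lit 94) (nat_lit 5) (nat_lit 319) (nat_lit 278) (nat_lit 183)) (XT.nd (nat_lit 78) (nat_lit 0) (nat_lit 0) (XT.lf (nat_lit 0) (nat_lit 103496164) (nat_lit 380) (nat_lit 2357575179) (nat_lit 456) (nat_lit 12164801030) (nat_lit 88) (nat_lit 5) (nat_lit 93) (nat_lit 5) (nat_lit 94) (nat_lit 5) (nat_lit 320) (nat_lit 278) (nat_lit 182)) (XT.lf (nat_lit 0) (nat_lit 4736575155) (nat_lit 456) (nat_lit 7772818659) (nat_lit 76) (nat_lit 2389574007) (nat_lit 88) (nat_lit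 5) (nat_lit 94) (nat_lit 5) (nat_lit 89) (nat_lit 5) (nat_lit 321) (nat_lit 278) (nat_lit 181))))) (XT.nd (nat_lit 234) (nat_lit 760) (nat_lit 0) (XT.nd (nat_lit 78) (nat_lit 304) (nat_lit 0) (XT.lf (nat_lit 0) (nat_lit 7087118208) (nat_lit 456) (nat_lit 865006553) (nat_lit 76) (nat_lit 7227953423) (nat_lit 88) (nat_lit 5) (nat_lit 94) (nat_lit 5) (nat_lit 89) (nat_lit 5) (nat_lit 322) (nat_lit 278) (nat_lit 180)) (XT.nd (nat_lit 78) (nat_lit 0) (nat_lit 0) (XT.lf (nat_lit 0) (nat_lit 6353742925) (nat_lit 304) (nat_lit 3199425058) (nat_lit 380) (nat_lit 5915128701) (nat_lit 84) (nat_lit 5) (nat_lit 88) (nat_lit 5) (nat_lit 89) (nat_lit 5) (nat_lit 323) (nat_lit 278) (nat_lit 179)) (XT.lf (nat_lit 0) (nat_lit 12102470973) (nat_lit 380) (nat_lit 1995040727) (nat_lit 76) (nat_lit 1667395710) (nat_lit 84) (nat_lit 5) (nat_lit 89) (nat_lit 5) (nat_lit 85) (nat_lit 5) (nat_lit 324) (nat_lit 278) (nat_lit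 178)))) (XT.nd (nat_lit 78) (nat_lit 380) (nat_lit 0) (XT.lf (nat_lit 0) (nat_lit 5391649335) (nat_lit 380) (nat_lit 9404719476) (nat_lit 456) (nat_lit 1272027304) (nat_lit 79) (nat_lit 5) (nat_lit 84) (nat_lit 5) (nat_lit 85) (nat_lit 5) (nat_lit 325) (nat_lit 278) (nat_lit 177)) (XT.nd (nat_lit 78) (nat_lit 304) (nat_lit 0) (XT.lf (nat_lit 0) (nat_lit 1171913596) (nat_lit 456) (nat_lit 3371260240) (nat_lit 76) (nat_lit 11837342976) (nat_lit 78) (nat_lit 5) (nat_lit 84) (nat_lit 5) (nat_lit 79) (nat_lit 5) (nat_lit 326) (nat_lit 278) (nat_lit 176)) (XT.lf (nat_lit 0) (nat_lit 3694096577) (nat_lit 380) (nat_lit 12502489533) (nat_lit 76) (nat_lit 504143645) (nat_lit 74) (nat_lit 5) (nat_lit 79) (nat_lit 5) (nat_lit 75) (nat_lit 5) (nat_lit 327) (nat_lit 278) (nat_lit 175)))))) (XT.nd (nat_lit 468) (nat_lit 836) (nat_lit 0) (XT.nd (nat_lit 234) (nat_lit 380) (nat_lit 0) (XT.nd (nat_lit 78) (nat_lit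 304) (nat_lit 0) (XT.lf (nat_lit 0) (nat_lit 6356652107) (nat_lit 380) (nat_lit 5030623901) (nat_lit 76) (nat_lit 5641352419) (nat_lit 74) (nat_lit 5) (nat_lit 79) (nat_lit 5) (nat_lit 75) (nat_lit 5) (nat_lit 328) (nat_lit 278) (nat_lit 174)) (XT.nd (nat_lit 78) (nat_lit 0) (nat_lit 0) (XT.lf (nat_lit 0) (nat_lit 2698927223) (nat_lit 304) (nat_lit 6411872627) (nat_lit 380) (nat_lit 8255232693) (nat_lit 70) (nat_lit 5) (nat_lit 74) (nat_lit 5) (nat_lit 75) (nat_lit 5) (nat_lit 329) (nat_lit 278) (nat_lit 173)) (XT.lf (nat_lit 0) (nat_lit 10744539082) (nat_lit 304) (nat_lit 1239836457) (nat_lit 380) (nat_lit 5728098511) (nat_lit 70) (nat_lit 5) (nat_lit 74) (nat_lit 5) (nat_lit 75) (nat_lit 5) (nat_lit 330) (nat_lit 278) (nat_lit 172)))) (XT.nd (nat_lit 78) (nat_lit 76) (nat_lit 0) (XT.lf (nat_lit 0) (nat_lit 922137518) (nat_lit 304) (nat_lit 14056540844) (nat_lit 380) (nat_lit 3089613650) (nat_lit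 66) (nat_lit 5) (nat_lit 70) (nat_lit 5) (nat_lit 71) (nat_lit 5) (nat_lit 331) (nat_lit 278) (nat_lit 171)) (XT.nd (nat_lit 78) (nat_lit 76) (nat_lit 0) (XT.lf (nat_lit 0) (nat_lit 9160635199) (nat_lit 304) (nat_lit 8971276707) (nat_lit 380) (nat_lit 300817817) (nat_lit 66) (nat_lit 5) (nat_lit 70) (nat_lit 5) (nat_lit 71) (nat_lit 5) (nat_lit 332) (nat_lit 278) (nat_lit 170)) (XT.lf (nat_lit 0) (nat_lit 2508288206) (nat_lit 380) (nat_lit 1204863664) (nat_lit 76) (nat_lit 15094619452) (nat_lit 65) (nat_lit 5) (nat_lit 70) (nat_lit 5) (nat_lit 66) (nat_lit 5) (nat_lit 333) (nat_lit 278) (nat_lit 169))))) (XT.nd (nat_lit 234) (nat_lit 304) (nat_lit 0) (XT.nd (nat_lit 78) (nat_lit 228) (nat_lit 0) (XT.lf (nat_lit 0) (nat_lit 5469316861) (nat_lit 380) (nat_lit 11984741618) (nat_lit 76) (nat_lit 1737722178) (nat_lit 61) (nat_lit 5) (nat_lit 66) (nat_lit 5) (nat_lit 62) (nat_lit 5) (nat_lit 334) (nat_lit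 278) (nat_lit 168)) (XT.nd (nat_lit 78) (nat_lit 228) (nat_lit 0) (XT.lf (nat_lit 0) (nat_lit 8555594082) (nat_lit 380) (nat_lit 3745799944) (nat_lit 76) (nat_lit 7284839940) (nat_lit 61) (nat_lit 5) (nat_lit 66) (nat_lit 5) (nat_lit 62) (nat_lit 5) (nat_lit 335) (nat_lit 278) (nat_lit 167)) (XT.lf (nat_lit 0) (nat_lit 4816859916) (nat_lit 228) (nat_lit 6951636871) (nat_lit 304) (nat_lit 8223018721) (nat_lit 58) (nat_lit 5) (nat_lit 61) (nat_lit 5) (nat_lit 62) (nat_lit 5) (nat_lit 336) (nat_lit 278) (nat_lit 166)))) (XT.nd (nat_lit 78) (nat_lit 304) (nat_lit 0) (XT.lf (nat_lit 0) (nat_lit 13695911474) (nat_lit 228) (nat_lit 1407626104) (nat_lit 304) (nat_lit 5304660681) (nat_lit 58) (nat_lit 5) (nat_lit 61) (nat_lit 5) (nat_lit 62) (nat_lit 5) (nat_lit 337) (nat_lit 278) (nat_lit 165)) (XT.nd (nat_lit 78) (nat_lit 76) (nat_lit 0) (XT.lf (nat_lit 0) (nat_lit 1984223988) (nat_lit 228) (nat_lit 16603068336)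 (nat_lit 304) (nat_lit 2248644132) (nat_lit 55) (nat_lit 5) (nat_lit 58) (nat_lit 5) (nat_lit 59) (nat_lit 5) (nat_lit 338) (nat_lit 278) (nat_lit 164)) (XT.lf (nat_lit 0) (nat_lit 952178302) (nat_lit 304) (nat_lit 10235666155) (nat_lit 76) (nat_lit 10086296995) (nat_lit 54) (nat_lit 5) (nat_lit 58) (nat_lit 5) (nat_lit 55) (nat_lit 5) (nat_lit 339) (nat_lit 278) (nat_lit 163))))))))
noncomputable def xc159 : XT := (XT.nd (nat_lit 1872) (nat_lit 988) (nat_lit 0) (XT.nd (nat_lit 936) (nat_lit 836) (nat_lit 0) (XT.nd (nat_lit 468) (nat_lit 684) (nat_lit 0) (XT.nd (nat_lit 234) (nat_lit 228) (nat_lit 0) (XT.nd (nat_lit 78) (nat_lit 228) (nat_lit 0) (XT.lf (nat_lit 0) (nat_lit 4192451468) (nat_lit 304) (nat_lit 1400070148) (nat_lit 76) (nat_lit 16132658006) (nat_lit 54) (nat_lit 5) (nat_lit 58) (nat_lit 5) (nat_lit 55) (nat_lit 5) (nat_lit 340) (nat_lit 278) (nat_lit 162)) (XT.nd (nat_lit 78) (nat_lit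 0) (nat_lit 0) (XT.lf (nat_lit 0) (nat_lit 7596560229) (nat_lit 304) (nat_lit 14352824295) (nat_lit 76) (nat_lit 238378782) (nat_lit 51) (nat_lit 5) (nat_lit 55) (nat_lit 5) (nat_lit 52) (nat_lit 5) (nat_lit 341) (nat_lit 278) (nat_lit 161)) (XT.lf (nat_lit 0) (nat_lit 11161512961) (nat_lit 304) (nat_lit 5359926834) (nat_lit 76) (nat_lit 6141035890) (nat_lit 51) (nat_lit 5) (nat_lit 55) (nat_lit 5) (nat_lit 52) (nat_lit 5) (nat_lit 342) (nat_lit 278) (nat_lit 160)))) (XT.nd (nat_lit 78) (nat_lit 0) (nat_lit 0) (XT.lf (nat_lit 0) (nat_lit 3964276511) (nat_lit 228) (nat_lit 10896634391) (nat_lit 304) (nat_lit 8289706070) (nat_lit 48) (nat_lit 5) (nat_lit 51) (nat_lit 5) (nat_lit 52) (nat_lit 5) (nat_lit 343) (nat_lit 278) (nat_lit 159)) (XT.nd (nat_lit 78) (nat_lit 0) (nat_lit 0) (XT.lf (nat_lit 0) (nat_lit 13662396129) (nat_lit 228) (nat_lit 5052567266) (nat_lit 304) (nat_lit 4937140994) (nat_lit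 48) (nat_lit 5) (nat_lit 51) (nat_lit 5) (nat_lit 52) (nat_lit 5) (nat_lit 344) (nat_lit 278) (nat_lit 158)) (XT.lf (nat_lit 0) (nat_lit 22683734622) (nat_lit 304) (nat_lit 541964395) (nat_lit 76) (nat_lit 942976216) (nat_lit 48) (nat_lit 5) (nat_lit 52) (nat_lit 5) (nat_lit 49) (nat_lit 5) (nat_lit 345) (nat_lit 278) (nat_lit 157))))) (XT.nd (nat_lit 234) (nat_lit 152) (nat_lit 0) (XT.nd (nat_lit 78) (nat_lit 228) (nat_lit 0) (XT.lf (nat_lit 0) (nat_lit 2161266579) (nat_lit 304) (nat_lit 15412323749) (nat_lit 76) (nat_lit 7122641240) (nat_lit 44) (nat_lit 5) (nat_lit 48) (nat_lit 5) (nat_lit 45) (nat_lit 5) (nat_lit 346) (nat_lit 278) (nat_lit 156)) (XT.nd (nat_lit 78) (nat_lit 228) (nat_lit 0) (XT.lf (nat_lit 0) (nat_lit 5882679324) (nat_lit 304) (nat_lit 5853642904) (nat_lit 76) (nat_lit 13502992062) (nat_lit 44) (nat_lit 5) (nat_lit 48) (nat_lit 5) (nat_lit 45) (nat_lit 5) (nat_lit 347) (nat_lit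 278) (nat_lit 155)) (XT.lf (nat_lit 0) (nat_lit 4056289169) (nat_lit 228) (nat_lit 5688862261) (nat_lit 304) (nat_lit 16052665968) (nat_lit 41) (nat_lit 5) (nat_lit 44) (nat_lit 5) (nat_lit 45) (nat_lit 5) (nat_lit 348) (nat_lit 278) (nat_lit 154)))) (XT.nd (nat_lit 78) (nat_lit 152) (nat_lit 0) (XT.lf (nat_lit 0) (nat_lit 13778900181) (nat_lit 304) (nat_lit 12008327980) (nat_lit 76) (nat_lit 584195474) (nat_lit 41) (nat_lit 5) (nat_lit 45) (nat_lit 5) (nat_lit 42) (nat_lit 5) (nat_lit 349) (nat_lit 278) (nat_lit 153)) (XT.nd (nat_lit 78) (nat_lit 152) (nat_lit 0) (XT.lf (nat_lit 0) (nat_lit 17980778895) (nat_lit 304) (nat_lit 2053789683) (nat_lit 76) (nat_lit 6926265771) (nat_lit 41) (nat_lit 5) (nat_lit 45) (nat_lit 5) (nat_lit 42) (nat_lit 5) (nat_lit 350) (nat_lit 278) (nat_lit 152)) (XT.lf (nat_lit 0) (nat_lit 8348376522) (nat_lit 152) (nat_lit 14031647474) (nat_lit 228) (nat_lit 5185773616)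 (nat_lit 39) (nat_lit 5) (nat_lit 41) (nat_lit 5) (nat_lit 42) (nat_lit 5) (nat_lit 351) (nat_lit 278) (nat_lit 151)))))) (XT.nd (nat_lit 468) (nat_lit 380) (nat_lit 0) (XT.nd (nat_lit 234) (nat_lit 152) (nat_lit 0) (XT.nd (nat_lit 78) (nat_lit 304) (nat_lit 0) (XT.lf (nat_lit 0) (nat_lit 19090929674) (nat_lit 152) (nat_lit 7832244277) (nat_lit 228) (nat_lit 1265387248) (nat_lit 39) (nat_lit 5) (nat_lit 41) (nat_lit 5) (nat_lit 42) (nat_lit 5) (nat_lit 352) (nat_lit 278) (nat_lit 150)) (XT.nd (nat_lit 78) (nat_lit 0) (nat_lit 0) (XT.lf (nat_lit 0) (nat_lit 1311126254) (nat_lit 228) (nat_lit 1411335576) (nat_lit 304) (nat_lit 26106636382) (nat_lit 35) (nat_lit 5) (nat_lit 38) (nat_lit 5) (nat_lit 39) (nat_lit 5) (nat_lit 353) (nat_lit 278) (nat_lit 149)) (XT.lf (nat_lit 0) (nat_lit 6938725057) (nat_lit 304) (nat_lit 17344543353) (nat_lit 76) (nat_lit 5201189183) (nat_lit 35) (nat_lit 5) (nat_lit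 39) (nat_lit 5) (nat_lit 36) (nat_lit 5) (nat_lit 354) (nat_lit 278) (nat_lit 148)))) (XT.nd (nat_lit 78) (nat_lit 152) (nat_lit 0) (XT.lf (nat_lit 0) (nat_lit 11287126640) (nat_lit 304) (nat_lit 6893130612) (nat_lit 76) (nat_lit 11979059210) (nat_lit 35) (nat_lit 5) (nat_lit 39) (nat_lit 5) (nat_lit 36) (nat_lit 5) (nat_lit 355) (nat_lit 278) (nat_lit 147)) (XT.nd (nat_lit 78) (nat_lit 0) (nat_lit 0) (XT.lf (nat_lit 0) (nat_lit 3935766163) (nat_lit 152) (nat_lit 11859966363) (nat_lit 228) (nat_lit 15057803984) (nat_lit 33) (nat_lit 5) (nat_lit 35) (nat_lit 5) (nat_lit 36) (nat_lit 5) (nat_lit 356) (nat_lit 278) (nat_lit 146)) (XT.lf (nat_lit 0) (nat_lit 15218099012) (nat_lit 152) (nat_lit 5283136904) (nat_lit 228) (nat_lit 11065505811) (nat_lit 33) (nat_lit 5) (nat_lit 35) (nat_lit 5) (nat_lit 36) (nat_lit 5) (nat_lit 357) (nat_lit 278) (nat_lit 145))))) (XT.nd (nat_lit 234) (nat_lit 152) (nat_lit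 0) (XT.nd (nat_lit 78) (nat_lit 228) (nat_lit 0) (XT.lf (nat_lit 0) (nat_lit 25354456609) (nat_lit 228) (nat_lit 5489331133) (nat_lit 76) (nat_lit 1457366316) (nat_lit 33) (nat_lit 5) (nat_lit 36) (nat_lit 5) (nat_lit 34) (nat_lit 5) (nat_lit 358) (nat_lit 278) (nat_lit 144)) (XT.nd (nat_lit 78) (nat_lit 76) (nat_lit 0) (XT.lf (nat_lit 0) (nat_lit 5743332875) (nat_lit 152) (nat_lit 24709904190) (nat_lit 228) (nat_lit 2601370103) (nat_lit 31) (nat_lit 5) (nat_lit 33) (nat_lit 5) (nat_lit 34) (nat_lit 5) (nat_lit 359) (nat_lit 278) (nat_lit 143)) (XT.lf (nat_lit 0) (nat_lit 1886192374) (nat_lit 228) (nat_lit 16434293095) (nat_lit 76) (nat_lit 15508191274) (nat_lit 30) (nat_lit 5) (nat_lit 33) (nat_lit 5) (nat_lit 31) (nat_lit 5) (nat_lit 360) (nat_lit 278) (nat_lit 142)))) (XT.nd (nat_lit 78) (nat_lit 152) (nat_lit 0) (XT.lf (nat_lit 0) (nat_lit 6448785770) (nat_lit 228) (nat_lit 5268631388) (nat_lit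 76) (nat_lit 22908004576) (nat_lit 30) (nat_lit 5) (nat_lit 33) (nat_lit 5) (nat_lit 31) (nat_lit 5) (nat_lit 361) (nat_lit 278) (nat_lit 141)) (XT.nd (nat_lit 78) (nat_lit 0) (nat_lit 0) (XT.lf (nat_lit 0) (nat_lit 6344272805) (nat_lit 152) (nat_lit 4857871144) (nat_lit 228) (nat_lit 24242315006) (nat_lit 28) (nat_lit 5) (nat_lit 30) (nat_lit 5) (nat_lit 31) (nat_lit 5) (nat_lit 362) (nat_lit 278) (nat_lit 140)) (XT.lf (nat_lit 0) (nat_lit 16166008501) (nat_lit 228) (nat_lit 17906239413) (nat_lit 76) (nat_lit 2213788509) (nat_lit 28) (nat_lit 5) (nat_lit 31) (nat_lit 5) (nat_lit 29) (nat_lit 5) (nat_lit 363) (nat_lit 278) (nat_lit 139))))))) (XT.nd (nat_lit 936) (nat_lit 380) (nat_lit 0) (XT.nd (nat_lit 468) (nat_lit 228) (nat_lit 0) (XT.nd (nat_lit 234) (nat_lit 228) (nat_lit 0) (XT.nd (nat_lit 78) (nat_lit 152) (nat_lit 0) (XT.lf (nat_lit 0) (nat_lit 21320048424) (nat_lit 228) (nat_lit 6435822375)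 (nat_lit 76) (nat_lit 9395758750) (nat_lit 28) (nat_lit 5) (nat_lit 31) (nat_lit 5) (nat_lit 29) (nat_lit 5) (nat_lit 364) (nat_lit 278) (nat_lit 138)) (XT.nd (nat_lit 78) (nat_lit 0) (nat_lit 0) (XT.lf (nat_lit 0) (nat_lit 5474613921) (nat_lit 152) (nat_lit 21200081835) (nat_lit 228) (nat_lit 11367121064) (nat_lit 26) (nat_lit 5) (nat_lit 28) (nat_lit 5) (nat_lit 29) (nat_lit 5) (nat_lit 365) (nat_lit 278) (nat_lit 137)) (XT.lf (nat_lit 0) (nat_lit 17863475754) (nat_lit 152) (nat_lit 14384946223) (nat_lit 228) (nat_lit 6708540315) (nat_lit 26) (nat_lit 5) (nat_lit 28) (nat_lit 5) (nat_lit 29) (nat_lit 5) (nat_lit 366) (nat_lit 278) (nat_lit 136)))) (XT.nd (nat_lit 78) (nat_lit 228) (nat_lit 0) (XT.lf (nat_lit 0) (nat_lit 30613502857) (nat_lit 152) (nat_lit 7369498176) (nat_lit 228) (nat_lit 1916757461) (nat_lit 26) (nat_lit 5) (nat_lit 28) (nat_lit 5) (nat_lit 29) (nat_lit 5) (nat_lit 367) (nat_lit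 278) (nat_lit 135)) (XT.nd (nat_lit 78) (nat_lit 0) (nat_lit 0) (XT.lf (nat_lit 0) (nat_lit 2892288599) (nat_lit 152) (nat_lit 89145285) (nat_lit 228) (nat_lit 37887892555) (nat_lit 23) (nat_lit 5) (nat_lit 25) (nat_lit 5) (nat_lit 26) (nat_lit 5) (nat_lit 368) (nat_lit 278) (nat_lit 134)) (XT.lf (nat_lit 0) (nat_lit 8147777447) (nat_lit 228) (nat_lit 26340125689) (nat_lit 76) (nat_lit 7374722133) (nat_lit 23) (nat_lit 5) (nat_lit 26) (nat_lit 5) (nat_lit 24) (nat_lit 5) (nat_lit 369) (nat_lit 278) (nat_lit 133))))) (XT.nd (nat_lit 234) (nat_lit 76) (nat_lit 0) (XT.nd (nat_lit 78) (nat_lit 152) (nat_lit 0) (XT.lf (nat_lit 0) (nat_lit 13463978606) (nat_lit 228) (nat_lit 14365060381) (nat_lit 76) (nat_lit 15056843031) (nat_lit 23) (nat_lit 5) (nat_lit 26) (nat_lit 5) (nat_lit 24) (nat_lit 5) (nat_lit 370) (nat_lit 278) (nat_lit 132)) (XT.nd (nat_lit 78) (nat_lit 152) (nat_lit 0) (XT.lf (nat_lit 0)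 (nat_lit 18933825668) (nat_lit 228) (nat_lit 2040521349) (nat_lit 76) (nat_lit 22965669486) (nat_lit 23) (nat_lit 5) (nat_lit 26) (nat_lit 5) (nat_lit 24) (nat_lit 5) (nat_lit 371) (nat_lit 278) (nat_lit 131)) (XT.lf (nat_lit 0) (nat_lit 10856102075) (nat_lit 152) (nat_lit 13810351527) (nat_lit 228) (nat_lit 20356365543) (nat_lit 21) (nat_lit 5) (nat_lit 23) (nat_lit 5) (nat_lit 24) (nat_lit 5) (nat_lit 372) (nat_lit 278) (nat_lit 130)))) (XT.nd (nat_lit 78) (nat_lit 76) (nat_lit 0) (XT.lf (nat_lit 0) (nat_lit 24172052531) (nat_lit 152) (nat_lit 6414017861) (nat_lit 228) (nat_lit 15551589726) (nat_lit 21) (nat_lit 5) (nat_lit 23) (nat_lit 5) (nat_lit 24) (nat_lit 5) (nat_lit 373) (nat_lit 278) (nat_lit 129)) (XT.nd (nat_lit 78) (nat_lit 76) (nat_lit 0) (XT.lf (nat_lit 0) (nat_lit 36689383459) (nat_lit 228) (nat_lit 9419298820) (nat_lit 76) (nat_lit 1177085227) (nat_lit 21) (nat_lit 5) (nat_lit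 24) (nat_lit 5) (nat_lit 22) (nat_lit 4) (nat_lit 374) (nat_lit 278) (nat_lit 128)) (XT.lf (nat_lit 0) (nat_lit 3499187051) (nat_lit 76) (nat_lit 39568441785) (nat_lit 152) (nat_lit 5397938582) (nat_lit 20) (nat_lit 5) (nat_lit 21) (nat_lit 5) (nat_lit 22) (nat_lit 4) (nat_lit 375) (nat_lit 278) (nat_lit 127)))))) (XT.nd (nat_lit 468) (nat_lit 152) (nat_lit 0) (XT.nd (nat_lit 234) (nat_lit 152) (nat_lit 0) (XT.nd (nat_lit 78) (nat_lit 0) (nat_lit 0) (XT.lf (nat_lit 0) (nat_lit 48072624) (nat_lit 152) (nat_lit 32689127242) (nat_lit 76) (nat_lit 16940855177) (nat_lit 19) (nat_lit 5) (nat_lit 21) (nat_lit 5) (nat_lit 20) (nat_lit 5) (nat_lit 376) (nat_lit 278) (nat_lit 126)) (XT.nd (nat_lit 78) (nat_lit 0) (nat_lit 0) (XT.lf (nat_lit 0) (nat_lit 5543829747) (nat_lit 152) (nat_lit 20105749113) (nat_lit 76) (nat_lit 25275893252) (nat_lit 19) (nat_lit 5) (nat_lit 21) (nat_lit 5) (nat_lit 20) (nat_lit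 5) (nat_lit 377) (nat_lit 278) (nat_lit 125)) (XT.lf (nat_lit 0) (nat_lit 11199468127) (nat_lit 152) (nat_lit 7153362505) (nat_lit 76) (nat_lit 33857634615) (nat_lit 19) (nat_lit 5) (nat_lit 21) (nat_lit 5) (nat_lit 20) (nat_lit 5) (nat_lit 378) (nat_lit 278) (nat_lit 124)))) (XT.nd (nat_lit 78) (nat_lit 0) (nat_lit 0) (XT.lf (nat_lit 0) (nat_lit 6302331383) (nat_lit 152) (nat_lit 10778180067) (nat_lit 228) (nat_lit 36451828354) (nat_lit 17) (nat_lit 5) (nat_lit 19) (nat_lit 5) (nat_lit 20) (nat_lit 5) (nat_lit 379) (nat_lit 278) (nat_lit 123)) (XT.nd (nat_lit 78) (nat_lit 0) (nat_lit 0) (XT.lf (nat_lit 0) (nat_lit 20300168343) (nat_lit 152) (nat_lit 2905269254) (nat_lit 228) (nat_lit 31686413047) (nat_lit 17) (nat_lit 5) (nat_lit 19) (nat_lit 5) (nat_lit 20) (nat_lit 5) (nat_lit 380) (nat_lit 278) (nat_lit 122)) (XT.lf (nat_lit 0) (nat_lit 29559458274) (nat_lit 228) (nat_lit 21632266896) (nat_lit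 76) (nat_lit 5099064725) (nat_lit 17) (nat_lit 5) (nat_lit 20) (nat_lit 5) (nat_lit 18) (nat_lit 4) (nat_lit 381) (nat_lit 278) (nat_lit 121))))) (XT.nd (nat_lit 234) (nat_lit 76) (nat_lit 0) (XT.nd (nat_lit 78) (nat_lit 76) (nat_lit 0) (XT.lf (nat_lit 0) (nat_lit 36128325153) (nat_lit 228) (nat_lit 8320638064) (nat_lit 76) (nat_lit 13282010727) (nat_lit 17) (nat_lit 5) (nat_lit 20) (nat_lit 5) (nat_lit 18) (nat_lit 4) (nat_lit 382) (nat_lit 278) (nat_lit 120)) (XT.nd (nat_lit 78) (nat_lit 0) (nat_lit 0) (XT.lf (nat_lit 0) (nat_lit 5489890478) (nat_lit 76) (nat_lit 37452732504) (nat_lit 152) (nat_lit 16270292870) (nat_lit 16) (nat_lit 5) (nat_lit 17) (nat_lit 5) (nat_lit 18) (nat_lit 4) (nat_lit 383) (nat_lit 278) (nat_lit 119)) (XT.lf (nat_lit 0) (nat_lit 19877797389) (nat_lit 76) (nat_lit 30163223492) (nat_lit 152) (nat_lit 10695908195) (nat_lit 16) (nat_lit 5) (nat_lit 17) (nat_lit 5) (nat_lit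 18) (nat_lit 4) (nat_lit 384) (nat_lit 278) (nat_lit 118)))) (XT.nd (nat_lit 78) (nat_lit 76) (nat_lit 0) (XT.lf (nat_lit 0) (nat_lit 34690057614) (nat_lit 76) (nat_lit 22658088839) (nat_lit 152) (nat_lit 4958646071) (nat_lit 16) (nat_lit 5) (nat_lit 17) (nat_lit 5) (nat_lit 18) (nat_lit 4) (nat_lit 385) (nat_lit 278) (nat_lit 117)) (XT.nd (nat_lit 78) (nat_lit 0) (nat_lit 0) (XT.lf (nat_lit 0) (nat_lit 928036887) (nat_lit 152) (nat_lit 13993362419) (nat_lit 76) (nat_lit 49002205664) (nat_lit 15) (nat_lit 5) (nat_lit 17) (nat_lit 5) (nat_lit 16) (nat_lit 5) (nat_lit 386) (nat_lit 278) (nat_lit 116)) (XT.lf (nat_lit 0) (nat_lit 6887632395) (nat_lit 152) (nat_lit 17332949) (nat_lit 76) (nat_lit 58682607137) (nat_lit 15) (nat_lit 5) (nat_lit 17) (nat_lit 5) (nat_lit 16) (nat_lit 5) (nat_lit 387) (nat_lit 278) (nat_lit 115))))))))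
noncomputable def xc160 : XT := (XT.nd (nat_lit 33462) (nat_lit 0) (nat_lit 6232) (XT.nd (nat_lit 32526) (nat_lit 0) (nat_lit 13680) (XT.nd (nat_lit 390) (nat_lit 0) (nat_lit 0) (XT.nd (nat_lit 156) (nat_lit 76) (nat_lit 0) (XT.nd (nat_lit 78) (nat_lit 0) (nat_lit 0) (XT.lf (nat_lit 0) (nat_lit 13177366915) (nat_lit 228) (nat_lit 52654468948) (nat_lit 76) (nat_lit 1465085374) (nat_lit 13) (nat_lit 5) (nat_lit 16) (nat_lit 5) (nat_lit 14) (nat_lit 4) (nat_lit 388) (nat_lit 278) (nat_lit 114)) (XT.lf (nat_lit 0) (nat_lit 19720451812) (nat_lit 228) (nat_lit 39390297955) (nat_lit 76) (nat_lit 9944863612) (nat_lit 13) (nat_lit 5) (nat_lit 16) (nat_lit 5) (nat_lit 14) (nat_lit 4) (nat_lit 389) (nat_lit 278) (nat_lit 113))) (XT.nd (nat_lit 78) (nat_lit 76) (nat_lit 0) (XT.lf (nat_lit 0) (nat_lit 26456057979) (nat_lit 228) (nat_lit 25734776026) (nat_lit 76) (nat_lit 18676348014) (nat_lit 13) (nat_lit 5)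 (nat_lit 16) (nat_lit 5) (nat_lit 14) (nat_lit 4) (nat_lit 390) (nat_lit 278) (nat_lit 112)) (XT.nd (nat_lit 78) (nat_lit 76) (nat_lit 0) (XT.lf (nat_lit 0) (nat_lit 33390070898) (nat_lit 228) (nat_lit 11675971149) (nat_lit 76) (nat_lit 27667168033) (nat_lit 13) (nat_lit 5) (nat_lit 16) (nat_lit 5) (nat_lit 14) (nat_lit 4) (nat_lit 391) (nat_lit 278) (nat_lit 111)) (XT.lf (nat_lit 0) (nat_lit 2854094733) (nat_lit 76) (nat_lit 37701889986) (nat_lit 152) (nat_lit 34098520296) (nat_lit 12) (nat_lit 5) (nat_lit 13) (nat_lit 5) (nat_lit 14) (nat_lit 4) (nat_lit 392) (nat_lit 278) (nat_lit 110))))) (XT.nd (nat_lit 31902) (nat_lit 0) (nat_lit 14440) (XT.nd (nat_lit 31746) (nat_lit 0) (nat_lit 15352) (XT.lf (nat_lit 0) (nat_lit 18053272501) (nat_lit 76) (nat_lit 29997997634) (nat_lit 152) (nat_lit 28578739214) (nat_lit 12) (nat_lit 5) (nat_lit 13) (nat_lit 5) (nat_lit 14) (nat_lit 4) (nat_lit 393) (nat_lit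 278) (nat_lit 109)) (XT.nd (nat_lit 78) (nat_lit 0) (nat_lit 0) (XT.lf (nat_lit 0) (nat_lit 1103744667) (nat_lit 0) (nat_lit 1103744667) (nat_lit 836) (nat_lit 1803728615) (nat_lit 214) (nat_lit 5) (nat_lit 214) (nat_lit 3) (nat_lit 225) (nat_lit 3) (nat_lit 279) (nat_lit 279) (nat_lit 222)) (XT.lf (nat_lit 0) (nat_lit 5585099775) (nat_lit 836) (nat_lit 2316352164) (nat_lit 912) (nat_lit 205681101) (nat_lit 214) (nat_lit 5) (nat_lit 225) (nat_lit 3) (nat_lit 226) (nat_lit 5) (nat_lit 280) (nat_lit 279) (nat_lit 221)))) (XT.nd (nat_lit 78) (nat_lit 912) (nat_lit 0) (XT.lf (nat_lit 76) (nat_lit 1266970010) (nat_lit 0) (nat_lit 5514593116) (nat_lit 912) (nat_lit 1413169254) (nat_lit 215) (nat_lit 5) (nat_lit 214) (nat_lit 5) (nat_lit 226) (nat_lit 5) (nat_lit 281) (nat_lit 279) (nat_lit 220)) (XT.nd (nat_lit 78) (nat_lit 912) (nat_lit 0) (XT.lf (nat_lit 76) (nat_lit 4982404359) (nat_lit 0) (nat_lit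 3013136687) (nat_lit 912) (nat_lit 290065615) (nat_lit 215) (nat_lit 5) (nat_lit 214) (nat_lit 5) (nat_lit 226) (nat_lit 5) (nat_lit 282) (nat_lit 279) (nat_lit 219)) (XT.lf (nat_lit 76) (nat_lit 406585675) (nat_lit 0) (nat_lit 406094912) (nat_lit 988) (nat_lit 7567480852) (nat_lit 203) (nat_lit 5) (nat_lit 202) (nat_lit 5) (nat_lit 215) (nat_lit 5) (nat_lit 283) (nat_lit 279) (nat_lit 218)))))) (XT.nd (nat_lit 468) (nat_lit 836) (nat_lit 0) (XT.nd (nat_lit 234) (nat_lit 0) (nat_lit 76) (XT.nd (nat_lit 78) (nat_lit 0) (nat_lit 0) (XT.lf (nat_lit 0) (nat_lit 1958368807) (nat_lit 912) (nat_lit 4230622830) (nat_lit 988) (nat_lit 2288091845) (nat_lit 203) (nat_lit 5) (nat_lit 215) (nat_lit 5) (nat_lit 216) (nat_lit 5) (nat_lit 284) (nat_lit 279) (nat_lit 217)) (XT.nd (nat_lit 78) (nat_lit 0) (nat_lit 0) (XT.lf (nat_lit 0) (nat_lit 3103705577) (nat_lit 912) (nat_lit 403032622) (nat_lit 988) (nat_lit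 5071301571) (nat_lit 203) (nat_lit 5) (nat_lit 215) (nat_lit 5) (nat_lit 216) (nat_lit 5) (nat_lit 285) (nat_lit 279) (nat_lit 216)) (XT.lf (nat_lit 76) (nat_lit 3586427098) (nat_lit 0) (nat_lit 693835877) (nat_lit 988) (nat_lit 4401938404) (nat_lit 204) (nat_lit 5) (nat_lit 203) (nat_lit 5) (nat_lit 216) (nat_lit 5) (nat_lit 286) (nat_lit 279) (nat_lit 215)))) (XT.nd (nat_lit 78) (nat_lit 0) (nat_lit 0) (XT.lf (nat_lit 0) (nat_lit 5480805727) (nat_lit 912) (nat_lit 1130788903) (nat_lit 988) (nat_lit 2178312592) (nat_lit 204) (nat_lit 5) (nat_lit 216) (nat_lit 5) (nat_lit 217) (nat_lit 5) (nat_lit 287) (nat_lit 279) (nat_lit 214)) (XT.nd (nat_lit 78) (nat_lit 0) (nat_lit 0) (XT.lf (nat_lit 76) (nat_lit 2981114372) (nat_lit 0) (nat_lit 3736239990) (nat_lit 988) (nat_lit 2183567905) (nat_lit 205) (nat_lit 5) (nat_lit 204) (nat_lit 5) (nat_lit 217) (nat_lit 5) (nat_lit 288) (nat_lit 279) (nat_lit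 213)) (XT.lf (nat_lit 76) (nat_lit 7216449297) (nat_lit 0) (nat_lit 751245490) (nat_lit 988) (nat_lit 1048347568) (nat_lit 205) (nat_lit 5) (nat_lit 204) (nat_lit 5) (nat_lit 217) (nat_lit 5) (nat_lit 289) (nat_lit 279) (nat_lit 212))))) (XT.nd (nat_lit 234) (nat_lit 0) (nat_lit 76) (XT.nd (nat_lit 78) (nat_lit 0) (nat_lit 0) (XT.lf (nat_lit 0) (nat_lit 130860777) (nat_lit 988) (nat_lit 6689605047) (nat_lit 1064) (nat_lit 2313817731) (nat_lit 192) (nat_lit 5) (nat_lit 205) (nat_lit 5) (nat_lit 206) (nat_lit 5) (nat_lit 290) (nat_lit 279) (nat_lit 211)) (XT.nd (nat_lit 78) (nat_lit 0) (nat_lit 0) (XT.lf (nat_lit 0) (nat_lit 1316920244) (nat_lit 988) (nat_lit 2444481022) (nat_lit 1064) (nat_lit 5494652017) (nat_lit 192) (nat_lit 5) (nat_lit 205) (nat_lit 5) (nat_lit 206) (nat_lit 5) (nat_lit 291) (nat_lit 279) (nat_lit 210)) (XT.lf (nat_lit 76) (nat_lit 1942479517) (nat_lit 0) (nat_lit 582477832)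 (nat_lit 1064) (nat_lit 6856993914) (nat_lit 193) (nat_lit 5) (nat_lit 192) (nat_lit 5) (nat_lit 206) (nat_lit 5) (nat_lit 292) (nat_lit 279) (nat_lit 209)))) (XT.nd (nat_lit 78) (nat_lit 0) (nat_lit 0) (XT.lf (nat_lit 0) (nat_lit 3788560922) (nat_lit 988) (nat_lit 3050131712) (nat_lit 1064) (nat_lit 2672418872) (nat_lit 193) (nat_lit 5) (nat_lit 206) (nat_lit 5) (nat_lit 207) (nat_lit 5) (nat_lit 293) (nat_lit 279) (nat_lit 208)) (XT.nd (nat_lit 78) (nat_lit 0) (nat_lit 0) (XT.lf (nat_lit 76) (nat_lit 1470233645) (nat_lit 0) (nat_lit 3609176841) (nat_lit 1064) (nat_lit 4565119124) (nat_lit 194) (nat_lit 5) (nat_lit 193) (nat_lit 5) (nat_lit 207) (nat_lit 5) (nat_lit 294) (nat_lit 279) (nat_lit 207)) (XT.lf (nat_lit 76) (nat_lit 6165388501) (nat_lit 0) (nat_lit 244501117) (nat_lit 1064) (nat_lit 3372094864) (nat_lit 194) (nat_lit 5) (nat_lit 193) (nat_lit 5) (nat_lit 207) (nat_lit 5) (nat_lit 295)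 (nat_lit 279) (nat_lit 206))))))) (XT.nd (nat_lit 936) (nat_lit 2736) (nat_lit 0) (XT.nd (nat_lit 468) (nat_lit 1672) (nat_lit 0) (XT.nd (nat_lit 234) (nat_lit 1064) (nat_lit 0) (XT.nd (nat_lit 78) (nat_lit 1140) (nat_lit 0) (XT.lf (nat_lit 0) (nat_lit 1043577994) (nat_lit 988) (nat_lit 6748735593) (nat_lit 1064) (nat_lit 2130948063) (nat_lit 181) (nat_lit 5) (nat_lit 194) (nat_lit 5) (nat_lit 195) (nat_lit 5) (nat_lit 296) (nat_lit 279) (nat_lit 205)) (XT.nd (nat_lit 78) (nat_lit 1140) (nat_lit 0) (XT.lf (nat_lit 0) (nat_lit 5891799175) (nat_lit 988) (nat_lit 3334982763) (nat_lit 1064) (nat_lit 841735871) (nat_lit 181) (nat_lit 5) (nat_lit 194) (nat_lit 5) (nat_lit 195) (nat_lit 5) (nat_lit 297) (nat_lit 279) (nat_lit 204)) (XT.lf (nat_lit 0) (nat_lit 456979171) (nat_lit 1140) (nat_lit 9568553024) (nat_lit 76) (nat_lit 193104377) (nat_lit 166) (nat_lit 5) (nat_lit 181) (nat_lit 5) (nat_lit 167)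 (nat_lit 5) (nat_lit 298) (nat_lit 279) (nat_lit 203)))) (XT.nd (nat_lit 78) (nat_lit 1064) (nat_lit 0) (XT.lf (nat_lit 0) (nat_lit 1826132232) (nat_lit 1140) (nat_lit 4730490046) (nat_lit 76) (nat_lit 3814987679) (nat_lit 166) (nat_lit 5) (nat_lit 181) (nat_lit 5) (nat_lit 167) (nat_lit 5) (nat_lit 299) (nat_lit 279) (nat_lit 202)) (XT.nd (nat_lit 78) (nat_lit 0) (nat_lit 0) (XT.lf (nat_lit 0) (nat_lit 233946322) (nat_lit 1064) (nat_lit 2978235926) (nat_lit 1140) (nat_lit 7317767004) (nat_lit 152) (nat_lit 5) (nat_lit 166) (nat_lit 5) (nat_lit 167) (nat_lit 5) (nat_lit 300) (nat_lit 279) (nat_lit 201)) (XT.lf (nat_lit 0) (nat_lit 4669004138) (nat_lit 1140) (nat_lit 5278551162) (nat_lit 76) (nat_lit 744657598) (nat_lit 152) (nat_lit 5) (nat_lit 167) (nat_lit 5) (nat_lit 153) (nat_lit 5) (nat_lit 301) (nat_lit 279) (nat_lit 200))))) (XT.nd (nat_lit 234) (nat_lit 1140) (nat_lit 0) (XT.nd (nat_lit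 78) (nat_lit 532) (nat_lit 0) (XT.lf (nat_lit 0) (nat_lit 6173918943) (nat_lit 1140) (nat_lit 163323310) (nat_lit 76) (nat_lit 4522018980) (nat_lit 152) (nat_lit 5) (nat_lit 167) (nat_lit 5) (nat_lit 153) (nat_lit 5) (nat_lit 302) (nat_lit 279) (nat_lit 199)) (XT.nd (nat_lit 78) (nat_lit 0) (nat_lit 0) (XT.lf (nat_lit 0) (nat_lit 5183936131) (nat_lit 532) (nat_lit 2565508046) (nat_lit 608) (nat_lit 3281159971) (nat_lit 145) (nat_lit 5) (nat_lit 152) (nat_lit 5) (nat_lit 153) (nat_lit 5) (nat_lit 303) (nat_lit 279) (nat_lit 198)) (XT.lf (nat_lit 0) (nat_lit 9362724576) (nat_lit 608) (nat_lit 547913049) (nat_lit 76) (nat_lit 1296780692) (nat_lit 145) (nat_lit 5) (nat_lit 153) (nat_lit 5) (nat_lit 146) (nat_lit 5) (nat_lit 304) (nat_lit 279) (nat_lit 197)))) (XT.nd (nat_lit 78) (nat_lit 608) (nat_lit 0) (XT.lf (nat_lit 0) (nat_lit 4958702042) (nat_lit 532) (nat_lit 6115604570) (nat_lit 608) (nat_lit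 313777522) (nat_lit 138) (nat_lit 5) (nat_lit 145) (nat_lit 5) (nat_lit 146) (nat_lit 5) (nat_lit 305) (nat_lit 279) (nat_lit 196)) (XT.nd (nat_lit 78) (nat_lit 532) (nat_lit 0) (XT.lf (nat_lit 0) (nat_lit 1221036809) (nat_lit 608) (nat_lit 967195104) (nat_lit 76) (nat_lit 9386137018) (nat_lit 137) (nat_lit 5) (nat_lit 145) (nat_lit 5) (nat_lit 138) (nat_lit 5) (nat_lit 306) (nat_lit 279) (nat_lit 195)) (XT.lf (nat_lit 0) (nat_lit 2837049020) (nat_lit 608) (nat_lit 7057938708) (nat_lit 76) (nat_lit 1869958101) (nat_lit 130) (nat_lit 5) (nat_lit 138) (nat_lit 5) (nat_lit 131) (nat_lit 5) (nat_lit 307) (nat_lit 279) (nat_lit 194)))))) (XT.nd (nat_lit 468) (nat_lit 1216) (nat_lit 0) (XT.nd (nat_lit 234) (nat_lit 988) (nat_lit 0) (XT.nd (nat_lit 78) (nat_lit 532) (nat_lit 0) (XT.lf (nat_lit 0) (nat_lit 4511209094) (nat_lit 608) (nat_lit 1434006055) (nat_lit 76) (nat_lit 6015774236) (nat_lit 130) (nat_lit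 5) (nat_lit 138) (nat_lit 5) (nat_lit 131) (nat_lit 5) (nat_lit 308) (nat_lit 279) (nat_lit 193)) (XT.nd (nat_lit 78) (nat_lit 0) (nat_lit 0) (XT.lf (nat_lit 0) (nat_lit 4423052684) (nat_lit 532) (nat_lit 1833833480) (nat_lit 608) (nat_lit 5905427548) (nat_lit 123) (nat_lit 5) (nat_lit 130) (nat_lit 5) (nat_lit 131) (nat_lit 5) (nat_lit 309) (nat_lit 279) (nat_lit 192)) (XT.lf (nat_lit 0) (nat_lit 8071812851) (nat_lit 608) (nat_lit 1929586691) (nat_lit 76) (nat_lit 2367808966) (nat_lit 123) (nat_lit 5) (nat_lit 131) (nat_lit 5) (nat_lit 124) (nat_lit 5) (nat_lit 310) (nat_lit 279) (nat_lit 191)))) (XT.nd (nat_lit 78) (nat_lit 532) (nat_lit 0) (XT.lf (nat_lit 0) (nat_lit 4094428792) (nat_lit 456) (nat_lit 5884056438) (nat_lit 532) (nat_lit 2602742016) (nat_lit 117) (nat_lit 5) (nat_lit 123) (nat_lit 5) (nat_lit 124) (nat_lit 5) (nat_lit 311) (nat_lit 279) (nat_lit 190)) (XT.nd (nat_lit 78) (nat_lit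 532) (nat_lit 0) (XT.lf (nat_lit 0) (nat_lit 10317242646) (nat_lit 456) (nat_lit 1624765547) (nat_lit 532) (nat_lit 857643828) (nat_lit 117) (nat_lit 5) (nat_lit 123) (nat_lit 5) (nat_lit 124) (nat_lit 5) (nat_lit 312) (nat_lit 279) (nat_lit 189)) (XT.lf (nat_lit 0) (nat_lit 964967086) (nat_lit 532) (nat_lit 9305995960) (nat_lit 76) (nat_lit 2752123485) (nat_lit 110) (nat_lit 5) (nat_lit 117) (nat_lit 5) (nat_lit 111) (nat_lit 5) (nat_lit 313) (nat_lit 279) (nat_lit 188))))) (XT.nd (nat_lit 234) (nat_lit 836) (nat_lit 0) (XT.nd (nat_lit 78) (nat_lit 380) (nat_lit 0) (XT.lf (nat_lit 0) (nat_lit 2847286306) (nat_lit 532) (nat_lit 3145486190) (nat_lit 76) (nat_lit 7259560820) (nat_lit 110) (nat_lit 5) (nat_lit 117) (nat_lit 5) (nat_lit 111) (nat_lit 5) (nat_lit 314) (nat_lit 279) (nat_lit 187)) (XT.nd (nat_lit 78) (nat_lit 0) (nat_lit 0) (XT.lf (nat_lit 0) (nat_lit 3242084087) (nat_lit 380) (nat_lit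 1556578553) (nat_lit 456) (nat_lit 8689448323) (nat_lit 105) (nat_lit 5) (nat_lit 110) (nat_lit 5) (nat_lit 111) (nat_lit 5) (nat_lit 315) (nat_lit 279) (nat_lit 186)) (XT.lf (nat_lit 0) (nat_lit 6851356809) (nat_lit 456) (nat_lit 3894888547) (nat_lit 76) (nat_lit 2983463467) (nat_lit 105) (nat_lit 5) (nat_lit 111) (nat_lit 5) (nat_lit 106) (nat_lit 5) (nat_lit 316) (nat_lit 279) (nat_lit 185)))) (XT.nd (nat_lit 78) (nat_lit 380) (nat_lit 0) (XT.lf (nat_lit 0) (nat_lit 2662585254) (nat_lit 456) (nat_lit 6326323378) (nat_lit 532) (nat_lit 4988976981) (nat_lit 99) (nat_lit 5) (nat_lit 105) (nat_lit 5) (nat_lit 106) (nat_lit 5) (nat_lit 317) (nat_lit 279) (nat_lit 184)) (XT.nd (nat_lit 78) (nat_lit 380) (nat_lit 0) (XT.lf (nat_lit 0) (nat_lit 9476084399) (nat_lit 456) (nat_lit 1736423052) (nat_lit 532) (nat_lit 3020371090) (nat_lit 99) (nat_lit 5) (nat_lit 105) (nat_lit 5) (nat_lit 106) (nat_lit 5)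 (nat_lit 318) (nat_lit 279) (nat_lit 183)) (XT.lf (nat_lit 0) (nat_lit 1988060981) (nat_lit 380) (nat_lit 11545684299) (nat_lit 456) (nat_lit 960875666) (nat_lit 94) (nat_lit 5) (nat_lit 99) (nat_lit 5) (nat_lit 100) (nat_lit 5) (nat_lit 319) (nat_lit 279) (nat_lit 182))))))))
noncomputable def xc161 : XT := (XT.nd (nat_lit 1794) (nat_lit 1900) (nat_lit 0) (XT.nd (nat_lit 858) (nat_lit 1444) (nat_lit 0) (XT.nd (nat_lit 390) (nat_lit 1064) (nat_lit 0) (XT.nd (nat_lit 156) (nat_lit 304) (nat_lit 0) (XT.nd (nat_lit 78) (nat_lit 380) (nat_lit 0) (XT.lf (nat_lit 0) (nat_lit 1186638291) (nat_lit 456) (nat_lit 5779433556) (nat_lit 76) (nat_lit 7796368851) (nat_lit 93) (nat_lit 5) (nat_lit 99) (nat_lit 5) (nat_lit 94) (nat_lit 5) (nat_lit 320) (nat_lit 279) (nat_lit 181)) (XT.lf (nat_lit 0) (nat_lit 1142275232) (nat_lit 380) (nat_lit 2231635233) (nat_lit 456) (nat_lit 11664285081) (nat_lit 88) (nat_lit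 5) (nat_lit 93) (nat_lit 5) (nat_lit 94) (nat_lit 5) (nat_lit 321) (nat_lit 279) (nat_lit 180))) (XT.nd (nat_lit 78) (nat_lit 304) (nat_lit 0) (XT.lf (nat_lit 0) (nat_lit 5695077719) (nat_lit 456) (nat_lit 6976647203) (nat_lit 76) (nat_lit 2648474350) (nat_lit 88) (nat_lit 5) (nat_lit 94) (nat_lit 5) (nat_lit 89) (nat_lit 5) (nat_lit 322) (nat_lit 279) (nat_lit 179)) (XT.nd (nat_lit 78) (nat_lit 0) (nat_lit 0) (XT.lf (nat_lit 0) (nat_lit 110575754) (nat_lit 304) (nat_lit 7982845435) (nat_lit 380) (nat_lit 7517039506) (nat_lit 84) (nat_lit 5) (nat_lit 88) (nat_lit 5) (nat_lit 89) (nat_lit 5) (nat_lit 323) (nat_lit 279) (nat_lit 178)) (XT.lf (nat_lit 0) (nat_lit 7533932193) (nat_lit 304) (nat_lit 3084883552) (nat_lit 380) (nat_lit 5288984323) (nat_lit 84) (nat_lit 5) (nat_lit 88) (nat_lit 5) (nat_lit 89) (nat_lit 5) (nat_lit 324) (nat_lit 279) (nat_lit 177))))) (XT.nd (nat_lit 234) (nat_lit 608)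 (nat_lit 0) (XT.nd (nat_lit 78) (nat_lit 456) (nat_lit 0) (XT.lf (nat_lit 0) (nat_lit 13223871715) (nat_lit 380) (nat_lit 1072271747) (nat_lit 76) (nat_lit 1917821631) (nat_lit 84) (nat_lit 5) (nat_lit 89) (nat_lit 5) (nat_lit 85) (nat_lit 5) (nat_lit 325) (nat_lit 279) (nat_lit 176)) (XT.nd (nat_lit 78) (nat_lit 76) (nat_lit 0) (XT.lf (nat_lit 0) (nat_lit 6526385486) (nat_lit 380) (nat_lit 9459466763) (nat_lit 456) (nat_lit 541121434) (nat_lit 79) (nat_lit 5) (nat_lit 84) (nat_lit 5) (nat_lit 85) (nat_lit 5) (nat_lit 326) (nat_lit 279) (nat_lit 175)) (XT.lf (nat_lit 0) (nat_lit 1939167536) (nat_lit 456) (nat_lit 2512137613) (nat_lit 76) (nat_lit 12397621247) (nat_lit 78) (nat_lit 5) (nat_lit 84) (nat_lit 5) (nat_lit 79) (nat_lit 5) (nat_lit 327) (nat_lit 279) (nat_lit 174)))) (XT.nd (nat_lit 78) (nat_lit 304) (nat_lit 0) (XT.lf (nat_lit 0) (nat_lit 4527052787) (nat_lit 380) (nat_lit 11906327920)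 (nat_lit 76) (nat_lit 745694296) (nat_lit 74) (nat_lit 5) (nat_lit 79) (nat_lit 5) (nat_lit 75) (nat_lit 5) (nat_lit 328) (nat_lit 279) (nat_lit 173)) (XT.nd (nat_lit 78) (nat_lit 304) (nat_lit 0) (XT.lf (nat_lit 0) (nat_lit 7248451974) (nat_lit 380) (nat_lit 4238594754) (nat_lit 76) (nat_lit 6030424391) (nat_lit 74) (nat_lit 5) (nat_lit 79) (nat_lit 5) (nat_lit 75) (nat_lit 5) (nat_lit 329) (nat_lit 279) (nat_lit 172)) (XT.lf (nat_lit 0) (nat_lit 3713598316) (nat_lit 304) (nat_lit 6360180763) (nat_lit 380) (nat_lit 7791590268) (nat_lit 70) (nat_lit 5) (nat_lit 74) (nat_lit 5) (nat_lit 75) (nat_lit 5) (nat_lit 330) (nat_lit 279) (nat_lit 171)))))) (XT.nd (nat_lit 468) (nat_lit 760) (nat_lit 0) (XT.nd (nat_lit 234) (nat_lit 304) (nat_lit 0) (XT.nd (nat_lit 78) (nat_lit 380) (nat_lit 0) (XT.lf (nat_lit 0) (nat_lit 11973383290) (nat_lit 304) (nat_lit 1040091703) (nat_lit 380) (nat_lit 5209359519)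 (nat_lit 70) (nat_lit 5) (nat_lit 74) (nat_lit 5) (nat_lit 75) (nat_lit 5) (nat_lit 331) (nat_lit 279) (nat_lit 170)) (XT.nd (nat_lit 78) (nat_lit 76) (nat_lit 0) (XT.lf (nat_lit 0) (nat_lit 1865974806) (nat_lit 304) (nat_lit 14223148198) (nat_lit 380) (nat_lit 2500485517) (nat_lit 66) (nat_lit 5) (nat_lit 70) (nat_lit 5) (nat_lit 71) (nat_lit 5) (nat_lit 332) (nat_lit 279) (nat_lit 169)) (XT.lf (nat_lit 0) (nat_lit 345244415) (nat_lit 380) (nat_lit 8644025203) (nat_lit 76) (nat_lit 9976212055) (nat_lit 65) (nat_lit 5) (nat_lit 70) (nat_lit 5) (nat_lit 66) (nat_lit 5) (nat_lit 333) (nat_lit 279) (nat_lit 168)))) (XT.nd (nat_lit 78) (nat_lit 304) (nat_lit 0) (XT.lf (nat_lit 0) (nat_lit 3213673383) (nat_lit 380) (nat_lit 364064173) (nat_lit 76) (nat_lit 15774539436) (nat_lit 65) (nat_lit 5) (nat_lit 70) (nat_lit 5) (nat_lit 66) (nat_lit 5) (nat_lit 334) (nat_lit 279) (nat_lit 167)) (XT.nd (nat_lit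 78) (nat_lit 0) (nat_lit 0) (XT.lf (nat_lit 0) (nat_lit 6255912519) (nat_lit 380) (nat_lit 11458918695) (nat_lit 76) (nat_lit 2033227987) (nat_lit 61) (nat_lit 5) (nat_lit 66) (nat_lit 5) (nat_lit 62) (nat_lit 5) (nat_lit 335) (nat_lit 279) (nat_lit 166)) (XT.lf (nat_lit 0) (nat_lit 9416646518) (nat_lit 380) (nat_lit 2998596106) (nat_lit 76) (nat_lit 7739670714) (nat_lit 61) (nat_lit 5) (nat_lit 66) (nat_lit 5) (nat_lit 62) (nat_lit 5) (nat_lit 336) (nat_lit 279) (nat_lit 165))))) (XT.nd (nat_lit 234) (nat_lit 304) (nat_lit 0) (XT.nd (nat_lit 78) (nat_lit 228) (nat_lit 0) (XT.lf (nat_lit 0) (nat_lit 5812516317) (nat_lit 228) (nat_lit 6903998333) (nat_lit 304) (nat_lit 7856143932) (nat_lit 58) (nat_lit 5) (nat_lit 61) (nat_lit 5) (nat_lit 62) (nat_lit 5) (nat_lit 337) (nat_lit 279) (nat_lit 164)) (XT.nd (nat_lit 78) (nat_lit 228) (nat_lit 0) (XT.lf (nat_lit 0) (nat_lit 14933148627) (nat_lit 228)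 (nat_lit 1201129019) (nat_lit 304) (nat_lit 4868105986) (nat_lit 58) (nat_lit 5) (nat_lit 61) (nat_lit 5) (nat_lit 62) (nat_lit 5) (nat_lit 338) (nat_lit 279) (nat_lit 163)) (XT.lf (nat_lit 0) (nat_lit 2877524995) (nat_lit 228) (nat_lit 16838531765) (nat_lit 304) (nat_lit 1727113170) (nat_lit 55) (nat_lit 5) (nat_lit 58) (nat_lit 5) (nat_lit 59) (nat_lit 5) (nat_lit 339) (nat_lit 279) (nat_lit 162)))) (XT.nd (nat_lit 78) (nat_lit 228) (nat_lit 0) (XT.lf (nat_lit 0) (nat_lit 1541420315) (nat_lit 304) (nat_lit 9721418497) (nat_lit 76) (nat_lit 10632037105) (nat_lit 54) (nat_lit 5) (nat_lit 58) (nat_lit 5) (nat_lit 55) (nat_lit 5) (nat_lit 340) (nat_lit 279) (nat_lit 161)) (XT.nd (nat_lit 78) (nat_lit 228) (nat_lit 0) (XT.lf (nat_lit 0) (nat_lit 4862571287) (nat_lit 304) (nat_lit 644676484) (nat_lit 76) (nat_lit 16852706873) (nat_lit 54) (nat_lit 5) (nat_lit 58) (nat_lit 5) (nat_lit 55) (nat_lit 5)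 (nat_lit 341) (nat_lit 279) (nat_lit 160)) (XT.lf (nat_lit 0) (nat_lit 8362975239) (nat_lit 304) (nat_lit 13979554136) (nat_lit 76) (nat_lit 494080236) (nat_lit 51) (nat_lit 5) (nat_lit 55) (nat_lit 5) (nat_lit 52) (nat_lit 5) (nat_lit 342) (nat_lit 279) (nat_lit 159))))))) (XT.nd (nat_lit 936) (nat_lit 684) (nat_lit 0) (XT.nd (nat_lit 468) (nat_lit 684) (nat_lit 0) (XT.nd (nat_lit 234) (nat_lit 304) (nat_lit 0) (XT.nd (nat_lit 78) (nat_lit 228) (nat_lit 0) (XT.lf (nat_lit 0) (nat_lit 12019191557) (nat_lit 304) (nat_lit 4740283000) (nat_lit 76) (nat_lit 6566577735) (nat_lit 51) (nat_lit 5) (nat_lit 55) (nat_lit 5) (nat_lit 52) (nat_lit 5) (nat_lit 343) (nat_lit 279) (nat_lit 158)) (XT.nd (nat_lit 78) (nat_lit 0) (nat_lit 0) (XT.lf (nat_lit 0) (nat_lit 4855995057) (nat_lit 228) (nat_lit 10965776760) (nat_lit 304) (nat_lit 8007317833) (nat_lit 48) (nat_lit 5) (nat_lit 51) (nat_lit 5) (nat_lit 52)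 (nat_lit 5) (nat_lit 344) (nat_lit 279) (nat_lit 157)) (XT.lf (nat_lit 0) (nat_lit 14822549809) (nat_lit 228) (nat_lit 4953895098) (nat_lit 304) (nat_lit 4569644138) (nat_lit 48) (nat_lit 5) (nat_lit 51) (nat_lit 5) (nat_lit 52) (nat_lit 5) (nat_lit 345) (nat_lit 279) (nat_lit 156)))) (XT.nd (nat_lit 78) (nat_lit 76) (nat_lit 0) (XT.lf (nat_lit 0) (nat_lit 186636807) (nat_lit 228) (nat_lit 23667207958) (nat_lit 304) (nat_lit 1024642106) (nat_lit 45) (nat_lit 5) (nat_lit 48) (nat_lit 5) (nat_lit 49) (nat_lit 5) (nat_lit 346) (nat_lit 279) (nat_lit 155)) (XT.nd (nat_lit 78) (nat_lit 0) (nat_lit 0) (XT.lf (nat_lit 0) (nat_lit 2712048567) (nat_lit 304) (nat_lit 15130542397) (nat_lit 76) (nat_lit 7579420739) (nat_lit 44) (nat_lit 5) (nat_lit 48) (nat_lit 5) (nat_lit 45) (nat_lit 5) (nat_lit 347) (nat_lit 279) (nat_lit 154)) (XT.lf (nat_lit 0) (nat_lit 6530949986) (nat_lit 304) (nat_lit 5306775430) (nat_lit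 76) (nat_lit 14144101496) (nat_lit 44) (nat_lit 5) (nat_lit 48) (nat_lit 5) (nat_lit 45) (nat_lit 5) (nat_lit 348) (nat_lit 279) (nat_lit 153))))) (XT.nd (nat_lit 234) (nat_lit 456) (nat_lit 0) (XT.nd (nat_lit 78) (nat_lit 0) (nat_lit 0) (XT.lf (nat_lit 0) (nat_lit 4893371500) (nat_lit 228) (nat_lit 5609060092) (nat_lit 304) (nat_lit 16054874405) (nat_lit 41) (nat_lit 5) (nat_lit 44) (nat_lit 5) (nat_lit 45) (nat_lit 5) (nat_lit 349) (nat_lit 279) (nat_lit 152)) (XT.nd (nat_lit 78) (nat_lit 0) (nat_lit 0) (XT.lf (nat_lit 0) (nat_lit 14645988808) (nat_lit 304) (nat_lit 11662333230) (nat_lit 76) (nat_lit 840149011) (nat_lit 41) (nat_lit 5) (nat_lit 45) (nat_lit 5) (nat_lit 42) (nat_lit 5) (nat_lit 350) (nat_lit 279) (nat_lit 151)) (XT.lf (nat_lit 0) (nat_lit 18960708691) (nat_lit 304) (nat_lit 1429729015) (nat_lit 76) (nat_lit 7365536921) (nat_lit 41) (nat_lit 5) (nat_lit 45) (nat_lit 5) (nat_lit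 42) (nat_lit 5) (nat_lit 351) (nat_lit 279) (nat_lit 150)))) (XT.nd (nat_lit 78) (nat_lit 304) (nat_lit 0) (XT.lf (nat_lit 0) (nat_lit 9277779878) (nat_lit 152) (nat_lit 14207847485) (nat_lit 228) (nat_lit 4893662215) (nat_lit 39) (nat_lit 5) (nat_lit 41) (nat_lit 5) (nat_lit 42) (nat_lit 5) (nat_lit 352) (nat_lit 279) (nat_lit 149)) (XT.nd (nat_lit 78) (nat_lit 304) (nat_lit 0) (XT.lf (nat_lit 0) (nat_lit 20322834323) (nat_lit 152) (nat_lit 7829590816) (nat_lit 228) (nat_lit 868703614) (nat_lit 39) (nat_lit 5) (nat_lit 41) (nat_lit 5) (nat_lit 42) (nat_lit 5) (nat_lit 353) (nat_lit 279) (nat_lit 148)) (XT.lf (nat_lit 0) (nat_lit 2011998125) (nat_lit 228) (nat_lit 1212247890) (nat_lit 304) (nat_lit 26456704638) (nat_lit 35) (nat_lit 5) (nat_lit 38) (nat_lit 5) (nat_lit 39) (nat_lit 5) (nat_lit 354) (nat_lit 279) (nat_lit 147)))))) (XT.nd (nat_lit 468) (nat_lit 380) (nat_lit 0) (XT.nd (nat_lit 234)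 (nat_lit 152) (nat_lit 0) (XT.nd (nat_lit 78) (nat_lit 152) (nat_lit 0) (XT.lf (nat_lit 0) (nat_lit 7557014071) (nat_lit 304) (nat_lit 17212221559) (nat_lit 76) (nat_lit 5587046828) (nat_lit 35) (nat_lit 5) (nat_lit 39) (nat_lit 5) (nat_lit 36) (nat_lit 5) (nat_lit 355) (nat_lit 279) (nat_lit 146)) (XT.nd (nat_lit 78) (nat_lit 152) (nat_lit 0) (XT.lf (nat_lit 0) (nat_lit 12023922248) (nat_lit 304) (nat_lit 6466275894) (nat_lit 76) (nat_lit 12561559112) (nat_lit 35) (nat_lit 5) (nat_lit 39) (nat_lit 5) (nat_lit 36) (nat_lit 5) (nat_lit 356) (nat_lit 279) (nat_lit 145)) (XT.lf (nat_lit 0) (nat_lit 4681275543) (nat_lit 152) (nat_lit 11980944542) (nat_lit 228) (nat_lit 15104762260) (nat_lit 33) (nat_lit 5) (nat_lit 35) (nat_lit 5) (nat_lit 36) (nat_lit 5) (nat_lit 357) (nat_lit 279) (nat_lit 144)))) (XT.nd (nat_lit 78) (nat_lit 152) (nat_lit 0) (XT.lf (nat_lit 0) (nat_lit 16283803530) (nat_lit 152)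 (nat_lit 5213649640) (nat_lit 228) (nat_lit 11004484730) (nat_lit 33) (nat_lit 5) (nat_lit 35) (nat_lit 5) (nat_lit 36) (nat_lit 5) (nat_lit 358) (nat_lit 279) (nat_lit 143)) (XT.nd (nat_lit 78) (nat_lit 152) (nat_lit 0) (XT.lf (nat_lit 0) (nat_lit 26487295816) (nat_lit 228) (nat_lit 5053257542) (nat_lit 76) (nat_lit 1718109279) (nat_lit 33) (nat_lit 5) (nat_lit 36) (nat_lit 5) (nat_lit 34) (nat_lit 5) (nat_lit 359) (nat_lit 279) (nat_lit 142)) (XT.lf (nat_lit 0) (nat_lit 6510496646) (nat_lit 152) (nat_lit 25223420297) (nat_lit 228) (nat_lit 2300966561) (nat_lit 31) (nat_lit 5) (nat_lit 33) (nat_lit 5) (nat_lit 34) (nat_lit 5) (nat_lit 360) (nat_lit 279) (nat_lit 141))))) (XT.nd (nat_lit 234) (nat_lit 152) (nat_lit 0) (XT.nd (nat_lit 78) (nat_lit 152) (nat_lit 0) (XT.lf (nat_lit 0) (nat_lit 2303030403) (nat_lit 228) (nat_lit 16342285168) (nat_lit 76) (nat_lit 16187084567) (nat_lit 30) (nat_lit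 5) (nat_lit 33) (nat_lit 5) (nat_lit 31) (nat_lit 5) (nat_lit 361) (nat_lit 279) (nat_lit 140)) (XT.nd (nat_lit 78) (nat_lit 152) (nat_lit 0) (XT.lf (nat_lit 0) (nat_lit 6992008817) (nat_lit 228) (nat_lit 4858693514) (nat_lit 76) (nat_lit 23802669524) (nat_lit 30) (nat_lit 5) (nat_lit 33) (nat_lit 5) (nat_lit 31) (nat_lit 5) (nat_lit 362) (nat_lit 279) (nat_lit 139)) (XT.lf (nat_lit 0) (nat_lit 7097029208) (nat_lit 152) (nat_lit 4786157768) (nat_lit 228) (nat_lit 24613945952) (nat_lit 28) (nat_lit 5) (nat_lit 30) (nat_lit 5) (nat_lit 31) (nat_lit 5) (nat_lit 363) (nat_lit 279) (nat_lit 138)))) (XT.nd (nat_lit 78) (nat_lit 152) (nat_lit 0) (XT.lf (nat_lit 0) (nat_lit 16987948918) (nat_lit 228) (nat_lit 17889059842) (nat_lit 76) (nat_lit 2487198560) (nat_lit 28) (nat_lit 5) (nat_lit 31) (nat_lit 5) (nat_lit 29) (nat_lit 5) (nat_lit 364) (nat_lit 279) (nat_lit 137)) (XT.nd (nat_lit 78) (nat_lit 152)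 (nat_lit 0) (XT.lf (nat_lit 0) (nat_lit 22286795665) (nat_lit 228) (nat_lit 6090676897) (nat_lit 76) (nat_lit 9878598886) (nat_lit 28) (nat_lit 5) (nat_lit 31) (nat_lit 5) (nat_lit 29) (nat_lit 5) (nat_lit 365) (nat_lit 279) (nat_lit 136)) (XT.lf (nat_lit 0) (nat_lit 6171795820) (nat_lit 152) (nat_lit 21625881058) (nat_lit 228) (nat_lit 11375428149) (nat_lit 26) (nat_lit 5) (nat_lit 28) (nat_lit 5) (nat_lit 29) (nat_lit 5) (nat_lit 366) (nat_lit 279) (nat_lit 135))))))))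
noncomputable def xc162 : XT := (XT.nd (nat_lit 1794) (nat_lit 76) (nat_lit 0) (XT.nd (nat_lit 858) (nat_lit 456) (nat_lit 0) (XT.nd (nat_lit 390) (nat_lit 304) (nat_lit 0) (XT.nd (nat_lit 156) (nat_lit 228) (nat_lit 0) (XT.nd (nat_lit 78) (nat_lit 0) (nat_lit 0) (XT.lf (nat_lit 0) (nat_lit 18916800882) (nat_lit 152) (nat_lit 14612413802) (nat_lit 228) (nat_lit 6586780460) (nat_lit 26) (nat_lit 5) (nat_lit 28) (nat_lit 5) (nat_lit 29) (nat_lit 5) (nat_lit 367) (nat_lit 279) (nat_lit 134)) (XT.lf (nat_lit 0) (nat_lit 32034258287) (nat_lit 152) (nat_lit 7392446415) (nat_lit 228) (nat_lit 1660652354) (nat_lit 26) (nat_lit 5) (nat_lit 28) (nat_lit 5) (nat_lit 29) (nat_lit 5) (nat_lit 368) (nat_lit 279) (nat_lit 133))) (XT.nd (nat_lit 78) (nat_lit 0) (nat_lit 0) (XT.lf (nat_lit 0) (nat_lit 3375294857) (nat_lit 228) (nat_lit 38604296363) (nat_lit 76) (nat_lit 106430062) (nat_lit 23) (nat_lit 5) (nat_lit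 26) (nat_lit 5) (nat_lit 24) (nat_lit 5) (nat_lit 369) (nat_lit 279) (nat_lit 132)) (XT.nd (nat_lit 78) (nat_lit 0) (nat_lit 0) (XT.lf (nat_lit 0) (nat_lit 8688619103) (nat_lit 228) (nat_lit 26634047920) (nat_lit 76) (nat_lit 7786699694) (nat_lit 23) (nat_lit 5) (nat_lit 26) (nat_lit 5) (nat_lit 24) (nat_lit 5) (nat_lit 370) (nat_lit 279) (nat_lit 131)) (XT.lf (nat_lit 0) (nat_lit 14155673045) (nat_lit 228) (nat_lit 14314185455) (nat_lit 76) (nat_lit 15693728805) (nat_lit 23) (nat_lit 5) (nat_lit 26) (nat_lit 5) (nat_lit 24) (nat_lit 5) (nat_lit 371) (nat_lit 279) (nat_lit 130))))) (XT.nd (nat_lit 234) (nat_lit 152) (nat_lit 0) (XT.nd (nat_lit 78) (nat_lit 152) (nat_lit 0) (XT.lf (nat_lit 0) (nat_lit 19781233720) (nat_lit 228) (nat_lit 1633944040) (nat_lit 76) (nat_lit 23834426448) (nat_lit 23) (nat_lit 5) (nat_lit 26) (nat_lit 5) (nat_lit 24) (nat_lit 5) (nat_lit 372) (nat_lit 279) (nat_lit 129))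 (XT.nd (nat_lit 78) (nat_lit 0) (nat_lit 0) (XT.lf (nat_lit 0) (nat_lit 11644991881) (nat_lit 152) (nat_lit 14037163570) (nat_lit 228) (nat_lit 20682852758) (nat_lit 21) (nat_lit 5) (nat_lit 23) (nat_lit 5) (nat_lit 24) (nat_lit 5) (nat_lit 373) (nat_lit 279) (nat_lit 128)) (XT.lf (nat_lit 0) (nat_lit 25346929392) (nat_lit 152) (nat_lit 6424401015) (nat_lit 228) (nat_lit 15742211446) (nat_lit 21) (nat_lit 5) (nat_lit 23) (nat_lit 5) (nat_lit 24) (nat_lit 5) (nat_lit 374) (nat_lit 279) (nat_lit 127)))) (XT.nd (nat_lit 78) (nat_lit 152) (nat_lit 0) (XT.lf (nat_lit 0) (nat_lit 38051645310) (nat_lit 228) (nat_lit 9258952058) (nat_lit 76) (nat_lit 1385684363) (nat_lit 21) (nat_lit 5) (nat_lit 24) (nat_lit 5) (nat_lit 22) (nat_lit 4) (nat_lit 375) (nat_lit 279) (nat_lit 126)) (XT.nd (nat_lit 78) (nat_lit 76) (nat_lit 0) (XT.lf (nat_lit 0) (nat_lit 4042745980) (nat_lit 76) (nat_lit 40575089154) (nat_lit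 152) (nat_lit 5293748750) (nat_lit 20) (nat_lit 5) (nat_lit 21) (nat_lit 5) (nat_lit 22) (nat_lit 4) (nat_lit 376) (nat_lit 279) (nat_lit 125)) (XT.lf (nat_lit 0) (nat_lit 302849632) (nat_lit 152) (nat_lit 33238756701) (nat_lit 76) (nat_lit 17618996865) (nat_lit 19) (nat_lit 5) (nat_lit 21) (nat_lit 5) (nat_lit 20) (nat_lit 5) (nat_lit 377) (nat_lit 279) (nat_lit 124)))))) (XT.nd (nat_lit 468) (nat_lit 304) (nat_lit 0) (XT.nd (nat_lit 234) (nat_lit 0) (nat_lit 0) (XT.nd (nat_lit 78) (nat_lit 152) (nat_lit 0) (XT.lf (nat_lit 0) (nat_lit 5956100784) (nat_lit 152) (nat_lit 20290431918) (nat_lit 76) (nat_lit 26199137072) (nat_lit 19) (nat_lit 5) (nat_lit 21) (nat_lit 5) (nat_lit 20) (nat_lit 5) (nat_lit 378) (nat_lit 279) (nat_lit 123)) (XT.nd (nat_lit 78) (nat_lit 152) (nat_lit 0) (XT.lf (nat_lit 0) (nat_lit 11774244544) (nat_lit 152) (nat_lit 6961662732) (nat_lit 76) (nat_lit 35033525810) (nat_lit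 19) (nat_lit 5) (nat_lit 21) (nat_lit 5) (nat_lit 20) (nat_lit 5) (nat_lit 379) (nat_lit 279) (nat_lit 122)) (XT.lf (nat_lit 0) (nat_lit 6893718633) (nat_lit 152) (nat_lit 10934912736) (nat_lit 228) (nat_lit 37302430456) (nat_lit 17) (nat_lit 5) (nat_lit 19) (nat_lit 5) (nat_lit 20) (nat_lit 5) (nat_lit 380) (nat_lit 279) (nat_lit 121)))) (XT.nd (nat_lit 78) (nat_lit 0) (nat_lit 0) (XT.lf (nat_lit 0) (nat_lit 21299772723) (nat_lit 152) (nat_lit 2830667397) (nat_lit 228) (nat_lit 32401128983) (nat_lit 17) (nat_lit 5) (nat_lit 19) (nat_lit 5) (nat_lit 20) (nat_lit 5) (nat_lit 381) (nat_lit 279) (nat_lit 120)) (XT.nd (nat_lit 78) (nat_lit 0) (nat_lit 0) (XT.lf (nat_lit 0) (nat_lit 30669925837) (nat_lit 228) (nat_lit 21896689801) (nat_lit 76) (nat_lit 5406020566) (nat_lit 17) (nat_lit 5) (nat_lit 20) (nat_lit 5) (nat_lit 18) (nat_lit 4) (nat_lit 382) (nat_lit 279) (nat_lit 119)) (XT.lf (nat_lit 0)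 (nat_lit 37429343660) (nat_lit 228) (nat_lit 8196912446) (nat_lit 76) (nat_lit 13829969980) (nat_lit 17) (nat_lit 5) (nat_lit 20) (nat_lit 5) (nat_lit 18) (nat_lit 4) (nat_lit 383) (nat_lit 279) (nat_lit 118))))) (XT.nd (nat_lit 234) (nat_lit 228) (nat_lit 0) (XT.nd (nat_lit 78) (nat_lit 0) (nat_lit 0) (XT.lf (nat_lit 0) (nat_lit 6024271709) (nat_lit 76) (nat_lit 38421027045) (nat_lit 152) (nat_lit 16537415367) (nat_lit 16) (nat_lit 5) (nat_lit 17) (nat_lit 5) (nat_lit 18) (nat_lit 4) (nat_lit 384) (nat_lit 279) (nat_lit 117)) (XT.nd (nat_lit 78) (nat_lit 0) (nat_lit 0) (XT.lf (nat_lit 0) (nat_lit 20833048317) (nat_lit 76) (nat_lit 30917355698) (nat_lit 152) (nat_lit 10802235645) (nat_lit 16) (nat_lit 5) (nat_lit 17) (nat_lit 5) (nat_lit 18) (nat_lit 4) (nat_lit 385) (nat_lit 279) (nat_lit 116)) (XT.lf (nat_lit 0) (nat_lit 36079222455) (nat_lit 76) (nat_lit 23191458204) (nat_lit 152) (nat_lit 4899104681)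 (nat_lit 16) (nat_lit 5) (nat_lit 17) (nat_lit 5) (nat_lit 18) (nat_lit 4) (nat_lit 386) (nat_lit 279) (nat_lit 115)))) (XT.nd (nat_lit 78) (nat_lit 152) (nat_lit 0) (XT.lf (nat_lit 0) (nat_lit 1154165444) (nat_lit 152) (nat_lit 14070763527) (nat_lit 76) (nat_lit 50610295771) (nat_lit 15) (nat_lit 5) (nat_lit 17) (nat_lit 5) (nat_lit 16) (nat_lit 5) (nat_lit 387) (nat_lit 279) (nat_lit 114)) (XT.nd (nat_lit 78) (nat_lit 0) (nat_lit 0) (XT.lf (nat_lit 0) (nat_lit 320834657) (nat_lit 152) (nat_lit 6969022856) (nat_lit 228) (nat_lit 60259338575) (nat_lit 13) (nat_lit 5) (nat_lit 15) (nat_lit 5) (nat_lit 16) (nat_lit 5) (nat_lit 388) (nat_lit 279) (nat_lit 113)) (XT.lf (nat_lit 0) (nat_lit 13764094127) (nat_lit 228) (nat_lit 53900438446) (nat_lit 76) (nat_lit 1645422383) (nat_lit 13) (nat_lit 5) (nat_lit 16) (nat_lit 5) (nat_lit 14) (nat_lit 4) (nat_lit 389) (nat_lit 279) (nat_lit 112))))))) (XT.nd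 (nat_lit 32682) (nat_lit 0) (nat_lit 11704) (XT.nd (nat_lit 32214) (nat_lit 0) (nat_lit 14440) (XT.nd (nat_lit 234) (nat_lit 76) (nat_lit 0) (XT.nd (nat_lit 78) (nat_lit 0) (nat_lit 0) (XT.lf (nat_lit 0) (nat_lit 20497896633) (nat_lit 228) (nat_lit 40248060709) (nat_lit 76) (nat_lit 10375621605) (nat_lit 13) (nat_lit 5) (nat_lit 16) (nat_lit 5) (nat_lit 14) (nat_lit 4) (nat_lit 390) (nat_lit 279) (nat_lit 111)) (XT.nd (nat_lit 78) (nat_lit 0) (nat_lit 0) (XT.lf (nat_lit 0) (nat_lit 27430158424) (nat_lit 228) (nat_lit 26192308448) (nat_lit 76) (nat_lit 19365193877) (nat_lit 13) (nat_lit 5) (nat_lit 16) (nat_lit 5) (nat_lit 14) (nat_lit 4) (nat_lit 391) (nat_lit 279) (nat_lit 110)) (XT.lf (nat_lit 0) (nat_lit 34566936817) (nat_lit 228) (nat_lit 11720899936) (nat_lit 76) (nat_lit 28621994164) (nat_lit 13) (nat_lit 5) (nat_lit 16) (nat_lit 5) (nat_lit 14) (nat_lit 4) (nat_lit 392) (nat_lit 279) (nat_lit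 109)))) (XT.nd (nat_lit 31824) (nat_lit 0) (nat_lit 15352) (XT.lf (nat_lit 0) (nat_lit 3242074293) (nat_lit 76) (nat_lit 38703558340) (nat_lit 152) (nat_lit 34943201441) (nat_lit 12) (nat_lit 5) (nat_lit 13) (nat_lit 5) (nat_lit 14) (nat_lit 4) (nat_lit 393) (nat_lit 279) (nat_lit 108)) (XT.nd (nat_lit 78) (nat_lit 0) (nat_lit 0) (XT.lf (nat_lit 0) (nat_lit 1682501007) (nat_lit 0) (nat_lit 1682501007) (nat_lit 836) (nat_lit 731315576) (nat_lit 214) (nat_lit 5) (nat_lit 214) (nat_lit 3) (nat_lit 225) (nat_lit 3) (nat_lit 280) (nat_lit 280) (nat_lit 220)) (XT.lf (nat_lit 0) (nat_lit 7026146499) (nat_lit 0) (nat_lit 843435115) (nat_lit 836) (nat_lit 412406563) (nat_lit 214) (nat_lit 5) (nat_lit 214) (nat_lit 3) (nat_lit 225) (nat_lit 3) (nat_lit 281) (nat_lit 280) (nat_lit 219))))) (XT.nd (nat_lit 234) (nat_lit 0) (nat_lit 76) (XT.nd (nat_lit 78) (nat_lit 0) (nat_lit 0) (XT.lf (nat_lit 0) (nat_lit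 656067495) (nat_lit 912) (nat_lit 5948619876) (nat_lit 988) (nat_lit 1769237356) (nat_lit 202) (nat_lit 5) (nat_lit 214) (nat_lit 5) (nat_lit 215) (nat_lit 5) (nat_lit 282) (nat_lit 280) (nat_lit 218)) (XT.nd (nat_lit 78) (nat_lit 0) (nat_lit 0) (XT.lf (nat_lit 0) (nat_lit 1729614414) (nat_lit 912) (nat_lit 2260607413) (nat_lit 988) (nat_lit 4478923290) (nat_lit 202) (nat_lit 5) (nat_lit 214) (nat_lit 5) (nat_lit 215) (nat_lit 5) (nat_lit 283) (nat_lit 280) (nat_lit 217)) (XT.lf (nat_lit 76) (nat_lit 1546437374) (nat_lit 0) (nat_lit 1265106018) (nat_lit 988) (nat_lit 5756478378) (nat_lit 203) (nat_lit 5) (nat_lit 202) (nat_lit 5) (nat_lit 215) (nat_lit 5) (nat_lit 284) (nat_lit 280) (nat_lit 216)))) (XT.nd (nat_lit 78) (nat_lit 0) (nat_lit 0) (XT.lf (nat_lit 0) (nat_lit 3926189925) (nat_lit 912) (nat_lit 3193134843) (nat_lit 988) (nat_lit 1550614611) (nat_lit 203) (nat_lit 5) (nat_lit 215) (nat_lit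 5) (nat_lit 216) (nat_lit 5) (nat_lit 285) (nat_lit 280) (nat_lit 215)) (XT.nd (nat_lit 78) (nat_lit 0) (nat_lit 0) (XT.lf (nat_lit 76) (nat_lit 729605545) (nat_lit 0) (nat_lit 4327690685) (nat_lit 988) (nat_lit 3718207722) (nat_lit 204) (nat_lit 5) (nat_lit 203) (nat_lit 5) (nat_lit 216) (nat_lit 5) (nat_lit 286) (nat_lit 280) (nat_lit 214)) (XT.lf (nat_lit 76) (nat_lit 4813428572) (nat_lit 0) (nat_lit 1405484357) (nat_lit 988) (nat_lit 2665502932) (nat_lit 204) (nat_lit 5) (nat_lit 203) (nat_lit 5) (nat_lit 216) (nat_lit 5) (nat_lit 287) (nat_lit 280) (nat_lit 213)))))) (XT.nd (nat_lit 468) (nat_lit 1900) (nat_lit 0) (XT.nd (nat_lit 234) (nat_lit 0) (nat_lit 76) (XT.nd (nat_lit 78) (nat_lit 988) (nat_lit 0) (XT.lf (nat_lit 0) (nat_lit 7396299171) (nat_lit 912) (nat_lit 14905838) (nat_lit 988) (nat_lit 1586037935) (nat_lit 204) (nat_lit 5) (nat_lit 216) (nat_lit 5) (nat_lit 217) (nat_lit 5) (nat_lit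 288) (nat_lit 280) (nat_lit 212)) (XT.nd (nat_lit 78) (nat_lit 988) (nat_lit 0) (XT.lf (nat_lit 76) (nat_lit 4209081920) (nat_lit 0) (nat_lit 4420804614) (nat_lit 988) (nat_lit 483015175) (nat_lit 205) (nat_lit 5) (nat_lit 204) (nat_lit 5) (nat_lit 217) (nat_lit 5) (nat_lit 289) (nat_lit 280) (nat_lit 211)) (XT.lf (nat_lit 0) (nat_lit 622435451) (nat_lit 988) (nat_lit 700865349) (nat_lit 1064) (nat_lit 7909594876) (nat_lit 191) (nat_lit 5) (nat_lit 204) (nat_lit 5) (nat_lit 205) (nat_lit 5) (nat_lit 290) (nat_lit 280) (nat_lit 210)))) (XT.nd (nat_lit 78) (nat_lit 0) (nat_lit 0) (XT.lf (nat_lit 0) (nat_lit 1772935553) (nat_lit 988) (nat_lit 5701541245) (nat_lit 1064) (nat_lit 1881288410) (nat_lit 192) (nat_lit 5) (nat_lit 205) (nat_lit 5) (nat_lit 206) (nat_lit 5) (nat_lit 291) (nat_lit 280) (nat_lit 209)) (XT.nd (nat_lit 78) (nat_lit 0) (nat_lit 0) (XT.lf (nat_lit 0) (nat_lit 2946863728) (nat_lit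 988) (nat_lit 1363687342) (nat_lit 1064) (nat_lit 5172167448) (nat_lit 192) (nat_lit 5) (nat_lit 205) (nat_lit 5) (nat_lit 206) (nat_lit 5) (nat_lit 292) (nat_lit 280) (nat_lit 208)) (XT.lf (nat_lit 76) (nat_lit 3143567031) (nat_lit 0) (nat_lit 1012236958) (nat_lit 1064) (nat_lit 5457745799) (nat_lit 193) (nat_lit 5) (nat_lit 192) (nat_lit 5) (nat_lit 206) (nat_lit 5) (nat_lit 293) (nat_lit 280) (nat_lit 207))))) (XT.nd (nat_lit 234) (nat_lit 2052) (nat_lit 0) (XT.nd (nat_lit 78) (nat_lit 0) (nat_lit 0) (XT.lf (nat_lit 0) (nat_lit 5408173853) (nat_lit 988) (nat_lit 1979852872) (nat_lit 1064) (nat_lit 2360125779) (nat_lit 193) (nat_lit 5) (nat_lit 206) (nat_lit 5) (nat_lit 207) (nat_lit 5) (nat_lit 294) (nat_lit 280) (nat_lit 206)) (XT.nd (nat_lit 78) (nat_lit 0) (nat_lit 0) (XT.lf (nat_lit 76) (nat_lit 2664733419) (nat_lit 0) (nat_lit 4040210965) (nat_lit 1064) (nat_lit 3181703591) (nat_lit 194)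 (nat_lit 5) (nat_lit 193) (nat_lit 5) (nat_lit 207) (nat_lit 5) (nat_lit 295) (nat_lit 280) (nat_lit 205)) (XT.lf (nat_lit 76) (nat_lit 7467236335) (nat_lit 0) (nat_lit 565194227) (nat_lit 1064) (nat_lit 1997171199) (nat_lit 194) (nat_lit 5) (nat_lit 193) (nat_lit 5) (nat_lit 207) (nat_lit 5) (nat_lit 296) (nat_lit 280) (nat_lit 204)))) (XT.nd (nat_lit 78) (nat_lit 1140) (nat_lit 0) (XT.lf (nat_lit 0) (nat_lit 2229197129) (nat_lit 988) (nat_lit 7193644017) (nat_lit 1064) (nat_lit 753366164) (nat_lit 181) (nat_lit 5) (nat_lit 194) (nat_lit 5) (nat_lit 195) (nat_lit 5) (nat_lit 297) (nat_lit 280) (nat_lit 203)) (XT.nd (nat_lit 78) (nat_lit 1064) (nat_lit 0) (XT.lf (nat_lit 0) (nat_lit 522144946) (nat_lit 1064) (nat_lit 3142999471) (nat_lit 76) (nat_lit 6661826626) (nat_lit 180) (nat_lit 5) (nat_lit 194) (nat_lit 5) (nat_lit 181) (nat_lit 5) (nat_lit 298) (nat_lit 280) (nat_lit 202)) (XT.lf (nat_lit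 0) (nat_lit 1810999991) (nat_lit 1064) (nat_lit 938655) (nat_lit 1140) (nat_lit 8670411873) (nat_lit 166) (nat_lit 5) (nat_lit 180) (nat_lit 5) (nat_lit 181) (nat_lit 5) (nat_lit 299) (nat_lit 280) (nat_lit 201))))))))
noncomputable def xc163 : XT := (XT.nd (nat_lit 1794) (nat_lit 3040) (nat_lit 0) (XT.nd (nat_lit 858) (nat_lit 2660) (nat_lit 0) (XT.nd (nat_lit 390) (nat_lit 1672) (nat_lit 0) (XT.nd (nat_lit 156) (nat_lit 532) (nat_lit 0) (XT.nd (nat_lit 78) (nat_lit 1064) (nat_lit 0) (XT.lf (nat_lit 0) (nat_lit 3183092003) (nat_lit 1140) (nat_lit 3722629885) (nat_lit 76) (nat_lit 3735439399) (nat_lit 166) (nat_lit 5) (nat_lit 181) (nat_lit 5) (nat_lit 167) (nat_lit 5) (nat_lit 300) (nat_lit 280) (nat_lit 200)) (XT.lf (nat_lit 0) (nat_lit 1379467271) (nat_lit 1064) (nat_lit 3204272781) (nat_lit 1140) (nat_lit 6221393952) (nat_lit 152) (nat_lit 5) (nat_lit 166) (nat_lit 5) (nat_lit 167) (nat_lit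 5) (nat_lit 301) (nat_lit 280) (nat_lit 199))) (XT.nd (nat_lit 78) (nat_lit 532) (nat_lit 0) (XT.lf (nat_lit 0) (nat_lit 6045849398) (nat_lit 1140) (nat_lit 4290761841) (nat_lit 76) (nat_lit 636878426) (nat_lit 152) (nat_lit 5) (nat_lit 167) (nat_lit 5) (nat_lit 153) (nat_lit 5) (nat_lit 302) (nat_lit 280) (nat_lit 198)) (XT.nd (nat_lit 78) (nat_lit 0) (nat_lit 0) (XT.lf (nat_lit 0) (nat_lit 963338154) (nat_lit 532) (nat_lit 6605811112) (nat_lit 608) (nat_lit 3577272562) (nat_lit 145) (nat_lit 5) (nat_lit 152) (nat_lit 5) (nat_lit 153) (nat_lit 5) (nat_lit 303) (nat_lit 280) (nat_lit 197)) (XT.lf (nat_lit 0) (nat_lit 6441307741) (nat_lit 532) (nat_lit 2716990636) (nat_lit 608) (nat_lit 2165683391) (nat_lit 145) (nat_lit 5) (nat_lit 152) (nat_lit 5) (nat_lit 153) (nat_lit 5) (nat_lit 304) (nat_lit 280) (nat_lit 196))))) (XT.nd (nat_lit 234) (nat_lit 532) (nat_lit 0) (XT.nd (nat_lit 78) (nat_lit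 608) (nat_lit 0) (XT.lf (nat_lit 0) (nat_lit 553350662) (nat_lit 532) (nat_lit 10236986997) (nat_lit 608) (nat_lit 716717404) (nat_lit 138) (nat_lit 5) (nat_lit 145) (nat_lit 5) (nat_lit 146) (nat_lit 5) (nat_lit 305) (nat_lit 280) (nat_lit 195)) (XT.nd (nat_lit 78) (nat_lit 532) (nat_lit 0) (XT.lf (nat_lit 0) (nat_lit 814974020) (nat_lit 608) (nat_lit 5498520902) (nat_lit 76) (nat_lit 5380310690) (nat_lit 137) (nat_lit 5) (nat_lit 145) (nat_lit 5) (nat_lit 138) (nat_lit 5) (nat_lit 306) (nat_lit 280) (nat_lit 194)) (XT.lf (nat_lit 0) (nat_lit 93611808) (nat_lit 532) (nat_lit 2263847464) (nat_lit 608) (nat_lit 9529148443) (nat_lit 130) (nat_lit 5) (nat_lit 137) (nat_lit 5) (nat_lit 138) (nat_lit 5) (nat_lit 307) (nat_lit 280) (nat_lit 193)))) (XT.nd (nat_lit 78) (nat_lit 532) (nat_lit 0) (XT.lf (nat_lit 0) (nat_lit 3999402248) (nat_lit 608) (nat_lit 6158090725) (nat_lit 76) (nat_lit 1926143645)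 (nat_lit 130) (nat_lit 5) (nat_lit 138) (nat_lit 5) (nat_lit 131) (nat_lit 5) (nat_lit 308) (nat_lit 280) (nat_lit 192)) (XT.nd (nat_lit 78) (nat_lit 532) (nat_lit 0) (XT.lf (nat_lit 0) (nat_lit 5692411150) (nat_lit 608) (nat_lit 397816388) (nat_lit 76) (nat_lit 6196331736) (nat_lit 130) (nat_lit 5) (nat_lit 138) (nat_lit 5) (nat_lit 131) (nat_lit 5) (nat_lit 309) (nat_lit 280) (nat_lit 191)) (XT.lf (nat_lit 0) (nat_lit 5624373625) (nat_lit 532) (nat_lit 1845895117) (nat_lit 608) (nat_lit 5024315152) (nat_lit 123) (nat_lit 5) (nat_lit 130) (nat_lit 5) (nat_lit 131) (nat_lit 5) (nat_lit 310) (nat_lit 280) (nat_lit 190)))))) (XT.nd (nat_lit 468) (nat_lit 1292) (nat_lit 0) (XT.nd (nat_lit 234) (nat_lit 836) (nat_lit 0) (XT.nd (nat_lit 78) (nat_lit 532) (nat_lit 0) (XT.lf (nat_lit 0) (nat_lit 9310170039) (nat_lit 608) (nat_lit 918721189) (nat_lit 76) (nat_lit 2479731772) (nat_lit 123) (nat_lit 5) (nat_lit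 131) (nat_lit 5) (nat_lit 124) (nat_lit 5) (nat_lit 311) (nat_lit 280) (nat_lit 189)) (XT.nd (nat_lit 78) (nat_lit 76) (nat_lit 0) (XT.lf (nat_lit 0) (nat_lit 5275536787) (nat_lit 456) (nat_lit 5979662975) (nat_lit 532) (nat_lit 1672419541) (nat_lit 117) (nat_lit 5) (nat_lit 123) (nat_lit 5) (nat_lit 124) (nat_lit 5) (nat_lit 312) (nat_lit 280) (nat_lit 188)) (XT.lf (nat_lit 0) (nat_lit 93793898) (nat_lit 532) (nat_lit 1500209076) (nat_lit 76) (nat_lit 11559470477) (nat_lit 116) (nat_lit 5) (nat_lit 123) (nat_lit 5) (nat_lit 117) (nat_lit 5) (nat_lit 313) (nat_lit 280) (nat_lit 187)))) (XT.nd (nat_lit 78) (nat_lit 380) (nat_lit 0) (XT.lf (nat_lit 0) (nat_lit 1936785623) (nat_lit 532) (nat_lit 8518357389) (nat_lit 76) (nat_lit 2928772362) (nat_lit 110) (nat_lit 5) (nat_lit 117) (nat_lit 5) (nat_lit 111) (nat_lit 5) (nat_lit 314) (nat_lit 280) (nat_lit 186)) (XT.nd (nat_lit 78) (nat_lit 380) (nat_lit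 0) (XT.lf (nat_lit 0) (nat_lit 3848112200) (nat_lit 532) (nat_lit 2204104707) (nat_lit 76) (nat_lit 7568692472) (nat_lit 110) (nat_lit 5) (nat_lit 117) (nat_lit 5) (nat_lit 111) (nat_lit 5) (nat_lit 315) (nat_lit 280) (nat_lit 185)) (XT.lf (nat_lit 0) (nat_lit 4364938305) (nat_lit 380) (nat_lit 1476287785) (nat_lit 456) (nat_lit 8023082991) (nat_lit 105) (nat_lit 5) (nat_lit 110) (nat_lit 5) (nat_lit 111) (nat_lit 5) (nat_lit 316) (nat_lit 280) (nat_lit 184))))) (XT.nd (nat_lit 234) (nat_lit 836) (nat_lit 0) (XT.nd (nat_lit 78) (nat_lit 456) (nat_lit 0) (XT.lf (nat_lit 0) (nat_lit 7930513298) (nat_lit 456) (nat_lit 2989583535) (nat_lit 76) (nat_lit 3193850991) (nat_lit 105) (nat_lit 5) (nat_lit 111) (nat_lit 5) (nat_lit 106) (nat_lit 5) (nat_lit 317) (nat_lit 280) (nat_lit 183)) (XT.nd (nat_lit 78) (nat_lit 0) (nat_lit 0) (XT.lf (nat_lit 0) (nat_lit 3754593386) (nat_lit 456) (nat_lit 6361882389)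 (nat_lit 532) (nat_lit 4253607673) (nat_lit 99) (nat_lit 5) (nat_lit 105) (nat_lit 5) (nat_lit 106) (nat_lit 5) (nat_lit 318) (nat_lit 280) (nat_lit 182)) (XT.lf (nat_lit 0) (nat_lit 10743017974) (nat_lit 456) (nat_lit 1638777209) (nat_lit 532) (nat_lit 2251721429) (nat_lit 99) (nat_lit 5) (nat_lit 105) (nat_lit 5) (nat_lit 106) (nat_lit 5) (nat_lit 319) (nat_lit 280) (nat_lit 181)))) (XT.nd (nat_lit 78) (nat_lit 456) (nat_lit 0) (XT.lf (nat_lit 0) (nat_lit 3045384722) (nat_lit 380) (nat_lit 11714013620) (nat_lit 456) (nat_lit 144150738) (nat_lit 94) (nat_lit 5) (nat_lit 99) (nat_lit 5) (nat_lit 100) (nat_lit 5) (nat_lit 320) (nat_lit 280) (nat_lit 180)) (XT.nd (nat_lit 78) (nat_lit 380) (nat_lit 0) (XT.lf (nat_lit 0) (nat_lit 2027141758) (nat_lit 456) (nat_lit 4966928748) (nat_lit 76) (nat_lit 8185850858) (nat_lit 93) (nat_lit 5) (nat_lit 99) (nat_lit 5) (nat_lit 94) (nat_lit 5) (nat_lit 321)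 (nat_lit 280) (nat_lit 179)) (XT.lf (nat_lit 0) (nat_lit 2152765738) (nat_lit 380) (nat_lit 2113206591) (nat_lit 456) (nat_lit 11198434596) (nat_lit 88) (nat_lit 5) (nat_lit 93) (nat_lit 5) (nat_lit 94) (nat_lit 5) (nat_lit 322) (nat_lit 280) (nat_lit 178))))))) (XT.nd (nat_lit 936) (nat_lit 1292) (nat_lit 0) (XT.nd (nat_lit 468) (nat_lit 988) (nat_lit 0) (XT.nd (nat_lit 234) (nat_lit 456) (nat_lit 0) (XT.nd (nat_lit 78) (nat_lit 304) (nat_lit 0) (XT.lf (nat_lit 0) (nat_lit 6635470354) (nat_lit 456) (nat_lit 6215679849) (nat_lit 76) (nat_lit 2904394903) (nat_lit 88) (nat_lit 5) (nat_lit 94) (nat_lit 5) (nat_lit 89) (nat_lit 5) (nat_lit 323) (nat_lit 280) (nat_lit 177)) (XT.nd (nat_lit 78) (nat_lit 0) (nat_lit 0) (XT.lf (nat_lit 0) (nat_lit 1074647377) (nat_lit 304) (nat_lit 8017938315) (nat_lit 380) (nat_lit 6962358227) (nat_lit 84) (nat_lit 5) (nat_lit 88) (nat_lit 5) (nat_lit 89) (nat_lit 5)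 (nat_lit 324) (nat_lit 280) (nat_lit 176)) (XT.lf (nat_lit 0) (nat_lit 8692721373) (nat_lit 304) (nat_lit 2978990754) (nat_lit 380) (nat_lit 4690185441) (nat_lit 84) (nat_lit 5) (nat_lit 88) (nat_lit 5) (nat_lit 89) (nat_lit 5) (nat_lit 325) (nat_lit 280) (nat_lit 175)))) (XT.nd (nat_lit 78) (nat_lit 456) (nat_lit 0) (XT.lf (nat_lit 0) (nat_lit 14335383429) (nat_lit 380) (nat_lit 178226117) (nat_lit 76) (nat_lit 2164256317) (nat_lit 84) (nat_lit 5) (nat_lit 89) (nat_lit 5) (nat_lit 85) (nat_lit 5) (nat_lit 326) (nat_lit 280) (nat_lit 174)) (XT.nd (nat_lit 78) (nat_lit 0) (nat_lit 0) (XT.lf (nat_lit 0) (nat_lit 164294259) (nat_lit 456) (nat_lit 9362956521) (nat_lit 76) (nat_lit 7473356997) (nat_lit 78) (nat_lit 5) (nat_lit 84) (nat_lit 5) (nat_lit 79) (nat_lit 5) (nat_lit 327) (nat_lit 280) (nat_lit 173)) (XT.lf (nat_lit 0) (nat_lit 2687413758) (nat_lit 456) (nat_lit 1682364184) (nat_lit 76) (nat_lit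 12962930958) (nat_lit 78) (nat_lit 5) (nat_lit 84) (nat_lit 5) (nat_lit 79) (nat_lit 5) (nat_lit 328) (nat_lit 280) (nat_lit 172))))) (XT.nd (nat_lit 234) (nat_lit 380) (nat_lit 0) (XT.nd (nat_lit 78) (nat_lit 304) (nat_lit 0) (XT.lf (nat_lit 0) (nat_lit 5343544277) (nat_lit 380) (nat_lit 11348034395) (nat_lit 76) (nat_lit 981493669) (nat_lit 74) (nat_lit 5) (nat_lit 79) (nat_lit 5) (nat_lit 75) (nat_lit 5) (nat_lit 329) (nat_lit 280) (nat_lit 171)) (XT.nd (nat_lit 78) (nat_lit 304) (nat_lit 0) (XT.lf (nat_lit 0) (nat_lit 8126759811) (nat_lit 380) (nat_lit 3476933799) (nat_lit 76) (nat_lit 6418549301) (nat_lit 74) (nat_lit 5) (nat_lit 79) (nat_lit 5) (nat_lit 75) (nat_lit 5) (nat_lit 330) (nat_lit 280) (nat_lit 170)) (XT.lf (nat_lit 0) (nat_lit 4705111154) (nat_lit 304) (nat_lit 6320947499) (nat_lit 380) (nat_lit 7354870066) (nat_lit 70) (nat_lit 5) (nat_lit 74) (nat_lit 5) (nat_lit 75) (nat_lit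 5) (nat_lit 331) (nat_lit 280) (nat_lit 169)))) (XT.nd (nat_lit 78) (nat_lit 380) (nat_lit 0) (XT.lf (nat_lit 0) (nat_lit 13187055554) (nat_lit 304) (nat_lit 847955923) (nat_lit 380) (nat_lit 4714700586) (nat_lit 70) (nat_lit 5) (nat_lit 74) (nat_lit 5) (nat_lit 75) (nat_lit 5) (nat_lit 332) (nat_lit 280) (nat_lit 168)) (XT.nd (nat_lit 78) (nat_lit 76) (nat_lit 0) (XT.lf (nat_lit 0) (nat_lit 2785535126) (nat_lit 304) (nat_lit 14409396917) (nat_lit 380) (nat_lit 1932822599) (nat_lit 66) (nat_lit 5) (nat_lit 70) (nat_lit 5) (nat_lit 71) (nat_lit 5) (nat_lit 333) (nat_lit 280) (nat_lit 167)) (XT.lf (nat_lit 0) (nat_lit 967384787) (nat_lit 380) (nat_lit 8051942658) (nat_lit 76) (nat_lit 10495965796) (nat_lit 65) (nat_lit 5) (nat_lit 70) (nat_lit 5) (nat_lit 66) (nat_lit 5) (nat_lit 334) (nat_lit 280) (nat_lit 166)))))) (XT.nd (nat_lit 468) (nat_lit 532) (nat_lit 0) (XT.nd (nat_lit 234) (nat_lit 456)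 (nat_lit 0) (XT.nd (nat_lit 78) (nat_lit 0) (nat_lit 0) (XT.lf (nat_lit 0) (nat_lit 460607153) (nat_lit 304) (nat_lit 3447868185) (nat_lit 380) (nat_lit 16005642103) (nat_lit 61) (nat_lit 5) (nat_lit 65) (nat_lit 5) (nat_lit 66) (nat_lit 5) (nat_lit 335) (nat_lit 280) (nat_lit 165)) (XT.nd (nat_lit 78) (nat_lit 0) (nat_lit 0) (XT.lf (nat_lit 0) (nat_lit 7030371073) (nat_lit 380) (nat_lit 10968144667) (nat_lit 76) (nat_lit 2323628299) (nat_lit 61) (nat_lit 5) (nat_lit 66) (nat_lit 5) (nat_lit 62) (nat_lit 5) (nat_lit 336) (nat_lit 280) (nat_lit 164)) (XT.lf (nat_lit 0) (nat_lit 10268836378) (nat_lit 380) (nat_lit 2278319437) (nat_lit 76) (nat_lit 8194582653) (nat_lit 61) (nat_lit 5) (nat_lit 66) (nat_lit 5) (nat_lit 62) (nat_lit 5) (nat_lit 337) (nat_lit 280) (nat_lit 163)))) (XT.nd (nat_lit 78) (nat_lit 228) (nat_lit 0) (XT.lf (nat_lit 0) (nat_lit 6789182882) (nat_lit 228) (nat_lit 6869636858)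 (nat_lit 304) (nat_lit 7513484060) (nat_lit 58) (nat_lit 5) (nat_lit 61) (nat_lit 5) (nat_lit 62) (nat_lit 5) (nat_lit 338) (nat_lit 280) (nat_lit 162)) (XT.nd (nat_lit 78) (nat_lit 228) (nat_lit 0) (XT.lf (nat_lit 0) (nat_lit 16160066461) (nat_lit 228) (nat_lit 1002714904) (nat_lit 304) (nat_lit 4452649952) (nat_lit 58) (nat_lit 5) (nat_lit 61) (nat_lit 5) (nat_lit 62) (nat_lit 5) (nat_lit 339) (nat_lit 280) (nat_lit 161)) (XT.lf (nat_lit 0) (nat_lit 3749762977) (nat_lit 228) (nat_lit 17096135055) (nat_lit 304) (nat_lit 1223746732) (nat_lit 55) (nat_lit 5) (nat_lit 58) (nat_lit 5) (nat_lit 59) (nat_lit 5) (nat_lit 340) (nat_lit 280) (nat_lit 160))))) (XT.nd (nat_lit 234) (nat_lit 228) (nat_lit 0) (XT.nd (nat_lit 78) (nat_lit 228) (nat_lit 0) (XT.lf (nat_lit 0) (nat_lit 2116154454) (nat_lit 304) (nat_lit 9238890403) (nat_lit 76) (nat_lit 11180191545) (nat_lit 54) (nat_lit 5) (nat_lit 58) (nat_lit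 5) (nat_lit 55) (nat_lit 5) (nat_lit 341) (nat_lit 280) (nat_lit 159)) (XT.nd (nat_lit 78) (nat_lit 0) (nat_lit 0) (XT.lf (nat_lit 0) (nat_lit 89348726) (nat_lit 228) (nat_lit 5433057146) (nat_lit 304) (nat_lit 17492316020) (nat_lit 51) (nat_lit 5) (nat_lit 54) (nat_lit 5) (nat_lit 55) (nat_lit 5) (nat_lit 342) (nat_lit 280) (nat_lit 158)) (XT.lf (nat_lit 0) (nat_lit 9121469552) (nat_lit 304) (nat_lit 13641230431) (nat_lit 76) (nat_lit 743184943) (nat_lit 51) (nat_lit 5) (nat_lit 55) (nat_lit 5) (nat_lit 52) (nat_lit 5) (nat_lit 343) (nat_lit 280) (nat_lit 157)))) (XT.nd (nat_lit 78) (nat_lit 228) (nat_lit 0) (XT.lf (nat_lit 0) (nat_lit 12872587746) (nat_lit 304) (nat_lit 4146850394) (nat_lit 76) (nat_lit 6991033611) (nat_lit 51) (nat_lit 5) (nat_lit 55) (nat_lit 5) (nat_lit 52) (nat_lit 5) (nat_lit 344) (nat_lit 280) (nat_lit 156)) (XT.nd (nat_lit 78) (nat_lit 0) (nat_lit 0) (XT.lf (nat_lit 0)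 (nat_lit 5730103837) (nat_lit 228) (nat_lit 11051789688) (nat_lit 304) (nat_lit 7746944081) (nat_lit 48) (nat_lit 5) (nat_lit 51) (nat_lit 5) (nat_lit 52) (nat_lit 5) (nat_lit 345) (nat_lit 280) (nat_lit 155)) (XT.lf (nat_lit 0) (nat_lit 15974438856) (nat_lit 228) (nat_lit 4866628091) (nat_lit 304) (nat_lit 4220720562) (nat_lit 48) (nat_lit 5) (nat_lit 51) (nat_lit 5) (nat_lit 52) (nat_lit 5) (nat_lit 346) (nat_lit 280) (nat_lit 154))))))))
noncomputable def xc164 : XT := (XT.nd (nat_lit 1794) (nat_lit 988) (nat_lit 0) (XT.nd (nat_lit 858) (nat_lit 684) (nat_lit 0) (XT.nd (nat_lit 390) (nat_lit 456) (nat_lit 0) (XT.nd (nat_lit 156) (nat_lit 228) (nat_lit 0) (XT.nd (nat_lit 78) (nat_lit 76) (nat_lit 0) (XT.lf (nat_lit 0) (nat_lit 904810021) (nat_lit 228) (nat_lit 24131301875) (nat_lit 304) (nat_lit 574201535) (nat_lit 45) (nat_lit 5) (nat_lit 48) (nat_lit 5) (nat_lit 49) (nat_lit 5) (nat_lit 347)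 (nat_lit 280) (nat_lit 153)) (XT.lf (nat_lit 0) (nat_lit 3251458842) (nat_lit 304) (nat_lit 14883024920) (nat_lit 76) (nat_lit 8035948673) (nat_lit 44) (nat_lit 5) (nat_lit 48) (nat_lit 5) (nat_lit 45) (nat_lit 5) (nat_lit 348) (nat_lit 280) (nat_lit 152))) (XT.nd (nat_lit 78) (nat_lit 228) (nat_lit 0) (XT.lf (nat_lit 0) (nat_lit 7171586076) (nat_lit 304) (nat_lit 4784975053) (nat_lit 76) (nat_lit 14790895718) (nat_lit 44) (nat_lit 5) (nat_lit 48) (nat_lit 5) (nat_lit 45) (nat_lit 5) (nat_lit 349) (nat_lit 280) (nat_lit 151)) (XT.nd (nat_lit 78) (nat_lit 0) (nat_lit 0) (XT.lf (nat_lit 0) (nat_lit 5714499778) (nat_lit 228) (nat_lit 5541241748) (nat_lit 304) (nat_lit 16084666983) (nat_lit 41) (nat_lit 5) (nat_lit 44) (nat_lit 5) (nat_lit 45) (nat_lit 5) (nat_lit 350) (nat_lit 280) (nat_lit 150)) (XT.lf (nat_lit 0) (nat_lit 15513044618) (nat_lit 304) (nat_lit 11346499967) (nat_lit 76) (nat_lit 1090094431)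 (nat_lit 41) (nat_lit 5) (nat_lit 45) (nat_lit 5) (nat_lit 42) (nat_lit 5) (nat_lit 351) (nat_lit 280) (nat_lit 149))))) (XT.nd (nat_lit 234) (nat_lit 304) (nat_lit 0) (XT.nd (nat_lit 78) (nat_lit 152) (nat_lit 0) (XT.lf (nat_lit 0) (nat_lit 19944749510) (nat_lit 304) (nat_lit 826307040) (nat_lit 76) (nat_lit 7804698125) (nat_lit 41) (nat_lit 5) (nat_lit 45) (nat_lit 5) (nat_lit 42) (nat_lit 5) (nat_lit 352) (nat_lit 280) (nat_lit 148)) (XT.nd (nat_lit 78) (nat_lit 0) (nat_lit 0) (XT.lf (nat_lit 0) (nat_lit 10196090709) (nat_lit 152) (nat_lit 14403383114) (nat_lit 228) (nat_lit 4618486401) (nat_lit 39) (nat_lit 5) (nat_lit 41) (nat_lit 5) (nat_lit 42) (nat_lit 5) (nat_lit 353) (nat_lit 280) (nat_lit 147)) (XT.lf (nat_lit 0) (nat_lit 21553856668) (nat_lit 152) (nat_lit 7840498156) (nat_lit 228) (nat_lit 485069887) (nat_lit 39) (nat_lit 5) (nat_lit 41) (nat_lit 5) (nat_lit 42) (nat_lit 5) (nat_lit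 354) (nat_lit 280) (nat_lit 146)))) (XT.nd (nat_lit 78) (nat_lit 0) (nat_lit 0) (XT.lf (nat_lit 0) (nat_lit 2695921159) (nat_lit 228) (nat_lit 1021046514) (nat_lit 304) (nat_lit 26842138423) (nat_lit 35) (nat_lit 5) (nat_lit 38) (nat_lit 5) (nat_lit 39) (nat_lit 5) (nat_lit 355) (nat_lit 280) (nat_lit 145)) (XT.nd (nat_lit 78) (nat_lit 0) (nat_lit 0) (XT.lf (nat_lit 0) (nat_lit 8170308773) (nat_lit 304) (nat_lit 17113395356) (nat_lit 76) (nat_lit 5971287481) (nat_lit 35) (nat_lit 5) (nat_lit 39) (nat_lit 5) (nat_lit 36) (nat_lit 5) (nat_lit 356) (nat_lit 280) (nat_lit 144)) (XT.lf (nat_lit 0) (nat_lit 12759964459) (nat_lit 304) (nat_lit 6062989559) (nat_lit 76) (nat_lit 13148725544) (nat_lit 35) (nat_lit 5) (nat_lit 39) (nat_lit 5) (nat_lit 36) (nat_lit 5) (nat_lit 357) (nat_lit 280) (nat_lit 143)))))) (XT.nd (nat_lit 468) (nat_lit 304) (nat_lit 0) (XT.nd (nat_lit 234) (nat_lit 228) (nat_lit 0)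 (XT.nd (nat_lit 78) (nat_lit 0) (nat_lit 0) (XT.lf (nat_lit 0) (nat_lit 5413132787) (nat_lit 152) (nat_lit 12119031741) (nat_lit 228) (nat_lit 15176365073) (nat_lit 33) (nat_lit 5) (nat_lit 35) (nat_lit 5) (nat_lit 36) (nat_lit 5) (nat_lit 358) (nat_lit 280) (nat_lit 142)) (XT.nd (nat_lit 78) (nat_lit 0) (nat_lit 0) (XT.lf (nat_lit 0) (nat_lit 17346510819) (nat_lit 152) (nat_lit 5155164822) (nat_lit 228) (nat_lit 10964192034) (nat_lit 33) (nat_lit 5) (nat_lit 35) (nat_lit 5) (nat_lit 36) (nat_lit 5) (nat_lit 359) (nat_lit 280) (nat_lit 141)) (XT.lf (nat_lit 0) (nat_lit 27632754079) (nat_lit 228) (nat_lit 4638587454) (nat_lit 76) (nat_lit 1974216582) (nat_lit 33) (nat_lit 5) (nat_lit 36) (nat_lit 5) (nat_lit 34) (nat_lit 5) (nat_lit 360) (nat_lit 280) (nat_lit 140)))) (XT.nd (nat_lit 78) (nat_lit 76) (nat_lit 0) (XT.lf (nat_lit 0) (nat_lit 7266527715) (nat_lit 152) (nat_lit 25765417450) (nat_lit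 228) (nat_lit 2013275185) (nat_lit 31) (nat_lit 5) (nat_lit 33) (nat_lit 5) (nat_lit 34) (nat_lit 5) (nat_lit 361) (nat_lit 280) (nat_lit 139)) (XT.nd (nat_lit 78) (nat_lit 0) (nat_lit 0) (XT.lf (nat_lit 0) (nat_lit 2711693620) (nat_lit 228) (nat_lit 16281100504) (nat_lit 76) (nat_lit 16874080416) (nat_lit 30) (nat_lit 5) (nat_lit 33) (nat_lit 5) (nat_lit 31) (nat_lit 5) (nat_lit 362) (nat_lit 280) (nat_lit 138)) (XT.lf (nat_lit 0) (nat_lit 7531450931) (nat_lit 228) (nat_lit 4469062845) (nat_lit 76) (nat_lit 24712267388) (nat_lit 30) (nat_lit 5) (nat_lit 33) (nat_lit 5) (nat_lit 31) (nat_lit 5) (nat_lit 363) (nat_lit 280) (nat_lit 137))))) (XT.nd (nat_lit 234) (nat_lit 152) (nat_lit 0) (XT.nd (nat_lit 78) (nat_lit 0) (nat_lit 0) (XT.lf (nat_lit 0) (nat_lit 7840082623) (nat_lit 152) (nat_lit 4724775483) (nat_lit 228) (nat_lit 25017140932) (nat_lit 28) (nat_lit 5) (nat_lit 30) (nat_lit 5) (nat_lit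 31) (nat_lit 5) (nat_lit 364) (nat_lit 280) (nat_lit 136)) (XT.nd (nat_lit 78) (nat_lit 0) (nat_lit 0) (XT.lf (nat_lit 0) (nat_lit 17815204656) (nat_lit 228) (nat_lit 17903187803) (nat_lit 76) (nat_lit 2756928472) (nat_lit 28) (nat_lit 5) (nat_lit 31) (nat_lit 5) (nat_lit 29) (nat_lit 5) (nat_lit 365) (nat_lit 280) (nat_lit 135)) (XT.lf (nat_lit 0) (nat_lit 23263765817) (nat_lit 228) (nat_lit 5766073094) (nat_lit 76) (nat_lit 10364387877) (nat_lit 28) (nat_lit 5) (nat_lit 31) (nat_lit 5) (nat_lit 29) (nat_lit 5) (nat_lit 366) (nat_lit 280) (nat_lit 134)))) (XT.nd (nat_lit 78) (nat_lit 0) (nat_lit 0) (XT.lf (nat_lit 0) (nat_lit 6859300039) (nat_lit 152) (nat_lit 22076520784) (nat_lit 228) (nat_lit 11403083164) (nat_lit 26) (nat_lit 5) (nat_lit 28) (nat_lit 5) (nat_lit 29) (nat_lit 5) (nat_lit 367) (nat_lit 280) (nat_lit 133)) (XT.nd (nat_lit 78) (nat_lit 0) (nat_lit 0) (XT.lf (nat_lit 0) (nat_lit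 19972023690) (nat_lit 152) (nat_lit 14858420481) (nat_lit 228) (nat_lit 6479910252) (nat_lit 26) (nat_lit 5) (nat_lit 28) (nat_lit 5) (nat_lit 29) (nat_lit 5) (nat_lit 368) (nat_lit 280) (nat_lit 132)) (XT.lf (nat_lit 0) (nat_lit 33468799416) (nat_lit 152) (nat_lit 7427456958) (nat_lit 228) (nat_lit 1414866467) (nat_lit 26) (nat_lit 5) (nat_lit 28) (nat_lit 5) (nat_lit 29) (nat_lit 5) (nat_lit 369) (nat_lit 280) (nat_lit 131))))))) (XT.nd (nat_lit 936) (nat_lit 304) (nat_lit 0) (XT.nd (nat_lit 468) (nat_lit 304) (nat_lit 0) (XT.nd (nat_lit 234) (nat_lit 152) (nat_lit 0) (XT.nd (nat_lit 78) (nat_lit 0) (nat_lit 0) (XT.lf (nat_lit 0) (nat_lit 3764328783) (nat_lit 228) (nat_lit 39280598517) (nat_lit 76) (nat_lit 294803447) (nat_lit 23) (nat_lit 5) (nat_lit 26) (nat_lit 5) (nat_lit 24) (nat_lit 5) (nat_lit 370) (nat_lit 280) (nat_lit 130)) (XT.nd (nat_lit 78) (nat_lit 0) (nat_lit 0) (XT.lf (nat_lit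 0) (nat_lit 9228670959) (nat_lit 228) (nat_lit 26965276409) (nat_lit 76) (nat_lit 8200087562) (nat_lit 23) (nat_lit 5) (nat_lit 26) (nat_lit 5) (nat_lit 24) (nat_lit 5) (nat_lit 371) (nat_lit 280) (nat_lit 129)) (XT.lf (nat_lit 0) (nat_lit 14851598850) (nat_lit 228) (nat_lit 14289443107) (nat_lit 76) (nat_lit 16339091035) (nat_lit 23) (nat_lit 5) (nat_lit 26) (nat_lit 5) (nat_lit 24) (nat_lit 5) (nat_lit 372) (nat_lit 280) (nat_lit 128)))) (XT.nd (nat_lit 78) (nat_lit 152) (nat_lit 0) (XT.lf (nat_lit 0) (nat_lit 20638025696) (nat_lit 228) (nat_lit 1242022642) (nat_lit 76) (nat_lit 24718925616) (nat_lit 23) (nat_lit 5) (nat_lit 26) (nat_lit 5) (nat_lit 24) (nat_lit 5) (nat_lit 373) (nat_lit 280) (nat_lit 127)) (XT.nd (nat_lit 78) (nat_lit 0) (nat_lit 0) (XT.lf (nat_lit 0) (nat_lit 12430958419) (nat_lit 152) (nat_lit 14281543155) (nat_lit 228) (nat_lit 21035449048) (nat_lit 21) (nat_lit 5) (nat_lit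 23) (nat_lit 5) (nat_lit 24) (nat_lit 5) (nat_lit 374) (nat_lit 280) (nat_lit 126)) (XT.lf (nat_lit 0) (nat_lit 26531237062) (nat_lit 152) (nat_lit 6445545354) (nat_lit 228) (nat_lit 15954391097) (nat_lit 21) (nat_lit 5) (nat_lit 23) (nat_lit 5) (nat_lit 24) (nat_lit 5) (nat_lit 375) (nat_lit 280) (nat_lit 125))))) (XT.nd (nat_lit 234) (nat_lit 152) (nat_lit 0) (XT.nd (nat_lit 78) (nat_lit 152) (nat_lit 0) (XT.lf (nat_lit 0) (nat_lit 39439759235) (nat_lit 228) (nat_lit 9119220641) (nat_lit 76) (nat_lit 1590594115) (nat_lit 21) (nat_lit 5) (nat_lit 24) (nat_lit 5) (nat_lit 22) (nat_lit 4) (nat_lit 376) (nat_lit 280) (nat_lit 124)) (XT.nd (nat_lit 78) (nat_lit 76) (nat_lit 0) (XT.lf (nat_lit 0) (nat_lit 4577435201) (nat_lit 76) (nat_lit 41622291980) (nat_lit 152) (nat_lit 5201710058) (nat_lit 20) (nat_lit 5) (nat_lit 21) (nat_lit 5) (nat_lit 22) (nat_lit 4) (nat_lit 377) (nat_lit 280) (nat_lit 123))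 (XT.lf (nat_lit 0) (nat_lit 550727494) (nat_lit 152) (nat_lit 33829618753) (nat_lit 76) (nat_lit 18307728928) (nat_lit 19) (nat_lit 5) (nat_lit 21) (nat_lit 5) (nat_lit 20) (nat_lit 5) (nat_lit 378) (nat_lit 280) (nat_lit 122)))) (XT.nd (nat_lit 78) (nat_lit 152) (nat_lit 0) (XT.lf (nat_lit 0) (nat_lit 6366621063) (nat_lit 152) (nat_lit 20504678226) (nat_lit 76) (nat_lit 27140608424) (nat_lit 19) (nat_lit 5) (nat_lit 21) (nat_lit 5) (nat_lit 20) (nat_lit 5) (nat_lit 379) (nat_lit 280) (nat_lit 121)) (XT.nd (nat_lit 78) (nat_lit 152) (nat_lit 0) (XT.lf (nat_lit 0) (nat_lit 12352556595) (nat_lit 152) (nat_lit 6787535284) (nat_lit 76) (nat_lit 36235499779) (nat_lit 19) (nat_lit 5) (nat_lit 21) (nat_lit 5) (nat_lit 20) (nat_lit 5) (nat_lit 380) (nat_lit 280) (nat_lit 120)) (XT.lf (nat_lit 0) (nat_lit 7479752842) (nat_lit 152) (nat_lit 11105911637) (nat_lit 228) (nat_lit 38192497102) (nat_lit 17) (nat_lit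 5) (nat_lit 19) (nat_lit 5) (nat_lit 20) (nat_lit 5) (nat_lit 381) (nat_lit 280) (nat_lit 119)))))) (XT.nd (nat_lit 468) (nat_lit 228) (nat_lit 0) (XT.nd (nat_lit 234) (nat_lit 76) (nat_lit 0) (XT.nd (nat_lit 78) (nat_lit 0) (nat_lit 0) (XT.lf (nat_lit 0) (nat_lit 22306943234) (nat_lit 152) (nat_lit 2763113165) (nat_lit 228) (nat_lit 33150826670) (nat_lit 17) (nat_lit 5) (nat_lit 19) (nat_lit 5) (nat_lit 20) (nat_lit 5) (nat_lit 382) (nat_lit 280) (nat_lit 118)) (XT.nd (nat_lit 78) (nat_lit 0) (nat_lit 0) (XT.lf (nat_lit 0) (nat_lit 31800867061) (nat_lit 228) (nat_lit 22191119855) (nat_lit 76) (nat_lit 5713345777) (nat_lit 17) (nat_lit 5) (nat_lit 20) (nat_lit 5) (nat_lit 18) (nat_lit 4) (nat_lit 383) (nat_lit 280) (nat_lit 117)) (XT.lf (nat_lit 0) (nat_lit 38756926348) (nat_lit 228) (nat_lit 8090906577) (nat_lit 76) (nat_lit 14385786160) (nat_lit 17) (nat_lit 5) (nat_lit 20) (nat_lit 5) (nat_lit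 18) (nat_lit 4) (nat_lit 384) (nat_lit 280) (nat_lit 116)))) (XT.nd (nat_lit 78) (nat_lit 0) (nat_lit 0) (XT.lf (nat_lit 0) (nat_lit 6553462973) (nat_lit 76) (nat_lit 39427284557) (nat_lit 152) (nat_lit 16825237056) (nat_lit 16) (nat_lit 5) (nat_lit 17) (nat_lit 5) (nat_lit 18) (nat_lit 4) (nat_lit 385) (nat_lit 280) (nat_lit 115)) (XT.nd (nat_lit 78) (nat_lit 0) (nat_lit 0) (XT.lf (nat_lit 0) (nat_lit 21796353469) (nat_lit 76) (nat_lit 31702766370) (nat_lit 152) (nat_lit 10924068955) (nat_lit 16) (nat_lit 5) (nat_lit 17) (nat_lit 5) (nat_lit 18) (nat_lit 4) (nat_lit 386) (nat_lit 280) (nat_lit 114)) (XT.lf (nat_lit 0) (nat_lit 37490059034) (nat_lit 76) (nat_lit 23749231077) (nat_lit 152) (nat_lit 4849734366) (nat_lit 16) (nat_lit 5) (nat_lit 17) (nat_lit 5) (nat_lit 18) (nat_lit 4) (nat_lit 387) (nat_lit 280) (nat_lit 113))))) (XT.nd (nat_lit 234) (nat_lit 0) (nat_lit 0) (XT.nd (nat_lit 78) (nat_lit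 152) (nat_lit 0) (XT.lf (nat_lit 0) (nat_lit 1375695347) (nat_lit 152) (nat_lit 14170141815) (nat_lit 76) (nat_lit 52258705443) (nat_lit 15) (nat_lit 5) (nat_lit 17) (nat_lit 5) (nat_lit 16) (nat_lit 5) (nat_lit 388) (nat_lit 280) (nat_lit 112)) (XT.nd (nat_lit 78) (nat_lit 0) (nat_lit 0) (XT.lf (nat_lit 0) (nat_lit 650040151) (nat_lit 152) (nat_lit 7043046196) (nat_lit 228) (nat_lit 61876921736) (nat_lit 13) (nat_lit 5) (nat_lit 15) (nat_lit 5) (nat_lit 16) (nat_lit 5) (nat_lit 389) (nat_lit 280) (nat_lit 111)) (XT.lf (nat_lit 0) (nat_lit 14357435657) (nat_lit 228) (nat_lit 55202940741) (nat_lit 76) (nat_lit 1823340477) (nat_lit 13) (nat_lit 5) (nat_lit 16) (nat_lit 5) (nat_lit 14) (nat_lit 4) (nat_lit 390) (nat_lit 280) (nat_lit 110)))) (XT.nd (nat_lit 78) (nat_lit 0) (nat_lit 0) (XT.lf (nat_lit 0) (nat_lit 21287997324) (nat_lit 228) (nat_lit 41150152182) (nat_lit 76) (nat_lit 10811701343) (nat_lit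 13) (nat_lit 5) (nat_lit 16) (nat_lit 5) (nat_lit 14) (nat_lit 4) (nat_lit 391) (nat_lit 280) (nat_lit 109)) (XT.nd (nat_lit 78) (nat_lit 0) (nat_lit 0) (XT.lf (nat_lit 0) (nat_lit 28423125111) (nat_lit 228) (nat_lit 26681621052) (nat_lit 76) (nat_lit 20067325509) (nat_lit 13) (nat_lit 5) (nat_lit 16) (nat_lit 5) (nat_lit 14) (nat_lit 4) (nat_lit 392) (nat_lit 280) (nat_lit 108)) (XT.lf (nat_lit 0) (nat_lit 35769053596) (nat_lit 228) (nat_lit 11784704944) (nat_lit 76) (nat_lit 29598300412) (nat_lit 13) (nat_lit 5) (nat_lit 16) (nat_lit 5) (nat_lit 14) (nat_lit 4) (nat_lit 393) (nat_lit 280) (nat_lit 107))))))))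
noncomputable def xc165 : XT := (XT.nd (nat_lit 1794) (nat_lit 5548) (nat_lit 0) (XT.nd (nat_lit 858) (nat_lit 2964) (nat_lit 0) (XT.nd (nat_lit 390) (nat_lit 760) (nat_lit 0) (XT.nd (nat_lit 156) (nat_lit 0) (nat_lit 76) (XT.nd (nat_lit 78) (nat_lit 0) (nat_lit 0) (XT.lf (nat_lit 0) (nat_lit 302580765) (nat_lit 988) (nat_lit 1941661600) (nat_lit 988) (nat_lit 1941661600) (nat_lit 201) (nat_lit 3) (nat_lit 214) (nat_lit 3) (nat_lit 214) (nat_lit 5) (nat_lit 281) (nat_lit 281) (nat_lit 218)) (XT.lf (nat_lit 0) (nat_lit 1605135621) (nat_lit 988) (nat_lit 246076934) (nat_lit 988) (nat_lit 6614269659) (nat_lit 201) (nat_lit 3) (nat_lit 214) (nat_lit 3) (nat_lit 214) (nat_lit 5) (nat_lit 282) (nat_lit 281) (nat_lit 217))) (XT.nd (nat_lit 78) (nat_lit 0) (nat_lit 0) (XT.lf (nat_lit 0) (nat_lit 2639392206) (nat_lit 912) (nat_lit 5021428938) (nat_lit 988) (nat_lit 901102004) (nat_lit 202) (nat_lit 5) (nat_lit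 214) (nat_lit 5) (nat_lit 215) (nat_lit 5) (nat_lit 283) (nat_lit 281) (nat_lit 216)) (XT.nd (nat_lit 78) (nat_lit 0) (nat_lit 0) (XT.lf (nat_lit 0) (nat_lit 3687952056) (nat_lit 912) (nat_lit 1254979485) (nat_lit 988) (nat_lit 3718909947) (nat_lit 202) (nat_lit 5) (nat_lit 214) (nat_lit 5) (nat_lit 215) (nat_lit 5) (nat_lit 284) (nat_lit 281) (nat_lit 215)) (XT.lf (nat_lit 76) (nat_lit 2655752664) (nat_lit 0) (nat_lit 2101276051) (nat_lit 988) (nat_lit 4008136911) (nat_lit 203) (nat_lit 5) (nat_lit 202) (nat_lit 5) (nat_lit 215) (nat_lit 5) (nat_lit 285) (nat_lit 281) (nat_lit 214))))) (XT.nd (nat_lit 234) (nat_lit 912) (nat_lit 0) (XT.nd (nat_lit 78) (nat_lit 0) (nat_lit 0) (XT.lf (nat_lit 0) (nat_lit 5843457246) (nat_lit 912) (nat_lit 2191363923) (nat_lit 988) (nat_lit 837287645) (nat_lit 203) (nat_lit 5) (nat_lit 215) (nat_lit 5) (nat_lit 216) (nat_lit 5) (nat_lit 286) (nat_lit 281) (nat_lit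 213)) (XT.nd (nat_lit 78) (nat_lit 0) (nat_lit 0) (XT.lf (nat_lit 76) (nat_lit 1838298236) (nat_lit 0) (nat_lit 5128233448) (nat_lit 988) (nat_lit 2015682473) (nat_lit 204) (nat_lit 5) (nat_lit 203) (nat_lit 5) (nat_lit 216) (nat_lit 5) (nat_lit 287) (nat_lit 281) (nat_lit 212)) (XT.lf (nat_lit 76) (nat_lit 6012981453) (nat_lit 0) (nat_lit 2098825627) (nat_lit 988) (nat_lit 984233573) (nat_lit 204) (nat_lit 5) (nat_lit 203) (nat_lit 5) (nat_lit 216) (nat_lit 5) (nat_lit 288) (nat_lit 281) (nat_lit 211)))) (XT.nd (nat_lit 78) (nat_lit 0) (nat_lit 0) (XT.lf (nat_lit 0) (nat_lit 64215986) (nat_lit 988) (nat_lit 8124635079) (nat_lit 1064) (nat_lit 1024849918) (nat_lit 191) (nat_lit 5) (nat_lit 204) (nat_lit 5) (nat_lit 205) (nat_lit 5) (nat_lit 289) (nat_lit 281) (nat_lit 210)) (XT.nd (nat_lit 78) (nat_lit 0) (nat_lit 0) (XT.lf (nat_lit 0) (nat_lit 1144399291) (nat_lit 988) (nat_lit 3937088151) (nat_lit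 1064) (nat_lit 4252576499) (nat_lit 191) (nat_lit 5) (nat_lit 204) (nat_lit 5) (nat_lit 205) (nat_lit 5) (nat_lit 290) (nat_lit 281) (nat_lit 209)) (XT.lf (nat_lit 76) (nat_lit 361932365) (nat_lit 0) (nat_lit 1867312347) (nat_lit 1064) (nat_lit 7229690461) (nat_lit 192) (nat_lit 5) (nat_lit 191) (nat_lit 5) (nat_lit 205) (nat_lit 5) (nat_lit 291) (nat_lit 281) (nat_lit 208)))))) (XT.nd (nat_lit 468) (nat_lit 3040) (nat_lit 0) (XT.nd (nat_lit 234) (nat_lit 0) (nat_lit 76) (XT.nd (nat_lit 78) (nat_lit 0) (nat_lit 0) (XT.lf (nat_lit 0) (nat_lit 3370236121) (nat_lit 988) (nat_lit 4752074754) (nat_lit 1064) (nat_lit 1464596839) (nat_lit 192) (nat_lit 5) (nat_lit 205) (nat_lit 5) (nat_lit 206) (nat_lit 5) (nat_lit 292) (nat_lit 281) (nat_lit 207)) (XT.nd (nat_lit 78) (nat_lit 0) (nat_lit 0) (XT.lf (nat_lit 0) (nat_lit 4534407990) (nat_lit 988) (nat_lit 316721527) (nat_lit 1064) (nat_lit 4867982740) (nat_lit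 192) (nat_lit 5) (nat_lit 205) (nat_lit 5) (nat_lit 206) (nat_lit 5) (nat_lit 293) (nat_lit 281) (nat_lit 206)) (XT.lf (nat_lit 76) (nat_lit 4315085022) (nat_lit 0) (nat_lit 1431222024) (nat_lit 1064) (nat_lit 4108651391) (nat_lit 193) (nat_lit 5) (nat_lit 192) (nat_lit 5) (nat_lit 206) (nat_lit 5) (nat_lit 294) (nat_lit 281) (nat_lit 205)))) (XT.nd (nat_lit 78) (nat_lit 0) (nat_lit 0) (XT.lf (nat_lit 0) (nat_lit 6989927131) (nat_lit 988) (nat_lit 944156751) (nat_lit 1064) (nat_lit 2060993026) (nat_lit 193) (nat_lit 5) (nat_lit 206) (nat_lit 5) (nat_lit 207) (nat_lit 5) (nat_lit 295) (nat_lit 281) (nat_lit 204)) (XT.nd (nat_lit 78) (nat_lit 0) (nat_lit 0) (XT.lf (nat_lit 76) (nat_lit 3829030935) (nat_lit 0) (nat_lit 4465648437) (nat_lit 1064) (nat_lit 1844060998) (nat_lit 194) (nat_lit 5) (nat_lit 193) (nat_lit 5) (nat_lit 207) (nat_lit 5) (nat_lit 296) (nat_lit 281) (nat_lit 203)) (XT.lf (nat_lit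 76) (nat_lit 8744025769) (nat_lit 0) (nat_lit 877520095) (nat_lit 1064) (nat_lit 665733228) (nat_lit 194) (nat_lit 5) (nat_lit 193) (nat_lit 5) (nat_lit 207) (nat_lit 5) (nat_lit 297) (nat_lit 281) (nat_lit 202))))) (XT.nd (nat_lit 234) (nat_lit 1064) (nat_lit 0) (XT.nd (nat_lit 78) (nat_lit 1064) (nat_lit 0) (XT.lf (nat_lit 0) (nat_lit 571422178) (nat_lit 1064) (nat_lit 7060789859) (nat_lit 76) (nat_lit 2806930196) (nat_lit 180) (nat_lit 5) (nat_lit 194) (nat_lit 5) (nat_lit 181) (nat_lit 5) (nat_lit 298) (nat_lit 281) (nat_lit 201)) (XT.nd (nat_lit 78) (nat_lit 1064) (nat_lit 0) (XT.lf (nat_lit 0) (nat_lit 1831253386) (nat_lit 1064) (nat_lit 2152656876) (nat_lit 76) (nat_lit 6611534895) (nat_lit 180) (nat_lit 5) (nat_lit 194) (nat_lit 5) (nat_lit 181) (nat_lit 5) (nat_lit 299) (nat_lit 281) (nat_lit 200)) (XT.lf (nat_lit 0) (nat_lit 2939328918) (nat_lit 1064) (nat_lit 193062785) (nat_lit 1140)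 (nat_lit 7623988529) (nat_lit 166) (nat_lit 5) (nat_lit 180) (nat_lit 5) (nat_lit 181) (nat_lit 5) (nat_lit 300) (nat_lit 281) (nat_lit 199)))) (XT.nd (nat_lit 78) (nat_lit 1064) (nat_lit 0) (XT.lf (nat_lit 0) (nat_lit 4506010349) (nat_lit 1140) (nat_lit 2750535700) (nat_lit 76) (nat_lit 3664640944) (nat_lit 166) (nat_lit 5) (nat_lit 181) (nat_lit 5) (nat_lit 167) (nat_lit 5) (nat_lit 301) (nat_lit 281) (nat_lit 198)) (XT.nd (nat_lit 78) (nat_lit 0) (nat_lit 0) (XT.lf (nat_lit 0) (nat_lit 2493999145) (nat_lit 1064) (nat_lit 3429244189) (nat_lit 1140) (nat_lit 5167668099) (nat_lit 152) (nat_lit 5) (nat_lit 166) (nat_lit 5) (nat_lit 167) (nat_lit 5) (nat_lit 302) (nat_lit 281) (nat_lit 197)) (XT.lf (nat_lit 0) (nat_lit 7393004064) (nat_lit 1140) (nat_lit 3339132301) (nat_lit 76) (nat_lit 533335236) (nat_lit 152) (nat_lit 5) (nat_lit 167) (nat_lit 5) (nat_lit 153) (nat_lit 5) (nat_lit 303) (nat_lit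 281) (nat_lit 196))))))) (XT.nd (nat_lit 936) (nat_lit 2356) (nat_lit 0) (XT.nd (nat_lit 468) (nat_lit 1520) (nat_lit 0) (XT.nd (nat_lit 234) (nat_lit 532) (nat_lit 0) (XT.nd (nat_lit 78) (nat_lit 608) (nat_lit 0) (XT.lf (nat_lit 0) (nat_lit 2061999003) (nat_lit 532) (nat_lit 6876332386) (nat_lit 608) (nat_lit 2506036003) (nat_lit 145) (nat_lit 5) (nat_lit 152) (nat_lit 5) (nat_lit 153) (nat_lit 5) (nat_lit 304) (nat_lit 281) (nat_lit 195)) (XT.nd (nat_lit 78) (nat_lit 608) (nat_lit 0) (XT.lf (nat_lit 0) (nat_lit 7673149599) (nat_lit 532) (nat_lit 2868740103) (nat_lit 608) (nat_lit 1086425993) (nat_lit 145) (nat_lit 5) (nat_lit 152) (nat_lit 5) (nat_lit 153) (nat_lit 5) (nat_lit 305) (nat_lit 281) (nat_lit 194)) (XT.lf (nat_lit 0) (nat_lit 375077888) (nat_lit 608) (nat_lit 10187223259) (nat_lit 76) (nat_lit 1255213166) (nat_lit 137) (nat_lit 5) (nat_lit 145) (nat_lit 5) (nat_lit 138) (nat_lit 5)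 (nat_lit 306) (nat_lit 281) (nat_lit 193)))) (XT.nd (nat_lit 78) (nat_lit 532) (nat_lit 0) (XT.lf (nat_lit 0) (nat_lit 1906308197) (nat_lit 608) (nat_lit 4607169672) (nat_lit 76) (nat_lit 5497195030) (nat_lit 137) (nat_lit 5) (nat_lit 145) (nat_lit 5) (nat_lit 138) (nat_lit 5) (nat_lit 307) (nat_lit 281) (nat_lit 192)) (XT.nd (nat_lit 78) (nat_lit 0) (nat_lit 0) (XT.lf (nat_lit 0) (nat_lit 1142371070) (nat_lit 532) (nat_lit 2331676938) (nat_lit 608) (nat_lit 8735898172) (nat_lit 130) (nat_lit 5) (nat_lit 137) (nat_lit 5) (nat_lit 138) (nat_lit 5) (nat_lit 308) (nat_lit 281) (nat_lit 191)) (XT.lf (nat_lit 0) (nat_lit 5134787989) (nat_lit 608) (nat_lit 5295056894) (nat_lit 76) (nat_lit 1984009773) (nat_lit 130) (nat_lit 5) (nat_lit 138) (nat_lit 5) (nat_lit 131) (nat_lit 5) (nat_lit 309) (nat_lit 281) (nat_lit 190))))) (XT.nd (nat_lit 234) (nat_lit 532) (nat_lit 0) (XT.nd (nat_lit 78) (nat_lit 456)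 (nat_lit 0) (XT.lf (nat_lit 0) (nat_lit 619598507) (nat_lit 532) (nat_lit 6235369747) (nat_lit 608) (nat_lit 5768658576) (nat_lit 123) (nat_lit 5) (nat_lit 130) (nat_lit 5) (nat_lit 131) (nat_lit 5) (nat_lit 310) (nat_lit 281) (nat_lit 189)) (XT.nd (nat_lit 78) (nat_lit 456) (nat_lit 0) (XT.lf (nat_lit 0) (nat_lit 6800390497) (nat_lit 532) (nat_lit 1860784302) (nat_lit 608) (nat_lit 4177518711) (nat_lit 123) (nat_lit 5) (nat_lit 130) (nat_lit 5) (nat_lit 131) (nat_lit 5) (nat_lit 311) (nat_lit 281) (nat_lit 188)) (XT.lf (nat_lit 0) (nat_lit 62335875) (nat_lit 456) (nat_lit 10466755162) (nat_lit 532) (nat_lit 2530928427) (nat_lit 117) (nat_lit 5) (nat_lit 123) (nat_lit 5) (nat_lit 124) (nat_lit 5) (nat_lit 312) (nat_lit 281) (nat_lit 187)))) (XT.nd (nat_lit 78) (nat_lit 532) (nat_lit 0) (XT.lf (nat_lit 0) (nat_lit 6431328701) (nat_lit 456) (nat_lit 6082782568) (nat_lit 532) (nat_lit 772073950) (nat_lit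 117) (nat_lit 5) (nat_lit 123) (nat_lit 5) (nat_lit 124) (nat_lit 5) (nat_lit 313) (nat_lit 281) (nat_lit 186)) (XT.nd (nat_lit 78) (nat_lit 456) (nat_lit 0) (XT.lf (nat_lit 0) (nat_lit 1001433098) (nat_lit 532) (nat_lit 557204172) (nat_lit 76) (nat_lit 11960763905) (nat_lit 116) (nat_lit 5) (nat_lit 123) (nat_lit 5) (nat_lit 117) (nat_lit 5) (nat_lit 314) (nat_lit 281) (nat_lit 185)) (XT.lf (nat_lit 0) (nat_lit 2883634148) (nat_lit 532) (nat_lit 7768329403) (nat_lit 76) (nat_lit 3105319831) (nat_lit 110) (nat_lit 5) (nat_lit 117) (nat_lit 5) (nat_lit 111) (nat_lit 5) (nat_lit 315) (nat_lit 281) (nat_lit 184)))))) (XT.nd (nat_lit 468) (nat_lit 1064) (nat_lit 0) (XT.nd (nat_lit 234) (nat_lit 912) (nat_lit 0) (XT.nd (nat_lit 78) (nat_lit 380) (nat_lit 0) (XT.lf (nat_lit 0) (nat_lit 4826414747) (nat_lit 532) (nat_lit 1293937842) (nat_lit 76) (nat_lit 7881854507) (nat_lit 110) (nat_lit 5) (nat_lit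 117) (nat_lit 5) (nat_lit 111) (nat_lit 5) (nat_lit 316) (nat_lit 281) (nat_lit 183)) (XT.nd (nat_lit 78) (nat_lit 0) (nat_lit 0) (XT.lf (nat_lit 0) (nat_lit 5462604991) (nat_lit 380) (nat_lit 1400877932) (nat_lit 456) (nat_lit 7389943091) (nat_lit 105) (nat_lit 5) (nat_lit 110) (nat_lit 5) (nat_lit 111) (nat_lit 5) (nat_lit 317) (nat_lit 281) (nat_lit 182)) (XT.lf (nat_lit 0) (nat_lit 8991895362) (nat_lit 456) (nat_lit 2115795059) (nat_lit 76) (nat_lit 3403610926) (nat_lit 105) (nat_lit 5) (nat_lit 111) (nat_lit 5) (nat_lit 106) (nat_lit 5) (nat_lit 318) (nat_lit 281) (nat_lit 181)))) (XT.nd (nat_lit 78) (nat_lit 456) (nat_lit 0) (XT.lf (nat_lit 0) (nat_lit 4821261326) (nat_lit 456) (nat_lit 6407361643) (nat_lit 532) (nat_lit 3546982123) (nat_lit 99) (nat_lit 5) (nat_lit 105) (nat_lit 5) (nat_lit 106) (nat_lit 5) (nat_lit 319) (nat_lit 281) (nat_lit 180)) (XT.nd (nat_lit 78) (nat_lit 456) (nat_lit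 0) (XT.lf (nat_lit 0) (nat_lit 11991551366) (nat_lit 456) (nat_lit 1546797596) (nat_lit 532) (nat_lit 1509337363) (nat_lit 99) (nat_lit 5) (nat_lit 105) (nat_lit 5) (nat_lit 106) (nat_lit 5) (nat_lit 320) (nat_lit 281) (nat_lit 179)) (XT.lf (nat_lit 0) (nat_lit 635882529) (nat_lit 456) (nat_lit 11255309419) (nat_lit 76) (nat_lit 3434853455) (nat_lit 93) (nat_lit 5) (nat_lit 99) (nat_lit 5) (nat_lit 94) (nat_lit 5) (nat_lit 321) (nat_lit 281) (nat_lit 178))))) (XT.nd (nat_lit 234) (nat_lit 684) (nat_lit 0) (XT.nd (nat_lit 78) (nat_lit 380) (nat_lit 0) (XT.lf (nat_lit 0) (nat_lit 2846655529) (nat_lit 456) (nat_lit 4186642789) (nat_lit 76) (nat_lit 8578085768) (nat_lit 93) (nat_lit 5) (nat_lit 99) (nat_lit 5) (nat_lit 94) (nat_lit 5) (nat_lit 322) (nat_lit 281) (nat_lit 177)) (XT.nd (nat_lit 78) (nat_lit 0) (nat_lit 0) (XT.lf (nat_lit 0) (nat_lit 3137531808) (nat_lit 380) (nat_lit 2001866527) (nat_lit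 456) (nat_lit 10765437651) (nat_lit 88) (nat_lit 5) (nat_lit 93) (nat_lit 5) (nat_lit 94) (nat_lit 5) (nat_lit 323) (nat_lit 281) (nat_lit 176)) (XT.lf (nat_lit 0) (nat_lit 7559900007) (nat_lit 456) (nat_lit 5487580757) (nat_lit 76) (nat_lit 3157863185) (nat_lit 88) (nat_lit 5) (nat_lit 94) (nat_lit 5) (nat_lit 89) (nat_lit 5) (nat_lit 324) (nat_lit 281) (nat_lit 175)))) (XT.nd (nat_lit 78) (nat_lit 380) (nat_lit 0) (XT.lf (nat_lit 0) (nat_lit 2012489918) (nat_lit 304) (nat_lit 8065816946) (nat_lit 380) (nat_lit 6435822749) (nat_lit 84) (nat_lit 5) (nat_lit 88) (nat_lit 5) (nat_lit 89) (nat_lit 5) (nat_lit 325) (nat_lit 281) (nat_lit 174)) (XT.nd (nat_lit 78) (nat_lit 380) (nat_lit 0) (XT.lf (nat_lit 0) (nat_lit 9832729345) (nat_lit 304) (nat_lit 2881312401) (nat_lit 380) (nat_lit 4116904378) (nat_lit 84) (nat_lit 5) (nat_lit 88) (nat_lit 5) (nat_lit 89) (nat_lit 5) (nat_lit 326) (nat_lit 281)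 (nat_lit 173)) (XT.lf (nat_lit 0) (nat_lit 703194274) (nat_lit 380) (nat_lit 14742773564) (nat_lit 456) (nat_lit 1710805668) (nat_lit 79) (nat_lit 5) (nat_lit 84) (nat_lit 5) (nat_lit 85) (nat_lit 5) (nat_lit 327) (nat_lit 281) (nat_lit 172))))))))
noncomputable def xc166 : XT := (XT.nd (nat_lit 1794) (nat_lit 1596) (nat_lit 0) (XT.nd (nat_lit 858) (nat_lit 1292) (nat_lit 0) (XT.nd (nat_lit 390) (nat_lit 684) (nat_lit 0) (XT.nd (nat_lit 156) (nat_lit 608) (nat_lit 0) (XT.nd (nat_lit 78) (nat_lit 0) (nat_lit 0) (XT.lf (nat_lit 0) (nat_lit 839195122) (nat_lit 456) (nat_lit 8765070890) (nat_lit 76) (nat_lit 7885306322) (nat_lit 78) (nat_lit 5) (nat_lit 84) (nat_lit 5) (nat_lit 79) (nat_lit 5) (nat_lit 328) (nat_lit 281) (nat_lit 171)) (XT.lf (nat_lit 0) (nat_lit 3418494457) (nat_lit 456) (nat_lit 879656151) (nat_lit 76) (nat_lit 13534099096) (nat_lit 78) (nat_lit 5) (nat_lit 84) (nat_lit 5) (nat_lit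 79) (nat_lit 5) (nat_lit 329) (nat_lit 281) (nat_lit 170))) (XT.nd (nat_lit 78) (nat_lit 304) (nat_lit 0) (XT.lf (nat_lit 0) (nat_lit 6145456700) (nat_lit 380) (nat_lit 10825544555) (nat_lit 76) (nat_lit 1212115350) (nat_lit 74) (nat_lit 5) (nat_lit 79) (nat_lit 5) (nat_lit 75) (nat_lit 5) (nat_lit 330) (nat_lit 281) (nat_lit 169)) (XT.nd (nat_lit 78) (nat_lit 304) (nat_lit 0) (XT.lf (nat_lit 0) (nat_lit 8993481144) (nat_lit 380) (nat_lit 2743444850) (nat_lit 76) (nat_lit 6806423131) (nat_lit 74) (nat_lit 5) (nat_lit 79) (nat_lit 5) (nat_lit 75) (nat_lit 5) (nat_lit 331) (nat_lit 281) (nat_lit 168)) (XT.lf (nat_lit 0) (nat_lit 5675847756) (nat_lit 304) (nat_lit 6293742399) (nat_lit 380) (nat_lit 6943535859) (nat_lit 70) (nat_lit 5) (nat_lit 74) (nat_lit 5) (nat_lit 75) (nat_lit 5) (nat_lit 332) (nat_lit 281) (nat_lit 167))))) (XT.nd (nat_lit 234) (nat_lit 304) (nat_lit 0) (XT.nd (nat_lit 78) (nat_lit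 380) (nat_lit 0) (XT.lf (nat_lit 0) (nat_lit 14388087869) (nat_lit 304) (nat_lit 662876615) (nat_lit 380) (nat_lit 4242568488) (nat_lit 70) (nat_lit 5) (nat_lit 74) (nat_lit 5) (nat_lit 75) (nat_lit 5) (nat_lit 333) (nat_lit 281) (nat_lit 166)) (XT.nd (nat_lit 78) (nat_lit 76) (nat_lit 0) (XT.lf (nat_lit 0) (nat_lit 3683109168) (nat_lit 304) (nat_lit 14615035666) (nat_lit 380) (nat_lit 1385022111) (nat_lit 66) (nat_lit 5) (nat_lit 70) (nat_lit 5) (nat_lit 71) (nat_lit 5) (nat_lit 334) (nat_lit 281) (nat_lit 165)) (XT.lf (nat_lit 0) (nat_lit 1573070521) (nat_lit 380) (nat_lit 7490971668) (nat_lit 76) (nat_lit 11018656420) (nat_lit 65) (nat_lit 5) (nat_lit 70) (nat_lit 5) (nat_lit 66) (nat_lit 5) (nat_lit 335) (nat_lit 281) (nat_lit 164)))) (XT.nd (nat_lit 78) (nat_lit 0) (nat_lit 0) (XT.lf (nat_lit 0) (nat_lit 1269086703) (nat_lit 304) (nat_lit 3324149812) (nat_lit 380) (nat_lit 15900547685) (nat_lit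 61) (nat_lit 5) (nat_lit 65) (nat_lit 5) (nat_lit 66) (nat_lit 5) (nat_lit 336) (nat_lit 281) (nat_lit 163)) (XT.nd (nat_lit 78) (nat_lit 0) (nat_lit 0) (XT.lf (nat_lit 0) (nat_lit 7794379744) (nat_lit 380) (nat_lit 10510553519) (nat_lit 76) (nat_lit 2609571922) (nat_lit 61) (nat_lit 5) (nat_lit 66) (nat_lit 5) (nat_lit 62) (nat_lit 5) (nat_lit 337) (nat_lit 281) (nat_lit 162)) (XT.lf (nat_lit 0) (nat_lit 11113889370) (nat_lit 380) (nat_lit 1582945246) (nat_lit 76) (nat_lit 8650356806) (nat_lit 61) (nat_lit 5) (nat_lit 66) (nat_lit 5) (nat_lit 62) (nat_lit 5) (nat_lit 338) (nat_lit 281) (nat_lit 161)))))) (XT.nd (nat_lit 468) (nat_lit 532) (nat_lit 0) (XT.nd (nat_lit 234) (nat_lit 304) (nat_lit 0) (XT.nd (nat_lit 78) (nat_lit 228) (nat_lit 0) (XT.lf (nat_lit 0) (nat_lit 7749094655) (nat_lit 228) (nat_lit 6848106560) (nat_lit 304) (nat_lit 7193743715) (nat_lit 58) (nat_lit 5) (nat_lit 61) (nat_lit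 5) (nat_lit 62) (nat_lit 5) (nat_lit 339) (nat_lit 281) (nat_lit 160)) (XT.nd (nat_lit 78) (nat_lit 228) (nat_lit 0) (XT.lf (nat_lit 0) (nat_lit 17379078441) (nat_lit 228) (nat_lit 811806639) (nat_lit 304) (nat_lit 4056962590) (nat_lit 58) (nat_lit 5) (nat_lit 61) (nat_lit 5) (nat_lit 62) (nat_lit 5) (nat_lit 340) (nat_lit 281) (nat_lit 159)) (XT.lf (nat_lit 0) (nat_lit 4603053521) (nat_lit 228) (nat_lit 17375676979) (nat_lit 304) (nat_lit 737148894) (nat_lit 55) (nat_lit 5) (nat_lit 58) (nat_lit 5) (nat_lit 59) (nat_lit 5) (nat_lit 341) (nat_lit 281) (nat_lit 158)))) (XT.nd (nat_lit 78) (nat_lit 228) (nat_lit 0) (XT.lf (nat_lit 0) (nat_lit 2677793042) (nat_lit 304) (nat_lit 8786327028) (nat_lit 76) (nat_lit 11731633984) (nat_lit 54) (nat_lit 5) (nat_lit 58) (nat_lit 5) (nat_lit 55) (nat_lit 5) (nat_lit 342) (nat_lit 281) (nat_lit 157)) (XT.nd (nat_lit 78) (nat_lit 0) (nat_lit 0) (XT.lf (nat_lit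 0) (nat_lit 814605059) (nat_lit 228) (nat_lit 5364063447) (nat_lit 304) (nat_lit 17511199833) (nat_lit 51) (nat_lit 5) (nat_lit 54) (nat_lit 5) (nat_lit 55) (nat_lit 5) (nat_lit 343) (nat_lit 281) (nat_lit 156)) (XT.lf (nat_lit 0) (nat_lit 9873580088) (nat_lit 304) (nat_lit 13336252687) (nat_lit 76) (nat_lit 986314028) (nat_lit 51) (nat_lit 5) (nat_lit 55) (nat_lit 5) (nat_lit 52) (nat_lit 5) (nat_lit 344) (nat_lit 281) (nat_lit 155))))) (XT.nd (nat_lit 234) (nat_lit 304) (nat_lit 0) (XT.nd (nat_lit 78) (nat_lit 228) (nat_lit 0) (XT.lf (nat_lit 0) (nat_lit 13723295912) (nat_lit 304) (nat_lit 3577843618) (nat_lit 76) (nat_lit 7415166111) (nat_lit 51) (nat_lit 5) (nat_lit 55) (nat_lit 5) (nat_lit 52) (nat_lit 5) (nat_lit 345) (nat_lit 281) (nat_lit 154)) (XT.nd (nat_lit 78) (nat_lit 0) (nat_lit 0) (XT.lf (nat_lit 0) (nat_lit 6588621081) (nat_lit 228) (nat_lit 11154329923) (nat_lit 304) (nat_lit 7507495219)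 (nat_lit 48) (nat_lit 5) (nat_lit 51) (nat_lit 5) (nat_lit 52) (nat_lit 5) (nat_lit 346) (nat_lit 281) (nat_lit 153)) (XT.lf (nat_lit 0) (nat_lit 17120287680) (nat_lit 228) (nat_lit 4790283773) (nat_lit 304) (nat_lit 3889228407) (nat_lit 48) (nat_lit 5) (nat_lit 51) (nat_lit 5) (nat_lit 52) (nat_lit 5) (nat_lit 347) (nat_lit 281) (nat_lit 152)))) (XT.nd (nat_lit 78) (nat_lit 76) (nat_lit 0) (XT.lf (nat_lit 0) (nat_lit 1603623763) (nat_lit 228) (nat_lit 24623435556) (nat_lit 304) (nat_lit 137869438) (nat_lit 45) (nat_lit 5) (nat_lit 48) (nat_lit 5) (nat_lit 49) (nat_lit 5) (nat_lit 348) (nat_lit 281) (nat_lit 151)) (XT.nd (nat_lit 78) (nat_lit 0) (nat_lit 0) (XT.lf (nat_lit 0) (nat_lit 3780757549) (nat_lit 304) (nat_lit 14668347086) (nat_lit 76) (nat_lit 8493018567) (nat_lit 44) (nat_lit 5) (nat_lit 48) (nat_lit 5) (nat_lit 45) (nat_lit 5) (nat_lit 349) (nat_lit 281) (nat_lit 150)) (XT.lf (nat_lit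 0) (nat_lit 7805913213) (nat_lit 304) (nat_lit 4286613060) (nat_lit 76) (nat_lit 15444323010) (nat_lit 44) (nat_lit 5) (nat_lit 48) (nat_lit 5) (nat_lit 45) (nat_lit 5) (nat_lit 350) (nat_lit 281) (nat_lit 149))))))) (XT.nd (nat_lit 936) (nat_lit 608) (nat_lit 0) (XT.nd (nat_lit 468) (nat_lit 304) (nat_lit 0) (XT.nd (nat_lit 234) (nat_lit 456) (nat_lit 0) (XT.nd (nat_lit 78) (nat_lit 0) (nat_lit 0) (XT.lf (nat_lit 0) (nat_lit 6521552769) (nat_lit 228) (nat_lit 5484941394) (nat_lit 304) (nat_lit 16141291586) (nat_lit 41) (nat_lit 5) (nat_lit 44) (nat_lit 5) (nat_lit 45) (nat_lit 5) (nat_lit 351) (nat_lit 281) (nat_lit 148)) (XT.nd (nat_lit 78) (nat_lit 0) (nat_lit 0) (XT.lf (nat_lit 0) (nat_lit 16381561741) (nat_lit 304) (nat_lit 11059405796) (nat_lit 76) (nat_lit 1334637163) (nat_lit 41) (nat_lit 5) (nat_lit 45) (nat_lit 5) (nat_lit 42) (nat_lit 5) (nat_lit 352) (nat_lit 281) (nat_lit 147)) (XT.lf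 (nat_lit 0) (nat_lit 20934476253) (nat_lit 304) (nat_lit 241883465) (nat_lit 76) (nat_lit 8244508874) (nat_lit 41) (nat_lit 5) (nat_lit 45) (nat_lit 5) (nat_lit 42) (nat_lit 5) (nat_lit 353) (nat_lit 281) (nat_lit 146)))) (XT.nd (nat_lit 78) (nat_lit 304) (nat_lit 0) (XT.lf (nat_lit 0) (nat_lit 11105213542) (nat_lit 152) (nat_lit 14618027924) (nat_lit 228) (nat_lit 4359279016) (nat_lit 39) (nat_lit 5) (nat_lit 41) (nat_lit 5) (nat_lit 42) (nat_lit 5) (nat_lit 354) (nat_lit 281) (nat_lit 145)) (XT.nd (nat_lit 78) (nat_lit 304) (nat_lit 0) (XT.lf (nat_lit 0) (nat_lit 22786142379) (nat_lit 152) (nat_lit 7864590107) (nat_lit 228) (nat_lit 113445307) (nat_lit 39) (nat_lit 5) (nat_lit 41) (nat_lit 5) (nat_lit 42) (nat_lit 5) (nat_lit 355) (nat_lit 281) (nat_lit 144)) (XT.lf (nat_lit 0) (nat_lit 3364566812) (nat_lit 228) (nat_lit 837172477) (nat_lit 304) (nat_lit 27262571438) (nat_lit 35) (nat_lit 5)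 (nat_lit 38) (nat_lit 5) (nat_lit 39) (nat_lit 5) (nat_lit 356) (nat_lit 281) (nat_lit 143))))) (XT.nd (nat_lit 234) (nat_lit 152) (nat_lit 0) (XT.nd (nat_lit 78) (nat_lit 152) (nat_lit 0) (XT.lf (nat_lit 0) (nat_lit 8779810797) (nat_lit 304) (nat_lit 17046918952) (nat_lit 76) (nat_lit 6354619948) (nat_lit 35) (nat_lit 5) (nat_lit 39) (nat_lit 5) (nat_lit 36) (nat_lit 5) (nat_lit 357) (nat_lit 281) (nat_lit 142)) (XT.nd (nat_lit 78) (nat_lit 152) (nat_lit 0) (XT.lf (nat_lit 0) (nat_lit 13496542772) (nat_lit 304) (nat_lit 5681890640) (nat_lit 76) (nat_lit 13741433759) (nat_lit 35) (nat_lit 5) (nat_lit 39) (nat_lit 5) (nat_lit 36) (nat_lit 5) (nat_lit 358) (nat_lit 281) (nat_lit 141)) (XT.lf (nat_lit 0) (nat_lit 6132995881) (nat_lit 152) (nat_lit 12273967443) (nat_lit 228) (nat_lit 15272017931) (nat_lit 33) (nat_lit 5) (nat_lit 35) (nat_lit 5) (nat_lit 36) (nat_lit 5) (nat_lit 359) (nat_lit 281)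 (nat_lit 140)))) (XT.nd (nat_lit 78) (nat_lit 152) (nat_lit 0) (XT.lf (nat_lit 0) (nat_lit 18408138289) (nat_lit 152) (nat_lit 5107261272) (nat_lit 228) (nat_lit 10943954597) (nat_lit 33) (nat_lit 5) (nat_lit 35) (nat_lit 5) (nat_lit 36) (nat_lit 5) (nat_lit 360) (nat_lit 281) (nat_lit 139)) (XT.nd (nat_lit 78) (nat_lit 152) (nat_lit 0) (XT.lf (nat_lit 0) (nat_lit 28792436475) (nat_lit 228) (nat_lit 4243983352) (nat_lit 76) (nat_lit 2226264293) (nat_lit 33) (nat_lit 5) (nat_lit 36) (nat_lit 5) (nat_lit 34) (nat_lit 5) (nat_lit 361) (nat_lit 281) (nat_lit 138)) (XT.lf (nat_lit 0) (nat_lit 8013052314) (nat_lit 152) (nat_lit 26335999488) (nat_lit 228) (nat_lit 1737430276) (nat_lit 31) (nat_lit 5) (nat_lit 33) (nat_lit 5) (nat_lit 34) (nat_lit 5) (nat_lit 362) (nat_lit 281) (nat_lit 137)))))) (XT.nd (nat_lit 468) (nat_lit 228) (nat_lit 0) (XT.nd (nat_lit 234) (nat_lit 152) (nat_lit 0) (XT.nd (nat_lit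 78) (nat_lit 152) (nat_lit 0) (XT.lf (nat_lit 0) (nat_lit 3113123894) (nat_lit 228) (nat_lit 16249735971) (nat_lit 76) (nat_lit 17570125914) (nat_lit 30) (nat_lit 5) (nat_lit 33) (nat_lit 5) (nat_lit 31) (nat_lit 5) (nat_lit 363) (nat_lit 281) (nat_lit 136)) (XT.nd (nat_lit 78) (nat_lit 152) (nat_lit 0) (XT.lf (nat_lit 0) (nat_lit 8068151222) (nat_lit 228) (nat_lit 4098476917) (nat_lit 76) (nat_lit 25637929667) (nat_lit 30) (nat_lit 5) (nat_lit 33) (nat_lit 5) (nat_lit 31) (nat_lit 5) (nat_lit 364) (nat_lit 281) (nat_lit 135)) (XT.lf (nat_lit 0) (nat_lit 8574995290) (nat_lit 152) (nat_lit 4673317674) (nat_lit 228) (nat_lit 25451674956) (nat_lit 28) (nat_lit 5) (nat_lit 30) (nat_lit 5) (nat_lit 31) (nat_lit 5) (nat_lit 365) (nat_lit 281) (nat_lit 134)))) (XT.nd (nat_lit 78) (nat_lit 152) (nat_lit 0) (XT.lf (nat_lit 0) (nat_lit 18649045535) (nat_lit 228) (nat_lit 17947735757) (nat_lit 76) (nat_lit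 3023549942) (nat_lit 28) (nat_lit 5) (nat_lit 31) (nat_lit 5) (nat_lit 29) (nat_lit 5) (nat_lit 366) (nat_lit 281) (nat_lit 133)) (XT.nd (nat_lit 78) (nat_lit 152) (nat_lit 0) (XT.lf (nat_lit 0) (nat_lit 24252343587) (nat_lit 228) (nat_lit 5460853655) (nat_lit 76) (nat_lit 10853876422) (nat_lit 28) (nat_lit 5) (nat_lit 31) (nat_lit 5) (nat_lit 29) (nat_lit 5) (nat_lit 367) (nat_lit 281) (nat_lit 132)) (XT.lf (nat_lit 0) (nat_lit 7538592420) (nat_lit 152) (nat_lit 22552053558) (nat_lit 228) (nat_lit 11449570201) (nat_lit 26) (nat_lit 5) (nat_lit 28) (nat_lit 5) (nat_lit 29) (nat_lit 5) (nat_lit 368) (nat_lit 281) (nat_lit 131))))) (XT.nd (nat_lit 234) (nat_lit 0) (nat_lit 0) (XT.nd (nat_lit 78) (nat_lit 228) (nat_lit 0) (XT.lf (nat_lit 0) (nat_lit 21030906129) (nat_lit 152) (nat_lit 15122849941) (nat_lit 228) (nat_lit 6387311970) (nat_lit 26) (nat_lit 5) (nat_lit 28) (nat_lit 5) (nat_lit 29) (nat_lit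 5) (nat_lit 369) (nat_lit 281) (nat_lit 130)) (XT.nd (nat_lit 78) (nat_lit 228) (nat_lit 0) (XT.lf (nat_lit 0) (nat_lit 34919195173) (nat_lit 152) (nat_lit 7474238769) (nat_lit 228) (nat_lit 1178675966) (nat_lit 26) (nat_lit 5) (nat_lit 28) (nat_lit 5) (nat_lit 29) (nat_lit 5) (nat_lit 370) (nat_lit 281) (nat_lit 129)) (XT.lf (nat_lit 0) (nat_lit 4148514260) (nat_lit 228) (nat_lit 40004848561) (nat_lit 76) (nat_lit 478197916) (nat_lit 23) (nat_lit 5) (nat_lit 26) (nat_lit 5) (nat_lit 24) (nat_lit 5) (nat_lit 371) (nat_lit 281) (nat_lit 128)))) (XT.nd (nat_lit 78) (nat_lit 0) (nat_lit 0) (XT.lf (nat_lit 0) (nat_lit 9768886052) (nat_lit 228) (nat_lit 27333294981) (nat_lit 76) (nat_lit 8615556563) (nat_lit 23) (nat_lit 5) (nat_lit 26) (nat_lit 5) (nat_lit 24) (nat_lit 5) (nat_lit 372) (nat_lit 281) (nat_lit 127)) (XT.nd (nat_lit 78) (nat_lit 0) (nat_lit 0) (XT.lf (nat_lit 0) (nat_lit 15552831248)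 (nat_lit 228) (nat_lit 14290029585) (nat_lit 76) (nat_lit 16993794226) (nat_lit 23) (nat_lit 5) (nat_lit 26) (nat_lit 5) (nat_lit 24) (nat_lit 5) (nat_lit 373) (nat_lit 281) (nat_lit 126)) (XT.lf (nat_lit 0) (nat_lit 21505403780) (nat_lit 228) (nat_lit 863655345) (nat_lit 76) (nat_lit 25620231695) (nat_lit 23) (nat_lit 5) (nat_lit 26) (nat_lit 5) (nat_lit 24) (nat_lit 5) (nat_lit 374) (nat_lit 281) (nat_lit 125))))))))
noncomputable def xc167 : XT := (XT.nd (nat_lit 33774) (nat_lit 0) (nat_lit 8892) (XT.nd (nat_lit 858) (nat_lit 304) (nat_lit 0) (XT.nd (nat_lit 390) (nat_lit 152) (nat_lit 0) (XT.nd (nat_lit 156) (nat_lit 152) (nat_lit 0) (XT.nd (nat_lit 78) (nat_lit 0) (nat_lit 0) (XT.lf (nat_lit 0) (nat_lit 13215440364) (nat_lit 152) (nat_lit 14543399458) (nat_lit 228) (nat_lit 21414001167) (nat_lit 21) (nat_lit 5) (nat_lit 23) (nat_lit 5) (nat_lit 24) (nat_lit 5) (nat_lit 375) (nat_lit 281) (nat_lit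 124)) (XT.lf (nat_lit 0) (nat_lit 27726740380) (nat_lit 152) (nat_lit 6477173859) (nat_lit 228) (nat_lit 16187866177) (nat_lit 21) (nat_lit 5) (nat_lit 23) (nat_lit 5) (nat_lit 24) (nat_lit 5) (nat_lit 376) (nat_lit 281) (nat_lit 123))) (XT.nd (nat_lit 78) (nat_lit 152) (nat_lit 0) (XT.lf (nat_lit 0) (nat_lit 40855362763) (nat_lit 228) (nat_lit 8999263488) (nat_lit 76) (nat_lit 1792274819) (nat_lit 21) (nat_lit 5) (nat_lit 24) (nat_lit 5) (nat_lit 22) (nat_lit 4) (nat_lit 377) (nat_lit 281) (nat_lit 122)) (XT.nd (nat_lit 78) (nat_lit 76) (nat_lit 0) (XT.lf (nat_lit 0) (nat_lit 5104433855) (nat_lit 76) (nat_lit 42710672447) (nat_lit 152) (nat_lit 5121310088) (nat_lit 20) (nat_lit 5) (nat_lit 21) (nat_lit 5) (nat_lit 22) (nat_lit 4) (nat_lit 378) (nat_lit 281) (nat_lit 121)) (XT.lf (nat_lit 0) (nat_lit 792334034) (nat_lit 152) (nat_lit 34461529987) (nat_lit 76) (nat_lit 19007928990) (nat_lit 19)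 (nat_lit 5) (nat_lit 21) (nat_lit 5) (nat_lit 20) (nat_lit 5) (nat_lit 379) (nat_lit 281) (nat_lit 120))))) (XT.nd (nat_lit 234) (nat_lit 0) (nat_lit 0) (XT.nd (nat_lit 78) (nat_lit 152) (nat_lit 0) (XT.lf (nat_lit 0) (nat_lit 6776148544) (nat_lit 152) (nat_lit 20747995923) (nat_lit 76) (nat_lit 28101397739) (nat_lit 19) (nat_lit 5) (nat_lit 21) (nat_lit 5) (nat_lit 20) (nat_lit 5) (nat_lit 380) (nat_lit 281) (nat_lit 119)) (XT.nd (nat_lit 78) (nat_lit 152) (nat_lit 0) (XT.lf (nat_lit 0) (nat_lit 12935297224) (nat_lit 152) (nat_lit 6630168479) (nat_lit 76) (nat_lit 37464866774) (nat_lit 19) (nat_lit 5) (nat_lit 21) (nat_lit 5) (nat_lit 20) (nat_lit 5) (nat_lit 381) (nat_lit 281) (nat_lit 118)) (XT.lf (nat_lit 0) (nat_lit 8061599146) (nat_lit 152) (nat_lit 11291055731) (nat_lit 228) (nat_lit 39122411644) (nat_lit 17) (nat_lit 5) (nat_lit 19) (nat_lit 5) (nat_lit 20) (nat_lit 5) (nat_lit 382) (nat_lit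 281) (nat_lit 117)))) (XT.nd (nat_lit 78) (nat_lit 0) (nat_lit 0) (XT.lf (nat_lit 0) (nat_lit 23323193976) (nat_lit 152) (nat_lit 2702284953) (nat_lit 228) (nat_lit 33935778295) (nat_lit 17) (nat_lit 5) (nat_lit 19) (nat_lit 5) (nat_lit 20) (nat_lit 5) (nat_lit 383) (nat_lit 281) (nat_lit 116)) (XT.nd (nat_lit 78) (nat_lit 0) (nat_lit 0) (XT.lf (nat_lit 0) (nat_lit 32953633246) (nat_lit 228) (nat_lit 22515190108) (nat_lit 76) (nat_lit 6021558850) (nat_lit 17) (nat_lit 5) (nat_lit 20) (nat_lit 5) (nat_lit 18) (nat_lit 4) (nat_lit 384) (nat_lit 281) (nat_lit 115)) (XT.lf (nat_lit 0) (nat_lit 40112585762) (nat_lit 228) (nat_lit 8001921791) (nat_lit 76) (nat_lit 14950187609) (nat_lit 17) (nat_lit 5) (nat_lit 20) (nat_lit 5) (nat_lit 18) (nat_lit 4) (nat_lit 385) (nat_lit 281) (nat_lit 114)))))) (XT.nd (nat_lit 468) (nat_lit 0) (nat_lit 0) (XT.nd (nat_lit 234) (nat_lit 228) (nat_lit 0) (XT.nd (nat_lit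 78) (nat_lit 0) (nat_lit 0) (XT.lf (nat_lit 0) (nat_lit 7078526767) (nat_lit 76) (nat_lit 40472132220) (nat_lit 152) (nat_lit 17133650712) (nat_lit 16) (nat_lit 5) (nat_lit 17) (nat_lit 5) (nat_lit 18) (nat_lit 4) (nat_lit 386) (nat_lit 281) (nat_lit 113)) (XT.nd (nat_lit 78) (nat_lit 0) (nat_lit 0) (XT.lf (nat_lit 0) (nat_lit 22769137184) (nat_lit 76) (nat_lit 32519897056) (nat_lit 152) (nat_lit 11061166309) (nat_lit 16) (nat_lit 5) (nat_lit 17) (nat_lit 5) (nat_lit 18) (nat_lit 4) (nat_lit 387) (nat_lit 281) (nat_lit 112)) (XT.lf (nat_lit 0) (nat_lit 38924365767) (nat_lit 76) (nat_lit 24331657228) (nat_lit 152) (nat_lit 4810153859) (nat_lit 16) (nat_lit 5) (nat_lit 17) (nat_lit 5) (nat_lit 18) (nat_lit 4) (nat_lit 388) (nat_lit 281) (nat_lit 111)))) (XT.nd (nat_lit 78) (nat_lit 152) (nat_lit 0) (XT.lf (nat_lit 0) (nat_lit 1593142038) (nat_lit 152) (nat_lit 14291028314) (nat_lit 76) (nat_lit 53949099086)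 (nat_lit 15) (nat_lit 5) (nat_lit 17) (nat_lit 5) (nat_lit 16) (nat_lit 5) (nat_lit 389) (nat_lit 281) (nat_lit 110)) (XT.nd (nat_lit 78) (nat_lit 0) (nat_lit 0) (XT.lf (nat_lit 0) (nat_lit 970776585) (nat_lit 152) (nat_lit 7127042507) (nat_lit 228) (nat_lit 63553950476) (nat_lit 13) (nat_lit 5) (nat_lit 15) (nat_lit 5) (nat_lit 16) (nat_lit 5) (nat_lit 390) (nat_lit 281) (nat_lit 109)) (XT.lf (nat_lit 0) (nat_lit 14958220661) (nat_lit 228) (nat_lit 56562572314) (nat_lit 76) (nat_lit 1999216507) (nat_lit 13) (nat_lit 5) (nat_lit 16) (nat_lit 5) (nat_lit 14) (nat_lit 4) (nat_lit 391) (nat_lit 281) (nat_lit 108))))) (XT.nd (nat_lit 32214) (nat_lit 0) (nat_lit 14364) (XT.nd (nat_lit 32058) (nat_lit 0) (nat_lit 14288) (XT.lf (nat_lit 0) (nat_lit 22091745918) (nat_lit 228) (nat_lit 42096834759) (nat_lit 76) (nat_lit 11253698806) (nat_lit 13) (nat_lit 5) (nat_lit 16) (nat_lit 5) (nat_lit 14) (nat_lit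 4) (nat_lit 392) (nat_lit 281) (nat_lit 107)) (XT.nd (nat_lit 78) (nat_lit 0) (nat_lit 0) (XT.lf (nat_lit 0) (nat_lit 1293029750) (nat_lit 988) (nat_lit 1493427583) (nat_lit 988) (nat_lit 1493427583) (nat_lit 201) (nat_lit 3) (nat_lit 214) (nat_lit 3) (nat_lit 214) (nat_lit 5) (nat_lit 282) (nat_lit 282) (nat_lit 216)) (XT.lf (nat_lit 76) (nat_lit 744533095) (nat_lit 0) (nat_lit 2821489351) (nat_lit 988) (nat_lit 5091857746) (nat_lit 202) (nat_lit 5) (nat_lit 201) (nat_lit 3) (nat_lit 214) (nat_lit 5) (nat_lit 283) (nat_lit 282) (nat_lit 215)))) (XT.nd (nat_lit 78) (nat_lit 0) (nat_lit 0) (XT.lf (nat_lit 0) (nat_lit 4569495535) (nat_lit 912) (nat_lit 4129891077) (nat_lit 988) (nat_lit 59803956) (nat_lit 202) (nat_lit 5) (nat_lit 214) (nat_lit 5) (nat_lit 215) (nat_lit 5) (nat_lit 284) (nat_lit 282) (nat_lit 214)) (XT.nd (nat_lit 78) (nat_lit 0) (nat_lit 0) (XT.lf (nat_lit 0) (nat_lit 5595601844)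 (nat_lit 912) (nat_lit 280802920) (nat_lit 988) (nat_lit 2987437335) (nat_lit 202) (nat_lit 5) (nat_lit 214) (nat_lit 5) (nat_lit 215) (nat_lit 5) (nat_lit 285) (nat_lit 282) (nat_lit 213)) (XT.lf (nat_lit 76) (nat_lit 3737331331) (nat_lit 0) (nat_lit 2916710272) (nat_lit 988) (nat_lit 2317620515) (nat_lit 203) (nat_lit 5) (nat_lit 202) (nat_lit 5) (nat_lit 215) (nat_lit 5) (nat_lit 286) (nat_lit 282) (nat_lit 212))))))) (XT.nd (nat_lit 936) (nat_lit 3724) (nat_lit 0) (XT.nd (nat_lit 468) (nat_lit 836) (nat_lit 0) (XT.nd (nat_lit 234) (nat_lit 0) (nat_lit 76) (XT.nd (nat_lit 78) (nat_lit 988) (nat_lit 0) (XT.lf (nat_lit 0) (nat_lit 7714944981) (nat_lit 912) (nat_lit 1222544593) (nat_lit 988) (nat_lit 146179105) (nat_lit 203) (nat_lit 5) (nat_lit 215) (nat_lit 5) (nat_lit 216) (nat_lit 5) (nat_lit 287) (nat_lit 282) (nat_lit 211)) (XT.nd (nat_lit 78) (nat_lit 988) (nat_lit 0) (XT.lf (nat_lit 76)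 (nat_lit 2917864683) (nat_lit 0) (nat_lit 5914290879) (nat_lit 988) (nat_lit 366216592) (nat_lit 204) (nat_lit 5) (nat_lit 203) (nat_lit 5) (nat_lit 216) (nat_lit 5) (nat_lit 288) (nat_lit 282) (nat_lit 210)) (XT.lf (nat_lit 0) (nat_lit 633758761) (nat_lit 988) (nat_lit 2135428445) (nat_lit 1064) (nat_lit 6547792511) (nat_lit 190) (nat_lit 5) (nat_lit 203) (nat_lit 5) (nat_lit 204) (nat_lit 5) (nat_lit 289) (nat_lit 282) (nat_lit 209)))) (XT.nd (nat_lit 78) (nat_lit 0) (nat_lit 0) (XT.lf (nat_lit 0) (nat_lit 1650799548) (nat_lit 988) (nat_lit 7291613059) (nat_lit 1064) (nat_lit 496856405) (nat_lit 191) (nat_lit 5) (nat_lit 204) (nat_lit 5) (nat_lit 205) (nat_lit 5) (nat_lit 290) (nat_lit 282) (nat_lit 208)) (XT.nd (nat_lit 78) (nat_lit 0) (nat_lit 0) (XT.lf (nat_lit 0) (nat_lit 2717233291) (nat_lit 988) (nat_lit 3009801697) (nat_lit 1064) (nat_lit 3837688735) (nat_lit 191) (nat_lit 5) (nat_lit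 204) (nat_lit 5) (nat_lit 205) (nat_lit 5) (nat_lit 291) (nat_lit 282) (nat_lit 207)) (XT.lf (nat_lit 76) (nat_lit 1407940424) (nat_lit 0) (nat_lit 2391823409) (nat_lit 1064) (nat_lit 5894716477) (nat_lit 192) (nat_lit 5) (nat_lit 191) (nat_lit 5) (nat_lit 205) (nat_lit 5) (nat_lit 292) (nat_lit 282) (nat_lit 206))))) (XT.nd (nat_lit 234) (nat_lit 988) (nat_lit 0) (XT.nd (nat_lit 78) (nat_lit 0) (nat_lit 0) (XT.lf (nat_lit 0) (nat_lit 4926817331) (nat_lit 988) (nat_lit 3838446283) (nat_lit 1064) (nat_lit 1062564132) (nat_lit 192) (nat_lit 5) (nat_lit 205) (nat_lit 5) (nat_lit 206) (nat_lit 5) (nat_lit 293) (nat_lit 282) (nat_lit 205)) (XT.nd (nat_lit 78) (nat_lit 0) (nat_lit 0) (XT.lf (nat_lit 76) (nat_lit 713120249) (nat_lit 0) (nat_lit 5377256605) (nat_lit 1064) (nat_lit 3874775744) (nat_lit 193) (nat_lit 5) (nat_lit 192) (nat_lit 5) (nat_lit 206) (nat_lit 5) (nat_lit 294) (nat_lit 282) (nat_lit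 204)) (XT.lf (nat_lit 76) (nat_lit 5459912236) (nat_lit 0) (nat_lit 1840468382) (nat_lit 1064) (nat_lit 2805926597) (nat_lit 193) (nat_lit 5) (nat_lit 192) (nat_lit 5) (nat_lit 206) (nat_lit 5) (nat_lit 295) (nat_lit 282) (nat_lit 203)))) (XT.nd (nat_lit 78) (nat_lit 1064) (nat_lit 0) (XT.lf (nat_lit 76) (nat_lit 60936601) (nat_lit 0) (nat_lit 8477296596) (nat_lit 1064) (nat_lit 1713771320) (nat_lit 194) (nat_lit 5) (nat_lit 193) (nat_lit 5) (nat_lit 207) (nat_lit 5) (nat_lit 296) (nat_lit 282) (nat_lit 202)) (XT.nd (nat_lit 78) (nat_lit 1064) (nat_lit 0) (XT.lf (nat_lit 76) (nat_lit 4966010934) (nat_lit 0) (nat_lit 4886384920) (nat_lit 1064) (nat_lit 548554569) (nat_lit 194) (nat_lit 5) (nat_lit 193) (nat_lit 5) (nat_lit 207) (nat_lit 5) (nat_lit 297) (nat_lit 282) (nat_lit 201)) (XT.lf (nat_lit 0) (nat_lit 613567328) (nat_lit 1064) (nat_lit 562497135) (nat_lit 1140) (nat_lit 9378922290) (nat_lit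 179) (nat_lit 5) (nat_lit 193) (nat_lit 5) (nat_lit 194) (nat_lit 5) (nat_lit 298) (nat_lit 282) (nat_lit 200)))))) (XT.nd (nat_lit 468) (nat_lit 1672) (nat_lit 0) (XT.nd (nat_lit 234) (nat_lit 1064) (nat_lit 0) (XT.nd (nat_lit 78) (nat_lit 1064) (nat_lit 0) (XT.lf (nat_lit 0) (nat_lit 1844335806) (nat_lit 1064) (nat_lit 6219572216) (nat_lit 76) (nat_lit 2648277394) (nat_lit 180) (nat_lit 5) (nat_lit 194) (nat_lit 5) (nat_lit 181) (nat_lit 5) (nat_lit 299) (nat_lit 282) (nat_lit 199)) (XT.nd (nat_lit 78) (nat_lit 1064) (nat_lit 0) (XT.lf (nat_lit 0) (nat_lit 3105386097) (nat_lit 1064) (nat_lit 1194866350) (nat_lit 76) (nat_lit 6574093847) (nat_lit 180) (nat_lit 5) (nat_lit 194) (nat_lit 5) (nat_lit 181) (nat_lit 5) (nat_lit 300) (nat_lit 282) (nat_lit 198)) (XT.lf (nat_lit 0) (nat_lit 4039855780) (nat_lit 1064) (nat_lit 379923545) (nat_lit 1140) (nat_lit 6621172979) (nat_lit 166) (nat_lit 5) (nat_lit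 180) (nat_lit 5) (nat_lit 181) (nat_lit 5) (nat_lit 301) (nat_lit 282) (nat_lit 197)))) (XT.nd (nat_lit 78) (nat_lit 1064) (nat_lit 0) (XT.lf (nat_lit 0) (nat_lit 5798156995) (nat_lit 1140) (nat_lit 1811491698) (nat_lit 76) (nat_lit 3602215542) (nat_lit 166) (nat_lit 5) (nat_lit 181) (nat_lit 5) (nat_lit 167) (nat_lit 5) (nat_lit 302) (nat_lit 282) (nat_lit 196)) (XT.nd (nat_lit 78) (nat_lit 0) (nat_lit 0) (XT.lf (nat_lit 0) (nat_lit 3580363897) (nat_lit 1064) (nat_lit 3653568610) (nat_lit 1140) (nat_lit 4153532649) (nat_lit 152) (nat_lit 5) (nat_lit 166) (nat_lit 5) (nat_lit 167) (nat_lit 5) (nat_lit 303) (nat_lit 282) (nat_lit 195)) (XT.lf (nat_lit 0) (nat_lit 8713652876) (nat_lit 1140) (nat_lit 2420970522) (nat_lit 76) (nat_lit 433726336) (nat_lit 152) (nat_lit 5) (nat_lit 167) (nat_lit 5) (nat_lit 153) (nat_lit 5) (nat_lit 304) (nat_lit 282) (nat_lit 194))))) (XT.nd (nat_lit 234) (nat_lit 532)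 (nat_lit 0) (XT.nd (nat_lit 78) (nat_lit 608) (nat_lit 0) (XT.lf (nat_lit 0) (nat_lit 3132211037) (nat_lit 532) (nat_lit 7150816287) (nat_lit 608) (nat_lit 1470316210) (nat_lit 145) (nat_lit 5) (nat_lit 152) (nat_lit 5) (nat_lit 153) (nat_lit 5) (nat_lit 305) (nat_lit 282) (nat_lit 193)) (XT.nd (nat_lit 78) (nat_lit 608) (nat_lit 0) (XT.lf (nat_lit 0) (nat_lit 8882326674) (nat_lit 532) (nat_lit 3021010004) (nat_lit 608) (nat_lit 40474236) (nat_lit 145) (nat_lit 5) (nat_lit 152) (nat_lit 5) (nat_lit 153) (nat_lit 5) (nat_lit 306) (nat_lit 282) (nat_lit 192)) (XT.lf (nat_lit 0) (nat_lit 1422140863) (nat_lit 608) (nat_lit 9467299318) (nat_lit 76) (nat_lit 1249641424) (nat_lit 137) (nat_lit 5) (nat_lit 145) (nat_lit 5) (nat_lit 138) (nat_lit 5) (nat_lit 307) (nat_lit 282) (nat_lit 191)))) (XT.nd (nat_lit 78) (nat_lit 532) (nat_lit 0) (XT.lf (nat_lit 0) (nat_lit 2969138839) (nat_lit 608) (nat_lit 3749714239)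 (nat_lit 76) (nat_lit 5620141816) (nat_lit 137) (nat_lit 5) (nat_lit 145) (nat_lit 5) (nat_lit 138) (nat_lit 5) (nat_lit 308) (nat_lit 282) (nat_lit 190)) (XT.nd (nat_lit 78) (nat_lit 0) (nat_lit 0) (XT.lf (nat_lit 0) (nat_lit 2162551249) (nat_lit 532) (nat_lit 2401546229) (nat_lit 608) (nat_lit 7980796566) (nat_lit 130) (nat_lit 5) (nat_lit 137) (nat_lit 5) (nat_lit 138) (nat_lit 5) (nat_lit 309) (nat_lit 282) (nat_lit 189)) (XT.lf (nat_lit 0) (nat_lit 6245946977) (nat_lit 608) (nat_lit 4466278709) (nat_lit 76) (nat_lit 2043607189) (nat_lit 130) (nat_lit 5) (nat_lit 138) (nat_lit 5) (nat_lit 131) (nat_lit 5) (nat_lit 310) (nat_lit 282) (nat_lit 188))))))))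
noncomputable def xc168 : XT := (XT.nd (nat_lit 1794) (nat_lit 2660) (nat_lit 0) (XT.nd (nat_lit 858) (nat_lit 2204) (nat_lit 0) (XT.nd (nat_lit 390) (nat_lit 836) (nat_lit 0) (XT.nd (nat_lit 156) (nat_lit 988) (nat_lit 0) (XT.nd (nat_lit 78) (nat_lit 0) (nat_lit 0) (XT.lf (nat_lit 0) (nat_lit 1616133708) (nat_lit 532) (nat_lit 6383122423) (nat_lit 608) (nat_lit 4973246590) (nat_lit 123) (nat_lit 5) (nat_lit 130) (nat_lit 5) (nat_lit 131) (nat_lit 5) (nat_lit 311) (nat_lit 282) (nat_lit 187)) (XT.lf (nat_lit 0) (nat_lit 7953865558) (nat_lit 532) (nat_lit 1878444320) (nat_lit 608) (nat_lit 3362580444) (nat_lit 123) (nat_lit 5) (nat_lit 130) (nat_lit 5) (nat_lit 131) (nat_lit 5) (nat_lit 312) (nat_lit 282) (nat_lit 186))) (XT.nd (nat_lit 78) (nat_lit 532) (nat_lit 0) (XT.lf (nat_lit 0) (nat_lit 1032677611) (nat_lit 456) (nat_lit 10706708986) (nat_lit 532) (nat_lit 1684023097) (nat_lit 117) (nat_lit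 5) (nat_lit 123) (nat_lit 5) (nat_lit 124) (nat_lit 5) (nat_lit 313) (nat_lit 282) (nat_lit 185)) (XT.nd (nat_lit 78) (nat_lit 456) (nat_lit 0) (XT.lf (nat_lit 0) (nat_lit 98752999) (nat_lit 532) (nat_lit 6093623766) (nat_lit 76) (nat_lit 7464782098) (nat_lit 116) (nat_lit 5) (nat_lit 123) (nat_lit 5) (nat_lit 117) (nat_lit 5) (nat_lit 314) (nat_lit 282) (nat_lit 184)) (XT.lf (nat_lit 0) (nat_lit 364487457) (nat_lit 456) (nat_lit 1523377014) (nat_lit 532) (nat_lit 12009983298) (nat_lit 110) (nat_lit 5) (nat_lit 116) (nat_lit 5) (nat_lit 117) (nat_lit 5) (nat_lit 315) (nat_lit 282) (nat_lit 183))))) (XT.nd (nat_lit 234) (nat_lit 456) (nat_lit 0) (XT.nd (nat_lit 78) (nat_lit 380) (nat_lit 0) (XT.lf (nat_lit 0) (nat_lit 3807870532) (nat_lit 532) (nat_lit 7053524909) (nat_lit 76) (nat_lit 3282072883) (nat_lit 110) (nat_lit 5) (nat_lit 117) (nat_lit 5) (nat_lit 111) (nat_lit 5) (nat_lit 316) (nat_lit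 282) (nat_lit 182)) (XT.nd (nat_lit 78) (nat_lit 380) (nat_lit 0) (XT.lf (nat_lit 0) (nat_lit 5784534723) (nat_lit 532) (nat_lit 412509010) (nat_lit 76) (nat_lit 8199468838) (nat_lit 110) (nat_lit 5) (nat_lit 117) (nat_lit 5) (nat_lit 111) (nat_lit 5) (nat_lit 317) (nat_lit 282) (nat_lit 181)) (XT.lf (nat_lit 0) (nat_lit 6537708078) (nat_lit 380) (nat_lit 1330076967) (nat_lit 456) (nat_lit 6787970548) (nat_lit 105) (nat_lit 5) (nat_lit 110) (nat_lit 5) (nat_lit 111) (nat_lit 5) (nat_lit 318) (nat_lit 282) (nat_lit 180)))) (XT.nd (nat_lit 78) (nat_lit 456) (nat_lit 0) (XT.lf (nat_lit 0) (nat_lit 10037848533) (nat_lit 456) (nat_lit 1271100392) (nat_lit 76) (nat_lit 3613122785) (nat_lit 105) (nat_lit 5) (nat_lit 111) (nat_lit 5) (nat_lit 106) (nat_lit 5) (nat_lit 319) (nat_lit 282) (nat_lit 179)) (XT.nd (nat_lit 78) (nat_lit 0) (nat_lit 0) (XT.lf (nat_lit 0) (nat_lit 5865164072) (nat_lit 456) (nat_lit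 6462550521) (nat_lit 532) (nat_lit 2867046237) (nat_lit 99) (nat_lit 5) (nat_lit 105) (nat_lit 5) (nat_lit 106) (nat_lit 5) (nat_lit 320) (nat_lit 282) (nat_lit 178)) (XT.lf (nat_lit 0) (nat_lit 13224370631) (nat_lit 456) (nat_lit 1460160775) (nat_lit 532) (nat_lit 791175397) (nat_lit 99) (nat_lit 5) (nat_lit 105) (nat_lit 5) (nat_lit 106) (nat_lit 5) (nat_lit 321) (nat_lit 282) (nat_lit 177)))))) (XT.nd (nat_lit 468) (nat_lit 1064) (nat_lit 0) (XT.nd (nat_lit 234) (nat_lit 304) (nat_lit 0) (XT.nd (nat_lit 78) (nat_lit 380) (nat_lit 0) (XT.lf (nat_lit 0) (nat_lit 1391560479) (nat_lit 456) (nat_lit 10690741690) (nat_lit 76) (nat_lit 3680286811) (nat_lit 93) (nat_lit 5) (nat_lit 99) (nat_lit 5) (nat_lit 94) (nat_lit 5) (nat_lit 322) (nat_lit 282) (nat_lit 176)) (XT.nd (nat_lit 78) (nat_lit 380) (nat_lit 0) (XT.lf (nat_lit 0) (nat_lit 3647202257) (nat_lit 456) (nat_lit 3436293518) (nat_lit 76) (nat_lit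 8973668877) (nat_lit 93) (nat_lit 5) (nat_lit 99) (nat_lit 5) (nat_lit 94) (nat_lit 5) (nat_lit 323) (nat_lit 282) (nat_lit 175)) (XT.lf (nat_lit 0) (nat_lit 4099018586) (nat_lit 380) (nat_lit 1897216838) (nat_lit 456) (nat_lit 10363591672) (nat_lit 88) (nat_lit 5) (nat_lit 93) (nat_lit 5) (nat_lit 94) (nat_lit 5) (nat_lit 324) (nat_lit 282) (nat_lit 174)))) (XT.nd (nat_lit 78) (nat_lit 304) (nat_lit 0) (XT.lf (nat_lit 0) (nat_lit 8470423600) (nat_lit 456) (nat_lit 4790138722) (nat_lit 76) (nat_lit 3409387123) (nat_lit 88) (nat_lit 5) (nat_lit 94) (nat_lit 5) (nat_lit 89) (nat_lit 5) (nat_lit 325) (nat_lit 282) (nat_lit 173)) (XT.nd (nat_lit 78) (nat_lit 0) (nat_lit 0) (XT.lf (nat_lit 0) (nat_lit 2926482412) (nat_lit 304) (nat_lit 8126191380) (nat_lit 380) (nat_lit 5935706532) (nat_lit 84) (nat_lit 5) (nat_lit 88) (nat_lit 5) (nat_lit 89) (nat_lit 5) (nat_lit 326) (nat_lit 282) (nat_lit 172)) (XT.lf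 (nat_lit 0) (nat_lit 10956466367) (nat_lit 304) (nat_lit 2791441022) (nat_lit 380) (nat_lit 3567410636) (nat_lit 84) (nat_lit 5) (nat_lit 88) (nat_lit 5) (nat_lit 89) (nat_lit 5) (nat_lit 327) (nat_lit 282) (nat_lit 171))))) (XT.nd (nat_lit 234) (nat_lit 608) (nat_lit 0) (XT.nd (nat_lit 78) (nat_lit 76) (nat_lit 0) (XT.lf (nat_lit 0) (nat_lit 1563596952) (nat_lit 380) (nat_lit 14988904452) (nat_lit 456) (nat_lit 1098726156) (nat_lit 79) (nat_lit 5) (nat_lit 84) (nat_lit 5) (nat_lit 85) (nat_lit 5) (nat_lit 328) (nat_lit 282) (nat_lit 170)) (XT.nd (nat_lit 78) (nat_lit 0) (nat_lit 0) (XT.lf (nat_lit 0) (nat_lit 1495883875) (nat_lit 456) (nat_lit 8199693930) (nat_lit 76) (nat_lit 8298836589) (nat_lit 78) (nat_lit 5) (nat_lit 84) (nat_lit 5) (nat_lit 79) (nat_lit 5) (nat_lit 329) (nat_lit 282) (nat_lit 169)) (XT.lf (nat_lit 0) (nat_lit 4134168611) (nat_lit 456) (nat_lit 101842839) (nat_lit 76) (nat_lit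 14111938649) (nat_lit 78) (nat_lit 5) (nat_lit 84) (nat_lit 5) (nat_lit 79) (nat_lit 5) (nat_lit 330) (nat_lit 282) (nat_lit 168)))) (XT.nd (nat_lit 78) (nat_lit 304) (nat_lit 0) (XT.lf (nat_lit 0) (nat_lit 6934595682) (nat_lit 380) (nat_lit 10336915782) (nat_lit 76) (nat_lit 1438107307) (nat_lit 74) (nat_lit 5) (nat_lit 79) (nat_lit 5) (nat_lit 75) (nat_lit 5) (nat_lit 331) (nat_lit 282) (nat_lit 167)) (XT.nd (nat_lit 78) (nat_lit 304) (nat_lit 0) (XT.lf (nat_lit 0) (nat_lit 9850446045) (nat_lit 380) (nat_lit 2036044205) (nat_lit 76) (nat_lit 7194721161) (nat_lit 74) (nat_lit 5) (nat_lit 79) (nat_lit 5) (nat_lit 75) (nat_lit 5) (nat_lit 332) (nat_lit 282) (nat_lit 166)) (XT.lf (nat_lit 0) (nat_lit 6628084983) (nat_lit 304) (nat_lit 6278168277) (nat_lit 380) (nat_lit 6556139881) (nat_lit 70) (nat_lit 5) (nat_lit 74) (nat_lit 5) (nat_lit 75) (nat_lit 5) (nat_lit 333) (nat_lit 282) (nat_lit 165)))))))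 (XT.nd (nat_lit 936) (nat_lit 1216) (nat_lit 0) (XT.nd (nat_lit 468) (nat_lit 760) (nat_lit 0) (XT.nd (nat_lit 234) (nat_lit 304) (nat_lit 0) (XT.nd (nat_lit 78) (nat_lit 380) (nat_lit 0) (XT.lf (nat_lit 0) (nat_lit 15578916713) (nat_lit 304) (nat_lit 484329522) (nat_lit 380) (nat_lit 3791494034) (nat_lit 70) (nat_lit 5) (nat_lit 74) (nat_lit 5) (nat_lit 75) (nat_lit 5) (nat_lit 334) (nat_lit 282) (nat_lit 164)) (XT.nd (nat_lit 78) (nat_lit 76) (nat_lit 0) (XT.lf (nat_lit 0) (nat_lit 4560883043) (nat_lit 304) (nat_lit 14839853822) (nat_lit 380) (nat_lit 855562154) (nat_lit 66) (nat_lit 5) (nat_lit 70) (nat_lit 5) (nat_lit 71) (nat_lit 5) (nat_lit 335) (nat_lit 282) (nat_lit 163)) (XT.lf (nat_lit 0) (nat_lit 2163823944) (nat_lit 380) (nat_lit 6959240012) (nat_lit 76) (nat_lit 11545098524) (nat_lit 65) (nat_lit 5) (nat_lit 70) (nat_lit 5) (nat_lit 66) (nat_lit 5) (nat_lit 336) (nat_lit 282) (nat_lit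 162)))) (XT.nd (nat_lit 78) (nat_lit 0) (nat_lit 0) (XT.lf (nat_lit 0) (nat_lit 2056203828) (nat_lit 304) (nat_lit 3209759481) (nat_lit 380) (nat_lit 15825896963) (nat_lit 61) (nat_lit 5) (nat_lit 65) (nat_lit 5) (nat_lit 66) (nat_lit 5) (nat_lit 337) (nat_lit 282) (nat_lit 161)) (XT.nd (nat_lit 78) (nat_lit 0) (nat_lit 0) (XT.lf (nat_lit 0) (nat_lit 8549558613) (nat_lit 380) (nat_lit 10084390732) (nat_lit 76) (nat_lit 2891681093) (nat_lit 61) (nat_lit 5) (nat_lit 66) (nat_lit 5) (nat_lit 62) (nat_lit 5) (nat_lit 338) (nat_lit 282) (nat_lit 160)) (XT.lf (nat_lit 0) (nat_lit 11953468650) (nat_lit 380) (nat_lit 910550698) (nat_lit 76) (nat_lit 9107752961) (nat_lit 61) (nat_lit 5) (nat_lit 66) (nat_lit 5) (nat_lit 62) (nat_lit 5) (nat_lit 339) (nat_lit 282) (nat_lit 159))))) (XT.nd (nat_lit 234) (nat_lit 304) (nat_lit 0) (XT.nd (nat_lit 78) (nat_lit 228) (nat_lit 0) (XT.lf (nat_lit 0) (nat_lit 8694392725)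 (nat_lit 228) (nat_lit 6838996638) (nat_lit 304) (nat_lit 6895704705) (nat_lit 58) (nat_lit 5) (nat_lit 61) (nat_lit 5) (nat_lit 62) (nat_lit 5) (nat_lit 340) (nat_lit 282) (nat_lit 158)) (XT.nd (nat_lit 78) (nat_lit 228) (nat_lit 0) (XT.lf (nat_lit 0) (nat_lit 18592514125) (nat_lit 228) (nat_lit 627856839) (nat_lit 304) (nat_lit 3679786689) (nat_lit 58) (nat_lit 5) (nat_lit 61) (nat_lit 5) (nat_lit 62) (nat_lit 5) (nat_lit 341) (nat_lit 282) (nat_lit 157)) (XT.lf (nat_lit 0) (nat_lit 5439417966) (nat_lit 228) (nat_lit 17676999953) (nat_lit 304) (nat_lit 265993269) (nat_lit 55) (nat_lit 5) (nat_lit 58) (nat_lit 5) (nat_lit 59) (nat_lit 5) (nat_lit 342) (nat_lit 282) (nat_lit 156)))) (XT.nd (nat_lit 78) (nat_lit 228) (nat_lit 0) (XT.lf (nat_lit 0) (nat_lit 3227684712) (nat_lit 304) (nat_lit 8362076243) (nat_lit 76) (nat_lit 12287218306) (nat_lit 54) (nat_lit 5) (nat_lit 58) (nat_lit 5) (nat_lit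 55) (nat_lit 5) (nat_lit 343) (nat_lit 282) (nat_lit 155)) (XT.nd (nat_lit 78) (nat_lit 0) (nat_lit 0) (XT.lf (nat_lit 0) (nat_lit 1520140270) (nat_lit 228) (nat_lit 5306316848) (nat_lit 304) (nat_lit 17559690067) (nat_lit 51) (nat_lit 5) (nat_lit 54) (nat_lit 5) (nat_lit 55) (nat_lit 5) (nat_lit 344) (nat_lit 282) (nat_lit 154)) (XT.lf (nat_lit 0) (nat_lit 10620788008) (nat_lit 304) (nat_lit 13063124455) (nat_lit 76) (nat_lit 1224060237) (nat_lit 51) (nat_lit 5) (nat_lit 55) (nat_lit 5) (nat_lit 52) (nat_lit 5) (nat_lit 345) (nat_lit 282) (nat_lit 153)))))) (XT.nd (nat_lit 468) (nat_lit 684) (nat_lit 0) (XT.nd (nat_lit 234) (nat_lit 304) (nat_lit 0) (XT.nd (nat_lit 78) (nat_lit 228) (nat_lit 0) (XT.lf (nat_lit 0) (nat_lit 14572859369) (nat_lit 304) (nat_lit 3031571341) (nat_lit 76) (nat_lit 7839715064) (nat_lit 51) (nat_lit 5) (nat_lit 55) (nat_lit 5) (nat_lit 52) (nat_lit 5) (nat_lit 346) (nat_lit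 282) (nat_lit 152)) (XT.nd (nat_lit 78) (nat_lit 0) (nat_lit 0) (XT.lf (nat_lit 0) (nat_lit 7433479381) (nat_lit 228) (nat_lit 11273092674) (nat_lit 304) (nat_lit 7287949424) (nat_lit 48) (nat_lit 5) (nat_lit 51) (nat_lit 5) (nat_lit 52) (nat_lit 5) (nat_lit 347) (nat_lit 282) (nat_lit 151)) (XT.lf (nat_lit 0) (nat_lit 18262245503) (nat_lit 228) (nat_lit 4724412532) (nat_lit 304) (nat_lit 3574089092) (nat_lit 48) (nat_lit 5) (nat_lit 51) (nat_lit 5) (nat_lit 52) (nat_lit 5) (nat_lit 348) (nat_lit 282) (nat_lit 150)))) (XT.nd (nat_lit 78) (nat_lit 0) (nat_lit 0) (XT.lf (nat_lit 0) (nat_lit 279945072) (nat_lit 304) (nat_lit 24860867856) (nat_lit 76) (nat_lit 2002073376) (nat_lit 44) (nat_lit 5) (nat_lit 48) (nat_lit 5) (nat_lit 45) (nat_lit 5) (nat_lit 349) (nat_lit 282) (nat_lit 149)) (XT.nd (nat_lit 78) (nat_lit 0) (nat_lit 0) (XT.lf (nat_lit 0) (nat_lit 4301150717) (nat_lit 304) (nat_lit 14485182698)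 (nat_lit 76) (nat_lit 8951401766) (nat_lit 44) (nat_lit 5) (nat_lit 48) (nat_lit 5) (nat_lit 45) (nat_lit 5) (nat_lit 350) (nat_lit 282) (nat_lit 148)) (XT.lf (nat_lit 0) (nat_lit 8435207543) (nat_lit 304) (nat_lit 3810148538) (nat_lit 76) (nat_lit 16105315460) (nat_lit 44) (nat_lit 5) (nat_lit 48) (nat_lit 5) (nat_lit 45) (nat_lit 5) (nat_lit 351) (nat_lit 282) (nat_lit 147))))) (XT.nd (nat_lit 234) (nat_lit 304) (nat_lit 0) (XT.nd (nat_lit 78) (nat_lit 152) (nat_lit 0) (XT.lf (nat_lit 0) (nat_lit 7316330276) (nat_lit 228) (nat_lit 5439726599) (nat_lit 304) (nat_lit 16224064214) (nat_lit 41) (nat_lit 5) (nat_lit 44) (nat_lit 5) (nat_lit 45) (nat_lit 5) (nat_lit 352) (nat_lit 282) (nat_lit 146)) (XT.nd (nat_lit 78) (nat_lit 152) (nat_lit 0) (XT.lf (nat_lit 0) (nat_lit 17252993309) (nat_lit 304) (nat_lit 10799719245) (nat_lit 76) (nat_lit 1574355700) (nat_lit 41) (nat_lit 5) (nat_lit 45) (nat_lit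 5) (nat_lit 42) (nat_lit 5) (nat_lit 353) (nat_lit 282) (nat_lit 145)) (XT.lf (nat_lit 0) (nat_lit 331571668) (nat_lit 152) (nat_lit 21603043341) (nat_lit 228) (nat_lit 8357323259) (nat_lit 39) (nat_lit 5) (nat_lit 41) (nat_lit 5) (nat_lit 42) (nat_lit 5) (nat_lit 354) (nat_lit 282) (nat_lit 144)))) (XT.nd (nat_lit 78) (nat_lit 304) (nat_lit 0) (XT.lf (nat_lit 0) (nat_lit 12006981611) (nat_lit 152) (nat_lit 14851594982) (nat_lit 228) (nat_lit 4115128575) (nat_lit 39) (nat_lit 5) (nat_lit 41) (nat_lit 5) (nat_lit 42) (nat_lit 5) (nat_lit 355) (nat_lit 282) (nat_lit 143)) (XT.nd (nat_lit 78) (nat_lit 228) (nat_lit 0) (XT.lf (nat_lit 0) (nat_lit 242336909) (nat_lit 228) (nat_lit 7656740104) (nat_lit 76) (nat_lit 23776992771) (nat_lit 38) (nat_lit 5) (nat_lit 41) (nat_lit 5) (nat_lit 39) (nat_lit 5) (nat_lit 356) (nat_lit 282) (nat_lit 142)) (XT.lf (nat_lit 0) (nat_lit 4019531546) (nat_lit 228) (nat_lit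 660095709) (nat_lit 304) (nat_lit 27717708326) (nat_lit 35) (nat_lit 5) (nat_lit 38) (nat_lit 5) (nat_lit 39) (nat_lit 5) (nat_lit 357) (nat_lit 282) (nat_lit 141))))))))
noncomputable def xc169 : XT := (XT.nd (nat_lit 1794) (nat_lit 456) (nat_lit 0) (XT.nd (nat_lit 858) (nat_lit 684) (nat_lit 0) (XT.nd (nat_lit 390) (nat_lit 380) (nat_lit 0) (XT.nd (nat_lit 156) (nat_lit 152) (nat_lit 0) (XT.nd (nat_lit 78) (nat_lit 0) (nat_lit 0) (XT.lf (nat_lit 0) (nat_lit 9386680247) (nat_lit 304) (nat_lit 17011735641) (nat_lit 76) (nat_lit 6737730828) (nat_lit 35) (nat_lit 5) (nat_lit 39) (nat_lit 5) (nat_lit 36) (nat_lit 5) (nat_lit 358) (nat_lit 282) (nat_lit 140)) (XT.lf (nat_lit 0) (nat_lit 14234910051) (nat_lit 304) (nat_lit 5321676602) (nat_lit 76) (nat_lit 14340543065) (nat_lit 35) (nat_lit 5) (nat_lit 39) (nat_lit 5) (nat_lit 36) (nat_lit 5) (nat_lit 359) (nat_lit 282) (nat_lit 139))) (XT.nd (nat_lit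 78) (nat_lit 0) (nat_lit 0) (XT.lf (nat_lit 0) (nat_lit 6842453860) (nat_lit 152) (nat_lit 12445527734) (nat_lit 228) (nat_lit 15391185072) (nat_lit 33) (nat_lit 5) (nat_lit 35) (nat_lit 5) (nat_lit 36) (nat_lit 5) (nat_lit 360) (nat_lit 282) (nat_lit 138)) (XT.nd (nat_lit 78) (nat_lit 0) (nat_lit 0) (XT.lf (nat_lit 0) (nat_lit 19470545644) (nat_lit 152) (nat_lit 5069548301) (nat_lit 228) (nat_lit 10943153432) (nat_lit 33) (nat_lit 5) (nat_lit 35) (nat_lit 5) (nat_lit 36) (nat_lit 5) (nat_lit 361) (nat_lit 282) (nat_lit 137)) (XT.lf (nat_lit 0) (nat_lit 29967925823) (nat_lit 228) (nat_lit 3868181233) (nat_lit 76) (nat_lit 2474804708) (nat_lit 33) (nat_lit 5) (nat_lit 36) (nat_lit 5) (nat_lit 34) (nat_lit 5) (nat_lit 362) (nat_lit 282) (nat_lit 136))))) (XT.nd (nat_lit 234) (nat_lit 152) (nat_lit 0) (XT.nd (nat_lit 78) (nat_lit 76) (nat_lit 0) (XT.lf (nat_lit 0) (nat_lit 8751632938) (nat_lit 152)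 (nat_lit 26935316456) (nat_lit 228) (nat_lit 1472611753) (nat_lit 31) (nat_lit 5) (nat_lit 33) (nat_lit 5) (nat_lit 34) (nat_lit 5) (nat_lit 363) (nat_lit 282) (nat_lit 135)) (XT.nd (nat_lit 78) (nat_lit 0) (nat_lit 0) (XT.lf (nat_lit 0) (nat_lit 3508223206) (nat_lit 228) (nat_lit 16247269008) (nat_lit 76) (nat_lit 18276156155) (nat_lit 30) (nat_lit 5) (nat_lit 33) (nat_lit 5) (nat_lit 31) (nat_lit 5) (nat_lit 364) (nat_lit 282) (nat_lit 134)) (XT.lf (nat_lit 0) (nat_lit 8603113812) (nat_lit 228) (nat_lit 3745742834) (nat_lit 76) (nat_lit 26580782571) (nat_lit 30) (nat_lit 5) (nat_lit 33) (nat_lit 5) (nat_lit 31) (nat_lit 5) (nat_lit 365) (nat_lit 282) (nat_lit 133)))) (XT.nd (nat_lit 78) (nat_lit 0) (nat_lit 0) (XT.lf (nat_lit 0) (nat_lit 9303269927) (nat_lit 152) (nat_lit 4631406663) (nat_lit 228) (nat_lit 25917383557) (nat_lit 28) (nat_lit 5) (nat_lit 30) (nat_lit 5) (nat_lit 31) (nat_lit 5)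 (nat_lit 366) (nat_lit 282) (nat_lit 132)) (XT.nd (nat_lit 78) (nat_lit 0) (nat_lit 0) (XT.lf (nat_lit 0) (nat_lit 19490715732) (nat_lit 228) (nat_lit 18021894401) (nat_lit 76) (nat_lit 3287612662) (nat_lit 28) (nat_lit 5) (nat_lit 31) (nat_lit 5) (nat_lit 29) (nat_lit 5) (nat_lit 367) (nat_lit 282) (nat_lit 131)) (XT.lf (nat_lit 0) (nat_lit 25253893342) (nat_lit 228) (nat_lit 5173928364) (nat_lit 76) (nat_lit 11347799727) (nat_lit 28) (nat_lit 5) (nat_lit 31) (nat_lit 5) (nat_lit 29) (nat_lit 5) (nat_lit 368) (nat_lit 282) (nat_lit 130)))))) (XT.nd (nat_lit 468) (nat_lit 304) (nat_lit 0) (XT.nd (nat_lit 234) (nat_lit 228) (nat_lit 0) (XT.nd (nat_lit 78) (nat_lit 0) (nat_lit 0) (XT.lf (nat_lit 0) (nat_lit 8211081968) (nat_lit 152) (nat_lit 23052573268) (nat_lit 228) (nat_lit 11514420812) (nat_lit 26) (nat_lit 5) (nat_lit 28) (nat_lit 5) (nat_lit 29) (nat_lit 5) (nat_lit 369) (nat_lit 282) (nat_lit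 129)) (XT.nd (nat_lit 78) (nat_lit 0) (nat_lit 0) (XT.lf (nat_lit 0) (nat_lit 22095165133) (nat_lit 152) (nat_lit 15405620976) (nat_lit 228) (nat_lit 6308410460) (nat_lit 26) (nat_lit 5) (nat_lit 28) (nat_lit 5) (nat_lit 29) (nat_lit 5) (nat_lit 370) (nat_lit 282) (nat_lit 128)) (XT.lf (nat_lit 0) (nat_lit 36387481534) (nat_lit 152) (nat_lit 7532529560) (nat_lit 228) (nat_lit 951394625) (nat_lit 26) (nat_lit 5) (nat_lit 28) (nat_lit 5) (nat_lit 29) (nat_lit 5) (nat_lit 371) (nat_lit 282) (nat_lit 127)))) (XT.nd (nat_lit 78) (nat_lit 0) (nat_lit 0) (XT.lf (nat_lit 0) (nat_lit 4528654120) (nat_lit 228) (nat_lit 40776897202) (nat_lit 76) (nat_lit 657074314) (nat_lit 23) (nat_lit 5) (nat_lit 26) (nat_lit 5) (nat_lit 24) (nat_lit 5) (nat_lit 372) (nat_lit 282) (nat_lit 126)) (XT.nd (nat_lit 78) (nat_lit 0) (nat_lit 0) (XT.lf (nat_lit 0) (nat_lit 10310189946) (nat_lit 228) (nat_lit 27737665854) (nat_lit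 76) (nat_lit 9033761571) (nat_lit 23) (nat_lit 5) (nat_lit 26) (nat_lit 5) (nat_lit 24) (nat_lit 5) (nat_lit 373) (nat_lit 282) (nat_lit 125)) (XT.lf (nat_lit 0) (nat_lit 16260423285) (nat_lit 228) (nat_lit 14315208166) (nat_lit 76) (nat_lit 17658693792) (nat_lit 23) (nat_lit 5) (nat_lit 26) (nat_lit 5) (nat_lit 24) (nat_lit 5) (nat_lit 374) (nat_lit 282) (nat_lit 124))))) (XT.nd (nat_lit 234) (nat_lit 152) (nat_lit 0) (XT.nd (nat_lit 78) (nat_lit 152) (nat_lit 0) (XT.lf (nat_lit 0) (nat_lit 22384553368) (nat_lit 228) (nat_lit 497795775) (nat_lit 76) (nat_lit 26539407325) (nat_lit 23) (nat_lit 5) (nat_lit 26) (nat_lit 5) (nat_lit 24) (nat_lit 5) (nat_lit 375) (nat_lit 282) (nat_lit 123)) (XT.nd (nat_lit 78) (nat_lit 0) (nat_lit 0) (XT.lf (nat_lit 0) (nat_lit 13999831930) (nat_lit 152) (nat_lit 14822674397) (nat_lit 228) (nat_lit 21818405035) (nat_lit 21) (nat_lit 5) (nat_lit 23) (nat_lit 5) (nat_lit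 24) (nat_lit 5) (nat_lit 376) (nat_lit 282) (nat_lit 122)) (XT.lf (nat_lit 0) (nat_lit 28935172062) (nat_lit 152) (nat_lit 6519035634) (nat_lit 228) (nat_lit 16442418505) (nat_lit 21) (nat_lit 5) (nat_lit 23) (nat_lit 5) (nat_lit 24) (nat_lit 5) (nat_lit 377) (nat_lit 282) (nat_lit 121)))) (XT.nd (nat_lit 78) (nat_lit 152) (nat_lit 0) (XT.lf (nat_lit 0) (nat_lit 42300093069) (nat_lit 228) (nat_lit 8898298069) (nat_lit 76) (nat_lit 1991167846) (nat_lit 21) (nat_lit 5) (nat_lit 24) (nat_lit 5) (nat_lit 22) (nat_lit 4) (nat_lit 378) (nat_lit 282) (nat_lit 120)) (XT.nd (nat_lit 78) (nat_lit 76) (nat_lit 0) (XT.lf (nat_lit 0) (nat_lit 5624873495) (nat_lit 76) (nat_lit 43840905533) (nat_lit 152) (nat_lit 5052071389) (nat_lit 20) (nat_lit 5) (nat_lit 21) (nat_lit 5) (nat_lit 22) (nat_lit 4) (nat_lit 379) (nat_lit 282) (nat_lit 119)) (XT.lf (nat_lit 0) (nat_lit 1028267986) (nat_lit 152) (nat_lit 35134383022)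 (nat_lit 76) (nat_lit 19720468862) (nat_lit 19) (nat_lit 5) (nat_lit 21) (nat_lit 5) (nat_lit 20) (nat_lit 5) (nat_lit 380) (nat_lit 282) (nat_lit 118))))))) (XT.nd (nat_lit 32994) (nat_lit 0) (nat_lit 13376) (XT.nd (nat_lit 468) (nat_lit 304) (nat_lit 0) (XT.nd (nat_lit 234) (nat_lit 0) (nat_lit 0) (XT.nd (nat_lit 78) (nat_lit 152) (nat_lit 0) (XT.lf (nat_lit 0) (nat_lit 7185417400) (nat_lit 152) (nat_lit 21019957291) (nat_lit 76) (nat_lit 29082596955) (nat_lit 19) (nat_lit 5) (nat_lit 21) (nat_lit 5) (nat_lit 20) (nat_lit 5) (nat_lit 381) (nat_lit 282) (nat_lit 117)) (XT.nd (nat_lit 78) (nat_lit 152) (nat_lit 0) (XT.lf (nat_lit 0) (nat_lit 13523340994) (nat_lit 152) (nat_lit 6488803136) (nat_lit 76) (nat_lit 38722946063) (nat_lit 19) (nat_lit 5) (nat_lit 21) (nat_lit 5) (nat_lit 20) (nat_lit 5) (nat_lit 382) (nat_lit 282) (nat_lit 116)) (XT.lf (nat_lit 0) (nat_lit 8640381533) (nat_lit 152) (nat_lit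 11490251862) (nat_lit 228) (nat_lit 40092614891) (nat_lit 17) (nat_lit 5) (nat_lit 19) (nat_lit 5) (nat_lit 20) (nat_lit 5) (nat_lit 383) (nat_lit 282) (nat_lit 115)))) (XT.nd (nat_lit 78) (nat_lit 0) (nat_lit 0) (XT.lf (nat_lit 0) (nat_lit 24350010585) (nat_lit 152) (nat_lit 2647882103) (nat_lit 228) (nat_lit 34756308826) (nat_lit 17) (nat_lit 5) (nat_lit 19) (nat_lit 5) (nat_lit 20) (nat_lit 5) (nat_lit 384) (nat_lit 282) (nat_lit 114)) (XT.nd (nat_lit 78) (nat_lit 0) (nat_lit 0) (XT.lf (nat_lit 0) (nat_lit 34129573917) (nat_lit 228) (nat_lit 22868595343) (nat_lit 76) (nat_lit 6331164707) (nat_lit 17) (nat_lit 5) (nat_lit 20) (nat_lit 5) (nat_lit 18) (nat_lit 4) (nat_lit 385) (nat_lit 282) (nat_lit 113)) (XT.lf (nat_lit 0) (nat_lit 41497838746) (nat_lit 228) (nat_lit 7929309087) (nat_lit 76) (nat_lit 15523896239) (nat_lit 17) (nat_lit 5) (nat_lit 20) (nat_lit 5) (nat_lit 18) (nat_lit 4) (nat_lit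 386) (nat_lit 282) (nat_lit 112))))) (XT.nd (nat_lit 234) (nat_lit 228) (nat_lit 0) (XT.nd (nat_lit 78) (nat_lit 0) (nat_lit 0) (XT.lf (nat_lit 0) (nat_lit 7600487532) (nat_lit 76) (nat_lit 41556245405) (nat_lit 152) (nat_lit 17462587695) (nat_lit 16) (nat_lit 5) (nat_lit 17) (nat_lit 5) (nat_lit 18) (nat_lit 4) (nat_lit 387) (nat_lit 282) (nat_lit 111)) (XT.nd (nat_lit 78) (nat_lit 0) (nat_lit 0) (XT.lf (nat_lit 0) (nat_lit 23752798642) (nat_lit 76) (nat_lit 33369231074) (nat_lit 152) (nat_lit 11213319223) (nat_lit 16) (nat_lit 5) (nat_lit 17) (nat_lit 5) (nat_lit 18) (nat_lit 4) (nat_lit 388) (nat_lit 282) (nat_lit 110)) (XT.lf (nat_lit 0) (nat_lit 40383929111) (nat_lit 76) (nat_lit 24939021611) (nat_lit 152) (nat_lit 4780009857) (nat_lit 16) (nat_lit 5) (nat_lit 17) (nat_lit 5) (nat_lit 18) (nat_lit 4) (nat_lit 389) (nat_lit 282) (nat_lit 109)))) (XT.nd (nat_lit 78) (nat_lit 152) (nat_lit 0)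 (XT.lf (nat_lit 0) (nat_lit 1806998918) (nat_lit 152) (nat_lit 14433004751) (nat_lit 76) (nat_lit 55683164933) (nat_lit 15) (nat_lit 5) (nat_lit 17) (nat_lit 5) (nat_lit 16) (nat_lit 5) (nat_lit 390) (nat_lit 282) (nat_lit 108)) (XT.nd (nat_lit 78) (nat_lit 0) (nat_lit 0) (XT.lf (nat_lit 0) (nat_lit 1283842977) (nat_lit 152) (nat_lit 7220865965) (nat_lit 228) (nat_lit 65291581422) (nat_lit 13) (nat_lit 5) (nat_lit 15) (nat_lit 5) (nat_lit 16) (nat_lit 5) (nat_lit 391) (nat_lit 282) (nat_lit 107)) (XT.lf (nat_lit 0) (nat_lit 15567266964) (nat_lit 228) (nat_lit 57980010659) (nat_lit 76) (nat_lit 2173412830) (nat_lit 13) (nat_lit 5) (nat_lit 16) (nat_lit 5) (nat_lit 14) (nat_lit 4) (nat_lit 392) (nat_lit 282) (nat_lit 106)))))) (XT.nd (nat_lit 468) (nat_lit 0) (nat_lit 76) (XT.nd (nat_lit 234) (nat_lit 912) (nat_lit 0) (XT.nd (nat_lit 78) (nat_lit 0) (nat_lit 0) (XT.lf (nat_lit 0) (nat_lit 2256857463)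 (nat_lit 988) (nat_lit 1060820792) (nat_lit 988) (nat_lit 1060820792) (nat_lit 201) (nat_lit 3) (nat_lit 214) (nat_lit 3) (nat_lit 214) (nat_lit 5) (nat_lit 283) (nat_lit 283) (nat_lit 214)) (XT.nd (nat_lit 78) (nat_lit 0) (nat_lit 0) (XT.lf (nat_lit 76) (nat_lit 1712327353) (nat_lit 0) (nat_lit 3765952089) (nat_lit 988) (nat_lit 3381234568) (nat_lit 202) (nat_lit 5) (nat_lit 201) (nat_lit 3) (nat_lit 214) (nat_lit 5) (nat_lit 284) (nat_lit 283) (nat_lit 213)) (XT.lf (nat_lit 76) (nat_lit 5686721141) (nat_lit 0) (nat_lit 771950816) (nat_lit 988) (nat_lit 2506902166) (nat_lit 202) (nat_lit 5) (nat_lit 201) (nat_lit 3) (nat_lit 214) (nat_lit 5) (nat_lit 285) (nat_lit 283) (nat_lit 212)))) (XT.nd (nat_lit 78) (nat_lit 988) (nat_lit 0) (XT.lf (nat_lit 76) (nat_lit 677741164) (nat_lit 0) (nat_lit 6786099027) (nat_lit 988) (nat_lit 1611188182) (nat_lit 203) (nat_lit 5) (nat_lit 202) (nat_lit 5) (nat_lit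 215) (nat_lit 5) (nat_lit 286) (nat_lit 283) (nat_lit 211)) (XT.nd (nat_lit 78) (nat_lit 988) (nat_lit 0) (XT.lf (nat_lit 76) (nat_lit 4793843851) (nat_lit 0) (nat_lit 3713416915) (nat_lit 988) (nat_lit 680333687) (nat_lit 203) (nat_lit 5) (nat_lit 202) (nat_lit 5) (nat_lit 215) (nat_lit 5) (nat_lit 287) (nat_lit 283) (nat_lit 210)) (XT.lf (nat_lit 0) (nat_lit 241000179) (nat_lit 988) (nat_lit 291554052) (nat_lit 1064) (nat_lit 8771930405) (nat_lit 189) (nat_lit 5) (nat_lit 202) (nat_lit 5) (nat_lit 203) (nat_lit 5) (nat_lit 288) (nat_lit 283) (nat_lit 209))))) (XT.nd (nat_lit 234) (nat_lit 0) (nat_lit 76) (XT.nd (nat_lit 78) (nat_lit 0) (nat_lit 0) (XT.lf (nat_lit 0) (nat_lit 1210484900) (nat_lit 988) (nat_lit 5464930143) (nat_lit 1064) (nat_lit 2748303943) (nat_lit 190) (nat_lit 5) (nat_lit 203) (nat_lit 5) (nat_lit 204) (nat_lit 5) (nat_lit 289) (nat_lit 283) (nat_lit 208)) (XT.nd (nat_lit 78)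 (nat_lit 0) (nat_lit 0) (XT.lf (nat_lit 0) (nat_lit 2187069970) (nat_lit 988) (nat_lit 1228261546) (nat_lit 1064) (nat_lit 6131921564) (nat_lit 190) (nat_lit 5) (nat_lit 203) (nat_lit 5) (nat_lit 204) (nat_lit 5) (nat_lit 290) (nat_lit 283) (nat_lit 207)) (XT.lf (nat_lit 76) (nat_lit 3178961318) (nat_lit 0) (nat_lit 15199607) (nat_lit 1064) (nat_lit 6480357370) (nat_lit 191) (nat_lit 5) (nat_lit 190) (nat_lit 5) (nat_lit 204) (nat_lit 5) (nat_lit 291) (nat_lit 283) (nat_lit 206)))) (XT.nd (nat_lit 78) (nat_lit 0) (nat_lit 0) (XT.lf (nat_lit 0) (nat_lit 4248936002) (nat_lit 988) (nat_lit 2114706834) (nat_lit 1064) (nat_lit 3441494051) (nat_lit 191) (nat_lit 5) (nat_lit 204) (nat_lit 5) (nat_lit 205) (nat_lit 5) (nat_lit 292) (nat_lit 283) (nat_lit 205)) (XT.nd (nat_lit 78) (nat_lit 0) (nat_lit 76) (XT.lf (nat_lit 76) (nat_lit 2425906875) (nat_lit 0) (nat_lit 2905176463) (nat_lit 1064) (nat_lit 4608776655)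 (nat_lit 192) (nat_lit 5) (nat_lit 191) (nat_lit 5) (nat_lit 205) (nat_lit 5) (nat_lit 293) (nat_lit 283) (nat_lit 204)) (XT.lf (nat_lit 0) (nat_lit 6446545809) (nat_lit 988) (nat_lit 2958038625) (nat_lit 1064) (nat_lit 674070981) (nat_lit 192) (nat_lit 5) (nat_lit 205) (nat_lit 5) (nat_lit 206) (nat_lit 5) (nat_lit 294) (nat_lit 283) (nat_lit 203))))))))
noncomputable def xc170 : XT := (XT.nd (nat_lit 1794) (nat_lit 3952) (nat_lit 0) (XT.nd (nat_lit 858) (nat_lit 3192) (nat_lit 0) (XT.nd (nat_lit 390) (nat_lit 2052) (nat_lit 0) (XT.nd (nat_lit 156) (nat_lit 988) (nat_lit 0) (XT.nd (nat_lit 78) (nat_lit 0) (nat_lit 0) (XT.lf (nat_lit 76) (nat_lit 1720314500) (nat_lit 0) (nat_lit 5894214786) (nat_lit 1064) (nat_lit 2606568205) (nat_lit 193) (nat_lit 5) (nat_lit 192) (nat_lit 5) (nat_lit 206) (nat_lit 5) (nat_lit 295) (nat_lit 283) (nat_lit 202)) (XT.lf (nat_lit 76) (nat_lit 6580797607) (nat_lit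 0) (nat_lit 2240964455) (nat_lit 1064) (nat_lit 1545977393) (nat_lit 193) (nat_lit 5) (nat_lit 192) (nat_lit 5) (nat_lit 206) (nat_lit 5) (nat_lit 296) (nat_lit 283) (nat_lit 201))) (XT.nd (nat_lit 78) (nat_lit 1064) (nat_lit 0) (XT.lf (nat_lit 76) (nat_lit 1055103603) (nat_lit 0) (nat_lit 9010030086) (nat_lit 1064) (nat_lit 453700713) (nat_lit 194) (nat_lit 5) (nat_lit 193) (nat_lit 5) (nat_lit 207) (nat_lit 5) (nat_lit 297) (nat_lit 283) (nat_lit 200)) (XT.nd (nat_lit 78) (nat_lit 0) (nat_lit 0) (XT.lf (nat_lit 0) (nat_lit 694453008) (nat_lit 1064) (nat_lit 4601816275) (nat_lit 1140) (nat_lit 5376961469) (nat_lit 179) (nat_lit 5) (nat_lit 193) (nat_lit 5) (nat_lit 194) (nat_lit 5) (nat_lit 298) (nat_lit 283) (nat_lit 199)) (XT.lf (nat_lit 76) (nat_lit 390124337) (nat_lit 0) (nat_lit 1457676640) (nat_lit 1140) (nat_lit 8984974215) (nat_lit 180) (nat_lit 5) (nat_lit 179) (nat_lit 5) (nat_lit 194)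 (nat_lit 5) (nat_lit 299) (nat_lit 283) (nat_lit 198))))) (XT.nd (nat_lit 234) (nat_lit 1064) (nat_lit 0) (XT.nd (nat_lit 78) (nat_lit 1064) (nat_lit 0) (XT.lf (nat_lit 0) (nat_lit 3083350452) (nat_lit 1064) (nat_lit 5413566923) (nat_lit 76) (nat_lit 2498806206) (nat_lit 180) (nat_lit 5) (nat_lit 194) (nat_lit 5) (nat_lit 181) (nat_lit 5) (nat_lit 300) (nat_lit 283) (nat_lit 197)) (XT.nd (nat_lit 78) (nat_lit 1064) (nat_lit 0) (XT.lf (nat_lit 0) (nat_lit 4347756002) (nat_lit 1064) (nat_lit 267030341) (nat_lit 76) (nat_lit 6549064711) (nat_lit 180) (nat_lit 5) (nat_lit 194) (nat_lit 5) (nat_lit 181) (nat_lit 5) (nat_lit 301) (nat_lit 283) (nat_lit 196)) (XT.lf (nat_lit 0) (nat_lit 5115285589) (nat_lit 1064) (nat_lit 561996033) (nat_lit 1140) (nat_lit 5658968121) (nat_lit 166) (nat_lit 5) (nat_lit 180) (nat_lit 5) (nat_lit 181) (nat_lit 5) (nat_lit 302) (nat_lit 283) (nat_lit 195)))) (XT.nd (nat_lit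 78) (nat_lit 1064) (nat_lit 0) (XT.lf (nat_lit 0) (nat_lit 7062653440) (nat_lit 1140) (nat_lit 902918103) (nat_lit 76) (nat_lit 3547811812) (nat_lit 166) (nat_lit 5) (nat_lit 181) (nat_lit 5) (nat_lit 167) (nat_lit 5) (nat_lit 303) (nat_lit 283) (nat_lit 194)) (XT.nd (nat_lit 78) (nat_lit 0) (nat_lit 0) (XT.lf (nat_lit 0) (nat_lit 4641252784) (nat_lit 1064) (nat_lit 3877651205) (nat_lit 1140) (nat_lit 3176088018) (nat_lit 152) (nat_lit 5) (nat_lit 166) (nat_lit 5) (nat_lit 167) (nat_lit 5) (nat_lit 304) (nat_lit 283) (nat_lit 193)) (XT.lf (nat_lit 0) (nat_lit 10010842168) (nat_lit 1140) (nat_lit 1533720528) (nat_lit 76) (nat_lit 337765596) (nat_lit 152) (nat_lit 5) (nat_lit 167) (nat_lit 5) (nat_lit 153) (nat_lit 5) (nat_lit 305) (nat_lit 283) (nat_lit 192)))))) (XT.nd (nat_lit 468) (nat_lit 1520) (nat_lit 0) (XT.nd (nat_lit 234) (nat_lit 532) (nat_lit 0) (XT.nd (nat_lit 78) (nat_lit 608) (nat_lit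 0) (XT.lf (nat_lit 0) (nat_lit 4176645899) (nat_lit 532) (nat_lit 7429620095) (nat_lit 608) (nat_lit 467295077) (nat_lit 145) (nat_lit 5) (nat_lit 152) (nat_lit 5) (nat_lit 153) (nat_lit 5) (nat_lit 306) (nat_lit 283) (nat_lit 191)) (XT.nd (nat_lit 78) (nat_lit 532) (nat_lit 0) (XT.lf (nat_lit 0) (nat_lit 955918551) (nat_lit 608) (nat_lit 2208475956) (nat_lit 76) (nat_lit 9106010001) (nat_lit 144) (nat_lit 5) (nat_lit 152) (nat_lit 5) (nat_lit 145) (nat_lit 5) (nat_lit 307) (nat_lit 283) (nat_lit 190)) (XT.lf (nat_lit 0) (nat_lit 2441155958) (nat_lit 608) (nat_lit 8784647888) (nat_lit 76) (nat_lit 1246384002) (nat_lit 137) (nat_lit 5) (nat_lit 145) (nat_lit 5) (nat_lit 138) (nat_lit 5) (nat_lit 308) (nat_lit 283) (nat_lit 189)))) (XT.nd (nat_lit 78) (nat_lit 532) (nat_lit 0) (XT.lf (nat_lit 0) (nat_lit 4006126469) (nat_lit 608) (nat_lit 2923690705) (nat_lit 76) (nat_lit 5749186201) (nat_lit 137)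 (nat_lit 5) (nat_lit 145) (nat_lit 5) (nat_lit 138) (nat_lit 5) (nat_lit 309) (nat_lit 283) (nat_lit 188)) (XT.nd (nat_lit 78) (nat_lit 0) (nat_lit 0) (XT.lf (nat_lit 0) (nat_lit 3156741621) (nat_lit 532) (nat_lit 2473516250) (nat_lit 608) (nat_lit 7261432121) (nat_lit 130) (nat_lit 5) (nat_lit 137) (nat_lit 5) (nat_lit 138) (nat_lit 5) (nat_lit 310) (nat_lit 283) (nat_lit 187)) (XT.lf (nat_lit 0) (nat_lit 7335498399) (nat_lit 608) (nat_lit 3669331174) (nat_lit 76) (nat_lit 2104988099) (nat_lit 130) (nat_lit 5) (nat_lit 138) (nat_lit 5) (nat_lit 131) (nat_lit 5) (nat_lit 311) (nat_lit 283) (nat_lit 186))))) (XT.nd (nat_lit 234) (nat_lit 532) (nat_lit 0) (XT.nd (nat_lit 78) (nat_lit 456) (nat_lit 0) (XT.lf (nat_lit 0) (nat_lit 2586426793) (nat_lit 532) (nat_lit 6537564143) (nat_lit 608) (nat_lit 4209566485) (nat_lit 123) (nat_lit 5) (nat_lit 130) (nat_lit 5) (nat_lit 131) (nat_lit 5) (nat_lit 312)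 (nat_lit 283) (nat_lit 185)) (XT.nd (nat_lit 78) (nat_lit 456) (nat_lit 0) (XT.lf (nat_lit 0) (nat_lit 9087441790) (nat_lit 532) (nat_lit 1898824880) (nat_lit 608) (nat_lit 2577169019) (nat_lit 123) (nat_lit 5) (nat_lit 130) (nat_lit 5) (nat_lit 131) (nat_lit 5) (nat_lit 313) (nat_lit 283) (nat_lit 184)) (XT.lf (nat_lit 0) (nat_lit 1976535365) (nat_lit 456) (nat_lit 10958112130) (nat_lit 532) (nat_lit 864685008) (nat_lit 117) (nat_lit 5) (nat_lit 123) (nat_lit 5) (nat_lit 124) (nat_lit 5) (nat_lit 314) (nat_lit 283) (nat_lit 183)))) (XT.nd (nat_lit 78) (nat_lit 456) (nat_lit 0) (XT.lf (nat_lit 0) (nat_lit 929758992) (nat_lit 532) (nat_lit 5372262291) (nat_lit 76) (nat_lit 7738609306) (nat_lit 116) (nat_lit 5) (nat_lit 123) (nat_lit 5) (nat_lit 117) (nat_lit 5) (nat_lit 315) (nat_lit 283) (nat_lit 182)) (XT.nd (nat_lit 78) (nat_lit 0) (nat_lit 0) (XT.lf (nat_lit 0) (nat_lit 1270727855) (nat_lit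 456) (nat_lit 1486304411) (nat_lit 532) (nat_lit 11532014070) (nat_lit 110) (nat_lit 5) (nat_lit 116) (nat_lit 5) (nat_lit 117) (nat_lit 5) (nat_lit 316) (nat_lit 283) (nat_lit 181)) (XT.lf (nat_lit 0) (nat_lit 4711745031) (nat_lit 532) (nat_lit 6371687000) (nat_lit 76) (nat_lit 3459329920) (nat_lit 110) (nat_lit 5) (nat_lit 117) (nat_lit 5) (nat_lit 111) (nat_lit 5) (nat_lit 317) (nat_lit 283) (nat_lit 180))))))) (XT.nd (nat_lit 936) (nat_lit 1596) (nat_lit 0) (XT.nd (nat_lit 468) (nat_lit 1064) (nat_lit 0) (XT.nd (nat_lit 234) (nat_lit 912) (nat_lit 0) (XT.nd (nat_lit 78) (nat_lit 0) (nat_lit 0) (XT.lf (nat_lit 0) (nat_lit 451344094) (nat_lit 380) (nat_lit 6277704473) (nat_lit 456) (nat_lit 8074947259) (nat_lit 105) (nat_lit 5) (nat_lit 110) (nat_lit 5) (nat_lit 111) (nat_lit 5) (nat_lit 318) (nat_lit 283) (nat_lit 179)) (XT.nd (nat_lit 78) (nat_lit 0) (nat_lit 0) (XT.lf (nat_lit 0) (nat_lit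 7592756219) (nat_lit 380) (nat_lit 1263628721) (nat_lit 456) (nat_lit 6215220905) (nat_lit 105) (nat_lit 5) (nat_lit 110) (nat_lit 5) (nat_lit 111) (nat_lit 5) (nat_lit 319) (nat_lit 283) (nat_lit 178)) (XT.lf (nat_lit 0) (nat_lit 11070623455) (nat_lit 456) (nat_lit 453197474) (nat_lit 76) (nat_lit 3822754597) (nat_lit 105) (nat_lit 5) (nat_lit 111) (nat_lit 5) (nat_lit 106) (nat_lit 5) (nat_lit 320) (nat_lit 283) (nat_lit 177)))) (XT.nd (nat_lit 78) (nat_lit 456) (nat_lit 0) (XT.lf (nat_lit 0) (nat_lit 6888762415) (nat_lit 456) (nat_lit 6527261261) (nat_lit 532) (nat_lit 2211851716) (nat_lit 99) (nat_lit 5) (nat_lit 105) (nat_lit 5) (nat_lit 106) (nat_lit 5) (nat_lit 321) (nat_lit 283) (nat_lit 176)) (XT.nd (nat_lit 78) (nat_lit 456) (nat_lit 0) (XT.lf (nat_lit 0) (nat_lit 14444056528) (nat_lit 456) (nat_lit 1378561933) (nat_lit 532) (nat_lit 95293272) (nat_lit 99) (nat_lit 5) (nat_lit 105) (nat_lit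 5) (nat_lit 106) (nat_lit 5) (nat_lit 322) (nat_lit 283) (nat_lit 175)) (XT.lf (nat_lit 0) (nat_lit 2127624830) (nat_lit 456) (nat_lit 10161028451) (nat_lit 76) (nat_lit 3924909527) (nat_lit 93) (nat_lit 5) (nat_lit 99) (nat_lit 5) (nat_lit 94) (nat_lit 5) (nat_lit 323) (nat_lit 283) (nat_lit 174))))) (XT.nd (nat_lit 234) (nat_lit 684) (nat_lit 0) (XT.nd (nat_lit 78) (nat_lit 380) (nat_lit 0) (XT.lf (nat_lit 0) (nat_lit 4430713020) (nat_lit 456) (nat_lit 2713716799) (nat_lit 76) (nat_lit 9373183906) (nat_lit 93) (nat_lit 5) (nat_lit 99) (nat_lit 5) (nat_lit 94) (nat_lit 5) (nat_lit 324) (nat_lit 283) (nat_lit 173)) (XT.nd (nat_lit 78) (nat_lit 0) (nat_lit 0) (XT.lf (nat_lit 0) (nat_lit 5039559908) (nat_lit 380) (nat_lit 1798882439) (nat_lit 456) (nat_lit 9991297321) (nat_lit 88) (nat_lit 5) (nat_lit 93) (nat_lit 5) (nat_lit 94) (nat_lit 5) (nat_lit 325) (nat_lit 283) (nat_lit 172)) (XT.lf (nat_lit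 0) (nat_lit 9369014197) (nat_lit 456) (nat_lit 4121259739) (nat_lit 76) (nat_lit 3659456504) (nat_lit 88) (nat_lit 5) (nat_lit 94) (nat_lit 5) (nat_lit 89) (nat_lit 5) (nat_lit 326) (nat_lit 283) (nat_lit 171)))) (XT.nd (nat_lit 78) (nat_lit 380) (nat_lit 0) (XT.lf (nat_lit 0) (nat_lit 3818893528) (nat_lit 304) (nat_lit 8198801635) (nat_lit 380) (nat_lit 5460378821) (nat_lit 84) (nat_lit 5) (nat_lit 88) (nat_lit 5) (nat_lit 89) (nat_lit 5) (nat_lit 327) (nat_lit 283) (nat_lit 170)) (XT.nd (nat_lit 78) (nat_lit 380) (nat_lit 0) (XT.lf (nat_lit 0) (nat_lit 12066341565) (nat_lit 304) (nat_lit 2708994459) (nat_lit 380) (nat_lit 3040065085) (nat_lit 84) (nat_lit 5) (nat_lit 88) (nat_lit 5) (nat_lit 89) (nat_lit 5) (nat_lit 328) (nat_lit 283) (nat_lit 169)) (XT.lf (nat_lit 0) (nat_lit 2401632063) (nat_lit 380) (nat_lit 15253679213) (nat_lit 456) (nat_lit 506366344) (nat_lit 79) (nat_lit 5) (nat_lit 84)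 (nat_lit 5) (nat_lit 85) (nat_lit 5) (nat_lit 329) (nat_lit 283) (nat_lit 168)))))) (XT.nd (nat_lit 468) (nat_lit 912) (nat_lit 0) (XT.nd (nat_lit 234) (nat_lit 304) (nat_lit 0) (XT.nd (nat_lit 78) (nat_lit 304) (nat_lit 0) (XT.lf (nat_lit 0) (nat_lit 2136021867) (nat_lit 456) (nat_lit 7664905141) (nat_lit 76) (nat_lit 8714613900) (nat_lit 78) (nat_lit 5) (nat_lit 84) (nat_lit 5) (nat_lit 79) (nat_lit 5) (nat_lit 330) (nat_lit 283) (nat_lit 167)) (XT.nd (nat_lit 78) (nat_lit 0) (nat_lit 0) (XT.lf (nat_lit 0) (nat_lit 666139102) (nat_lit 304) (nat_lit 4176381666) (nat_lit 380) (nat_lit 14037514648) (nat_lit 74) (nat_lit 5) (nat_lit 78) (nat_lit 5) (nat_lit 79) (nat_lit 5) (nat_lit 331) (nat_lit 283) (nat_lit 166)) (XT.lf (nat_lit 0) (nat_lit 7712692258) (nat_lit 380) (nat_lit 9880320352) (nat_lit 76) (nat_lit 1659993572) (nat_lit 74) (nat_lit 5) (nat_lit 79) (nat_lit 5) (nat_lit 75) (nat_lit 5)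 (nat_lit 332) (nat_lit 283) (nat_lit 165)))) (XT.nd (nat_lit 78) (nat_lit 304) (nat_lit 0) (XT.lf (nat_lit 0) (nat_lit 10699414480) (nat_lit 380) (nat_lit 1352753780) (nat_lit 76) (nat_lit 7584099733) (nat_lit 74) (nat_lit 5) (nat_lit 79) (nat_lit 5) (nat_lit 75) (nat_lit 5) (nat_lit 333) (nat_lit 283) (nat_lit 164)) (XT.nd (nat_lit 78) (nat_lit 0) (nat_lit 0) (XT.lf (nat_lit 0) (nat_lit 7564001521) (nat_lit 304) (nat_lit 6273859547) (nat_lit 380) (nat_lit 6191317758) (nat_lit 70) (nat_lit 5) (nat_lit 74) (nat_lit 5) (nat_lit 75) (nat_lit 5) (nat_lit 334) (nat_lit 283) (nat_lit 163)) (XT.lf (nat_lit 0) (nat_lit 16761890028) (nat_lit 304) (nat_lit 311816904) (nat_lit 380) (nat_lit 3360087088) (nat_lit 70) (nat_lit 5) (nat_lit 74) (nat_lit 5) (nat_lit 75) (nat_lit 5) (nat_lit 335) (nat_lit 283) (nat_lit 162))))) (XT.nd (nat_lit 234) (nat_lit 228) (nat_lit 0) (XT.nd (nat_lit 78) (nat_lit 380) (nat_lit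 0) (XT.lf (nat_lit 0) (nat_lit 5420945089) (nat_lit 304) (nat_lit 15083679927) (nat_lit 380) (nat_lit 342996744) (nat_lit 66) (nat_lit 5) (nat_lit 70) (nat_lit 5) (nat_lit 71) (nat_lit 5) (nat_lit 336) (nat_lit 283) (nat_lit 161)) (XT.nd (nat_lit 78) (nat_lit 304) (nat_lit 0) (XT.lf (nat_lit 0) (nat_lit 2741097326) (nat_lit 380) (nat_lit 6454980350) (nat_lit 76) (nat_lit 12076089439) (nat_lit 65) (nat_lit 5) (nat_lit 70) (nat_lit 5) (nat_lit 66) (nat_lit 5) (nat_lit 337) (nat_lit 283) (nat_lit 160)) (XT.lf (nat_lit 0) (nat_lit 2823936247) (nat_lit 304) (nat_lit 3104228507) (nat_lit 380) (nat_lit 15780674672) (nat_lit 61) (nat_lit 5) (nat_lit 65) (nat_lit 5) (nat_lit 66) (nat_lit 5) (nat_lit 338) (nat_lit 283) (nat_lit 159)))) (XT.nd (nat_lit 78) (nat_lit 228) (nat_lit 0) (XT.lf (nat_lit 0) (nat_lit 9297465370) (nat_lit 380) (nat_lit 9688007012) (nat_lit 76) (nat_lit 3170553322) (nat_lit 61) (nat_lit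 5) (nat_lit 66) (nat_lit 5) (nat_lit 62) (nat_lit 5) (nat_lit 339) (nat_lit 283) (nat_lit 158)) (XT.nd (nat_lit 78) (nat_lit 228) (nat_lit 0) (XT.lf (nat_lit 0) (nat_lit 12789179505) (nat_lit 380) (nat_lit 259308537) (nat_lit 76) (nat_lit 9567511565) (nat_lit 61) (nat_lit 5) (nat_lit 66) (nat_lit 5) (nat_lit 62) (nat_lit 5) (nat_lit 340) (nat_lit 283) (nat_lit 157)) (XT.lf (nat_lit 0) (nat_lit 9627130652) (nat_lit 228) (nat_lit 6841929645) (nat_lit 304) (nat_lit 6618221693) (nat_lit 58) (nat_lit 5) (nat_lit 61) (nat_lit 5) (nat_lit 62) (nat_lit 5) (nat_lit 341) (nat_lit 283) (nat_lit 156))))))))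
noncomputable def xc171 : XT := (XT.nd (nat_lit 1794) (nat_lit 1140) (nat_lit 0) (XT.nd (nat_lit 858) (nat_lit 988) (nat_lit 0) (XT.nd (nat_lit 390) (nat_lit 532) (nat_lit 0) (XT.nd (nat_lit 156) (nat_lit 228) (nat_lit 0) (XT.nd (nat_lit 78) (nat_lit 304) (nat_lit 0) (XT.lf (nat_lit 0) (nat_lit 19802625612) (nat_lit 228) (nat_lit 450346047) (nat_lit 304) (nat_lit 3319933539) (nat_lit 58) (nat_lit 5) (nat_lit 61) (nat_lit 5) (nat_lit 62) (nat_lit 5) (nat_lit 342) (nat_lit 283) (nat_lit 155)) (XT.lf (nat_lit 0) (nat_lit 187254569) (nat_lit 304) (nat_lit 17810843019) (nat_lit 76) (nat_lit 6071644153) (nat_lit 54) (nat_lit 5) (nat_lit 58) (nat_lit 5) (nat_lit 55) (nat_lit 5) (nat_lit 343) (nat_lit 283) (nat_lit 154))) (XT.nd (nat_lit 78) (nat_lit 228) (nat_lit 0) (XT.lf (nat_lit 0) (nat_lit 3767118589) (nat_lit 304) (nat_lit 7964582800) (nat_lit 76) (nat_lit 12847780658) (nat_lit 54) (nat_lit 5) (nat_lit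 58) (nat_lit 5) (nat_lit 55) (nat_lit 5) (nat_lit 344) (nat_lit 283) (nat_lit 153)) (XT.nd (nat_lit 78) (nat_lit 0) (nat_lit 0) (XT.lf (nat_lit 0) (nat_lit 2207743780) (nat_lit 228) (nat_lit 5259390318) (nat_lit 304) (nat_lit 17637007905) (nat_lit 51) (nat_lit 5) (nat_lit 54) (nat_lit 5) (nat_lit 55) (nat_lit 5) (nat_lit 345) (nat_lit 283) (nat_lit 152)) (XT.lf (nat_lit 0) (nat_lit 11364522891) (nat_lit 304) (nat_lit 12820447717) (nat_lit 76) (nat_lit 1456989782) (nat_lit 51) (nat_lit 5) (nat_lit 55) (nat_lit 5) (nat_lit 52) (nat_lit 5) (nat_lit 346) (nat_lit 283) (nat_lit 151))))) (XT.nd (nat_lit 234) (nat_lit 304) (nat_lit 0) (XT.nd (nat_lit 78) (nat_lit 228) (nat_lit 0) (XT.lf (nat_lit 0) (nat_lit 15422774512) (nat_lit 304) (nat_lit 2506430644) (nat_lit 76) (nat_lit 8265399465) (nat_lit 51) (nat_lit 5) (nat_lit 55) (nat_lit 5) (nat_lit 52) (nat_lit 5) (nat_lit 347) (nat_lit 283) (nat_lit 150))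 (XT.nd (nat_lit 78) (nat_lit 0) (nat_lit 0) (XT.lf (nat_lit 0) (nat_lit 8266531523) (nat_lit 228) (nat_lit 11407809965) (nat_lit 304) (nat_lit 7087348909) (nat_lit 48) (nat_lit 5) (nat_lit 51) (nat_lit 5) (nat_lit 52) (nat_lit 5) (nat_lit 348) (nat_lit 283) (nat_lit 149)) (XT.lf (nat_lit 0) (nat_lit 19402392246) (nat_lit 228) (nat_lit 4668595890) (nat_lit 304) (nat_lit 3274283613) (nat_lit 48) (nat_lit 5) (nat_lit 51) (nat_lit 5) (nat_lit 52) (nat_lit 5) (nat_lit 349) (nat_lit 283) (nat_lit 148)))) (XT.nd (nat_lit 78) (nat_lit 0) (nat_lit 0) (XT.lf (nat_lit 0) (nat_lit 683460358) (nat_lit 304) (nat_lit 25001630978) (nat_lit 76) (nat_lit 2259798336) (nat_lit 44) (nat_lit 5) (nat_lit 48) (nat_lit 5) (nat_lit 45) (nat_lit 5) (nat_lit 350) (nat_lit 283) (nat_lit 147)) (XT.nd (nat_lit 78) (nat_lit 0) (nat_lit 0) (XT.lf (nat_lit 0) (nat_lit 4813793912) (nat_lit 304) (nat_lit 14332298457) (nat_lit 76)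 (nat_lit 9411849411) (nat_lit 44) (nat_lit 5) (nat_lit 48) (nat_lit 5) (nat_lit 45) (nat_lit 5) (nat_lit 351) (nat_lit 283) (nat_lit 146)) (XT.lf (nat_lit 0) (nat_lit 9060699375) (nat_lit 304) (nat_lit 3354123168) (nat_lit 76) (nat_lit 16774791032) (nat_lit 44) (nat_lit 5) (nat_lit 48) (nat_lit 5) (nat_lit 45) (nat_lit 5) (nat_lit 352) (nat_lit 283) (nat_lit 145)))))) (XT.nd (nat_lit 468) (nat_lit 304) (nat_lit 0) (XT.nd (nat_lit 234) (nat_lit 304) (nat_lit 0) (XT.nd (nat_lit 78) (nat_lit 152) (nat_lit 0) (XT.lf (nat_lit 0) (nat_lit 8100558542) (nat_lit 228) (nat_lit 5405196616) (nat_lit 304) (nat_lit 16332365818) (nat_lit 41) (nat_lit 5) (nat_lit 44) (nat_lit 5) (nat_lit 45) (nat_lit 5) (nat_lit 353) (nat_lit 283) (nat_lit 144)) (XT.nd (nat_lit 78) (nat_lit 152) (nat_lit 0) (XT.lf (nat_lit 0) (nat_lit 18128755147) (nat_lit 304) (nat_lit 10566194822) (nat_lit 76) (nat_lit 1809803378) (nat_lit 41)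 (nat_lit 5) (nat_lit 45) (nat_lit 5) (nat_lit 42) (nat_lit 5) (nat_lit 354) (nat_lit 283) (nat_lit 143)) (XT.lf (nat_lit 0) (nat_lit 893568975) (nat_lit 152) (nat_lit 22052130972) (nat_lit 228) (nat_lit 8244034401) (nat_lit 39) (nat_lit 5) (nat_lit 41) (nat_lit 5) (nat_lit 42) (nat_lit 5) (nat_lit 355) (nat_lit 283) (nat_lit 142)))) (XT.nd (nat_lit 78) (nat_lit 304) (nat_lit 0) (XT.lf (nat_lit 0) (nat_lit 12903162085) (nat_lit 152) (nat_lit 15103935385) (nat_lit 228) (nat_lit 3885176068) (nat_lit 39) (nat_lit 5) (nat_lit 41) (nat_lit 5) (nat_lit 42) (nat_lit 5) (nat_lit 356) (nat_lit 283) (nat_lit 141)) (XT.nd (nat_lit 78) (nat_lit 228) (nat_lit 0) (XT.lf (nat_lit 0) (nat_lit 586024621) (nat_lit 228) (nat_lit 7359047498) (nat_lit 76) (nat_lit 24670848011) (nat_lit 38) (nat_lit 5) (nat_lit 41) (nat_lit 5) (nat_lit 39) (nat_lit 5) (nat_lit 357) (nat_lit 283) (nat_lit 140)) (XT.lf (nat_lit 0) (nat_lit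 4662341763) (nat_lit 228) (nat_lit 489313282) (nat_lit 304) (nat_lit 28207322094) (nat_lit 35) (nat_lit 5) (nat_lit 38) (nat_lit 5) (nat_lit 39) (nat_lit 5) (nat_lit 358) (nat_lit 283) (nat_lit 139))))) (XT.nd (nat_lit 234) (nat_lit 152) (nat_lit 0) (XT.nd (nat_lit 78) (nat_lit 152) (nat_lit 0) (XT.lf (nat_lit 0) (nat_lit 9992038903) (nat_lit 304) (nat_lit 17006873384) (nat_lit 76) (nat_lit 7121286337) (nat_lit 35) (nat_lit 5) (nat_lit 39) (nat_lit 5) (nat_lit 36) (nat_lit 5) (nat_lit 359) (nat_lit 283) (nat_lit 138)) (XT.nd (nat_lit 78) (nat_lit 152) (nat_lit 0) (XT.lf (nat_lit 0) (nat_lit 14976285749) (nat_lit 304) (nat_lit 4981118816) (nat_lit 76) (nat_lit 14946898759) (nat_lit 35) (nat_lit 5) (nat_lit 39) (nat_lit 5) (nat_lit 36) (nat_lit 5) (nat_lit 360) (nat_lit 283) (nat_lit 137)) (XT.lf (nat_lit 0) (nat_lit 7543031559) (nat_lit 152) (nat_lit 12633523848) (nat_lit 228) (nat_lit 15533386835)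 (nat_lit 33) (nat_lit 5) (nat_lit 35) (nat_lit 5) (nat_lit 36) (nat_lit 5) (nat_lit 361) (nat_lit 283) (nat_lit 136)))) (XT.nd (nat_lit 78) (nat_lit 152) (nat_lit 0) (XT.lf (nat_lit 0) (nat_lit 20535539765) (nat_lit 152) (nat_lit 5041664151) (nat_lit 228) (nat_lit 10961221056) (nat_lit 33) (nat_lit 5) (nat_lit 35) (nat_lit 5) (nat_lit 36) (nat_lit 5) (nat_lit 362) (nat_lit 283) (nat_lit 135)) (XT.nd (nat_lit 78) (nat_lit 152) (nat_lit 0) (XT.lf (nat_lit 0) (nat_lit 31160786063) (nat_lit 228) (nat_lit 3509986290) (nat_lit 76) (nat_lit 2720368000) (nat_lit 33) (nat_lit 5) (nat_lit 36) (nat_lit 5) (nat_lit 34) (nat_lit 5) (nat_lit 363) (nat_lit 283) (nat_lit 134)) (XT.lf (nat_lit 0) (nat_lit 9483772890) (nat_lit 152) (nat_lit 27563563510) (nat_lit 228) (nat_lit 1218042408) (nat_lit 31) (nat_lit 5) (nat_lit 33) (nat_lit 5) (nat_lit 34) (nat_lit 5) (nat_lit 364) (nat_lit 283) (nat_lit 133))))))) (XT.nd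 (nat_lit 936) (nat_lit 532) (nat_lit 0) (XT.nd (nat_lit 468) (nat_lit 228) (nat_lit 0) (XT.nd (nat_lit 234) (nat_lit 152) (nat_lit 0) (XT.nd (nat_lit 78) (nat_lit 152) (nat_lit 0) (XT.lf (nat_lit 0) (nat_lit 3897856361) (nat_lit 228) (nat_lit 16272853690) (nat_lit 76) (nat_lit 18993096192) (nat_lit 30) (nat_lit 5) (nat_lit 33) (nat_lit 5) (nat_lit 31) (nat_lit 5) (nat_lit 365) (nat_lit 283) (nat_lit 132)) (XT.nd (nat_lit 78) (nat_lit 152) (nat_lit 0) (XT.lf (nat_lit 0) (nat_lit 9137310585) (nat_lit 228) (nat_lit 3409733188) (nat_lit 76) (nat_lit 27541949109) (nat_lit 30) (nat_lit 5) (nat_lit 33) (nat_lit 5) (nat_lit 31) (nat_lit 5) (nat_lit 366) (nat_lit 283) (nat_lit 131)) (XT.lf (nat_lit 0) (nat_lit 10026354055) (nat_lit 152) (nat_lit 4598692212) (nat_lit 228) (nat_lit 26414160744) (nat_lit 28) (nat_lit 5) (nat_lit 30) (nat_lit 5) (nat_lit 31) (nat_lit 5) (nat_lit 367) (nat_lit 283) (nat_lit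 130)))) (XT.nd (nat_lit 78) (nat_lit 152) (nat_lit 0) (XT.lf (nat_lit 0) (nat_lit 20341436667) (nat_lit 228) (nat_lit 18124928999) (nat_lit 76) (nat_lit 3549645908) (nat_lit 28) (nat_lit 5) (nat_lit 31) (nat_lit 5) (nat_lit 29) (nat_lit 5) (nat_lit 368) (nat_lit 283) (nat_lit 129)) (XT.nd (nat_lit 78) (nat_lit 152) (nat_lit 0) (XT.lf (nat_lit 0) (nat_lit 26269762048) (nat_lit 228) (nat_lit 4904270259) (nat_lit 76) (nat_lit 11846879219) (nat_lit 28) (nat_lit 5) (nat_lit 31) (nat_lit 5) (nat_lit 29) (nat_lit 5) (nat_lit 369) (nat_lit 283) (nat_lit 128)) (XT.lf (nat_lit 0) (nat_lit 8878124932) (nat_lit 152) (nat_lit 23578214093) (nat_lit 228) (nat_lit 11597211816) (nat_lit 26) (nat_lit 5) (nat_lit 28) (nat_lit 5) (nat_lit 29) (nat_lit 5) (nat_lit 370) (nat_lit 283) (nat_lit 127))))) (XT.nd (nat_lit 234) (nat_lit 0) (nat_lit 0) (XT.nd (nat_lit 78) (nat_lit 228) (nat_lit 0) (XT.lf (nat_lit 0) (nat_lit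 23166476888) (nat_lit 152) (nat_lit 15706686331) (nat_lit 228) (nat_lit 6242670909) (nat_lit 26) (nat_lit 5) (nat_lit 28) (nat_lit 5) (nat_lit 29) (nat_lit 5) (nat_lit 371) (nat_lit 283) (nat_lit 126)) (XT.nd (nat_lit 78) (nat_lit 228) (nat_lit 0) (XT.lf (nat_lit 0) (nat_lit 37875665981) (nat_lit 152) (nat_lit 7602094501) (nat_lit 228) (nat_lit 732371547) (nat_lit 26) (nat_lit 5) (nat_lit 28) (nat_lit 5) (nat_lit 29) (nat_lit 5) (nat_lit 372) (nat_lit 283) (nat_lit 125)) (XT.lf (nat_lit 0) (nat_lit 4905520843) (nat_lit 228) (nat_lit 41596681812) (nat_lit 76) (nat_lit 831872283) (nat_lit 23) (nat_lit 5) (nat_lit 26) (nat_lit 5) (nat_lit 24) (nat_lit 5) (nat_lit 373) (nat_lit 283) (nat_lit 124)))) (XT.nd (nat_lit 78) (nat_lit 0) (nat_lit 0) (XT.lf (nat_lit 0) (nat_lit 10853483120) (nat_lit 228) (nat_lit 28178026600) (nat_lit 76) (nat_lit 9455343097) (nat_lit 23) (nat_lit 5) (nat_lit 26) (nat_lit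 5) (nat_lit 24) (nat_lit 5) (nat_lit 374) (nat_lit 283) (nat_lit 123)) (XT.nd (nat_lit 78) (nat_lit 0) (nat_lit 0) (XT.lf (nat_lit 0) (nat_lit 16975408289) (nat_lit 228) (nat_lit 14364305935) (nat_lit 76) (nat_lit 18334637789) (nat_lit 23) (nat_lit 5) (nat_lit 26) (nat_lit 5) (nat_lit 24) (nat_lit 5) (nat_lit 375) (nat_lit 283) (nat_lit 122)) (XT.lf (nat_lit 0) (nat_lit 23276645606) (nat_lit 228) (nat_lit 143449575) (nat_lit 76) (nat_lit 27477514965) (nat_lit 23) (nat_lit 5) (nat_lit 26) (nat_lit 5) (nat_lit 24) (nat_lit 5) (nat_lit 376) (nat_lit 283) (nat_lit 121)))))) (XT.nd (nat_lit 468) (nat_lit 228) (nat_lit 0) (XT.nd (nat_lit 234) (nat_lit 152) (nat_lit 0) (XT.nd (nat_lit 78) (nat_lit 0) (nat_lit 0) (XT.lf (nat_lit 0) (nat_lit 14785486568) (nat_lit 152) (nat_lit 15119341579) (nat_lit 228) (nat_lit 22248604120) (nat_lit 21) (nat_lit 5) (nat_lit 23) (nat_lit 5) (nat_lit 24) (nat_lit 5) (nat_lit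 377) (nat_lit 283) (nat_lit 120)) (XT.nd (nat_lit 78) (nat_lit 0) (nat_lit 0) (XT.lf (nat_lit 0) (nat_lit 30158236623) (nat_lit 152) (nat_lit 6570904713) (nat_lit 228) (nat_lit 16717872550) (nat_lit 21) (nat_lit 5) (nat_lit 23) (nat_lit 5) (nat_lit 24) (nat_lit 5) (nat_lit 378) (nat_lit 283) (nat_lit 119)) (XT.lf (nat_lit 0) (nat_lit 43775589802) (nat_lit 228) (nat_lit 8815597352) (nat_lit 76) (nat_lit 2187696907) (nat_lit 21) (nat_lit 5) (nat_lit 24) (nat_lit 5) (nat_lit 22) (nat_lit 4) (nat_lit 379) (nat_lit 283) (nat_lit 118)))) (XT.nd (nat_lit 78) (nat_lit 76) (nat_lit 0) (XT.lf (nat_lit 0) (nat_lit 6139841421) (nat_lit 76) (nat_lit 45013718627) (nat_lit 152) (nat_lit 4993549638) (nat_lit 20) (nat_lit 5) (nat_lit 21) (nat_lit 5) (nat_lit 22) (nat_lit 4) (nat_lit 380) (nat_lit 283) (nat_lit 117)) (XT.nd (nat_lit 78) (nat_lit 0) (nat_lit 0) (XT.lf (nat_lit 0) (nat_lit 1259100879) (nat_lit 152)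 (nat_lit 35848144116) (nat_lit 76) (nat_lit 20446216213) (nat_lit 19) (nat_lit 5) (nat_lit 21) (nat_lit 5) (nat_lit 20) (nat_lit 5) (nat_lit 381) (nat_lit 283) (nat_lit 116)) (XT.lf (nat_lit 0) (nat_lit 7595139973) (nat_lit 152) (nat_lit 21320196402) (nat_lit 76) (nat_lit 30085301354) (nat_lit 19) (nat_lit 5) (nat_lit 21) (nat_lit 5) (nat_lit 20) (nat_lit 5) (nat_lit 382) (nat_lit 283) (nat_lit 115))))) (XT.nd (nat_lit 234) (nat_lit 76) (nat_lit 0) (XT.nd (nat_lit 78) (nat_lit 152) (nat_lit 0) (XT.lf (nat_lit 0) (nat_lit 14117546129) (nat_lit 152) (nat_lit 6362729746) (nat_lit 76) (nat_lit 40011067931) (nat_lit 19) (nat_lit 5) (nat_lit 21) (nat_lit 5) (nat_lit 20) (nat_lit 5) (nat_lit 383) (nat_lit 283) (nat_lit 114)) (XT.nd (nat_lit 78) (nat_lit 0) (nat_lit 0) (XT.lf (nat_lit 0) (nat_lit 9217185978) (nat_lit 152) (nat_lit 11703433787) (nat_lit 228) (nat_lit 41103604195) (nat_lit 17) (nat_lit 5)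 (nat_lit 19) (nat_lit 5) (nat_lit 20) (nat_lit 5) (nat_lit 384) (nat_lit 283) (nat_lit 113)) (XT.lf (nat_lit 0) (nat_lit 25388853620) (nat_lit 152) (nat_lit 2599623779) (nat_lit 228) (nat_lit 35612795038) (nat_lit 17) (nat_lit 5) (nat_lit 19) (nat_lit 5) (nat_lit 20) (nat_lit 5) (nat_lit 385) (nat_lit 283) (nat_lit 112)))) (XT.nd (nat_lit 78) (nat_lit 76) (nat_lit 0) (XT.lf (nat_lit 0) (nat_lit 35330039204) (nat_lit 228) (nat_lit 23251089748) (nat_lit 76) (nat_lit 6642655960) (nat_lit 17) (nat_lit 5) (nat_lit 20) (nat_lit 5) (nat_lit 18) (nat_lit 4) (nat_lit 386) (nat_lit 283) (nat_lit 111)) (XT.nd (nat_lit 78) (nat_lit 76) (nat_lit 0) (XT.lf (nat_lit 0) (nat_lit 42914208927) (nat_lit 228) (nat_lit 7872466559) (nat_lit 76) (nat_lit 16107628963) (nat_lit 17) (nat_lit 5) (nat_lit 20) (nat_lit 5) (nat_lit 18) (nat_lit 4) (nat_lit 387) (nat_lit 283) (nat_lit 110)) (XT.lf (nat_lit 0) (nat_lit 8120334530)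 (nat_lit 76) (nat_lit 42680347434) (nat_lit 152) (nat_lit 17812016708) (nat_lit 16) (nat_lit 5) (nat_lit 17) (nat_lit 5) (nat_lit 18) (nat_lit 4) (nat_lit 388) (nat_lit 283) (nat_lit 109))))))))
noncomputable def xc172 : XT := (XT.nd (nat_lit 33930) (nat_lit 0) (nat_lit 5700) (XT.nd (nat_lit 32994) (nat_lit 0) (nat_lit 11628) (XT.nd (nat_lit 32526) (nat_lit 0) (nat_lit 13376) (XT.nd (nat_lit 156) (nat_lit 228) (nat_lit 0) (XT.nd (nat_lit 78) (nat_lit 0) (nat_lit 0) (XT.lf (nat_lit 0) (nat_lit 24748715000) (nat_lit 76) (nat_lit 34251293119) (nat_lit 152) (nat_lit 11380351209) (nat_lit 16) (nat_lit 5) (nat_lit 17) (nat_lit 5) (nat_lit 18) (nat_lit 4) (nat_lit 389) (nat_lit 283) (nat_lit 108)) (XT.lf (nat_lit 0) (nat_lit 41870526984) (nat_lit 76) (nat_lit 25571643825) (nat_lit 152) (nat_lit 4758975599) (nat_lit 16) (nat_lit 5) (nat_lit 17) (nat_lit 5) (nat_lit 18) (nat_lit 4) (nat_lit 390) (nat_lit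 283) (nat_lit 107))) (XT.nd (nat_lit 78) (nat_lit 152) (nat_lit 0) (XT.lf (nat_lit 0) (nat_lit 2017738830) (nat_lit 152) (nat_lit 14595701357) (nat_lit 76) (nat_lit 57462617251) (nat_lit 15) (nat_lit 5) (nat_lit 17) (nat_lit 5) (nat_lit 16) (nat_lit 5) (nat_lit 391) (nat_lit 283) (nat_lit 106)) (XT.nd (nat_lit 32214) (nat_lit 0) (nat_lit 14288) (XT.lf (nat_lit 0) (nat_lit 1590001866) (nat_lit 152) (nat_lit 7324391918) (nat_lit 228) (nat_lit 67091041874) (nat_lit 13) (nat_lit 5) (nat_lit 15) (nat_lit 5) (nat_lit 16) (nat_lit 5) (nat_lit 392) (nat_lit 283) (nat_lit 105)) (XT.lf (nat_lit 0) (nat_lit 3196499109) (nat_lit 988) (nat_lit 642641062) (nat_lit 988) (nat_lit 642641062) (nat_lit 201) (nat_lit 3) (nat_lit 214) (nat_lit 3) (nat_lit 214) (nat_lit 5) (nat_lit 284) (nat_lit 284) (nat_lit 212))))) (XT.nd (nat_lit 234) (nat_lit 912) (nat_lit 0) (XT.nd (nat_lit 78) (nat_lit 0) (nat_lit 0) (XT.lf (nat_lit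 76) (nat_lit 2654882266) (nat_lit 0) (nat_lit 4689391636) (nat_lit 988) (nat_lit 1726258267) (nat_lit 202) (nat_lit 5) (nat_lit 201) (nat_lit 3) (nat_lit 214) (nat_lit 5) (nat_lit 285) (nat_lit 284) (nat_lit 211)) (XT.nd (nat_lit 78) (nat_lit 0) (nat_lit 76) (XT.lf (nat_lit 76) (nat_lit 6722551021) (nat_lit 0) (nat_lit 1581964664) (nat_lit 988) (nat_lit 876853562) (nat_lit 202) (nat_lit 5) (nat_lit 201) (nat_lit 3) (nat_lit 214) (nat_lit 5) (nat_lit 286) (nat_lit 284) (nat_lit 210)) (XT.lf (nat_lit 76) (nat_lit 1614959399) (nat_lit 0) (nat_lit 7678230867) (nat_lit 988) (nat_lit 2421456) (nat_lit 203) (nat_lit 5) (nat_lit 202) (nat_lit 5) (nat_lit 215) (nat_lit 5) (nat_lit 287) (nat_lit 284) (nat_lit 209)))) (XT.nd (nat_lit 78) (nat_lit 0) (nat_lit 0) (XT.lf (nat_lit 0) (nat_lit 890373380) (nat_lit 988) (nat_lit 3593949064) (nat_lit 1064) (nat_lit 4928475343) (nat_lit 189) (nat_lit 5) (nat_lit 202)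 (nat_lit 5) (nat_lit 203) (nat_lit 5) (nat_lit 288) (nat_lit 284) (nat_lit 208)) (XT.nd (nat_lit 78) (nat_lit 0) (nat_lit 76) (XT.lf (nat_lit 76) (nat_lit 609533400) (nat_lit 0) (nat_lit 1176054094) (nat_lit 1064) (nat_lit 7748703888) (nat_lit 190) (nat_lit 5) (nat_lit 189) (nat_lit 5) (nat_lit 203) (nat_lit 5) (nat_lit 289) (nat_lit 284) (nat_lit 207)) (XT.lf (nat_lit 0) (nat_lit 2736409589) (nat_lit 988) (nat_lit 4685936539) (nat_lit 1064) (nat_lit 2236282457) (nat_lit 190) (nat_lit 5) (nat_lit 203) (nat_lit 5) (nat_lit 204) (nat_lit 5) (nat_lit 290) (nat_lit 284) (nat_lit 206)))))) (XT.nd (nat_lit 468) (nat_lit 1824) (nat_lit 0) (XT.nd (nat_lit 234) (nat_lit 0) (nat_lit 76) (XT.nd (nat_lit 78) (nat_lit 0) (nat_lit 0) (XT.lf (nat_lit 0) (nat_lit 3698905508) (nat_lit 988) (nat_lit 349632200) (nat_lit 1064) (nat_lit 5738723285) (nat_lit 190) (nat_lit 5) (nat_lit 203) (nat_lit 5) (nat_lit 204) (nat_lit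 5) (nat_lit 291) (nat_lit 284) (nat_lit 205)) (XT.nd (nat_lit 78) (nat_lit 0) (nat_lit 76) (XT.lf (nat_lit 76) (nat_lit 4180832083) (nat_lit 0) (nat_lit 521967947) (nat_lit 1064) (nat_lit 5216634457) (nat_lit 191) (nat_lit 5) (nat_lit 190) (nat_lit 5) (nat_lit 204) (nat_lit 5) (nat_lit 292) (nat_lit 284) (nat_lit 204)) (XT.lf (nat_lit 0) (nat_lit 5743343202) (nat_lit 988) (nat_lit 1249324480) (nat_lit 1064) (nat_lit 3062765694) (nat_lit 191) (nat_lit 5) (nat_lit 204) (nat_lit 5) (nat_lit 205) (nat_lit 5) (nat_lit 293) (nat_lit 284) (nat_lit 203)))) (XT.nd (nat_lit 78) (nat_lit 0) (nat_lit 76) (XT.lf (nat_lit 76) (nat_lit 3418401527) (nat_lit 0) (nat_lit 3408580557) (nat_lit 1064) (nat_lit 3368228271) (nat_lit 192) (nat_lit 5) (nat_lit 191) (nat_lit 5) (nat_lit 205) (nat_lit 5) (nat_lit 294) (nat_lit 284) (nat_lit 202)) (XT.nd (nat_lit 78) (nat_lit 0) (nat_lit 0) (XT.lf (nat_lit 0) (nat_lit 7933112093)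 (nat_lit 988) (nat_lit 2108368014) (nat_lit 1064) (nat_lit 298053997) (nat_lit 192) (nat_lit 5) (nat_lit 205) (nat_lit 5) (nat_lit 206) (nat_lit 5) (nat_lit 295) (nat_lit 284) (nat_lit 201)) (XT.lf (nat_lit 76) (nat_lit 2701135589) (nat_lit 0) (nat_lit 6406266493) (nat_lit 1064) (nat_lit 1379787580) (nat_lit 193) (nat_lit 5) (nat_lit 192) (nat_lit 5) (nat_lit 206) (nat_lit 5) (nat_lit 296) (nat_lit 284) (nat_lit 200))))) (XT.nd (nat_lit 234) (nat_lit 988) (nat_lit 0) (XT.nd (nat_lit 78) (nat_lit 988) (nat_lit 0) (XT.lf (nat_lit 76) (nat_lit 7680368773) (nat_lit 0) (nat_lit 2633654810) (nat_lit 1064) (nat_lit 325388102) (nat_lit 193) (nat_lit 5) (nat_lit 192) (nat_lit 5) (nat_lit 206) (nat_lit 5) (nat_lit 297) (nat_lit 284) (nat_lit 199)) (XT.nd (nat_lit 78) (nat_lit 0) (nat_lit 0) (XT.lf (nat_lit 0) (nat_lit 753883715) (nat_lit 1064) (nat_lit 8781266982) (nat_lit 1140) (nat_lit 1260634839) (nat_lit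 179) (nat_lit 5) (nat_lit 193) (nat_lit 5) (nat_lit 194) (nat_lit 5) (nat_lit 298) (nat_lit 284) (nat_lit 198)) (XT.lf (nat_lit 0) (nat_lit 1892059914) (nat_lit 1064) (nat_lit 3806003136) (nat_lit 1140) (nat_lit 5257744566) (nat_lit 179) (nat_lit 5) (nat_lit 193) (nat_lit 5) (nat_lit 194) (nat_lit 5) (nat_lit 299) (nat_lit 284) (nat_lit 197)))) (XT.nd (nat_lit 78) (nat_lit 988) (nat_lit 0) (XT.lf (nat_lit 76) (nat_lit 1326540129) (nat_lit 0) (nat_lit 1728082140) (nat_lit 1140) (nat_lit 8066345182) (nat_lit 180) (nat_lit 5) (nat_lit 179) (nat_lit 5) (nat_lit 194) (nat_lit 5) (nat_lit 300) (nat_lit 284) (nat_lit 196)) (XT.nd (nat_lit 78) (nat_lit 1064) (nat_lit 0) (XT.lf (nat_lit 0) (nat_lit 4291587201) (nat_lit 1064) (nat_lit 4640360340) (nat_lit 76) (nat_lit 2357991799) (nat_lit 180) (nat_lit 5) (nat_lit 194) (nat_lit 5) (nat_lit 181) (nat_lit 5) (nat_lit 301) (nat_lit 284) (nat_lit 195)) (XT.lf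 (nat_lit 0) (nat_lit 645925796) (nat_lit 1064) (nat_lit 4921710983) (nat_lit 1140) (nat_lit 5896326110) (nat_lit 166) (nat_lit 5) (nat_lit 180) (nat_lit 5) (nat_lit 181) (nat_lit 5) (nat_lit 302) (nat_lit 284) (nat_lit 194))))))) (XT.nd (nat_lit 936) (nat_lit 2660) (nat_lit 0) (XT.nd (nat_lit 468) (nat_lit 1596) (nat_lit 0) (XT.nd (nat_lit 234) (nat_lit 608) (nat_lit 0) (XT.nd (nat_lit 78) (nat_lit 1064) (nat_lit 0) (XT.lf (nat_lit 0) (nat_lit 6168201350) (nat_lit 1064) (nat_lit 739733265) (nat_lit 1140) (nat_lit 4734534085) (nat_lit 166) (nat_lit 5) (nat_lit 180) (nat_lit 5) (nat_lit 181) (nat_lit 5) (nat_lit 303) (nat_lit 284) (nat_lit 193)) (XT.nd (nat_lit 78) (nat_lit 1064) (nat_lit 0) (XT.lf (nat_lit 0) (nat_lit 8302482648) (nat_lit 1140) (nat_lit 22362753) (nat_lit 76) (nat_lit 3501102424) (nat_lit 166) (nat_lit 5) (nat_lit 181) (nat_lit 5) (nat_lit 167) (nat_lit 5) (nat_lit 304) (nat_lit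 284) (nat_lit 192)) (XT.lf (nat_lit 0) (nat_lit 5679234801) (nat_lit 1064) (nat_lit 4101884913) (nat_lit 1140) (nat_lit 2232582262) (nat_lit 152) (nat_lit 5) (nat_lit 166) (nat_lit 5) (nat_lit 167) (nat_lit 5) (nat_lit 305) (nat_lit 284) (nat_lit 191)))) (XT.nd (nat_lit 78) (nat_lit 608) (nat_lit 0) (XT.lf (nat_lit 0) (nat_lit 11287489147) (nat_lit 1140) (nat_lit 674954021) (nat_lit 76) (nat_lit 245181503) (nat_lit 152) (nat_lit 5) (nat_lit 167) (nat_lit 5) (nat_lit 153) (nat_lit 5) (nat_lit 306) (nat_lit 284) (nat_lit 190)) (XT.nd (nat_lit 78) (nat_lit 0) (nat_lit 0) (XT.lf (nat_lit 0) (nat_lit 495838940) (nat_lit 608) (nat_lit 7212252180) (nat_lit 76) (nat_lit 4697007084) (nat_lit 144) (nat_lit 5) (nat_lit 152) (nat_lit 5) (nat_lit 145) (nat_lit 5) (nat_lit 307) (nat_lit 284) (nat_lit 189)) (XT.lf (nat_lit 0) (nat_lit 1924169604) (nat_lit 608) (nat_lit 1384493571) (nat_lit 76) (nat_lit 9299942302)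 (nat_lit 144) (nat_lit 5) (nat_lit 152) (nat_lit 5) (nat_lit 145) (nat_lit 5) (nat_lit 308) (nat_lit 284) (nat_lit 188))))) (XT.nd (nat_lit 234) (nat_lit 532) (nat_lit 0) (XT.nd (nat_lit 78) (nat_lit 532) (nat_lit 0) (XT.lf (nat_lit 0) (nat_lit 3434694972) (nat_lit 608) (nat_lit 8137007750) (nat_lit 76) (nat_lit 1245367882) (nat_lit 137) (nat_lit 5) (nat_lit 145) (nat_lit 5) (nat_lit 138) (nat_lit 5) (nat_lit 309) (nat_lit 284) (nat_lit 187)) (XT.nd (nat_lit 78) (nat_lit 532) (nat_lit 0) (XT.lf (nat_lit 0) (nat_lit 5019809618) (nat_lit 608) (nat_lit 2126761063) (nat_lit 76) (nat_lit 5884372816) (nat_lit 137) (nat_lit 5) (nat_lit 145) (nat_lit 5) (nat_lit 138) (nat_lit 5) (nat_lit 310) (nat_lit 284) (nat_lit 186)) (XT.lf (nat_lit 0) (nat_lit 4127411288) (nat_lit 532) (nat_lit 2547649756) (nat_lit 608) (nat_lit 6575525117) (nat_lit 130) (nat_lit 5) (nat_lit 137) (nat_lit 5) (nat_lit 138) (nat_lit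 5) (nat_lit 311) (nat_lit 284) (nat_lit 185)))) (XT.nd (nat_lit 78) (nat_lit 532) (nat_lit 0) (XT.lf (nat_lit 0) (nat_lit 8405947941) (nat_lit 608) (nat_lit 2901914742) (nat_lit 76) (nat_lit 2168206264) (nat_lit 130) (nat_lit 5) (nat_lit 138) (nat_lit 5) (nat_lit 131) (nat_lit 5) (nat_lit 312) (nat_lit 284) (nat_lit 184)) (XT.nd (nat_lit 78) (nat_lit 0) (nat_lit 0) (XT.lf (nat_lit 0) (nat_lit 3532913058) (nat_lit 532) (nat_lit 6698766049) (nat_lit 608) (nat_lit 3475378879) (nat_lit 123) (nat_lit 5) (nat_lit 130) (nat_lit 5) (nat_lit 131) (nat_lit 5) (nat_lit 313) (nat_lit 284) (nat_lit 183)) (XT.lf (nat_lit 0) (nat_lit 10203650929) (nat_lit 532) (nat_lit 1921881842) (nat_lit 608) (nat_lit 1819071857) (nat_lit 123) (nat_lit 5) (nat_lit 130) (nat_lit 5) (nat_lit 131) (nat_lit 5) (nat_lit 314) (nat_lit 284) (nat_lit 182)))))) (XT.nd (nat_lit 468) (nat_lit 1292) (nat_lit 0) (XT.nd (nat_lit 234) (nat_lit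 380) (nat_lit 0) (XT.nd (nat_lit 78) (nat_lit 532) (nat_lit 0) (XT.lf (nat_lit 0) (nat_lit 2896305952) (nat_lit 456) (nat_lit 11221064067) (nat_lit 532) (nat_lit 70700228) (nat_lit 117) (nat_lit 5) (nat_lit 123) (nat_lit 5) (nat_lit 124) (nat_lit 5) (nat_lit 315) (nat_lit 284) (nat_lit 181)) (XT.nd (nat_lit 78) (nat_lit 456) (nat_lit 0) (XT.lf (nat_lit 0) (nat_lit 1738162085) (nat_lit 532) (nat_lit 4681163040) (nat_lit 76) (nat_lit 8017787798) (nat_lit 116) (nat_lit 5) (nat_lit 123) (nat_lit 5) (nat_lit 117) (nat_lit 5) (nat_lit 316) (nat_lit 284) (nat_lit 180)) (XT.lf (nat_lit 0) (nat_lit 2152761250) (nat_lit 456) (nat_lit 1452871192) (nat_lit 532) (nat_lit 11087825819) (nat_lit 110) (nat_lit 5) (nat_lit 116) (nat_lit 5) (nat_lit 117) (nat_lit 5) (nat_lit 317) (nat_lit 284) (nat_lit 179)))) (XT.nd (nat_lit 78) (nat_lit 380) (nat_lit 0) (XT.lf (nat_lit 0) (nat_lit 5597407291) (nat_lit 532) (nat_lit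 5720681273) (nat_lit 76) (nat_lit 3637381521) (nat_lit 110) (nat_lit 5) (nat_lit 117) (nat_lit 5) (nat_lit 111) (nat_lit 5) (nat_lit 318) (nat_lit 284) (nat_lit 178)) (XT.nd (nat_lit 78) (nat_lit 0) (nat_lit 0) (XT.lf (nat_lit 0) (nat_lit 1298784318) (nat_lit 380) (nat_lit 6362782641) (nat_lit 456) (nat_lit 7563420182) (nat_lit 105) (nat_lit 5) (nat_lit 110) (nat_lit 5) (nat_lit 111) (nat_lit 5) (nat_lit 319) (nat_lit 284) (nat_lit 177)) (XT.lf (nat_lit 0) (nat_lit 8630150460) (nat_lit 380) (nat_lit 1201291985) (nat_lit 456) (nat_lit 5669856663) (nat_lit 105) (nat_lit 5) (nat_lit 110) (nat_lit 5) (nat_lit 111) (nat_lit 5) (nat_lit 320) (nat_lit 284) (nat_lit 176))))) (XT.nd (nat_lit 234) (nat_lit 760) (nat_lit 0) (XT.nd (nat_lit 78) (nat_lit 76) (nat_lit 0) (XT.lf (nat_lit 0) (nat_lit 346871275) (nat_lit 456) (nat_lit 11748845590) (nat_lit 532) (nat_lit 3689326944) (nat_lit 99) (nat_lit 5) (nat_lit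 105) (nat_lit 5) (nat_lit 106) (nat_lit 5) (nat_lit 321) (nat_lit 284) (nat_lit 175)) (XT.nd (nat_lit 78) (nat_lit 76) (nat_lit 0) (XT.lf (nat_lit 0) (nat_lit 7894410509) (nat_lit 456) (nat_lit 6601327968) (nat_lit 532) (nat_lit 1579549609) (nat_lit 99) (nat_lit 5) (nat_lit 105) (nat_lit 5) (nat_lit 106) (nat_lit 5) (nat_lit 322) (nat_lit 284) (nat_lit 174)) (XT.lf (nat_lit 0) (nat_lit 568835395) (nat_lit 532) (nat_lit 727134292) (nat_lit 76) (nat_lit 15078512514) (nat_lit 98) (nat_lit 5) (nat_lit 105) (nat_lit 5) (nat_lit 99) (nat_lit 5) (nat_lit 323) (nat_lit 284) (nat_lit 173)))) (XT.nd (nat_lit 78) (nat_lit 380) (nat_lit 0) (XT.lf (nat_lit 0) (nat_lit 2845914443) (nat_lit 456) (nat_lit 9664242291) (nat_lit 76) (nat_lit 4169166487) (nat_lit 93) (nat_lit 5) (nat_lit 99) (nat_lit 5) (nat_lit 94) (nat_lit 5) (nat_lit 324) (nat_lit 284) (nat_lit 172)) (XT.nd (nat_lit 78) (nat_lit 380) (nat_lit 0)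 (XT.lf (nat_lit 0) (nat_lit 5199033313) (nat_lit 456) (nat_lit 2016859358) (nat_lit 76) (nat_lit 9777204349) (nat_lit 93) (nat_lit 5) (nat_lit 99) (nat_lit 5) (nat_lit 94) (nat_lit 5) (nat_lit 325) (nat_lit 284) (nat_lit 171)) (XT.lf (nat_lit 0) (nat_lit 5961385563) (nat_lit 380) (nat_lit 1706510044) (nat_lit 456) (nat_lit 9647052736) (nat_lit 88) (nat_lit 5) (nat_lit 93) (nat_lit 5) (nat_lit 94) (nat_lit 5) (nat_lit 326) (nat_lit 284) (nat_lit 170))))))))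
noncomputable def xc173 : XT := (XT.nd (nat_lit 1794) (nat_lit 1672) (nat_lit 0) (XT.nd (nat_lit 858) (nat_lit 1292) (nat_lit 0) (XT.nd (nat_lit 390) (nat_lit 988) (nat_lit 0) (XT.nd (nat_lit 156) (nat_lit 456) (nat_lit 0) (XT.nd (nat_lit 78) (nat_lit 304) (nat_lit 0) (XT.lf (nat_lit 0) (nat_lit 10257566845) (nat_lit 456) (nat_lit 3478959984) (nat_lit 76) (nat_lit 3908544344) (nat_lit 88) (nat_lit 5) (nat_lit 94) (nat_lit 5) (nat_lit 89) (nat_lit 5) (nat_lit 327) (nat_lit 284) (nat_lit 169)) (XT.lf (nat_lit 0) (nat_lit 4691888689) (nat_lit 304) (nat_lit 8283416370) (nat_lit 380) (nat_lit 5008299050) (nat_lit 84) (nat_lit 5) (nat_lit 88) (nat_lit 5) (nat_lit 89) (nat_lit 5) (nat_lit 328) (nat_lit 284) (nat_lit 168))) (XT.nd (nat_lit 78) (nat_lit 456) (nat_lit 0) (XT.lf (nat_lit 0) (nat_lit 13164670022) (nat_lit 304) (nat_lit 2633614474) (nat_lit 380) (nat_lit 2533314478) (nat_lit 84) (nat_lit 5)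 (nat_lit 88) (nat_lit 5) (nat_lit 89) (nat_lit 5) (nat_lit 329) (nat_lit 284) (nat_lit 167)) (XT.nd (nat_lit 78) (nat_lit 0) (nat_lit 0) (XT.lf (nat_lit 0) (nat_lit 66543890) (nat_lit 456) (nat_lit 15469794942) (nat_lit 76) (nat_lit 3152178437) (nat_lit 78) (nat_lit 5) (nat_lit 84) (nat_lit 5) (nat_lit 79) (nat_lit 5) (nat_lit 330) (nat_lit 284) (nat_lit 166)) (XT.lf (nat_lit 0) (nat_lit 2761193555) (nat_lit 456) (nat_lit 7158892631) (nat_lit 76) (nat_lit 9133288827) (nat_lit 78) (nat_lit 5) (nat_lit 84) (nat_lit 5) (nat_lit 79) (nat_lit 5) (nat_lit 331) (nat_lit 284) (nat_lit 165))))) (XT.nd (nat_lit 234) (nat_lit 684) (nat_lit 0) (XT.nd (nat_lit 78) (nat_lit 0) (nat_lit 0) (XT.lf (nat_lit 0) (nat_lit 1414867648) (nat_lit 304) (nat_lit 4124682454) (nat_lit 380) (nat_lit 13889557656) (nat_lit 74) (nat_lit 5) (nat_lit 78) (nat_lit 5) (nat_lit 79) (nat_lit 5) (nat_lit 332) (nat_lit 284) (nat_lit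 164)) (XT.nd (nat_lit 78) (nat_lit 0) (nat_lit 0) (XT.lf (nat_lit 0) (nat_lit 8481408029) (nat_lit 380) (nat_lit 9454038943) (nat_lit 76) (nat_lit 1878275842) (nat_lit 74) (nat_lit 5) (nat_lit 79) (nat_lit 5) (nat_lit 75) (nat_lit 5) (nat_lit 333) (nat_lit 284) (nat_lit 163)) (XT.lf (nat_lit 0) (nat_lit 11542081385) (nat_lit 380) (nat_lit 691694627) (nat_lit 76) (nat_lit 7975197932) (nat_lit 74) (nat_lit 5) (nat_lit 79) (nat_lit 5) (nat_lit 75) (nat_lit 5) (nat_lit 334) (nat_lit 284) (nat_lit 162)))) (XT.nd (nat_lit 78) (nat_lit 380) (nat_lit 0) (XT.lf (nat_lit 0) (nat_lit 8485684493) (nat_lit 304) (nat_lit 6280480670) (nat_lit 380) (nat_lit 5847783731) (nat_lit 70) (nat_lit 5) (nat_lit 74) (nat_lit 5) (nat_lit 75) (nat_lit 5) (nat_lit 335) (nat_lit 284) (nat_lit 161)) (XT.nd (nat_lit 78) (nat_lit 380) (nat_lit 0) (XT.lf (nat_lit 0) (nat_lit 17939273842) (nat_lit 304) (nat_lit 144865913) (nat_lit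 380) (nat_lit 2947031876) (nat_lit 70) (nat_lit 5) (nat_lit 74) (nat_lit 5) (nat_lit 75) (nat_lit 5) (nat_lit 336) (nat_lit 284) (nat_lit 160)) (XT.lf (nat_lit 0) (nat_lit 151042844) (nat_lit 380) (nat_lit 15193812166) (nat_lit 76) (nat_lit 6112724236) (nat_lit 65) (nat_lit 5) (nat_lit 70) (nat_lit 5) (nat_lit 66) (nat_lit 5) (nat_lit 337) (nat_lit 284) (nat_lit 159)))))) (XT.nd (nat_lit 468) (nat_lit 760) (nat_lit 0) (XT.nd (nat_lit 234) (nat_lit 228) (nat_lit 0) (XT.nd (nat_lit 78) (nat_lit 304) (nat_lit 0) (XT.lf (nat_lit 0) (nat_lit 3306277427) (nat_lit 380) (nat_lit 5976524132) (nat_lit 76) (nat_lit 12612411107) (nat_lit 65) (nat_lit 5) (nat_lit 70) (nat_lit 5) (nat_lit 66) (nat_lit 5) (nat_lit 338) (nat_lit 284) (nat_lit 158)) (XT.nd (nat_lit 78) (nat_lit 0) (nat_lit 0) (XT.lf (nat_lit 0) (nat_lit 3574170692) (nat_lit 304) (nat_lit 3007117113) (nat_lit 380) (nat_lit 15763945793) (nat_lit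 61) (nat_lit 5) (nat_lit 65) (nat_lit 5) (nat_lit 66) (nat_lit 5) (nat_lit 339) (nat_lit 284) (nat_lit 157)) (XT.lf (nat_lit 0) (nat_lit 10039599812) (nat_lit 380) (nat_lit 9319852386) (nat_lit 76) (nat_lit 3446763141) (nat_lit 61) (nat_lit 5) (nat_lit 66) (nat_lit 5) (nat_lit 62) (nat_lit 5) (nat_lit 340) (nat_lit 284) (nat_lit 156)))) (XT.nd (nat_lit 78) (nat_lit 0) (nat_lit 0) (XT.lf (nat_lit 0) (nat_lit 379932699) (nat_lit 228) (nat_lit 13246293249) (nat_lit 304) (nat_lit 9654075018) (nat_lit 58) (nat_lit 5) (nat_lit 61) (nat_lit 5) (nat_lit 62) (nat_lit 5) (nat_lit 341) (nat_lit 284) (nat_lit 155)) (XT.nd (nat_lit 78) (nat_lit 0) (nat_lit 0) (XT.lf (nat_lit 0) (nat_lit 10549280556) (nat_lit 228) (nat_lit 6856559867) (nat_lit 304) (nat_lit 6360218100) (nat_lit 58) (nat_lit 5) (nat_lit 61) (nat_lit 5) (nat_lit 62) (nat_lit 5) (nat_lit 342) (nat_lit 284) (nat_lit 154)) (XT.lf (nat_lit 0) (nat_lit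 21011593686) (nat_lit 228) (nat_lit 278781023) (nat_lit 304) (nat_lit 2976278881) (nat_lit 58) (nat_lit 5) (nat_lit 61) (nat_lit 5) (nat_lit 62) (nat_lit 5) (nat_lit 343) (nat_lit 284) (nat_lit 153))))) (XT.nd (nat_lit 234) (nat_lit 228) (nat_lit 0) (XT.nd (nat_lit 78) (nat_lit 228) (nat_lit 0) (XT.lf (nat_lit 0) (nat_lit 622584183) (nat_lit 304) (nat_lit 17715696727) (nat_lit 76) (nat_lit 6440148626) (nat_lit 54) (nat_lit 5) (nat_lit 58) (nat_lit 5) (nat_lit 55) (nat_lit 5) (nat_lit 344) (nat_lit 284) (nat_lit 152)) (XT.nd (nat_lit 78) (nat_lit 228) (nat_lit 0) (XT.lf (nat_lit 0) (nat_lit 4297328241) (nat_lit 304) (nat_lit 7592382824) (nat_lit 76) (nat_lit 13414141406) (nat_lit 54) (nat_lit 5) (nat_lit 58) (nat_lit 5) (nat_lit 55) (nat_lit 5) (nat_lit 345) (nat_lit 284) (nat_lit 151)) (XT.lf (nat_lit 0) (nat_lit 2879122010) (nat_lit 228) (nat_lit 5222887895) (nat_lit 304) (nat_lit 17742446860)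 (nat_lit 51) (nat_lit 5) (nat_lit 54) (nat_lit 5) (nat_lit 55) (nat_lit 5) (nat_lit 346) (nat_lit 284) (nat_lit 150)))) (XT.nd (nat_lit 78) (nat_lit 228) (nat_lit 0) (XT.lf (nat_lit 0) (nat_lit 12106166696) (nat_lit 304) (nat_lit 12606917617) (nat_lit 76) (nat_lit 1685644086) (nat_lit 51) (nat_lit 5) (nat_lit 55) (nat_lit 5) (nat_lit 52) (nat_lit 5) (nat_lit 347) (nat_lit 284) (nat_lit 149)) (XT.nd (nat_lit 78) (nat_lit 228) (nat_lit 0) (XT.lf (nat_lit 0) (nat_lit 16274494756) (nat_lit 304) (nat_lit 2000901689) (nat_lit 76) (nat_lit 8692919323) (nat_lit 51) (nat_lit 5) (nat_lit 55) (nat_lit 5) (nat_lit 52) (nat_lit 5) (nat_lit 348) (nat_lit 284) (nat_lit 148)) (XT.lf (nat_lit 0) (nat_lit 9089555991) (nat_lit 228) (nat_lit 11558249100) (nat_lit 304) (nat_lit 6904796413) (nat_lit 48) (nat_lit 5) (nat_lit 51) (nat_lit 5) (nat_lit 52) (nat_lit 5) (nat_lit 349) (nat_lit 284) (nat_lit 147))))))) (XT.nd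 (nat_lit 936) (nat_lit 684) (nat_lit 0) (XT.nd (nat_lit 468) (nat_lit 456) (nat_lit 0) (XT.nd (nat_lit 234) (nat_lit 228) (nat_lit 0) (XT.nd (nat_lit 78) (nat_lit 304) (nat_lit 0) (XT.lf (nat_lit 0) (nat_lit 20542744133) (nat_lit 228) (nat_lit 4622444870) (nat_lit 304) (nat_lit 2988849050) (nat_lit 48) (nat_lit 5) (nat_lit 51) (nat_lit 5) (nat_lit 52) (nat_lit 5) (nat_lit 350) (nat_lit 284) (nat_lit 146)) (XT.nd (nat_lit 78) (nat_lit 0) (nat_lit 0) (XT.lf (nat_lit 0) (nat_lit 1076399774) (nat_lit 304) (nat_lit 25181350081) (nat_lit 76) (nat_lit 2513908394) (nat_lit 44) (nat_lit 5) (nat_lit 48) (nat_lit 5) (nat_lit 45) (nat_lit 5) (nat_lit 351) (nat_lit 284) (nat_lit 145)) (XT.lf (nat_lit 0) (nat_lit 5319795696) (nat_lit 304) (nat_lit 14208549132) (nat_lit 76) (nat_lit 9875094319) (nat_lit 44) (nat_lit 5) (nat_lit 48) (nat_lit 5) (nat_lit 45) (nat_lit 5) (nat_lit 352) (nat_lit 284) (nat_lit 144))))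 (XT.nd (nat_lit 78) (nat_lit 228) (nat_lit 0) (XT.lf (nat_lit 0) (nat_lit 9683576634) (nat_lit 304) (nat_lit 2917156301) (nat_lit 76) (nat_lit 17453655564) (nat_lit 44) (nat_lit 5) (nat_lit 48) (nat_lit 5) (nat_lit 45) (nat_lit 5) (nat_lit 353) (nat_lit 284) (nat_lit 143)) (XT.nd (nat_lit 78) (nat_lit 0) (nat_lit 0) (XT.lf (nat_lit 0) (nat_lit 8875895365) (nat_lit 228) (nat_lit 5380980772) (nat_lit 304) (nat_lit 16465639346) (nat_lit 41) (nat_lit 5) (nat_lit 44) (nat_lit 5) (nat_lit 45) (nat_lit 5) (nat_lit 354) (nat_lit 284) (nat_lit 142)) (XT.lf (nat_lit 0) (nat_lit 19010229300) (nat_lit 304) (nat_lit 10357668366) (nat_lit 76) (nat_lit 2041510060) (nat_lit 41) (nat_lit 5) (nat_lit 45) (nat_lit 5) (nat_lit 42) (nat_lit 5) (nat_lit 355) (nat_lit 284) (nat_lit 141))))) (XT.nd (nat_lit 234) (nat_lit 228) (nat_lit 0) (XT.nd (nat_lit 78) (nat_lit 76) (nat_lit 0) (XT.lf (nat_lit 0) (nat_lit 1440736264)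 (nat_lit 152) (nat_lit 22526114856) (nat_lit 228) (nat_lit 8148242458) (nat_lit 39) (nat_lit 5) (nat_lit 41) (nat_lit 5) (nat_lit 42) (nat_lit 5) (nat_lit 356) (nat_lit 284) (nat_lit 140)) (XT.nd (nat_lit 78) (nat_lit 76) (nat_lit 0) (XT.lf (nat_lit 0) (nat_lit 13795461045) (nat_lit 152) (nat_lit 15374936897) (nat_lit 228) (nat_lit 3668611956) (nat_lit 39) (nat_lit 5) (nat_lit 41) (nat_lit 5) (nat_lit 42) (nat_lit 5) (nat_lit 357) (nat_lit 284) (nat_lit 139)) (XT.lf (nat_lit 0) (nat_lit 920711218) (nat_lit 228) (nat_lit 7082698734) (nat_lit 76) (nat_lit 25581154860) (nat_lit 38) (nat_lit 5) (nat_lit 41) (nat_lit 5) (nat_lit 39) (nat_lit 5) (nat_lit 358) (nat_lit 284) (nat_lit 138)))) (XT.nd (nat_lit 78) (nat_lit 0) (nat_lit 0) (XT.lf (nat_lit 0) (nat_lit 5294458478) (nat_lit 228) (nat_lit 324347758) (nat_lit 304) (nat_lit 28731251738) (nat_lit 35) (nat_lit 5) (nat_lit 38) (nat_lit 5) (nat_lit 39)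 (nat_lit 5) (nat_lit 359) (nat_lit 284) (nat_lit 137)) (XT.nd (nat_lit 78) (nat_lit 0) (nat_lit 0) (XT.lf (nat_lit 0) (nat_lit 10596973270) (nat_lit 304) (nat_lit 17031440668) (nat_lit 76) (nat_lit 7505934056) (nat_lit 35) (nat_lit 5) (nat_lit 39) (nat_lit 5) (nat_lit 36) (nat_lit 5) (nat_lit 360) (nat_lit 284) (nat_lit 136)) (XT.lf (nat_lit 0) (nat_lit 15721858982) (nat_lit 304) (nat_lit 4659058286) (nat_lit 76) (nat_lit 15561334003) (nat_lit 35) (nat_lit 5) (nat_lit 39) (nat_lit 5) (nat_lit 36) (nat_lit 5) (nat_lit 361) (nat_lit 284) (nat_lit 135)))))) (XT.nd (nat_lit 468) (nat_lit 304) (nat_lit 0) (XT.nd (nat_lit 234) (nat_lit 228) (nat_lit 0) (XT.nd (nat_lit 78) (nat_lit 0) (nat_lit 0) (XT.lf (nat_lit 0) (nat_lit 8236194109) (nat_lit 152) (nat_lit 12837800826) (nat_lit 228) (nat_lit 15698197198) (nat_lit 33) (nat_lit 5) (nat_lit 35) (nat_lit 5) (nat_lit 36) (nat_lit 5) (nat_lit 362) (nat_lit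 284) (nat_lit 134)) (XT.nd (nat_lit 78) (nat_lit 0) (nat_lit 0) (XT.lf (nat_lit 0) (nat_lit 21604879359) (nat_lit 152) (nat_lit 5023274524) (nat_lit 228) (nat_lit 10997639006) (nat_lit 33) (nat_lit 5) (nat_lit 35) (nat_lit 5) (nat_lit 36) (nat_lit 5) (nat_lit 363) (nat_lit 284) (nat_lit 133)) (XT.lf (nat_lit 0) (nat_lit 32372565498) (nat_lit 228) (nat_lit 3168268837) (nat_lit 76) (nat_lit 2963463770) (nat_lit 33) (nat_lit 5) (nat_lit 36) (nat_lit 5) (nat_lit 34) (nat_lit 5) (nat_lit 364) (nat_lit 284) (nat_lit 132)))) (XT.nd (nat_lit 78) (nat_lit 76) (nat_lit 0) (XT.lf (nat_lit 0) (nat_lit 10210920599) (nat_lit 152) (nat_lit 28220979946) (nat_lit 228) (nat_lit 972985324) (nat_lit 31) (nat_lit 5) (nat_lit 33) (nat_lit 5) (nat_lit 34) (nat_lit 5) (nat_lit 365) (nat_lit 284) (nat_lit 131)) (XT.nd (nat_lit 78) (nat_lit 0) (nat_lit 0) (XT.lf (nat_lit 0) (nat_lit 4282853565) (nat_lit 228) (nat_lit 16325717037)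 (nat_lit 76) (nat_lit 19721862924) (nat_lit 30) (nat_lit 5) (nat_lit 33) (nat_lit 5) (nat_lit 31) (nat_lit 5) (nat_lit 366) (nat_lit 284) (nat_lit 130)) (XT.lf (nat_lit 0) (nat_lit 9671683798) (nat_lit 228) (nat_lit 3089382209) (nat_lit 76) (nat_lit 28522551121) (nat_lit 30) (nat_lit 5) (nat_lit 33) (nat_lit 5) (nat_lit 31) (nat_lit 5) (nat_lit 367) (nat_lit 284) (nat_lit 129))))) (XT.nd (nat_lit 234) (nat_lit 152) (nat_lit 0) (XT.nd (nat_lit 78) (nat_lit 0) (nat_lit 0) (XT.lf (nat_lit 0) (nat_lit 10745644092) (nat_lit 152) (nat_lit 4574850121) (nat_lit 228) (nat_lit 26941957120) (nat_lit 28) (nat_lit 5) (nat_lit 30) (nat_lit 5) (nat_lit 31) (nat_lit 5) (nat_lit 368) (nat_lit 284) (nat_lit 128)) (XT.nd (nat_lit 78) (nat_lit 0) (nat_lit 0) (XT.lf (nat_lit 0) (nat_lit 21202409774) (nat_lit 228) (nat_lit 18256175941) (nat_lit 76) (nat_lit 3810160043) (nat_lit 28) (nat_lit 5) (nat_lit 31) (nat_lit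 5) (nat_lit 29) (nat_lit 5) (nat_lit 369) (nat_lit 284) (nat_lit 127)) (XT.lf (nat_lit 0) (nat_lit 27301282100) (nat_lit 228) (nat_lit 4650912029) (nat_lit 76) (nat_lit 12351824196) (nat_lit 28) (nat_lit 5) (nat_lit 31) (nat_lit 5) (nat_lit 29) (nat_lit 5) (nat_lit 370) (nat_lit 284) (nat_lit 126)))) (XT.nd (nat_lit 78) (nat_lit 0) (nat_lit 0) (XT.lf (nat_lit 0) (nat_lit 9541028681) (nat_lit 152) (nat_lit 24129149571) (nat_lit 228) (nat_lit 11697563253) (nat_lit 26) (nat_lit 5) (nat_lit 28) (nat_lit 5) (nat_lit 29) (nat_lit 5) (nat_lit 371) (nat_lit 284) (nat_lit 125)) (XT.nd (nat_lit 78) (nat_lit 0) (nat_lit 0) (XT.lf (nat_lit 0) (nat_lit 24246480904) (nat_lit 152) (nat_lit 16026031634) (nat_lit 228) (nat_lit 6189596748) (nat_lit 26) (nat_lit 5) (nat_lit 28) (nat_lit 5) (nat_lit 29) (nat_lit 5) (nat_lit 372) (nat_lit 284) (nat_lit 124)) (XT.lf (nat_lit 0) (nat_lit 39385731795) (nat_lit 152) (nat_lit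 7682725019) (nat_lit 228) (nat_lit 520989015) (nat_lit 26) (nat_lit 5) (nat_lit 28) (nat_lit 5) (nat_lit 29) (nat_lit 5) (nat_lit 373) (nat_lit 284) (nat_lit 123))))))))
noncomputable def xc174 : XT := (XT.nd (nat_lit 34086) (nat_lit 0) (nat_lit 8664) (XT.nd (nat_lit 858) (nat_lit 228) (nat_lit 0) (XT.nd (nat_lit 390) (nat_lit 152) (nat_lit 0) (XT.nd (nat_lit 156) (nat_lit 152) (nat_lit 0) (XT.nd (nat_lit 78) (nat_lit 0) (nat_lit 0) (XT.lf (nat_lit 0) (nat_lit 5279858775) (nat_lit 228) (nat_lit 42464223790) (nat_lit 76) (nat_lit 1003011634) (nat_lit 23) (nat_lit 5) (nat_lit 26) (nat_lit 5) (nat_lit 24) (nat_lit 5) (nat_lit 374) (nat_lit 284) (nat_lit 122)) (XT.lf (nat_lit 0) (nat_lit 11399643251) (nat_lit 228) (nat_lit 28654087325) (nat_lit 76) (nat_lit 9880928811) (nat_lit 23) (nat_lit 5) (nat_lit 26) (nat_lit 5) (nat_lit 24) (nat_lit 5) (nat_lit 375) (nat_lit 284) (nat_lit 121))) (XT.nd (nat_lit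 78) (nat_lit 152) (nat_lit 0) (XT.lf (nat_lit 0) (nat_lit 17698802224) (nat_lit 228) (nat_lit 14436710770) (nat_lit 76) (nat_lit 19022468593) (nat_lit 23) (nat_lit 5) (nat_lit 26) (nat_lit 5) (nat_lit 24) (nat_lit 5) (nat_lit 376) (nat_lit 284) (nat_lit 120)) (XT.nd (nat_lit 78) (nat_lit 0) (nat_lit 0) (XT.lf (nat_lit 0) (nat_lit 204315760) (nat_lit 152) (nat_lit 23980488063) (nat_lit 228) (nat_lit 28233266983) (nat_lit 21) (nat_lit 5) (nat_lit 23) (nat_lit 5) (nat_lit 24) (nat_lit 5) (nat_lit 377) (nat_lit 284) (nat_lit 119)) (XT.lf (nat_lit 0) (nat_lit 15573720485) (nat_lit 152) (nat_lit 15433405331) (nat_lit 228) (nat_lit 22704587962) (nat_lit 21) (nat_lit 5) (nat_lit 23) (nat_lit 5) (nat_lit 24) (nat_lit 5) (nat_lit 378) (nat_lit 284) (nat_lit 118))))) (XT.nd (nat_lit 234) (nat_lit 76) (nat_lit 0) (XT.nd (nat_lit 78) (nat_lit 76) (nat_lit 0) (XT.lf (nat_lit 0) (nat_lit 31397614128) (nat_lit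 152) (nat_lit 6632578946) (nat_lit 228) (nat_lit 17014093889) (nat_lit 21) (nat_lit 5) (nat_lit 23) (nat_lit 5) (nat_lit 24) (nat_lit 5) (nat_lit 379) (nat_lit 284) (nat_lit 117)) (XT.nd (nat_lit 78) (nat_lit 76) (nat_lit 0) (XT.lf (nat_lit 0) (nat_lit 45283497841) (nat_lit 228) (nat_lit 8750486934) (nat_lit 76) (nat_lit 2382269304) (nat_lit 21) (nat_lit 5) (nat_lit 24) (nat_lit 5) (nat_lit 22) (nat_lit 4) (nat_lit 380) (nat_lit 284) (nat_lit 116)) (XT.lf (nat_lit 0) (nat_lit 6650383842) (nat_lit 76) (nat_lit 46229891265) (nat_lit 152) (nat_lit 4945331910) (nat_lit 20) (nat_lit 5) (nat_lit 21) (nat_lit 5) (nat_lit 22) (nat_lit 4) (nat_lit 381) (nat_lit 284) (nat_lit 115)))) (XT.nd (nat_lit 78) (nat_lit 0) (nat_lit 0) (XT.lf (nat_lit 0) (nat_lit 1485378810) (nat_lit 152) (nat_lit 36602850955) (nat_lit 76) (nat_lit 21186036185) (nat_lit 19) (nat_lit 5) (nat_lit 21) (nat_lit 5) (nat_lit 20) (nat_lit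 5) (nat_lit 382) (nat_lit 284) (nat_lit 114)) (XT.nd (nat_lit 78) (nat_lit 0) (nat_lit 0) (XT.lf (nat_lit 0) (nat_lit 8006008643) (nat_lit 152) (nat_lit 21648406678) (nat_lit 76) (nat_lit 31110611352) (nat_lit 19) (nat_lit 5) (nat_lit 21) (nat_lit 5) (nat_lit 20) (nat_lit 5) (nat_lit 383) (nat_lit 284) (nat_lit 113)) (XT.lf (nat_lit 0) (nat_lit 14718756465) (nat_lit 152) (nat_lit 6251285798) (nat_lit 76) (nat_lit 41330575655) (nat_lit 19) (nat_lit 5) (nat_lit 21) (nat_lit 5) (nat_lit 20) (nat_lit 5) (nat_lit 384) (nat_lit 284) (nat_lit 112)))))) (XT.nd (nat_lit 468) (nat_lit 0) (nat_lit 0) (XT.nd (nat_lit 234) (nat_lit 76) (nat_lit 0) (XT.nd (nat_lit 78) (nat_lit 0) (nat_lit 0) (XT.lf (nat_lit 0) (nat_lit 9793063419) (nat_lit 152) (nat_lit 11930561280) (nat_lit 228) (nat_lit 42155932658) (nat_lit 17) (nat_lit 5) (nat_lit 19) (nat_lit 5) (nat_lit 20) (nat_lit 5) (nat_lit 385) (nat_lit 284) (nat_lit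 111)) (XT.nd (nat_lit 78) (nat_lit 0) (nat_lit 0) (XT.lf (nat_lit 0) (nat_lit 26441161812) (nat_lit 152) (nat_lit 2557247909) (nat_lit 228) (nat_lit 36505664654) (nat_lit 17) (nat_lit 5) (nat_lit 19) (nat_lit 5) (nat_lit 20) (nat_lit 5) (nat_lit 386) (nat_lit 284) (nat_lit 110)) (XT.lf (nat_lit 0) (nat_lit 36556382145) (nat_lit 228) (nat_lit 23662484770) (nat_lit 76) (nat_lit 6956514121) (nat_lit 17) (nat_lit 5) (nat_lit 20) (nat_lit 5) (nat_lit 18) (nat_lit 4) (nat_lit 387) (nat_lit 284) (nat_lit 109)))) (XT.nd (nat_lit 78) (nat_lit 76) (nat_lit 0) (XT.lf (nat_lit 0) (nat_lit 44363229142) (nat_lit 228) (nat_lit 7830836992) (nat_lit 76) (nat_lit 16702099077) (nat_lit 17) (nat_lit 5) (nat_lit 20) (nat_lit 5) (nat_lit 18) (nat_lit 4) (nat_lit 388) (nat_lit 284) (nat_lit 108)) (XT.nd (nat_lit 78) (nat_lit 0) (nat_lit 0) (XT.lf (nat_lit 0) (nat_lit 8639024565) (nat_lit 76) (nat_lit 43845209422) (nat_lit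 152) (nat_lit 18181942656) (nat_lit 16) (nat_lit 5) (nat_lit 17) (nat_lit 5) (nat_lit 18) (nat_lit 4) (nat_lit 389) (nat_lit 284) (nat_lit 107)) (XT.lf (nat_lit 0) (nat_lit 25758244411) (nat_lit 76) (nat_lit 35166648966) (nat_lit 152) (nat_lit 11562116548) (nat_lit 16) (nat_lit 5) (nat_lit 17) (nat_lit 5) (nat_lit 18) (nat_lit 4) (nat_lit 390) (nat_lit 284) (nat_lit 106))))) (XT.nd (nat_lit 32526) (nat_lit 0) (nat_lit 13072) (XT.nd (nat_lit 32370) (nat_lit 0) (nat_lit 14060) (XT.lf (nat_lit 0) (nat_lit 43385932075) (nat_lit 76) (nat_lit 26229877658) (nat_lit 152) (nat_lit 4746749530) (nat_lit 16) (nat_lit 5) (nat_lit 17) (nat_lit 5) (nat_lit 18) (nat_lit 4) (nat_lit 391) (nat_lit 284) (nat_lit 105)) (XT.nd (nat_lit 78) (nat_lit 0) (nat_lit 0) (XT.lf (nat_lit 0) (nat_lit 4114277315) (nat_lit 988) (nat_lit 237748031) (nat_lit 988) (nat_lit 237748031) (nat_lit 201) (nat_lit 3) (nat_lit 214) (nat_lit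 3) (nat_lit 214) (nat_lit 5) (nat_lit 285) (nat_lit 285) (nat_lit 210)) (XT.lf (nat_lit 76) (nat_lit 3574556157) (nat_lit 0) (nat_lit 5594010593) (nat_lit 988) (nat_lit 122457987) (nat_lit 202) (nat_lit 5) (nat_lit 201) (nat_lit 3) (nat_lit 214) (nat_lit 5) (nat_lit 286) (nat_lit 285) (nat_lit 209)))) (XT.nd (nat_lit 78) (nat_lit 0) (nat_lit 76) (XT.lf (nat_lit 0) (nat_lit 690466215) (nat_lit 988) (nat_lit 1673671643) (nat_lit 1064) (nat_lit 7042349586) (nat_lit 188) (nat_lit 5) (nat_lit 201) (nat_lit 3) (nat_lit 202) (nat_lit 5) (nat_lit 287) (nat_lit 285) (nat_lit 208)) (XT.nd (nat_lit 78) (nat_lit 0) (nat_lit 0) (XT.lf (nat_lit 0) (nat_lit 1529052670) (nat_lit 988) (nat_lit 7013108035) (nat_lit 1064) (nat_lit 983168068) (nat_lit 189) (nat_lit 5) (nat_lit 202) (nat_lit 5) (nat_lit 203) (nat_lit 5) (nat_lit 288) (nat_lit 285) (nat_lit 207)) (XT.lf (nat_lit 0) (nat_lit 2403975942) (nat_lit 988)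 (nat_lit 2829981242) (nat_lit 1064) (nat_lit 4413504130) (nat_lit 189) (nat_lit 5) (nat_lit 202) (nat_lit 5) (nat_lit 203) (nat_lit 5) (nat_lit 289) (nat_lit 285) (nat_lit 206))))))) (XT.nd (nat_lit 936) (nat_lit 3648) (nat_lit 0) (XT.nd (nat_lit 468) (nat_lit 836) (nat_lit 0) (XT.nd (nat_lit 234) (nat_lit 0) (nat_lit 76) (XT.nd (nat_lit 78) (nat_lit 0) (nat_lit 76) (XT.lf (nat_lit 76) (nat_lit 1491058772) (nat_lit 0) (nat_lit 1799978177) (nat_lit 1064) (nat_lit 6482703743) (nat_lit 190) (nat_lit 5) (nat_lit 189) (nat_lit 5) (nat_lit 203) (nat_lit 5) (nat_lit 290) (nat_lit 285) (nat_lit 205)) (XT.nd (nat_lit 78) (nat_lit 0) (nat_lit 0) (XT.lf (nat_lit 0) (nat_lit 4222602303) (nat_lit 988) (nat_lit 3937701828) (nat_lit 1064) (nat_lit 1743025371) (nat_lit 190) (nat_lit 5) (nat_lit 203) (nat_lit 5) (nat_lit 204) (nat_lit 5) (nat_lit 291) (nat_lit 285) (nat_lit 204)) (XT.lf (nat_lit 76) (nat_lit 512810672)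 (nat_lit 0) (nat_lit 4665195748) (nat_lit 1064) (nat_lit 4858978945) (nat_lit 191) (nat_lit 5) (nat_lit 190) (nat_lit 5) (nat_lit 204) (nat_lit 5) (nat_lit 292) (nat_lit 285) (nat_lit 203)))) (XT.nd (nat_lit 78) (nat_lit 0) (nat_lit 76) (XT.lf (nat_lit 76) (nat_lit 5160722052) (nat_lit 0) (nat_lit 1014874937) (nat_lit 1064) (nat_lit 3998702693) (nat_lit 191) (nat_lit 5) (nat_lit 190) (nat_lit 5) (nat_lit 204) (nat_lit 5) (nat_lit 293) (nat_lit 285) (nat_lit 202)) (XT.nd (nat_lit 78) (nat_lit 0) (nat_lit 0) (XT.lf (nat_lit 0) (nat_lit 7204114720) (nat_lit 988) (nat_lit 411298927) (nat_lit 1064) (nat_lit 2700342718) (nat_lit 191) (nat_lit 5) (nat_lit 204) (nat_lit 5) (nat_lit 205) (nat_lit 5) (nat_lit 294) (nat_lit 285) (nat_lit 201)) (XT.lf (nat_lit 76) (nat_lit 4387875475) (nat_lit 0) (nat_lit 3903192389) (nat_lit 1064) (nat_lit 2169612866) (nat_lit 192) (nat_lit 5) (nat_lit 191) (nat_lit 5) (nat_lit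 205) (nat_lit 5) (nat_lit 295) (nat_lit 285) (nat_lit 200))))) (XT.nd (nat_lit 234) (nat_lit 0) (nat_lit 76) (XT.nd (nat_lit 78) (nat_lit 988) (nat_lit 0) (XT.lf (nat_lit 76) (nat_lit 9322872877) (nat_lit 0) (nat_lit 67821185) (nat_lit 1064) (nat_lit 1219906713) (nat_lit 192) (nat_lit 5) (nat_lit 191) (nat_lit 5) (nat_lit 205) (nat_lit 5) (nat_lit 296) (nat_lit 285) (nat_lit 199)) (XT.nd (nat_lit 78) (nat_lit 1064) (nat_lit 0) (XT.lf (nat_lit 76) (nat_lit 3658040761) (nat_lit 0) (nat_lit 6914436451) (nat_lit 1064) (nat_lit 191114593) (nat_lit 193) (nat_lit 5) (nat_lit 192) (nat_lit 5) (nat_lit 206) (nat_lit 5) (nat_lit 297) (nat_lit 285) (nat_lit 198)) (XT.lf (nat_lit 0) (nat_lit 842325751) (nat_lit 1064) (nat_lit 2168611469) (nat_lit 1140) (nat_lit 7910308541) (nat_lit 178) (nat_lit 5) (nat_lit 192) (nat_lit 5) (nat_lit 193) (nat_lit 5) (nat_lit 298) (nat_lit 285) (nat_lit 197)))) (XT.nd (nat_lit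 78) (nat_lit 0) (nat_lit 0) (XT.lf (nat_lit 0) (nat_lit 1918998592) (nat_lit 1064) (nat_lit 8138037392) (nat_lit 1140) (nat_lit 1026098789) (nat_lit 179) (nat_lit 5) (nat_lit 193) (nat_lit 5) (nat_lit 194) (nat_lit 5) (nat_lit 299) (nat_lit 285) (nat_lit 196)) (XT.nd (nat_lit 78) (nat_lit 0) (nat_lit 0) (XT.lf (nat_lit 0) (nat_lit 3058043425) (nat_lit 1064) (nat_lit 3039923425) (nat_lit 1140) (nat_lit 5151054480) (nat_lit 179) (nat_lit 5) (nat_lit 193) (nat_lit 5) (nat_lit 194) (nat_lit 5) (nat_lit 300) (nat_lit 285) (nat_lit 195)) (XT.lf (nat_lit 76) (nat_lit 2237966140) (nat_lit 0) (nat_lit 1993587722) (nat_lit 1140) (nat_lit 7188363571) (nat_lit 180) (nat_lit 5) (nat_lit 179) (nat_lit 5) (nat_lit 194) (nat_lit 5) (nat_lit 301) (nat_lit 285) (nat_lit 194)))))) (XT.nd (nat_lit 468) (nat_lit 1064) (nat_lit 0) (XT.nd (nat_lit 234) (nat_lit 1672) (nat_lit 0) (XT.nd (nat_lit 78) (nat_lit 1064) (nat_lit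 0) (XT.lf (nat_lit 0) (nat_lit 5472023228) (nat_lit 1064) (nat_lit 3897665607) (nat_lit 76) (nat_lit 2225339533) (nat_lit 180) (nat_lit 5) (nat_lit 194) (nat_lit 5) (nat_lit 181) (nat_lit 5) (nat_lit 302) (nat_lit 285) (nat_lit 193)) (XT.nd (nat_lit 78) (nat_lit 0) (nat_lit 0) (XT.lf (nat_lit 0) (nat_lit 1538562980) (nat_lit 1064) (nat_lit 5225553915) (nat_lit 1140) (nat_lit 5010882806) (nat_lit 166) (nat_lit 5) (nat_lit 180) (nat_lit 5) (nat_lit 181) (nat_lit 5) (nat_lit 303) (nat_lit 285) (nat_lit 192)) (XT.lf (nat_lit 0) (nat_lit 7201072061) (nat_lit 1064) (nat_lit 913567595) (nat_lit 1140) (nat_lit 3845178761) (nat_lit 166) (nat_lit 5) (nat_lit 180) (nat_lit 5) (nat_lit 181) (nat_lit 5) (nat_lit 304) (nat_lit 285) (nat_lit 191)))) (XT.nd (nat_lit 78) (nat_lit 608) (nat_lit 0) (XT.lf (nat_lit 0) (nat_lit 849075360) (nat_lit 1064) (nat_lit 8679584690) (nat_lit 1140) (nat_lit 2620869303) (nat_lit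 152) (nat_lit 5) (nat_lit 166) (nat_lit 5) (nat_lit 167) (nat_lit 5) (nat_lit 305) (nat_lit 285) (nat_lit 190)) (XT.nd (nat_lit 78) (nat_lit 608) (nat_lit 0) (XT.lf (nat_lit 0) (nat_lit 6696764672) (nat_lit 1064) (nat_lit 4326651491) (nat_lit 1140) (nat_lit 1320402036) (nat_lit 152) (nat_lit 5) (nat_lit 166) (nat_lit 5) (nat_lit 167) (nat_lit 5) (nat_lit 306) (nat_lit 285) (nat_lit 189)) (XT.lf (nat_lit 0) (nat_lit 3444524) (nat_lit 608) (nat_lit 12383682022) (nat_lit 76) (nat_lit 157295502) (nat_lit 144) (nat_lit 5) (nat_lit 152) (nat_lit 5) (nat_lit 145) (nat_lit 5) (nat_lit 307) (nat_lit 285) (nat_lit 188))))) (XT.nd (nat_lit 234) (nat_lit 532) (nat_lit 0) (XT.nd (nat_lit 78) (nat_lit 532) (nat_lit 0) (XT.lf (nat_lit 0) (nat_lit 1422921386) (nat_lit 608) (nat_lit 6564312304) (nat_lit 76) (nat_lit 4760977492) (nat_lit 144) (nat_lit 5) (nat_lit 152) (nat_lit 5) (nat_lit 145) (nat_lit 5) (nat_lit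 308) (nat_lit 285) (nat_lit 187)) (XT.nd (nat_lit 78) (nat_lit 532) (nat_lit 0) (XT.lf (nat_lit 0) (nat_lit 2867532827) (nat_lit 608) (nat_lit 586894940) (nat_lit 76) (nat_lit 9504241732) (nat_lit 144) (nat_lit 5) (nat_lit 152) (nat_lit 5) (nat_lit 145) (nat_lit 5) (nat_lit 309) (nat_lit 285) (nat_lit 186)) (XT.lf (nat_lit 0) (nat_lit 4405210923) (nat_lit 608) (nat_lit 7522243844) (nat_lit 76) (nat_lit 1246526034) (nat_lit 137) (nat_lit 5) (nat_lit 145) (nat_lit 5) (nat_lit 138) (nat_lit 5) (nat_lit 310) (nat_lit 285) (nat_lit 185)))) (XT.nd (nat_lit 78) (nat_lit 532) (nat_lit 0) (XT.lf (nat_lit 0) (nat_lit 6012612744) (nat_lit 608) (nat_lit 1356705507) (nat_lit 76) (nat_lit 6025755569) (nat_lit 137) (nat_lit 5) (nat_lit 145) (nat_lit 5) (nat_lit 138) (nat_lit 5) (nat_lit 311) (nat_lit 285) (nat_lit 184)) (XT.nd (nat_lit 78) (nat_lit 0) (nat_lit 0) (XT.lf (nat_lit 0) (nat_lit 5076916932) (nat_lit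 532) (nat_lit 2624011398) (nat_lit 608) (nat_lit 5920919848) (nat_lit 130) (nat_lit 5) (nat_lit 137) (nat_lit 5) (nat_lit 138) (nat_lit 5) (nat_lit 312) (nat_lit 285) (nat_lit 183)) (XT.lf (nat_lit 0) (nat_lit 9459695416) (nat_lit 608) (nat_lit 2161847698) (nat_lit 76) (nat_lit 2233317040) (nat_lit 130) (nat_lit 5) (nat_lit 138) (nat_lit 5) (nat_lit 131) (nat_lit 5) (nat_lit 313) (nat_lit 285) (nat_lit 182))))))))
noncomputable def xc175 : XT := (XT.nd (nat_lit 1872) (nat_lit 2660) (nat_lit 0) (XT.nd (nat_lit 936) (nat_lit 1748) (nat_lit 0) (XT.nd (nat_lit 468) (nat_lit 1292) (nat_lit 0) (XT.nd (nat_lit 234) (nat_lit 456) (nat_lit 0) (XT.nd (nat_lit 78) (nat_lit 532) (nat_lit 0) (XT.lf (nat_lit 0) (nat_lit 4457915873) (nat_lit 532) (nat_lit 6866808850) (nat_lit 608) (nat_lit 2768560408) (nat_lit 123) (nat_lit 5) (nat_lit 130) (nat_lit 5) (nat_lit 131) (nat_lit 5) (nat_lit 314) (nat_lit 285) (nat_lit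 181)) (XT.nd (nat_lit 78) (nat_lit 532) (nat_lit 0) (XT.lf (nat_lit 0) (nat_lit 11304921061) (nat_lit 532) (nat_lit 1947576957) (nat_lit 608) (nat_lit 1086187859) (nat_lit 123) (nat_lit 5) (nat_lit 130) (nat_lit 5) (nat_lit 131) (nat_lit 5) (nat_lit 315) (nat_lit 285) (nat_lit 180)) (XT.lf (nat_lit 0) (nat_lit 686376783) (nat_lit 532) (nat_lit 10802373416) (nat_lit 76) (nat_lit 3100967056) (nat_lit 116) (nat_lit 5) (nat_lit 123) (nat_lit 5) (nat_lit 117) (nat_lit 5) (nat_lit 316) (nat_lit 285) (nat_lit 179)))) (XT.nd (nat_lit 78) (nat_lit 456) (nat_lit 0) (XT.lf (nat_lit 0) (nat_lit 2526012786) (nat_lit 532) (nat_lit 4018254431) (nat_lit 76) (nat_lit 8302642493) (nat_lit 116) (nat_lit 5) (nat_lit 123) (nat_lit 5) (nat_lit 117) (nat_lit 5) (nat_lit 317) (nat_lit 285) (nat_lit 178)) (XT.nd (nat_lit 78) (nat_lit 0) (nat_lit 0) (XT.lf (nat_lit 0) (nat_lit 3012811672) (nat_lit 456) (nat_lit 1422913778)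 (nat_lit 532) (nat_lit 10675669687) (nat_lit 110) (nat_lit 5) (nat_lit 116) (nat_lit 5) (nat_lit 117) (nat_lit 5) (nat_lit 318) (nat_lit 285) (nat_lit 177)) (XT.lf (nat_lit 0) (nat_lit 6466912985) (nat_lit 532) (nat_lit 5098488594) (nat_lit 76) (nat_lit 3816511171) (nat_lit 110) (nat_lit 5) (nat_lit 117) (nat_lit 5) (nat_lit 111) (nat_lit 5) (nat_lit 319) (nat_lit 285) (nat_lit 176))))) (XT.nd (nat_lit 234) (nat_lit 456) (nat_lit 0) (XT.nd (nat_lit 78) (nat_lit 456) (nat_lit 0) (XT.lf (nat_lit 0) (nat_lit 2123778484) (nat_lit 380) (nat_lit 6456340297) (nat_lit 456) (nat_lit 7079817089) (nat_lit 105) (nat_lit 5) (nat_lit 110) (nat_lit 5) (nat_lit 111) (nat_lit 5) (nat_lit 320) (nat_lit 285) (nat_lit 175)) (XT.nd (nat_lit 78) (nat_lit 456) (nat_lit 0) (XT.lf (nat_lit 0) (nat_lit 9652191514) (nat_lit 380) (nat_lit 1142839654) (nat_lit 456) (nat_lit 5150141005) (nat_lit 105) (nat_lit 5) (nat_lit 110)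 (nat_lit 5) (nat_lit 111) (nat_lit 5) (nat_lit 321) (nat_lit 285) (nat_lit 174)) (XT.lf (nat_lit 0) (nat_lit 1132991221) (nat_lit 456) (nat_lit 11983105976) (nat_lit 532) (nat_lit 3121698347) (nat_lit 99) (nat_lit 5) (nat_lit 105) (nat_lit 5) (nat_lit 106) (nat_lit 5) (nat_lit 322) (nat_lit 285) (nat_lit 173)))) (XT.nd (nat_lit 78) (nat_lit 456) (nat_lit 0) (XT.lf (nat_lit 0) (nat_lit 8884363025) (nat_lit 456) (nat_lit 6684605688) (nat_lit 532) (nat_lit 968384248) (nat_lit 99) (nat_lit 5) (nat_lit 105) (nat_lit 5) (nat_lit 106) (nat_lit 5) (nat_lit 323) (nat_lit 285) (nat_lit 172)) (XT.nd (nat_lit 78) (nat_lit 380) (nat_lit 0) (XT.lf (nat_lit 0) (nat_lit 1212794759) (nat_lit 532) (nat_lit 4304082) (nat_lit 76) (nat_lit 15628827845) (nat_lit 98) (nat_lit 5) (nat_lit 105) (nat_lit 5) (nat_lit 99) (nat_lit 5) (nat_lit 324) (nat_lit 285) (nat_lit 171)) (XT.lf (nat_lit 0) (nat_lit 3548184015) (nat_lit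 456) (nat_lit 9198568641) (nat_lit 76) (nat_lit 4413488982) (nat_lit 93) (nat_lit 5) (nat_lit 99) (nat_lit 5) (nat_lit 94) (nat_lit 5) (nat_lit 325) (nat_lit 285) (nat_lit 170)))))) (XT.nd (nat_lit 468) (nat_lit 608) (nat_lit 0) (XT.nd (nat_lit 234) (nat_lit 760) (nat_lit 0) (XT.nd (nat_lit 78) (nat_lit 380) (nat_lit 0) (XT.lf (nat_lit 0) (nat_lit 5953928718) (nat_lit 456) (nat_lit 1343772014) (nat_lit 76) (nat_lit 10186294752) (nat_lit 93) (nat_lit 5) (nat_lit 99) (nat_lit 5) (nat_lit 94) (nat_lit 5) (nat_lit 326) (nat_lit 285) (nat_lit 169)) (XT.nd (nat_lit 78) (nat_lit 0) (nat_lit 0) (XT.lf (nat_lit 0) (nat_lit 6866628164) (nat_lit 380) (nat_lit 1619766927) (nat_lit 456) (nat_lit 9329448100) (nat_lit 88) (nat_lit 5) (nat_lit 93) (nat_lit 5) (nat_lit 94) (nat_lit 5) (nat_lit 327) (nat_lit 285) (nat_lit 168)) (XT.lf (nat_lit 0) (nat_lit 11137904108) (nat_lit 456) (nat_lit 2861359184) (nat_lit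 76) (nat_lit 4157108191) (nat_lit 88) (nat_lit 5) (nat_lit 94) (nat_lit 5) (nat_lit 89) (nat_lit 5) (nat_lit 328) (nat_lit 285) (nat_lit 167)))) (XT.nd (nat_lit 78) (nat_lit 456) (nat_lit 0) (XT.lf (nat_lit 0) (nat_lit 5547536816) (nat_lit 304) (nat_lit 8379831658) (nat_lit 380) (nat_lit 4578011556) (nat_lit 84) (nat_lit 5) (nat_lit 88) (nat_lit 5) (nat_lit 89) (nat_lit 5) (nat_lit 329) (nat_lit 285) (nat_lit 166)) (XT.nd (nat_lit 78) (nat_lit 456) (nat_lit 0) (XT.lf (nat_lit 0) (nat_lit 14253679507) (nat_lit 304) (nat_lit 2564965430) (nat_lit 380) (nat_lit 2045686276) (nat_lit 84) (nat_lit 5) (nat_lit 88) (nat_lit 5) (nat_lit 89) (nat_lit 5) (nat_lit 330) (nat_lit 285) (nat_lit 165)) (XT.lf (nat_lit 0) (nat_lit 613288781) (nat_lit 456) (nat_lit 15219364844) (nat_lit 76) (nat_lit 3399400596) (nat_lit 78) (nat_lit 5) (nat_lit 84) (nat_lit 5) (nat_lit 79) (nat_lit 5) (nat_lit 331) (nat_lit 285) (nat_lit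 164))))) (XT.nd (nat_lit 234) (nat_lit 304) (nat_lit 0) (XT.nd (nat_lit 78) (nat_lit 304) (nat_lit 0) (XT.lf (nat_lit 0) (nat_lit 3372911473) (nat_lit 456) (nat_lit 6679946841) (nat_lit 76) (nat_lit 9555497983) (nat_lit 78) (nat_lit 5) (nat_lit 84) (nat_lit 5) (nat_lit 79) (nat_lit 5) (nat_lit 332) (nat_lit 285) (nat_lit 163)) (XT.nd (nat_lit 78) (nat_lit 0) (nat_lit 0) (XT.lf (nat_lit 0) (nat_lit 2144225143) (nat_lit 304) (nat_lit 4081592254) (nat_lit 380) (nat_lit 13769829615) (nat_lit 74) (nat_lit 5) (nat_lit 78) (nat_lit 5) (nat_lit 79) (nat_lit 5) (nat_lit 333) (nat_lit 285) (nat_lit 162)) (XT.lf (nat_lit 0) (nat_lit 9242340046) (nat_lit 380) (nat_lit 9056454512) (nat_lit 76) (nat_lit 2093434997) (nat_lit 74) (nat_lit 5) (nat_lit 79) (nat_lit 5) (nat_lit 75) (nat_lit 5) (nat_lit 334) (nat_lit 285) (nat_lit 161)))) (XT.nd (nat_lit 78) (nat_lit 304) (nat_lit 0) (XT.lf (nat_lit 0) (nat_lit 12380081473)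 (nat_lit 380) (nat_lit 51080806) (nat_lit 76) (nat_lit 8368639190) (nat_lit 74) (nat_lit 5) (nat_lit 79) (nat_lit 5) (nat_lit 75) (nat_lit 5) (nat_lit 335) (nat_lit 285) (nat_lit 160)) (XT.nd (nat_lit 78) (nat_lit 0) (nat_lit 0) (XT.lf (nat_lit 0) (nat_lit 9395135720) (nat_lit 304) (nat_lit 6297724703) (nat_lit 380) (nat_lit 5524326151) (nat_lit 70) (nat_lit 5) (nat_lit 74) (nat_lit 5) (nat_lit 75) (nat_lit 5) (nat_lit 336) (nat_lit 285) (nat_lit 159)) (XT.lf (nat_lit 0) (nat_lit 19096448757) (nat_lit 380) (nat_lit 2534272752) (nat_lit 76) (nat_lit 16641747) (nat_lit 70) (nat_lit 5) (nat_lit 75) (nat_lit 5) (nat_lit 71) (nat_lit 5) (nat_lit 337) (nat_lit 285) (nat_lit 158))))))) (XT.nd (nat_lit 936) (nat_lit 1216) (nat_lit 0) (XT.nd (nat_lit 468) (nat_lit 532) (nat_lit 0) (XT.nd (nat_lit 234) (nat_lit 228) (nat_lit 0) (XT.nd (nat_lit 78) (nat_lit 304) (nat_lit 0) (XT.lf (nat_lit 0) (nat_lit 624454888)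 (nat_lit 380) (nat_lit 14997096795) (nat_lit 76) (nat_lit 6465075852) (nat_lit 65) (nat_lit 5) (nat_lit 70) (nat_lit 5) (nat_lit 66) (nat_lit 5) (nat_lit 338) (nat_lit 285) (nat_lit 157)) (XT.nd (nat_lit 78) (nat_lit 304) (nat_lit 0) (XT.lf (nat_lit 0) (nat_lit 3860689787) (nat_lit 380) (nat_lit 5522295840) (nat_lit 76) (nat_lit 13154831876) (nat_lit 65) (nat_lit 5) (nat_lit 70) (nat_lit 5) (nat_lit 66) (nat_lit 5) (nat_lit 339) (nat_lit 285) (nat_lit 156)) (XT.lf (nat_lit 0) (nat_lit 4308708810) (nat_lit 304) (nat_lit 2918012831) (nat_lit 380) (nat_lit 15774851613) (nat_lit 61) (nat_lit 5) (nat_lit 65) (nat_lit 5) (nat_lit 66) (nat_lit 5) (nat_lit 340) (nat_lit 285) (nat_lit 155)))) (XT.nd (nat_lit 78) (nat_lit 228) (nat_lit 0) (XT.lf (nat_lit 0) (nat_lit 10777408110) (nat_lit 380) (nat_lit 8978470639) (nat_lit 76) (nat_lit 3720863763) (nat_lit 61) (nat_lit 5) (nat_lit 66) (nat_lit 5) (nat_lit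 62) (nat_lit 5) (nat_lit 341) (nat_lit 285) (nat_lit 154)) (XT.nd (nat_lit 78) (nat_lit 0) (nat_lit 0) (XT.lf (nat_lit 0) (nat_lit 1006219985) (nat_lit 228) (nat_lit 13458606642) (nat_lit 304) (nat_lit 9500444604) (nat_lit 58) (nat_lit 5) (nat_lit 61) (nat_lit 5) (nat_lit 62) (nat_lit 5) (nat_lit 342) (nat_lit 285) (nat_lit 153)) (XT.lf (nat_lit 0) (nat_lit 11462738881) (nat_lit 228) (nat_lit 6882571804) (nat_lit 304) (nat_lit 6120682251) (nat_lit 58) (nat_lit 5) (nat_lit 61) (nat_lit 5) (nat_lit 62) (nat_lit 5) (nat_lit 343) (nat_lit 285) (nat_lit 152))))) (XT.nd (nat_lit 234) (nat_lit 228) (nat_lit 0) (XT.nd (nat_lit 78) (nat_lit 304) (nat_lit 0) (XT.lf (nat_lit 0) (nat_lit 22221533640) (nat_lit 228) (nat_lit 112693134) (nat_lit 304) (nat_lit 2647759100) (nat_lit 58) (nat_lit 5) (nat_lit 61) (nat_lit 5) (nat_lit 62) (nat_lit 5) (nat_lit 344) (nat_lit 285) (nat_lit 151)) (XT.nd (nat_lit 78) (nat_lit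 0) (nat_lit 0) (XT.lf (nat_lit 0) (nat_lit 1046306460) (nat_lit 304) (nat_lit 17653830289) (nat_lit 76) (nat_lit 6809010686) (nat_lit 54) (nat_lit 5) (nat_lit 58) (nat_lit 5) (nat_lit 55) (nat_lit 5) (nat_lit 345) (nat_lit 285) (nat_lit 150)) (XT.lf (nat_lit 0) (nat_lit 4819495419) (nat_lit 304) (nat_lit 7244098639) (nat_lit 76) (nat_lit 13987107008) (nat_lit 54) (nat_lit 5) (nat_lit 58) (nat_lit 5) (nat_lit 55) (nat_lit 5) (nat_lit 346) (nat_lit 285) (nat_lit 149)))) (XT.nd (nat_lit 78) (nat_lit 0) (nat_lit 0) (XT.lf (nat_lit 0) (nat_lit 3535903735) (nat_lit 228) (nat_lit 5196443104) (nat_lit 304) (nat_lit 17875369448) (nat_lit 51) (nat_lit 5) (nat_lit 54) (nat_lit 5) (nat_lit 55) (nat_lit 5) (nat_lit 347) (nat_lit 285) (nat_lit 148)) (XT.nd (nat_lit 78) (nat_lit 0) (nat_lit 0) (XT.lf (nat_lit 0) (nat_lit 12847057530) (nat_lit 304) (nat_lit 12421317501) (nat_lit 76) (nat_lit 1910541442) (nat_lit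 51) (nat_lit 5) (nat_lit 55) (nat_lit 5) (nat_lit 52) (nat_lit 5) (nat_lit 348) (nat_lit 285) (nat_lit 147)) (XT.lf (nat_lit 0) (nat_lit 17129434291) (nat_lit 304) (nat_lit 1513542676) (nat_lit 76) (nat_lit 9122957420) (nat_lit 51) (nat_lit 5) (nat_lit 55) (nat_lit 5) (nat_lit 52) (nat_lit 5) (nat_lit 349) (nat_lit 285) (nat_lit 146)))))) (XT.nd (nat_lit 468) (nat_lit 456) (nat_lit 0) (XT.nd (nat_lit 234) (nat_lit 228) (nat_lit 0) (XT.nd (nat_lit 78) (nat_lit 304) (nat_lit 0) (XT.lf (nat_lit 0) (nat_lit 9904262204) (nat_lit 228) (nat_lit 11724211237) (nat_lit 304) (nat_lit 6739451887) (nat_lit 48) (nat_lit 5) (nat_lit 51) (nat_lit 5) (nat_lit 52) (nat_lit 5) (nat_lit 350) (nat_lit 285) (nat_lit 145)) (XT.nd (nat_lit 78) (nat_lit 304) (nat_lit 0) (XT.lf (nat_lit 0) (nat_lit 21685259014) (nat_lit 228) (nat_lit 4585598471) (nat_lit 304) (nat_lit 2716875280) (nat_lit 48) (nat_lit 5) (nat_lit 51) (nat_lit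 5) (nat_lit 52) (nat_lit 5) (nat_lit 351) (nat_lit 285) (nat_lit 144)) (XT.lf (nat_lit 0) (nat_lit 1459748045) (nat_lit 304) (nat_lit 25399200022) (nat_lit 76) (nat_lit 2764946447) (nat_lit 44) (nat_lit 5) (nat_lit 48) (nat_lit 5) (nat_lit 45) (nat_lit 5) (nat_lit 352) (nat_lit 285) (nat_lit 143)))) (XT.nd (nat_lit 78) (nat_lit 228) (nat_lit 0) (XT.lf (nat_lit 0) (nat_lit 5820220905) (nat_lit 304) (nat_lit 14112873022) (nat_lit 76) (nat_lit 10341852781) (nat_lit 44) (nat_lit 5) (nat_lit 48) (nat_lit 5) (nat_lit 45) (nat_lit 5) (nat_lit 353) (nat_lit 285) (nat_lit 142)) (XT.nd (nat_lit 78) (nat_lit 228) (nat_lit 0) (XT.lf (nat_lit 0) (nat_lit 10304988145) (nat_lit 304) (nat_lit 2497940326) (nat_lit 76) (nat_lit 18142804680) (nat_lit 44) (nat_lit 5) (nat_lit 48) (nat_lit 5) (nat_lit 45) (nat_lit 5) (nat_lit 354) (nat_lit 285) (nat_lit 141)) (XT.lf (nat_lit 0) (nat_lit 9643934942) (nat_lit 228) (nat_lit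 5366736954) (nat_lit 304) (nat_lit 16623386971) (nat_lit 41) (nat_lit 5) (nat_lit 44) (nat_lit 5) (nat_lit 45) (nat_lit 5) (nat_lit 355) (nat_lit 285) (nat_lit 140))))) (XT.nd (nat_lit 234) (nat_lit 304) (nat_lit 0) (XT.nd (nat_lit 78) (nat_lit 152) (nat_lit 0) (XT.lf (nat_lit 0) (nat_lit 19898767396) (nat_lit 304) (nat_lit 10173052672) (nat_lit 76) (nat_lit 2269983734) (nat_lit 41) (nat_lit 5) (nat_lit 45) (nat_lit 5) (nat_lit 42) (nat_lit 5) (nat_lit 356) (nat_lit 285) (nat_lit 139)) (XT.nd (nat_lit 78) (nat_lit 0) (nat_lit 0) (XT.lf (nat_lit 0) (nat_lit 1974447766) (nat_lit 152) (nat_lit 23025086118) (nat_lit 228) (nat_lit 8069272845) (nat_lit 39) (nat_lit 5) (nat_lit 41) (nat_lit 5) (nat_lit 42) (nat_lit 5) (nat_lit 357) (nat_lit 285) (nat_lit 138)) (XT.lf (nat_lit 0) (nat_lit 14685528191) (nat_lit 152) (nat_lit 15664522690) (nat_lit 228) (nat_lit 3464673338) (nat_lit 39) (nat_lit 5) (nat_lit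 41) (nat_lit 5) (nat_lit 42) (nat_lit 5) (nat_lit 358) (nat_lit 285) (nat_lit 137)))) (XT.nd (nat_lit 78) (nat_lit 228) (nat_lit 0) (XT.lf (nat_lit 0) (nat_lit 1247235240) (nat_lit 228) (nat_lit 6826596240) (nat_lit 76) (nat_lit 26509001805) (nat_lit 38) (nat_lit 5) (nat_lit 41) (nat_lit 5) (nat_lit 39) (nat_lit 5) (nat_lit 359) (nat_lit 285) (nat_lit 136)) (XT.nd (nat_lit 78) (nat_lit 0) (nat_lit 0) (XT.lf (nat_lit 0) (nat_lit 5917281734) (nat_lit 228) (nat_lit 164745622) (nat_lit 304) (nat_lit 29289400037) (nat_lit 35) (nat_lit 5) (nat_lit 38) (nat_lit 5) (nat_lit 39) (nat_lit 5) (nat_lit 360) (nat_lit 285) (nat_lit 135)) (XT.lf (nat_lit 0) (nat_lit 11202537479) (nat_lit 304) (nat_lit 17084622632) (nat_lit 76) (nat_lit 7892304583) (nat_lit 35) (nat_lit 5) (nat_lit 39) (nat_lit 5) (nat_lit 36) (nat_lit 5) (nat_lit 361) (nat_lit 285) (nat_lit 134))))))))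
noncomputable def xc176 : XT := (XT.nd (nat_lit 1794) (nat_lit 228) (nat_lit 0) (XT.nd (nat_lit 858) (nat_lit 532) (nat_lit 0) (XT.nd (nat_lit 390) (nat_lit 380) (nat_lit 0) (XT.nd (nat_lit 156) (nat_lit 152) (nat_lit 0) (XT.nd (nat_lit 78) (nat_lit 152) (nat_lit 0) (XT.lf (nat_lit 0) (nat_lit 16472791461) (nat_lit 304) (nat_lit 4354401631) (nat_lit 76) (nat_lit 16184671601) (nat_lit 35) (nat_lit 5) (nat_lit 39) (nat_lit 5) (nat_lit 36) (nat_lit 5) (nat_lit 362) (nat_lit 285) (nat_lit 133)) (XT.lf (nat_lit 0) (nat_lit 8923351195) (nat_lit 152) (nat_lit 13058236258) (nat_lit 228) (nat_lit 15885241481) (nat_lit 33) (nat_lit 5) (nat_lit 35) (nat_lit 5) (nat_lit 36) (nat_lit 5) (nat_lit 363) (nat_lit 285) (nat_lit 132))) (XT.nd (nat_lit 78) (nat_lit 152) (nat_lit 0) (XT.lf (nat_lit 0) (nat_lit 22680279393) (nat_lit 152) (nat_lit 5014071214) (nat_lit 228) (nat_lit 11051935523) (nat_lit 33) (nat_lit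 5) (nat_lit 35) (nat_lit 5) (nat_lit 36) (nat_lit 5) (nat_lit 364) (nat_lit 285) (nat_lit 131)) (XT.nd (nat_lit 78) (nat_lit 152) (nat_lit 0) (XT.lf (nat_lit 0) (nat_lit 33604799918) (nat_lit 228) (nat_lit 2841960467) (nat_lit 76) (nat_lit 3204582529) (nat_lit 33) (nat_lit 5) (nat_lit 36) (nat_lit 5) (nat_lit 34) (nat_lit 5) (nat_lit 365) (nat_lit 285) (nat_lit 130)) (XT.lf (nat_lit 0) (nat_lit 10934473707) (nat_lit 152) (nat_lit 28907848321) (nat_lit 228) (nat_lit 736741424) (nat_lit 31) (nat_lit 5) (nat_lit 33) (nat_lit 5) (nat_lit 34) (nat_lit 5) (nat_lit 366) (nat_lit 285) (nat_lit 129))))) (XT.nd (nat_lit 234) (nat_lit 152) (nat_lit 0) (XT.nd (nat_lit 78) (nat_lit 152) (nat_lit 0) (XT.lf (nat_lit 0) (nat_lit 4664012858) (nat_lit 228) (nat_lit 16405155564) (nat_lit 76) (nat_lit 20463366908) (nat_lit 30) (nat_lit 5) (nat_lit 33) (nat_lit 5) (nat_lit 31) (nat_lit 5) (nat_lit 367) (nat_lit 285)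 (nat_lit 128)) (XT.nd (nat_lit 78) (nat_lit 152) (nat_lit 0) (XT.lf (nat_lit 0) (nat_lit 10207148570) (nat_lit 228) (nat_lit 2783682137) (nat_lit 76) (nat_lit 29523711244) (nat_lit 30) (nat_lit 5) (nat_lit 33) (nat_lit 5) (nat_lit 31) (nat_lit 5) (nat_lit 368) (nat_lit 285) (nat_lit 127)) (XT.lf (nat_lit 0) (nat_lit 11462489252) (nat_lit 152) (nat_lit 4559580913) (nat_lit 228) (nat_lit 27500778143) (nat_lit 28) (nat_lit 5) (nat_lit 30) (nat_lit 5) (nat_lit 31) (nat_lit 5) (nat_lit 369) (nat_lit 285) (nat_lit 126)))) (XT.nd (nat_lit 78) (nat_lit 152) (nat_lit 0) (XT.lf (nat_lit 0) (nat_lit 22074819145) (nat_lit 228) (nat_lit 18415039532) (nat_lit 76) (nat_lit 4069647951) (nat_lit 28) (nat_lit 5) (nat_lit 31) (nat_lit 5) (nat_lit 29) (nat_lit 5) (nat_lit 370) (nat_lit 285) (nat_lit 125)) (XT.nd (nat_lit 78) (nat_lit 152) (nat_lit 0) (XT.lf (nat_lit 0) (nat_lit 28349774037) (nat_lit 228) (nat_lit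 4412942606) (nat_lit 76) (nat_lit 12863333394) (nat_lit 28) (nat_lit 5) (nat_lit 31) (nat_lit 5) (nat_lit 29) (nat_lit 5) (nat_lit 371) (nat_lit 285) (nat_lit 124)) (XT.lf (nat_lit 0) (nat_lit 10201055376) (nat_lit 152) (nat_lit 24705591740) (nat_lit 228) (nat_lit 11815136473) (nat_lit 26) (nat_lit 5) (nat_lit 28) (nat_lit 5) (nat_lit 29) (nat_lit 5) (nat_lit 372) (nat_lit 285) (nat_lit 123)))))) (XT.nd (nat_lit 468) (nat_lit 152) (nat_lit 0) (XT.nd (nat_lit 234) (nat_lit 152) (nat_lit 0) (XT.nd (nat_lit 78) (nat_lit 228) (nat_lit 0) (XT.lf (nat_lit 0) (nat_lit 25336783909) (nat_lit 152) (nat_lit 16363674411) (nat_lit 228) (nat_lit 6148727682) (nat_lit 26) (nat_lit 5) (nat_lit 28) (nat_lit 5) (nat_lit 29) (nat_lit 5) (nat_lit 373) (nat_lit 285) (nat_lit 122)) (XT.nd (nat_lit 78) (nat_lit 228) (nat_lit 0) (XT.lf (nat_lit 0) (nat_lit 40919642173) (nat_lit 152) (nat_lit 7774237670) (nat_lit 228) (nat_lit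 316660463) (nat_lit 26) (nat_lit 5) (nat_lit 28) (nat_lit 5) (nat_lit 29) (nat_lit 5) (nat_lit 374) (nat_lit 285) (nat_lit 121)) (XT.lf (nat_lit 0) (nat_lit 5652386224) (nat_lit 228) (nat_lit 43379626161) (nat_lit 76) (nat_lit 1170893654) (nat_lit 23) (nat_lit 5) (nat_lit 26) (nat_lit 5) (nat_lit 24) (nat_lit 5) (nat_lit 375) (nat_lit 285) (nat_lit 120)))) (XT.nd (nat_lit 78) (nat_lit 152) (nat_lit 0) (XT.lf (nat_lit 0) (nat_lit 11949527389) (nat_lit 228) (nat_lit 29165628058) (nat_lit 76) (nat_lit 10311134996) (nat_lit 23) (nat_lit 5) (nat_lit 26) (nat_lit 5) (nat_lit 24) (nat_lit 5) (nat_lit 376) (nat_lit 285) (nat_lit 119)) (XT.nd (nat_lit 78) (nat_lit 152) (nat_lit 0) (XT.lf (nat_lit 0) (nat_lit 18431605943) (nat_lit 228) (nat_lit 14531868514) (nat_lit 76) (nat_lit 19723024516) (nat_lit 23) (nat_lit 5) (nat_lit 26) (nat_lit 5) (nat_lit 24) (nat_lit 5) (nat_lit 377) (nat_lit 285) (nat_lit 118))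 (XT.lf (nat_lit 0) (nat_lit 545075640) (nat_lit 152) (nat_lit 24564449797) (nat_lit 228) (nat_lit 28874950155) (nat_lit 21) (nat_lit 5) (nat_lit 23) (nat_lit 5) (nat_lit 24) (nat_lit 5) (nat_lit 378) (nat_lit 285) (nat_lit 117))))) (XT.nd (nat_lit 234) (nat_lit 152) (nat_lit 0) (XT.nd (nat_lit 78) (nat_lit 0) (nat_lit 0) (XT.lf (nat_lit 0) (nat_lit 16365815989) (nat_lit 152) (nat_lit 15764899814) (nat_lit 228) (nat_lit 23186390808) (nat_lit 21) (nat_lit 5) (nat_lit 23) (nat_lit 5) (nat_lit 24) (nat_lit 5) (nat_lit 379) (nat_lit 285) (nat_lit 116)) (XT.nd (nat_lit 78) (nat_lit 0) (nat_lit 0) (XT.lf (nat_lit 0) (nat_lit 32654963805) (nat_lit 152) (nat_lit 6703878958) (nat_lit 228) (nat_lit 17330987781) (nat_lit 21) (nat_lit 5) (nat_lit 23) (nat_lit 5) (nat_lit 24) (nat_lit 5) (nat_lit 380) (nat_lit 285) (nat_lit 115)) (XT.lf (nat_lit 0) (nat_lit 46825469969) (nat_lit 228) (nat_lit 8702342349) (nat_lit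 76) (nat_lit 2575277103) (nat_lit 21) (nat_lit 5) (nat_lit 24) (nat_lit 5) (nat_lit 22) (nat_lit 4) (nat_lit 381) (nat_lit 285) (nat_lit 114)))) (XT.nd (nat_lit 78) (nat_lit 76) (nat_lit 0) (XT.lf (nat_lit 0) (nat_lit 7157508872) (nat_lit 76) (nat_lit 47490254946) (nat_lit 152) (nat_lit 4907035050) (nat_lit 20) (nat_lit 5) (nat_lit 21) (nat_lit 5) (nat_lit 22) (nat_lit 4) (nat_lit 382) (nat_lit 285) (nat_lit 113)) (XT.nd (nat_lit 78) (nat_lit 0) (nat_lit 0) (XT.lf (nat_lit 0) (nat_lit 1707624126) (nat_lit 152) (nat_lit 37398610643) (nat_lit 76) (nat_lit 21940792958) (nat_lit 19) (nat_lit 5) (nat_lit 21) (nat_lit 5) (nat_lit 20) (nat_lit 5) (nat_lit 383) (nat_lit 285) (nat_lit 112)) (XT.lf (nat_lit 0) (nat_lit 8418697594) (nat_lit 152) (nat_lit 22004338645) (nat_lit 76) (nat_lit 32159634243) (nat_lit 19) (nat_lit 5) (nat_lit 21) (nat_lit 5) (nat_lit 20) (nat_lit 5) (nat_lit 384) (nat_lit 285) (nat_lit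 111))))))) (XT.nd (nat_lit 33306) (nat_lit 0) (nat_lit 12312) (XT.nd (nat_lit 468) (nat_lit 0) (nat_lit 0) (XT.nd (nat_lit 234) (nat_lit 76) (nat_lit 0) (XT.nd (nat_lit 78) (nat_lit 152) (nat_lit 0) (XT.lf (nat_lit 0) (nat_lit 15327803325) (nat_lit 152) (nat_lit 6153853272) (nat_lit 76) (nat_lit 42682827440) (nat_lit 19) (nat_lit 5) (nat_lit 21) (nat_lit 5) (nat_lit 20) (nat_lit 5) (nat_lit 385) (nat_lit 285) (nat_lit 110)) (XT.nd (nat_lit 78) (nat_lit 0) (nat_lit 0) (XT.lf (nat_lit 0) (nat_lit 10369032587) (nat_lit 152) (nat_lit 12171619300) (nat_lit 228) (nat_lit 43250208468) (nat_lit 17) (nat_lit 5) (nat_lit 19) (nat_lit 5) (nat_lit 20) (nat_lit 5) (nat_lit 386) (nat_lit 285) (nat_lit 109)) (XT.lf (nat_lit 0) (nat_lit 27508355178) (nat_lit 152) (nat_lit 2520510183) (nat_lit 228) (nat_lit 37435395594) (nat_lit 17) (nat_lit 5) (nat_lit 19) (nat_lit 5) (nat_lit 20) (nat_lit 5) (nat_lit 387) (nat_lit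 285) (nat_lit 108)))) (XT.nd (nat_lit 78) (nat_lit 76) (nat_lit 0) (XT.lf (nat_lit 0) (nat_lit 37809960937) (nat_lit 228) (nat_lit 24102647116) (nat_lit 76) (nat_lit 7273210754) (nat_lit 17) (nat_lit 5) (nat_lit 20) (nat_lit 5) (nat_lit 18) (nat_lit 4) (nat_lit 388) (nat_lit 285) (nat_lit 107)) (XT.nd (nat_lit 78) (nat_lit 76) (nat_lit 0) (XT.lf (nat_lit 0) (nat_lit 45846443810) (nat_lit 228) (nat_lit 7803905599) (nat_lit 76) (nat_lit 17308017591) (nat_lit 17) (nat_lit 5) (nat_lit 20) (nat_lit 5) (nat_lit 18) (nat_lit 4) (nat_lit 389) (nat_lit 285) (nat_lit 106)) (XT.lf (nat_lit 0) (nat_lit 9157484584) (nat_lit 76) (nat_lit 45051650223) (nat_lit 152) (nat_lit 18572405599) (nat_lit 16) (nat_lit 5) (nat_lit 17) (nat_lit 5) (nat_lit 18) (nat_lit 4) (nat_lit 390) (nat_lit 285) (nat_lit 105))))) (XT.nd (nat_lit 32604) (nat_lit 0) (nat_lit 13072) (XT.nd (nat_lit 32448) (nat_lit 0) (nat_lit 13072) (XT.lf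 (nat_lit 0) (nat_lit 26782728910) (nat_lit 76) (nat_lit 36115905249) (nat_lit 152) (nat_lit 11758499135) (nat_lit 16) (nat_lit 5) (nat_lit 17) (nat_lit 5) (nat_lit 18) (nat_lit 4) (nat_lit 391) (nat_lit 285) (nat_lit 104)) (XT.nd (nat_lit 78) (nat_lit 0) (nat_lit 0) (XT.lf (nat_lit 0) (nat_lit 153423523) (nat_lit 0) (nat_lit 153423523) (nat_lit 988) (nat_lit 4395497596) (nat_lit 188) (nat_lit 5) (nat_lit 188) (nat_lit 3) (nat_lit 201) (nat_lit 3) (nat_lit 286) (nat_lit 286) (nat_lit 208)) (XT.lf (nat_lit 0) (nat_lit 1406428097) (nat_lit 988) (nat_lit 5061284734) (nat_lit 1064) (nat_lit 3052968990) (nat_lit 188) (nat_lit 5) (nat_lit 201) (nat_lit 3) (nat_lit 202) (nat_lit 5) (nat_lit 287) (nat_lit 286) (nat_lit 207)))) (XT.nd (nat_lit 78) (nat_lit 0) (nat_lit 76) (XT.lf (nat_lit 0) (nat_lit 2196712766) (nat_lit 988) (nat_lit 922459027) (nat_lit 1064) (nat_lit 6521830633) (nat_lit 188) (nat_lit 5)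 (nat_lit 201) (nat_lit 3) (nat_lit 202) (nat_lit 5) (nat_lit 288) (nat_lit 286) (nat_lit 206)) (XT.nd (nat_lit 78) (nat_lit 0) (nat_lit 0) (XT.lf (nat_lit 0) (nat_lit 3018508096) (nat_lit 988) (nat_lit 6377106816) (nat_lit 1064) (nat_lit 369143233) (nat_lit 189) (nat_lit 5) (nat_lit 202) (nat_lit 5) (nat_lit 203) (nat_lit 5) (nat_lit 289) (nat_lit 286) (nat_lit 205)) (XT.lf (nat_lit 0) (nat_lit 3877632934) (nat_lit 988) (nat_lit 2093138485) (nat_lit 1064) (nat_lit 3921132675) (nat_lit 189) (nat_lit 5) (nat_lit 202) (nat_lit 5) (nat_lit 203) (nat_lit 5) (nat_lit 290) (nat_lit 286) (nat_lit 204)))))) (XT.nd (nat_lit 468) (nat_lit 836) (nat_lit 0) (XT.nd (nat_lit 234) (nat_lit 0) (nat_lit 76) (XT.nd (nat_lit 78) (nat_lit 0) (nat_lit 76) (XT.lf (nat_lit 76) (nat_lit 2349476433) (nat_lit 0) (nat_lit 2408829498) (nat_lit 1064) (nat_lit 5264741400) (nat_lit 190) (nat_lit 5) (nat_lit 189) (nat_lit 5) (nat_lit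 203) (nat_lit 5) (nat_lit 291) (nat_lit 286) (nat_lit 203)) (XT.nd (nat_lit 78) (nat_lit 0) (nat_lit 0) (XT.lf (nat_lit 0) (nat_lit 5672779690) (nat_lit 988) (nat_lit 3218041566) (nat_lit 1064) (nat_lit 1267136700) (nat_lit 190) (nat_lit 5) (nat_lit 203) (nat_lit 5) (nat_lit 204) (nat_lit 5) (nat_lit 292) (nat_lit 286) (nat_lit 202)) (XT.lf (nat_lit 76) (nat_lit 1357772669) (nat_lit 0) (nat_lit 5268499146) (nat_lit 1064) (nat_lit 3670349481) (nat_lit 191) (nat_lit 5) (nat_lit 190) (nat_lit 5) (nat_lit 204) (nat_lit 5) (nat_lit 293) (nat_lit 286) (nat_lit 201)))) (XT.nd (nat_lit 78) (nat_lit 0) (nat_lit 76) (XT.lf (nat_lit 76) (nat_lit 6120958933) (nat_lit 0) (nat_lit 1495173152) (nat_lit 1064) (nat_lit 2823130926) (nat_lit 191) (nat_lit 5) (nat_lit 190) (nat_lit 5) (nat_lit 204) (nat_lit 5) (nat_lit 294) (nat_lit 286) (nat_lit 200)) (XT.nd (nat_lit 78) (nat_lit 0) (nat_lit 0) (XT.lf (nat_lit 76)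 (nat_lit 409602629) (nat_lit 0) (nat_lit 8229080586) (nat_lit 1064) (nat_lit 1947460794) (nat_lit 192) (nat_lit 5) (nat_lit 191) (nat_lit 5) (nat_lit 205) (nat_lit 5) (nat_lit 295) (nat_lit 286) (nat_lit 199)) (XT.lf (nat_lit 76) (nat_lit 5336668778) (nat_lit 0) (nat_lit 4390119828) (nat_lit 1064) (nat_lit 1009644929) (nat_lit 192) (nat_lit 5) (nat_lit 191) (nat_lit 5) (nat_lit 205) (nat_lit 5) (nat_lit 296) (nat_lit 286) (nat_lit 198))))) (XT.nd (nat_lit 234) (nat_lit 0) (nat_lit 76) (XT.nd (nat_lit 78) (nat_lit 988) (nat_lit 0) (XT.lf (nat_lit 76) (nat_lit 10395915411) (nat_lit 0) (nat_lit 428915691) (nat_lit 1064) (nat_lit 67128843) (nat_lit 192) (nat_lit 5) (nat_lit 191) (nat_lit 5) (nat_lit 205) (nat_lit 5) (nat_lit 297) (nat_lit 286) (nat_lit 197)) (XT.nd (nat_lit 78) (nat_lit 0) (nat_lit 0) (XT.lf (nat_lit 0) (nat_lit 943823783) (nat_lit 1064) (nat_lit 6466358296) (nat_lit 1140) (nat_lit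 3640019950) (nat_lit 178) (nat_lit 5) (nat_lit 192) (nat_lit 5) (nat_lit 193) (nat_lit 5) (nat_lit 298) (nat_lit 286) (nat_lit 196)) (XT.lf (nat_lit 0) (nat_lit 1971314554) (nat_lit 1064) (nat_lit 1407973642) (nat_lit 1140) (nat_lit 7834299504) (nat_lit 178) (nat_lit 5) (nat_lit 192) (nat_lit 5) (nat_lit 193) (nat_lit 5) (nat_lit 299) (nat_lit 286) (nat_lit 195)))) (XT.nd (nat_lit 78) (nat_lit 0) (nat_lit 0) (XT.lf (nat_lit 0) (nat_lit 3053482834) (nat_lit 1064) (nat_lit 7527557344) (nat_lit 1140) (nat_lit 800160954) (nat_lit 179) (nat_lit 5) (nat_lit 193) (nat_lit 5) (nat_lit 194) (nat_lit 5) (nat_lit 300) (nat_lit 286) (nat_lit 194)) (XT.nd (nat_lit 78) (nat_lit 0) (nat_lit 0) (XT.lf (nat_lit 0) (nat_lit 4195332578) (nat_lit 1064) (nat_lit 2301391837) (nat_lit 1140) (nat_lit 5056342621) (nat_lit 179) (nat_lit 5) (nat_lit 193) (nat_lit 5) (nat_lit 194) (nat_lit 5) (nat_lit 301) (nat_lit 286) (nat_lit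 193)) (XT.lf (nat_lit 76) (nat_lit 3126699814) (nat_lit 0) (nat_lit 2254793333) (nat_lit 1140) (nat_lit 6348333484) (nat_lit 180) (nat_lit 5) (nat_lit 179) (nat_lit 5) (nat_lit 194) (nat_lit 5) (nat_lit 302) (nat_lit 286) (nat_lit 192))))))))
noncomputable def xc177 : XT := (XT.nd (nat_lit 1794) (nat_lit 3192) (nat_lit 0) (XT.nd (nat_lit 858) (nat_lit 2812) (nat_lit 0) (XT.nd (nat_lit 390) (nat_lit 1672) (nat_lit 0) (XT.nd (nat_lit 156) (nat_lit 1064) (nat_lit 0) (XT.nd (nat_lit 78) (nat_lit 1064) (nat_lit 0) (XT.lf (nat_lit 0) (nat_lit 6627501119) (nat_lit 1064) (nat_lit 3183315018) (nat_lit 76) (nat_lit 2100383233) (nat_lit 180) (nat_lit 5) (nat_lit 194) (nat_lit 5) (nat_lit 181) (nat_lit 5) (nat_lit 303) (nat_lit 286) (nat_lit 191)) (XT.lf (nat_lit 0) (nat_lit 2407850618) (nat_lit 1064) (nat_lit 5529546099) (nat_lit 1140) (nat_lit 4159858468) (nat_lit 166) (nat_lit 5) (nat_lit 180) (nat_lit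 5) (nat_lit 181) (nat_lit 5) (nat_lit 304) (nat_lit 286) (nat_lit 190))) (XT.nd (nat_lit 78) (nat_lit 1064) (nat_lit 0) (XT.lf (nat_lit 0) (nat_lit 8216260289) (nat_lit 1064) (nat_lit 1083912066) (nat_lit 1140) (nat_lit 2988348859) (nat_lit 166) (nat_lit 5) (nat_lit 180) (nat_lit 5) (nat_lit 181) (nat_lit 5) (nat_lit 305) (nat_lit 286) (nat_lit 189)) (XT.nd (nat_lit 78) (nat_lit 0) (nat_lit 0) (XT.lf (nat_lit 0) (nat_lit 1697026094) (nat_lit 1064) (nat_lit 9038719833) (nat_lit 1140) (nat_lit 1748856845) (nat_lit 152) (nat_lit 5) (nat_lit 166) (nat_lit 5) (nat_lit 167) (nat_lit 5) (nat_lit 306) (nat_lit 286) (nat_lit 188)) (XT.lf (nat_lit 0) (nat_lit 7696190401) (nat_lit 1064) (nat_lit 4552322495) (nat_lit 1140) (nat_lit 437064060) (nat_lit 152) (nat_lit 5) (nat_lit 166) (nat_lit 5) (nat_lit 167) (nat_lit 5) (nat_lit 307) (nat_lit 286) (nat_lit 187))))) (XT.nd (nat_lit 234) (nat_lit 532) (nat_lit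 0) (XT.nd (nat_lit 78) (nat_lit 532) (nat_lit 0) (XT.lf (nat_lit 0) (nat_lit 889185994) (nat_lit 608) (nat_lit 11916059045) (nat_lit 76) (nat_lit 87315528) (nat_lit 144) (nat_lit 5) (nat_lit 152) (nat_lit 5) (nat_lit 145) (nat_lit 5) (nat_lit 308) (nat_lit 286) (nat_lit 186)) (XT.nd (nat_lit 78) (nat_lit 532) (nat_lit 0) (XT.lf (nat_lit 0) (nat_lit 2325451877) (nat_lit 608) (nat_lit 5946549015) (nat_lit 76) (nat_lit 4831283672) (nat_lit 144) (nat_lit 5) (nat_lit 152) (nat_lit 5) (nat_lit 145) (nat_lit 5) (nat_lit 309) (nat_lit 286) (nat_lit 185)) (XT.lf (nat_lit 0) (nat_lit 190172915) (nat_lit 532) (nat_lit 3600012837) (nat_lit 608) (nat_lit 9530613307) (nat_lit 137) (nat_lit 5) (nat_lit 144) (nat_lit 5) (nat_lit 145) (nat_lit 5) (nat_lit 310) (nat_lit 286) (nat_lit 184)))) (XT.nd (nat_lit 78) (nat_lit 532) (nat_lit 0) (XT.lf (nat_lit 0) (nat_lit 5355045733) (nat_lit 608) (nat_lit 6938339909) (nat_lit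 76) (nat_lit 1249797125) (nat_lit 137) (nat_lit 5) (nat_lit 145) (nat_lit 5) (nat_lit 138) (nat_lit 5) (nat_lit 311) (nat_lit 286) (nat_lit 183)) (XT.nd (nat_lit 78) (nat_lit 532) (nat_lit 0) (XT.lf (nat_lit 0) (nat_lit 6986853730) (nat_lit 608) (nat_lit 611415167) (nat_lit 76) (nat_lit 6173397469) (nat_lit 137) (nat_lit 5) (nat_lit 145) (nat_lit 5) (nat_lit 138) (nat_lit 5) (nat_lit 312) (nat_lit 286) (nat_lit 182)) (XT.lf (nat_lit 0) (nat_lit 6007510146) (nat_lit 532) (nat_lit 2702667785) (nat_lit 608) (nat_lit 5295577302) (nat_lit 130) (nat_lit 5) (nat_lit 137) (nat_lit 5) (nat_lit 138) (nat_lit 5) (nat_lit 313) (nat_lit 286) (nat_lit 181)))))) (XT.nd (nat_lit 468) (nat_lit 1292) (nat_lit 0) (XT.nd (nat_lit 234) (nat_lit 988) (nat_lit 0) (XT.nd (nat_lit 78) (nat_lit 532) (nat_lit 0) (XT.lf (nat_lit 0) (nat_lit 10499041973) (nat_lit 608) (nat_lit 1447058972) (nat_lit 76) (nat_lit 2300377432)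 (nat_lit 130) (nat_lit 5) (nat_lit 138) (nat_lit 5) (nat_lit 131) (nat_lit 5) (nat_lit 314) (nat_lit 286) (nat_lit 180)) (XT.nd (nat_lit 78) (nat_lit 0) (nat_lit 0) (XT.lf (nat_lit 0) (nat_lit 5363653936) (nat_lit 532) (nat_lit 7041782689) (nat_lit 608) (nat_lit 2087096682) (nat_lit 123) (nat_lit 5) (nat_lit 130) (nat_lit 5) (nat_lit 131) (nat_lit 5) (nat_lit 315) (nat_lit 286) (nat_lit 179)) (XT.lf (nat_lit 0) (nat_lit 12393583826) (nat_lit 532) (nat_lit 1975877638) (nat_lit 608) (nat_lit 376520546) (nat_lit 123) (nat_lit 5) (nat_lit 130) (nat_lit 5) (nat_lit 131) (nat_lit 5) (nat_lit 316) (nat_lit 286) (nat_lit 178)))) (XT.nd (nat_lit 78) (nat_lit 456) (nat_lit 0) (XT.lf (nat_lit 0) (nat_lit 1421245599) (nat_lit 532) (nat_lit 10346499473) (nat_lit 76) (nat_lit 3237026224) (nat_lit 116) (nat_lit 5) (nat_lit 123) (nat_lit 5) (nat_lit 117) (nat_lit 5) (nat_lit 317) (nat_lit 286) (nat_lit 177)) (XT.nd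 (nat_lit 78) (nat_lit 456) (nat_lit 0) (XT.lf (nat_lit 0) (nat_lit 3295266484) (nat_lit 532) (nat_lit 3381573767) (nat_lit 76) (nat_lit 8593498619) (nat_lit 116) (nat_lit 5) (nat_lit 123) (nat_lit 5) (nat_lit 117) (nat_lit 5) (nat_lit 318) (nat_lit 286) (nat_lit 176)) (XT.lf (nat_lit 0) (nat_lit 3853000512) (nat_lit 456) (nat_lit 1396279342) (nat_lit 532) (nat_lit 10293902916) (nat_lit 110) (nat_lit 5) (nat_lit 116) (nat_lit 5) (nat_lit 117) (nat_lit 5) (nat_lit 319) (nat_lit 286) (nat_lit 175))))) (XT.nd (nat_lit 234) (nat_lit 912) (nat_lit 0) (XT.nd (nat_lit 78) (nat_lit 380) (nat_lit 0) (XT.lf (nat_lit 0) (nat_lit 7322230088) (nat_lit 532) (nat_lit 4503198255) (nat_lit 76) (nat_lit 3996995953) (nat_lit 110) (nat_lit 5) (nat_lit 117) (nat_lit 5) (nat_lit 111) (nat_lit 5) (nat_lit 320) (nat_lit 286) (nat_lit 174)) (XT.nd (nat_lit 78) (nat_lit 0) (nat_lit 0) (XT.lf (nat_lit 0) (nat_lit 2928401100)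 (nat_lit 380) (nat_lit 6558291583) (nat_lit 456) (nat_lit 6622491837) (nat_lit 105) (nat_lit 5) (nat_lit 110) (nat_lit 5) (nat_lit 111) (nat_lit 5) (nat_lit 321) (nat_lit 286) (nat_lit 173)) (XT.lf (nat_lit 0) (nat_lit 10661086640) (nat_lit 380) (nat_lit 1088057928) (nat_lit 456) (nat_lit 4654431871) (nat_lit 105) (nat_lit 5) (nat_lit 110) (nat_lit 5) (nat_lit 111) (nat_lit 5) (nat_lit 322) (nat_lit 286) (nat_lit 172)))) (XT.nd (nat_lit 78) (nat_lit 456) (nat_lit 0) (XT.lf (nat_lit 0) (nat_lit 1898165619) (nat_lit 456) (nat_lit 12231179623) (nat_lit 532) (nat_lit 2575978569) (nat_lit 99) (nat_lit 5) (nat_lit 105) (nat_lit 5) (nat_lit 106) (nat_lit 5) (nat_lit 323) (nat_lit 286) (nat_lit 171)) (XT.nd (nat_lit 78) (nat_lit 456) (nat_lit 0) (XT.lf (nat_lit 0) (nat_lit 9860781937) (nat_lit 456) (nat_lit 6776969556) (nat_lit 532) (nat_lit 376687495) (nat_lit 99) (nat_lit 5) (nat_lit 105) (nat_lit 5)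 (nat_lit 106) (nat_lit 5) (nat_lit 324) (nat_lit 286) (nat_lit 170)) (XT.lf (nat_lit 0) (nat_lit 711346336) (nat_lit 380) (nat_lit 1135578166) (nat_lit 456) (nat_lit 15485520894) (nat_lit 93) (nat_lit 5) (nat_lit 98) (nat_lit 5) (nat_lit 99) (nat_lit 5) (nat_lit 325) (nat_lit 286) (nat_lit 169))))))) (XT.nd (nat_lit 936) (nat_lit 1444) (nat_lit 0) (XT.nd (nat_lit 468) (nat_lit 1064) (nat_lit 0) (XT.nd (nat_lit 234) (nat_lit 304) (nat_lit 0) (XT.nd (nat_lit 78) (nat_lit 380) (nat_lit 0) (XT.lf (nat_lit 0) (nat_lit 4236109541) (nat_lit 456) (nat_lit 8762299367) (nat_lit 76) (nat_lit 4658295857) (nat_lit 93) (nat_lit 5) (nat_lit 99) (nat_lit 5) (nat_lit 94) (nat_lit 5) (nat_lit 326) (nat_lit 286) (nat_lit 168)) (XT.nd (nat_lit 78) (nat_lit 380) (nat_lit 0) (XT.lf (nat_lit 0) (nat_lit 6697090274) (nat_lit 456) (nat_lit 692603297) (nat_lit 76) (nat_lit 10601011950) (nat_lit 93) (nat_lit 5) (nat_lit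 99) (nat_lit 5) (nat_lit 94) (nat_lit 5) (nat_lit 327) (nat_lit 286) (nat_lit 167)) (XT.lf (nat_lit 0) (nat_lit 7757329653) (nat_lit 380) (nat_lit 1538339747) (nat_lit 456) (nat_lit 9037160540) (nat_lit 88) (nat_lit 5) (nat_lit 93) (nat_lit 5) (nat_lit 94) (nat_lit 5) (nat_lit 328) (nat_lit 286) (nat_lit 166)))) (XT.nd (nat_lit 78) (nat_lit 304) (nat_lit 0) (XT.lf (nat_lit 0) (nat_lit 12011781317) (nat_lit 456) (nat_lit 2266674369) (nat_lit 76) (nat_lit 4405591366) (nat_lit 88) (nat_lit 5) (nat_lit 94) (nat_lit 5) (nat_lit 89) (nat_lit 5) (nat_lit 329) (nat_lit 286) (nat_lit 165)) (XT.nd (nat_lit 78) (nat_lit 0) (nat_lit 0) (XT.lf (nat_lit 0) (nat_lit 6387816692) (nat_lit 304) (nat_lit 8487869833) (nat_lit 380) (nat_lit 4168140606) (nat_lit 84) (nat_lit 5) (nat_lit 88) (nat_lit 5) (nat_lit 89) (nat_lit 5) (nat_lit 330) (nat_lit 286) (nat_lit 164)) (XT.lf (nat_lit 0) (nat_lit 15335516854) (nat_lit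 304) (nat_lit 2502733057) (nat_lit 380) (nat_lit 1575783760) (nat_lit 84) (nat_lit 5) (nat_lit 88) (nat_lit 5) (nat_lit 89) (nat_lit 5) (nat_lit 331) (nat_lit 286) (nat_lit 163))))) (XT.nd (nat_lit 234) (nat_lit 304) (nat_lit 0) (XT.nd (nat_lit 78) (nat_lit 304) (nat_lit 0) (XT.lf (nat_lit 0) (nat_lit 1145165222) (nat_lit 456) (nat_lit 15002438441) (nat_lit 76) (nat_lit 3645276294) (nat_lit 78) (nat_lit 5) (nat_lit 84) (nat_lit 5) (nat_lit 79) (nat_lit 5) (nat_lit 332) (nat_lit 286) (nat_lit 162)) (XT.nd (nat_lit 78) (nat_lit 304) (nat_lit 0) (XT.lf (nat_lit 0) (nat_lit 3972620932) (nat_lit 456) (nat_lit 6226454616) (nat_lit 76) (nat_lit 9981865525) (nat_lit 78) (nat_lit 5) (nat_lit 84) (nat_lit 5) (nat_lit 79) (nat_lit 5) (nat_lit 333) (nat_lit 286) (nat_lit 161)) (XT.lf (nat_lit 0) (nat_lit 2856031834) (nat_lit 304) (nat_lit 4046786111) (nat_lit 380) (nat_lit 13677302134) (nat_lit 74) (nat_lit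 5) (nat_lit 78) (nat_lit 5) (nat_lit 79) (nat_lit 5) (nat_lit 334) (nat_lit 286) (nat_lit 160)))) (XT.nd (nat_lit 78) (nat_lit 304) (nat_lit 0) (XT.lf (nat_lit 0) (nat_lit 9997025439) (nat_lit 380) (nat_lit 8686046537) (nat_lit 76) (nat_lit 2305932533) (nat_lit 74) (nat_lit 5) (nat_lit 79) (nat_lit 5) (nat_lit 75) (nat_lit 5) (nat_lit 335) (nat_lit 286) (nat_lit 159)) (XT.nd (nat_lit 78) (nat_lit 0) (nat_lit 0) (XT.lf (nat_lit 0) (nat_lit 582146159) (nat_lit 304) (nat_lit 12638443597) (nat_lit 380) (nat_lit 8188482604) (nat_lit 70) (nat_lit 5) (nat_lit 74) (nat_lit 5) (nat_lit 75) (nat_lit 5) (nat_lit 336) (nat_lit 286) (nat_lit 158)) (XT.lf (nat_lit 0) (nat_lit 10294277653) (nat_lit 304) (nat_lit 6325311938) (nat_lit 380) (nat_lit 5219803233) (nat_lit 70) (nat_lit 5) (nat_lit 74) (nat_lit 5) (nat_lit 75) (nat_lit 5) (nat_lit 337) (nat_lit 286) (nat_lit 157)))))) (XT.nd (nat_lit 468) (nat_lit 532)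 (nat_lit 0) (XT.nd (nat_lit 234) (nat_lit 532) (nat_lit 0) (XT.nd (nat_lit 78) (nat_lit 380) (nat_lit 0) (XT.lf (nat_lit 0) (nat_lit 20113511440) (nat_lit 380) (nat_lit 1998605530) (nat_lit 76) (nat_lit 170729440) (nat_lit 70) (nat_lit 5) (nat_lit 75) (nat_lit 5) (nat_lit 71) (nat_lit 5) (nat_lit 338) (nat_lit 286) (nat_lit 156)) (XT.nd (nat_lit 78) (nat_lit 0) (nat_lit 0) (XT.lf (nat_lit 0) (nat_lit 1085153619) (nat_lit 380) (nat_lit 14831937838) (nat_lit 76) (nat_lit 6818298453) (nat_lit 65) (nat_lit 5) (nat_lit 70) (nat_lit 5) (nat_lit 66) (nat_lit 5) (nat_lit 339) (nat_lit 286) (nat_lit 155)) (XT.lf (nat_lit 0) (nat_lit 4405602796) (nat_lit 380) (nat_lit 5090807570) (nat_lit 76) (nat_lit 13704108216) (nat_lit 65) (nat_lit 5) (nat_lit 70) (nat_lit 5) (nat_lit 66) (nat_lit 5) (nat_lit 340) (nat_lit 286) (nat_lit 154)))) (XT.nd (nat_lit 78) (nat_lit 228) (nat_lit 0) (XT.lf (nat_lit 0) (nat_lit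 5029272738) (nat_lit 304) (nat_lit 2836528995) (nat_lit 380) (nat_lit 15812606017) (nat_lit 61) (nat_lit 5) (nat_lit 65) (nat_lit 5) (nat_lit 66) (nat_lit 5) (nat_lit 341) (nat_lit 286) (nat_lit 153)) (XT.nd (nat_lit 78) (nat_lit 228) (nat_lit 0) (XT.lf (nat_lit 0) (nat_lit 11512286866) (nat_lit 380) (nat_lit 8662494079) (nat_lit 76) (nat_lit 3993388655) (nat_lit 61) (nat_lit 5) (nat_lit 66) (nat_lit 5) (nat_lit 62) (nat_lit 5) (nat_lit 342) (nat_lit 286) (nat_lit 152)) (XT.lf (nat_lit 0) (nat_lit 1615998728) (nat_lit 228) (nat_lit 13687913521) (nat_lit 304) (nat_lit 9367649795) (nat_lit 58) (nat_lit 5) (nat_lit 61) (nat_lit 5) (nat_lit 62) (nat_lit 5) (nat_lit 343) (nat_lit 286) (nat_lit 151))))) (XT.nd (nat_lit 234) (nat_lit 228) (nat_lit 0) (XT.nd (nat_lit 78) (nat_lit 304) (nat_lit 0) (XT.lf (nat_lit 0) (nat_lit 12369331866) (nat_lit 228) (nat_lit 6919678744) (nat_lit 304) (nat_lit 5898663740)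 (nat_lit 58) (nat_lit 5) (nat_lit 61) (nat_lit 5) (nat_lit 62) (nat_lit 5) (nat_lit 344) (nat_lit 286) (nat_lit 150)) (XT.nd (nat_lit 78) (nat_lit 304) (nat_lit 0) (XT.lf (nat_lit 0) (nat_lit 23386602557) (nat_lit 304) (nat_lit 2285469347) (nat_lit 76) (nat_lit 47419431) (nat_lit 58) (nat_lit 5) (nat_lit 62) (nat_lit 5) (nat_lit 59) (nat_lit 5) (nat_lit 345) (nat_lit 286) (nat_lit 149)) (XT.lf (nat_lit 0) (nat_lit 1459489179) (nat_lit 304) (nat_lit 17624167849) (nat_lit 76) (nat_lit 7178855142) (nat_lit 54) (nat_lit 5) (nat_lit 58) (nat_lit 5) (nat_lit 55) (nat_lit 5) (nat_lit 346) (nat_lit 286) (nat_lit 148)))) (XT.nd (nat_lit 78) (nat_lit 228) (nat_lit 0) (XT.lf (nat_lit 0) (nat_lit 5334753607) (nat_lit 304) (nat_lit 6918433881) (nat_lit 76) (nat_lit 14567471807) (nat_lit 54) (nat_lit 5) (nat_lit 58) (nat_lit 5) (nat_lit 55) (nat_lit 5) (nat_lit 347) (nat_lit 286) (nat_lit 147)) (XT.nd (nat_lit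 78) (nat_lit 0) (nat_lit 0) (XT.lf (nat_lit 0) (nat_lit 4179645155) (nat_lit 228) (nat_lit 5179717462) (nat_lit 304) (nat_lit 18035204084) (nat_lit 51) (nat_lit 5) (nat_lit 54) (nat_lit 5) (nat_lit 55) (nat_lit 5) (nat_lit 348) (nat_lit 286) (nat_lit 146)) (XT.lf (nat_lit 0) (nat_lit 13588493229) (nat_lit 304) (nat_lit 12262514246) (nat_lit 76) (nat_lit 2132178576) (nat_lit 51) (nat_lit 5) (nat_lit 55) (nat_lit 5) (nat_lit 52) (nat_lit 5) (nat_lit 349) (nat_lit 286) (nat_lit 145))))))))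
noncomputable def xc178 : XT := (XT.nd (nat_lit 1794) (nat_lit 912) (nat_lit 0) (XT.nd (nat_lit 858) (nat_lit 760) (nat_lit 0) (XT.nd (nat_lit 390) (nat_lit 456) (nat_lit 0) (XT.nd (nat_lit 156) (nat_lit 304) (nat_lit 0) (XT.nd (nat_lit 78) (nat_lit 228) (nat_lit 0) (XT.lf (nat_lit 0) (nat_lit 17988971662) (nat_lit 304) (nat_lit 1042985093) (nat_lit 76) (nat_lit 9556180989) (nat_lit 51) (nat_lit 5) (nat_lit 55) (nat_lit 5) (nat_lit 52) (nat_lit 5) (nat_lit 350) (nat_lit 286) (nat_lit 144)) (XT.lf (nat_lit 0) (nat_lit 10712295465) (nat_lit 228) (nat_lit 11905530055) (nat_lit 304) (nat_lit 6590529383) (nat_lit 48) (nat_lit 5) (nat_lit 51) (nat_lit 5) (nat_lit 52) (nat_lit 5) (nat_lit 351) (nat_lit 286) (nat_lit 143))) (XT.nd (nat_lit 78) (nat_lit 304) (nat_lit 0) (XT.lf (nat_lit 0) (nat_lit 22831841439) (nat_lit 228) (nat_lit 4557722232) (nat_lit 304) (nat_lit 2457501868) (nat_lit 48) (nat_lit 5)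 (nat_lit 51) (nat_lit 5) (nat_lit 52) (nat_lit 5) (nat_lit 352) (nat_lit 286) (nat_lit 142)) (XT.nd (nat_lit 78) (nat_lit 0) (nat_lit 0) (XT.lf (nat_lit 0) (nat_lit 1834444698) (nat_lit 304) (nat_lit 25654445358) (nat_lit 76) (nat_lit 3013434290) (nat_lit 44) (nat_lit 5) (nat_lit 48) (nat_lit 5) (nat_lit 45) (nat_lit 5) (nat_lit 353) (nat_lit 286) (nat_lit 141)) (XT.lf (nat_lit 0) (nat_lit 6316093757) (nat_lit 304) (nat_lit 14044287694) (nat_lit 76) (nat_lit 10812826276) (nat_lit 44) (nat_lit 5) (nat_lit 48) (nat_lit 5) (nat_lit 45) (nat_lit 5) (nat_lit 354) (nat_lit 286) (nat_lit 140))))) (XT.nd (nat_lit 234) (nat_lit 228) (nat_lit 0) (XT.nd (nat_lit 78) (nat_lit 228) (nat_lit 0) (XT.lf (nat_lit 0) (nat_lit 10926046745) (nat_lit 304) (nat_lit 2095236285) (nat_lit 76) (nat_lit 18843125628) (nat_lit 44) (nat_lit 5) (nat_lit 48) (nat_lit 5) (nat_lit 45) (nat_lit 5) (nat_lit 355) (nat_lit 286) (nat_lit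 139)) (XT.nd (nat_lit 78) (nat_lit 0) (nat_lit 0) (XT.lf (nat_lit 0) (nat_lit 10406212474) (nat_lit 228) (nat_lit 5362150184) (nat_lit 304) (nat_lit 16805167518) (nat_lit 41) (nat_lit 5) (nat_lit 44) (nat_lit 5) (nat_lit 45) (nat_lit 5) (nat_lit 356) (nat_lit 286) (nat_lit 138)) (XT.lf (nat_lit 0) (nat_lit 20795693861) (nat_lit 304) (nat_lit 10011333379) (nat_lit 76) (nat_lit 2495712026) (nat_lit 41) (nat_lit 5) (nat_lit 45) (nat_lit 5) (nat_lit 42) (nat_lit 5) (nat_lit 357) (nat_lit 286) (nat_lit 137)))) (XT.nd (nat_lit 78) (nat_lit 76) (nat_lit 0) (XT.lf (nat_lit 0) (nat_lit 2496014515) (nat_lit 152) (nat_lit 23549176261) (nat_lit 228) (nat_lit 8006499596) (nat_lit 39) (nat_lit 5) (nat_lit 41) (nat_lit 5) (nat_lit 42) (nat_lit 5) (nat_lit 358) (nat_lit 286) (nat_lit 136)) (XT.nd (nat_lit 78) (nat_lit 76) (nat_lit 0) (XT.lf (nat_lit 0) (nat_lit 15574961333) (nat_lit 152) (nat_lit 15972650176)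 (nat_lit 228) (nat_lit 3272641271) (nat_lit 39) (nat_lit 5) (nat_lit 41) (nat_lit 5) (nat_lit 42) (nat_lit 5) (nat_lit 359) (nat_lit 286) (nat_lit 135)) (XT.lf (nat_lit 0) (nat_lit 1566396745) (nat_lit 228) (nat_lit 6589709278) (nat_lit 76) (nat_lit 27455475837) (nat_lit 38) (nat_lit 5) (nat_lit 41) (nat_lit 5) (nat_lit 39) (nat_lit 5) (nat_lit 360) (nat_lit 286) (nat_lit 134)))))) (XT.nd (nat_lit 468) (nat_lit 380) (nat_lit 0) (XT.nd (nat_lit 234) (nat_lit 152) (nat_lit 0) (XT.nd (nat_lit 78) (nat_lit 0) (nat_lit 0) (XT.lf (nat_lit 0) (nat_lit 6532154791) (nat_lit 228) (nat_lit 10075804) (nat_lit 304) (nat_lit 29881731530) (nat_lit 35) (nat_lit 5) (nat_lit 38) (nat_lit 5) (nat_lit 39) (nat_lit 5) (nat_lit 361) (nat_lit 286) (nat_lit 133)) (XT.nd (nat_lit 78) (nat_lit 0) (nat_lit 0) (XT.lf (nat_lit 0) (nat_lit 11809756039) (nat_lit 304) (nat_lit 17165677423) (nat_lit 76) (nat_lit 8281013117) (nat_lit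 35) (nat_lit 5) (nat_lit 39) (nat_lit 5) (nat_lit 36) (nat_lit 5) (nat_lit 362) (nat_lit 286) (nat_lit 132)) (XT.lf (nat_lit 0) (nat_lit 17230220288) (nat_lit 304) (nat_lit 4066117284) (nat_lit 76) (nat_lit 16817725725) (nat_lit 35) (nat_lit 5) (nat_lit 39) (nat_lit 5) (nat_lit 36) (nat_lit 5) (nat_lit 363) (nat_lit 286) (nat_lit 131)))) (XT.nd (nat_lit 78) (nat_lit 0) (nat_lit 0) (XT.lf (nat_lit 0) (nat_lit 9605861103) (nat_lit 152) (nat_lit 13294739126) (nat_lit 228) (nat_lit 16094194208) (nat_lit 33) (nat_lit 5) (nat_lit 35) (nat_lit 5) (nat_lit 36) (nat_lit 5) (nat_lit 364) (nat_lit 286) (nat_lit 130)) (XT.nd (nat_lit 78) (nat_lit 0) (nat_lit 0) (XT.lf (nat_lit 0) (nat_lit 23763415321) (nat_lit 152) (nat_lit 5013770806) (nat_lit 228) (nat_lit 11123683377) (nat_lit 33) (nat_lit 5) (nat_lit 35) (nat_lit 5) (nat_lit 36) (nat_lit 5) (nat_lit 365) (nat_lit 286) (nat_lit 129)) (XT.lf (nat_lit 0)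 (nat_lit 34859015605) (nat_lit 228) (nat_lit 2530050429) (nat_lit 76) (nat_lit 3444197096) (nat_lit 33) (nat_lit 5) (nat_lit 36) (nat_lit 5) (nat_lit 34) (nat_lit 5) (nat_lit 366) (nat_lit 286) (nat_lit 128))))) (XT.nd (nat_lit 234) (nat_lit 152) (nat_lit 0) (XT.nd (nat_lit 78) (nat_lit 76) (nat_lit 0) (XT.lf (nat_lit 0) (nat_lit 11655782958) (nat_lit 152) (nat_lit 29624493683) (nat_lit 228) (nat_lit 508647174) (nat_lit 31) (nat_lit 5) (nat_lit 33) (nat_lit 5) (nat_lit 34) (nat_lit 5) (nat_lit 367) (nat_lit 286) (nat_lit 127)) (XT.nd (nat_lit 78) (nat_lit 0) (nat_lit 0) (XT.lf (nat_lit 0) (nat_lit 5042102427) (nat_lit 228) (nat_lit 16510532038) (nat_lit 76) (nat_lit 21218514118) (nat_lit 30) (nat_lit 5) (nat_lit 33) (nat_lit 5) (nat_lit 31) (nat_lit 5) (nat_lit 368) (nat_lit 286) (nat_lit 126)) (XT.lf (nat_lit 0) (nat_lit 10744595244) (nat_lit 228) (nat_lit 2491679793) (nat_lit 76) (nat_lit 30546554817)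 (nat_lit 30) (nat_lit 5) (nat_lit 33) (nat_lit 5) (nat_lit 31) (nat_lit 5) (nat_lit 369) (nat_lit 286) (nat_lit 125)))) (XT.nd (nat_lit 78) (nat_lit 0) (nat_lit 0) (XT.lf (nat_lit 0) (nat_lit 12178195239) (nat_lit 152) (nat_lit 4552608598) (nat_lit 228) (nat_lit 28090682540) (nat_lit 28) (nat_lit 5) (nat_lit 30) (nat_lit 5) (nat_lit 31) (nat_lit 5) (nat_lit 370) (nat_lit 286) (nat_lit 124)) (XT.nd (nat_lit 78) (nat_lit 0) (nat_lit 0) (XT.lf (nat_lit 0) (nat_lit 22959834082) (nat_lit 228) (nat_lit 18600988987) (nat_lit 76) (nat_lit 4328586392) (nat_lit 28) (nat_lit 5) (nat_lit 31) (nat_lit 5) (nat_lit 29) (nat_lit 5) (nat_lit 371) (nat_lit 286) (nat_lit 123)) (XT.lf (nat_lit 0) (nat_lit 29416549164) (nat_lit 228) (nat_lit 4189503961) (nat_lit 76) (nat_lit 13382096505) (nat_lit 28) (nat_lit 5) (nat_lit 31) (nat_lit 5) (nat_lit 29) (nat_lit 5) (nat_lit 372) (nat_lit 286) (nat_lit 122))))))) (XT.nd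 (nat_lit 936) (nat_lit 228) (nat_lit 0) (XT.nd (nat_lit 468) (nat_lit 304) (nat_lit 0) (XT.nd (nat_lit 234) (nat_lit 228) (nat_lit 0) (XT.nd (nat_lit 78) (nat_lit 0) (nat_lit 0) (XT.lf (nat_lit 0) (nat_lit 10859425462) (nat_lit 152) (nat_lit 25307790393) (nat_lit 228) (nat_lit 11949632345) (nat_lit 26) (nat_lit 5) (nat_lit 28) (nat_lit 5) (nat_lit 29) (nat_lit 5) (nat_lit 373) (nat_lit 286) (nat_lit 121)) (XT.nd (nat_lit 78) (nat_lit 0) (nat_lit 0) (XT.lf (nat_lit 0) (nat_lit 26438963566) (nat_lit 152) (nat_lit 16719663188) (nat_lit 228) (nat_lit 6119637840) (nat_lit 26) (nat_lit 5) (nat_lit 28) (nat_lit 5) (nat_lit 29) (nat_lit 5) (nat_lit 374) (nat_lit 286) (nat_lit 120)) (XT.lf (nat_lit 0) (nat_lit 42479344196) (nat_lit 152) (nat_lit 7876473095) (nat_lit 228) (nat_lit 118828557) (nat_lit 26) (nat_lit 5) (nat_lit 28) (nat_lit 5) (nat_lit 29) (nat_lit 5) (nat_lit 375) (nat_lit 286) (nat_lit 119))))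 (XT.nd (nat_lit 78) (nat_lit 0) (nat_lit 0) (XT.lf (nat_lit 0) (nat_lit 6023797463) (nat_lit 228) (nat_lit 44343071366) (nat_lit 76) (nat_lit 1335902328) (nat_lit 23) (nat_lit 5) (nat_lit 26) (nat_lit 5) (nat_lit 24) (nat_lit 5) (nat_lit 376) (nat_lit 286) (nat_lit 118)) (XT.nd (nat_lit 78) (nat_lit 0) (nat_lit 0) (XT.lf (nat_lit 0) (nat_lit 12503974038) (nat_lit 228) (nat_lit 29712496337) (nat_lit 76) (nat_lit 10746567944) (nat_lit 23) (nat_lit 5) (nat_lit 26) (nat_lit 5) (nat_lit 24) (nat_lit 5) (nat_lit 377) (nat_lit 286) (nat_lit 117)) (XT.lf (nat_lit 0) (nat_lit 19174807351) (nat_lit 228) (nat_lit 14649280334) (nat_lit 76) (nat_lit 20437141366) (nat_lit 23) (nat_lit 5) (nat_lit 26) (nat_lit 5) (nat_lit 24) (nat_lit 5) (nat_lit 378) (nat_lit 286) (nat_lit 116))))) (XT.nd (nat_lit 234) (nat_lit 152) (nat_lit 0) (XT.nd (nat_lit 78) (nat_lit 0) (nat_lit 0) (XT.lf (nat_lit 0) (nat_lit 876849162)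 (nat_lit 152) (nat_lit 25173705934) (nat_lit 228) (nat_lit 29547669735) (nat_lit 21) (nat_lit 5) (nat_lit 23) (nat_lit 5) (nat_lit 24) (nat_lit 5) (nat_lit 379) (nat_lit 286) (nat_lit 115)) (XT.nd (nat_lit 78) (nat_lit 0) (nat_lit 0) (XT.lf (nat_lit 0) (nat_lit 17163024695) (nat_lit 152) (nat_lit 16113888209) (nat_lit 228) (nat_lit 23694090372) (nat_lit 21) (nat_lit 5) (nat_lit 23) (nat_lit 5) (nat_lit 24) (nat_lit 5) (nat_lit 380) (nat_lit 286) (nat_lit 114)) (XT.lf (nat_lit 0) (nat_lit 33931927501) (nat_lit 152) (nat_lit 6784647172) (nat_lit 228) (nat_lit 17668497841) (nat_lit 21) (nat_lit 5) (nat_lit 23) (nat_lit 5) (nat_lit 24) (nat_lit 5) (nat_lit 381) (nat_lit 286) (nat_lit 113)))) (XT.nd (nat_lit 78) (nat_lit 152) (nat_lit 0) (XT.lf (nat_lit 0) (nat_lit 48403169494) (nat_lit 228) (nat_lit 8670586535) (nat_lit 76) (nat_lit 2767098259) (nat_lit 21) (nat_lit 5) (nat_lit 24) (nat_lit 5) (nat_lit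 22) (nat_lit 4) (nat_lit 382) (nat_lit 286) (nat_lit 112)) (XT.nd (nat_lit 78) (nat_lit 76) (nat_lit 0) (XT.lf (nat_lit 0) (nat_lit 7662189379) (nat_lit 76) (nat_lit 48795693051) (nat_lit 152) (nat_lit 4878304149) (nat_lit 20) (nat_lit 5) (nat_lit 21) (nat_lit 5) (nat_lit 22) (nat_lit 4) (nat_lit 383) (nat_lit 286) (nat_lit 111)) (XT.lf (nat_lit 0) (nat_lit 1926337016) (nat_lit 152) (nat_lit 38235597862) (nat_lit 76) (nat_lit 22711351261) (nat_lit 19) (nat_lit 5) (nat_lit 21) (nat_lit 5) (nat_lit 20) (nat_lit 5) (nat_lit 384) (nat_lit 286) (nat_lit 110)))))) (XT.nd (nat_lit 468) (nat_lit 76) (nat_lit 0) (XT.nd (nat_lit 234) (nat_lit 0) (nat_lit 0) (XT.nd (nat_lit 78) (nat_lit 152) (nat_lit 0) (XT.lf (nat_lit 0) (nat_lit 8833864509) (nat_lit 152) (nat_lit 22387797833) (nat_lit 76) (nat_lit 33233485906) (nat_lit 19) (nat_lit 5) (nat_lit 21) (nat_lit 5) (nat_lit 20) (nat_lit 5) (nat_lit 385) (nat_lit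 286) (nat_lit 109)) (XT.nd (nat_lit 78) (nat_lit 152) (nat_lit 0) (XT.lf (nat_lit 0) (nat_lit 15945507315) (nat_lit 152) (nat_lit 6069856276) (nat_lit 76) (nat_lit 44069198317) (nat_lit 19) (nat_lit 5) (nat_lit 21) (nat_lit 5) (nat_lit 20) (nat_lit 5) (nat_lit 386) (nat_lit 286) (nat_lit 108)) (XT.lf (nat_lit 0) (nat_lit 10946082702) (nat_lit 152) (nat_lit 12426617234) (nat_lit 228) (nat_lit 44387094334) (nat_lit 17) (nat_lit 5) (nat_lit 19) (nat_lit 5) (nat_lit 20) (nat_lit 5) (nat_lit 387) (nat_lit 286) (nat_lit 107)))) (XT.nd (nat_lit 78) (nat_lit 0) (nat_lit 0) (XT.lf (nat_lit 0) (nat_lit 28591838005) (nat_lit 152) (nat_lit 2489183115) (nat_lit 228) (nat_lit 38402515337) (nat_lit 17) (nat_lit 5) (nat_lit 19) (nat_lit 5) (nat_lit 20) (nat_lit 5) (nat_lit 388) (nat_lit 286) (nat_lit 106)) (XT.nd (nat_lit 78) (nat_lit 0) (nat_lit 0) (XT.lf (nat_lit 0) (nat_lit 39092141119) (nat_lit 228) (nat_lit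 24571496915) (nat_lit 76) (nat_lit 7593208574) (nat_lit 17) (nat_lit 5) (nat_lit 20) (nat_lit 5) (nat_lit 18) (nat_lit 4) (nat_lit 389) (nat_lit 286) (nat_lit 105)) (XT.lf (nat_lit 0) (nat_lit 47365411254) (nat_lit 228) (nat_lit 7791197899) (nat_lit 76) (nat_lit 17926094524) (nat_lit 17) (nat_lit 5) (nat_lit 20) (nat_lit 5) (nat_lit 18) (nat_lit 4) (nat_lit 390) (nat_lit 286) (nat_lit 104))))) (XT.nd (nat_lit 32682) (nat_lit 0) (nat_lit 13072) (XT.nd (nat_lit 32526) (nat_lit 0) (nat_lit 13072) (XT.lf (nat_lit 0) (nat_lit 9676614137) (nat_lit 76) (nat_lit 46300536442) (nat_lit 152) (nat_lit 18983479796) (nat_lit 16) (nat_lit 5) (nat_lit 17) (nat_lit 5) (nat_lit 18) (nat_lit 4) (nat_lit 391) (nat_lit 286) (nat_lit 103)) (XT.nd (nat_lit 78) (nat_lit 0) (nat_lit 0) (XT.lf (nat_lit 0) (nat_lit 531202971) (nat_lit 0) (nat_lit 531202971) (nat_lit 988) (nat_lit 3757061601) (nat_lit 188) (nat_lit 5) (nat_lit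 188) (nat_lit 3) (nat_lit 201) (nat_lit 3) (nat_lit 287) (nat_lit 287) (nat_lit 206)) (XT.lf (nat_lit 0) (nat_lit 2890885566) (nat_lit 988) (nat_lit 4435042921) (nat_lit 1064) (nat_lit 2434082875) (nat_lit 188) (nat_lit 5) (nat_lit 201) (nat_lit 3) (nat_lit 202) (nat_lit 5) (nat_lit 288) (nat_lit 287) (nat_lit 205)))) (XT.nd (nat_lit 78) (nat_lit 0) (nat_lit 0) (XT.lf (nat_lit 0) (nat_lit 3662871067) (nat_lit 988) (nat_lit 194714977) (nat_lit 1064) (nat_lit 6027703819) (nat_lit 188) (nat_lit 5) (nat_lit 201) (nat_lit 3) (nat_lit 202) (nat_lit 5) (nat_lit 289) (nat_lit 287) (nat_lit 204)) (XT.nd (nat_lit 78) (nat_lit 0) (nat_lit 76) (XT.lf (nat_lit 76) (nat_lit 4241132085) (nat_lit 0) (nat_lit 230866713) (nat_lit 1064) (nat_lit 5541964583) (nat_lit 189) (nat_lit 5) (nat_lit 188) (nat_lit 5) (nat_lit 202) (nat_lit 5) (nat_lit 290) (nat_lit 287) (nat_lit 203)) (XT.lf (nat_lit 0) (nat_lit 5315045638)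 (nat_lit 988) (nat_lit 1381361809) (nat_lit 1064) (nat_lit 3449854807) (nat_lit 189) (nat_lit 5) (nat_lit 202) (nat_lit 5) (nat_lit 203) (nat_lit 5) (nat_lit 291) (nat_lit 287) (nat_lit 202))))))))
noncomputable def xc179 : XT := (XT.nd (nat_lit 1794) (nat_lit 4560) (nat_lit 0) (XT.nd (nat_lit 858) (nat_lit 3572) (nat_lit 0) (XT.nd (nat_lit 390) (nat_lit 912) (nat_lit 0) (XT.nd (nat_lit 156) (nat_lit 0) (nat_lit 76) (XT.nd (nat_lit 78) (nat_lit 0) (nat_lit 76) (XT.lf (nat_lit 76) (nat_lit 3186937725) (nat_lit 0) (nat_lit 3004095586) (nat_lit 1064) (nat_lit 4091320220) (nat_lit 190) (nat_lit 5) (nat_lit 189) (nat_lit 5) (nat_lit 203) (nat_lit 5) (nat_lit 292) (nat_lit 287) (nat_lit 201)) (XT.lf (nat_lit 0) (nat_lit 7090488124) (nat_lit 988) (nat_lit 2524884146) (nat_lit 1064) (nat_lit 807291029) (nat_lit 190) (nat_lit 5) (nat_lit 203) (nat_lit 5) (nat_lit 204) (nat_lit 5) (nat_lit 293) (nat_lit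 287) (nat_lit 200))) (XT.nd (nat_lit 78) (nat_lit 0) (nat_lit 0) (XT.lf (nat_lit 76) (nat_lit 2180462373) (nat_lit 0) (nat_lit 5863303603) (nat_lit 1064) (nat_lit 2522661084) (nat_lit 191) (nat_lit 5) (nat_lit 190) (nat_lit 5) (nat_lit 204) (nat_lit 5) (nat_lit 294) (nat_lit 287) (nat_lit 199)) (XT.nd (nat_lit 78) (nat_lit 0) (nat_lit 76) (XT.lf (nat_lit 76) (nat_lit 7063768793) (nat_lit 0) (nat_lit 1964056970) (nat_lit 1064) (nat_lit 1686660891) (nat_lit 191) (nat_lit 5) (nat_lit 190) (nat_lit 5) (nat_lit 204) (nat_lit 5) (nat_lit 295) (nat_lit 287) (nat_lit 198)) (XT.lf (nat_lit 76) (nat_lit 1215247056) (nat_lit 0) (nat_lit 8835012875) (nat_lit 1064) (nat_lit 816509547) (nat_lit 192) (nat_lit 5) (nat_lit 191) (nat_lit 5) (nat_lit 205) (nat_lit 5) (nat_lit 296) (nat_lit 287) (nat_lit 197))))) (XT.nd (nat_lit 234) (nat_lit 0) (nat_lit 76) (XT.nd (nat_lit 78) (nat_lit 0) (nat_lit 0) (XT.lf (nat_lit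 0) (nat_lit 112558663) (nat_lit 1064) (nat_lit 4756729955) (nat_lit 1140) (nat_lit 6153322437) (nat_lit 177) (nat_lit 5) (nat_lit 191) (nat_lit 5) (nat_lit 192) (nat_lit 5) (nat_lit 297) (nat_lit 287) (nat_lit 196)) (XT.nd (nat_lit 78) (nat_lit 0) (nat_lit 76) (XT.lf (nat_lit 76) (nat_lit 266820408) (nat_lit 0) (nat_lit 767174322) (nat_lit 1140) (nat_lit 10149506445) (nat_lit 178) (nat_lit 5) (nat_lit 177) (nat_lit 5) (nat_lit 192) (nat_lit 5) (nat_lit 298) (nat_lit 287) (nat_lit 195)) (XT.lf (nat_lit 0) (nat_lit 2043710370) (nat_lit 1064) (nat_lit 5858702277) (nat_lit 1140) (nat_lit 3445028031) (nat_lit 178) (nat_lit 5) (nat_lit 192) (nat_lit 5) (nat_lit 193) (nat_lit 5) (nat_lit 299) (nat_lit 287) (nat_lit 194)))) (XT.nd (nat_lit 78) (nat_lit 0) (nat_lit 76) (XT.lf (nat_lit 0) (nat_lit 3070815033) (nat_lit 1064) (nat_lit 671915019) (nat_lit 1140) (nat_lit 7773995949) (nat_lit 178) (nat_lit 5)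 (nat_lit 192) (nat_lit 5) (nat_lit 193) (nat_lit 5) (nat_lit 300) (nat_lit 287) (nat_lit 193)) (XT.nd (nat_lit 78) (nat_lit 0) (nat_lit 0) (XT.lf (nat_lit 0) (nat_lit 4160182319) (nat_lit 1064) (nat_lit 6947821646) (nat_lit 1140) (nat_lit 582181809) (nat_lit 179) (nat_lit 5) (nat_lit 193) (nat_lit 5) (nat_lit 194) (nat_lit 5) (nat_lit 301) (nat_lit 287) (nat_lit 192)) (XT.lf (nat_lit 0) (nat_lit 5306721681) (nat_lit 1064) (nat_lit 1588334157) (nat_lit 1140) (nat_lit 4973097002) (nat_lit 179) (nat_lit 5) (nat_lit 193) (nat_lit 5) (nat_lit 194) (nat_lit 5) (nat_lit 302) (nat_lit 287) (nat_lit 191)))))) (XT.nd (nat_lit 468) (nat_lit 1596) (nat_lit 0) (XT.nd (nat_lit 234) (nat_lit 1140) (nat_lit 0) (XT.nd (nat_lit 78) (nat_lit 988) (nat_lit 0) (XT.lf (nat_lit 76) (nat_lit 3994932603) (nat_lit 0) (nat_lit 2512274046) (nat_lit 1140) (nat_lit 5543702903) (nat_lit 180) (nat_lit 5) (nat_lit 179) (nat_lit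 5) (nat_lit 194) (nat_lit 5) (nat_lit 303) (nat_lit 287) (nat_lit 190)) (XT.nd (nat_lit 78) (nat_lit 1064) (nat_lit 0) (XT.lf (nat_lit 0) (nat_lit 7760737684) (nat_lit 1064) (nat_lit 2495252816) (nat_lit 76) (nat_lit 1982683555) (nat_lit 180) (nat_lit 5) (nat_lit 194) (nat_lit 5) (nat_lit 181) (nat_lit 5) (nat_lit 304) (nat_lit 287) (nat_lit 189)) (XT.lf (nat_lit 0) (nat_lit 3255965812) (nat_lit 1064) (nat_lit 5834206698) (nat_lit 1140) (nat_lit 3340785034) (nat_lit 166) (nat_lit 5) (nat_lit 180) (nat_lit 5) (nat_lit 181) (nat_lit 5) (nat_lit 305) (nat_lit 287) (nat_lit 188)))) (XT.nd (nat_lit 78) (nat_lit 1140) (nat_lit 0) (XT.lf (nat_lit 0) (nat_lit 9216029336) (nat_lit 1064) (nat_lit 1251161677) (nat_lit 1140) (nat_lit 2161621472) (nat_lit 166) (nat_lit 5) (nat_lit 180) (nat_lit 5) (nat_lit 181) (nat_lit 5) (nat_lit 306) (nat_lit 287) (nat_lit 187)) (XT.nd (nat_lit 78) (nat_lit 76) (nat_lit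 0) (XT.lf (nat_lit 0) (nat_lit 2523201720) (nat_lit 1064) (nat_lit 9402960515) (nat_lit 1140) (nat_lit 905254553) (nat_lit 152) (nat_lit 5) (nat_lit 166) (nat_lit 5) (nat_lit 167) (nat_lit 5) (nat_lit 307) (nat_lit 287) (nat_lit 186)) (XT.lf (nat_lit 0) (nat_lit 411601273) (nat_lit 1140) (nat_lit 4363502576) (nat_lit 76) (nat_lit 8264002788) (nat_lit 151) (nat_lit 5) (nat_lit 166) (nat_lit 5) (nat_lit 152) (nat_lit 5) (nat_lit 308) (nat_lit 287) (nat_lit 185))))) (XT.nd (nat_lit 234) (nat_lit 532) (nat_lit 0) (XT.nd (nat_lit 78) (nat_lit 532) (nat_lit 0) (XT.lf (nat_lit 0) (nat_lit 1750660457) (nat_lit 608) (nat_lit 11482577071) (nat_lit 76) (nat_lit 19524173) (nat_lit 144) (nat_lit 5) (nat_lit 152) (nat_lit 5) (nat_lit 145) (nat_lit 5) (nat_lit 309) (nat_lit 287) (nat_lit 184)) (XT.nd (nat_lit 78) (nat_lit 532) (nat_lit 0) (XT.lf (nat_lit 0) (nat_lit 3205699786) (nat_lit 608) (nat_lit 5357019519)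 (nat_lit 76) (nat_lit 4907862162) (nat_lit 144) (nat_lit 5) (nat_lit 152) (nat_lit 5) (nat_lit 145) (nat_lit 5) (nat_lit 310) (nat_lit 287) (nat_lit 183)) (XT.lf (nat_lit 0) (nat_lit 956275383) (nat_lit 532) (nat_lit 3741803357) (nat_lit 608) (nat_lit 8997074878) (nat_lit 137) (nat_lit 5) (nat_lit 144) (nat_lit 5) (nat_lit 145) (nat_lit 5) (nat_lit 311) (nat_lit 287) (nat_lit 182)))) (XT.nd (nat_lit 78) (nat_lit 532) (nat_lit 0) (XT.lf (nat_lit 0) (nat_lit 6286437497) (nat_lit 608) (nat_lit 6383391558) (nat_lit 76) (nat_lit 1255125245) (nat_lit 137) (nat_lit 5) (nat_lit 145) (nat_lit 5) (nat_lit 138) (nat_lit 5) (nat_lit 312) (nat_lit 287) (nat_lit 181)) (XT.nd (nat_lit 78) (nat_lit 0) (nat_lit 0) (XT.lf (nat_lit 0) (nat_lit 113326155) (nat_lit 532) (nat_lit 7832514190) (nat_lit 608) (nat_lit 6215133672) (nat_lit 130) (nat_lit 5) (nat_lit 137) (nat_lit 5) (nat_lit 138) (nat_lit 5) (nat_lit 313)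 (nat_lit 287) (nat_lit 180)) (XT.lf (nat_lit 0) (nat_lit 6921344373) (nat_lit 532) (nat_lit 2783687535) (nat_lit 608) (nat_lit 4697568251) (nat_lit 130) (nat_lit 5) (nat_lit 137) (nat_lit 5) (nat_lit 138) (nat_lit 5) (nat_lit 314) (nat_lit 287) (nat_lit 179))))))) (XT.nd (nat_lit 936) (nat_lit 1748) (nat_lit 0) (XT.nd (nat_lit 468) (nat_lit 1292) (nat_lit 0) (XT.nd (nat_lit 234) (nat_lit 912) (nat_lit 0) (XT.nd (nat_lit 78) (nat_lit 608) (nat_lit 0) (XT.lf (nat_lit 0) (nat_lit 11526196939) (nat_lit 608) (nat_lit 755581348) (nat_lit 76) (nat_lit 2369446141) (nat_lit 130) (nat_lit 5) (nat_lit 138) (nat_lit 5) (nat_lit 131) (nat_lit 5) (nat_lit 315) (nat_lit 287) (nat_lit 178)) (XT.nd (nat_lit 78) (nat_lit 76) (nat_lit 0) (XT.lf (nat_lit 0) (nat_lit 6252248149) (nat_lit 532) (nat_lit 7223787017) (nat_lit 608) (nat_lit 1429075652) (nat_lit 123) (nat_lit 5) (nat_lit 130) (nat_lit 5) (nat_lit 131) (nat_lit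 5) (nat_lit 316) (nat_lit 287) (nat_lit 177)) (XT.lf (nat_lit 0) (nat_lit 305743534) (nat_lit 608) (nat_lit 1697925786) (nat_lit 76) (nat_lit 13163050294) (nat_lit 122) (nat_lit 5) (nat_lit 130) (nat_lit 5) (nat_lit 123) (nat_lit 5) (nat_lit 317) (nat_lit 287) (nat_lit 176)))) (XT.nd (nat_lit 78) (nat_lit 456) (nat_lit 0) (XT.lf (nat_lit 0) (nat_lit 2137158029) (nat_lit 532) (nat_lit 9921721353) (nat_lit 76) (nat_lit 3374697060) (nat_lit 116) (nat_lit 5) (nat_lit 123) (nat_lit 5) (nat_lit 117) (nat_lit 5) (nat_lit 318) (nat_lit 287) (nat_lit 175)) (XT.nd (nat_lit 78) (nat_lit 456) (nat_lit 0) (XT.lf (nat_lit 0) (nat_lit 4047789587) (nat_lit 532) (nat_lit 2769260684) (nat_lit 76) (nat_lit 8890682266) (nat_lit 116) (nat_lit 5) (nat_lit 123) (nat_lit 5) (nat_lit 117) (nat_lit 5) (nat_lit 319) (nat_lit 287) (nat_lit 174)) (XT.lf (nat_lit 0) (nat_lit 4675353173) (nat_lit 456) (nat_lit 1372825231) (nat_lit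 532) (nat_lit 9940982929) (nat_lit 110) (nat_lit 5) (nat_lit 116) (nat_lit 5) (nat_lit 117) (nat_lit 5) (nat_lit 320) (nat_lit 287) (nat_lit 173))))) (XT.nd (nat_lit 234) (nat_lit 912) (nat_lit 0) (XT.nd (nat_lit 78) (nat_lit 380) (nat_lit 0) (XT.lf (nat_lit 0) (nat_lit 8165244822) (nat_lit 532) (nat_lit 3933001529) (nat_lit 76) (nat_lit 4179107214) (nat_lit 110) (nat_lit 5) (nat_lit 117) (nat_lit 5) (nat_lit 111) (nat_lit 5) (nat_lit 321) (nat_lit 287) (nat_lit 172)) (XT.nd (nat_lit 78) (nat_lit 0) (nat_lit 0) (XT.lf (nat_lit 0) (nat_lit 3714631172) (nat_lit 380) (nat_lit 6668567597) (nat_lit 456) (nat_lit 6189891482) (nat_lit 105) (nat_lit 5) (nat_lit 110) (nat_lit 5) (nat_lit 111) (nat_lit 5) (nat_lit 322) (nat_lit 287) (nat_lit 171)) (XT.lf (nat_lit 0) (nat_lit 11658956170) (nat_lit 380) (nat_lit 1036745556) (nat_lit 456) (nat_lit 4181176371) (nat_lit 105) (nat_lit 5) (nat_lit 110) (nat_lit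 5) (nat_lit 111) (nat_lit 5) (nat_lit 323) (nat_lit 287) (nat_lit 170)))) (XT.nd (nat_lit 78) (nat_lit 456) (nat_lit 0) (XT.lf (nat_lit 0) (nat_lit 2644322258) (nat_lit 456) (nat_lit 12493091416) (nat_lit 532) (nat_lit 2050589693) (nat_lit 99) (nat_lit 5) (nat_lit 105) (nat_lit 5) (nat_lit 106) (nat_lit 5) (nat_lit 324) (nat_lit 287) (nat_lit 169)) (XT.nd (nat_lit 78) (nat_lit 380) (nat_lit 0) (XT.lf (nat_lit 0) (nat_lit 193280017) (nat_lit 532) (nat_lit 6683082220) (nat_lit 76) (nat_lit 10630511173) (nat_lit 98) (nat_lit 5) (nat_lit 105) (nat_lit 5) (nat_lit 99) (nat_lit 5) (nat_lit 325) (nat_lit 287) (nat_lit 168)) (XT.lf (nat_lit 0) (nat_lit 1407460759) (nat_lit 380) (nat_lit 1058345288) (nat_lit 456) (nat_lit 15368834981) (nat_lit 93) (nat_lit 5) (nat_lit 98) (nat_lit 5) (nat_lit 99) (nat_lit 5) (nat_lit 326) (nat_lit 287) (nat_lit 167)))))) (XT.nd (nat_lit 468) (nat_lit 1064) (nat_lit 0) (XT.nd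 (nat_lit 234) (nat_lit 304) (nat_lit 0) (XT.nd (nat_lit 78) (nat_lit 380) (nat_lit 0) (XT.lf (nat_lit 0) (nat_lit 4911293501) (nat_lit 456) (nat_lit 8353826719) (nat_lit 76) (nat_lit 4903994593) (nat_lit 93) (nat_lit 5) (nat_lit 99) (nat_lit 5) (nat_lit 94) (nat_lit 5) (nat_lit 327) (nat_lit 287) (nat_lit 166)) (XT.nd (nat_lit 78) (nat_lit 380) (nat_lit 0) (XT.lf (nat_lit 0) (nat_lit 7430139559) (nat_lit 456) (nat_lit 61593406) (nat_lit 76) (nat_lit 11021906250) (nat_lit 93) (nat_lit 5) (nat_lit 99) (nat_lit 5) (nat_lit 94) (nat_lit 5) (nat_lit 328) (nat_lit 287) (nat_lit 165)) (XT.lf (nat_lit 0) (nat_lit 8635447453) (nat_lit 380) (nat_lit 1461933441) (nat_lit 456) (nat_lit 8768949309) (nat_lit 88) (nat_lit 5) (nat_lit 93) (nat_lit 5) (nat_lit 94) (nat_lit 5) (nat_lit 329) (nat_lit 287) (nat_lit 164)))) (XT.nd (nat_lit 78) (nat_lit 304) (nat_lit 0) (XT.lf (nat_lit 0) (nat_lit 12880891554) (nat_lit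 456) (nat_lit 1693213962) (nat_lit 76) (nat_lit 4654424135) (nat_lit 88) (nat_lit 5) (nat_lit 94) (nat_lit 5) (nat_lit 89) (nat_lit 5) (nat_lit 330) (nat_lit 287) (nat_lit 163)) (XT.nd (nat_lit 78) (nat_lit 0) (nat_lit 0) (XT.lf (nat_lit 0) (nat_lit 7214623000) (nat_lit 304) (nat_lit 8607378418) (nat_lit 380) (nat_lit 3777385694) (nat_lit 84) (nat_lit 5) (nat_lit 88) (nat_lit 5) (nat_lit 89) (nat_lit 5) (nat_lit 331) (nat_lit 287) (nat_lit 162)) (XT.lf (nat_lit 0) (nat_lit 16412254018) (nat_lit 304) (nat_lit 2446623292) (nat_lit 380) (nat_lit 1122281419) (nat_lit 84) (nat_lit 5) (nat_lit 88) (nat_lit 5) (nat_lit 89) (nat_lit 5) (nat_lit 332) (nat_lit 287) (nat_lit 161))))) (XT.nd (nat_lit 234) (nat_lit 304) (nat_lit 0) (XT.nd (nat_lit 78) (nat_lit 304) (nat_lit 0) (XT.lf (nat_lit 0) (nat_lit 1663522232) (nat_lit 456) (nat_lit 14817666323) (nat_lit 76) (nat_lit 3890268177) (nat_lit 78) (nat_lit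 5) (nat_lit 84) (nat_lit 5) (nat_lit 79) (nat_lit 5) (nat_lit 333) (nat_lit 287) (nat_lit 160)) (XT.nd (nat_lit 78) (nat_lit 304) (nat_lit 0) (XT.lf (nat_lit 0) (nat_lit 4561704465) (nat_lit 456) (nat_lit 5796893623) (nat_lit 76) (nat_lit 10413004592) (nat_lit 78) (nat_lit 5) (nat_lit 84) (nat_lit 5) (nat_lit 79) (nat_lit 5) (nat_lit 334) (nat_lit 287) (nat_lit 159)) (XT.lf (nat_lit 0) (nat_lit 3552024729) (nat_lit 304) (nat_lit 4019962801) (nat_lit 380) (nat_lit 13611023621) (nat_lit 74) (nat_lit 5) (nat_lit 78) (nat_lit 5) (nat_lit 79) (nat_lit 5) (nat_lit 335) (nat_lit 287) (nat_lit 158)))) (XT.nd (nat_lit 78) (nat_lit 304) (nat_lit 0) (XT.lf (nat_lit 0) (nat_lit 10746945808) (nat_lit 380) (nat_lit 8341385581) (nat_lit 76) (nat_lit 2516211919) (nat_lit 74) (nat_lit 5) (nat_lit 79) (nat_lit 5) (nat_lit 75) (nat_lit 5) (nat_lit 336) (nat_lit 287) (nat_lit 157)) (XT.nd (nat_lit 78) (nat_lit 0)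 (nat_lit 0) (XT.lf (nat_lit 0) (nat_lit 1198919147) (nat_lit 304) (nat_lit 12860951753) (nat_lit 380) (nat_lit 7977581061) (nat_lit 70) (nat_lit 5) (nat_lit 74) (nat_lit 5) (nat_lit 75) (nat_lit 5) (nat_lit 337) (nat_lit 287) (nat_lit 156)) (XT.lf (nat_lit 0) (nat_lit 11184958995) (nat_lit 304) (nat_lit 6362988624) (nat_lit 380) (nat_lit 4933139056) (nat_lit 70) (nat_lit 5) (nat_lit 74) (nat_lit 5) (nat_lit 75) (nat_lit 5) (nat_lit 338) (nat_lit 287) (nat_lit 155))))))))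
noncomputable def xc180 : XT := (XT.nd (nat_lit 1794) (nat_lit 1444) (nat_lit 0) (XT.nd (nat_lit 858) (nat_lit 988) (nat_lit 0) (XT.nd (nat_lit 390) (nat_lit 760) (nat_lit 0) (XT.nd (nat_lit 156) (nat_lit 304) (nat_lit 0) (XT.nd (nat_lit 78) (nat_lit 380) (nat_lit 0) (XT.lf (nat_lit 0) (nat_lit 21135588874) (nat_lit 380) (nat_lit 1481982110) (nat_lit 76) (nat_lit 320623160) (nat_lit 70) (nat_lit 5) (nat_lit 75) (nat_lit 5) (nat_lit 71) (nat_lit 5) (nat_lit 339) (nat_lit 287) (nat_lit 154)) (XT.lf (nat_lit 0) (nat_lit 1534302708) (nat_lit 380) (nat_lit 14697131754) (nat_lit 76) (nat_lit 7172974964) (nat_lit 65) (nat_lit 5) (nat_lit 70) (nat_lit 5) (nat_lit 66) (nat_lit 5) (nat_lit 340) (nat_lit 287) (nat_lit 153))) (XT.nd (nat_lit 78) (nat_lit 304) (nat_lit 0) (XT.lf (nat_lit 0) (nat_lit 4942231541) (nat_lit 380) (nat_lit 4680653914) (nat_lit 76) (nat_lit 14260986373) (nat_lit 65) (nat_lit 5) (nat_lit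 70) (nat_lit 5) (nat_lit 66) (nat_lit 5) (nat_lit 341) (nat_lit 287) (nat_lit 152)) (XT.nd (nat_lit 78) (nat_lit 0) (nat_lit 0) (XT.lf (nat_lit 0) (nat_lit 5737510392) (nat_lit 304) (nat_lit 2762303327) (nat_lit 380) (nat_lit 15876492027) (nat_lit 61) (nat_lit 5) (nat_lit 65) (nat_lit 5) (nat_lit 66) (nat_lit 5) (nat_lit 342) (nat_lit 287) (nat_lit 151)) (XT.lf (nat_lit 0) (nat_lit 12245586957) (nat_lit 380) (nat_lit 8370638597) (nat_lit 76) (nat_lit 4264853035) (nat_lit 61) (nat_lit 5) (nat_lit 66) (nat_lit 5) (nat_lit 62) (nat_lit 5) (nat_lit 343) (nat_lit 287) (nat_lit 150))))) (XT.nd (nat_lit 234) (nat_lit 532) (nat_lit 0) (XT.nd (nat_lit 78) (nat_lit 0) (nat_lit 0) (XT.lf (nat_lit 0) (nat_lit 2210799874) (nat_lit 228) (nat_lit 13934113827) (nat_lit 304) (nat_lit 9254855038) (nat_lit 58) (nat_lit 5) (nat_lit 61) (nat_lit 5) (nat_lit 62) (nat_lit 5) (nat_lit 344) (nat_lit 287) (nat_lit 149))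 (XT.nd (nat_lit 78) (nat_lit 0) (nat_lit 0) (XT.lf (nat_lit 0) (nat_lit 13270820738) (nat_lit 228) (nat_lit 6967621437) (nat_lit 304) (nat_lit 5693270011) (nat_lit 58) (nat_lit 5) (nat_lit 61) (nat_lit 5) (nat_lit 62) (nat_lit 5) (nat_lit 345) (nat_lit 287) (nat_lit 148)) (XT.lf (nat_lit 0) (nat_lit 24449652942) (nat_lit 304) (nat_lit 1829308495) (nat_lit 76) (nat_lit 200815188) (nat_lit 58) (nat_lit 5) (nat_lit 62) (nat_lit 5) (nat_lit 59) (nat_lit 5) (nat_lit 346) (nat_lit 287) (nat_lit 147)))) (XT.nd (nat_lit 78) (nat_lit 228) (nat_lit 0) (XT.lf (nat_lit 0) (nat_lit 1863150869) (nat_lit 304) (nat_lit 17625720343) (nat_lit 76) (nat_lit 7550290300) (nat_lit 54) (nat_lit 5) (nat_lit 58) (nat_lit 5) (nat_lit 55) (nat_lit 5) (nat_lit 347) (nat_lit 287) (nat_lit 146)) (XT.nd (nat_lit 78) (nat_lit 228) (nat_lit 0) (XT.lf (nat_lit 0) (nat_lit 5844191376) (nat_lit 304) (nat_lit 6614168896) (nat_lit 76)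 (nat_lit 15156019750) (nat_lit 54) (nat_lit 5) (nat_lit 58) (nat_lit 5) (nat_lit 55) (nat_lit 5) (nat_lit 348) (nat_lit 287) (nat_lit 145)) (XT.lf (nat_lit 0) (nat_lit 4811834688) (nat_lit 228) (nat_lit 5172399084) (nat_lit 304) (nat_lit 18221442178) (nat_lit 51) (nat_lit 5) (nat_lit 54) (nat_lit 5) (nat_lit 55) (nat_lit 5) (nat_lit 349) (nat_lit 287) (nat_lit 144)))))) (XT.nd (nat_lit 468) (nat_lit 456) (nat_lit 0) (XT.nd (nat_lit 234) (nat_lit 304) (nat_lit 0) (XT.nd (nat_lit 78) (nat_lit 228) (nat_lit 0) (XT.lf (nat_lit 0) (nat_lit 14331734766) (nat_lit 304) (nat_lit 12129453883) (nat_lit 76) (nat_lit 2351032133) (nat_lit 51) (nat_lit 5) (nat_lit 55) (nat_lit 5) (nat_lit 52) (nat_lit 5) (nat_lit 350) (nat_lit 287) (nat_lit 143)) (XT.nd (nat_lit 78) (nat_lit 228) (nat_lit 0) (XT.lf (nat_lit 0) (nat_lit 18854453182) (nat_lit 304) (nat_lit 587929218) (nat_lit 76) (nat_lit 9993243311) (nat_lit 51)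 (nat_lit 5) (nat_lit 55) (nat_lit 5) (nat_lit 52) (nat_lit 5) (nat_lit 351) (nat_lit 287) (nat_lit 142)) (XT.lf (nat_lit 0) (nat_lit 11515241664) (nat_lit 228) (nat_lit 12102070526) (nat_lit 304) (nat_lit 6457294129) (nat_lit 48) (nat_lit 5) (nat_lit 51) (nat_lit 5) (nat_lit 52) (nat_lit 5) (nat_lit 352) (nat_lit 287) (nat_lit 141)))) (XT.nd (nat_lit 78) (nat_lit 304) (nat_lit 0) (XT.lf (nat_lit 0) (nat_lit 23984347493) (nat_lit 228) (nat_lit 4538506880) (nat_lit 304) (nat_lit 2209915142) (nat_lit 48) (nat_lit 5) (nat_lit 51) (nat_lit 5) (nat_lit 52) (nat_lit 5) (nat_lit 353) (nat_lit 287) (nat_lit 140)) (XT.nd (nat_lit 78) (nat_lit 0) (nat_lit 0) (XT.lf (nat_lit 0) (nat_lit 2201386995) (nat_lit 304) (nat_lit 25946436468) (nat_lit 76) (nat_lit 3259874126) (nat_lit 44) (nat_lit 5) (nat_lit 48) (nat_lit 5) (nat_lit 45) (nat_lit 5) (nat_lit 354) (nat_lit 287) (nat_lit 139)) (XT.lf (nat_lit 0) (nat_lit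 6808400799) (nat_lit 304) (nat_lit 14001885984) (nat_lit 76) (nat_lit 11288703110) (nat_lit 44) (nat_lit 5) (nat_lit 48) (nat_lit 5) (nat_lit 45) (nat_lit 5) (nat_lit 355) (nat_lit 287) (nat_lit 138))))) (XT.nd (nat_lit 234) (nat_lit 228) (nat_lit 0) (XT.nd (nat_lit 78) (nat_lit 228) (nat_lit 0) (XT.lf (nat_lit 0) (nat_lit 11547832254) (nat_lit 304) (nat_lit 1707869741) (nat_lit 76) (nat_lit 19555499053) (nat_lit 44) (nat_lit 5) (nat_lit 48) (nat_lit 5) (nat_lit 45) (nat_lit 5) (nat_lit 356) (nat_lit 287) (nat_lit 137)) (XT.nd (nat_lit 78) (nat_lit 0) (nat_lit 0) (XT.lf (nat_lit 0) (nat_lit 11164208523) (nat_lit 228) (nat_lit 5366931289) (nat_lit 304) (nat_lit 17010594047) (nat_lit 41) (nat_lit 5) (nat_lit 44) (nat_lit 5) (nat_lit 45) (nat_lit 5) (nat_lit 357) (nat_lit 287) (nat_lit 136)) (XT.lf (nat_lit 0) (nat_lit 21702308992) (nat_lit 304) (nat_lit 9871565101) (nat_lit 76) (nat_lit 2719163630)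 (nat_lit 41) (nat_lit 5) (nat_lit 45) (nat_lit 5) (nat_lit 42) (nat_lit 5) (nat_lit 358) (nat_lit 287) (nat_lit 135)))) (XT.nd (nat_lit 78) (nat_lit 76) (nat_lit 0) (XT.lf (nat_lit 0) (nat_lit 3006688442) (nat_lit 152) (nat_lit 24098556214) (nat_lit 228) (nat_lit 7959342869) (nat_lit 39) (nat_lit 5) (nat_lit 41) (nat_lit 5) (nat_lit 42) (nat_lit 5) (nat_lit 359) (nat_lit 287) (nat_lit 134)) (XT.nd (nat_lit 78) (nat_lit 76) (nat_lit 0) (XT.lf (nat_lit 0) (nat_lit 16465310651) (nat_lit 152) (nat_lit 16299309939) (nat_lit 228) (nat_lit 3091838262) (nat_lit 39) (nat_lit 5) (nat_lit 41) (nat_lit 5) (nat_lit 42) (nat_lit 5) (nat_lit 360) (nat_lit 287) (nat_lit 133)) (XT.lf (nat_lit 0) (nat_lit 1878959811) (nat_lit 228) (nat_lit 6371070224) (nat_lit 76) (nat_lit 28421664362) (nat_lit 38) (nat_lit 5) (nat_lit 41) (nat_lit 5) (nat_lit 39) (nat_lit 5) (nat_lit 361) (nat_lit 287) (nat_lit 132))))))) (XT.nd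 (nat_lit 936) (nat_lit 684) (nat_lit 0) (XT.nd (nat_lit 468) (nat_lit 380) (nat_lit 0) (XT.nd (nat_lit 234) (nat_lit 152) (nat_lit 0) (XT.nd (nat_lit 78) (nat_lit 0) (nat_lit 0) (XT.lf (nat_lit 0) (nat_lit 7001642837) (nat_lit 304) (nat_lit 30369545399) (nat_lit 76) (nat_lit 137338411) (nat_lit 35) (nat_lit 5) (nat_lit 39) (nat_lit 5) (nat_lit 36) (nat_lit 5) (nat_lit 362) (nat_lit 287) (nat_lit 131)) (XT.nd (nat_lit 78) (nat_lit 0) (nat_lit 0) (XT.lf (nat_lit 0) (nat_lit 12419626471) (nat_lit 304) (nat_lit 17273932798) (nat_lit 76) (nat_lit 8672660964) (nat_lit 35) (nat_lit 5) (nat_lit 39) (nat_lit 5) (nat_lit 36) (nat_lit 5) (nat_lit 363) (nat_lit 287) (nat_lit 130)) (XT.lf (nat_lit 0) (nat_lit 17995260636) (nat_lit 304) (nat_lit 3793231921) (nat_lit 76) (nat_lit 17461303568) (nat_lit 35) (nat_lit 5) (nat_lit 39) (nat_lit 5) (nat_lit 36) (nat_lit 5) (nat_lit 364) (nat_lit 287) (nat_lit 129))))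 (XT.nd (nat_lit 78) (nat_lit 0) (nat_lit 0) (XT.lf (nat_lit 0) (nat_lit 10285034554) (nat_lit 152) (nat_lit 13547248733) (nat_lit 228) (nat_lit 16324777111) (nat_lit 33) (nat_lit 5) (nat_lit 35) (nat_lit 5) (nat_lit 36) (nat_lit 5) (nat_lit 365) (nat_lit 287) (nat_lit 128)) (XT.nd (nat_lit 78) (nat_lit 0) (nat_lit 0) (XT.lf (nat_lit 0) (nat_lit 24855927117) (nat_lit 152) (nat_lit 5022113477) (nat_lit 228) (nat_lit 11212497836) (nat_lit 33) (nat_lit 5) (nat_lit 35) (nat_lit 5) (nat_lit 36) (nat_lit 5) (nat_lit 366) (nat_lit 287) (nat_lit 127)) (XT.lf (nat_lit 0) (nat_lit 36136732240) (nat_lit 228) (nat_lit 2231582206) (nat_lit 76) (nat_lit 3682763928) (nat_lit 33) (nat_lit 5) (nat_lit 36) (nat_lit 5) (nat_lit 34) (nat_lit 5) (nat_lit 367) (nat_lit 287) (nat_lit 126))))) (XT.nd (nat_lit 234) (nat_lit 152) (nat_lit 0) (XT.nd (nat_lit 78) (nat_lit 76) (nat_lit 0) (XT.lf (nat_lit 0) (nat_lit 12376155890)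 (nat_lit 152) (nat_lit 30371282893) (nat_lit 228) (nat_lit 288072399) (nat_lit 31) (nat_lit 5) (nat_lit 33) (nat_lit 5) (nat_lit 34) (nat_lit 5) (nat_lit 368) (nat_lit 287) (nat_lit 125)) (XT.nd (nat_lit 78) (nat_lit 0) (nat_lit 0) (XT.lf (nat_lit 0) (nat_lit 5417862797) (nat_lit 228) (nat_lit 16641272457) (nat_lit 76) (nat_lit 21988207634) (nat_lit 30) (nat_lit 5) (nat_lit 33) (nat_lit 5) (nat_lit 31) (nat_lit 5) (nat_lit 369) (nat_lit 287) (nat_lit 124)) (XT.lf (nat_lit 0) (nat_lit 11284891642) (nat_lit 228) (nat_lit 2212473350) (nat_lit 76) (nat_lit 31592211746) (nat_lit 30) (nat_lit 5) (nat_lit 33) (nat_lit 5) (nat_lit 31) (nat_lit 5) (nat_lit 370) (nat_lit 287) (nat_lit 123)))) (XT.nd (nat_lit 78) (nat_lit 0) (nat_lit 0) (XT.lf (nat_lit 0) (nat_lit 12894027768) (nat_lit 152) (nat_lit 4553679510) (nat_lit 228) (nat_lit 28711780858) (nat_lit 28) (nat_lit 5) (nat_lit 30) (nat_lit 5) (nat_lit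 31) (nat_lit 5) (nat_lit 371) (nat_lit 287) (nat_lit 122)) (XT.nd (nat_lit 78) (nat_lit 0) (nat_lit 0) (XT.lf (nat_lit 0) (nat_lit 23858611537) (nat_lit 228) (nat_lit 18813555623) (nat_lit 76) (nat_lit 4587437293) (nat_lit 28) (nat_lit 5) (nat_lit 31) (nat_lit 5) (nat_lit 29) (nat_lit 5) (nat_lit 372) (nat_lit 287) (nat_lit 121)) (XT.lf (nat_lit 0) (nat_lit 30502912078) (nat_lit 228) (nat_lit 3979788077) (nat_lit 76) (nat_lit 13908795623) (nat_lit 28) (nat_lit 5) (nat_lit 31) (nat_lit 5) (nat_lit 29) (nat_lit 5) (nat_lit 373) (nat_lit 287) (nat_lit 120)))))) (XT.nd (nat_lit 468) (nat_lit 304) (nat_lit 0) (XT.nd (nat_lit 234) (nat_lit 152) (nat_lit 0) (XT.nd (nat_lit 78) (nat_lit 76) (nat_lit 0) (XT.lf (nat_lit 0) (nat_lit 11517320984) (nat_lit 152) (nat_lit 25936032400) (nat_lit 228) (nat_lit 12100789595) (nat_lit 26) (nat_lit 5) (nat_lit 28) (nat_lit 5) (nat_lit 29) (nat_lit 5) (nat_lit 374) (nat_lit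 287) (nat_lit 119)) (XT.nd (nat_lit 78) (nat_lit 76) (nat_lit 0) (XT.lf (nat_lit 0) (nat_lit 27554572044) (nat_lit 152) (nat_lit 17094076671) (nat_lit 228) (nat_lit 6101934043) (nat_lit 26) (nat_lit 5) (nat_lit 28) (nat_lit 5) (nat_lit 29) (nat_lit 5) (nat_lit 375) (nat_lit 287) (nat_lit 118)) (XT.lf (nat_lit 0) (nat_lit 71611410) (nat_lit 228) (nat_lit 7916960498) (nat_lit 76) (nat_lit 43994438104) (nat_lit 25) (nat_lit 5) (nat_lit 28) (nat_lit 5) (nat_lit 26) (nat_lit 5) (nat_lit 376) (nat_lit 287) (nat_lit 117)))) (XT.nd (nat_lit 78) (nat_lit 0) (nat_lit 0) (XT.lf (nat_lit 0) (nat_lit 6394764616) (nat_lit 228) (nat_lit 45354819272) (nat_lit 76) (nat_lit 1498405513) (nat_lit 23) (nat_lit 5) (nat_lit 26) (nat_lit 5) (nat_lit 24) (nat_lit 5) (nat_lit 377) (nat_lit 287) (nat_lit 116)) (XT.nd (nat_lit 78) (nat_lit 0) (nat_lit 0) (XT.lf (nat_lit 0) (nat_lit 13063805133) (nat_lit 228) (nat_lit 30294604979)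 (nat_lit 76) (nat_lit 11187825288) (nat_lit 23) (nat_lit 5) (nat_lit 26) (nat_lit 5) (nat_lit 24) (nat_lit 5) (nat_lit 378) (nat_lit 287) (nat_lit 115)) (XT.lf (nat_lit 0) (nat_lit 19929383488) (nat_lit 228) (nat_lit 14788500250) (nat_lit 76) (nat_lit 21165653962) (nat_lit 23) (nat_lit 5) (nat_lit 26) (nat_lit 5) (nat_lit 24) (nat_lit 5) (nat_lit 379) (nat_lit 287) (nat_lit 114))))) (XT.nd (nat_lit 234) (nat_lit 152) (nat_lit 0) (XT.nd (nat_lit 78) (nat_lit 0) (nat_lit 0) (XT.lf (nat_lit 0) (nat_lit 1200469419) (nat_lit 152) (nat_lit 25808568958) (nat_lit 228) (nat_lit 30251680254) (nat_lit 21) (nat_lit 5) (nat_lit 23) (nat_lit 5) (nat_lit 24) (nat_lit 5) (nat_lit 380) (nat_lit 287) (nat_lit 113)) (XT.nd (nat_lit 78) (nat_lit 0) (nat_lit 0) (XT.lf (nat_lit 0) (nat_lit 17966570564) (nat_lit 152) (nat_lit 16480461987) (nat_lit 228) (nat_lit 24227806701) (nat_lit 21) (nat_lit 5) (nat_lit 23) (nat_lit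 5) (nat_lit 24) (nat_lit 5) (nat_lit 381) (nat_lit 287) (nat_lit 112)) (XT.lf (nat_lit 0) (nat_lit 35230133024) (nat_lit 152) (nat_lit 6874746909) (nat_lit 228) (nat_lit 18026604833) (nat_lit 21) (nat_lit 5) (nat_lit 23) (nat_lit 5) (nat_lit 24) (nat_lit 5) (nat_lit 382) (nat_lit 287) (nat_lit 111)))) (XT.nd (nat_lit 78) (nat_lit 152) (nat_lit 0) (XT.lf (nat_lit 0) (nat_lit 50018272803) (nat_lit 228) (nat_lit 8654687461) (nat_lit 76) (nat_lit 2958097674) (nat_lit 21) (nat_lit 5) (nat_lit 24) (nat_lit 5) (nat_lit 22) (nat_lit 4) (nat_lit 383) (nat_lit 287) (nat_lit 110)) (XT.nd (nat_lit 78) (nat_lit 76) (nat_lit 0) (XT.lf (nat_lit 0) (nat_lit 8165365684) (nat_lit 76) (nat_lit 50147140860) (nat_lit 152) (nat_lit 4858811108) (nat_lit 20) (nat_lit 5) (nat_lit 21) (nat_lit 5) (nat_lit 22) (nat_lit 4) (nat_lit 384) (nat_lit 287) (nat_lit 109)) (XT.lf (nat_lit 0) (nat_lit 2141997017) (nat_lit 152) (nat_lit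 39114053205) (nat_lit 76) (nat_lit 23498577853) (nat_lit 19) (nat_lit 5) (nat_lit 21) (nat_lit 5) (nat_lit 20) (nat_lit 5) (nat_lit 385) (nat_lit 287) (nat_lit 108))))))))
noncomputable def xc181 : XT := (XT.nd (nat_lit 34398) (nat_lit 0) (nat_lit 5396) (XT.nd (nat_lit 33462) (nat_lit 0) (nat_lit 12160) (XT.nd (nat_lit 32994) (nat_lit 0) (nat_lit 12996) (XT.nd (nat_lit 156) (nat_lit 152) (nat_lit 0) (XT.nd (nat_lit 78) (nat_lit 0) (nat_lit 0) (XT.lf (nat_lit 0) (nat_lit 9252152182) (nat_lit 152) (nat_lit 22798642842) (nat_lit 76) (nat_lit 34333292477) (nat_lit 19) (nat_lit 5) (nat_lit 21) (nat_lit 5) (nat_lit 20) (nat_lit 5) (nat_lit 386) (nat_lit 287) (nat_lit 107)) (XT.lf (nat_lit 0) (nat_lit 16572680047) (nat_lit 152) (nat_lit 5998758833) (nat_lit 76) (nat_lit 45491082027) (nat_lit 19) (nat_lit 5) (nat_lit 21) (nat_lit 5) (nat_lit 20) (nat_lit 5) (nat_lit 387) (nat_lit 287) (nat_lit 106))) (XT.nd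 (nat_lit 78) (nat_lit 0) (nat_lit 0) (XT.lf (nat_lit 0) (nat_lit 11525176029) (nat_lit 152) (nat_lit 12695588204) (nat_lit 228) (nat_lit 45567307043) (nat_lit 17) (nat_lit 5) (nat_lit 19) (nat_lit 5) (nat_lit 20) (nat_lit 5) (nat_lit 388) (nat_lit 287) (nat_lit 105)) (XT.nd (nat_lit 78) (nat_lit 0) (nat_lit 0) (XT.lf (nat_lit 0) (nat_lit 29693001733) (nat_lit 152) (nat_lit 2463055164) (nat_lit 228) (nat_lit 39407600389) (nat_lit 17) (nat_lit 5) (nat_lit 19) (nat_lit 5) (nat_lit 20) (nat_lit 5) (nat_lit 389) (nat_lit 287) (nat_lit 104)) (XT.lf (nat_lit 0) (nat_lit 40404297711) (nat_lit 228) (nat_lit 25069006028) (nat_lit 76) (nat_lit 7916962506) (nat_lit 17) (nat_lit 5) (nat_lit 20) (nat_lit 5) (nat_lit 18) (nat_lit 4) (nat_lit 390) (nat_lit 287) (nat_lit 103))))) (XT.nd (nat_lit 234) (nat_lit 0) (nat_lit 0) (XT.nd (nat_lit 78) (nat_lit 0) (nat_lit 0) (XT.lf (nat_lit 0) (nat_lit 898893931) (nat_lit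 0) (nat_lit 898893931) (nat_lit 988) (nat_lit 3143690951) (nat_lit 188) (nat_lit 5) (nat_lit 188) (nat_lit 3) (nat_lit 201) (nat_lit 3) (nat_lit 288) (nat_lit 288) (nat_lit 204)) (XT.nd (nat_lit 78) (nat_lit 0) (nat_lit 0) (XT.lf (nat_lit 0) (nat_lit 4337084868) (nat_lit 988) (nat_lit 3834678849) (nat_lit 1064) (nat_lit 1837414358) (nat_lit 188) (nat_lit 5) (nat_lit 201) (nat_lit 3) (nat_lit 202) (nat_lit 5) (nat_lit 289) (nat_lit 288) (nat_lit 203)) (XT.lf (nat_lit 76) (nat_lit 521677120) (nat_lit 0) (nat_lit 4575971200) (nat_lit 1064) (nat_lit 5041687053) (nat_lit 189) (nat_lit 5) (nat_lit 188) (nat_lit 5) (nat_lit 202) (nat_lit 5) (nat_lit 290) (nat_lit 288) (nat_lit 202)))) (XT.nd (nat_lit 78) (nat_lit 0) (nat_lit 76) (XT.lf (nat_lit 76) (nat_lit 5073438876) (nat_lit 0) (nat_lit 820930917) (nat_lit 1064) (nat_lit 4378680284) (nat_lit 189) (nat_lit 5) (nat_lit 188) (nat_lit 5) (nat_lit 202)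 (nat_lit 5) (nat_lit 291) (nat_lit 288) (nat_lit 201)) (XT.nd (nat_lit 78) (nat_lit 0) (nat_lit 0) (XT.lf (nat_lit 0) (nat_lit 6719745114) (nat_lit 988) (nat_lit 692695366) (nat_lit 1064) (nat_lit 2998244553) (nat_lit 189) (nat_lit 5) (nat_lit 202) (nat_lit 5) (nat_lit 203) (nat_lit 5) (nat_lit 292) (nat_lit 288) (nat_lit 200)) (XT.lf (nat_lit 76) (nat_lit 4005495239) (nat_lit 0) (nat_lit 3587197247) (nat_lit 1064) (nat_lit 2959122111) (nat_lit 190) (nat_lit 5) (nat_lit 189) (nat_lit 5) (nat_lit 203) (nat_lit 5) (nat_lit 293) (nat_lit 288) (nat_lit 199)))))) (XT.nd (nat_lit 468) (nat_lit 0) (nat_lit 76) (XT.nd (nat_lit 234) (nat_lit 988) (nat_lit 0) (XT.nd (nat_lit 78) (nat_lit 0) (nat_lit 0) (XT.lf (nat_lit 0) (nat_lit 8479114769) (nat_lit 988) (nat_lit 1856263936) (nat_lit 1064) (nat_lit 362229176) (nat_lit 190) (nat_lit 5) (nat_lit 203) (nat_lit 5) (nat_lit 204) (nat_lit 5) (nat_lit 294) (nat_lit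 288) (nat_lit 198)) (XT.nd (nat_lit 78) (nat_lit 0) (nat_lit 0) (XT.lf (nat_lit 76) (nat_lit 2982945264) (nat_lit 0) (nat_lit 6450880987) (nat_lit 1064) (nat_lit 1412744836) (nat_lit 191) (nat_lit 5) (nat_lit 190) (nat_lit 5) (nat_lit 204) (nat_lit 5) (nat_lit 295) (nat_lit 288) (nat_lit 197)) (XT.lf (nat_lit 76) (nat_lit 7991282847) (nat_lit 0) (nat_lit 2422666326) (nat_lit 1064) (nat_lit 586196563) (nat_lit 191) (nat_lit 5) (nat_lit 190) (nat_lit 5) (nat_lit 204) (nat_lit 5) (nat_lit 296) (nat_lit 288) (nat_lit 196)))) (XT.nd (nat_lit 78) (nat_lit 0) (nat_lit 0) (XT.lf (nat_lit 0) (nat_lit 274629575) (nat_lit 1064) (nat_lit 9161108832) (nat_lit 1140) (nat_lit 1722116120) (nat_lit 177) (nat_lit 5) (nat_lit 191) (nat_lit 5) (nat_lit 192) (nat_lit 5) (nat_lit 297) (nat_lit 288) (nat_lit 195)) (XT.nd (nat_lit 78) (nat_lit 0) (nat_lit 0) (XT.lf (nat_lit 0) (nat_lit 1183142584) (nat_lit 1064) (nat_lit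 4150038639) (nat_lit 1140) (nat_lit 5985971695) (nat_lit 177) (nat_lit 5) (nat_lit 191) (nat_lit 5) (nat_lit 192) (nat_lit 5) (nat_lit 298) (nat_lit 288) (nat_lit 194)) (XT.lf (nat_lit 76) (nat_lit 1016871242) (nat_lit 0) (nat_lit 1091399789) (nat_lit 1140) (nat_lit 9377378986) (nat_lit 178) (nat_lit 5) (nat_lit 177) (nat_lit 5) (nat_lit 192) (nat_lit 5) (nat_lit 299) (nat_lit 288) (nat_lit 193))))) (XT.nd (nat_lit 234) (nat_lit 0) (nat_lit 76) (XT.nd (nat_lit 78) (nat_lit 0) (nat_lit 0) (XT.lf (nat_lit 0) (nat_lit 3115080946) (nat_lit 1064) (nat_lit 5278834382) (nat_lit 1140) (nat_lit 3261648250) (nat_lit 178) (nat_lit 5) (nat_lit 192) (nat_lit 5) (nat_lit 193) (nat_lit 5) (nat_lit 300) (nat_lit 288) (nat_lit 192)) (XT.nd (nat_lit 78) (nat_lit 0) (nat_lit 76) (XT.lf (nat_lit 76) (nat_lit 42374767) (nat_lit 0) (nat_lit 4101612111) (nat_lit 1140) (nat_lit 7686869148) (nat_lit 179) (nat_lit 5) (nat_lit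 178) (nat_lit 5) (nat_lit 193) (nat_lit 5) (nat_lit 301) (nat_lit 288) (nat_lit 191)) (XT.lf (nat_lit 0) (nat_lit 5241812183) (nat_lit 1064) (nat_lit 6396936455) (nat_lit 1140) (nat_lit 371554159) (nat_lit 179) (nat_lit 5) (nat_lit 193) (nat_lit 5) (nat_lit 194) (nat_lit 5) (nat_lit 302) (nat_lit 288) (nat_lit 190)))) (XT.nd (nat_lit 78) (nat_lit 0) (nat_lit 0) (XT.lf (nat_lit 0) (nat_lit 6394879053) (nat_lit 1064) (nat_lit 898780453) (nat_lit 1140) (nat_lit 4900840297) (nat_lit 179) (nat_lit 5) (nat_lit 193) (nat_lit 5) (nat_lit 194) (nat_lit 5) (nat_lit 303) (nat_lit 288) (nat_lit 189)) (XT.nd (nat_lit 78) (nat_lit 0) (nat_lit 76) (XT.lf (nat_lit 76) (nat_lit 4844756822) (nat_lit 0) (nat_lit 2766581764) (nat_lit 1140) (nat_lit 4772055100) (nat_lit 180) (nat_lit 5) (nat_lit 179) (nat_lit 5) (nat_lit 194) (nat_lit 5) (nat_lit 304) (nat_lit 288) (nat_lit 188)) (XT.lf (nat_lit 0) (nat_lit 8874332302)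 (nat_lit 1064) (nat_lit 1831528392) (nat_lit 76) (nat_lit 1871826448) (nat_lit 180) (nat_lit 5) (nat_lit 194) (nat_lit 5) (nat_lit 181) (nat_lit 5) (nat_lit 305) (nat_lit 288) (nat_lit 187))))))) (XT.nd (nat_lit 936) (nat_lit 2660) (nat_lit 0) (XT.nd (nat_lit 468) (nat_lit 1596) (nat_lit 0) (XT.nd (nat_lit 234) (nat_lit 608) (nat_lit 0) (XT.nd (nat_lit 78) (nat_lit 1064) (nat_lit 0) (XT.lf (nat_lit 0) (nat_lit 4084985795) (nat_lit 1064) (nat_lit 6140040907) (nat_lit 1140) (nat_lit 2551321349) (nat_lit 166) (nat_lit 5) (nat_lit 180) (nat_lit 5) (nat_lit 181) (nat_lit 5) (nat_lit 306) (nat_lit 288) (nat_lit 186)) (XT.nd (nat_lit 78) (nat_lit 1064) (nat_lit 0) (XT.lf (nat_lit 0) (nat_lit 10202550031) (nat_lit 1064) (nat_lit 1415694593) (nat_lit 1140) (nat_lit 1362696101) (nat_lit 166) (nat_lit 5) (nat_lit 180) (nat_lit 5) (nat_lit 181) (nat_lit 5) (nat_lit 307) (nat_lit 288) (nat_lit 185)) (XT.lf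 (nat_lit 0) (nat_lit 3329659242) (nat_lit 1064) (nat_lit 9772785297) (nat_lit 1140) (nat_lit 87782162) (nat_lit 152) (nat_lit 5) (nat_lit 166) (nat_lit 5) (nat_lit 167) (nat_lit 5) (nat_lit 308) (nat_lit 288) (nat_lit 184)))) (XT.nd (nat_lit 78) (nat_lit 532) (nat_lit 0) (XT.lf (nat_lit 0) (nat_lit 1227976742) (nat_lit 1140) (nat_lit 3767441672) (nat_lit 76) (nat_lit 8409253495) (nat_lit 151) (nat_lit 5) (nat_lit 166) (nat_lit 5) (nat_lit 152) (nat_lit 5) (nat_lit 309) (nat_lit 288) (nat_lit 183)) (XT.nd (nat_lit 78) (nat_lit 0) (nat_lit 0) (XT.lf (nat_lit 0) (nat_lit 2543332105) (nat_lit 532) (nat_lit 47179697) (nat_lit 608) (nat_lit 11034769014) (nat_lit 144) (nat_lit 5) (nat_lit 151) (nat_lit 5) (nat_lit 152) (nat_lit 5) (nat_lit 310) (nat_lit 288) (nat_lit 182)) (XT.lf (nat_lit 0) (nat_lit 4065830014) (nat_lit 608) (nat_lit 4793886230) (nat_lit 76) (nat_lit 4990662152) (nat_lit 144) (nat_lit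 5) (nat_lit 152) (nat_lit 5) (nat_lit 145) (nat_lit 5) (nat_lit 311) (nat_lit 288) (nat_lit 181))))) (XT.nd (nat_lit 234) (nat_lit 532) (nat_lit 0) (XT.nd (nat_lit 78) (nat_lit 532) (nat_lit 0) (XT.lf (nat_lit 0) (nat_lit 1701711011) (nat_lit 532) (nat_lit 3885907901) (nat_lit 608) (nat_lit 8494570470) (nat_lit 137) (nat_lit 5) (nat_lit 144) (nat_lit 5) (nat_lit 145) (nat_lit 5) (nat_lit 312) (nat_lit 288) (nat_lit 180)) (XT.nd (nat_lit 78) (nat_lit 532) (nat_lit 0) (XT.lf (nat_lit 0) (nat_lit 7201527363) (nat_lit 608) (nat_lit 5855599734) (nat_lit 76) (nat_lit 1262459657) (nat_lit 137) (nat_lit 5) (nat_lit 145) (nat_lit 5) (nat_lit 138) (nat_lit 5) (nat_lit 313) (nat_lit 288) (nat_lit 179)) (XT.lf (nat_lit 0) (nat_lit 828967612) (nat_lit 532) (nat_lit 8067431087) (nat_lit 608) (nat_lit 5666756255) (nat_lit 130) (nat_lit 5) (nat_lit 137) (nat_lit 5) (nat_lit 138) (nat_lit 5) (nat_lit 314) (nat_lit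 288) (nat_lit 178)))) (XT.nd (nat_lit 78) (nat_lit 532) (nat_lit 0) (XT.lf (nat_lit 0) (nat_lit 7820481473) (nat_lit 532) (nat_lit 2867141338) (nat_lit 608) (nat_lit 4125066728) (nat_lit 130) (nat_lit 5) (nat_lit 137) (nat_lit 5) (nat_lit 138) (nat_lit 5) (nat_lit 315) (nat_lit 288) (nat_lit 177)) (XT.nd (nat_lit 78) (nat_lit 532) (nat_lit 0) (XT.lf (nat_lit 0) (nat_lit 12543284296) (nat_lit 608) (nat_lit 85545053) (nat_lit 76) (nat_lit 2440583617) (nat_lit 130) (nat_lit 5) (nat_lit 138) (nat_lit 5) (nat_lit 131) (nat_lit 5) (nat_lit 316) (nat_lit 288) (nat_lit 176)) (XT.lf (nat_lit 0) (nat_lit 7125728115) (nat_lit 532) (nat_lit 7412930495) (nat_lit 608) (nat_lit 792681326) (nat_lit 123) (nat_lit 5) (nat_lit 130) (nat_lit 5) (nat_lit 131) (nat_lit 5) (nat_lit 317) (nat_lit 288) (nat_lit 175)))))) (XT.nd (nat_lit 468) (nat_lit 1292) (nat_lit 0) (XT.nd (nat_lit 234) (nat_lit 836) (nat_lit 0) (XT.nd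 (nat_lit 78) (nat_lit 456) (nat_lit 0) (XT.lf (nat_lit 0) (nat_lit 961529100) (nat_lit 608) (nat_lit 1068953656) (nat_lit 76) (nat_lit 13570733505) (nat_lit 122) (nat_lit 5) (nat_lit 130) (nat_lit 5) (nat_lit 123) (nat_lit 5) (nat_lit 318) (nat_lit 288) (nat_lit 174)) (XT.nd (nat_lit 78) (nat_lit 0) (nat_lit 0) (XT.lf (nat_lit 0) (nat_lit 2835899089) (nat_lit 532) (nat_lit 9526401833) (nat_lit 76) (nat_lit 3514169708) (nat_lit 116) (nat_lit 5) (nat_lit 123) (nat_lit 5) (nat_lit 117) (nat_lit 5) (nat_lit 319) (nat_lit 288) (nat_lit 173)) (XT.lf (nat_lit 0) (nat_lit 4785365332) (nat_lit 532) (nat_lit 2179550971) (nat_lit 76) (nat_lit 9194520924) (nat_lit 116) (nat_lit 5) (nat_lit 123) (nat_lit 5) (nat_lit 117) (nat_lit 5) (nat_lit 320) (nat_lit 288) (nat_lit 172)))) (XT.nd (nat_lit 78) (nat_lit 380) (nat_lit 0) (XT.lf (nat_lit 0) (nat_lit 5481805346) (nat_lit 456) (nat_lit 1352418422) (nat_lit 532)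 (nat_lit 9615461758) (nat_lit 110) (nat_lit 5) (nat_lit 116) (nat_lit 5) (nat_lit 117) (nat_lit 5) (nat_lit 321) (nat_lit 288) (nat_lit 171)) (XT.nd (nat_lit 78) (nat_lit 380) (nat_lit 0) (XT.lf (nat_lit 0) (nat_lit 8997767282) (nat_lit 532) (nat_lit 3386185587) (nat_lit 76) (nat_lit 4363111199) (nat_lit 110) (nat_lit 5) (nat_lit 117) (nat_lit 5) (nat_lit 111) (nat_lit 5) (nat_lit 322) (nat_lit 288) (nat_lit 170)) (XT.lf (nat_lit 0) (nat_lit 4484358390) (nat_lit 380) (nat_lit 6787115780) (nat_lit 456) (nat_lit 5780550890) (nat_lit 105) (nat_lit 5) (nat_lit 110) (nat_lit 5) (nat_lit 111) (nat_lit 5) (nat_lit 323) (nat_lit 288) (nat_lit 169))))) (XT.nd (nat_lit 234) (nat_lit 760) (nat_lit 0) (XT.nd (nat_lit 78) (nat_lit 532) (nat_lit 0) (XT.lf (nat_lit 0) (nat_lit 12647839693) (nat_lit 380) (nat_lit 988713122) (nat_lit 456) (nat_lit 3728905510) (nat_lit 105) (nat_lit 5) (nat_lit 110) (nat_lit 5)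 (nat_lit 111) (nat_lit 5) (nat_lit 324) (nat_lit 288) (nat_lit 168)) (XT.nd (nat_lit 78) (nat_lit 76) (nat_lit 0) (XT.lf (nat_lit 0) (nat_lit 3373300027) (nat_lit 456) (nat_lit 12768889347) (nat_lit 532) (nat_lit 1544034773) (nat_lit 99) (nat_lit 5) (nat_lit 105) (nat_lit 5) (nat_lit 106) (nat_lit 5) (nat_lit 325) (nat_lit 288) (nat_lit 167)) (XT.lf (nat_lit 0) (nat_lit 739842949) (nat_lit 532) (nat_lit 6241238026) (nat_lit 76) (nat_lit 11033927626) (nat_lit 98) (nat_lit 5) (nat_lit 105) (nat_lit 5) (nat_lit 99) (nat_lit 5) (nat_lit 326) (nat_lit 288) (nat_lit 166)))) (XT.nd (nat_lit 78) (nat_lit 380) (nat_lit 0) (XT.lf (nat_lit 0) (nat_lit 2085723824) (nat_lit 380) (nat_lit 985184511) (nat_lit 456) (nat_lit 15282014706) (nat_lit 93) (nat_lit 5) (nat_lit 98) (nat_lit 5) (nat_lit 99) (nat_lit 5) (nat_lit 327) (nat_lit 288) (nat_lit 165)) (XT.nd (nat_lit 78) (nat_lit 380) (nat_lit 0) (XT.lf (nat_lit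 0) (nat_lit 5575269760) (nat_lit 456) (nat_lit 7971637647) (nat_lit 76) (nat_lit 5150982335) (nat_lit 93) (nat_lit 5) (nat_lit 99) (nat_lit 5) (nat_lit 94) (nat_lit 5) (nat_lit 328) (nat_lit 288) (nat_lit 164)) (XT.lf (nat_lit 0) (nat_lit 561896099) (nat_lit 380) (nat_lit 7598138696) (nat_lit 456) (nat_lit 10893027757) (nat_lit 88) (nat_lit 5) (nat_lit 93) (nat_lit 5) (nat_lit 94) (nat_lit 5) (nat_lit 329) (nat_lit 288) (nat_lit 163))))))))
noncomputable def xc182 : XT := (XT.nd (nat_lit 1794) (nat_lit 1900) (nat_lit 0) (XT.nd (nat_lit 858) (nat_lit 1444) (nat_lit 0) (XT.nd (nat_lit 390) (nat_lit 608) (nat_lit 0) (XT.nd (nat_lit 156) (nat_lit 760) (nat_lit 0) (XT.nd (nat_lit 78) (nat_lit 0) (nat_lit 0) (XT.lf (nat_lit 0) (nat_lit 9502860308) (nat_lit 380) (nat_lit 1390270191) (nat_lit 456) (nat_lit 8523651263) (nat_lit 88) (nat_lit 5) (nat_lit 93) (nat_lit 5) (nat_lit 94) (nat_lit 5) (nat_lit 330)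 (nat_lit 288) (nat_lit 162)) (XT.lf (nat_lit 0) (nat_lit 13746870377) (nat_lit 456) (nat_lit 1139372208) (nat_lit 76) (nat_lit 4904024837) (nat_lit 88) (nat_lit 5) (nat_lit 94) (nat_lit 5) (nat_lit 89) (nat_lit 5) (nat_lit 331) (nat_lit 288) (nat_lit 161))) (XT.nd (nat_lit 78) (nat_lit 456) (nat_lit 0) (XT.lf (nat_lit 0) (nat_lit 8029772038) (nat_lit 304) (nat_lit 8738229132) (nat_lit 380) (nat_lit 3404517114) (nat_lit 84) (nat_lit 5) (nat_lit 88) (nat_lit 5) (nat_lit 89) (nat_lit 5) (nat_lit 332) (nat_lit 288) (nat_lit 160)) (XT.nd (nat_lit 78) (nat_lit 456) (nat_lit 0) (XT.lf (nat_lit 0) (nat_lit 17485893821) (nat_lit 304) (nat_lit 2396361177) (nat_lit 380) (nat_lit 683920589) (nat_lit 84) (nat_lit 5) (nat_lit 88) (nat_lit 5) (nat_lit 89) (nat_lit 5) (nat_lit 333) (nat_lit 288) (nat_lit 159)) (XT.lf (nat_lit 0) (nat_lit 2169646254) (nat_lit 456) (nat_lit 14663793757) (nat_lit 76) (nat_lit 4134823894)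 (nat_lit 78) (nat_lit 5) (nat_lit 84) (nat_lit 5) (nat_lit 79) (nat_lit 5) (nat_lit 334) (nat_lit 288) (nat_lit 158))))) (XT.nd (nat_lit 234) (nat_lit 304) (nat_lit 0) (XT.nd (nat_lit 78) (nat_lit 304) (nat_lit 0) (XT.lf (nat_lit 0) (nat_lit 5141486041) (nat_lit 456) (nat_lit 5389827076) (nat_lit 76) (nat_lit 10849518683) (nat_lit 78) (nat_lit 5) (nat_lit 84) (nat_lit 5) (nat_lit 79) (nat_lit 5) (nat_lit 335) (nat_lit 288) (nat_lit 157)) (XT.nd (nat_lit 78) (nat_lit 0) (nat_lit 0) (XT.lf (nat_lit 0) (nat_lit 4233863009) (nat_lit 304) (nat_lit 4000843622) (nat_lit 380) (nat_lit 13570115404) (nat_lit 74) (nat_lit 5) (nat_lit 78) (nat_lit 5) (nat_lit 79) (nat_lit 5) (nat_lit 336) (nat_lit 288) (nat_lit 156)) (XT.lf (nat_lit 0) (nat_lit 11493531396) (nat_lit 380) (nat_lit 8021128184) (nat_lit 76) (nat_lit 2724699889) (nat_lit 74) (nat_lit 5) (nat_lit 79) (nat_lit 5) (nat_lit 75) (nat_lit 5) (nat_lit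 337) (nat_lit 288) (nat_lit 155)))) (XT.nd (nat_lit 78) (nat_lit 0) (nat_lit 0) (XT.lf (nat_lit 0) (nat_lit 1799792559) (nat_lit 304) (nat_lit 13099127226) (nat_lit 380) (nat_lit 7786560654) (nat_lit 70) (nat_lit 5) (nat_lit 74) (nat_lit 5) (nat_lit 75) (nat_lit 5) (nat_lit 338) (nat_lit 288) (nat_lit 154)) (XT.nd (nat_lit 78) (nat_lit 0) (nat_lit 0) (XT.lf (nat_lit 0) (nat_lit 12068960034) (nat_lit 304) (nat_lit 6410525778) (nat_lit 380) (nat_lit 4663319793) (nat_lit 70) (nat_lit 5) (nat_lit 74) (nat_lit 5) (nat_lit 75) (nat_lit 5) (nat_lit 339) (nat_lit 288) (nat_lit 153)) (XT.lf (nat_lit 0) (nat_lit 22164295139) (nat_lit 380) (nat_lit 982958129) (nat_lit 76) (nat_lit 466703195) (nat_lit 70) (nat_lit 5) (nat_lit 75) (nat_lit 5) (nat_lit 71) (nat_lit 5) (nat_lit 340) (nat_lit 288) (nat_lit 152)))))) (XT.nd (nat_lit 468) (nat_lit 532) (nat_lit 0) (XT.nd (nat_lit 234) (nat_lit 228) (nat_lit 0) (XT.nd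 (nat_lit 78) (nat_lit 304) (nat_lit 0) (XT.lf (nat_lit 0) (nat_lit 1973012043) (nat_lit 380) (nat_lit 14591562325) (nat_lit 76) (nat_lit 7529673834) (nat_lit 65) (nat_lit 5) (nat_lit 70) (nat_lit 5) (nat_lit 66) (nat_lit 5) (nat_lit 341) (nat_lit 288) (nat_lit 151)) (XT.nd (nat_lit 78) (nat_lit 304) (nat_lit 0) (XT.lf (nat_lit 0) (nat_lit 5471741452) (nat_lit 380) (nat_lit 4290507141) (nat_lit 76) (nat_lit 14826203946) (nat_lit 65) (nat_lit 5) (nat_lit 70) (nat_lit 5) (nat_lit 66) (nat_lit 5) (nat_lit 342) (nat_lit 288) (nat_lit 150)) (XT.lf (nat_lit 0) (nat_lit 6435000463) (nat_lit 304) (nat_lit 2694996596) (nat_lit 380) (nat_lit 15965858547) (nat_lit 61) (nat_lit 5) (nat_lit 65) (nat_lit 5) (nat_lit 66) (nat_lit 5) (nat_lit 343) (nat_lit 288) (nat_lit 149)))) (XT.nd (nat_lit 78) (nat_lit 228) (nat_lit 0) (XT.lf (nat_lit 0) (nat_lit 12978617197) (nat_lit 380) (nat_lit 8101699028) (nat_lit 76)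 (nat_lit 4535755285) (nat_lit 61) (nat_lit 5) (nat_lit 66) (nat_lit 5) (nat_lit 62) (nat_lit 5) (nat_lit 344) (nat_lit 288) (nat_lit 148)) (XT.nd (nat_lit 78) (nat_lit 0) (nat_lit 0) (XT.lf (nat_lit 0) (nat_lit 2792083982) (nat_lit 228) (nat_lit 14197139504) (nat_lit 304) (nat_lit 9161283561) (nat_lit 58) (nat_lit 5) (nat_lit 61) (nat_lit 5) (nat_lit 62) (nat_lit 5) (nat_lit 345) (nat_lit 288) (nat_lit 147)) (XT.lf (nat_lit 0) (nat_lit 14168906635) (nat_lit 228) (nat_lit 7026166839) (nat_lit 304) (nat_lit 5503663133) (nat_lit 58) (nat_lit 5) (nat_lit 61) (nat_lit 5) (nat_lit 62) (nat_lit 5) (nat_lit 346) (nat_lit 288) (nat_lit 146))))) (XT.nd (nat_lit 234) (nat_lit 228) (nat_lit 0) (XT.nd (nat_lit 78) (nat_lit 304) (nat_lit 0) (XT.lf (nat_lit 0) (nat_lit 25523845997) (nat_lit 304) (nat_lit 1389584175) (nat_lit 76) (nat_lit 350088936) (nat_lit 58) (nat_lit 5) (nat_lit 62) (nat_lit 5) (nat_lit 59)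 (nat_lit 5) (nat_lit 347) (nat_lit 288) (nat_lit 145)) (XT.nd (nat_lit 78) (nat_lit 0) (nat_lit 0) (XT.lf (nat_lit 0) (nat_lit 2258263998) (nat_lit 304) (nat_lit 17657581272) (nat_lit 76) (nat_lit 7923909484) (nat_lit 54) (nat_lit 5) (nat_lit 58) (nat_lit 5) (nat_lit 55) (nat_lit 5) (nat_lit 348) (nat_lit 288) (nat_lit 144)) (XT.lf (nat_lit 0) (nat_lit 6348855566) (nat_lit 304) (nat_lit 6330156409) (nat_lit 76) (nat_lit 15753526047) (nat_lit 54) (nat_lit 5) (nat_lit 58) (nat_lit 5) (nat_lit 55) (nat_lit 5) (nat_lit 349) (nat_lit 288) (nat_lit 143)))) (XT.nd (nat_lit 78) (nat_lit 0) (nat_lit 0) (XT.lf (nat_lit 0) (nat_lit 5433897503) (nat_lit 228) (nat_lit 5174201369) (nat_lit 304) (nat_lit 18433635420) (nat_lit 51) (nat_lit 5) (nat_lit 54) (nat_lit 5) (nat_lit 55) (nat_lit 5) (nat_lit 350) (nat_lit 288) (nat_lit 142)) (XT.nd (nat_lit 78) (nat_lit 0) (nat_lit 0) (XT.lf (nat_lit 0) (nat_lit 15078009498)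 (nat_lit 304) (nat_lit 12021157473) (nat_lit 76) (nat_lit 2567560080) (nat_lit 51) (nat_lit 5) (nat_lit 55) (nat_lit 5) (nat_lit 52) (nat_lit 5) (nat_lit 351) (nat_lit 288) (nat_lit 141)) (XT.lf (nat_lit 0) (nat_lit 19727196184) (nat_lit 304) (nat_lit 147139885) (nat_lit 76) (nat_lit 10434785254) (nat_lit 51) (nat_lit 5) (nat_lit 55) (nat_lit 5) (nat_lit 52) (nat_lit 5) (nat_lit 352) (nat_lit 288) (nat_lit 140))))))) (XT.nd (nat_lit 936) (nat_lit 684) (nat_lit 0) (XT.nd (nat_lit 468) (nat_lit 456) (nat_lit 0) (XT.nd (nat_lit 234) (nat_lit 228) (nat_lit 0) (XT.nd (nat_lit 78) (nat_lit 304) (nat_lit 0) (XT.lf (nat_lit 0) (nat_lit 12314631740) (nat_lit 228) (nat_lit 12313727769) (nat_lit 304) (nat_lit 6339059767) (nat_lit 48) (nat_lit 5) (nat_lit 51) (nat_lit 5) (nat_lit 52) (nat_lit 5) (nat_lit 353) (nat_lit 288) (nat_lit 139)) (XT.nd (nat_lit 78) (nat_lit 304) (nat_lit 0) (XT.lf (nat_lit 0) (nat_lit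 25144589399) (nat_lit 228) (nat_lit 4527667064) (nat_lit 304) (nat_lit 1973345425) (nat_lit 48) (nat_lit 5) (nat_lit 51) (nat_lit 5) (nat_lit 52) (nat_lit 5) (nat_lit 354) (nat_lit 288) (nat_lit 138)) (XT.lf (nat_lit 0) (nat_lit 2561432711) (nat_lit 304) (nat_lit 26274605930) (nat_lit 76) (nat_lit 3504750006) (nat_lit 44) (nat_lit 5) (nat_lit 48) (nat_lit 5) (nat_lit 45) (nat_lit 5) (nat_lit 355) (nat_lit 288) (nat_lit 137)))) (XT.nd (nat_lit 78) (nat_lit 228) (nat_lit 0) (XT.lf (nat_lit 0) (nat_lit 7298093702) (nat_lit 304) (nat_lit 13984832241) (nat_lit 76) (nat_lit 11770159986) (nat_lit 44) (nat_lit 5) (nat_lit 48) (nat_lit 5) (nat_lit 45) (nat_lit 5) (nat_lit 356) (nat_lit 288) (nat_lit 136)) (XT.nd (nat_lit 78) (nat_lit 228) (nat_lit 0) (XT.lf (nat_lit 0) (nat_lit 12171394289) (nat_lit 304) (nat_lit 1334726880) (nat_lit 76) (nat_lit 20280800707) (nat_lit 44) (nat_lit 5) (nat_lit 48) (nat_lit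 5) (nat_lit 45) (nat_lit 5) (nat_lit 357) (nat_lit 288) (nat_lit 135)) (XT.lf (nat_lit 0) (nat_lit 11919353155) (nat_lit 228) (nat_lit 5380815654) (nat_lit 304) (nat_lit 17239331610) (nat_lit 41) (nat_lit 5) (nat_lit 44) (nat_lit 5) (nat_lit 45) (nat_lit 5) (nat_lit 358) (nat_lit 288) (nat_lit 134))))) (XT.nd (nat_lit 234) (nat_lit 304) (nat_lit 0) (XT.nd (nat_lit 78) (nat_lit 152) (nat_lit 0) (XT.lf (nat_lit 0) (nat_lit 22619891896) (nat_lit 304) (nat_lit 9752867791) (nat_lit 76) (nat_lit 2940789668) (nat_lit 41) (nat_lit 5) (nat_lit 45) (nat_lit 5) (nat_lit 42) (nat_lit 5) (nat_lit 359) (nat_lit 288) (nat_lit 133)) (XT.nd (nat_lit 78) (nat_lit 0) (nat_lit 0) (XT.lf (nat_lit 0) (nat_lit 3507666258) (nat_lit 152) (nat_lit 24673435480) (nat_lit 228) (nat_lit 7927266604) (nat_lit 39) (nat_lit 5) (nat_lit 41) (nat_lit 5) (nat_lit 42) (nat_lit 5) (nat_lit 360) (nat_lit 288) (nat_lit 132)) (XT.lf (nat_lit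 0) (nat_lit 17358082750) (nat_lit 152) (nat_lit 16644524752) (nat_lit 228) (nat_lit 2921625885) (nat_lit 39) (nat_lit 5) (nat_lit 41) (nat_lit 5) (nat_lit 42) (nat_lit 5) (nat_lit 361) (nat_lit 288) (nat_lit 131)))) (XT.nd (nat_lit 78) (nat_lit 228) (nat_lit 0) (XT.lf (nat_lit 0) (nat_lit 2185654898) (nat_lit 228) (nat_lit 6169771063) (nat_lit 76) (nat_lit 29408657069) (nat_lit 38) (nat_lit 5) (nat_lit 41) (nat_lit 5) (nat_lit 39) (nat_lit 5) (nat_lit 362) (nat_lit 288) (nat_lit 130)) (XT.nd (nat_lit 78) (nat_lit 0) (nat_lit 0) (XT.lf (nat_lit 0) (nat_lit 7459825861) (nat_lit 304) (nat_lit 30885762880) (nat_lit 76) (nat_lit 280504635) (nat_lit 35) (nat_lit 5) (nat_lit 39) (nat_lit 5) (nat_lit 36) (nat_lit 5) (nat_lit 363) (nat_lit 288) (nat_lit 129)) (XT.lf (nat_lit 0) (nat_lit 13033121808) (nat_lit 304) (nat_lit 17408782937) (nat_lit 76) (nat_lit 9067836978) (nat_lit 35) (nat_lit 5) (nat_lit 39)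 (nat_lit 5) (nat_lit 36) (nat_lit 5) (nat_lit 364) (nat_lit 288) (nat_lit 128)))))) (XT.nd (nat_lit 468) (nat_lit 304) (nat_lit 0) (XT.nd (nat_lit 234) (nat_lit 228) (nat_lit 0) (XT.nd (nat_lit 78) (nat_lit 152) (nat_lit 0) (XT.lf (nat_lit 0) (nat_lit 18769008302) (nat_lit 304) (nat_lit 3534827087) (nat_lit 76) (nat_lit 18116206933) (nat_lit 35) (nat_lit 5) (nat_lit 39) (nat_lit 5) (nat_lit 36) (nat_lit 5) (nat_lit 365) (nat_lit 288) (nat_lit 127)) (XT.nd (nat_lit 78) (nat_lit 0) (nat_lit 0) (XT.lf (nat_lit 0) (nat_lit 10962138345) (nat_lit 152) (nat_lit 13815733717) (nat_lit 228) (nat_lit 16576757276) (nat_lit 33) (nat_lit 5) (nat_lit 35) (nat_lit 5) (nat_lit 36) (nat_lit 5) (nat_lit 366) (nat_lit 288) (nat_lit 126)) (XT.lf (nat_lit 0) (nat_lit 25959423139) (nat_lit 152) (nat_lit 5038861854) (nat_lit 228) (nat_lit 11318034763) (nat_lit 33) (nat_lit 5) (nat_lit 35) (nat_lit 5) (nat_lit 36) (nat_lit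 5) (nat_lit 367) (nat_lit 288) (nat_lit 125)))) (XT.nd (nat_lit 78) (nat_lit 228) (nat_lit 0) (XT.lf (nat_lit 0) (nat_lit 37439465716) (nat_lit 228) (nat_lit 1945650292) (nat_lit 76) (nat_lit 3920724383) (nat_lit 33) (nat_lit 5) (nat_lit 36) (nat_lit 5) (nat_lit 34) (nat_lit 5) (nat_lit 368) (nat_lit 288) (nat_lit 124)) (XT.nd (nat_lit 78) (nat_lit 76) (nat_lit 0) (XT.lf (nat_lit 0) (nat_lit 13096860346) (nat_lit 152) (nat_lit 31148624038) (nat_lit 228) (nat_lit 74418228) (nat_lit 31) (nat_lit 5) (nat_lit 33) (nat_lit 5) (nat_lit 34) (nat_lit 5) (nat_lit 369) (nat_lit 288) (nat_lit 123)) (XT.lf (nat_lit 0) (nat_lit 5792008914) (nat_lit 228) (nat_lit 16796863217) (nat_lit 76) (nat_lit 22773349285) (nat_lit 30) (nat_lit 5) (nat_lit 33) (nat_lit 5) (nat_lit 31) (nat_lit 5) (nat_lit 370) (nat_lit 288) (nat_lit 122))))) (XT.nd (nat_lit 234) (nat_lit 152) (nat_lit 0) (XT.nd (nat_lit 78) (nat_lit 152)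 (nat_lit 0) (XT.lf (nat_lit 0) (nat_lit 11828885220) (nat_lit 228) (nat_lit 1945209284) (nat_lit 76) (nat_lit 32661818313) (nat_lit 30) (nat_lit 5) (nat_lit 33) (nat_lit 5) (nat_lit 31) (nat_lit 5) (nat_lit 371) (nat_lit 288) (nat_lit 121)) (XT.nd (nat_lit 78) (nat_lit 0) (nat_lit 0) (XT.lf (nat_lit 0) (nat_lit 13611215904) (nat_lit 152) (nat_lit 4562561226) (nat_lit 228) (nat_lit 29364234145) (nat_lit 28) (nat_lit 5) (nat_lit 30) (nat_lit 5) (nat_lit 31) (nat_lit 5) (nat_lit 372) (nat_lit 288) (nat_lit 120)) (XT.lf (nat_lit 0) (nat_lit 24772298465) (nat_lit 228) (nat_lit 19052330250) (nat_lit 76) (nat_lit 4846648978) (nat_lit 28) (nat_lit 5) (nat_lit 31) (nat_lit 5) (nat_lit 29) (nat_lit 5) (nat_lit 373) (nat_lit 288) (nat_lit 119)))) (XT.nd (nat_lit 78) (nat_lit 152) (nat_lit 0) (XT.lf (nat_lit 0) (nat_lit 31610163113) (nat_lit 228) (nat_lit 3783034106) (nat_lit 76) (nat_lit 14444106644) (nat_lit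 28) (nat_lit 5) (nat_lit 31) (nat_lit 5) (nat_lit 29) (nat_lit 5) (nat_lit 374) (nat_lit 288) (nat_lit 118)) (XT.nd (nat_lit 78) (nat_lit 0) (nat_lit 0) (XT.lf (nat_lit 0) (nat_lit 12175888740) (nat_lit 152) (nat_lit 26590641127) (nat_lit 228) (nat_lit 12268383251) (nat_lit 26) (nat_lit 5) (nat_lit 28) (nat_lit 5) (nat_lit 29) (nat_lit 5) (nat_lit 375) (nat_lit 288) (nat_lit 117)) (XT.lf (nat_lit 0) (nat_lit 28685139425) (nat_lit 152) (nat_lit 17487023005) (nat_lit 228) (nat_lit 6095254169) (nat_lit 26) (nat_lit 5) (nat_lit 28) (nat_lit 5) (nat_lit 29) (nat_lit 5) (nat_lit 376) (nat_lit 288) (nat_lit 116))))))))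
noncomputable def xc183 : XT := (XT.nd (nat_lit 34476) (nat_lit 0) (nat_lit 7524) (XT.nd (nat_lit 858) (nat_lit 152) (nat_lit 0) (XT.nd (nat_lit 390) (nat_lit 152) (nat_lit 0) (XT.nd (nat_lit 156) (nat_lit 152) (nat_lit 0) (XT.nd (nat_lit 78) (nat_lit 152) (nat_lit 0) (XT.lf (nat_lit 0) (nat_lit 254376669) (nat_lit 228) (nat_lit 7855644086) (nat_lit 76) (nat_lit 45426908337) (nat_lit 25) (nat_lit 5) (nat_lit 28) (nat_lit 5) (nat_lit 26) (nat_lit 5) (nat_lit 377) (nat_lit 288) (nat_lit 115)) (XT.lf (nat_lit 0) (nat_lit 6765939471) (nat_lit 228) (nat_lit 46415205357) (nat_lit 76) (nat_lit 1658756033) (nat_lit 23) (nat_lit 5) (nat_lit 26) (nat_lit 5) (nat_lit 24) (nat_lit 5) (nat_lit 378) (nat_lit 288) (nat_lit 114))) (XT.nd (nat_lit 78) (nat_lit 152) (nat_lit 0) (XT.lf (nat_lit 0) (nat_lit 13629827943) (nat_lit 228) (nat_lit 30911930028) (nat_lit 76) (nat_lit 11635497284) (nat_lit 23) (nat_lit 5)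 (nat_lit 26) (nat_lit 5) (nat_lit 24) (nat_lit 5) (nat_lit 379) (nat_lit 288) (nat_lit 113)) (XT.nd (nat_lit 78) (nat_lit 152) (nat_lit 0) (XT.lf (nat_lit 0) (nat_lit 20696302523) (nat_lit 228) (nat_lit 14949132831) (nat_lit 76) (nat_lit 21909397598) (nat_lit 23) (nat_lit 5) (nat_lit 26) (nat_lit 5) (nat_lit 24) (nat_lit 5) (nat_lit 380) (nat_lit 288) (nat_lit 112)) (XT.lf (nat_lit 0) (nat_lit 1516731199) (nat_lit 152) (nat_lit 26469386348) (nat_lit 228) (nat_lit 30987282718) (nat_lit 21) (nat_lit 5) (nat_lit 23) (nat_lit 5) (nat_lit 24) (nat_lit 5) (nat_lit 381) (nat_lit 288) (nat_lit 111))))) (XT.nd (nat_lit 234) (nat_lit 152) (nat_lit 0) (XT.nd (nat_lit 78) (nat_lit 0) (nat_lit 0) (XT.lf (nat_lit 0) (nat_lit 18777652825) (nat_lit 152) (nat_lit 16864740237) (nat_lit 228) (nat_lit 24787701152) (nat_lit 21) (nat_lit 5) (nat_lit 23) (nat_lit 5) (nat_lit 24) (nat_lit 5) (nat_lit 382) (nat_lit 288)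 (nat_lit 110)) (XT.nd (nat_lit 78) (nat_lit 0) (nat_lit 0) (XT.lf (nat_lit 0) (nat_lit 36551197348) (nat_lit 152) (nat_lit 6974061540) (nat_lit 228) (nat_lit 18405325550) (nat_lit 21) (nat_lit 5) (nat_lit 23) (nat_lit 5) (nat_lit 24) (nat_lit 5) (nat_lit 383) (nat_lit 288) (nat_lit 109)) (XT.lf (nat_lit 0) (nat_lit 51672471873) (nat_lit 228) (nat_lit 8654155901) (nat_lit 76) (nat_lit 3148628207) (nat_lit 21) (nat_lit 5) (nat_lit 24) (nat_lit 5) (nat_lit 22) (nat_lit 4) (nat_lit 384) (nat_lit 288) (nat_lit 108)))) (XT.nd (nat_lit 78) (nat_lit 76) (nat_lit 0) (XT.lf (nat_lit 0) (nat_lit 8667948131) (nat_lit 76) (nat_lit 51545585642) (nat_lit 152) (nat_lit 4848253296) (nat_lit 20) (nat_lit 5) (nat_lit 21) (nat_lit 5) (nat_lit 22) (nat_lit 4) (nat_lit 385) (nat_lit 288) (nat_lit 107)) (XT.nd (nat_lit 78) (nat_lit 0) (nat_lit 0) (XT.lf (nat_lit 0) (nat_lit 2355064440) (nat_lit 152) (nat_lit 40034281669)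 (nat_lit 76) (nat_lit 24303342950) (nat_lit 19) (nat_lit 5) (nat_lit 21) (nat_lit 5) (nat_lit 20) (nat_lit 5) (nat_lit 386) (nat_lit 288) (nat_lit 106)) (XT.lf (nat_lit 0) (nat_lit 9674190060) (nat_lit 152) (nat_lit 23236783553) (nat_lit 76) (nat_lit 35460191990) (nat_lit 19) (nat_lit 5) (nat_lit 21) (nat_lit 5) (nat_lit 20) (nat_lit 5) (nat_lit 387) (nat_lit 288) (nat_lit 105)))))) (XT.nd (nat_lit 33150) (nat_lit 0) (nat_lit 12084) (XT.nd (nat_lit 32916) (nat_lit 0) (nat_lit 12996) (XT.nd (nat_lit 78) (nat_lit 152) (nat_lit 0) (XT.lf (nat_lit 0) (nat_lit 17210125801) (nat_lit 152) (nat_lit 5940062788) (nat_lit 76) (nat_lit 46949892876) (nat_lit 19) (nat_lit 5) (nat_lit 21) (nat_lit 5) (nat_lit 20) (nat_lit 5) (nat_lit 388) (nat_lit 288) (nat_lit 104)) (XT.nd (nat_lit 78) (nat_lit 0) (nat_lit 0) (XT.lf (nat_lit 0) (nat_lit 12107250328) (nat_lit 152) (nat_lit 12978588429) (nat_lit 228) (nat_lit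 46791617119) (nat_lit 17) (nat_lit 5) (nat_lit 19) (nat_lit 5) (nat_lit 20) (nat_lit 5) (nat_lit 389) (nat_lit 288) (nat_lit 103)) (XT.lf (nat_lit 0) (nat_lit 30813227725) (nat_lit 152) (nat_lit 2441929906) (nat_lit 228) (nat_lit 40451275842) (nat_lit 17) (nat_lit 5) (nat_lit 19) (nat_lit 5) (nat_lit 20) (nat_lit 5) (nat_lit 390) (nat_lit 288) (nat_lit 102)))) (XT.nd (nat_lit 78) (nat_lit 0) (nat_lit 0) (XT.lf (nat_lit 0) (nat_lit 1257423451) (nat_lit 0) (nat_lit 1257423451) (nat_lit 988) (nat_lit 2553599287) (nat_lit 188) (nat_lit 5) (nat_lit 188) (nat_lit 3) (nat_lit 201) (nat_lit 3) (nat_lit 289) (nat_lit 289) (nat_lit 202)) (XT.nd (nat_lit 78) (nat_lit 0) (nat_lit 0) (XT.lf (nat_lit 0) (nat_lit 5748630853) (nat_lit 988) (nat_lit 3258404897) (nat_lit 1064) (nat_lit 1261288790) (nat_lit 188) (nat_lit 5) (nat_lit 201) (nat_lit 3) (nat_lit 202) (nat_lit 5) (nat_lit 290) (nat_lit 289) (nat_lit 201))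 (XT.lf (nat_lit 76) (nat_lit 1221864160) (nat_lit 0) (nat_lit 5279403931) (nat_lit 1064) (nat_lit 3902118989) (nat_lit 189) (nat_lit 5) (nat_lit 188) (nat_lit 5) (nat_lit 202) (nat_lit 5) (nat_lit 291) (nat_lit 289) (nat_lit 200))))) (XT.nd (nat_lit 234) (nat_lit 912) (nat_lit 0) (XT.nd (nat_lit 78) (nat_lit 0) (nat_lit 76) (XT.lf (nat_lit 76) (nat_lit 5890240806) (nat_lit 0) (nat_lit 1395222528) (nat_lit 1064) (nat_lit 3256818677) (nat_lit 189) (nat_lit 5) (nat_lit 188) (nat_lit 5) (nat_lit 202) (nat_lit 5) (nat_lit 292) (nat_lit 289) (nat_lit 199)) (XT.nd (nat_lit 78) (nat_lit 0) (nat_lit 0) (XT.lf (nat_lit 0) (nat_lit 8095103238) (nat_lit 988) (nat_lit 25280076) (nat_lit 1064) (nat_lit 2564951340) (nat_lit 189) (nat_lit 5) (nat_lit 202) (nat_lit 5) (nat_lit 203) (nat_lit 5) (nat_lit 293) (nat_lit 289) (nat_lit 198)) (XT.lf (nat_lit 76) (nat_lit 4807109226) (nat_lit 0) (nat_lit 4159492959) (nat_lit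 1064) (nat_lit 1864996617) (nat_lit 190) (nat_lit 5) (nat_lit 189) (nat_lit 5) (nat_lit 203) (nat_lit 5) (nat_lit 294) (nat_lit 289) (nat_lit 197)))) (XT.nd (nat_lit 78) (nat_lit 988) (nat_lit 0) (XT.lf (nat_lit 76) (nat_lit 9771952899) (nat_lit 0) (nat_lit 70624036) (nat_lit 1064) (nat_lit 1140369661) (nat_lit 190) (nat_lit 5) (nat_lit 189) (nat_lit 5) (nat_lit 203) (nat_lit 5) (nat_lit 295) (nat_lit 289) (nat_lit 196)) (XT.nd (nat_lit 78) (nat_lit 1064) (nat_lit 0) (XT.lf (nat_lit 76) (nat_lit 3767191866) (nat_lit 0) (nat_lit 7032453675) (nat_lit 1064) (nat_lit 337589166) (nat_lit 191) (nat_lit 5) (nat_lit 190) (nat_lit 5) (nat_lit 204) (nat_lit 5) (nat_lit 296) (nat_lit 289) (nat_lit 195)) (XT.lf (nat_lit 0) (nat_lit 471815843) (nat_lit 1064) (nat_lit 2395509997) (nat_lit 1140) (nat_lit 8428963641) (nat_lit 176) (nat_lit 5) (nat_lit 190) (nat_lit 5) (nat_lit 191) (nat_lit 5) (nat_lit 297) (nat_lit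 289) (nat_lit 194))))))) (XT.nd (nat_lit 936) (nat_lit 2660) (nat_lit 0) (XT.nd (nat_lit 468) (nat_lit 1976) (nat_lit 0) (XT.nd (nat_lit 234) (nat_lit 0) (nat_lit 76) (XT.nd (nat_lit 78) (nat_lit 0) (nat_lit 0) (XT.lf (nat_lit 0) (nat_lit 1318991919) (nat_lit 1064) (nat_lit 8708375869) (nat_lit 1140) (nat_lit 1432080171) (nat_lit 177) (nat_lit 5) (nat_lit 191) (nat_lit 5) (nat_lit 192) (nat_lit 5) (nat_lit 298) (nat_lit 289) (nat_lit 193)) (XT.nd (nat_lit 78) (nat_lit 0) (nat_lit 0) (XT.lf (nat_lit 0) (nat_lit 2224581965) (nat_lit 1064) (nat_lit 3568164820) (nat_lit 1140) (nat_lit 5833803823) (nat_lit 177) (nat_lit 5) (nat_lit 191) (nat_lit 5) (nat_lit 192) (nat_lit 5) (nat_lit 299) (nat_lit 289) (nat_lit 192)) (XT.lf (nat_lit 76) (nat_lit 1746827113) (nat_lit 0) (nat_lit 1408061320) (nat_lit 1140) (nat_lit 8643889673) (nat_lit 178) (nat_lit 5) (nat_lit 177) (nat_lit 5) (nat_lit 192) (nat_lit 5)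 (nat_lit 300) (nat_lit 289) (nat_lit 191)))) (XT.nd (nat_lit 78) (nat_lit 0) (nat_lit 0) (XT.lf (nat_lit 0) (nat_lit 4160611105) (nat_lit 1064) (nat_lit 4724946644) (nat_lit 1140) (nat_lit 3089226586) (nat_lit 178) (nat_lit 5) (nat_lit 192) (nat_lit 5) (nat_lit 193) (nat_lit 5) (nat_lit 301) (nat_lit 289) (nat_lit 190)) (XT.nd (nat_lit 78) (nat_lit 0) (nat_lit 76) (XT.lf (nat_lit 76) (nat_lit 748915909) (nat_lit 0) (nat_lit 4450517372) (nat_lit 1140) (nat_lit 6956585671) (nat_lit 179) (nat_lit 5) (nat_lit 178) (nat_lit 5) (nat_lit 193) (nat_lit 5) (nat_lit 302) (nat_lit 289) (nat_lit 189)) (XT.lf (nat_lit 0) (nat_lit 6300965308) (nat_lit 1064) (nat_lit 5873112774) (nat_lit 1140) (nat_lit 167701157) (nat_lit 179) (nat_lit 5) (nat_lit 193) (nat_lit 5) (nat_lit 194) (nat_lit 5) (nat_lit 303) (nat_lit 289) (nat_lit 188))))) (XT.nd (nat_lit 234) (nat_lit 2128) (nat_lit 0) (XT.nd (nat_lit 78) (nat_lit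 0) (nat_lit 0) (XT.lf (nat_lit 0) (nat_lit 7462355289) (nat_lit 1064) (nat_lit 230858648) (nat_lit 1140) (nat_lit 4839128004) (nat_lit 179) (nat_lit 5) (nat_lit 193) (nat_lit 5) (nat_lit 194) (nat_lit 5) (nat_lit 304) (nat_lit 289) (nat_lit 187)) (XT.nd (nat_lit 78) (nat_lit 0) (nat_lit 76) (XT.lf (nat_lit 76) (nat_lit 5678172145) (nat_lit 0) (nat_lit 3018246855) (nat_lit 1140) (nat_lit 4031100541) (nat_lit 180) (nat_lit 5) (nat_lit 179) (nat_lit 5) (nat_lit 194) (nat_lit 5) (nat_lit 305) (nat_lit 289) (nat_lit 186)) (XT.lf (nat_lit 0) (nat_lit 9970774814) (nat_lit 1064) (nat_lit 1190289864) (nat_lit 76) (nat_lit 1767421703) (nat_lit 180) (nat_lit 5) (nat_lit 194) (nat_lit 5) (nat_lit 181) (nat_lit 5) (nat_lit 306) (nat_lit 289) (nat_lit 185)))) (XT.nd (nat_lit 78) (nat_lit 1140) (nat_lit 0) (XT.lf (nat_lit 0) (nat_lit 4896894411) (nat_lit 1064) (nat_lit 6447541228) (nat_lit 1140) (nat_lit 1789245440)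 (nat_lit 166) (nat_lit 5) (nat_lit 180) (nat_lit 5) (nat_lit 181) (nat_lit 5) (nat_lit 307) (nat_lit 289) (nat_lit 184)) (XT.nd (nat_lit 78) (nat_lit 1140) (nat_lit 0) (XT.lf (nat_lit 0) (nat_lit 11177907155) (nat_lit 1064) (nat_lit 1577873289) (nat_lit 1140) (nat_lit 589387131) (nat_lit 166) (nat_lit 5) (nat_lit 180) (nat_lit 5) (nat_lit 181) (nat_lit 5) (nat_lit 308) (nat_lit 289) (nat_lit 183)) (XT.lf (nat_lit 0) (nat_lit 691957863) (nat_lit 1140) (nat_lit 9449723138) (nat_lit 76) (nat_lit 3419416510) (nat_lit 151) (nat_lit 5) (nat_lit 166) (nat_lit 5) (nat_lit 152) (nat_lit 5) (nat_lit 309) (nat_lit 289) (nat_lit 182)))))) (XT.nd (nat_lit 468) (nat_lit 1064) (nat_lit 0) (XT.nd (nat_lit 234) (nat_lit 1064) (nat_lit 0) (XT.nd (nat_lit 78) (nat_lit 532) (nat_lit 0) (XT.lf (nat_lit 0) (nat_lit 2022689012) (nat_lit 1140) (nat_lit 3195229762) (nat_lit 76) (nat_lit 8564755366) (nat_lit 151) (nat_lit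 5) (nat_lit 166) (nat_lit 5) (nat_lit 152) (nat_lit 5) (nat_lit 310) (nat_lit 289) (nat_lit 181)) (XT.nd (nat_lit 78) (nat_lit 0) (nat_lit 0) (XT.lf (nat_lit 0) (nat_lit 3298149236) (nat_lit 532) (nat_lit 112399239) (nat_lit 608) (nat_lit 10599860215) (nat_lit 144) (nat_lit 5) (nat_lit 151) (nat_lit 5) (nat_lit 152) (nat_lit 5) (nat_lit 311) (nat_lit 289) (nat_lit 180)) (XT.lf (nat_lit 0) (nat_lit 4907909764) (nat_lit 608) (nat_lit 4255410542) (nat_lit 76) (nat_lit 5079645024) (nat_lit 144) (nat_lit 5) (nat_lit 152) (nat_lit 5) (nat_lit 145) (nat_lit 5) (nat_lit 312) (nat_lit 289) (nat_lit 179)))) (XT.nd (nat_lit 78) (nat_lit 532) (nat_lit 0) (XT.lf (nat_lit 0) (nat_lit 2428365476) (nat_lit 532) (nat_lit 4032507235) (nat_lit 608) (nat_lit 8021330806) (nat_lit 137) (nat_lit 5) (nat_lit 144) (nat_lit 5) (nat_lit 145) (nat_lit 5) (nat_lit 313) (nat_lit 289) (nat_lit 178)) (XT.nd (nat_lit 78) (nat_lit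 532) (nat_lit 0) (XT.lf (nat_lit 0) (nat_lit 8102366040) (nat_lit 608) (nat_lit 5353264550) (nat_lit 76) (nat_lit 1271754555) (nat_lit 137) (nat_lit 5) (nat_lit 145) (nat_lit 5) (nat_lit 138) (nat_lit 5) (nat_lit 314) (nat_lit 289) (nat_lit 177)) (XT.lf (nat_lit 0) (nat_lit 1525192727) (nat_lit 532) (nat_lit 8309398852) (nat_lit 608) (nat_lit 5144109845) (nat_lit 130) (nat_lit 5) (nat_lit 137) (nat_lit 5) (nat_lit 138) (nat_lit 5) (nat_lit 315) (nat_lit 289) (nat_lit 176))))) (XT.nd (nat_lit 234) (nat_lit 532) (nat_lit 0) (XT.nd (nat_lit 78) (nat_lit 532) (nat_lit 0) (XT.lf (nat_lit 0) (nat_lit 8706897943) (nat_lit 532) (nat_lit 2953102016) (nat_lit 608) (nat_lit 3576343878) (nat_lit 130) (nat_lit 5) (nat_lit 137) (nat_lit 5) (nat_lit 138) (nat_lit 5) (nat_lit 316) (nat_lit 289) (nat_lit 175)) (XT.nd (nat_lit 78) (nat_lit 0) (nat_lit 0) (XT.lf (nat_lit 0) (nat_lit 576069492) (nat_lit 532) (nat_lit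 12981816864) (nat_lit 608) (nat_lit 1943320152) (nat_lit 123) (nat_lit 5) (nat_lit 130) (nat_lit 5) (nat_lit 131) (nat_lit 5) (nat_lit 317) (nat_lit 289) (nat_lit 174)) (XT.lf (nat_lit 0) (nat_lit 7986038296) (nat_lit 532) (nat_lit 7609330916) (nat_lit 608) (nat_lit 176187852) (nat_lit 123) (nat_lit 5) (nat_lit 130) (nat_lit 5) (nat_lit 131) (nat_lit 5) (nat_lit 318) (nat_lit 289) (nat_lit 173)))) (XT.nd (nat_lit 78) (nat_lit 456) (nat_lit 0) (XT.lf (nat_lit 0) (nat_lit 1599869986) (nat_lit 608) (nat_lit 460141971) (nat_lit 76) (nat_lit 13989912916) (nat_lit 122) (nat_lit 5) (nat_lit 130) (nat_lit 5) (nat_lit 123) (nat_lit 5) (nat_lit 319) (nat_lit 289) (nat_lit 172)) (XT.nd (nat_lit 78) (nat_lit 0) (nat_lit 0) (XT.lf (nat_lit 0) (nat_lit 3519172234) (nat_lit 532) (nat_lit 9159002107) (nat_lit 76) (nat_lit 3655631877) (nat_lit 116) (nat_lit 5) (nat_lit 123) (nat_lit 5) (nat_lit 117) (nat_lit 5)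 (nat_lit 320) (nat_lit 289) (nat_lit 171)) (XT.lf (nat_lit 0) (nat_lit 5509699274) (nat_lit 532) (nat_lit 1610770722) (nat_lit 76) (nat_lit 9505344007) (nat_lit 116) (nat_lit 5) (nat_lit 123) (nat_lit 5) (nat_lit 117) (nat_lit 5) (nat_lit 321) (nat_lit 289) (nat_lit 170))))))))
noncomputable def xc184 : XT := (XT.nd (nat_lit 1794) (nat_lit 2128) (nat_lit 0) (XT.nd (nat_lit 858) (nat_lit 2052) (nat_lit 0) (XT.nd (nat_lit 390) (nat_lit 836) (nat_lit 0) (XT.nd (nat_lit 156) (nat_lit 836) (nat_lit 0) (XT.nd (nat_lit 78) (nat_lit 0) (nat_lit 0) (XT.lf (nat_lit 0) (nat_lit 6274208963) (nat_lit 456) (nat_lit 1334935018) (nat_lit 532) (nat_lit 9315980792) (nat_lit 110) (nat_lit 5) (nat_lit 116) (nat_lit 5) (nat_lit 117) (nat_lit 5) (nat_lit 322) (nat_lit 289) (nat_lit 169)) (XT.lf (nat_lit 0) (nat_lit 9821536775) (nat_lit 532) (nat_lit 2861127749) (nat_lit 76) (nat_lit 4549269658) (nat_lit 110) (nat_lit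 5) (nat_lit 117) (nat_lit 5) (nat_lit 111) (nat_lit 5) (nat_lit 323) (nat_lit 289) (nat_lit 168))) (XT.nd (nat_lit 78) (nat_lit 456) (nat_lit 0) (XT.lf (nat_lit 0) (nat_lit 5239388984) (nat_lit 380) (nat_lit 6913899350) (nat_lit 456) (nat_lit 5393087657) (nat_lit 105) (nat_lit 5) (nat_lit 110) (nat_lit 5) (nat_lit 111) (nat_lit 5) (nat_lit 324) (nat_lit 289) (nat_lit 167)) (XT.nd (nat_lit 78) (nat_lit 456) (nat_lit 0) (XT.lf (nat_lit 0) (nat_lit 13629701915) (nat_lit 380) (nat_lit 943782376) (nat_lit 456) (nat_lit 3296229220) (nat_lit 105) (nat_lit 5) (nat_lit 110) (nat_lit 5) (nat_lit 111) (nat_lit 5) (nat_lit 325) (nat_lit 289) (nat_lit 166)) (XT.lf (nat_lit 0) (nat_lit 4086854670) (nat_lit 456) (nat_lit 13058643924) (nat_lit 532) (nat_lit 1054892898) (nat_lit 99) (nat_lit 5) (nat_lit 105) (nat_lit 5) (nat_lit 106) (nat_lit 5) (nat_lit 326) (nat_lit 289) (nat_lit 165))))) (XT.nd (nat_lit 234)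 (nat_lit 380) (nat_lit 0) (XT.nd (nat_lit 78) (nat_lit 380) (nat_lit 0) (XT.lf (nat_lit 0) (nat_lit 1271760673) (nat_lit 532) (nat_lit 5823011258) (nat_lit 76) (nat_lit 11444595864) (nat_lit 98) (nat_lit 5) (nat_lit 105) (nat_lit 5) (nat_lit 99) (nat_lit 5) (nat_lit 327) (nat_lit 289) (nat_lit 164)) (XT.nd (nat_lit 78) (nat_lit 0) (nat_lit 0) (XT.lf (nat_lit 0) (nat_lit 2747823527) (nat_lit 380) (nat_lit 915851239) (nat_lit 456) (nat_lit 15224040683) (nat_lit 93) (nat_lit 5) (nat_lit 98) (nat_lit 5) (nat_lit 99) (nat_lit 5) (nat_lit 328) (nat_lit 289) (nat_lit 163)) (XT.lf (nat_lit 0) (nat_lit 6229508203) (nat_lit 456) (nat_lit 7614308435) (nat_lit 76) (nat_lit 5399646883) (nat_lit 93) (nat_lit 5) (nat_lit 99) (nat_lit 5) (nat_lit 94) (nat_lit 5) (nat_lit 329) (nat_lit 289) (nat_lit 162)))) (XT.nd (nat_lit 78) (nat_lit 0) (nat_lit 0) (XT.lf (nat_lit 0) (nat_lit 1169383498) (nat_lit 380) (nat_lit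 7713926300) (nat_lit 456) (nat_lit 10726258856) (nat_lit 88) (nat_lit 5) (nat_lit 93) (nat_lit 5) (nat_lit 94) (nat_lit 5) (nat_lit 330) (nat_lit 289) (nat_lit 161)) (XT.nd (nat_lit 78) (nat_lit 0) (nat_lit 0) (XT.lf (nat_lit 0) (nat_lit 10361373802) (nat_lit 380) (nat_lit 1323088436) (nat_lit 456) (nat_lit 8300176593) (nat_lit 88) (nat_lit 5) (nat_lit 93) (nat_lit 5) (nat_lit 94) (nat_lit 5) (nat_lit 331) (nat_lit 289) (nat_lit 160)) (XT.lf (nat_lit 0) (nat_lit 14611300313) (nat_lit 456) (nat_lit 603623906) (nat_lit 76) (nat_lit 5154800949) (nat_lit 88) (nat_lit 5) (nat_lit 94) (nat_lit 5) (nat_lit 89) (nat_lit 5) (nat_lit 332) (nat_lit 289) (nat_lit 159)))))) (XT.nd (nat_lit 468) (nat_lit 988) (nat_lit 0) (XT.nd (nat_lit 234) (nat_lit 304) (nat_lit 0) (XT.nd (nat_lit 78) (nat_lit 456) (nat_lit 0) (XT.lf (nat_lit 0) (nat_lit 8835007124) (nat_lit 304) (nat_lit 8880316964) (nat_lit 380) (nat_lit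 3048371781) (nat_lit 84) (nat_lit 5) (nat_lit 88) (nat_lit 5) (nat_lit 89) (nat_lit 5) (nat_lit 333) (nat_lit 289) (nat_lit 158)) (XT.nd (nat_lit 78) (nat_lit 456) (nat_lit 0) (XT.lf (nat_lit 0) (nat_lit 18558375417) (nat_lit 304) (nat_lit 2351689835) (nat_lit 380) (nat_lit 259505346) (nat_lit 84) (nat_lit 5) (nat_lit 88) (nat_lit 5) (nat_lit 89) (nat_lit 5) (nat_lit 334) (nat_lit 289) (nat_lit 157)) (XT.lf (nat_lit 0) (nat_lit 2664765197) (nat_lit 456) (nat_lit 14539655769) (nat_lit 76) (nat_lit 4379377303) (nat_lit 78) (nat_lit 5) (nat_lit 84) (nat_lit 5) (nat_lit 79) (nat_lit 5) (nat_lit 335) (nat_lit 289) (nat_lit 156)))) (XT.nd (nat_lit 78) (nat_lit 304) (nat_lit 0) (XT.lf (nat_lit 0) (nat_lit 5713235045) (nat_lit 456) (nat_lit 5003898781) (nat_lit 76) (nat_lit 11292002973) (nat_lit 78) (nat_lit 5) (nat_lit 84) (nat_lit 5) (nat_lit 79) (nat_lit 5) (nat_lit 336) (nat_lit 289) (nat_lit 155))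 (XT.nd (nat_lit 78) (nat_lit 0) (nat_lit 0) (XT.lf (nat_lit 0) (nat_lit 4903133153) (nat_lit 304) (nat_lit 3989171256) (nat_lit 380) (nat_lit 13553768092) (nat_lit 74) (nat_lit 5) (nat_lit 78) (nat_lit 5) (nat_lit 79) (nat_lit 5) (nat_lit 337) (nat_lit 289) (nat_lit 154)) (XT.lf (nat_lit 0) (nat_lit 12238165045) (nat_lit 380) (nat_lit 7724012039) (nat_lit 76) (nat_lit 2931807661) (nat_lit 74) (nat_lit 5) (nat_lit 79) (nat_lit 5) (nat_lit 75) (nat_lit 5) (nat_lit 338) (nat_lit 289) (nat_lit 153))))) (XT.nd (nat_lit 234) (nat_lit 684) (nat_lit 0) (XT.nd (nat_lit 78) (nat_lit 0) (nat_lit 0) (XT.lf (nat_lit 0) (nat_lit 2386264267) (nat_lit 304) (nat_lit 13352923854) (nat_lit 380) (nat_lit 7614513362) (nat_lit 70) (nat_lit 5) (nat_lit 74) (nat_lit 5) (nat_lit 75) (nat_lit 5) (nat_lit 339) (nat_lit 289) (nat_lit 152)) (XT.nd (nat_lit 78) (nat_lit 0) (nat_lit 0) (XT.lf (nat_lit 0) (nat_lit 12947997701)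 (nat_lit 304) (nat_lit 6467718068) (nat_lit 380) (nat_lit 4409390152) (nat_lit 70) (nat_lit 5) (nat_lit 74) (nat_lit 5) (nat_lit 75) (nat_lit 5) (nat_lit 340) (nat_lit 289) (nat_lit 151)) (XT.lf (nat_lit 0) (nat_lit 23201208722) (nat_lit 380) (nat_lit 500161601) (nat_lit 76) (nat_lit 609332192) (nat_lit 70) (nat_lit 5) (nat_lit 75) (nat_lit 5) (nat_lit 71) (nat_lit 5) (nat_lit 341) (nat_lit 289) (nat_lit 150)))) (XT.nd (nat_lit 78) (nat_lit 304) (nat_lit 0) (XT.lf (nat_lit 0) (nat_lit 2402341205) (nat_lit 380) (nat_lit 14514196195) (nat_lit 76) (nat_lit 7888950439) (nat_lit 65) (nat_lit 5) (nat_lit 70) (nat_lit 5) (nat_lit 66) (nat_lit 5) (nat_lit 342) (nat_lit 289) (nat_lit 149)) (XT.nd (nat_lit 78) (nat_lit 304) (nat_lit 0) (XT.lf (nat_lit 0) (nat_lit 5995251754) (nat_lit 380) (nat_lit 3919112647) (nat_lit 76) (nat_lit 15400491414) (nat_lit 65) (nat_lit 5) (nat_lit 70) (nat_lit 5) (nat_lit 66)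 (nat_lit 5) (nat_lit 343) (nat_lit 289) (nat_lit 148)) (XT.lf (nat_lit 0) (nat_lit 7123257149) (nat_lit 304) (nat_lit 2634291370) (nat_lit 380) (nat_lit 16080117327) (nat_lit 61) (nat_lit 5) (nat_lit 65) (nat_lit 5) (nat_lit 66) (nat_lit 5) (nat_lit 344) (nat_lit 289) (nat_lit 147))))))) (XT.nd (nat_lit 936) (nat_lit 836) (nat_lit 0) (XT.nd (nat_lit 468) (nat_lit 760) (nat_lit 0) (XT.nd (nat_lit 234) (nat_lit 304) (nat_lit 0) (XT.nd (nat_lit 78) (nat_lit 228) (nat_lit 0) (XT.lf (nat_lit 0) (nat_lit 13712647813) (nat_lit 380) (nat_lit 7854544769) (nat_lit 76) (nat_lit 4806578306) (nat_lit 61) (nat_lit 5) (nat_lit 66) (nat_lit 5) (nat_lit 62) (nat_lit 5) (nat_lit 345) (nat_lit 289) (nat_lit 146)) (XT.nd (nat_lit 78) (nat_lit 0) (nat_lit 0) (XT.lf (nat_lit 0) (nat_lit 3361245797) (nat_lit 228) (nat_lit 14476953455) (nat_lit 304) (nat_lit 9086214322) (nat_lit 58) (nat_lit 5) (nat_lit 61) (nat_lit 5)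 (nat_lit 62) (nat_lit 5) (nat_lit 346) (nat_lit 289) (nat_lit 145)) (XT.lf (nat_lit 0) (nat_lit 15065235286) (nat_lit 228) (nat_lit 7095106957) (nat_lit 304) (nat_lit 5329056768) (nat_lit 58) (nat_lit 5) (nat_lit 61) (nat_lit 5) (nat_lit 62) (nat_lit 5) (nat_lit 347) (nat_lit 289) (nat_lit 144)))) (XT.nd (nat_lit 78) (nat_lit 304) (nat_lit 0) (XT.lf (nat_lit 0) (nat_lit 26610707070) (nat_lit 304) (nat_lit 965060394) (nat_lit 76) (nat_lit 495617800) (nat_lit 58) (nat_lit 5) (nat_lit 62) (nat_lit 5) (nat_lit 59) (nat_lit 5) (nat_lit 348) (nat_lit 289) (nat_lit 143)) (XT.nd (nat_lit 78) (nat_lit 0) (nat_lit 0) (XT.lf (nat_lit 0) (nat_lit 2645757985) (nat_lit 304) (nat_lit 17718922736) (nat_lit 76) (nat_lit 8300292500) (nat_lit 54) (nat_lit 5) (nat_lit 58) (nat_lit 5) (nat_lit 55) (nat_lit 5) (nat_lit 349) (nat_lit 289) (nat_lit 142)) (XT.lf (nat_lit 0) (nat_lit 6849754308) (nat_lit 304) (nat_lit 6065317437)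 (nat_lit 76) (nat_lit 16360758753) (nat_lit 54) (nat_lit 5) (nat_lit 58) (nat_lit 5) (nat_lit 55) (nat_lit 5) (nat_lit 350) (nat_lit 289) (nat_lit 141))))) (XT.nd (nat_lit 234) (nat_lit 304) (nat_lit 0) (XT.nd (nat_lit 78) (nat_lit 228) (nat_lit 0) (XT.lf (nat_lit 0) (nat_lit 6047199821) (nat_lit 228) (nat_lit 5184861770) (nat_lit 304) (nat_lit 18671393259) (nat_lit 51) (nat_lit 5) (nat_lit 54) (nat_lit 5) (nat_lit 55) (nat_lit 5) (nat_lit 351) (nat_lit 289) (nat_lit 140)) (XT.nd (nat_lit 78) (nat_lit 228) (nat_lit 0) (XT.lf (nat_lit 0) (nat_lit 15828514256) (nat_lit 304) (nat_lit 11936717236) (nat_lit 76) (nat_lit 2782203042) (nat_lit 51) (nat_lit 5) (nat_lit 55) (nat_lit 5) (nat_lit 52) (nat_lit 5) (nat_lit 352) (nat_lit 289) (nat_lit 139)) (XT.lf (nat_lit 0) (nat_lit 286141176) (nat_lit 228) (nat_lit 20325101527) (nat_lit 304) (nat_lit 10598046121) (nat_lit 48) (nat_lit 5) (nat_lit 51) (nat_lit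 5) (nat_lit 52) (nat_lit 5) (nat_lit 353) (nat_lit 289) (nat_lit 138)))) (XT.nd (nat_lit 78) (nat_lit 304) (nat_lit 0) (XT.lf (nat_lit 0) (nat_lit 13111945917) (nat_lit 228) (nat_lit 12540425988) (nat_lit 304) (nat_lit 6235185762) (nat_lit 48) (nat_lit 5) (nat_lit 51) (nat_lit 5) (nat_lit 52) (nat_lit 5) (nat_lit 354) (nat_lit 289) (nat_lit 137)) (XT.nd (nat_lit 78) (nat_lit 304) (nat_lit 0) (XT.lf (nat_lit 0) (nat_lit 26314339921) (nat_lit 228) (nat_lit 4524940168) (nat_lit 304) (nat_lit 1747064431) (nat_lit 48) (nat_lit 5) (nat_lit 51) (nat_lit 5) (nat_lit 52) (nat_lit 5) (nat_lit 355) (nat_lit 289) (nat_lit 136)) (XT.lf (nat_lit 0) (nat_lit 2915402760) (nat_lit 304) (nat_lit 26638465154) (nat_lit 76) (nat_lit 3748529189) (nat_lit 44) (nat_lit 5) (nat_lit 48) (nat_lit 5) (nat_lit 45) (nat_lit 5) (nat_lit 356) (nat_lit 289) (nat_lit 135)))))) (XT.nd (nat_lit 468) (nat_lit 456) (nat_lit 0) (XT.nd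 (nat_lit 234) (nat_lit 152) (nat_lit 0) (XT.nd (nat_lit 78) (nat_lit 228) (nat_lit 0) (XT.lf (nat_lit 0) (nat_lit 7786091919) (nat_lit 304) (nat_lit 13992358807) (nat_lit 76) (nat_lit 12257863506) (nat_lit 44) (nat_lit 5) (nat_lit 48) (nat_lit 5) (nat_lit 45) (nat_lit 5) (nat_lit 357) (nat_lit 289) (nat_lit 134)) (XT.nd (nat_lit 78) (nat_lit 228) (nat_lit 0) (XT.lf (nat_lit 0) (nat_lit 12797754958) (nat_lit 304) (nat_lit 974750821) (nat_lit 76) (nat_lit 21019903098) (nat_lit 44) (nat_lit 5) (nat_lit 48) (nat_lit 5) (nat_lit 45) (nat_lit 5) (nat_lit 358) (nat_lit 289) (nat_lit 133)) (XT.lf (nat_lit 0) (nat_lit 12673029871) (nat_lit 228) (nat_lit 5403562045) (nat_lit 304) (nat_lit 17491095158) (nat_lit 41) (nat_lit 5) (nat_lit 44) (nat_lit 5) (nat_lit 45) (nat_lit 5) (nat_lit 359) (nat_lit 289) (nat_lit 132)))) (XT.nd (nat_lit 78) (nat_lit 152) (nat_lit 0) (XT.lf (nat_lit 0) (nat_lit 23549703314)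 (nat_lit 304) (nat_lit 9654423319) (nat_lit 76) (nat_lit 3161024980) (nat_lit 41) (nat_lit 5) (nat_lit 45) (nat_lit 5) (nat_lit 42) (nat_lit 5) (nat_lit 360) (nat_lit 289) (nat_lit 131)) (XT.nd (nat_lit 78) (nat_lit 0) (nat_lit 0) (XT.lf (nat_lit 0) (nat_lit 4000093119) (nat_lit 152) (nat_lit 25274061374) (nat_lit 228) (nat_lit 7909776325) (nat_lit 39) (nat_lit 5) (nat_lit 41) (nat_lit 5) (nat_lit 42) (nat_lit 5) (nat_lit 361) (nat_lit 289) (nat_lit 130)) (XT.lf (nat_lit 0) (nat_lit 18254744526) (nat_lit 152) (nat_lit 17008348679) (nat_lit 228) (nat_lit 2761402548) (nat_lit 39) (nat_lit 5) (nat_lit 41) (nat_lit 5) (nat_lit 42) (nat_lit 5) (nat_lit 362) (nat_lit 289) (nat_lit 129))))) (XT.nd (nat_lit 234) (nat_lit 152) (nat_lit 0) (XT.nd (nat_lit 78) (nat_lit 228) (nat_lit 0) (XT.lf (nat_lit 0) (nat_lit 2487181085) (nat_lit 228) (nat_lit 5984960087) (nat_lit 76) (nat_lit 30417547731) (nat_lit 38)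 (nat_lit 5) (nat_lit 41) (nat_lit 5) (nat_lit 39) (nat_lit 5) (nat_lit 363) (nat_lit 289) (nat_lit 128)) (XT.nd (nat_lit 78) (nat_lit 0) (nat_lit 0) (XT.lf (nat_lit 0) (nat_lit 7917510484) (nat_lit 304) (nat_lit 31440133974) (nat_lit 76) (nat_lit 419984031) (nat_lit 35) (nat_lit 5) (nat_lit 39) (nat_lit 5) (nat_lit 36) (nat_lit 5) (nat_lit 364) (nat_lit 289) (nat_lit 127)) (XT.lf (nat_lit 0) (nat_lit 13651192983) (nat_lit 304) (nat_lit 17569685462) (nat_lit 76) (nat_lit 9467118940) (nat_lit 35) (nat_lit 5) (nat_lit 39) (nat_lit 5) (nat_lit 36) (nat_lit 5) (nat_lit 365) (nat_lit 289) (nat_lit 126)))) (XT.nd (nat_lit 78) (nat_lit 152) (nat_lit 0) (XT.lf (nat_lit 0) (nat_lit 19552542164) (nat_lit 304) (nat_lit 3290036014) (nat_lit 76) (nat_lit 18783233774) (nat_lit 35) (nat_lit 5) (nat_lit 39) (nat_lit 5) (nat_lit 36) (nat_lit 5) (nat_lit 366) (nat_lit 289) (nat_lit 125)) (XT.nd (nat_lit 78) (nat_lit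 0) (nat_lit 0) (XT.lf (nat_lit 0) (nat_lit 11638398814) (nat_lit 152) (nat_lit 14100191138) (nat_lit 228) (nat_lit 16849945424) (nat_lit 33) (nat_lit 5) (nat_lit 35) (nat_lit 5) (nat_lit 36) (nat_lit 5) (nat_lit 367) (nat_lit 289) (nat_lit 124)) (XT.lf (nat_lit 0) (nat_lit 27075483813) (nat_lit 152) (nat_lit 5063799952) (nat_lit 228) (nat_lit 11439988845) (nat_lit 33) (nat_lit 5) (nat_lit 35) (nat_lit 5) (nat_lit 36) (nat_lit 5) (nat_lit 368) (nat_lit 289) (nat_lit 123))))))))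
noncomputable def xc185 : XT := (XT.nd (nat_lit 34632) (nat_lit 0) (nat_lit 8968) (XT.nd (nat_lit 858) (nat_lit 304) (nat_lit 0) (XT.nd (nat_lit 390) (nat_lit 380) (nat_lit 0) (XT.nd (nat_lit 156) (nat_lit 152) (nat_lit 0) (XT.nd (nat_lit 78) (nat_lit 228) (nat_lit 0) (XT.lf (nat_lit 0) (nat_lit 38768730853) (nat_lit 228) (nat_lit 1671397140) (nat_lit 76) (nat_lit 4158505920) (nat_lit 33) (nat_lit 5) (nat_lit 36) (nat_lit 5) (nat_lit 34) (nat_lit 5) (nat_lit 369) (nat_lit 289) (nat_lit 122)) (XT.lf (nat_lit 0) (nat_lit 130291786) (nat_lit 228) (nat_lit 31825358454) (nat_lit 76) (nat_lit 13687520333) (nat_lit 30) (nat_lit 5) (nat_lit 33) (nat_lit 5) (nat_lit 31) (nat_lit 5) (nat_lit 370) (nat_lit 289) (nat_lit 121))) (XT.nd (nat_lit 78) (nat_lit 152) (nat_lit 0) (XT.lf (nat_lit 0) (nat_lit 6165232123) (nat_lit 228) (nat_lit 16976848466) (nat_lit 76) (nat_lit 23574841234) (nat_lit 30) (nat_lit 5)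 (nat_lit 33) (nat_lit 5) (nat_lit 31) (nat_lit 5) (nat_lit 371) (nat_lit 289) (nat_lit 120)) (XT.nd (nat_lit 78) (nat_lit 152) (nat_lit 0) (XT.lf (nat_lit 0) (nat_lit 12377405117) (nat_lit 228) (nat_lit 1689079498) (nat_lit 76) (nat_lit 33756518951) (nat_lit 30) (nat_lit 5) (nat_lit 33) (nat_lit 5) (nat_lit 31) (nat_lit 5) (nat_lit 372) (nat_lit 289) (nat_lit 119)) (XT.lf (nat_lit 0) (nat_lit 14330955250) (nat_lit 152) (nat_lit 4579041541) (nat_lit 228) (nat_lit 30048252752) (nat_lit 28) (nat_lit 5) (nat_lit 30) (nat_lit 5) (nat_lit 31) (nat_lit 5) (nat_lit 373) (nat_lit 289) (nat_lit 118))))) (XT.nd (nat_lit 234) (nat_lit 228) (nat_lit 0) (XT.nd (nat_lit 78) (nat_lit 152) (nat_lit 0) (XT.lf (nat_lit 0) (nat_lit 25702034091) (nat_lit 228) (nat_lit 19316960728) (nat_lit 76) (nat_lit 5106657333) (nat_lit 28) (nat_lit 5) (nat_lit 31) (nat_lit 5) (nat_lit 29) (nat_lit 5) (nat_lit 374) (nat_lit 289)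 (nat_lit 117)) (XT.nd (nat_lit 78) (nat_lit 152) (nat_lit 0) (XT.lf (nat_lit 0) (nat_lit 32739600697) (nat_lit 228) (nat_lit 3598525682) (nat_lit 76) (nat_lit 14988700605) (nat_lit 28) (nat_lit 5) (nat_lit 31) (nat_lit 5) (nat_lit 29) (nat_lit 5) (nat_lit 375) (nat_lit 289) (nat_lit 116)) (XT.lf (nat_lit 0) (nat_lit 12836243286) (nat_lit 152) (nat_lit 27271975928) (nat_lit 228) (nat_lit 12452223200) (nat_lit 26) (nat_lit 5) (nat_lit 28) (nat_lit 5) (nat_lit 29) (nat_lit 5) (nat_lit 376) (nat_lit 289) (nat_lit 115)))) (XT.nd (nat_lit 78) (nat_lit 228) (nat_lit 0) (XT.lf (nat_lit 0) (nat_lit 29832176990) (nat_lit 152) (nat_lit 17898639100) (nat_lit 228) (nat_lit 6099265631) (nat_lit 26) (nat_lit 5) (nat_lit 28) (nat_lit 5) (nat_lit 29) (nat_lit 5) (nat_lit 377) (nat_lit 289) (nat_lit 114)) (XT.nd (nat_lit 78) (nat_lit 152) (nat_lit 0) (XT.lf (nat_lit 0) (nat_lit 432256737) (nat_lit 228) (nat_lit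 7809641972) (nat_lit 76) (nat_lit 46895886847) (nat_lit 25) (nat_lit 5) (nat_lit 28) (nat_lit 5) (nat_lit 26) (nat_lit 5) (nat_lit 378) (nat_lit 289) (nat_lit 113)) (XT.lf (nat_lit 0) (nat_lit 7137955186) (nat_lit 228) (nat_lit 47524639090) (nat_lit 76) (nat_lit 1817292731) (nat_lit 23) (nat_lit 5) (nat_lit 26) (nat_lit 5) (nat_lit 24) (nat_lit 5) (nat_lit 379) (nat_lit 289) (nat_lit 112)))))) (XT.nd (nat_lit 468) (nat_lit 152) (nat_lit 0) (XT.nd (nat_lit 234) (nat_lit 0) (nat_lit 0) (XT.nd (nat_lit 78) (nat_lit 152) (nat_lit 0) (XT.lf (nat_lit 0) (nat_lit 14202836889) (nat_lit 228) (nat_lit 31564508874) (nat_lit 76) (nat_lit 12090168044) (nat_lit 23) (nat_lit 5) (nat_lit 26) (nat_lit 5) (nat_lit 24) (nat_lit 5) (nat_lit 380) (nat_lit 289) (nat_lit 111)) (XT.nd (nat_lit 78) (nat_lit 152) (nat_lit 0) (XT.lf (nat_lit 0) (nat_lit 21476525683) (nat_lit 228) (nat_lit 15130831034) (nat_lit 76) (nat_lit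 22669209469) (nat_lit 23) (nat_lit 5) (nat_lit 26) (nat_lit 5) (nat_lit 24) (nat_lit 5) (nat_lit 381) (nat_lit 289) (nat_lit 110)) (XT.lf (nat_lit 0) (nat_lit 1826393468) (nat_lit 152) (nat_lit 27156540163) (nat_lit 228) (nat_lit 31754823771) (nat_lit 21) (nat_lit 5) (nat_lit 23) (nat_lit 5) (nat_lit 24) (nat_lit 5) (nat_lit 382) (nat_lit 289) (nat_lit 109)))) (XT.nd (nat_lit 78) (nat_lit 0) (nat_lit 0) (XT.lf (nat_lit 0) (nat_lit 19597448752) (nat_lit 152) (nat_lit 17266869069) (nat_lit 228) (nat_lit 25373975460) (nat_lit 21) (nat_lit 5) (nat_lit 23) (nat_lit 5) (nat_lit 24) (nat_lit 5) (nat_lit 383) (nat_lit 289) (nat_lit 108)) (XT.nd (nat_lit 78) (nat_lit 0) (nat_lit 0) (XT.lf (nat_lit 0) (nat_lit 37896729718) (nat_lit 152) (nat_lit 7082493702) (nat_lit 228) (nat_lit 18804711796) (nat_lit 21) (nat_lit 5) (nat_lit 23) (nat_lit 5) (nat_lit 24) (nat_lit 5) (nat_lit 384) (nat_lit 289) (nat_lit 107))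 (XT.lf (nat_lit 0) (nat_lit 53367476725) (nat_lit 228) (nat_lit 8668543342) (nat_lit 76) (nat_lit 3339031630) (nat_lit 21) (nat_lit 5) (nat_lit 24) (nat_lit 5) (nat_lit 22) (nat_lit 4) (nat_lit 385) (nat_lit 289) (nat_lit 106))))) (XT.nd (nat_lit 234) (nat_lit 0) (nat_lit 0) (XT.nd (nat_lit 78) (nat_lit 76) (nat_lit 0) (XT.lf (nat_lit 0) (nat_lit 9170819525) (nat_lit 76) (nat_lit 52992066847) (nat_lit 152) (nat_lit 4846352279) (nat_lit 20) (nat_lit 5) (nat_lit 21) (nat_lit 5) (nat_lit 22) (nat_lit 4) (nat_lit 386) (nat_lit 289) (nat_lit 105)) (XT.nd (nat_lit 78) (nat_lit 0) (nat_lit 0) (XT.lf (nat_lit 0) (nat_lit 2565981726) (nat_lit 152) (nat_lit 40996651309) (nat_lit 76) (nat_lit 25126521626) (nat_lit 19) (nat_lit 5) (nat_lit 21) (nat_lit 5) (nat_lit 20) (nat_lit 5) (nat_lit 387) (nat_lit 289) (nat_lit 104)) (XT.lf (nat_lit 0) (nat_lit 10100595716) (nat_lit 152) (nat_lit 23702179477) (nat_lit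 76) (nat_lit 36615335990) (nat_lit 19) (nat_lit 5) (nat_lit 21) (nat_lit 5) (nat_lit 20) (nat_lit 5) (nat_lit 388) (nat_lit 289) (nat_lit 103)))) (XT.nd (nat_lit 32916) (nat_lit 0) (nat_lit 12844) (XT.lf (nat_lit 0) (nat_lit 17858643123) (nat_lit 152) (nat_lit 5893305853) (nat_lit 76) (nat_lit 48447067565) (nat_lit 19) (nat_lit 5) (nat_lit 21) (nat_lit 5) (nat_lit 20) (nat_lit 5) (nat_lit 389) (nat_lit 289) (nat_lit 102)) (XT.nd (nat_lit 78) (nat_lit 0) (nat_lit 0) (XT.lf (nat_lit 0) (nat_lit 1607675802) (nat_lit 0) (nat_lit 1607675802) (nat_lit 988) (nat_lit 1985092370) (nat_lit 188) (nat_lit 5) (nat_lit 188) (nat_lit 3) (nat_lit 201) (nat_lit 3) (nat_lit 290) (nat_lit 290) (nat_lit 200)) (XT.lf (nat_lit 0) (nat_lit 7128963697) (nat_lit 988) (nat_lit 2704526996) (nat_lit 1064) (nat_lit 704115671) (nat_lit 188) (nat_lit 5) (nat_lit 201) (nat_lit 3) (nat_lit 202) (nat_lit 5) (nat_lit 291) (nat_lit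 290) (nat_lit 199))))))) (XT.nd (nat_lit 936) (nat_lit 2964) (nat_lit 0) (XT.nd (nat_lit 468) (nat_lit 0) (nat_lit 0) (XT.nd (nat_lit 234) (nat_lit 912) (nat_lit 0) (XT.nd (nat_lit 78) (nat_lit 0) (nat_lit 0) (XT.lf (nat_lit 76) (nat_lit 1903761603) (nat_lit 0) (nat_lit 5971440111) (nat_lit 1064) (nat_lit 2802462155) (nat_lit 189) (nat_lit 5) (nat_lit 188) (nat_lit 5) (nat_lit 202) (nat_lit 5) (nat_lit 292) (nat_lit 290) (nat_lit 198)) (XT.nd (nat_lit 78) (nat_lit 0) (nat_lit 76) (XT.lf (nat_lit 76) (nat_lit 6693396106) (nat_lit 0) (nat_lit 1955189944) (nat_lit 1064) (nat_lit 2173241292) (nat_lit 189) (nat_lit 5) (nat_lit 188) (nat_lit 5) (nat_lit 202) (nat_lit 5) (nat_lit 293) (nat_lit 290) (nat_lit 197)) (XT.lf (nat_lit 76) (nat_lit 635044400) (nat_lit 0) (nat_lit 8815403183) (nat_lit 1064) (nat_lit 1519755514) (nat_lit 190) (nat_lit 5) (nat_lit 189) (nat_lit 5) (nat_lit 203) (nat_lit 5) (nat_lit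 294) (nat_lit 290) (nat_lit 196)))) (XT.nd (nat_lit 78) (nat_lit 988) (nat_lit 0) (XT.lf (nat_lit 76) (nat_lit 5593653665) (nat_lit 0) (nat_lit 4722283021) (nat_lit 1064) (nat_lit 805950609) (nat_lit 190) (nat_lit 5) (nat_lit 189) (nat_lit 5) (nat_lit 203) (nat_lit 5) (nat_lit 295) (nat_lit 290) (nat_lit 195)) (XT.nd (nat_lit 78) (nat_lit 988) (nat_lit 0) (XT.lf (nat_lit 76) (nat_lit 10688733974) (nat_lit 0) (nat_lit 497990596) (nat_lit 1064) (nat_lit 92060453) (nat_lit 190) (nat_lit 5) (nat_lit 189) (nat_lit 5) (nat_lit 203) (nat_lit 5) (nat_lit 296) (nat_lit 290) (nat_lit 194)) (XT.lf (nat_lit 0) (nat_lit 691899757) (nat_lit 1064) (nat_lit 6910311512) (nat_lit 1140) (nat_lit 3836197312) (nat_lit 176) (nat_lit 5) (nat_lit 190) (nat_lit 5) (nat_lit 191) (nat_lit 5) (nat_lit 297) (nat_lit 290) (nat_lit 193))))) (XT.nd (nat_lit 234) (nat_lit 0) (nat_lit 76) (XT.nd (nat_lit 78) (nat_lit 0) (nat_lit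 76) (XT.lf (nat_lit 0) (nat_lit 1488719242) (nat_lit 1064) (nat_lit 1809617872) (nat_lit 1140) (nat_lit 8304760040) (nat_lit 176) (nat_lit 5) (nat_lit 190) (nat_lit 5) (nat_lit 191) (nat_lit 5) (nat_lit 298) (nat_lit 290) (nat_lit 192)) (XT.nd (nat_lit 78) (nat_lit 0) (nat_lit 0) (XT.lf (nat_lit 0) (nat_lit 2335207409) (nat_lit 1064) (nat_lit 8283826195) (nat_lit 1140) (nat_lit 1152958089) (nat_lit 177) (nat_lit 5) (nat_lit 191) (nat_lit 5) (nat_lit 192) (nat_lit 5) (nat_lit 299) (nat_lit 290) (nat_lit 191)) (XT.lf (nat_lit 0) (nat_lit 3239519164) (nat_lit 1064) (nat_lit 3009383600) (nat_lit 1140) (nat_lit 5696114552) (nat_lit 177) (nat_lit 5) (nat_lit 191) (nat_lit 5) (nat_lit 192) (nat_lit 5) (nat_lit 300) (nat_lit 290) (nat_lit 190)))) (XT.nd (nat_lit 78) (nat_lit 0) (nat_lit 76) (XT.lf (nat_lit 76) (nat_lit 2458530383) (nat_lit 0) (nat_lit 1717924555) (nat_lit 1140) (nat_lit 7946649966) (nat_lit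 178) (nat_lit 5) (nat_lit 177) (nat_lit 5) (nat_lit 192) (nat_lit 5) (nat_lit 301) (nat_lit 290) (nat_lit 189)) (XT.nd (nat_lit 78) (nat_lit 0) (nat_lit 0) (XT.lf (nat_lit 0) (nat_lit 5182854012) (nat_lit 1064) (nat_lit 4195328496) (nat_lit 1140) (nat_lit 2927146940) (nat_lit 178) (nat_lit 5) (nat_lit 192) (nat_lit 5) (nat_lit 193) (nat_lit 5) (nat_lit 302) (nat_lit 290) (nat_lit 188)) (XT.lf (nat_lit 76) (nat_lit 1436167909) (nat_lit 0) (nat_lit 4796924680) (nat_lit 1140) (nat_lit 6259552681) (nat_lit 179) (nat_lit 5) (nat_lit 178) (nat_lit 5) (nat_lit 193) (nat_lit 5) (nat_lit 303) (nat_lit 290) (nat_lit 187)))))) (XT.nd (nat_lit 468) (nat_lit 2128) (nat_lit 0) (XT.nd (nat_lit 234) (nat_lit 988) (nat_lit 0) (XT.nd (nat_lit 78) (nat_lit 0) (nat_lit 76) (XT.lf (nat_lit 76) (nat_lit 7309892581) (nat_lit 0) (nat_lit 30521154) (nat_lit 1140) (nat_lit 5344432547) (nat_lit 179) (nat_lit 5) (nat_lit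 178) (nat_lit 5) (nat_lit 193) (nat_lit 5) (nat_lit 304) (nat_lit 290) (nat_lit 186)) (XT.nd (nat_lit 78) (nat_lit 0) (nat_lit 0) (XT.lf (nat_lit 76) (nat_lit 425514884) (nat_lit 0) (nat_lit 8090166500) (nat_lit 1140) (nat_lit 4366122153) (nat_lit 180) (nat_lit 5) (nat_lit 179) (nat_lit 5) (nat_lit 194) (nat_lit 5) (nat_lit 305) (nat_lit 290) (nat_lit 185)) (XT.lf (nat_lit 76) (nat_lit 6497091744) (nat_lit 0) (nat_lit 3267779686) (nat_lit 1140) (nat_lit 3318669232) (nat_lit 180) (nat_lit 5) (nat_lit 179) (nat_lit 5) (nat_lit 194) (nat_lit 5) (nat_lit 306) (nat_lit 290) (nat_lit 184)))) (XT.nd (nat_lit 78) (nat_lit 1140) (nat_lit 0) (XT.lf (nat_lit 0) (nat_lit 11052453006) (nat_lit 1064) (nat_lit 569778011) (nat_lit 76) (nat_lit 1669101590) (nat_lit 180) (nat_lit 5) (nat_lit 194) (nat_lit 5) (nat_lit 181) (nat_lit 5) (nat_lit 307) (nat_lit 290) (nat_lit 183)) (XT.nd (nat_lit 78) (nat_lit 76) (nat_lit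 0) (XT.lf (nat_lit 0) (nat_lit 5693588257) (nat_lit 1064) (nat_lit 6757188686) (nat_lit 1140) (nat_lit 1052447218) (nat_lit 166) (nat_lit 5) (nat_lit 180) (nat_lit 5) (nat_lit 181) (nat_lit 5) (nat_lit 308) (nat_lit 290) (nat_lit 182)) (XT.lf (nat_lit 0) (nat_lit 157253624) (nat_lit 1140) (nat_lit 1579204047) (nat_lit 76) (nat_lit 11985263971) (nat_lit 165) (nat_lit 5) (nat_lit 180) (nat_lit 5) (nat_lit 166) (nat_lit 5) (nat_lit 309) (nat_lit 290) (nat_lit 181))))) (XT.nd (nat_lit 234) (nat_lit 532) (nat_lit 0) (XT.nd (nat_lit 78) (nat_lit 532) (nat_lit 0) (XT.lf (nat_lit 0) (nat_lit 1448515596) (nat_lit 1140) (nat_lit 9067937977) (nat_lit 76) (nat_lit 3428041982) (nat_lit 151) (nat_lit 5) (nat_lit 166) (nat_lit 5) (nat_lit 152) (nat_lit 5) (nat_lit 310) (nat_lit 290) (nat_lit 180)) (XT.nd (nat_lit 78) (nat_lit 532) (nat_lit 0) (XT.lf (nat_lit 0) (nat_lit 2797737640) (nat_lit 1140) (nat_lit 2645186796)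 (nat_lit 76) (nat_lit 8730477616) (nat_lit 151) (nat_lit 5) (nat_lit 166) (nat_lit 5) (nat_lit 152) (nat_lit 5) (nat_lit 311) (nat_lit 290) (nat_lit 179)) (XT.lf (nat_lit 0) (nat_lit 4036661221) (nat_lit 532) (nat_lit 175912748) (nat_lit 608) (nat_lit 10195872922) (nat_lit 144) (nat_lit 5) (nat_lit 151) (nat_lit 5) (nat_lit 152) (nat_lit 5) (nat_lit 312) (nat_lit 290) (nat_lit 178)))) (XT.nd (nat_lit 78) (nat_lit 532) (nat_lit 0) (XT.lf (nat_lit 0) (nat_lit 5733914942) (nat_lit 608) (nat_lit 3739946950) (nat_lit 76) (nat_lit 5174783934) (nat_lit 144) (nat_lit 5) (nat_lit 152) (nat_lit 5) (nat_lit 145) (nat_lit 5) (nat_lit 313) (nat_lit 290) (nat_lit 177)) (XT.nd (nat_lit 78) (nat_lit 0) (nat_lit 0) (XT.lf (nat_lit 0) (nat_lit 3138037192) (nat_lit 532) (nat_lit 4181781158) (nat_lit 608) (nat_lit 7575688537) (nat_lit 137) (nat_lit 5) (nat_lit 144) (nat_lit 5) (nat_lit 145) (nat_lit 5) (nat_lit 314)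 (nat_lit 290) (nat_lit 176)) (XT.lf (nat_lit 0) (nat_lit 8990919966) (nat_lit 608) (nat_lit 4874779466) (nat_lit 76) (nat_lit 1282968846) (nat_lit 137) (nat_lit 5) (nat_lit 145) (nat_lit 5) (nat_lit 138) (nat_lit 5) (nat_lit 315) (nat_lit 290) (nat_lit 175))))))))
noncomputable def xc186 : XT := (XT.nd (nat_lit 1794) (nat_lit 2660) (nat_lit 0) (XT.nd (nat_lit 858) (nat_lit 2356) (nat_lit 0) (XT.nd (nat_lit 390) (nat_lit 836) (nat_lit 0) (XT.nd (nat_lit 156) (nat_lit 1064) (nat_lit 0) (XT.nd (nat_lit 78) (nat_lit 0) (nat_lit 0) (XT.lf (nat_lit 0) (nat_lit 2203766010) (nat_lit 532) (nat_lit 8558628816) (nat_lit 608) (nat_lit 4645544934) (nat_lit 130) (nat_lit 5) (nat_lit 137) (nat_lit 5) (nat_lit 138) (nat_lit 5) (nat_lit 316) (nat_lit 290) (nat_lit 174)) (XT.lf (nat_lit 0) (nat_lit 9582490805) (nat_lit 532) (nat_lit 3041644590) (nat_lit 608) (nat_lit 3049762150) (nat_lit 130) (nat_lit 5) (nat_lit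 137) (nat_lit 5) (nat_lit 138) (nat_lit 5) (nat_lit 317) (nat_lit 290) (nat_lit 173))) (XT.nd (nat_lit 78) (nat_lit 532) (nat_lit 0) (XT.lf (nat_lit 0) (nat_lit 1221058700) (nat_lit 532) (nat_lit 13346040793) (nat_lit 608) (nat_lit 1379994598) (nat_lit 123) (nat_lit 5) (nat_lit 130) (nat_lit 5) (nat_lit 131) (nat_lit 5) (nat_lit 318) (nat_lit 290) (nat_lit 172)) (XT.nd (nat_lit 78) (nat_lit 456) (nat_lit 0) (XT.lf (nat_lit 0) (nat_lit 413810444) (nat_lit 608) (nat_lit 7395126019) (nat_lit 76) (nat_lit 8417054719) (nat_lit 122) (nat_lit 5) (nat_lit 130) (nat_lit 5) (nat_lit 123) (nat_lit 5) (nat_lit 319) (nat_lit 290) (nat_lit 171)) (XT.lf (nat_lit 0) (nat_lit 132735052) (nat_lit 456) (nat_lit 2090914470) (nat_lit 532) (nat_lit 14289516443) (nat_lit 116) (nat_lit 5) (nat_lit 122) (nat_lit 5) (nat_lit 123) (nat_lit 5) (nat_lit 320) (nat_lit 290) (nat_lit 170))))) (XT.nd (nat_lit 234) (nat_lit 380)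 (nat_lit 0) (XT.nd (nat_lit 78) (nat_lit 456) (nat_lit 0) (XT.lf (nat_lit 0) (nat_lit 4188604665) (nat_lit 532) (nat_lit 8818076269) (nat_lit 76) (nat_lit 3799269236) (nat_lit 116) (nat_lit 5) (nat_lit 123) (nat_lit 5) (nat_lit 117) (nat_lit 5) (nat_lit 321) (nat_lit 290) (nat_lit 169)) (XT.nd (nat_lit 78) (nat_lit 456) (nat_lit 0) (XT.lf (nat_lit 0) (nat_lit 6222424490) (nat_lit 532) (nat_lit 1061330833) (nat_lit 76) (nat_lit 9823483359) (nat_lit 116) (nat_lit 5) (nat_lit 123) (nat_lit 5) (nat_lit 117) (nat_lit 5) (nat_lit 322) (nat_lit 290) (nat_lit 168)) (XT.lf (nat_lit 0) (nat_lit 7054337821) (nat_lit 456) (nat_lit 1320259761) (nat_lit 532) (nat_lit 9041265834) (nat_lit 110) (nat_lit 5) (nat_lit 116) (nat_lit 5) (nat_lit 117) (nat_lit 5) (nat_lit 323) (nat_lit 290) (nat_lit 167)))) (XT.nd (nat_lit 78) (nat_lit 380) (nat_lit 0) (XT.lf (nat_lit 0) (nat_lit 10638226873) (nat_lit 532) (nat_lit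 2356290072) (nat_lit 76) (nat_lit 4737840427) (nat_lit 110) (nat_lit 5) (nat_lit 117) (nat_lit 5) (nat_lit 111) (nat_lit 5) (nat_lit 324) (nat_lit 290) (nat_lit 166)) (XT.nd (nat_lit 78) (nat_lit 0) (nat_lit 0) (XT.lf (nat_lit 0) (nat_lit 5981451267) (nat_lit 380) (nat_lit 7048896778) (nat_lit 456) (nat_lit 5026197320) (nat_lit 105) (nat_lit 5) (nat_lit 110) (nat_lit 5) (nat_lit 111) (nat_lit 5) (nat_lit 325) (nat_lit 290) (nat_lit 165)) (XT.lf (nat_lit 0) (nat_lit 14606438228) (nat_lit 380) (nat_lit 901785602) (nat_lit 456) (nat_lit 2881831663) (nat_lit 105) (nat_lit 5) (nat_lit 110) (nat_lit 5) (nat_lit 111) (nat_lit 5) (nat_lit 326) (nat_lit 290) (nat_lit 164)))))) (XT.nd (nat_lit 468) (nat_lit 1064) (nat_lit 0) (XT.nd (nat_lit 234) (nat_lit 380) (nat_lit 0) (XT.nd (nat_lit 78) (nat_lit 456) (nat_lit 0) (XT.lf (nat_lit 0) (nat_lit 4786664234) (nat_lit 456) (nat_lit 13362447634) (nat_lit 532)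 (nat_lit 581814528) (nat_lit 99) (nat_lit 5) (nat_lit 105) (nat_lit 5) (nat_lit 106) (nat_lit 5) (nat_lit 327) (nat_lit 290) (nat_lit 163)) (XT.nd (nat_lit 78) (nat_lit 380) (nat_lit 0) (XT.lf (nat_lit 0) (nat_lit 1790375776) (nat_lit 532) (nat_lit 5426993792) (nat_lit 76) (nat_lit 11863011889) (nat_lit 98) (nat_lit 5) (nat_lit 105) (nat_lit 5) (nat_lit 99) (nat_lit 5) (nat_lit 328) (nat_lit 290) (nat_lit 162)) (XT.lf (nat_lit 0) (nat_lit 3395370862) (nat_lit 380) (nat_lit 850114591) (nat_lit 456) (nat_lit 15193972889) (nat_lit 93) (nat_lit 5) (nat_lit 98) (nat_lit 5) (nat_lit 99) (nat_lit 5) (nat_lit 329) (nat_lit 290) (nat_lit 161)))) (XT.nd (nat_lit 78) (nat_lit 380) (nat_lit 0) (XT.lf (nat_lit 0) (nat_lit 6875419135) (nat_lit 456) (nat_lit 7280499642) (nat_lit 76) (nat_lit 5650367629) (nat_lit 93) (nat_lit 5) (nat_lit 99) (nat_lit 5) (nat_lit 94) (nat_lit 5) (nat_lit 330) (nat_lit 290) (nat_lit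 160)) (XT.nd (nat_lit 78) (nat_lit 0) (nat_lit 0) (XT.lf (nat_lit 0) (nat_lit 1761190910) (nat_lit 380) (nat_lit 7839625777) (nat_lit 456) (nat_lit 10582819236) (nat_lit 88) (nat_lit 5) (nat_lit 93) (nat_lit 5) (nat_lit 94) (nat_lit 5) (nat_lit 331) (nat_lit 290) (nat_lit 159)) (XT.lf (nat_lit 0) (nat_lit 11212725605) (nat_lit 380) (nat_lit 1260141951) (nat_lit 456) (nat_lit 8097504818) (nat_lit 88) (nat_lit 5) (nat_lit 93) (nat_lit 5) (nat_lit 94) (nat_lit 5) (nat_lit 332) (nat_lit 290) (nat_lit 158))))) (XT.nd (nat_lit 234) (nat_lit 684) (nat_lit 0) (XT.nd (nat_lit 78) (nat_lit 380) (nat_lit 0) (XT.lf (nat_lit 0) (nat_lit 15475715130) (nat_lit 456) (nat_lit 84519438) (nat_lit 76) (nat_lit 5407150102) (nat_lit 88) (nat_lit 5) (nat_lit 94) (nat_lit 5) (nat_lit 89) (nat_lit 5) (nat_lit 333) (nat_lit 290) (nat_lit 157)) (XT.nd (nat_lit 78) (nat_lit 76) (nat_lit 0) (XT.lf (nat_lit 0) (nat_lit 9632003727)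 (nat_lit 304) (nat_lit 9033559311) (nat_lit 380) (nat_lit 2707849284) (nat_lit 84) (nat_lit 5) (nat_lit 88) (nat_lit 5) (nat_lit 89) (nat_lit 5) (nat_lit 334) (nat_lit 290) (nat_lit 156)) (XT.lf (nat_lit 0) (nat_lit 149133341) (nat_lit 380) (nat_lit 2161730203) (nat_lit 76) (nat_lit 19480940189) (nat_lit 83) (nat_lit 5) (nat_lit 88) (nat_lit 5) (nat_lit 84) (nat_lit 5) (nat_lit 335) (nat_lit 290) (nat_lit 155)))) (XT.nd (nat_lit 78) (nat_lit 304) (nat_lit 0) (XT.lf (nat_lit 0) (nat_lit 3150052252) (nat_lit 456) (nat_lit 14444172522) (nat_lit 76) (nat_lit 4624349622) (nat_lit 78) (nat_lit 5) (nat_lit 84) (nat_lit 5) (nat_lit 79) (nat_lit 5) (nat_lit 336) (nat_lit 290) (nat_lit 154)) (XT.nd (nat_lit 78) (nat_lit 304) (nat_lit 0) (XT.lf (nat_lit 0) (nat_lit 6278170057) (nat_lit 456) (nat_lit 4637828443) (nat_lit 76) (nat_lit 11741045587) (nat_lit 78) (nat_lit 5) (nat_lit 84) (nat_lit 5) (nat_lit 79)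 (nat_lit 5) (nat_lit 337) (nat_lit 290) (nat_lit 153)) (XT.lf (nat_lit 0) (nat_lit 5561353789) (nat_lit 304) (nat_lit 3984708704) (nat_lit 380) (nat_lit 13561238168) (nat_lit 74) (nat_lit 5) (nat_lit 78) (nat_lit 5) (nat_lit 79) (nat_lit 5) (nat_lit 338) (nat_lit 290) (nat_lit 152))))))) (XT.nd (nat_lit 936) (nat_lit 1140) (nat_lit 0) (XT.nd (nat_lit 468) (nat_lit 836) (nat_lit 0) (XT.nd (nat_lit 234) (nat_lit 380) (nat_lit 0) (XT.nd (nat_lit 78) (nat_lit 304) (nat_lit 0) (XT.lf (nat_lit 0) (nat_lit 12982185957) (nat_lit 380) (nat_lit 7448851459) (nat_lit 76) (nat_lit 3137932101) (nat_lit 74) (nat_lit 5) (nat_lit 79) (nat_lit 5) (nat_lit 75) (nat_lit 5) (nat_lit 339) (nat_lit 290) (nat_lit 151)) (XT.nd (nat_lit 78) (nat_lit 0) (nat_lit 0) (XT.lf (nat_lit 0) (nat_lit 2959763715) (nat_lit 304) (nat_lit 13622323721) (nat_lit 380) (nat_lit 7460590282) (nat_lit 70) (nat_lit 5) (nat_lit 74) (nat_lit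 5) (nat_lit 75) (nat_lit 5) (nat_lit 340) (nat_lit 290) (nat_lit 150)) (XT.lf (nat_lit 0) (nat_lit 13823730370) (nat_lit 304) (nat_lit 6534382766) (nat_lit 380) (nat_lit 4170450030) (nat_lit 70) (nat_lit 5) (nat_lit 74) (nat_lit 5) (nat_lit 75) (nat_lit 5) (nat_lit 341) (nat_lit 290) (nat_lit 149)))) (XT.nd (nat_lit 78) (nat_lit 380) (nat_lit 0) (XT.lf (nat_lit 0) (nat_lit 24247876268) (nat_lit 380) (nat_lit 32288448) (nat_lit 76) (nat_lit 748856291) (nat_lit 70) (nat_lit 5) (nat_lit 75) (nat_lit 5) (nat_lit 71) (nat_lit 5) (nat_lit 342) (nat_lit 290) (nat_lit 148)) (XT.nd (nat_lit 78) (nat_lit 0) (nat_lit 0) (XT.lf (nat_lit 0) (nat_lit 2823302760) (nat_lit 380) (nat_lit 14464078675) (nat_lit 76) (nat_lit 8251348418) (nat_lit 65) (nat_lit 5) (nat_lit 70) (nat_lit 5) (nat_lit 66) (nat_lit 5) (nat_lit 343) (nat_lit 290) (nat_lit 147)) (XT.lf (nat_lit 0) (nat_lit 6513838742) (nat_lit 380) (nat_lit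 3565284661) (nat_lit 76) (nat_lit 15984573599) (nat_lit 65) (nat_lit 5) (nat_lit 70) (nat_lit 5) (nat_lit 66) (nat_lit 5) (nat_lit 344) (nat_lit 290) (nat_lit 146))))) (XT.nd (nat_lit 234) (nat_lit 304) (nat_lit 0) (XT.nd (nat_lit 78) (nat_lit 228) (nat_lit 0) (XT.lf (nat_lit 0) (nat_lit 7803734646) (nat_lit 304) (nat_lit 2579890831) (nat_lit 380) (nat_lit 16218740116) (nat_lit 61) (nat_lit 5) (nat_lit 65) (nat_lit 5) (nat_lit 66) (nat_lit 5) (nat_lit 345) (nat_lit 290) (nat_lit 145)) (XT.nd (nat_lit 78) (nat_lit 228) (nat_lit 0) (XT.lf (nat_lit 0) (nat_lit 14448913759) (nat_lit 380) (nat_lit 7628115669) (nat_lit 76) (nat_lit 5077790796) (nat_lit 61) (nat_lit 5) (nat_lit 66) (nat_lit 5) (nat_lit 62) (nat_lit 5) (nat_lit 346) (nat_lit 290) (nat_lit 144)) (XT.lf (nat_lit 0) (nat_lit 3919618562) (nat_lit 228) (nat_lit 14773548576) (nat_lit 304) (nat_lit 9028979142) (nat_lit 58) (nat_lit 5) (nat_lit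 61) (nat_lit 5) (nat_lit 62) (nat_lit 5) (nat_lit 347) (nat_lit 290) (nat_lit 143)))) (XT.nd (nat_lit 78) (nat_lit 304) (nat_lit 0) (XT.lf (nat_lit 0) (nat_lit 15961401461) (nat_lit 228) (nat_lit 7174257755) (nat_lit 304) (nat_lit 5168713316) (nat_lit 58) (nat_lit 5) (nat_lit 61) (nat_lit 5) (nat_lit 62) (nat_lit 5) (nat_lit 348) (nat_lit 290) (nat_lit 142)) (XT.nd (nat_lit 78) (nat_lit 304) (nat_lit 0) (XT.lf (nat_lit 0) (nat_lit 27711738900) (nat_lit 304) (nat_lit 554563336) (nat_lit 76) (nat_lit 637761475) (nat_lit 58) (nat_lit 5) (nat_lit 62) (nat_lit 5) (nat_lit 59) (nat_lit 5) (nat_lit 349) (nat_lit 290) (nat_lit 141)) (XT.lf (nat_lit 0) (nat_lit 3026522059) (nat_lit 304) (nat_lit 17808991714) (nat_lit 76) (nat_lit 8680007027) (nat_lit 54) (nat_lit 5) (nat_lit 58) (nat_lit 5) (nat_lit 55) (nat_lit 5) (nat_lit 350) (nat_lit 290) (nat_lit 140)))))) (XT.nd (nat_lit 468) (nat_lit 684) (nat_lit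 0) (XT.nd (nat_lit 234) (nat_lit 228) (nat_lit 0) (XT.nd (nat_lit 78) (nat_lit 228) (nat_lit 0) (XT.lf (nat_lit 0) (nat_lit 7347859883) (nat_lit 304) (nat_lit 5818637442) (nat_lit 76) (nat_lit 16978480303) (nat_lit 54) (nat_lit 5) (nat_lit 58) (nat_lit 5) (nat_lit 55) (nat_lit 5) (nat_lit 351) (nat_lit 290) (nat_lit 139)) (XT.nd (nat_lit 78) (nat_lit 0) (nat_lit 0) (XT.lf (nat_lit 0) (nat_lit 6653052986) (nat_lit 228) (nat_lit 5204140641) (nat_lit 304) (nat_lit 18934380544) (nat_lit 51) (nat_lit 5) (nat_lit 54) (nat_lit 5) (nat_lit 55) (nat_lit 5) (nat_lit 352) (nat_lit 290) (nat_lit 138)) (XT.lf (nat_lit 0) (nat_lit 16584418296) (nat_lit 304) (nat_lit 11875292915) (nat_lit 76) (nat_lit 2995385562) (nat_lit 51) (nat_lit 5) (nat_lit 55) (nat_lit 5) (nat_lit 52) (nat_lit 5) (nat_lit 353) (nat_lit 290) (nat_lit 137)))) (XT.nd (nat_lit 78) (nat_lit 0) (nat_lit 0) (XT.lf (nat_lit 0) (nat_lit 710138251)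 (nat_lit 228) (nat_lit 20796297666) (nat_lit 304) (nat_lit 10630506148) (nat_lit 48) (nat_lit 5) (nat_lit 51) (nat_lit 5) (nat_lit 52) (nat_lit 5) (nat_lit 354) (nat_lit 290) (nat_lit 136)) (XT.nd (nat_lit 78) (nat_lit 0) (nat_lit 0) (XT.lf (nat_lit 0) (nat_lit 13908617730) (nat_lit 228) (nat_lit 12782117498) (nat_lit 304) (nat_lit 6145074969) (nat_lit 48) (nat_lit 5) (nat_lit 51) (nat_lit 5) (nat_lit 52) (nat_lit 5) (nat_lit 355) (nat_lit 290) (nat_lit 135)) (XT.lf (nat_lit 0) (nat_lit 27495336561) (nat_lit 228) (nat_lit 4530085200) (nat_lit 304) (nat_lit 1530382805) (nat_lit 48) (nat_lit 5) (nat_lit 51) (nat_lit 5) (nat_lit 52) (nat_lit 5) (nat_lit 356) (nat_lit 290) (nat_lit 134))))) (XT.nd (nat_lit 234) (nat_lit 380) (nat_lit 0) (XT.nd (nat_lit 78) (nat_lit 0) (nat_lit 0) (XT.lf (nat_lit 0) (nat_lit 3264083683) (nat_lit 304) (nat_lit 27037601243) (nat_lit 76) (nat_lit 3991663434) (nat_lit 44)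 (nat_lit 5) (nat_lit 48) (nat_lit 5) (nat_lit 45) (nat_lit 5) (nat_lit 357) (nat_lit 290) (nat_lit 133)) (XT.nd (nat_lit 78) (nat_lit 0) (nat_lit 0) (XT.lf (nat_lit 0) (nat_lit 8273285201) (nat_lit 304) (nat_lit 14023762711) (nat_lit 76) (nat_lit 12752471615) (nat_lit 44) (nat_lit 5) (nat_lit 48) (nat_lit 5) (nat_lit 45) (nat_lit 5) (nat_lit 358) (nat_lit 290) (nat_lit 132)) (XT.lf (nat_lit 0) (nat_lit 13427911417) (nat_lit 304) (nat_lit 626938142) (nat_lit 76) (nat_lit 21773677087) (nat_lit 44) (nat_lit 5) (nat_lit 48) (nat_lit 5) (nat_lit 45) (nat_lit 5) (nat_lit 359) (nat_lit 290) (nat_lit 131)))) (XT.nd (nat_lit 78) (nat_lit 152) (nat_lit 0) (XT.lf (nat_lit 0) (nat_lit 13426579351) (nat_lit 228) (nat_lit 5434951516) (nat_lit 304) (nat_lit 17765647600) (nat_lit 41) (nat_lit 5) (nat_lit 44) (nat_lit 5) (nat_lit 45) (nat_lit 5) (nat_lit 360) (nat_lit 290) (nat_lit 130)) (XT.nd (nat_lit 78) (nat_lit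 152) (nat_lit 0) (XT.lf (nat_lit 0) (nat_lit 24492988326) (nat_lit 304) (nat_lit 9575472264) (nat_lit 76) (nat_lit 3380289344) (nat_lit 41) (nat_lit 5) (nat_lit 45) (nat_lit 5) (nat_lit 42) (nat_lit 5) (nat_lit 361) (nat_lit 290) (nat_lit 129)) (XT.lf (nat_lit 0) (nat_lit 4485066101) (nat_lit 152) (nat_lit 25900718346) (nat_lit 228) (nat_lit 7906417077) (nat_lit 39) (nat_lit 5) (nat_lit 41) (nat_lit 5) (nat_lit 42) (nat_lit 5) (nat_lit 362) (nat_lit 290) (nat_lit 128))))))))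
noncomputable def xc187 : XT := (XT.nd (nat_lit 1794) (nat_lit 152) (nat_lit 0) (XT.nd (nat_lit 858) (nat_lit 684) (nat_lit 0) (XT.nd (nat_lit 390) (nat_lit 380) (nat_lit 0) (XT.nd (nat_lit 156) (nat_lit 228) (nat_lit 0) (XT.nd (nat_lit 78) (nat_lit 76) (nat_lit 0) (XT.lf (nat_lit 0) (nat_lit 19156726851) (nat_lit 152) (nat_lit 17390866256) (nat_lit 228) (nat_lit 2610601384) (nat_lit 39) (nat_lit 5) (nat_lit 41) (nat_lit 5) (nat_lit 42) (nat_lit 5) (nat_lit 363) (nat_lit 290) (nat_lit 127)) (XT.lf (nat_lit 0) (nat_lit 2784208186) (nat_lit 228) (nat_lit 5815838791) (nat_lit 76) (nat_lit 31449435979) (nat_lit 38) (nat_lit 5) (nat_lit 41) (nat_lit 5) (nat_lit 39) (nat_lit 5) (nat_lit 364) (nat_lit 290) (nat_lit 126))) (XT.nd (nat_lit 78) (nat_lit 0) (nat_lit 0) (XT.lf (nat_lit 0) (nat_lit 8375499411) (nat_lit 304) (nat_lit 32032502107) (nat_lit 76) (nat_lit 556124186) (nat_lit 35) (nat_lit 5) (nat_lit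 39) (nat_lit 5) (nat_lit 36) (nat_lit 5) (nat_lit 365) (nat_lit 290) (nat_lit 125)) (XT.nd (nat_lit 78) (nat_lit 0) (nat_lit 0) (XT.lf (nat_lit 0) (nat_lit 14274771116) (nat_lit 304) (nat_lit 17756158660) (nat_lit 76) (nat_lit 9871074870) (nat_lit 35) (nat_lit 5) (nat_lit 39) (nat_lit 5) (nat_lit 36) (nat_lit 5) (nat_lit 366) (nat_lit 290) (nat_lit 124)) (XT.lf (nat_lit 0) (nat_lit 20346926529) (nat_lit 304) (nat_lit 3058040623) (nat_lit 76) (nat_lit 19463179683) (nat_lit 35) (nat_lit 5) (nat_lit 39) (nat_lit 5) (nat_lit 36) (nat_lit 5) (nat_lit 367) (nat_lit 290) (nat_lit 123))))) (XT.nd (nat_lit 234) (nat_lit 228) (nat_lit 0) (XT.nd (nat_lit 78) (nat_lit 0) (nat_lit 0) (XT.lf (nat_lit 0) (nat_lit 12315005128) (nat_lit 152) (nat_lit 14400645651) (nat_lit 228) (nat_lit 17144194309) (nat_lit 33) (nat_lit 5) (nat_lit 35) (nat_lit 5) (nat_lit 36) (nat_lit 5) (nat_lit 368) (nat_lit 290) (nat_lit 122))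 (XT.nd (nat_lit 78) (nat_lit 0) (nat_lit 0) (XT.lf (nat_lit 0) (nat_lit 28205665171) (nat_lit 152) (nat_lit 5096732183) (nat_lit 228) (nat_lit 11578091930) (nat_lit 33) (nat_lit 5) (nat_lit 35) (nat_lit 5) (nat_lit 36) (nat_lit 5) (nat_lit 369) (nat_lit 290) (nat_lit 121)) (XT.lf (nat_lit 0) (nat_lit 40126044042) (nat_lit 228) (nat_lit 1408010294) (nat_lit 76) (nat_lit 4396523238) (nat_lit 33) (nat_lit 5) (nat_lit 36) (nat_lit 5) (nat_lit 34) (nat_lit 5) (nat_lit 370) (nat_lit 290) (nat_lit 120)))) (XT.nd (nat_lit 78) (nat_lit 0) (nat_lit 0) (XT.lf (nat_lit 0) (nat_lit 327853880) (nat_lit 228) (nat_lit 32465633142) (nat_lit 76) (nat_lit 14212992031) (nat_lit 30) (nat_lit 5) (nat_lit 33) (nat_lit 5) (nat_lit 31) (nat_lit 5) (nat_lit 371) (nat_lit 290) (nat_lit 119)) (XT.nd (nat_lit 78) (nat_lit 0) (nat_lit 0) (XT.lf (nat_lit 0) (nat_lit 6538202038) (nat_lit 228) (nat_lit 17180827643) (nat_lit 76)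 (nat_lit 24393587528) (nat_lit 30) (nat_lit 5) (nat_lit 33) (nat_lit 5) (nat_lit 31) (nat_lit 5) (nat_lit 372) (nat_lit 290) (nat_lit 118)) (XT.lf (nat_lit 0) (nat_lit 12931264118) (nat_lit 228) (nat_lit 1443318604) (nat_lit 76) (nat_lit 34877467973) (nat_lit 30) (nat_lit 5) (nat_lit 33) (nat_lit 5) (nat_lit 31) (nat_lit 5) (nat_lit 373) (nat_lit 290) (nat_lit 117)))))) (XT.nd (nat_lit 468) (nat_lit 304) (nat_lit 0) (XT.nd (nat_lit 234) (nat_lit 228) (nat_lit 0) (XT.nd (nat_lit 78) (nat_lit 0) (nat_lit 0) (XT.lf (nat_lit 0) (nat_lit 15054410977) (nat_lit 152) (nat_lit 4602927519) (nat_lit 228) (nat_lit 30764095267) (nat_lit 28) (nat_lit 5) (nat_lit 30) (nat_lit 5) (nat_lit 31) (nat_lit 5) (nat_lit 374) (nat_lit 290) (nat_lit 116)) (XT.nd (nat_lit 78) (nat_lit 0) (nat_lit 0) (XT.lf (nat_lit 0) (nat_lit 26648952095) (nat_lit 228) (nat_lit 19607149698) (nat_lit 76) (nat_lit 5367886919) (nat_lit 28)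 (nat_lit 5) (nat_lit 31) (nat_lit 5) (nat_lit 29) (nat_lit 5) (nat_lit 375) (nat_lit 290) (nat_lit 115)) (XT.lf (nat_lit 0) (nat_lit 33892523652) (nat_lit 228) (nat_lit 3425588393) (nat_lit 76) (nat_lit 15543244989) (nat_lit 28) (nat_lit 5) (nat_lit 31) (nat_lit 5) (nat_lit 29) (nat_lit 5) (nat_lit 376) (nat_lit 290) (nat_lit 114)))) (XT.nd (nat_lit 78) (nat_lit 76) (nat_lit 0) (XT.lf (nat_lit 0) (nat_lit 13499469790) (nat_lit 152) (nat_lit 27980431716) (nat_lit 228) (nat_lit 12652152845) (nat_lit 26) (nat_lit 5) (nat_lit 28) (nat_lit 5) (nat_lit 29) (nat_lit 5) (nat_lit 377) (nat_lit 290) (nat_lit 113)) (XT.nd (nat_lit 78) (nat_lit 76) (nat_lit 0) (XT.lf (nat_lit 0) (nat_lit 30997180364) (nat_lit 152) (nat_lit 18329090030) (nat_lit 228) (nat_lit 6113663938) (nat_lit 26) (nat_lit 5) (nat_lit 28) (nat_lit 5) (nat_lit 29) (nat_lit 5) (nat_lit 378) (nat_lit 290) (nat_lit 112)) (XT.lf (nat_lit 0) (nat_lit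 605700231) (nat_lit 228) (nat_lit 7778428887) (nat_lit 76) (nat_lit 48402840047) (nat_lit 25) (nat_lit 5) (nat_lit 28) (nat_lit 5) (nat_lit 26) (nat_lit 5) (nat_lit 379) (nat_lit 290) (nat_lit 111))))) (XT.nd (nat_lit 234) (nat_lit 152) (nat_lit 0) (XT.nd (nat_lit 78) (nat_lit 0) (nat_lit 0) (XT.lf (nat_lit 0) (nat_lit 7511427926) (nat_lit 228) (nat_lit 48683602481) (nat_lit 76) (nat_lit 1974341457) (nat_lit 23) (nat_lit 5) (nat_lit 26) (nat_lit 5) (nat_lit 24) (nat_lit 5) (nat_lit 380) (nat_lit 290) (nat_lit 110)) (XT.nd (nat_lit 78) (nat_lit 0) (nat_lit 0) (XT.lf (nat_lit 0) (nat_lit 14783615282) (nat_lit 228) (nat_lit 32252438526) (nat_lit 76) (nat_lit 12552416720) (nat_lit 23) (nat_lit 5) (nat_lit 26) (nat_lit 5) (nat_lit 24) (nat_lit 5) (nat_lit 381) (nat_lit 290) (nat_lit 109)) (XT.lf (nat_lit 0) (nat_lit 22271009110) (nat_lit 228) (nat_lit 15333294204) (nat_lit 76) (nat_lit 23445930059)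 (nat_lit 23) (nat_lit 5) (nat_lit 26) (nat_lit 5) (nat_lit 24) (nat_lit 5) (nat_lit 382) (nat_lit 290) (nat_lit 108)))) (XT.nd (nat_lit 78) (nat_lit 0) (nat_lit 0) (XT.lf (nat_lit 0) (nat_lit 2130181722) (nat_lit 152) (nat_lit 27870446683) (nat_lit 228) (nat_lit 32554694964) (nat_lit 21) (nat_lit 5) (nat_lit 23) (nat_lit 5) (nat_lit 24) (nat_lit 5) (nat_lit 383) (nat_lit 290) (nat_lit 107)) (XT.nd (nat_lit 78) (nat_lit 0) (nat_lit 0) (XT.lf (nat_lit 0) (nat_lit 20427116341) (nat_lit 152) (nat_lit 17687021078) (nat_lit 228) (nat_lit 25986870917) (nat_lit 21) (nat_lit 5) (nat_lit 23) (nat_lit 5) (nat_lit 24) (nat_lit 5) (nat_lit 384) (nat_lit 290) (nat_lit 106)) (XT.lf (nat_lit 0) (nat_lit 39268334644) (nat_lit 152) (nat_lit 7199964568) (nat_lit 228) (nat_lit 19224849454) (nat_lit 21) (nat_lit 5) (nat_lit 23) (nat_lit 5) (nat_lit 24) (nat_lit 5) (nat_lit 385) (nat_lit 290) (nat_lit 105))))))) (XT.nd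 (nat_lit 33852) (nat_lit 0) (nat_lit 11096) (XT.nd (nat_lit 33384) (nat_lit 0) (nat_lit 11856) (XT.nd (nat_lit 234) (nat_lit 0) (nat_lit 0) (XT.nd (nat_lit 78) (nat_lit 152) (nat_lit 0) (XT.lf (nat_lit 0) (nat_lit 55105017849) (nat_lit 228) (nat_lit 8697440027) (nat_lit 76) (nat_lit 3529639546) (nat_lit 21) (nat_lit 5) (nat_lit 24) (nat_lit 5) (nat_lit 22) (nat_lit 4) (nat_lit 386) (nat_lit 290) (nat_lit 104)) (XT.nd (nat_lit 78) (nat_lit 76) (nat_lit 0) (XT.lf (nat_lit 0) (nat_lit 9674837455) (nat_lit 76) (nat_lit 54487676374) (nat_lit 152) (nat_lit 4852852646) (nat_lit 20) (nat_lit 5) (nat_lit 21) (nat_lit 5) (nat_lit 22) (nat_lit 4) (nat_lit 387) (nat_lit 290) (nat_lit 103)) (XT.lf (nat_lit 0) (nat_lit 2775174725) (nat_lit 152) (nat_lit 42001592030) (nat_lit 76) (nat_lit 25968995178) (nat_lit 19) (nat_lit 5) (nat_lit 21) (nat_lit 5) (nat_lit 20) (nat_lit 5) (nat_lit 388) (nat_lit 290) (nat_lit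 102)))) (XT.nd (nat_lit 32994) (nat_lit 0) (nat_lit 12844) (XT.lf (nat_lit 0) (nat_lit 10531976255) (nat_lit 152) (nat_lit 24194838242) (nat_lit 76) (nat_lit 37799891122) (nat_lit 19) (nat_lit 5) (nat_lit 21) (nat_lit 5) (nat_lit 20) (nat_lit 5) (nat_lit 389) (nat_lit 290) (nat_lit 101)) (XT.nd (nat_lit 78) (nat_lit 0) (nat_lit 0) (XT.lf (nat_lit 0) (nat_lit 1950495242) (nat_lit 0) (nat_lit 1950495242) (nat_lit 988) (nat_lit 1436562480) (nat_lit 188) (nat_lit 5) (nat_lit 188) (nat_lit 3) (nat_lit 201) (nat_lit 3) (nat_lit 291) (nat_lit 291) (nat_lit 198)) (XT.lf (nat_lit 0) (nat_lit 8481369621) (nat_lit 988) (nat_lit 2171438988) (nat_lit 1064) (nat_lit 164383470) (nat_lit 188) (nat_lit 5) (nat_lit 201) (nat_lit 3) (nat_lit 202) (nat_lit 5) (nat_lit 292) (nat_lit 291) (nat_lit 197))))) (XT.nd (nat_lit 234) (nat_lit 988) (nat_lit 0) (XT.nd (nat_lit 78) (nat_lit 0) (nat_lit 0) (XT.lf (nat_lit 76)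 (nat_lit 2569076466) (nat_lit 0) (nat_lit 6653603450) (nat_lit 1064) (nat_lit 1739660345) (nat_lit 189) (nat_lit 5) (nat_lit 188) (nat_lit 5) (nat_lit 202) (nat_lit 5) (nat_lit 293) (nat_lit 291) (nat_lit 196)) (XT.nd (nat_lit 78) (nat_lit 0) (nat_lit 76) (XT.lf (nat_lit 76) (nat_lit 7484685382) (nat_lit 0) (nat_lit 2502214706) (nat_lit 1064) (nat_lit 1124967002) (nat_lit 189) (nat_lit 5) (nat_lit 188) (nat_lit 5) (nat_lit 202) (nat_lit 5) (nat_lit 294) (nat_lit 291) (nat_lit 195)) (XT.lf (nat_lit 76) (nat_lit 1277718220) (nat_lit 0) (nat_lit 9505113117) (nat_lit 1064) (nat_lit 482827882) (nat_lit 190) (nat_lit 5) (nat_lit 189) (nat_lit 5) (nat_lit 203) (nat_lit 5) (nat_lit 295) (nat_lit 291) (nat_lit 194)))) (XT.nd (nat_lit 78) (nat_lit 0) (nat_lit 0) (XT.lf (nat_lit 0) (nat_lit 216551649) (nat_lit 1064) (nat_lit 5058075093) (nat_lit 1140) (nat_lit 6148183603) (nat_lit 175) (nat_lit 5) (nat_lit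 189) (nat_lit 5) (nat_lit 190) (nat_lit 5) (nat_lit 296) (nat_lit 291) (nat_lit 193)) (XT.nd (nat_lit 78) (nat_lit 0) (nat_lit 76) (XT.lf (nat_lit 76) (nat_lit 2950301) (nat_lit 0) (nat_lit 904574045) (nat_lit 1140) (nat_lit 10677638140) (nat_lit 176) (nat_lit 5) (nat_lit 175) (nat_lit 5) (nat_lit 190) (nat_lit 5) (nat_lit 297) (nat_lit 291) (nat_lit 192)) (XT.lf (nat_lit 0) (nat_lit 1686199394) (nat_lit 1064) (nat_lit 6479021416) (nat_lit 1140) (nat_lit 3585193416) (nat_lit 176) (nat_lit 5) (nat_lit 190) (nat_lit 5) (nat_lit 191) (nat_lit 5) (nat_lit 298) (nat_lit 291) (nat_lit 191)))))) (XT.nd (nat_lit 468) (nat_lit 836) (nat_lit 0) (XT.nd (nat_lit 234) (nat_lit 0) (nat_lit 76) (XT.nd (nat_lit 78) (nat_lit 0) (nat_lit 76) (XT.lf (nat_lit 0) (nat_lit 2478567853) (nat_lit 1064) (nat_lit 1243906950) (nat_lit 1140) (nat_lit 8198475836) (nat_lit 176) (nat_lit 5) (nat_lit 190) (nat_lit 5) (nat_lit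 191) (nat_lit 5) (nat_lit 299) (nat_lit 291) (nat_lit 190)) (XT.nd (nat_lit 78) (nat_lit 0) (nat_lit 0) (XT.lf (nat_lit 0) (nat_lit 3325845903) (nat_lit 1064) (nat_lit 7885907812) (nat_lit 1140) (nat_lit 883951311) (nat_lit 177) (nat_lit 5) (nat_lit 191) (nat_lit 5) (nat_lit 192) (nat_lit 5) (nat_lit 300) (nat_lit 291) (nat_lit 189)) (XT.lf (nat_lit 0) (nat_lit 4230473935) (nat_lit 1064) (nat_lit 2472060089) (nat_lit 1140) (nat_lit 5572245056) (nat_lit 177) (nat_lit 5) (nat_lit 191) (nat_lit 5) (nat_lit 192) (nat_lit 5) (nat_lit 301) (nat_lit 291) (nat_lit 188)))) (XT.nd (nat_lit 78) (nat_lit 0) (nat_lit 76) (XT.lf (nat_lit 76) (nat_lit 3153738323) (nat_lit 0) (nat_lit 2021721123) (nat_lit 1140) (nat_lit 7283403317) (nat_lit 178) (nat_lit 5) (nat_lit 177) (nat_lit 5) (nat_lit 192) (nat_lit 5) (nat_lit 302) (nat_lit 291) (nat_lit 187)) (XT.nd (nat_lit 78) (nat_lit 0) (nat_lit 0) (XT.lf (nat_lit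 0) (nat_lit 6184248365) (nat_lit 1064) (nat_lit 3688360990) (nat_lit 1140) (nat_lit 2774828966) (nat_lit 178) (nat_lit 5) (nat_lit 192) (nat_lit 5) (nat_lit 193) (nat_lit 5) (nat_lit 303) (nat_lit 291) (nat_lit 186)) (XT.lf (nat_lit 76) (nat_lit 2105876117) (nat_lit 0) (nat_lit 5141503349) (nat_lit 1140) (nat_lit 5593601341) (nat_lit 179) (nat_lit 5) (nat_lit 178) (nat_lit 5) (nat_lit 193) (nat_lit 5) (nat_lit 304) (nat_lit 291) (nat_lit 185))))) (XT.nd (nat_lit 234) (nat_lit 988) (nat_lit 0) (XT.nd (nat_lit 78) (nat_lit 0) (nat_lit 76) (XT.lf (nat_lit 76) (nat_lit 8137561370) (nat_lit 0) (nat_lit 226262933) (nat_lit 1140) (nat_lit 4675893756) (nat_lit 179) (nat_lit 5) (nat_lit 178) (nat_lit 5) (nat_lit 193) (nat_lit 5) (nat_lit 305) (nat_lit 291) (nat_lit 184)) (XT.nd (nat_lit 78) (nat_lit 0) (nat_lit 0) (XT.lf (nat_lit 76) (nat_lit 1067964248) (nat_lit 0) (nat_lit 8487226277) (nat_lit 1140) (nat_lit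 3688014240) (nat_lit 180) (nat_lit 5) (nat_lit 179) (nat_lit 5) (nat_lit 194) (nat_lit 5) (nat_lit 306) (nat_lit 291) (nat_lit 183)) (XT.lf (nat_lit 76) (nat_lit 7303348106) (nat_lit 0) (nat_lit 3515672088) (nat_lit 1140) (nat_lit 2632703506) (nat_lit 180) (nat_lit 5) (nat_lit 179) (nat_lit 5) (nat_lit 194) (nat_lit 5) (nat_lit 307) (nat_lit 291) (nat_lit 182)))) (XT.nd (nat_lit 78) (nat_lit 76) (nat_lit 0) (XT.lf (nat_lit 0) (nat_lit 32309935) (nat_lit 1064) (nat_lit 12089660335) (nat_lit 1140) (nat_lit 1544520214) (nat_lit 166) (nat_lit 5) (nat_lit 180) (nat_lit 5) (nat_lit 181) (nat_lit 5) (nat_lit 308) (nat_lit 291) (nat_lit 181)) (XT.nd (nat_lit 78) (nat_lit 76) (nat_lit 0) (XT.lf (nat_lit 0) (nat_lit 6476882486) (nat_lit 1064) (nat_lit 7069453994) (nat_lit 1140) (nat_lit 338921581) (nat_lit 166) (nat_lit 5) (nat_lit 180) (nat_lit 5) (nat_lit 181) (nat_lit 5) (nat_lit 309) (nat_lit 291) (nat_lit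 180)) (XT.lf (nat_lit 0) (nat_lit 871252288) (nat_lit 1140) (nat_lit 1016495647) (nat_lit 76) (nat_lit 12223025652) (nat_lit 165) (nat_lit 5) (nat_lit 180) (nat_lit 5) (nat_lit 166) (nat_lit 5) (nat_lit 310) (nat_lit 291) (nat_lit 179))))))))
noncomputable def xc188 : XT := (XT.nd (nat_lit 1794) (nat_lit 3040) (nat_lit 0) (XT.nd (nat_lit 858) (nat_lit 2128) (nat_lit 0) (XT.nd (nat_lit 390) (nat_lit 1596) (nat_lit 0) (XT.nd (nat_lit 156) (nat_lit 1064) (nat_lit 0) (XT.nd (nat_lit 78) (nat_lit 0) (nat_lit 0) (XT.lf (nat_lit 0) (nat_lit 2185532189) (nat_lit 1140) (nat_lit 8712888875) (nat_lit 76) (nat_lit 3442319736) (nat_lit 151) (nat_lit 5) (nat_lit 166) (nat_lit 5) (nat_lit 152) (nat_lit 5) (nat_lit 311) (nat_lit 291) (nat_lit 178)) (XT.lf (nat_lit 0) (nat_lit 3555030085) (nat_lit 1140) (nat_lit 2115719835) (nat_lit 76) (nat_lit 8906407959) (nat_lit 151) (nat_lit 5) (nat_lit 166) (nat_lit 5) (nat_lit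 152) (nat_lit 5) (nat_lit 312) (nat_lit 291) (nat_lit 177))) (XT.nd (nat_lit 78) (nat_lit 532) (nat_lit 0) (XT.lf (nat_lit 0) (nat_lit 4760614774) (nat_lit 532) (nat_lit 237879292) (nat_lit 608) (nat_lit 9821210794) (nat_lit 144) (nat_lit 5) (nat_lit 151) (nat_lit 5) (nat_lit 152) (nat_lit 5) (nat_lit 313) (nat_lit 291) (nat_lit 176)) (XT.nd (nat_lit 78) (nat_lit 532) (nat_lit 0) (XT.lf (nat_lit 0) (nat_lit 6545736222) (nat_lit 608) (nat_lit 3245937510) (nat_lit 76) (nat_lit 5276063422) (nat_lit 144) (nat_lit 5) (nat_lit 152) (nat_lit 5) (nat_lit 145) (nat_lit 5) (nat_lit 314) (nat_lit 291) (nat_lit 175)) (XT.lf (nat_lit 0) (nat_lit 3832442943) (nat_lit 532) (nat_lit 4333908837) (nat_lit 608) (nat_lit 7156072406) (nat_lit 137) (nat_lit 5) (nat_lit 144) (nat_lit 5) (nat_lit 145) (nat_lit 5) (nat_lit 315) (nat_lit 291) (nat_lit 174))))) (XT.nd (nat_lit 234) (nat_lit 1064) (nat_lit 0) (XT.nd (nat_lit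 78) (nat_lit 532) (nat_lit 0) (XT.lf (nat_lit 0) (nat_lit 9869077148) (nat_lit 608) (nat_lit 4418625809) (nat_lit 76) (nat_lit 1296065937) (nat_lit 137) (nat_lit 5) (nat_lit 145) (nat_lit 5) (nat_lit 138) (nat_lit 5) (nat_lit 316) (nat_lit 291) (nat_lit 173)) (XT.nd (nat_lit 78) (nat_lit 0) (nat_lit 0) (XT.lf (nat_lit 0) (nat_lit 2866370177) (nat_lit 532) (nat_lit 8815338664) (nat_lit 608) (nat_lit 4169501531) (nat_lit 130) (nat_lit 5) (nat_lit 137) (nat_lit 5) (nat_lit 138) (nat_lit 5) (nat_lit 317) (nat_lit 291) (nat_lit 172)) (XT.lf (nat_lit 0) (nat_lit 10449083187) (nat_lit 532) (nat_lit 3132846339) (nat_lit 608) (nat_lit 2543769818) (nat_lit 130) (nat_lit 5) (nat_lit 137) (nat_lit 5) (nat_lit 138) (nat_lit 5) (nat_lit 318) (nat_lit 291) (nat_lit 171)))) (XT.nd (nat_lit 78) (nat_lit 532) (nat_lit 0) (XT.lf (nat_lit 0) (nat_lit 1849364628) (nat_lit 532) (nat_lit 13722639779) (nat_lit 608) (nat_lit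 835453103) (nat_lit 123) (nat_lit 5) (nat_lit 130) (nat_lit 5) (nat_lit 131) (nat_lit 5) (nat_lit 319) (nat_lit 291) (nat_lit 170)) (XT.nd (nat_lit 78) (nat_lit 456) (nat_lit 0) (XT.lf (nat_lit 0) (nat_lit 983999035) (nat_lit 608) (nat_lit 7030483544) (nat_lit 76) (nat_lit 8680600595) (nat_lit 122) (nat_lit 5) (nat_lit 130) (nat_lit 5) (nat_lit 123) (nat_lit 5) (nat_lit 320) (nat_lit 291) (nat_lit 169)) (XT.lf (nat_lit 0) (nat_lit 717463396) (nat_lit 456) (nat_lit 2120006525) (nat_lit 532) (nat_lit 14153750981) (nat_lit 116) (nat_lit 5) (nat_lit 122) (nat_lit 5) (nat_lit 123) (nat_lit 5) (nat_lit 321) (nat_lit 291) (nat_lit 168)))))) (XT.nd (nat_lit 468) (nat_lit 1292) (nat_lit 0) (XT.nd (nat_lit 234) (nat_lit 380) (nat_lit 0) (XT.nd (nat_lit 78) (nat_lit 456) (nat_lit 0) (XT.lf (nat_lit 0) (nat_lit 4845752356) (nat_lit 532) (nat_lit 8502266120) (nat_lit 76) (nat_lit 3945265791) (nat_lit 116) (nat_lit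 5) (nat_lit 123) (nat_lit 5) (nat_lit 117) (nat_lit 5) (nat_lit 322) (nat_lit 291) (nat_lit 167)) (XT.nd (nat_lit 78) (nat_lit 456) (nat_lit 0) (XT.lf (nat_lit 0) (nat_lit 6925106498) (nat_lit 532) (nat_lit 529721790) (nat_lit 76) (nat_lit 10149273760) (nat_lit 116) (nat_lit 5) (nat_lit 123) (nat_lit 5) (nat_lit 117) (nat_lit 5) (nat_lit 323) (nat_lit 291) (nat_lit 166)) (XT.lf (nat_lit 0) (nat_lit 7823892914) (nat_lit 456) (nat_lit 1308285587) (nat_lit 532) (nat_lit 8790122452) (nat_lit 110) (nat_lit 5) (nat_lit 116) (nat_lit 5) (nat_lit 117) (nat_lit 5) (nat_lit 324) (nat_lit 291) (nat_lit 165)))) (XT.nd (nat_lit 78) (nat_lit 380) (nat_lit 0) (XT.lf (nat_lit 0) (nat_lit 11449450213) (nat_lit 532) (nat_lit 1870214225) (nat_lit 76) (nat_lit 4929077985) (nat_lit 110) (nat_lit 5) (nat_lit 117) (nat_lit 5) (nat_lit 111) (nat_lit 5) (nat_lit 325) (nat_lit 291) (nat_lit 164)) (XT.nd (nat_lit 78) (nat_lit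 0) (nat_lit 0) (XT.lf (nat_lit 0) (nat_lit 6712200878) (nat_lit 380) (nat_lit 7192101307) (nat_lit 456) (nat_lit 4678648838) (nat_lit 105) (nat_lit 5) (nat_lit 110) (nat_lit 5) (nat_lit 111) (nat_lit 5) (nat_lit 326) (nat_lit 291) (nat_lit 163)) (XT.lf (nat_lit 0) (nat_lit 15579879990) (nat_lit 380) (nat_lit 862565020) (nat_lit 456) (nat_lit 2484466805) (nat_lit 105) (nat_lit 5) (nat_lit 110) (nat_lit 5) (nat_lit 111) (nat_lit 5) (nat_lit 327) (nat_lit 291) (nat_lit 162))))) (XT.nd (nat_lit 234) (nat_lit 380) (nat_lit 0) (XT.nd (nat_lit 78) (nat_lit 456) (nat_lit 0) (XT.lf (nat_lit 0) (nat_lit 5474334218) (nat_lit 456) (nat_lit 13680414466) (nat_lit 532) (nat_lit 123517095) (nat_lit 99) (nat_lit 5) (nat_lit 105) (nat_lit 5) (nat_lit 106) (nat_lit 5) (nat_lit 328) (nat_lit 291) (nat_lit 161)) (XT.nd (nat_lit 78) (nat_lit 380) (nat_lit 0) (XT.lf (nat_lit 0) (nat_lit 2296968832) (nat_lit 532) (nat_lit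 5051856765) (nat_lit 76) (nat_lit 12289670602) (nat_lit 98) (nat_lit 5) (nat_lit 105) (nat_lit 5) (nat_lit 99) (nat_lit 5) (nat_lit 329) (nat_lit 291) (nat_lit 160)) (XT.lf (nat_lit 0) (nat_lit 4029904840) (nat_lit 380) (nat_lit 787756604) (nat_lit 456) (nat_lit 15190946743) (nat_lit 93) (nat_lit 5) (nat_lit 98) (nat_lit 5) (nat_lit 99) (nat_lit 5) (nat_lit 330) (nat_lit 291) (nat_lit 159)))) (XT.nd (nat_lit 78) (nat_lit 380) (nat_lit 0) (XT.lf (nat_lit 0) (nat_lit 7514357443) (nat_lit 456) (nat_lit 6968951351) (nat_lit 76) (nat_lit 5903516455) (nat_lit 93) (nat_lit 5) (nat_lit 99) (nat_lit 5) (nat_lit 94) (nat_lit 5) (nat_lit 331) (nat_lit 291) (nat_lit 158)) (XT.nd (nat_lit 78) (nat_lit 0) (nat_lit 0) (XT.lf (nat_lit 0) (nat_lit 2338794200) (nat_lit 380) (nat_lit 7975164902) (nat_lit 456) (nat_lit 10461782382) (nat_lit 88) (nat_lit 5) (nat_lit 93) (nat_lit 5) (nat_lit 94) (nat_lit 5) (nat_lit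 332) (nat_lit 291) (nat_lit 157)) (XT.lf (nat_lit 0) (nat_lit 12058590444) (nat_lit 380) (nat_lit 1201198979) (nat_lit 456) (nat_lit 7914681000) (nat_lit 88) (nat_lit 5) (nat_lit 93) (nat_lit 5) (nat_lit 94) (nat_lit 5) (nat_lit 333) (nat_lit 291) (nat_lit 156))))))) (XT.nd (nat_lit 936) (nat_lit 1292) (nat_lit 0) (XT.nd (nat_lit 468) (nat_lit 684) (nat_lit 0) (XT.nd (nat_lit 234) (nat_lit 684) (nat_lit 0) (XT.nd (nat_lit 78) (nat_lit 76) (nat_lit 0) (XT.lf (nat_lit 0) (nat_lit 427665218) (nat_lit 304) (nat_lit 15918049659) (nat_lit 380) (nat_lit 5237906817) (nat_lit 84) (nat_lit 5) (nat_lit 88) (nat_lit 5) (nat_lit 89) (nat_lit 5) (nat_lit 334) (nat_lit 291) (nat_lit 155)) (XT.nd (nat_lit 78) (nat_lit 76) (nat_lit 0) (XT.lf (nat_lit 0) (nat_lit 10422374330) (nat_lit 304) (nat_lit 9197895186) (nat_lit 380) (nat_lit 2381908166) (nat_lit 84) (nat_lit 5) (nat_lit 88) (nat_lit 5) (nat_lit 89) (nat_lit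 5) (nat_lit 335) (nat_lit 291) (nat_lit 154)) (XT.lf (nat_lit 0) (nat_lit 541210365) (nat_lit 380) (nat_lit 1731501070) (nat_lit 76) (nat_lit 20160657642) (nat_lit 83) (nat_lit 5) (nat_lit 88) (nat_lit 5) (nat_lit 84) (nat_lit 5) (nat_lit 336) (nat_lit 291) (nat_lit 153)))) (XT.nd (nat_lit 78) (nat_lit 304) (nat_lit 0) (XT.lf (nat_lit 0) (nat_lit 3626629509) (nat_lit 456) (nat_lit 14376344978) (nat_lit 76) (nat_lit 4870150523) (nat_lit 78) (nat_lit 5) (nat_lit 84) (nat_lit 5) (nat_lit 79) (nat_lit 5) (nat_lit 337) (nat_lit 291) (nat_lit 152)) (XT.nd (nat_lit 78) (nat_lit 304) (nat_lit 0) (XT.lf (nat_lit 0) (nat_lit 6837462430) (nat_lit 456) (nat_lit 4290407258) (nat_lit 76) (nat_lit 12197228811) (nat_lit 78) (nat_lit 5) (nat_lit 84) (nat_lit 5) (nat_lit 79) (nat_lit 5) (nat_lit 338) (nat_lit 291) (nat_lit 151)) (XT.lf (nat_lit 0) (nat_lit 6209980284) (nat_lit 304) (nat_lit 3987238287) (nat_lit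 380) (nat_lit 13591844784) (nat_lit 74) (nat_lit 5) (nat_lit 78) (nat_lit 5) (nat_lit 79) (nat_lit 5) (nat_lit 339) (nat_lit 291) (nat_lit 150))))) (XT.nd (nat_lit 234) (nat_lit 380) (nat_lit 0) (XT.nd (nat_lit 78) (nat_lit 304) (nat_lit 0) (XT.lf (nat_lit 0) (nat_lit 13726893274) (nat_lit 380) (nat_lit 7194533101) (nat_lit 76) (nat_lit 3343456820) (nat_lit 74) (nat_lit 5) (nat_lit 79) (nat_lit 5) (nat_lit 75) (nat_lit 5) (nat_lit 340) (nat_lit 291) (nat_lit 149)) (XT.nd (nat_lit 78) (nat_lit 0) (nat_lit 0) (XT.lf (nat_lit 0) (nat_lit 3521656372) (nat_lit 304) (nat_lit 13907336303) (nat_lit 380) (nat_lit 7323998451) (nat_lit 70) (nat_lit 5) (nat_lit 74) (nat_lit 5) (nat_lit 75) (nat_lit 5) (nat_lit 341) (nat_lit 291) (nat_lit 148)) (XT.lf (nat_lit 0) (nat_lit 14697762422) (nat_lit 304) (nat_lit 6610358784) (nat_lit 380) (nat_lit 3945651357) (nat_lit 70) (nat_lit 5) (nat_lit 74) (nat_lit 5) (nat_lit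 75) (nat_lit 5) (nat_lit 342) (nat_lit 291) (nat_lit 147)))) (XT.nd (nat_lit 78) (nat_lit 76) (nat_lit 0) (XT.lf (nat_lit 0) (nat_lit 430298398) (nat_lit 304) (nat_lit 24879654063) (nat_lit 380) (nat_lit 459444098) (nat_lit 66) (nat_lit 5) (nat_lit 70) (nat_lit 5) (nat_lit 71) (nat_lit 5) (nat_lit 343) (nat_lit 291) (nat_lit 146)) (XT.nd (nat_lit 78) (nat_lit 0) (nat_lit 0) (XT.lf (nat_lit 0) (nat_lit 3236865373) (nat_lit 380) (nat_lit 14440329806) (nat_lit 76) (nat_lit 8617400951) (nat_lit 65) (nat_lit 5) (nat_lit 70) (nat_lit 5) (nat_lit 66) (nat_lit 5) (nat_lit 344) (nat_lit 291) (nat_lit 145)) (XT.lf (nat_lit 0) (nat_lit 7028538885) (nat_lit 380) (nat_lit 3227902203) (nat_lit 76) (nat_lit 16579171079) (nat_lit 65) (nat_lit 5) (nat_lit 70) (nat_lit 5) (nat_lit 66) (nat_lit 5) (nat_lit 345) (nat_lit 291) (nat_lit 144)))))) (XT.nd (nat_lit 468) (nat_lit 456) (nat_lit 0) (XT.nd (nat_lit 234) (nat_lit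 304) (nat_lit 0) (XT.nd (nat_lit 78) (nat_lit 228) (nat_lit 0) (XT.lf (nat_lit 0) (nat_lit 8477831400) (nat_lit 304) (nat_lit 2531517662) (nat_lit 380) (nat_lit 16381256010) (nat_lit 61) (nat_lit 5) (nat_lit 65) (nat_lit 5) (nat_lit 66) (nat_lit 5) (nat_lit 346) (nat_lit 291) (nat_lit 143)) (XT.nd (nat_lit 78) (nat_lit 228) (nat_lit 0) (XT.lf (nat_lit 0) (nat_lit 15188617868) (nat_lit 380) (nat_lit 7421418142) (nat_lit 76) (nat_lit 5349848472) (nat_lit 61) (nat_lit 5) (nat_lit 66) (nat_lit 5) (nat_lit 62) (nat_lit 5) (nat_lit 347) (nat_lit 291) (nat_lit 142)) (XT.lf (nat_lit 0) (nat_lit 4468478106) (nat_lit 228) (nat_lit 15086946868) (nat_lit 304) (nat_lit 8988960016) (nat_lit 58) (nat_lit 5) (nat_lit 61) (nat_lit 5) (nat_lit 62) (nat_lit 5) (nat_lit 348) (nat_lit 291) (nat_lit 141)))) (XT.nd (nat_lit 78) (nat_lit 304) (nat_lit 0) (XT.lf (nat_lit 0) (nat_lit 16858953201) (nat_lit 228) (nat_lit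 7263458143) (nat_lit 304) (nat_lit 5021941220) (nat_lit 58) (nat_lit 5) (nat_lit 61) (nat_lit 5) (nat_lit 62) (nat_lit 5) (nat_lit 349) (nat_lit 291) (nat_lit 140)) (XT.nd (nat_lit 78) (nat_lit 304) (nat_lit 0) (XT.lf (nat_lit 0) (nat_lit 28828424856) (nat_lit 304) (nat_lit 156977528) (nat_lit 76) (nat_lit 776863346) (nat_lit 58) (nat_lit 5) (nat_lit 62) (nat_lit 5) (nat_lit 59) (nat_lit 5) (nat_lit 350) (nat_lit 291) (nat_lit 139)) (XT.lf (nat_lit 0) (nat_lit 3401407960) (nat_lit 304) (nat_lit 17927106593) (nat_lit 76) (nat_lit 9063609945) (nat_lit 54) (nat_lit 5) (nat_lit 58) (nat_lit 5) (nat_lit 55) (nat_lit 5) (nat_lit 351) (nat_lit 291) (nat_lit 138))))) (XT.nd (nat_lit 234) (nat_lit 228) (nat_lit 0) (XT.nd (nat_lit 78) (nat_lit 228) (nat_lit 0) (XT.lf (nat_lit 0) (nat_lit 7844111446) (nat_lit 304) (nat_lit 5589162708) (nat_lit 76) (nat_lit 17607448991) (nat_lit 54) (nat_lit 5) (nat_lit 58)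 (nat_lit 5) (nat_lit 55) (nat_lit 5) (nat_lit 352) (nat_lit 291) (nat_lit 137)) (XT.nd (nat_lit 78) (nat_lit 0) (nat_lit 0) (XT.lf (nat_lit 0) (nat_lit 7252717316) (nat_lit 228) (nat_lit 5231820162) (nat_lit 304) (nat_lit 19222315332) (nat_lit 51) (nat_lit 5) (nat_lit 54) (nat_lit 5) (nat_lit 55) (nat_lit 5) (nat_lit 353) (nat_lit 291) (nat_lit 136)) (XT.lf (nat_lit 0) (nat_lit 17346866116) (nat_lit 304) (nat_lit 11836108364) (nat_lit 76) (nat_lit 3207517304) (nat_lit 51) (nat_lit 5) (nat_lit 55) (nat_lit 5) (nat_lit 52) (nat_lit 5) (nat_lit 354) (nat_lit 291) (nat_lit 135)))) (XT.nd (nat_lit 78) (nat_lit 0) (nat_lit 0) (XT.lf (nat_lit 0) (nat_lit 1123008841) (nat_lit 228) (nat_lit 21289583422) (nat_lit 304) (nat_lit 10680327774) (nat_lit 48) (nat_lit 5) (nat_lit 51) (nat_lit 5) (nat_lit 52) (nat_lit 5) (nat_lit 355) (nat_lit 291) (nat_lit 134)) (XT.nd (nat_lit 78) (nat_lit 0) (nat_lit 0) (XT.lf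 (nat_lit 0) (nat_lit 14706037858) (nat_lit 228) (nat_lit 13038781825) (nat_lit 304) (nat_lit 6068171336) (nat_lit 48) (nat_lit 5) (nat_lit 51) (nat_lit 5) (nat_lit 52) (nat_lit 5) (nat_lit 356) (nat_lit 291) (nat_lit 133)) (XT.lf (nat_lit 0) (nat_lit 28689285586) (nat_lit 228) (nat_lit 4542881738) (nat_lit 304) (nat_lit 1322647801) (nat_lit 48) (nat_lit 5) (nat_lit 51) (nat_lit 5) (nat_lit 52) (nat_lit 5) (nat_lit 357) (nat_lit 291) (nat_lit 132))))))))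
noncomputable def xc189 : XT := (XT.nd (nat_lit 1794) (nat_lit 456) (nat_lit 0) (XT.nd (nat_lit 858) (nat_lit 760) (nat_lit 0) (XT.nd (nat_lit 390) (nat_lit 456) (nat_lit 0) (XT.nd (nat_lit 156) (nat_lit 228) (nat_lit 0) (XT.nd (nat_lit 78) (nat_lit 0) (nat_lit 0) (XT.lf (nat_lit 0) (nat_lit 3608230004) (nat_lit 304) (nat_lit 27471674077) (nat_lit 76) (nat_lit 4234590234) (nat_lit 44) (nat_lit 5) (nat_lit 48) (nat_lit 5) (nat_lit 45) (nat_lit 5) (nat_lit 358) (nat_lit 291) (nat_lit 131)) (XT.lf (nat_lit 0) (nat_lit 8760536000) (nat_lit 304) (nat_lit 14078402579) (nat_lit 76) (nat_lit 13254634983) (nat_lit 44) (nat_lit 5) (nat_lit 48) (nat_lit 5) (nat_lit 45) (nat_lit 5) (nat_lit 359) (nat_lit 291) (nat_lit 130))) (XT.nd (nat_lit 78) (nat_lit 228) (nat_lit 0) (XT.lf (nat_lit 0) (nat_lit 14062838316) (nat_lit 304) (nat_lit 290335593) (nat_lit 76) (nat_lit 22542993439) (nat_lit 44) (nat_lit 5) (nat_lit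 48) (nat_lit 5) (nat_lit 45) (nat_lit 5) (nat_lit 360) (nat_lit 291) (nat_lit 129)) (XT.nd (nat_lit 78) (nat_lit 0) (nat_lit 0) (XT.lf (nat_lit 0) (nat_lit 14181303006) (nat_lit 228) (nat_lit 5474786384) (nat_lit 304) (nat_lit 18062797994) (nat_lit 41) (nat_lit 5) (nat_lit 44) (nat_lit 5) (nat_lit 45) (nat_lit 5) (nat_lit 361) (nat_lit 291) (nat_lit 128)) (XT.lf (nat_lit 0) (nat_lit 25450978948) (nat_lit 304) (nat_lit 9515310893) (nat_lit 76) (nat_lit 3598988640) (nat_lit 41) (nat_lit 5) (nat_lit 45) (nat_lit 5) (nat_lit 42) (nat_lit 5) (nat_lit 362) (nat_lit 291) (nat_lit 127))))) (XT.nd (nat_lit 234) (nat_lit 228) (nat_lit 0) (XT.nd (nat_lit 78) (nat_lit 76) (nat_lit 0) (XT.lf (nat_lit 0) (nat_lit 4963637491) (nat_lit 152) (nat_lit 26553727388) (nat_lit 228) (nat_lit 7916771493) (nat_lit 39) (nat_lit 5) (nat_lit 41) (nat_lit 5) (nat_lit 42) (nat_lit 5) (nat_lit 363) (nat_lit 291) (nat_lit 126))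 (XT.nd (nat_lit 78) (nat_lit 76) (nat_lit 0) (XT.lf (nat_lit 0) (nat_lit 20065428081) (nat_lit 152) (nat_lit 17792191750) (nat_lit 228) (nat_lit 2468688263) (nat_lit 39) (nat_lit 5) (nat_lit 41) (nat_lit 5) (nat_lit 42) (nat_lit 5) (nat_lit 364) (nat_lit 291) (nat_lit 125)) (XT.lf (nat_lit 0) (nat_lit 3077378761) (nat_lit 228) (nat_lit 5661658946) (nat_lit 76) (nat_lit 32505429018) (nat_lit 38) (nat_lit 5) (nat_lit 41) (nat_lit 5) (nat_lit 39) (nat_lit 5) (nat_lit 365) (nat_lit 291) (nat_lit 124)))) (XT.nd (nat_lit 78) (nat_lit 0) (nat_lit 0) (XT.lf (nat_lit 0) (nat_lit 8834572493) (nat_lit 304) (nat_lit 32662780699) (nat_lit 76) (nat_lit 689256807) (nat_lit 35) (nat_lit 5) (nat_lit 39) (nat_lit 5) (nat_lit 36) (nat_lit 5) (nat_lit 366) (nat_lit 291) (nat_lit 123)) (XT.nd (nat_lit 78) (nat_lit 0) (nat_lit 0) (XT.lf (nat_lit 0) (nat_lit 14904769686) (nat_lit 304) (nat_lit 17967778885) (nat_lit 76)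 (nat_lit 10280264296) (nat_lit 35) (nat_lit 5) (nat_lit 39) (nat_lit 5) (nat_lit 36) (nat_lit 5) (nat_lit 367) (nat_lit 291) (nat_lit 122)) (XT.lf (nat_lit 0) (nat_lit 21153213389) (nat_lit 304) (nat_lit 2838068700) (nat_lit 76) (nat_lit 20156839326) (nat_lit 35) (nat_lit 5) (nat_lit 39) (nat_lit 5) (nat_lit 36) (nat_lit 5) (nat_lit 368) (nat_lit 291) (nat_lit 121)))))) (XT.nd (nat_lit 468) (nat_lit 380) (nat_lit 0) (XT.nd (nat_lit 234) (nat_lit 228) (nat_lit 0) (XT.nd (nat_lit 78) (nat_lit 0) (nat_lit 0) (XT.lf (nat_lit 0) (nat_lit 12993112411) (nat_lit 152) (nat_lit 14717148741) (nat_lit 228) (nat_lit 17459397246) (nat_lit 33) (nat_lit 5) (nat_lit 35) (nat_lit 5) (nat_lit 36) (nat_lit 5) (nat_lit 369) (nat_lit 291) (nat_lit 120)) (XT.nd (nat_lit 78) (nat_lit 0) (nat_lit 0) (XT.lf (nat_lit 0) (nat_lit 29351502243) (nat_lit 152) (nat_lit 5137482421) (nat_lit 228) (nat_lit 11732111491) (nat_lit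 33) (nat_lit 5) (nat_lit 35) (nat_lit 5) (nat_lit 36) (nat_lit 5) (nat_lit 370) (nat_lit 291) (nat_lit 119)) (XT.lf (nat_lit 0) (nat_lit 41512925809) (nat_lit 228) (nat_lit 1154719677) (nat_lit 76) (nat_lit 4635179366) (nat_lit 33) (nat_lit 5) (nat_lit 36) (nat_lit 5) (nat_lit 34) (nat_lit 5) (nat_lit 371) (nat_lit 291) (nat_lit 118)))) (XT.nd (nat_lit 78) (nat_lit 0) (nat_lit 0) (XT.lf (nat_lit 0) (nat_lit 520226344) (nat_lit 228) (nat_lit 33143168858) (nat_lit 76) (nat_lit 14747635245) (nat_lit 30) (nat_lit 5) (nat_lit 33) (nat_lit 5) (nat_lit 31) (nat_lit 5) (nat_lit 372) (nat_lit 291) (nat_lit 117)) (XT.nd (nat_lit 78) (nat_lit 0) (nat_lit 0) (XT.lf (nat_lit 0) (nat_lit 6911568339) (nat_lit 228) (nat_lit 17408453173) (nat_lit 76) (nat_lit 25230495594) (nat_lit 30) (nat_lit 5) (nat_lit 33) (nat_lit 5) (nat_lit 31) (nat_lit 5) (nat_lit 373) (nat_lit 291) (nat_lit 116)) (XT.lf (nat_lit 0) (nat_lit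 13491260526) (nat_lit 228) (nat_lit 1207201367) (nat_lit 76) (nat_lit 36025831274) (nat_lit 30) (nat_lit 5) (nat_lit 33) (nat_lit 5) (nat_lit 31) (nat_lit 5) (nat_lit 374) (nat_lit 291) (nat_lit 115))))) (XT.nd (nat_lit 234) (nat_lit 228) (nat_lit 0) (XT.nd (nat_lit 78) (nat_lit 0) (nat_lit 0) (XT.lf (nat_lit 0) (nat_lit 15782720722) (nat_lit 152) (nat_lit 4634044595) (nat_lit 228) (nat_lit 31512067547) (nat_lit 28) (nat_lit 5) (nat_lit 30) (nat_lit 5) (nat_lit 31) (nat_lit 5) (nat_lit 375) (nat_lit 291) (nat_lit 114)) (XT.nd (nat_lit 78) (nat_lit 0) (nat_lit 0) (XT.lf (nat_lit 0) (nat_lit 27614182730) (nat_lit 228) (nat_lit 19922652481) (nat_lit 76) (nat_lit 5630752037) (nat_lit 28) (nat_lit 5) (nat_lit 31) (nat_lit 5) (nat_lit 29) (nat_lit 5) (nat_lit 376) (nat_lit 291) (nat_lit 113)) (XT.lf (nat_lit 0) (nat_lit 35070233411) (nat_lit 228) (nat_lit 3263587396) (nat_lit 76) (nat_lit 16108404970)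 (nat_lit 28) (nat_lit 5) (nat_lit 31) (nat_lit 5) (nat_lit 29) (nat_lit 5) (nat_lit 377) (nat_lit 291) (nat_lit 112)))) (XT.nd (nat_lit 78) (nat_lit 76) (nat_lit 0) (XT.lf (nat_lit 0) (nat_lit 14166626762) (nat_lit 152) (nat_lit 28716438606) (nat_lit 228) (nat_lit 12868047855) (nat_lit 26) (nat_lit 5) (nat_lit 28) (nat_lit 5) (nat_lit 29) (nat_lit 5) (nat_lit 378) (nat_lit 291) (nat_lit 111)) (XT.nd (nat_lit 78) (nat_lit 76) (nat_lit 0) (XT.lf (nat_lit 0) (nat_lit 32181632550) (nat_lit 152) (nat_lit 18778568497) (nat_lit 228) (nat_lit 6138171356) (nat_lit 26) (nat_lit 5) (nat_lit 28) (nat_lit 5) (nat_lit 29) (nat_lit 5) (nat_lit 379) (nat_lit 291) (nat_lit 110)) (XT.lf (nat_lit 0) (nat_lit 775135063) (nat_lit 228) (nat_lit 7761520331) (nat_lit 76) (nat_lit 49949257038) (nat_lit 25) (nat_lit 5) (nat_lit 28) (nat_lit 5) (nat_lit 26) (nat_lit 5) (nat_lit 380) (nat_lit 291) (nat_lit 109))))))) (XT.nd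 (nat_lit 33930) (nat_lit 0) (nat_lit 11856) (XT.nd (nat_lit 468) (nat_lit 152) (nat_lit 0) (XT.nd (nat_lit 234) (nat_lit 152) (nat_lit 0) (XT.nd (nat_lit 78) (nat_lit 0) (nat_lit 0) (XT.lf (nat_lit 0) (nat_lit 7886958420) (nat_lit 228) (nat_lit 49892648794) (nat_lit 76) (nat_lit 2130216006) (nat_lit 23) (nat_lit 5) (nat_lit 26) (nat_lit 5) (nat_lit 24) (nat_lit 5) (nat_lit 381) (nat_lit 291) (nat_lit 108)) (XT.nd (nat_lit 78) (nat_lit 0) (nat_lit 0) (XT.lf (nat_lit 0) (nat_lit 15372936999) (nat_lit 228) (nat_lit 32975874050) (nat_lit 76) (nat_lit 13022818644) (nat_lit 23) (nat_lit 5) (nat_lit 26) (nat_lit 5) (nat_lit 24) (nat_lit 5) (nat_lit 382) (nat_lit 291) (nat_lit 107)) (XT.lf (nat_lit 0) (nat_lit 23080705654) (nat_lit 228) (nat_lit 15556266203) (nat_lit 76) (nat_lit 24240404487) (nat_lit 23) (nat_lit 5) (nat_lit 26) (nat_lit 5) (nat_lit 24) (nat_lit 5) (nat_lit 383) (nat_lit 291) (nat_lit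 106)))) (XT.nd (nat_lit 78) (nat_lit 0) (nat_lit 0) (XT.lf (nat_lit 0) (nat_lit 2428790208) (nat_lit 152) (nat_lit 28611556139) (nat_lit 228) (nat_lit 33387332117) (nat_lit 21) (nat_lit 5) (nat_lit 23) (nat_lit 5) (nat_lit 24) (nat_lit 5) (nat_lit 384) (nat_lit 291) (nat_lit 105)) (XT.nd (nat_lit 78) (nat_lit 0) (nat_lit 0) (XT.lf (nat_lit 0) (nat_lit 21267796855) (nat_lit 152) (nat_lit 18125394872) (nat_lit 228) (nat_lit 26626667631) (nat_lit 21) (nat_lit 5) (nat_lit 23) (nat_lit 5) (nat_lit 24) (nat_lit 5) (nat_lit 385) (nat_lit 291) (nat_lit 104)) (XT.lf (nat_lit 0) (nat_lit 40667614804) (nat_lit 152) (nat_lit 7326413176) (nat_lit 228) (nat_lit 19665857643) (nat_lit 21) (nat_lit 5) (nat_lit 23) (nat_lit 5) (nat_lit 24) (nat_lit 5) (nat_lit 386) (nat_lit 291) (nat_lit 103))))) (XT.nd (nat_lit 33228) (nat_lit 0) (nat_lit 12844) (XT.nd (nat_lit 78) (nat_lit 152) (nat_lit 0) (XT.lf (nat_lit 0) (nat_lit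 56886848582) (nat_lit 228) (nat_lit 8740473120) (nat_lit 76) (nat_lit 3720774246) (nat_lit 21) (nat_lit 5) (nat_lit 24) (nat_lit 5) (nat_lit 22) (nat_lit 4) (nat_lit 387) (nat_lit 291) (nat_lit 102)) (XT.nd (nat_lit 78) (nat_lit 76) (nat_lit 0) (XT.lf (nat_lit 0) (nat_lit 10180836509) (nat_lit 76) (nat_lit 56033558925) (nat_lit 152) (nat_lit 4867520889) (nat_lit 20) (nat_lit 5) (nat_lit 21) (nat_lit 5) (nat_lit 22) (nat_lit 4) (nat_lit 388) (nat_lit 291) (nat_lit 101)) (XT.lf (nat_lit 0) (nat_lit 2983053916) (nat_lit 152) (nat_lit 43049594529) (nat_lit 76) (nat_lit 26831652462) (nat_lit 19) (nat_lit 5) (nat_lit 21) (nat_lit 5) (nat_lit 20) (nat_lit 5) (nat_lit 389) (nat_lit 291) (nat_lit 100)))) (XT.nd (nat_lit 78) (nat_lit 0) (nat_lit 0) (XT.lf (nat_lit 0) (nat_lit 2286688643) (nat_lit 0) (nat_lit 2286688643) (nat_lit 988) (nat_lit 906483126) (nat_lit 188) (nat_lit 5) (nat_lit 188) (nat_lit 3)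 (nat_lit 201) (nat_lit 3) (nat_lit 292) (nat_lit 292) (nat_lit 196)) (XT.nd (nat_lit 78) (nat_lit 0) (nat_lit 0) (XT.lf (nat_lit 0) (nat_lit 9446017071) (nat_lit 0) (nat_lit 366496963) (nat_lit 988) (nat_lit 1294643330) (nat_lit 188) (nat_lit 5) (nat_lit 188) (nat_lit 3) (nat_lit 201) (nat_lit 3) (nat_lit 293) (nat_lit 292) (nat_lit 195)) (XT.lf (nat_lit 76) (nat_lit 3219437491) (nat_lit 0) (nat_lit 7327356276) (nat_lit 1064) (nat_lit 710809835) (nat_lit 189) (nat_lit 5) (nat_lit 188) (nat_lit 5) (nat_lit 202) (nat_lit 5) (nat_lit 294) (nat_lit 292) (nat_lit 194)))))) (XT.nd (nat_lit 468) (nat_lit 0) (nat_lit 152) (XT.nd (nat_lit 234) (nat_lit 0) (nat_lit 0) (XT.nd (nat_lit 78) (nat_lit 988) (nat_lit 0) (XT.lf (nat_lit 76) (nat_lit 8265816945) (nat_lit 0) (nat_lit 3037615829) (nat_lit 1064) (nat_lit 109162303) (nat_lit 189) (nat_lit 5) (nat_lit 188) (nat_lit 5) (nat_lit 202) (nat_lit 5) (nat_lit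 295) (nat_lit 292) (nat_lit 193)) (XT.nd (nat_lit 78) (nat_lit 0) (nat_lit 0) (XT.lf (nat_lit 0) (nat_lit 512859573) (nat_lit 1064) (nat_lit 9673064933) (nat_lit 1140) (nat_lit 1385835322) (nat_lit 175) (nat_lit 5) (nat_lit 189) (nat_lit 5) (nat_lit 190) (nat_lit 5) (nat_lit 296) (nat_lit 292) (nat_lit 192)) (XT.lf (nat_lit 0) (nat_lit 1194376287) (nat_lit 1064) (nat_lit 4617842761) (nat_lit 1140) (nat_lit 5922195433) (nat_lit 175) (nat_lit 5) (nat_lit 189) (nat_lit 5) (nat_lit 190) (nat_lit 5) (nat_lit 297) (nat_lit 292) (nat_lit 191)))) (XT.nd (nat_lit 78) (nat_lit 0) (nat_lit 76) (XT.lf (nat_lit 76) (nat_lit 589209722) (nat_lit 0) (nat_lit 1294211966) (nat_lit 1140) (nat_lit 10018951705) (nat_lit 176) (nat_lit 5) (nat_lit 175) (nat_lit 5) (nat_lit 190) (nat_lit 5) (nat_lit 298) (nat_lit 292) (nat_lit 190)) (XT.nd (nat_lit 78) (nat_lit 0) (nat_lit 0) (XT.lf (nat_lit 0) (nat_lit 2654442690) (nat_lit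 1064) (nat_lit 6071450837) (nat_lit 1140) (nat_lit 3347674456) (nat_lit 176) (nat_lit 5) (nat_lit 190) (nat_lit 5) (nat_lit 191) (nat_lit 5) (nat_lit 299) (nat_lit 292) (nat_lit 189)) (XT.lf (nat_lit 0) (nat_lit 3443854319) (nat_lit 1064) (nat_lit 696815206) (nat_lit 1140) (nat_lit 8109406070) (nat_lit 176) (nat_lit 5) (nat_lit 190) (nat_lit 5) (nat_lit 191) (nat_lit 5) (nat_lit 300) (nat_lit 292) (nat_lit 188))))) (XT.nd (nat_lit 234) (nat_lit 0) (nat_lit 76) (XT.nd (nat_lit 78) (nat_lit 0) (nat_lit 0) (XT.lf (nat_lit 0) (nat_lit 4293358363) (nat_lit 1064) (nat_lit 7513159785) (nat_lit 1140) (nat_lit 624301954) (nat_lit 177) (nat_lit 5) (nat_lit 191) (nat_lit 5) (nat_lit 192) (nat_lit 5) (nat_lit 301) (nat_lit 292) (nat_lit 187)) (XT.nd (nat_lit 78) (nat_lit 0) (nat_lit 0) (XT.lf (nat_lit 0) (nat_lit 5199851341) (nat_lit 1064) (nat_lit 1954643968) (nat_lit 1140) (nat_lit 5461579499) (nat_lit 177)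 (nat_lit 5) (nat_lit 191) (nat_lit 5) (nat_lit 192) (nat_lit 5) (nat_lit 302) (nat_lit 292) (nat_lit 186)) (XT.lf (nat_lit 76) (nat_lit 3834128613) (nat_lit 0) (nat_lit 2320150899) (nat_lit 1140) (nat_lit 6652017447) (nat_lit 178) (nat_lit 5) (nat_lit 177) (nat_lit 5) (nat_lit 192) (nat_lit 5) (nat_lit 303) (nat_lit 292) (nat_lit 185)))) (XT.nd (nat_lit 78) (nat_lit 0) (nat_lit 0) (XT.lf (nat_lit 0) (nat_lit 7167125926) (nat_lit 1064) (nat_lit 3202511338) (nat_lit 1140) (nat_lit 2631726035) (nat_lit 178) (nat_lit 5) (nat_lit 192) (nat_lit 5) (nat_lit 193) (nat_lit 5) (nat_lit 304) (nat_lit 292) (nat_lit 184)) (XT.nd (nat_lit 78) (nat_lit 0) (nat_lit 0) (XT.lf (nat_lit 76) (nat_lit 2759704839) (nat_lit 0) (nat_lit 5484900045) (nat_lit 1140) (nat_lit 4956679510) (nat_lit 179) (nat_lit 5) (nat_lit 178) (nat_lit 5) (nat_lit 193) (nat_lit 5) (nat_lit 305) (nat_lit 292) (nat_lit 183)) (XT.lf (nat_lit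 76) (nat_lit 8955137179) (nat_lit 0) (nat_lit 416693147) (nat_lit 1140) (nat_lit 4034879431) (nat_lit 179) (nat_lit 5) (nat_lit 178) (nat_lit 5) (nat_lit 193) (nat_lit 5) (nat_lit 306) (nat_lit 292) (nat_lit 182))))))))
noncomputable def xc190 : XT := (XT.nd (nat_lit 1794) (nat_lit 3344) (nat_lit 0) (XT.nd (nat_lit 858) (nat_lit 2964) (nat_lit 0) (XT.nd (nat_lit 390) (nat_lit 2128) (nat_lit 0) (XT.nd (nat_lit 156) (nat_lit 1064) (nat_lit 0) (XT.nd (nat_lit 78) (nat_lit 0) (nat_lit 0) (XT.lf (nat_lit 76) (nat_lit 1693540661) (nat_lit 0) (nat_lit 8887337251) (nat_lit 1140) (nat_lit 3036008256) (nat_lit 180) (nat_lit 5) (nat_lit 179) (nat_lit 5) (nat_lit 194) (nat_lit 5) (nat_lit 307) (nat_lit 292) (nat_lit 181)) (XT.lf (nat_lit 76) (nat_lit 8098698535) (nat_lit 0) (nat_lit 3762398742) (nat_lit 1140) (nat_lit 1971251202) (nat_lit 180) (nat_lit 5) (nat_lit 179) (nat_lit 5) (nat_lit 194) (nat_lit 5)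 (nat_lit 308) (nat_lit 292) (nat_lit 180))) (XT.nd (nat_lit 78) (nat_lit 76) (nat_lit 0) (XT.lf (nat_lit 0) (nat_lit 627926399) (nat_lit 1064) (nat_lit 12558709026) (nat_lit 1140) (nat_lit 867458681) (nat_lit 166) (nat_lit 5) (nat_lit 180) (nat_lit 5) (nat_lit 181) (nat_lit 5) (nat_lit 309) (nat_lit 292) (nat_lit 179)) (XT.nd (nat_lit 78) (nat_lit 0) (nat_lit 0) (XT.lf (nat_lit 0) (nat_lit 346345143) (nat_lit 1140) (nat_lit 7034956114) (nat_lit 76) (nat_lit 6898673756) (nat_lit 165) (nat_lit 5) (nat_lit 180) (nat_lit 5) (nat_lit 166) (nat_lit 5) (nat_lit 310) (nat_lit 292) (nat_lit 178)) (XT.lf (nat_lit 0) (nat_lit 1565955278) (nat_lit 1140) (nat_lit 471927341) (nat_lit 76) (nat_lit 12474911787) (nat_lit 165) (nat_lit 5) (nat_lit 180) (nat_lit 5) (nat_lit 166) (nat_lit 5) (nat_lit 311) (nat_lit 292) (nat_lit 177))))) (XT.nd (nat_lit 234) (nat_lit 532) (nat_lit 0) (XT.nd (nat_lit 78) (nat_lit 532)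 (nat_lit 0) (XT.lf (nat_lit 0) (nat_lit 2904846033) (nat_lit 1140) (nat_lit 8383185672) (nat_lit 76) (nat_lit 3462109730) (nat_lit 151) (nat_lit 5) (nat_lit 166) (nat_lit 5) (nat_lit 152) (nat_lit 5) (nat_lit 312) (nat_lit 292) (nat_lit 176)) (XT.nd (nat_lit 78) (nat_lit 532) (nat_lit 0) (XT.lf (nat_lit 0) (nat_lit 4296387666) (nat_lit 1140) (nat_lit 1605317771) (nat_lit 76) (nat_lit 9092552044) (nat_lit 151) (nat_lit 5) (nat_lit 166) (nat_lit 5) (nat_lit 152) (nat_lit 5) (nat_lit 313) (nat_lit 292) (nat_lit 175)) (XT.lf (nat_lit 0) (nat_lit 5471680663) (nat_lit 532) (nat_lit 298450642) (nat_lit 608) (nat_lit 9474374486) (nat_lit 144) (nat_lit 5) (nat_lit 151) (nat_lit 5) (nat_lit 152) (nat_lit 5) (nat_lit 314) (nat_lit 292) (nat_lit 174)))) (XT.nd (nat_lit 78) (nat_lit 532) (nat_lit 0) (XT.lf (nat_lit 0) (nat_lit 7345184783) (nat_lit 608) (nat_lit 2771906596) (nat_lit 76) (nat_lit 5383479049)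 (nat_lit 144) (nat_lit 5) (nat_lit 152) (nat_lit 5) (nat_lit 145) (nat_lit 5) (nat_lit 315) (nat_lit 292) (nat_lit 173)) (XT.nd (nat_lit 78) (nat_lit 0) (nat_lit 0) (XT.lf (nat_lit 0) (nat_lit 4513223221) (nat_lit 532) (nat_lit 4489069136) (nat_lit 608) (nat_lit 6761001739) (nat_lit 137) (nat_lit 5) (nat_lit 144) (nat_lit 5) (nat_lit 145) (nat_lit 5) (nat_lit 316) (nat_lit 292) (nat_lit 172)) (XT.lf (nat_lit 0) (nat_lit 10738652698) (nat_lit 608) (nat_lit 3983367597) (nat_lit 76) (nat_lit 1311013544) (nat_lit 137) (nat_lit 5) (nat_lit 145) (nat_lit 5) (nat_lit 138) (nat_lit 5) (nat_lit 317) (nat_lit 292) (nat_lit 171)))))) (XT.nd (nat_lit 468) (nat_lit 1368) (nat_lit 0) (XT.nd (nat_lit 234) (nat_lit 532) (nat_lit 0) (XT.nd (nat_lit 78) (nat_lit 532) (nat_lit 0) (XT.lf (nat_lit 0) (nat_lit 3514611436) (nat_lit 532) (nat_lit 9079752622) (nat_lit 608) (nat_lit 3714503862) (nat_lit 130) (nat_lit 5)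 (nat_lit 137) (nat_lit 5) (nat_lit 138) (nat_lit 5) (nat_lit 318) (nat_lit 292) (nat_lit 170)) (XT.nd (nat_lit 78) (nat_lit 532) (nat_lit 0) (XT.lf (nat_lit 0) (nat_lit 11308429617) (nat_lit 532) (nat_lit 3226786873) (nat_lit 608) (nat_lit 2056895812) (nat_lit 130) (nat_lit 5) (nat_lit 137) (nat_lit 5) (nat_lit 138) (nat_lit 5) (nat_lit 319) (nat_lit 292) (nat_lit 169)) (XT.lf (nat_lit 0) (nat_lit 2462555217) (nat_lit 532) (nat_lit 14111901932) (nat_lit 608) (nat_lit 308210794) (nat_lit 123) (nat_lit 5) (nat_lit 130) (nat_lit 5) (nat_lit 131) (nat_lit 5) (nat_lit 320) (nat_lit 292) (nat_lit 168)))) (XT.nd (nat_lit 78) (nat_lit 456) (nat_lit 0) (XT.lf (nat_lit 0) (nat_lit 1539274759) (nat_lit 608) (nat_lit 6688569079) (nat_lit 76) (nat_lit 8951419437) (nat_lit 122) (nat_lit 5) (nat_lit 130) (nat_lit 5) (nat_lit 123) (nat_lit 5) (nat_lit 321) (nat_lit 292) (nat_lit 167)) (XT.nd (nat_lit 78) (nat_lit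 0) (nat_lit 0) (XT.lf (nat_lit 0) (nat_lit 1286396378) (nat_lit 456) (nat_lit 2151902150) (nat_lit 532) (nat_lit 14046314350) (nat_lit 116) (nat_lit 5) (nat_lit 122) (nat_lit 5) (nat_lit 123) (nat_lit 5) (nat_lit 322) (nat_lit 292) (nat_lit 166)) (XT.lf (nat_lit 0) (nat_lit 5492104804) (nat_lit 532) (nat_lit 8210296271) (nat_lit 76) (nat_lit 4093804250) (nat_lit 116) (nat_lit 5) (nat_lit 123) (nat_lit 5) (nat_lit 117) (nat_lit 5) (nat_lit 323) (nat_lit 292) (nat_lit 165))))) (XT.nd (nat_lit 234) (nat_lit 912) (nat_lit 0) (XT.nd (nat_lit 78) (nat_lit 456) (nat_lit 0) (XT.lf (nat_lit 0) (nat_lit 7619247922) (nat_lit 532) (nat_lit 14508752) (nat_lit 76) (nat_lit 10483053415) (nat_lit 116) (nat_lit 5) (nat_lit 123) (nat_lit 5) (nat_lit 117) (nat_lit 5) (nat_lit 324) (nat_lit 292) (nat_lit 164)) (XT.nd (nat_lit 78) (nat_lit 0) (nat_lit 0) (XT.lf (nat_lit 0) (nat_lit 8584507485) (nat_lit 456) (nat_lit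 1298913205) (nat_lit 532) (nat_lit 8561431596) (nat_lit 110) (nat_lit 5) (nat_lit 116) (nat_lit 5) (nat_lit 117) (nat_lit 5) (nat_lit 325) (nat_lit 292) (nat_lit 163)) (XT.lf (nat_lit 0) (nat_lit 12256763047) (nat_lit 532) (nat_lit 1401516665) (nat_lit 76) (nat_lit 5123233995) (nat_lit 110) (nat_lit 5) (nat_lit 117) (nat_lit 5) (nat_lit 111) (nat_lit 5) (nat_lit 326) (nat_lit 292) (nat_lit 162)))) (XT.nd (nat_lit 78) (nat_lit 532) (nat_lit 0) (XT.lf (nat_lit 0) (nat_lit 7433225754) (nat_lit 380) (nat_lit 7343520512) (nat_lit 456) (nat_lit 4349280335) (nat_lit 105) (nat_lit 5) (nat_lit 110) (nat_lit 5) (nat_lit 111) (nat_lit 5) (nat_lit 327) (nat_lit 292) (nat_lit 161)) (XT.nd (nat_lit 78) (nat_lit 532) (nat_lit 0) (XT.lf (nat_lit 0) (nat_lit 16551799544) (nat_lit 380) (nat_lit 825972228) (nat_lit 456) (nat_lit 2102954238) (nat_lit 105) (nat_lit 5) (nat_lit 110) (nat_lit 5) (nat_lit 111) (nat_lit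 5) (nat_lit 328) (nat_lit 292) (nat_lit 160)) (XT.lf (nat_lit 0) (nat_lit 314951013) (nat_lit 532) (nat_lit 13694548081) (nat_lit 76) (nat_lit 5833271054) (nat_lit 98) (nat_lit 5) (nat_lit 105) (nat_lit 5) (nat_lit 99) (nat_lit 5) (nat_lit 329) (nat_lit 292) (nat_lit 159))))))) (XT.nd (nat_lit 936) (nat_lit 1520) (nat_lit 0) (XT.nd (nat_lit 468) (nat_lit 760) (nat_lit 0) (XT.nd (nat_lit 234) (nat_lit 684) (nat_lit 0) (XT.nd (nat_lit 78) (nat_lit 380) (nat_lit 0) (XT.lf (nat_lit 0) (nat_lit 2792762412) (nat_lit 532) (nat_lit 4696345976) (nat_lit 76) (nat_lit 12725066683) (nat_lit 98) (nat_lit 5) (nat_lit 105) (nat_lit 5) (nat_lit 99) (nat_lit 5) (nat_lit 330) (nat_lit 292) (nat_lit 158)) (XT.nd (nat_lit 78) (nat_lit 0) (nat_lit 0) (XT.lf (nat_lit 0) (nat_lit 4652897237) (nat_lit 380) (nat_lit 728571483) (nat_lit 456) (nat_lit 15214169411) (nat_lit 93) (nat_lit 5) (nat_lit 98) (nat_lit 5) (nat_lit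 99) (nat_lit 5) (nat_lit 331) (nat_lit 292) (nat_lit 157)) (XT.lf (nat_lit 0) (nat_lit 8147626543) (nat_lit 456) (nat_lit 6678478670) (nat_lit 76) (nat_lit 6159458595) (nat_lit 93) (nat_lit 5) (nat_lit 99) (nat_lit 5) (nat_lit 94) (nat_lit 5) (nat_lit 332) (nat_lit 292) (nat_lit 156)))) (XT.nd (nat_lit 78) (nat_lit 304) (nat_lit 0) (XT.lf (nat_lit 0) (nat_lit 2903601784) (nat_lit 380) (nat_lit 8120490499) (nat_lit 456) (nat_lit 10362287347) (nat_lit 88) (nat_lit 5) (nat_lit 93) (nat_lit 5) (nat_lit 94) (nat_lit 5) (nat_lit 333) (nat_lit 292) (nat_lit 155)) (XT.nd (nat_lit 78) (nat_lit 304) (nat_lit 0) (XT.lf (nat_lit 0) (nat_lit 12900584816) (nat_lit 380) (nat_lit 1146041404) (nat_lit 456) (nat_lit 7750812200) (nat_lit 88) (nat_lit 5) (nat_lit 93) (nat_lit 5) (nat_lit 94) (nat_lit 5) (nat_lit 334) (nat_lit 292) (nat_lit 154)) (XT.lf (nat_lit 0) (nat_lit 927301476) (nat_lit 304) (nat_lit 16292027164)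 (nat_lit 380) (nat_lit 4999726938) (nat_lit 84) (nat_lit 5) (nat_lit 88) (nat_lit 5) (nat_lit 89) (nat_lit 5) (nat_lit 335) (nat_lit 292) (nat_lit 153))))) (XT.nd (nat_lit 234) (nat_lit 304) (nat_lit 0) (XT.nd (nat_lit 78) (nat_lit 456) (nat_lit 0) (XT.lf (nat_lit 0) (nat_lit 11207673037) (nat_lit 304) (nat_lit 9373284483) (nat_lit 380) (nat_lit 2069562417) (nat_lit 84) (nat_lit 5) (nat_lit 88) (nat_lit 5) (nat_lit 89) (nat_lit 5) (nat_lit 336) (nat_lit 292) (nat_lit 152)) (XT.nd (nat_lit 78) (nat_lit 380) (nat_lit 0) (XT.lf (nat_lit 0) (nat_lit 922799700) (nat_lit 380) (nat_lit 1316784740) (nat_lit 76) (nat_lit 20855296626) (nat_lit 83) (nat_lit 5) (nat_lit 88) (nat_lit 5) (nat_lit 84) (nat_lit 5) (nat_lit 337) (nat_lit 292) (nat_lit 151)) (XT.lf (nat_lit 0) (nat_lit 4095571377) (nat_lit 456) (nat_lit 14335250824) (nat_lit 76) (nat_lit 5117179171) (nat_lit 78) (nat_lit 5) (nat_lit 84) (nat_lit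 5) (nat_lit 79) (nat_lit 5) (nat_lit 338) (nat_lit 292) (nat_lit 150)))) (XT.nd (nat_lit 78) (nat_lit 304) (nat_lit 0) (XT.lf (nat_lit 0) (nat_lit 7392239684) (nat_lit 456) (nat_lit 3960493744) (nat_lit 76) (nat_lit 12661130270) (nat_lit 78) (nat_lit 5) (nat_lit 84) (nat_lit 5) (nat_lit 79) (nat_lit 5) (nat_lit 339) (nat_lit 292) (nat_lit 149)) (XT.nd (nat_lit 78) (nat_lit 0) (nat_lit 0) (XT.lf (nat_lit 0) (nat_lit 6850409093) (nat_lit 304) (nat_lit 3996560706) (nat_lit 380) (nat_lit 13644966771) (nat_lit 74) (nat_lit 5) (nat_lit 78) (nat_lit 5) (nat_lit 79) (nat_lit 5) (nat_lit 340) (nat_lit 292) (nat_lit 148)) (XT.lf (nat_lit 0) (nat_lit 14473549482) (nat_lit 380) (nat_lit 6960011944) (nat_lit 76) (nat_lit 3548753225) (nat_lit 74) (nat_lit 5) (nat_lit 79) (nat_lit 5) (nat_lit 75) (nat_lit 5) (nat_lit 341) (nat_lit 292) (nat_lit 147)))))) (XT.nd (nat_lit 468) (nat_lit 532) (nat_lit 0) (XT.nd (nat_lit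 234) (nat_lit 380) (nat_lit 0) (XT.nd (nat_lit 78) (nat_lit 304) (nat_lit 0) (XT.lf (nat_lit 0) (nat_lit 4073247948) (nat_lit 304) (nat_lit 14207997688) (nat_lit 380) (nat_lit 7203997847) (nat_lit 70) (nat_lit 5) (nat_lit 74) (nat_lit 5) (nat_lit 75) (nat_lit 5) (nat_lit 342) (nat_lit 292) (nat_lit 146)) (XT.nd (nat_lit 78) (nat_lit 304) (nat_lit 0) (XT.lf (nat_lit 0) (nat_lit 15571648581) (nat_lit 304) (nat_lit 6695505757) (nat_lit 380) (nat_lit 3734195113) (nat_lit 70) (nat_lit 5) (nat_lit 74) (nat_lit 5) (nat_lit 75) (nat_lit 5) (nat_lit 343) (nat_lit 292) (nat_lit 145)) (XT.lf (nat_lit 0) (nat_lit 880776755) (nat_lit 304) (nat_lit 25504211820) (nat_lit 380) (nat_lit 147588043) (nat_lit 66) (nat_lit 5) (nat_lit 70) (nat_lit 5) (nat_lit 71) (nat_lit 5) (nat_lit 344) (nat_lit 292) (nat_lit 144)))) (XT.nd (nat_lit 78) (nat_lit 304) (nat_lit 0) (XT.lf (nat_lit 0) (nat_lit 3643956752) (nat_lit 380)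 (nat_lit 14442140673) (nat_lit 76) (nat_lit 8987631982) (nat_lit 65) (nat_lit 5) (nat_lit 70) (nat_lit 5) (nat_lit 66) (nat_lit 5) (nat_lit 345) (nat_lit 292) (nat_lit 143)) (XT.nd (nat_lit 78) (nat_lit 304) (nat_lit 0) (XT.lf (nat_lit 0) (nat_lit 7540351768) (nat_lit 380) (nat_lit 2905905261) (nat_lit 76) (nat_lit 17185001553) (nat_lit 65) (nat_lit 5) (nat_lit 70) (nat_lit 5) (nat_lit 66) (nat_lit 5) (nat_lit 346) (nat_lit 292) (nat_lit 142)) (XT.lf (nat_lit 0) (nat_lit 9146894134) (nat_lit 304) (nat_lit 2488913004) (nat_lit 380) (nat_lit 16567248964) (nat_lit 61) (nat_lit 5) (nat_lit 65) (nat_lit 5) (nat_lit 66) (nat_lit 5) (nat_lit 347) (nat_lit 292) (nat_lit 141))))) (XT.nd (nat_lit 234) (nat_lit 304) (nat_lit 0) (XT.nd (nat_lit 78) (nat_lit 228) (nat_lit 0) (XT.lf (nat_lit 0) (nat_lit 15932933861) (nat_lit 380) (nat_lit 7233521524) (nat_lit 76) (nat_lit 5623195233) (nat_lit 61) (nat_lit 5)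 (nat_lit 66) (nat_lit 5) (nat_lit 62) (nat_lit 5) (nat_lit 348) (nat_lit 292) (nat_lit 140)) (XT.nd (nat_lit 78) (nat_lit 0) (nat_lit 0) (XT.lf (nat_lit 0) (nat_lit 5009046717) (nat_lit 228) (nat_lit 15417198628) (nat_lit 304) (nat_lit 8965586588) (nat_lit 58) (nat_lit 5) (nat_lit 61) (nat_lit 5) (nat_lit 62) (nat_lit 5) (nat_lit 349) (nat_lit 292) (nat_lit 139)) (XT.lf (nat_lit 0) (nat_lit 17759395844) (nat_lit 228) (nat_lit 7362569027) (nat_lit 304) (nat_lit 4888092439) (nat_lit 58) (nat_lit 5) (nat_lit 61) (nat_lit 5) (nat_lit 62) (nat_lit 5) (nat_lit 350) (nat_lit 292) (nat_lit 138)))) (XT.nd (nat_lit 78) (nat_lit 76) (nat_lit 0) (XT.lf (nat_lit 0) (nat_lit 233310502) (nat_lit 228) (nat_lit 29731164285) (nat_lit 304) (nat_lit 682183781) (nat_lit 55) (nat_lit 5) (nat_lit 58) (nat_lit 5) (nat_lit 59) (nat_lit 5) (nat_lit 351) (nat_lit 292) (nat_lit 137)) (XT.nd (nat_lit 78) (nat_lit 0) (nat_lit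 0) (XT.lf (nat_lit 0) (nat_lit 3771232496) (nat_lit 304) (nat_lit 18072653911) (nat_lit 76) (nat_lit 9451648611) (nat_lit 54) (nat_lit 5) (nat_lit 58) (nat_lit 5) (nat_lit 55) (nat_lit 5) (nat_lit 352) (nat_lit 292) (nat_lit 136)) (XT.lf (nat_lit 0) (nat_lit 8339417602) (nat_lit 304) (nat_lit 5375996929) (nat_lit 76) (nat_lit 18248420391) (nat_lit 54) (nat_lit 5) (nat_lit 58) (nat_lit 5) (nat_lit 55) (nat_lit 5) (nat_lit 353) (nat_lit 292) (nat_lit 135))))))))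
noncomputable def xc191 : XT := (XT.nd (nat_lit 1872) (nat_lit 532) (nat_lit 0) (XT.nd (nat_lit 936) (nat_lit 836) (nat_lit 0) (XT.nd (nat_lit 468) (nat_lit 380) (nat_lit 0) (XT.nd (nat_lit 234) (nat_lit 304) (nat_lit 0) (XT.nd (nat_lit 78) (nat_lit 228) (nat_lit 0) (XT.lf (nat_lit 0) (nat_lit 7847405764) (nat_lit 228) (nat_lit 5267703319) (nat_lit 304) (nat_lit 19534966855) (nat_lit 51) (nat_lit 5) (nat_lit 54) (nat_lit 5) (nat_lit 55) (nat_lit 5) (nat_lit 354) (nat_lit 292) (nat_lit 134)) (XT.nd (nat_lit 78) (nat_lit 228) (nat_lit 0) (XT.lf (nat_lit 0) (nat_lit 18116980151) (nat_lit 304) (nat_lit 11818448342) (nat_lit 76) (nat_lit 3418994190) (nat_lit 51) (nat_lit 5) (nat_lit 55) (nat_lit 5) (nat_lit 52) (nat_lit 5) (nat_lit 355) (nat_lit 292) (nat_lit 133)) (XT.lf (nat_lit 0) (nat_lit 1525788034) (nat_lit 228) (nat_lit 21805164908) (nat_lit 304) (nat_lit 10747091119) (nat_lit 48) (nat_lit 5)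 (nat_lit 51) (nat_lit 5) (nat_lit 52) (nat_lit 5) (nat_lit 356) (nat_lit 292) (nat_lit 132)))) (XT.nd (nat_lit 78) (nat_lit 304) (nat_lit 0) (XT.lf (nat_lit 0) (nat_lit 15505557758) (nat_lit 228) (nat_lit 13310424875) (nat_lit 304) (nat_lit 6003957750) (nat_lit 48) (nat_lit 5) (nat_lit 51) (nat_lit 5) (nat_lit 52) (nat_lit 5) (nat_lit 357) (nat_lit 292) (nat_lit 131)) (XT.nd (nat_lit 78) (nat_lit 304) (nat_lit 0) (XT.lf (nat_lit 0) (nat_lit 29897865866) (nat_lit 228) (nat_lit 4563128962) (nat_lit 304) (nat_lit 1123241093) (nat_lit 48) (nat_lit 5) (nat_lit 51) (nat_lit 5) (nat_lit 52) (nat_lit 5) (nat_lit 358) (nat_lit 292) (nat_lit 130)) (XT.lf (nat_lit 0) (nat_lit 3948566460) (nat_lit 304) (nat_lit 27940413607) (nat_lit 76) (nat_lit 4477733979) (nat_lit 44) (nat_lit 5) (nat_lit 48) (nat_lit 5) (nat_lit 45) (nat_lit 5) (nat_lit 359) (nat_lit 292) (nat_lit 129))))) (XT.nd (nat_lit 234) (nat_lit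 152) (nat_lit 0) (XT.nd (nat_lit 78) (nat_lit 228) (nat_lit 0) (XT.lf (nat_lit 0) (nat_lit 9248681746) (nat_lit 304) (nat_lit 14155695732) (nat_lit 76) (nat_lit 13764998343) (nat_lit 44) (nat_lit 5) (nat_lit 48) (nat_lit 5) (nat_lit 45) (nat_lit 5) (nat_lit 360) (nat_lit 292) (nat_lit 128)) (XT.nd (nat_lit 78) (nat_lit 0) (nat_lit 0) (XT.lf (nat_lit 0) (nat_lit 36678737) (nat_lit 228) (nat_lit 14667163973) (nat_lit 304) (nat_lit 23292398160) (nat_lit 41) (nat_lit 5) (nat_lit 44) (nat_lit 5) (nat_lit 45) (nat_lit 5) (nat_lit 361) (nat_lit 292) (nat_lit 127)) (XT.lf (nat_lit 0) (nat_lit 14938466362) (nat_lit 228) (nat_lit 5522889268) (nat_lit 304) (nat_lit 18382399877) (nat_lit 41) (nat_lit 5) (nat_lit 44) (nat_lit 5) (nat_lit 45) (nat_lit 5) (nat_lit 362) (nat_lit 292) (nat_lit 126)))) (XT.nd (nat_lit 78) (nat_lit 152) (nat_lit 0) (XT.lf (nat_lit 0) (nat_lit 26424896641) (nat_lit 304) (nat_lit 9473288327)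 (nat_lit 76) (nat_lit 3817515954) (nat_lit 41) (nat_lit 5) (nat_lit 45) (nat_lit 5) (nat_lit 42) (nat_lit 5) (nat_lit 363) (nat_lit 292) (nat_lit 125)) (XT.nd (nat_lit 78) (nat_lit 0) (nat_lit 0) (XT.lf (nat_lit 0) (nat_lit 5436817901) (nat_lit 152) (nat_lit 27233445527) (nat_lit 228) (nat_lit 7940457975) (nat_lit 39) (nat_lit 5) (nat_lit 41) (nat_lit 5) (nat_lit 42) (nat_lit 5) (nat_lit 364) (nat_lit 292) (nat_lit 124)) (XT.lf (nat_lit 0) (nat_lit 20982217414) (nat_lit 152) (nat_lit 18212468490) (nat_lit 228) (nat_lit 2335159918) (nat_lit 39) (nat_lit 5) (nat_lit 41) (nat_lit 5) (nat_lit 42) (nat_lit 5) (nat_lit 365) (nat_lit 292) (nat_lit 123)))))) (XT.nd (nat_lit 468) (nat_lit 380) (nat_lit 0) (XT.nd (nat_lit 234) (nat_lit 152) (nat_lit 0) (XT.nd (nat_lit 78) (nat_lit 228) (nat_lit 0) (XT.lf (nat_lit 0) (nat_lit 3367310011) (nat_lit 228) (nat_lit 5521719848) (nat_lit 76) (nat_lit 33586643316)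 (nat_lit 38) (nat_lit 5) (nat_lit 41) (nat_lit 5) (nat_lit 39) (nat_lit 5) (nat_lit 366) (nat_lit 292) (nat_lit 122)) (XT.nd (nat_lit 78) (nat_lit 0) (nat_lit 0) (XT.lf (nat_lit 0) (nat_lit 9295488733) (nat_lit 304) (nat_lit 33330950979) (nat_lit 76) (nat_lit 819698763) (nat_lit 35) (nat_lit 5) (nat_lit 39) (nat_lit 5) (nat_lit 36) (nat_lit 5) (nat_lit 367) (nat_lit 292) (nat_lit 121)) (XT.lf (nat_lit 0) (nat_lit 15542086626) (nat_lit 304) (nat_lit 18204178134) (nat_lit 76) (nat_lit 10695239461) (nat_lit 35) (nat_lit 5) (nat_lit 39) (nat_lit 5) (nat_lit 36) (nat_lit 5) (nat_lit 368) (nat_lit 292) (nat_lit 120)))) (XT.nd (nat_lit 78) (nat_lit 152) (nat_lit 0) (XT.lf (nat_lit 0) (nat_lit 21972444596) (nat_lit 304) (nat_lit 2629391230) (nat_lit 76) (nat_lit 20865007841) (nat_lit 35) (nat_lit 5) (nat_lit 39) (nat_lit 5) (nat_lit 36) (nat_lit 5) (nat_lit 369) (nat_lit 292) (nat_lit 119)) (XT.nd (nat_lit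 78) (nat_lit 0) (nat_lit 0) (XT.lf (nat_lit 0) (nat_lit 13673844732) (nat_lit 152) (nat_lit 15049778031) (nat_lit 228) (nat_lit 17795486738) (nat_lit 33) (nat_lit 5) (nat_lit 35) (nat_lit 5) (nat_lit 36) (nat_lit 5) (nat_lit 370) (nat_lit 292) (nat_lit 118)) (XT.lf (nat_lit 0) (nat_lit 30514512308) (nat_lit 152) (nat_lit 5185893134) (nat_lit 228) (nat_lit 11901849180) (nat_lit 33) (nat_lit 5) (nat_lit 35) (nat_lit 5) (nat_lit 36) (nat_lit 5) (nat_lit 371) (nat_lit 292) (nat_lit 117))))) (XT.nd (nat_lit 234) (nat_lit 152) (nat_lit 0) (XT.nd (nat_lit 78) (nat_lit 228) (nat_lit 0) (XT.lf (nat_lit 0) (nat_lit 42930903315) (nat_lit 228) (nat_lit 910795026) (nat_lit 76) (nat_lit 4874866692) (nat_lit 33) (nat_lit 5) (nat_lit 36) (nat_lit 5) (nat_lit 34) (nat_lit 5) (nat_lit 372) (nat_lit 292) (nat_lit 116)) (XT.nd (nat_lit 78) (nat_lit 0) (nat_lit 0) (XT.lf (nat_lit 0) (nat_lit 707891619) (nat_lit 228)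 (nat_lit 33858047128) (nat_lit 76) (nat_lit 15292103565) (nat_lit 30) (nat_lit 5) (nat_lit 33) (nat_lit 5) (nat_lit 31) (nat_lit 5) (nat_lit 373) (nat_lit 292) (nat_lit 115)) (XT.lf (nat_lit 0) (nat_lit 7285962462) (nat_lit 228) (nat_lit 17659428326) (nat_lit 76) (nat_lit 26086477707) (nat_lit 30) (nat_lit 5) (nat_lit 33) (nat_lit 5) (nat_lit 31) (nat_lit 5) (nat_lit 374) (nat_lit 292) (nat_lit 114)))) (XT.nd (nat_lit 78) (nat_lit 152) (nat_lit 0) (XT.lf (nat_lit 0) (nat_lit 14058179966) (nat_lit 228) (nat_lit 980040280) (nat_lit 76) (nat_lit 37202788003) (nat_lit 30) (nat_lit 5) (nat_lit 33) (nat_lit 5) (nat_lit 31) (nat_lit 5) (nat_lit 375) (nat_lit 292) (nat_lit 113)) (XT.nd (nat_lit 78) (nat_lit 0) (nat_lit 0) (XT.lf (nat_lit 0) (nat_lit 16516997343) (nat_lit 152) (nat_lit 4672235741) (nat_lit 228) (nat_lit 32292521874) (nat_lit 28) (nat_lit 5) (nat_lit 30) (nat_lit 5) (nat_lit 31) (nat_lit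 5) (nat_lit 376) (nat_lit 292) (nat_lit 112)) (XT.lf (nat_lit 0) (nat_lit 28598854862) (nat_lit 228) (nat_lit 20263275115) (nat_lit 76) (nat_lit 5895657735) (nat_lit 28) (nat_lit 5) (nat_lit 31) (nat_lit 5) (nat_lit 29) (nat_lit 5) (nat_lit 377) (nat_lit 292) (nat_lit 111))))))) (XT.nd (nat_lit 34086) (nat_lit 0) (nat_lit 11628) (XT.nd (nat_lit 468) (nat_lit 152) (nat_lit 0) (XT.nd (nat_lit 234) (nat_lit 228) (nat_lit 0) (XT.nd (nat_lit 78) (nat_lit 152) (nat_lit 0) (XT.lf (nat_lit 0) (nat_lit 36274036191) (nat_lit 228) (nat_lit 3111925173) (nat_lit 76) (nat_lit 16684844630) (nat_lit 28) (nat_lit 5) (nat_lit 31) (nat_lit 5) (nat_lit 29) (nat_lit 5) (nat_lit 378) (nat_lit 292) (nat_lit 110)) (XT.nd (nat_lit 78) (nat_lit 0) (nat_lit 0) (XT.lf (nat_lit 0) (nat_lit 14838748647) (nat_lit 152) (nat_lit 29480461634) (nat_lit 228) (nat_lit 13099815019) (nat_lit 26) (nat_lit 5) (nat_lit 28) (nat_lit 5)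 (nat_lit 29) (nat_lit 5) (nat_lit 379) (nat_lit 292) (nat_lit 109)) (XT.lf (nat_lit 0) (nat_lit 33387006849) (nat_lit 152) (nat_lit 19247294357) (nat_lit 228) (nat_lit 6172535651) (nat_lit 26) (nat_lit 5) (nat_lit 28) (nat_lit 5) (nat_lit 29) (nat_lit 5) (nat_lit 380) (nat_lit 292) (nat_lit 108)))) (XT.nd (nat_lit 78) (nat_lit 152) (nat_lit 0) (XT.lf (nat_lit 0) (nat_lit 940969777) (nat_lit 228) (nat_lit 7758470547) (nat_lit 76) (nat_lit 51536651507) (nat_lit 25) (nat_lit 5) (nat_lit 28) (nat_lit 5) (nat_lit 26) (nat_lit 5) (nat_lit 381) (nat_lit 292) (nat_lit 107)) (XT.nd (nat_lit 78) (nat_lit 0) (nat_lit 0) (XT.lf (nat_lit 0) (nat_lit 8265133444) (nat_lit 228) (nat_lit 51152401431) (nat_lit 76) (nat_lit 2285219013) (nat_lit 23) (nat_lit 5) (nat_lit 26) (nat_lit 5) (nat_lit 24) (nat_lit 5) (nat_lit 382) (nat_lit 292) (nat_lit 106)) (XT.lf (nat_lit 0) (nat_lit 15971568090) (nat_lit 228) (nat_lit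 33735027138) (nat_lit 76) (nat_lit 13501946434) (nat_lit 23) (nat_lit 5) (nat_lit 26) (nat_lit 5) (nat_lit 24) (nat_lit 5) (nat_lit 383) (nat_lit 292) (nat_lit 105))))) (XT.nd (nat_lit 234) (nat_lit 0) (nat_lit 0) (XT.nd (nat_lit 78) (nat_lit 152) (nat_lit 0) (XT.lf (nat_lit 0) (nat_lit 23906566612) (nat_lit 228) (nat_lit 15799533671) (nat_lit 76) (nat_lit 25053483835) (nat_lit 23) (nat_lit 5) (nat_lit 26) (nat_lit 5) (nat_lit 24) (nat_lit 5) (nat_lit 384) (nat_lit 292) (nat_lit 104)) (XT.nd (nat_lit 78) (nat_lit 0) (nat_lit 0) (XT.lf (nat_lit 0) (nat_lit 2722884035) (nat_lit 152) (nat_lit 29380352494) (nat_lit 228) (nat_lit 34253214786) (nat_lit 21) (nat_lit 5) (nat_lit 23) (nat_lit 5) (nat_lit 24) (nat_lit 5) (nat_lit 385) (nat_lit 292) (nat_lit 103)) (XT.lf (nat_lit 0) (nat_lit 22120617285) (nat_lit 152) (nat_lit 18582214650) (nat_lit 228) (nat_lit 27293683879) (nat_lit 21) (nat_lit 5) (nat_lit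 23) (nat_lit 5) (nat_lit 24) (nat_lit 5) (nat_lit 386) (nat_lit 292) (nat_lit 102)))) (XT.nd (nat_lit 78) (nat_lit 0) (nat_lit 0) (XT.lf (nat_lit 0) (nat_lit 42096173855) (nat_lit 152) (nat_lit 7461795797) (nat_lit 228) (nat_lit 20127887954) (nat_lit 21) (nat_lit 5) (nat_lit 23) (nat_lit 5) (nat_lit 24) (nat_lit 5) (nat_lit 387) (nat_lit 292) (nat_lit 101)) (XT.nd (nat_lit 33228) (nat_lit 0) (nat_lit 12692) (XT.lf (nat_lit 0) (nat_lit 58714747467) (nat_lit 228) (nat_lit 8797304989) (nat_lit 76) (nat_lit 3912749547) (nat_lit 21) (nat_lit 5) (nat_lit 24) (nat_lit 5) (nat_lit 22) (nat_lit 4) (nat_lit 388) (nat_lit 292) (nat_lit 100)) (XT.lf (nat_lit 0) (nat_lit 2617027961) (nat_lit 0) (nat_lit 2617027961) (nat_lit 988) (nat_lit 393404051) (nat_lit 188) (nat_lit 5) (nat_lit 188) (nat_lit 3) (nat_lit 201) (nat_lit 3) (nat_lit 293) (nat_lit 293) (nat_lit 194)))))) (XT.nd (nat_lit 468) (nat_lit 0) (nat_lit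 152) (XT.nd (nat_lit 234) (nat_lit 0) (nat_lit 76) (XT.nd (nat_lit 78) (nat_lit 1064) (nat_lit 0) (XT.lf (nat_lit 0) (nat_lit 10237627989) (nat_lit 0) (nat_lit 885722277) (nat_lit 988) (nat_lit 284407739) (nat_lit 188) (nat_lit 5) (nat_lit 188) (nat_lit 3) (nat_lit 201) (nat_lit 3) (nat_lit 294) (nat_lit 293) (nat_lit 193)) (XT.nd (nat_lit 78) (nat_lit 0) (nat_lit 0) (XT.lf (nat_lit 0) (nat_lit 281252574) (nat_lit 1064) (nat_lit 7710011166) (nat_lit 1140) (nat_lit 3572307556) (nat_lit 174) (nat_lit 5) (nat_lit 188) (nat_lit 5) (nat_lit 189) (nat_lit 5) (nat_lit 295) (nat_lit 293) (nat_lit 192)) (XT.lf (nat_lit 0) (nat_lit 859757008) (nat_lit 1064) (nat_lit 2694215023) (nat_lit 1140) (nat_lit 8169992986) (nat_lit 174) (nat_lit 5) (nat_lit 188) (nat_lit 5) (nat_lit 189) (nat_lit 5) (nat_lit 296) (nat_lit 293) (nat_lit 191)))) (XT.nd (nat_lit 78) (nat_lit 0) (nat_lit 0) (XT.lf (nat_lit 0) (nat_lit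 1471282339) (nat_lit 1064) (nat_lit 9388524274) (nat_lit 1140) (nat_lit 1028931082) (nat_lit 175) (nat_lit 5) (nat_lit 189) (nat_lit 5) (nat_lit 190) (nat_lit 5) (nat_lit 297) (nat_lit 293) (nat_lit 190)) (XT.nd (nat_lit 78) (nat_lit 0) (nat_lit 0) (XT.lf (nat_lit 0) (nat_lit 2145777457) (nat_lit 1064) (nat_lit 4198385222) (nat_lit 1140) (nat_lit 5712988189) (nat_lit 175) (nat_lit 5) (nat_lit 189) (nat_lit 5) (nat_lit 190) (nat_lit 5) (nat_lit 298) (nat_lit 293) (nat_lit 189)) (XT.lf (nat_lit 76) (nat_lit 1159408318) (nat_lit 0) (nat_lit 1674730001) (nat_lit 1140) (nat_lit 9396704177) (nat_lit 176) (nat_lit 5) (nat_lit 175) (nat_lit 5) (nat_lit 190) (nat_lit 5) (nat_lit 299) (nat_lit 293) (nat_lit 188))))) (XT.nd (nat_lit 234) (nat_lit 0) (nat_lit 76) (XT.nd (nat_lit 78) (nat_lit 0) (nat_lit 0) (XT.lf (nat_lit 0) (nat_lit 3599056001) (nat_lit 1064) (nat_lit 5686207029) (nat_lit 1140) (nat_lit 3122838630)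 (nat_lit 176) (nat_lit 5) (nat_lit 190) (nat_lit 5) (nat_lit 191) (nat_lit 5) (nat_lit 300) (nat_lit 293) (nat_lit 187)) (XT.nd (nat_lit 78) (nat_lit 0) (nat_lit 76) (XT.lf (nat_lit 0) (nat_lit 4386956386) (nat_lit 1064) (nat_lit 166858174) (nat_lit 1140) (nat_lit 8036895962) (nat_lit 176) (nat_lit 5) (nat_lit 190) (nat_lit 5) (nat_lit 191) (nat_lit 5) (nat_lit 301) (nat_lit 293) (nat_lit 186)) (XT.lf (nat_lit 0) (nat_lit 5240084539) (nat_lit 1064) (nat_lit 7164207080) (nat_lit 1140) (nat_lit 373290325) (nat_lit 177) (nat_lit 5) (nat_lit 191) (nat_lit 5) (nat_lit 192) (nat_lit 5) (nat_lit 302) (nat_lit 293) (nat_lit 185)))) (XT.nd (nat_lit 78) (nat_lit 0) (nat_lit 0) (XT.lf (nat_lit 0) (nat_lit 6149949235) (nat_lit 1064) (nat_lit 1455664356) (nat_lit 1140) (nat_lit 5363542721) (nat_lit 177) (nat_lit 5) (nat_lit 191) (nat_lit 5) (nat_lit 192) (nat_lit 5) (nat_lit 303) (nat_lit 293) (nat_lit 184))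 (XT.nd (nat_lit 78) (nat_lit 0) (nat_lit 76) (XT.lf (nat_lit 76) (nat_lit 4501304550) (nat_lit 0) (nat_lit 2613884131) (nat_lit 1140) (nat_lit 6050477047) (nat_lit 178) (nat_lit 5) (nat_lit 177) (nat_lit 5) (nat_lit 192) (nat_lit 5) (nat_lit 304) (nat_lit 293) (nat_lit 183)) (XT.lf (nat_lit 0) (nat_lit 8133718656) (nat_lit 1064) (nat_lit 2736327764) (nat_lit 1140) (nat_lit 2497323305) (nat_lit 178) (nat_lit 5) (nat_lit 192) (nat_lit 5) (nat_lit 193) (nat_lit 5) (nat_lit 305) (nat_lit 293) (nat_lit 182))))))))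
noncomputable def xc192 : XT := (XT.nd (nat_lit 1794) (nat_lit 3800) (nat_lit 0) (XT.nd (nat_lit 858) (nat_lit 2964) (nat_lit 0) (XT.nd (nat_lit 390) (nat_lit 1672) (nat_lit 0) (XT.nd (nat_lit 156) (nat_lit 912) (nat_lit 0) (XT.nd (nat_lit 78) (nat_lit 0) (nat_lit 0) (XT.lf (nat_lit 76) (nat_lit 3399242555) (nat_lit 0) (nat_lit 5827740567) (nat_lit 1140) (nat_lit 4346844810) (nat_lit 179) (nat_lit 5) (nat_lit 178) (nat_lit 5) (nat_lit 193) (nat_lit 5) (nat_lit 306) (nat_lit 293) (nat_lit 181)) (XT.lf (nat_lit 76) (nat_lit 9764321947) (nat_lit 0) (nat_lit 602294446) (nat_lit 1140) (nat_lit 3419483984) (nat_lit 179) (nat_lit 5) (nat_lit 178) (nat_lit 5) (nat_lit 193) (nat_lit 5) (nat_lit 307) (nat_lit 293) (nat_lit 180))) (XT.nd (nat_lit 78) (nat_lit 988) (nat_lit 0) (XT.lf (nat_lit 76) (nat_lit 2303812886) (nat_lit 0) (nat_lit 9291099593) (nat_lit 1140) (nat_lit 2408221117) (nat_lit 180) (nat_lit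 5) (nat_lit 179) (nat_lit 5) (nat_lit 194) (nat_lit 5) (nat_lit 308) (nat_lit 293) (nat_lit 179)) (XT.nd (nat_lit 78) (nat_lit 988) (nat_lit 0) (XT.lf (nat_lit 76) (nat_lit 8884830370) (nat_lit 0) (nat_lit 4008418495) (nat_lit 1140) (nat_lit 1332459236) (nat_lit 180) (nat_lit 5) (nat_lit 179) (nat_lit 5) (nat_lit 194) (nat_lit 5) (nat_lit 309) (nat_lit 293) (nat_lit 178)) (XT.lf (nat_lit 0) (nat_lit 1207276177) (nat_lit 1064) (nat_lit 13035723743) (nat_lit 1140) (nat_lit 211611258) (nat_lit 166) (nat_lit 5) (nat_lit 180) (nat_lit 5) (nat_lit 181) (nat_lit 5) (nat_lit 310) (nat_lit 293) (nat_lit 177))))) (XT.nd (nat_lit 234) (nat_lit 532) (nat_lit 0) (XT.nd (nat_lit 78) (nat_lit 1064) (nat_lit 0) (XT.lf (nat_lit 0) (nat_lit 1005828139) (nat_lit 1140) (nat_lit 6687691035) (nat_lit 76) (nat_lit 6994173158) (nat_lit 165) (nat_lit 5) (nat_lit 180) (nat_lit 5) (nat_lit 166) (nat_lit 5) (nat_lit 311)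 (nat_lit 293) (nat_lit 176)) (XT.nd (nat_lit 78) (nat_lit 0) (nat_lit 0) (XT.lf (nat_lit 0) (nat_lit 57080887) (nat_lit 1064) (nat_lit 2186588776) (nat_lit 1140) (nat_lit 12684412570) (nat_lit 151) (nat_lit 5) (nat_lit 165) (nat_lit 5) (nat_lit 166) (nat_lit 5) (nat_lit 312) (nat_lit 293) (nat_lit 175)) (XT.lf (nat_lit 0) (nat_lit 3608211491) (nat_lit 1140) (nat_lit 8077522350) (nat_lit 76) (nat_lit 3487285494) (nat_lit 151) (nat_lit 5) (nat_lit 166) (nat_lit 5) (nat_lit 152) (nat_lit 5) (nat_lit 313) (nat_lit 293) (nat_lit 174)))) (XT.nd (nat_lit 78) (nat_lit 532) (nat_lit 0) (XT.lf (nat_lit 0) (nat_lit 5023551215) (nat_lit 1140) (nat_lit 1112546341) (nat_lit 76) (nat_lit 9288932947) (nat_lit 151) (nat_lit 5) (nat_lit 166) (nat_lit 5) (nat_lit 152) (nat_lit 5) (nat_lit 314) (nat_lit 293) (nat_lit 173)) (XT.nd (nat_lit 78) (nat_lit 0) (nat_lit 0) (XT.lf (nat_lit 0) (nat_lit 6171458802) (nat_lit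 532) (nat_lit 357771748) (nat_lit 608) (nat_lit 9153956242) (nat_lit 144) (nat_lit 5) (nat_lit 151) (nat_lit 5) (nat_lit 152) (nat_lit 5) (nat_lit 315) (nat_lit 293) (nat_lit 172)) (XT.lf (nat_lit 0) (nat_lit 8133997744) (nat_lit 608) (nat_lit 2316455971) (nat_lit 76) (nat_lit 5497037078) (nat_lit 144) (nat_lit 5) (nat_lit 152) (nat_lit 5) (nat_lit 145) (nat_lit 5) (nat_lit 316) (nat_lit 293) (nat_lit 171)))))) (XT.nd (nat_lit 468) (nat_lit 1292) (nat_lit 0) (XT.nd (nat_lit 234) (nat_lit 608) (nat_lit 0) (XT.nd (nat_lit 78) (nat_lit 532) (nat_lit 0) (XT.lf (nat_lit 0) (nat_lit 5181947271) (nat_lit 532) (nat_lit 4647440931) (nat_lit 608) (nat_lit 6389081259) (nat_lit 137) (nat_lit 5) (nat_lit 144) (nat_lit 5) (nat_lit 145) (nat_lit 5) (nat_lit 317) (nat_lit 293) (nat_lit 170)) (XT.nd (nat_lit 78) (nat_lit 532) (nat_lit 0) (XT.lf (nat_lit 0) (nat_lit 11601394083) (nat_lit 608) (nat_lit 3567646656)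 (nat_lit 76) (nat_lit 1327783509) (nat_lit 137) (nat_lit 5) (nat_lit 145) (nat_lit 5) (nat_lit 138) (nat_lit 5) (nat_lit 318) (nat_lit 293) (nat_lit 169)) (XT.lf (nat_lit 0) (nat_lit 4150024473) (nat_lit 532) (nat_lit 9352101650) (nat_lit 608) (nat_lit 3279155384) (nat_lit 130) (nat_lit 5) (nat_lit 137) (nat_lit 5) (nat_lit 138) (nat_lit 5) (nat_lit 319) (nat_lit 293) (nat_lit 168)))) (XT.nd (nat_lit 78) (nat_lit 608) (nat_lit 0) (XT.lf (nat_lit 0) (nat_lit 12162221044) (nat_lit 532) (nat_lit 3323548197) (nat_lit 608) (nat_lit 1587744828) (nat_lit 130) (nat_lit 5) (nat_lit 137) (nat_lit 5) (nat_lit 138) (nat_lit 5) (nat_lit 320) (nat_lit 293) (nat_lit 167)) (XT.nd (nat_lit 78) (nat_lit 0) (nat_lit 0) (XT.lf (nat_lit 0) (nat_lit 199180091) (nat_lit 608) (nat_lit 14312937359) (nat_lit 76) (nat_lit 2860935287) (nat_lit 122) (nat_lit 5) (nat_lit 130) (nat_lit 5) (nat_lit 123) (nat_lit 5) (nat_lit 321)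 (nat_lit 293) (nat_lit 166)) (XT.lf (nat_lit 0) (nat_lit 2081028223) (nat_lit 608) (nat_lit 6368131824) (nat_lit 76) (nat_lit 9229765795) (nat_lit 122) (nat_lit 5) (nat_lit 130) (nat_lit 5) (nat_lit 123) (nat_lit 5) (nat_lit 322) (nat_lit 293) (nat_lit 165))))) (XT.nd (nat_lit 234) (nat_lit 380) (nat_lit 0) (XT.nd (nat_lit 78) (nat_lit 456) (nat_lit 0) (XT.lf (nat_lit 0) (nat_lit 1840973828) (nat_lit 456) (nat_lit 2186574616) (nat_lit 532) (nat_lit 13966196417) (nat_lit 116) (nat_lit 5) (nat_lit 122) (nat_lit 5) (nat_lit 123) (nat_lit 5) (nat_lit 323) (nat_lit 293) (nat_lit 164)) (XT.nd (nat_lit 78) (nat_lit 456) (nat_lit 0) (XT.lf (nat_lit 0) (nat_lit 6129089530) (nat_lit 532) (nat_lit 7940969535) (nat_lit 76) (nat_lit 4245066380) (nat_lit 116) (nat_lit 5) (nat_lit 123) (nat_lit 5) (nat_lit 117) (nat_lit 5) (nat_lit 324) (nat_lit 293) (nat_lit 163)) (XT.lf (nat_lit 0) (nat_lit 495338942) (nat_lit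 456) (nat_lit 7815715474) (nat_lit 532) (nat_lit 10334586996) (nat_lit 110) (nat_lit 5) (nat_lit 116) (nat_lit 5) (nat_lit 117) (nat_lit 5) (nat_lit 325) (nat_lit 293) (nat_lit 162)))) (XT.nd (nat_lit 78) (nat_lit 380) (nat_lit 0) (XT.lf (nat_lit 0) (nat_lit 9337751809) (nat_lit 456) (nat_lit 1292050692) (nat_lit 532) (nat_lit 8354145474) (nat_lit 110) (nat_lit 5) (nat_lit 116) (nat_lit 5) (nat_lit 117) (nat_lit 5) (nat_lit 326) (nat_lit 293) (nat_lit 161)) (XT.nd (nat_lit 78) (nat_lit 380) (nat_lit 0) (XT.lf (nat_lit 0) (nat_lit 13061669566) (nat_lit 532) (nat_lit 948884074) (nat_lit 76) (nat_lit 5320557813) (nat_lit 110) (nat_lit 5) (nat_lit 117) (nat_lit 5) (nat_lit 111) (nat_lit 5) (nat_lit 327) (nat_lit 293) (nat_lit 160)) (XT.lf (nat_lit 0) (nat_lit 8146050832) (nat_lit 380) (nat_lit 7503175892) (nat_lit 456) (nat_lit 4036995084) (nat_lit 105) (nat_lit 5) (nat_lit 110) (nat_lit 5) (nat_lit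 111) (nat_lit 5) (nat_lit 328) (nat_lit 293) (nat_lit 159))))))) (XT.nd (nat_lit 936) (nat_lit 1748) (nat_lit 0) (XT.nd (nat_lit 468) (nat_lit 760) (nat_lit 0) (XT.nd (nat_lit 234) (nat_lit 760) (nat_lit 0) (XT.nd (nat_lit 78) (nat_lit 532) (nat_lit 0) (XT.lf (nat_lit 0) (nat_lit 17523914992) (nat_lit 380) (nat_lit 791867672) (nat_lit 456) (nat_lit 1736175233) (nat_lit 105) (nat_lit 5) (nat_lit 110) (nat_lit 5) (nat_lit 111) (nat_lit 5) (nat_lit 329) (nat_lit 293) (nat_lit 158)) (XT.nd (nat_lit 78) (nat_lit 0) (nat_lit 0) (XT.lf (nat_lit 0) (nat_lit 738850529) (nat_lit 532) (nat_lit 13613086959) (nat_lit 76) (nat_lit 6073032256) (nat_lit 98) (nat_lit 5) (nat_lit 105) (nat_lit 5) (nat_lit 99) (nat_lit 5) (nat_lit 330) (nat_lit 293) (nat_lit 157)) (XT.lf (nat_lit 0) (nat_lit 3278924882) (nat_lit 532) (nat_lit 4359277555) (nat_lit 76) (nat_lit 13169695451) (nat_lit 98) (nat_lit 5) (nat_lit 105) (nat_lit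 5) (nat_lit 99) (nat_lit 5) (nat_lit 331) (nat_lit 293) (nat_lit 156)))) (XT.nd (nat_lit 78) (nat_lit 380) (nat_lit 0) (XT.lf (nat_lit 0) (nat_lit 5265757084) (nat_lit 380) (nat_lit 672364890) (nat_lit 456) (nat_lit 15262916358) (nat_lit 93) (nat_lit 5) (nat_lit 98) (nat_lit 5) (nat_lit 99) (nat_lit 5) (nat_lit 332) (nat_lit 293) (nat_lit 155)) (XT.nd (nat_lit 78) (nat_lit 380) (nat_lit 0) (XT.lf (nat_lit 0) (nat_lit 8776482124) (nat_lit 456) (nat_lit 6407967519) (nat_lit 76) (nat_lit 6418553453) (nat_lit 93) (nat_lit 5) (nat_lit 99) (nat_lit 5) (nat_lit 94) (nat_lit 5) (nat_lit 333) (nat_lit 293) (nat_lit 154)) (XT.lf (nat_lit 0) (nat_lit 3456959020) (nat_lit 380) (nat_lit 8275567792) (nat_lit 456) (nat_lit 10283535356) (nat_lit 88) (nat_lit 5) (nat_lit 93) (nat_lit 5) (nat_lit 94) (nat_lit 5) (nat_lit 334) (nat_lit 293) (nat_lit 153))))) (XT.nd (nat_lit 234) (nat_lit 456) (nat_lit 0) (XT.nd (nat_lit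 78) (nat_lit 304) (nat_lit 0) (XT.lf (nat_lit 0) (nat_lit 13740271470) (nat_lit 380) (nat_lit 1094463984) (nat_lit 456) (nat_lit 7605064128) (nat_lit 88) (nat_lit 5) (nat_lit 93) (nat_lit 5) (nat_lit 94) (nat_lit 5) (nat_lit 335) (nat_lit 293) (nat_lit 152)) (XT.nd (nat_lit 78) (nat_lit 0) (nat_lit 0) (XT.lf (nat_lit 0) (nat_lit 1413982149) (nat_lit 304) (nat_lit 16683168991) (nat_lit 380) (nat_lit 4777094480) (nat_lit 84) (nat_lit 5) (nat_lit 88) (nat_lit 5) (nat_lit 89) (nat_lit 5) (nat_lit 336) (nat_lit 293) (nat_lit 151)) (XT.lf (nat_lit 0) (nat_lit 11989399954) (nat_lit 304) (nat_lit 9559707301) (nat_lit 380) (nat_lit 1769878157) (nat_lit 84) (nat_lit 5) (nat_lit 88) (nat_lit 5) (nat_lit 89) (nat_lit 5) (nat_lit 337) (nat_lit 293) (nat_lit 150)))) (XT.nd (nat_lit 78) (nat_lit 380) (nat_lit 0) (XT.lf (nat_lit 0) (nat_lit 1294863958) (nat_lit 380) (nat_lit 916415192) (nat_lit 76) (nat_lit 21565618786)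 (nat_lit 83) (nat_lit 5) (nat_lit 88) (nat_lit 5) (nat_lit 84) (nat_lit 5) (nat_lit 338) (nat_lit 293) (nat_lit 149)) (XT.nd (nat_lit 78) (nat_lit 0) (nat_lit 0) (XT.lf (nat_lit 0) (nat_lit 4557907820) (nat_lit 456) (nat_lit 14320040648) (nat_lit 76) (nat_lit 5365825221) (nat_lit 78) (nat_lit 5) (nat_lit 84) (nat_lit 5) (nat_lit 79) (nat_lit 5) (nat_lit 339) (nat_lit 293) (nat_lit 148)) (XT.lf (nat_lit 0) (nat_lit 7943588721) (nat_lit 456) (nat_lit 3647009819) (nat_lit 76) (nat_lit 13133324056) (nat_lit 78) (nat_lit 5) (nat_lit 84) (nat_lit 5) (nat_lit 79) (nat_lit 5) (nat_lit 340) (nat_lit 293) (nat_lit 147)))))) (XT.nd (nat_lit 468) (nat_lit 760) (nat_lit 0) (XT.nd (nat_lit 234) (nat_lit 380) (nat_lit 0) (XT.nd (nat_lit 78) (nat_lit 304) (nat_lit 0) (XT.lf (nat_lit 0) (nat_lit 7483981881) (nat_lit 304) (nat_lit 4012494167) (nat_lit 380) (nat_lit 13720039823) (nat_lit 74) (nat_lit 5) (nat_lit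 78) (nat_lit 5) (nat_lit 79) (nat_lit 5) (nat_lit 341) (nat_lit 293) (nat_lit 146)) (XT.nd (nat_lit 78) (nat_lit 304) (nat_lit 0) (XT.lf (nat_lit 0) (nat_lit 15223383650) (nat_lit 380) (nat_lit 6744307494) (nat_lit 76) (nat_lit 3754181512) (nat_lit 74) (nat_lit 5) (nat_lit 79) (nat_lit 5) (nat_lit 75) (nat_lit 5) (nat_lit 342) (nat_lit 293) (nat_lit 145)) (XT.lf (nat_lit 0) (nat_lit 4615788383) (nat_lit 304) (nat_lit 14524369861) (nat_lit 380) (nat_lit 7099898574) (nat_lit 70) (nat_lit 5) (nat_lit 74) (nat_lit 5) (nat_lit 75) (nat_lit 5) (nat_lit 343) (nat_lit 293) (nat_lit 144)))) (XT.nd (nat_lit 78) (nat_lit 380) (nat_lit 0) (XT.lf (nat_lit 0) (nat_lit 16446898035) (nat_lit 304) (nat_lit 6789703203) (nat_lit 380) (nat_lit 3535328532) (nat_lit 70) (nat_lit 5) (nat_lit 74) (nat_lit 5) (nat_lit 75) (nat_lit 5) (nat_lit 344) (nat_lit 293) (nat_lit 143)) (XT.nd (nat_lit 78) (nat_lit 0) (nat_lit 0)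 (XT.lf (nat_lit 0) (nat_lit 151907405) (nat_lit 380) (nat_lit 26001058584) (nat_lit 76) (nat_lit 1166209816) (nat_lit 65) (nat_lit 5) (nat_lit 70) (nat_lit 5) (nat_lit 66) (nat_lit 5) (nat_lit 345) (nat_lit 293) (nat_lit 142)) (XT.lf (nat_lit 0) (nat_lit 4045466442) (nat_lit 380) (nat_lit 14468769935) (nat_lit 76) (nat_lit 9362557389) (nat_lit 65) (nat_lit 5) (nat_lit 70) (nat_lit 5) (nat_lit 66) (nat_lit 5) (nat_lit 346) (nat_lit 293) (nat_lit 141))))) (XT.nd (nat_lit 234) (nat_lit 456) (nat_lit 0) (XT.nd (nat_lit 78) (nat_lit 304) (nat_lit 0) (XT.lf (nat_lit 0) (nat_lit 8050242891) (nat_lit 380) (nat_lit 2598291197) (nat_lit 76) (nat_lit 17802781161) (nat_lit 65) (nat_lit 5) (nat_lit 70) (nat_lit 5) (nat_lit 66) (nat_lit 5) (nat_lit 347) (nat_lit 293) (nat_lit 140)) (XT.nd (nat_lit 78) (nat_lit 0) (nat_lit 0) (XT.lf (nat_lit 0) (nat_lit 9812221678) (nat_lit 304) (nat_lit 2451835473) (nat_lit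 380) (nat_lit 16776355483) (nat_lit 61) (nat_lit 5) (nat_lit 65) (nat_lit 5) (nat_lit 66) (nat_lit 5) (nat_lit 348) (nat_lit 293) (nat_lit 139)) (XT.lf (nat_lit 0) (nat_lit 16683009216) (nat_lit 380) (nat_lit 7063554636) (nat_lit 76) (nat_lit 5898264270) (nat_lit 61) (nat_lit 5) (nat_lit 66) (nat_lit 5) (nat_lit 62) (nat_lit 5) (nat_lit 349) (nat_lit 293) (nat_lit 138)))) (XT.nd (nat_lit 78) (nat_lit 228) (nat_lit 0) (XT.lf (nat_lit 0) (nat_lit 5542496805) (nat_lit 228) (nat_lit 15764381713) (nat_lit 304) (nat_lit 8958333780) (nat_lit 58) (nat_lit 5) (nat_lit 61) (nat_lit 5) (nat_lit 62) (nat_lit 5) (nat_lit 350) (nat_lit 293) (nat_lit 137)) (XT.nd (nat_lit 78) (nat_lit 228) (nat_lit 0) (XT.lf (nat_lit 0) (nat_lit 18664195861) (nat_lit 228) (nat_lit 7471472434) (nat_lit 304) (nat_lit 4766560061) (nat_lit 58) (nat_lit 5) (nat_lit 61) (nat_lit 5) (nat_lit 62) (nat_lit 5) (nat_lit 351) (nat_lit 293)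 (nat_lit 136)) (XT.lf (nat_lit 0) (nat_lit 615665876) (nat_lit 228) (nat_lit 30504866683) (nat_lit 304) (nat_lit 437492314) (nat_lit 55) (nat_lit 5) (nat_lit 58) (nat_lit 5) (nat_lit 59) (nat_lit 5) (nat_lit 352) (nat_lit 293) (nat_lit 135))))))))
noncomputable def xc193 : XT := (XT.nd (nat_lit 1794) (nat_lit 684) (nat_lit 0) (XT.nd (nat_lit 858) (nat_lit 836) (nat_lit 0) (XT.nd (nat_lit 390) (nat_lit 532) (nat_lit 0) (XT.nd (nat_lit 156) (nat_lit 456) (nat_lit 0) (XT.nd (nat_lit 78) (nat_lit 0) (nat_lit 0) (XT.lf (nat_lit 0) (nat_lit 4136779969) (nat_lit 304) (nat_lit 18245085315) (nat_lit 76) (nat_lit 9844662079) (nat_lit 54) (nat_lit 5) (nat_lit 58) (nat_lit 5) (nat_lit 55) (nat_lit 5) (nat_lit 353) (nat_lit 293) (nat_lit 134)) (XT.lf (nat_lit 0) (nat_lit 8834658866) (nat_lit 304) (nat_lit 5178297989) (nat_lit 76) (nat_lit 18902148740) (nat_lit 54) (nat_lit 5) (nat_lit 58) (nat_lit 5) (nat_lit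 55) (nat_lit 5) (nat_lit 354) (nat_lit 293) (nat_lit 133))) (XT.nd (nat_lit 78) (nat_lit 228) (nat_lit 0) (XT.lf (nat_lit 0) (nat_lit 8438287384) (nat_lit 228) (nat_lit 5311612967) (nat_lit 304) (nat_lit 19872153634) (nat_lit 51) (nat_lit 5) (nat_lit 54) (nat_lit 5) (nat_lit 55) (nat_lit 5) (nat_lit 355) (nat_lit 293) (nat_lit 132)) (XT.nd (nat_lit 78) (nat_lit 228) (nat_lit 0) (XT.lf (nat_lit 0) (nat_lit 18895863344) (nat_lit 304) (nat_lit 11821655507) (nat_lit 76) (nat_lit 3630199482) (nat_lit 51) (nat_lit 5) (nat_lit 55) (nat_lit 5) (nat_lit 52) (nat_lit 5) (nat_lit 356) (nat_lit 293) (nat_lit 131)) (XT.lf (nat_lit 0) (nat_lit 1919463388) (nat_lit 228) (nat_lit 22343280627) (nat_lit 304) (nat_lit 10830417711) (nat_lit 48) (nat_lit 5) (nat_lit 51) (nat_lit 5) (nat_lit 52) (nat_lit 5) (nat_lit 357) (nat_lit 293) (nat_lit 130))))) (XT.nd (nat_lit 234) (nat_lit 228) (nat_lit 0) (XT.nd (nat_lit 78)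 (nat_lit 304) (nat_lit 0) (XT.lf (nat_lit 0) (nat_lit 16308493144) (nat_lit 228) (nat_lit 13597078176) (nat_lit 304) (nat_lit 5951954014) (nat_lit 48) (nat_lit 5) (nat_lit 51) (nat_lit 5) (nat_lit 52) (nat_lit 5) (nat_lit 358) (nat_lit 293) (nat_lit 129)) (XT.nd (nat_lit 78) (nat_lit 304) (nat_lit 0) (XT.lf (nat_lit 0) (nat_lit 31122732574) (nat_lit 228) (nat_lit 4590644729) (nat_lit 304) (nat_lit 931576707) (nat_lit 48) (nat_lit 5) (nat_lit 51) (nat_lit 5) (nat_lit 52) (nat_lit 5) (nat_lit 359) (nat_lit 293) (nat_lit 128)) (XT.lf (nat_lit 0) (nat_lit 4285790120) (nat_lit 304) (nat_lit 28443617350) (nat_lit 76) (nat_lit 4721507076) (nat_lit 44) (nat_lit 5) (nat_lit 48) (nat_lit 5) (nat_lit 45) (nat_lit 5) (nat_lit 360) (nat_lit 293) (nat_lit 127)))) (XT.nd (nat_lit 78) (nat_lit 228) (nat_lit 0) (XT.lf (nat_lit 0) (nat_lit 9738537020) (nat_lit 304) (nat_lit 14255115473) (nat_lit 76) (nat_lit 14284201766)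 (nat_lit 44) (nat_lit 5) (nat_lit 48) (nat_lit 5) (nat_lit 45) (nat_lit 5) (nat_lit 361) (nat_lit 293) (nat_lit 126)) (XT.nd (nat_lit 78) (nat_lit 0) (nat_lit 0) (XT.lf (nat_lit 0) (nat_lit 359841493) (nat_lit 228) (nat_lit 14994420923) (nat_lit 304) (nat_lit 23775362283) (nat_lit 41) (nat_lit 5) (nat_lit 44) (nat_lit 5) (nat_lit 45) (nat_lit 5) (nat_lit 362) (nat_lit 293) (nat_lit 125)) (XT.lf (nat_lit 0) (nat_lit 15699302289) (nat_lit 228) (nat_lit 5579102190) (nat_lit 304) (nat_lit 18724349717) (nat_lit 41) (nat_lit 5) (nat_lit 44) (nat_lit 5) (nat_lit 45) (nat_lit 5) (nat_lit 363) (nat_lit 293) (nat_lit 124)))))) (XT.nd (nat_lit 468) (nat_lit 380) (nat_lit 0) (XT.nd (nat_lit 234) (nat_lit 304) (nat_lit 0) (XT.nd (nat_lit 78) (nat_lit 152) (nat_lit 0) (XT.lf (nat_lit 0) (nat_lit 27415954714) (nat_lit 304) (nat_lit 9448803885) (nat_lit 76) (nat_lit 4036252626) (nat_lit 41) (nat_lit 5) (nat_lit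 45) (nat_lit 5) (nat_lit 42) (nat_lit 5) (nat_lit 364) (nat_lit 293) (nat_lit 123)) (XT.nd (nat_lit 78) (nat_lit 0) (nat_lit 0) (XT.lf (nat_lit 0) (nat_lit 5905579225) (nat_lit 152) (nat_lit 27940265386) (nat_lit 228) (nat_lit 7977129003) (nat_lit 39) (nat_lit 5) (nat_lit 41) (nat_lit 5) (nat_lit 42) (nat_lit 5) (nat_lit 365) (nat_lit 293) (nat_lit 122)) (XT.lf (nat_lit 0) (nat_lit 21908438098) (nat_lit 152) (nat_lit 18651868266) (nat_lit 228) (nat_lit 2209542180) (nat_lit 39) (nat_lit 5) (nat_lit 41) (nat_lit 5) (nat_lit 42) (nat_lit 5) (nat_lit 366) (nat_lit 293) (nat_lit 121)))) (XT.nd (nat_lit 78) (nat_lit 228) (nat_lit 0) (XT.lf (nat_lit 0) (nat_lit 3654595583) (nat_lit 228) (nat_lit 5395365725) (nat_lit 76) (nat_lit 34694206257) (nat_lit 38) (nat_lit 5) (nat_lit 41) (nat_lit 5) (nat_lit 39) (nat_lit 5) (nat_lit 367) (nat_lit 293) (nat_lit 120)) (XT.nd (nat_lit 78) (nat_lit 0) (nat_lit 0)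 (XT.lf (nat_lit 0) (nat_lit 9758988200) (nat_lit 304) (nat_lit 34037059977) (nat_lit 76) (nat_lit 947753062) (nat_lit 35) (nat_lit 5) (nat_lit 39) (nat_lit 5) (nat_lit 36) (nat_lit 5) (nat_lit 368) (nat_lit 293) (nat_lit 119)) (XT.lf (nat_lit 0) (nat_lit 16187606317) (nat_lit 304) (nat_lit 18465041797) (nat_lit 76) (nat_lit 11116546485) (nat_lit 35) (nat_lit 5) (nat_lit 39) (nat_lit 5) (nat_lit 36) (nat_lit 5) (nat_lit 369) (nat_lit 293) (nat_lit 118))))) (XT.nd (nat_lit 234) (nat_lit 228) (nat_lit 0) (XT.nd (nat_lit 78) (nat_lit 152) (nat_lit 0) (XT.lf (nat_lit 0) (nat_lit 22805653946) (nat_lit 304) (nat_lit 2431319878) (nat_lit 76) (nat_lit 21588482193) (nat_lit 35) (nat_lit 5) (nat_lit 39) (nat_lit 5) (nat_lit 36) (nat_lit 5) (nat_lit 370) (nat_lit 293) (nat_lit 117)) (XT.nd (nat_lit 78) (nat_lit 0) (nat_lit 0) (XT.lf (nat_lit 0) (nat_lit 14358297936) (nat_lit 152) (nat_lit 15398636654) (nat_lit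 228) (nat_lit 18152433229) (nat_lit 33) (nat_lit 5) (nat_lit 35) (nat_lit 5) (nat_lit 36) (nat_lit 5) (nat_lit 371) (nat_lit 293) (nat_lit 116)) (XT.lf (nat_lit 0) (nat_lit 31696198029) (nat_lit 152) (nat_lit 5241824571) (nat_lit 228) (nat_lit 12087139499) (nat_lit 33) (nat_lit 5) (nat_lit 35) (nat_lit 5) (nat_lit 36) (nat_lit 5) (nat_lit 372) (nat_lit 293) (nat_lit 115)))) (XT.nd (nat_lit 78) (nat_lit 228) (nat_lit 0) (XT.lf (nat_lit 0) (nat_lit 44381512790) (nat_lit 228) (nat_lit 675543476) (nat_lit 76) (nat_lit 5115967952) (nat_lit 33) (nat_lit 5) (nat_lit 36) (nat_lit 5) (nat_lit 34) (nat_lit 5) (nat_lit 373) (nat_lit 293) (nat_lit 114)) (XT.nd (nat_lit 78) (nat_lit 0) (nat_lit 0) (XT.lf (nat_lit 0) (nat_lit 891309991) (nat_lit 228) (nat_lit 34610411414) (nat_lit 76) (nat_lit 15847048463) (nat_lit 30) (nat_lit 5) (nat_lit 33) (nat_lit 5) (nat_lit 31) (nat_lit 5) (nat_lit 374) (nat_lit 293)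 (nat_lit 113)) (XT.lf (nat_lit 0) (nat_lit 7661999223) (nat_lit 228) (nat_lit 17933505226) (nat_lit 76) (nat_lit 26962452418) (nat_lit 30) (nat_lit 5) (nat_lit 33) (nat_lit 5) (nat_lit 31) (nat_lit 5) (nat_lit 375) (nat_lit 293) (nat_lit 112))))))) (XT.nd (nat_lit 936) (nat_lit 0) (nat_lit 0) (XT.nd (nat_lit 468) (nat_lit 380) (nat_lit 0) (XT.nd (nat_lit 234) (nat_lit 152) (nat_lit 0) (XT.nd (nat_lit 78) (nat_lit 152) (nat_lit 0) (XT.lf (nat_lit 0) (nat_lit 14632797100) (nat_lit 228) (nat_lit 761183284) (nat_lit 76) (nat_lit 38409532206) (nat_lit 30) (nat_lit 5) (nat_lit 33) (nat_lit 5) (nat_lit 31) (nat_lit 5) (nat_lit 376) (nat_lit 293) (nat_lit 111)) (XT.nd (nat_lit 78) (nat_lit 0) (nat_lit 0) (XT.lf (nat_lit 0) (nat_lit 17258331563) (nat_lit 152) (nat_lit 4717360688) (nat_lit 228) (nat_lit 33105856208) (nat_lit 28) (nat_lit 5) (nat_lit 30) (nat_lit 5) (nat_lit 31) (nat_lit 5) (nat_lit 377)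 (nat_lit 293) (nat_lit 110)) (XT.lf (nat_lit 0) (nat_lit 29604097962) (nat_lit 228) (nat_lit 20628872548) (nat_lit 76) (nat_lit 6163000779) (nat_lit 28) (nat_lit 5) (nat_lit 31) (nat_lit 5) (nat_lit 29) (nat_lit 5) (nat_lit 378) (nat_lit 293) (nat_lit 109)))) (XT.nd (nat_lit 78) (nat_lit 152) (nat_lit 0) (XT.lf (nat_lit 0) (nat_lit 37505245095) (nat_lit 228) (nat_lit 2970039413) (nat_lit 76) (nat_lit 17273228137) (nat_lit 28) (nat_lit 5) (nat_lit 31) (nat_lit 5) (nat_lit 29) (nat_lit 5) (nat_lit 379) (nat_lit 293) (nat_lit 108)) (XT.nd (nat_lit 78) (nat_lit 0) (nat_lit 0) (XT.lf (nat_lit 0) (nat_lit 15516848312) (nat_lit 152) (nat_lit 30273000537) (nat_lit 228) (nat_lit 13347391173) (nat_lit 26) (nat_lit 5) (nat_lit 28) (nat_lit 5) (nat_lit 29) (nat_lit 5) (nat_lit 380) (nat_lit 293) (nat_lit 107)) (XT.lf (nat_lit 0) (nat_lit 34614769681) (nat_lit 152) (nat_lit 19735514211) (nat_lit 228) (nat_lit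 6216528908) (nat_lit 26) (nat_lit 5) (nat_lit 28) (nat_lit 5) (nat_lit 29) (nat_lit 5) (nat_lit 381) (nat_lit 293) (nat_lit 106))))) (XT.nd (nat_lit 234) (nat_lit 152) (nat_lit 0) (XT.nd (nat_lit 78) (nat_lit 152) (nat_lit 0) (XT.lf (nat_lit 0) (nat_lit 1103594820) (nat_lit 228) (nat_lit 7768870630) (nat_lit 76) (nat_lit 53166563625) (nat_lit 25) (nat_lit 5) (nat_lit 28) (nat_lit 5) (nat_lit 26) (nat_lit 5) (nat_lit 382) (nat_lit 293) (nat_lit 105)) (XT.nd (nat_lit 78) (nat_lit 0) (nat_lit 0) (XT.lf (nat_lit 0) (nat_lit 8646527235) (nat_lit 228) (nat_lit 52463552957) (nat_lit 76) (nat_lit 2439642797) (nat_lit 23) (nat_lit 5) (nat_lit 26) (nat_lit 5) (nat_lit 24) (nat_lit 5) (nat_lit 383) (nat_lit 293) (nat_lit 104)) (XT.lf (nat_lit 0) (nat_lit 16580268324) (nat_lit 228) (nat_lit 34530164829) (nat_lit 76) (nat_lit 13990371053) (nat_lit 23) (nat_lit 5) (nat_lit 26) (nat_lit 5) (nat_lit 24) (nat_lit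 5) (nat_lit 384) (nat_lit 293) (nat_lit 103)))) (XT.nd (nat_lit 78) (nat_lit 152) (nat_lit 0) (XT.lf (nat_lit 0) (nat_lit 24749543408) (nat_lit 228) (nat_lit 16062924415) (nat_lit 76) (nat_lit 25886026435) (nat_lit 23) (nat_lit 5) (nat_lit 26) (nat_lit 5) (nat_lit 24) (nat_lit 5) (nat_lit 385) (nat_lit 293) (nat_lit 102)) (XT.nd (nat_lit 78) (nat_lit 0) (nat_lit 0) (XT.lf (nat_lit 0) (nat_lit 3013101163) (nat_lit 152) (nat_lit 30177353295) (nat_lit 228) (nat_lit 35152865811) (nat_lit 21) (nat_lit 5) (nat_lit 23) (nat_lit 5) (nat_lit 24) (nat_lit 5) (nat_lit 386) (nat_lit 293) (nat_lit 101)) (XT.lf (nat_lit 0) (nat_lit 22986692703) (nat_lit 152) (nat_lit 19057729853) (nat_lit 228) (nat_lit 27988275543) (nat_lit 21) (nat_lit 5) (nat_lit 23) (nat_lit 5) (nat_lit 24) (nat_lit 5) (nat_lit 387) (nat_lit 293) (nat_lit 100)))))) (XT.nd (nat_lit 33696) (nat_lit 0) (nat_lit 11704) (XT.nd (nat_lit 33462)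 (nat_lit 0) (nat_lit 11628) (XT.nd (nat_lit 33306) (nat_lit 0) (nat_lit 11552) (XT.lf (nat_lit 0) (nat_lit 43555619167) (nat_lit 152) (nat_lit 7606085364) (nat_lit 228) (nat_lit 20611123765) (nat_lit 21) (nat_lit 5) (nat_lit 23) (nat_lit 5) (nat_lit 24) (nat_lit 5) (nat_lit 388) (nat_lit 293) (nat_lit 99)) (XT.nd (nat_lit 78) (nat_lit 0) (nat_lit 0) (XT.lf (nat_lit 0) (nat_lit 102023024) (nat_lit 1140) (nat_lit 2839199332) (nat_lit 1140) (nat_lit 2839199332) (nat_lit 173) (nat_lit 3) (nat_lit 188) (nat_lit 3) (nat_lit 188) (nat_lit 5) (nat_lit 294) (nat_lit 294) (nat_lit 192)) (XT.lf (nat_lit 0) (nat_lit 682333944) (nat_lit 1140) (nat_lit 702125667) (nat_lit 1140) (nat_lit 10334588550) (nat_lit 173) (nat_lit 3) (nat_lit 188) (nat_lit 3) (nat_lit 188) (nat_lit 5) (nat_lit 295) (nat_lit 294) (nat_lit 191)))) (XT.nd (nat_lit 78) (nat_lit 0) (nat_lit 0) (XT.lf (nat_lit 0) (nat_lit 1231437847) (nat_lit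 1064) (nat_lit 7411325443) (nat_lit 1140) (nat_lit 3237578893) (nat_lit 174) (nat_lit 5) (nat_lit 188) (nat_lit 5) (nat_lit 189) (nat_lit 5) (nat_lit 296) (nat_lit 294) (nat_lit 190)) (XT.nd (nat_lit 78) (nat_lit 0) (nat_lit 76) (XT.lf (nat_lit 0) (nat_lit 1799867870) (nat_lit 1064) (nat_lit 2260491904) (nat_lit 1140) (nat_lit 7986065699) (nat_lit 174) (nat_lit 5) (nat_lit 188) (nat_lit 5) (nat_lit 189) (nat_lit 5) (nat_lit 297) (nat_lit 294) (nat_lit 189)) (XT.lf (nat_lit 0) (nat_lit 2404323607) (nat_lit 1064) (nat_lit 9128439399) (nat_lit 1140) (nat_lit 684194056) (nat_lit 175) (nat_lit 5) (nat_lit 189) (nat_lit 5) (nat_lit 190) (nat_lit 5) (nat_lit 298) (nat_lit 294) (nat_lit 188))))) (XT.nd (nat_lit 234) (nat_lit 0) (nat_lit 76) (XT.nd (nat_lit 78) (nat_lit 0) (nat_lit 0) (XT.lf (nat_lit 0) (nat_lit 3073163206) (nat_lit 1064) (nat_lit 3798375028) (nat_lit 1140) (nat_lit 5519712827) (nat_lit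 175) (nat_lit 5) (nat_lit 189) (nat_lit 5) (nat_lit 190) (nat_lit 5) (nat_lit 299) (nat_lit 294) (nat_lit 187)) (XT.nd (nat_lit 78) (nat_lit 0) (nat_lit 76) (XT.lf (nat_lit 76) (nat_lit 1714995831) (nat_lit 0) (nat_lit 2047049078) (nat_lit 1140) (nat_lit 8808762641) (nat_lit 176) (nat_lit 5) (nat_lit 175) (nat_lit 5) (nat_lit 190) (nat_lit 5) (nat_lit 300) (nat_lit 294) (nat_lit 186)) (XT.lf (nat_lit 0) (nat_lit 4522354318) (nat_lit 1064) (nat_lit 5321976262) (nat_lit 1140) (nat_lit 2909929332) (nat_lit 176) (nat_lit 5) (nat_lit 190) (nat_lit 5) (nat_lit 191) (nat_lit 5) (nat_lit 301) (nat_lit 294) (nat_lit 185)))) (XT.nd (nat_lit 78) (nat_lit 0) (nat_lit 76) (XT.lf (nat_lit 76) (nat_lit 354289325) (nat_lit 0) (nat_lit 4959260657) (nat_lit 1140) (nat_lit 7629454639) (nat_lit 177) (nat_lit 5) (nat_lit 176) (nat_lit 5) (nat_lit 191) (nat_lit 5) (nat_lit 302) (nat_lit 294) (nat_lit 184)) (XT.nd (nat_lit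 78) (nat_lit 0) (nat_lit 0) (XT.lf (nat_lit 0) (nat_lit 6168260235) (nat_lit 1064) (nat_lit 6837755689) (nat_lit 1140) (nat_lit 130232566) (nat_lit 177) (nat_lit 5) (nat_lit 191) (nat_lit 5) (nat_lit 192) (nat_lit 5) (nat_lit 303) (nat_lit 294) (nat_lit 183)) (XT.lf (nat_lit 0) (nat_lit 7082965343) (nat_lit 1064) (nat_lit 973724964) (nat_lit 1140) (nat_lit 5277598063) (nat_lit 177) (nat_lit 5) (nat_lit 191) (nat_lit 5) (nat_lit 192) (nat_lit 5) (nat_lit 304) (nat_lit 294) (nat_lit 182))))))))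
noncomputable def xc194 : XT := (XT.nd (nat_lit 1794) (nat_lit 3952) (nat_lit 0) (XT.nd (nat_lit 858) (nat_lit 3116) (nat_lit 0) (XT.nd (nat_lit 390) (nat_lit 1976) (nat_lit 0) (XT.nd (nat_lit 156) (nat_lit 0) (nat_lit 76) (XT.nd (nat_lit 78) (nat_lit 0) (nat_lit 76) (XT.lf (nat_lit 76) (nat_lit 5156799977) (nat_lit 0) (nat_lit 2903563455) (nat_lit 1140) (nat_lit 5476876905) (nat_lit 178) (nat_lit 5) (nat_lit 177) (nat_lit 5) (nat_lit 192) (nat_lit 5) (nat_lit 305) (nat_lit 294) (nat_lit 181)) (XT.lf (nat_lit 0) (nat_lit 9086165462) (nat_lit 1064) (nat_lit 2288434645) (nat_lit 1140) (nat_lit 2371135914) (nat_lit 178) (nat_lit 5) (nat_lit 192) (nat_lit 5) (nat_lit 193) (nat_lit 5) (nat_lit 306) (nat_lit 294) (nat_lit 180))) (XT.nd (nat_lit 78) (nat_lit 0) (nat_lit 0) (XT.lf (nat_lit 76) (nat_lit 4026006872) (nat_lit 0) (nat_lit 6170631527) (nat_lit 1140) (nat_lit 3762258086) (nat_lit 179) (nat_lit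 5) (nat_lit 178) (nat_lit 5) (nat_lit 193) (nat_lit 5) (nat_lit 307) (nat_lit 294) (nat_lit 179)) (XT.nd (nat_lit 78) (nat_lit 0) (nat_lit 76) (XT.lf (nat_lit 76) (nat_lit 10566753586) (nat_lit 0) (nat_lit 783527108) (nat_lit 1140) (nat_lit 2827901447) (nat_lit 179) (nat_lit 5) (nat_lit 178) (nat_lit 5) (nat_lit 193) (nat_lit 5) (nat_lit 308) (nat_lit 294) (nat_lit 178)) (XT.lf (nat_lit 76) (nat_lit 2900277640) (nat_lit 0) (nat_lit 9699102280) (nat_lit 1140) (nat_lit 1802866292) (nat_lit 180) (nat_lit 5) (nat_lit 179) (nat_lit 5) (nat_lit 194) (nat_lit 5) (nat_lit 309) (nat_lit 294) (nat_lit 177))))) (XT.nd (nat_lit 234) (nat_lit 1064) (nat_lit 0) (XT.nd (nat_lit 78) (nat_lit 1064) (nat_lit 0) (XT.lf (nat_lit 76) (nat_lit 9663365929) (nat_lit 0) (nat_lit 4254175612) (nat_lit 1140) (nat_lit 714567519) (nat_lit 180) (nat_lit 5) (nat_lit 179) (nat_lit 5) (nat_lit 194) (nat_lit 5) (nat_lit 310) (nat_lit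 294) (nat_lit 176)) (XT.nd (nat_lit 78) (nat_lit 0) (nat_lit 0) (XT.lf (nat_lit 0) (nat_lit 416480611) (nat_lit 1140) (nat_lit 13100607694) (nat_lit 76) (nat_lit 1351144518) (nat_lit 165) (nat_lit 5) (nat_lit 180) (nat_lit 5) (nat_lit 166) (nat_lit 5) (nat_lit 311) (nat_lit 294) (nat_lit 175)) (XT.lf (nat_lit 0) (nat_lit 1647835052) (nat_lit 1140) (nat_lit 6362057499) (nat_lit 76) (nat_lit 7098935848) (nat_lit 165) (nat_lit 5) (nat_lit 180) (nat_lit 5) (nat_lit 166) (nat_lit 5) (nat_lit 312) (nat_lit 294) (nat_lit 174)))) (XT.nd (nat_lit 78) (nat_lit 0) (nat_lit 0) (XT.lf (nat_lit 0) (nat_lit 579898128) (nat_lit 1064) (nat_lit 2330102521) (nat_lit 1140) (nat_lit 12446846879) (nat_lit 151) (nat_lit 5) (nat_lit 165) (nat_lit 5) (nat_lit 166) (nat_lit 5) (nat_lit 313) (nat_lit 294) (nat_lit 173)) (XT.nd (nat_lit 78) (nat_lit 0) (nat_lit 0) (XT.lf (nat_lit 0) (nat_lit 4297304358) (nat_lit 1140) (nat_lit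 7794672328) (nat_lit 76) (nat_lit 3517733517) (nat_lit 151) (nat_lit 5) (nat_lit 166) (nat_lit 5) (nat_lit 152) (nat_lit 5) (nat_lit 314) (nat_lit 294) (nat_lit 172)) (XT.lf (nat_lit 0) (nat_lit 5738186414) (nat_lit 1140) (nat_lit 636043418) (nat_lit 76) (nat_lit 9495590701) (nat_lit 151) (nat_lit 5) (nat_lit 166) (nat_lit 5) (nat_lit 152) (nat_lit 5) (nat_lit 315) (nat_lit 294) (nat_lit 171)))))) (XT.nd (nat_lit 468) (nat_lit 1520) (nat_lit 0) (XT.nd (nat_lit 234) (nat_lit 532) (nat_lit 0) (XT.nd (nat_lit 78) (nat_lit 532) (nat_lit 0) (XT.lf (nat_lit 0) (nat_lit 6861483062) (nat_lit 532) (nat_lit 415981180) (nat_lit 608) (nat_lit 8858634804) (nat_lit 144) (nat_lit 5) (nat_lit 151) (nat_lit 5) (nat_lit 152) (nat_lit 5) (nat_lit 316) (nat_lit 294) (nat_lit 170)) (XT.nd (nat_lit 78) (nat_lit 532) (nat_lit 0) (XT.lf (nat_lit 0) (nat_lit 8913843313) (nat_lit 608) (nat_lit 1878260120) (nat_lit 76) (nat_lit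 5616754164) (nat_lit 144) (nat_lit 5) (nat_lit 152) (nat_lit 5) (nat_lit 145) (nat_lit 5) (nat_lit 317) (nat_lit 294) (nat_lit 169)) (XT.lf (nat_lit 0) (nat_lit 5840117871) (nat_lit 532) (nat_lit 4809203419) (nat_lit 608) (nat_lit 6038996197) (nat_lit 137) (nat_lit 5) (nat_lit 144) (nat_lit 5) (nat_lit 145) (nat_lit 5) (nat_lit 318) (nat_lit 294) (nat_lit 168)))) (XT.nd (nat_lit 78) (nat_lit 532) (nat_lit 0) (XT.lf (nat_lit 0) (nat_lit 12458986103) (nat_lit 608) (nat_lit 3170178018) (nat_lit 76) (nat_lit 1346351636) (nat_lit 137) (nat_lit 5) (nat_lit 145) (nat_lit 5) (nat_lit 138) (nat_lit 5) (nat_lit 319) (nat_lit 294) (nat_lit 167)) (XT.nd (nat_lit 78) (nat_lit 0) (nat_lit 0) (XT.lf (nat_lit 0) (nat_lit 4774077186) (nat_lit 532) (nat_lit 9632623649) (nat_lit 608) (nat_lit 2862134067) (nat_lit 130) (nat_lit 5) (nat_lit 137) (nat_lit 5) (nat_lit 138) (nat_lit 5) (nat_lit 320) (nat_lit 294) (nat_lit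 166)) (XT.lf (nat_lit 0) (nat_lit 13012089597) (nat_lit 532) (nat_lit 3423214788) (nat_lit 608) (nat_lit 1134992728) (nat_lit 130) (nat_lit 5) (nat_lit 137) (nat_lit 5) (nat_lit 138) (nat_lit 5) (nat_lit 321) (nat_lit 294) (nat_lit 165))))) (XT.nd (nat_lit 234) (nat_lit 456) (nat_lit 0) (XT.nd (nat_lit 78) (nat_lit 456) (nat_lit 0) (XT.lf (nat_lit 0) (nat_lit 686296486) (nat_lit 608) (nat_lit 14236408657) (nat_lit 76) (nat_lit 2956281574) (nat_lit 122) (nat_lit 5) (nat_lit 130) (nat_lit 5) (nat_lit 123) (nat_lit 5) (nat_lit 322) (nat_lit 294) (nat_lit 164)) (XT.nd (nat_lit 78) (nat_lit 456) (nat_lit 0) (XT.lf (nat_lit 0) (nat_lit 2610586246) (nat_lit 608) (nat_lit 6067994397) (nat_lit 76) (nat_lit 9515899766) (nat_lit 122) (nat_lit 5) (nat_lit 130) (nat_lit 5) (nat_lit 123) (nat_lit 5) (nat_lit 323) (nat_lit 294) (nat_lit 163)) (XT.lf (nat_lit 0) (nat_lit 2382568920) (nat_lit 456) (nat_lit 2224002754)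 (nat_lit 532) (nat_lit 13912463521) (nat_lit 116) (nat_lit 5) (nat_lit 122) (nat_lit 5) (nat_lit 123) (nat_lit 5) (nat_lit 324) (nat_lit 294) (nat_lit 162)))) (XT.nd (nat_lit 78) (nat_lit 456) (nat_lit 0) (XT.lf (nat_lit 0) (nat_lit 6758076347) (nat_lit 532) (nat_lit 7693162592) (nat_lit 76) (nat_lit 4399233342) (nat_lit 116) (nat_lit 5) (nat_lit 123) (nat_lit 5) (nat_lit 117) (nat_lit 5) (nat_lit 325) (nat_lit 294) (nat_lit 161)) (XT.nd (nat_lit 78) (nat_lit 0) (nat_lit 0) (XT.lf (nat_lit 0) (nat_lit 991470081) (nat_lit 456) (nat_lit 8005691881) (nat_lit 532) (nat_lit 10194013858) (nat_lit 110) (nat_lit 5) (nat_lit 116) (nat_lit 5) (nat_lit 117) (nat_lit 5) (nat_lit 326) (nat_lit 294) (nat_lit 160)) (XT.lf (nat_lit 0) (nat_lit 10085137733) (nat_lit 456) (nat_lit 1287613128) (nat_lit 532) (nat_lit 8167283676) (nat_lit 110) (nat_lit 5) (nat_lit 116) (nat_lit 5) (nat_lit 117) (nat_lit 5) (nat_lit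 327) (nat_lit 294) (nat_lit 159))))))) (XT.nd (nat_lit 936) (nat_lit 1900) (nat_lit 0) (XT.nd (nat_lit 468) (nat_lit 760) (nat_lit 0) (XT.nd (nat_lit 234) (nat_lit 912) (nat_lit 0) (XT.nd (nat_lit 78) (nat_lit 380) (nat_lit 0) (XT.lf (nat_lit 0) (nat_lit 13865626003) (nat_lit 532) (nat_lit 511069052) (nat_lit 76) (nat_lit 5521296989) (nat_lit 110) (nat_lit 5) (nat_lit 117) (nat_lit 5) (nat_lit 111) (nat_lit 5) (nat_lit 328) (nat_lit 294) (nat_lit 158)) (XT.nd (nat_lit 78) (nat_lit 0) (nat_lit 0) (XT.lf (nat_lit 0) (nat_lit 8852142513) (nat_lit 380) (nat_lit 7671102505) (nat_lit 456) (nat_lit 3740757721) (nat_lit 105) (nat_lit 5) (nat_lit 110) (nat_lit 5) (nat_lit 111) (nat_lit 5) (nat_lit 329) (nat_lit 294) (nat_lit 157)) (XT.lf (nat_lit 0) (nat_lit 18497894730) (nat_lit 380) (nat_lit 760120145) (nat_lit 456) (nat_lit 1383069018) (nat_lit 105) (nat_lit 5) (nat_lit 110) (nat_lit 5) (nat_lit 111)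 (nat_lit 5) (nat_lit 330) (nat_lit 294) (nat_lit 156)))) (XT.nd (nat_lit 78) (nat_lit 380) (nat_lit 0) (XT.lf (nat_lit 0) (nat_lit 1151675848) (nat_lit 532) (nat_lit 13557441897) (nat_lit 76) (nat_lit 6316268630) (nat_lit 98) (nat_lit 5) (nat_lit 105) (nat_lit 5) (nat_lit 99) (nat_lit 5) (nat_lit 331) (nat_lit 294) (nat_lit 155)) (XT.nd (nat_lit 78) (nat_lit 380) (nat_lit 0) (XT.lf (nat_lit 0) (nat_lit 3756573991) (nat_lit 532) (nat_lit 4039533871) (nat_lit 76) (nat_lit 13624053699) (nat_lit 98) (nat_lit 5) (nat_lit 105) (nat_lit 5) (nat_lit 99) (nat_lit 5) (nat_lit 332) (nat_lit 294) (nat_lit 154)) (XT.lf (nat_lit 0) (nat_lit 5869834924) (nat_lit 380) (nat_lit 618953277) (nat_lit 456) (nat_lit 15336528106) (nat_lit 93) (nat_lit 5) (nat_lit 98) (nat_lit 5) (nat_lit 99) (nat_lit 5) (nat_lit 333) (nat_lit 294) (nat_lit 153))))) (XT.nd (nat_lit 234) (nat_lit 380) (nat_lit 0) (XT.nd (nat_lit 78) (nat_lit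 380) (nat_lit 0) (XT.lf (nat_lit 0) (nat_lit 9402135703) (nat_lit 456) (nat_lit 6156370640) (nat_lit 76) (nat_lit 6681155395) (nat_lit 93) (nat_lit 5) (nat_lit 99) (nat_lit 5) (nat_lit 94) (nat_lit 5) (nat_lit 334) (nat_lit 294) (nat_lit 152)) (XT.nd (nat_lit 78) (nat_lit 0) (nat_lit 0) (XT.lf (nat_lit 0) (nat_lit 4000152363) (nat_lit 380) (nat_lit 8440379815) (nat_lit 456) (nat_lit 10224786622) (nat_lit 88) (nat_lit 5) (nat_lit 93) (nat_lit 5) (nat_lit 94) (nat_lit 5) (nat_lit 335) (nat_lit 294) (nat_lit 151)) (XT.lf (nat_lit 0) (nat_lit 14579163664) (nat_lit 380) (nat_lit 1046273621) (nat_lit 456) (nat_lit 7476657999) (nat_lit 88) (nat_lit 5) (nat_lit 93) (nat_lit 5) (nat_lit 94) (nat_lit 5) (nat_lit 336) (nat_lit 294) (nat_lit 150)))) (XT.nd (nat_lit 78) (nat_lit 76) (nat_lit 0) (XT.lf (nat_lit 0) (nat_lit 1888922707) (nat_lit 304) (nat_lit 17091648802) (nat_lit 380) (nat_lit 4569173205) (nat_lit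 84) (nat_lit 5) (nat_lit 88) (nat_lit 5) (nat_lit 89) (nat_lit 5) (nat_lit 337) (nat_lit 294) (nat_lit 149)) (XT.nd (nat_lit 78) (nat_lit 76) (nat_lit 0) (XT.lf (nat_lit 0) (nat_lit 12769005345) (nat_lit 304) (nat_lit 9757163317) (nat_lit 380) (nat_lit 1481970512) (nat_lit 84) (nat_lit 5) (nat_lit 88) (nat_lit 5) (nat_lit 89) (nat_lit 5) (nat_lit 338) (nat_lit 294) (nat_lit 148)) (XT.lf (nat_lit 0) (nat_lit 1658321307) (nat_lit 380) (nat_lit 529285072) (nat_lit 76) (nat_lit 22292390594) (nat_lit 83) (nat_lit 5) (nat_lit 88) (nat_lit 5) (nat_lit 84) (nat_lit 5) (nat_lit 339) (nat_lit 294) (nat_lit 147)))))) (XT.nd (nat_lit 468) (nat_lit 912) (nat_lit 0) (XT.nd (nat_lit 234) (nat_lit 304) (nat_lit 0) (XT.nd (nat_lit 78) (nat_lit 304) (nat_lit 0) (XT.lf (nat_lit 0) (nat_lit 5014627430) (nat_lit 456) (nat_lit 14329934355) (nat_lit 76) (nat_lit 5616469762) (nat_lit 78) (nat_lit 5) (nat_lit 84) (nat_lit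 5) (nat_lit 79) (nat_lit 5) (nat_lit 340) (nat_lit 294) (nat_lit 146)) (XT.nd (nat_lit 78) (nat_lit 304) (nat_lit 0) (XT.lf (nat_lit 0) (nat_lit 8492558883) (nat_lit 456) (nat_lit 3348937091) (nat_lit 76) (nat_lit 13614381821) (nat_lit 78) (nat_lit 5) (nat_lit 84) (nat_lit 5) (nat_lit 79) (nat_lit 5) (nat_lit 341) (nat_lit 294) (nat_lit 145)) (XT.lf (nat_lit 0) (nat_lit 8111989428) (nat_lit 304) (nat_lit 4034873554) (nat_lit 380) (nat_lit 13816553874) (nat_lit 74) (nat_lit 5) (nat_lit 78) (nat_lit 5) (nat_lit 79) (nat_lit 5) (nat_lit 342) (nat_lit 294) (nat_lit 144)))) (XT.nd (nat_lit 78) (nat_lit 304) (nat_lit 0) (XT.lf (nat_lit 0) (nat_lit 15977594523) (nat_lit 380) (nat_lit 6546500223) (nat_lit 76) (nat_lit 3960091612) (nat_lit 74) (nat_lit 5) (nat_lit 79) (nat_lit 5) (nat_lit 75) (nat_lit 5) (nat_lit 343) (nat_lit 294) (nat_lit 143)) (XT.nd (nat_lit 78) (nat_lit 0) (nat_lit 0) (XT.lf (nat_lit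 0) (nat_lit 5150475623) (nat_lit 304) (nat_lit 14856540058) (nat_lit 380) (nat_lit 7011058216) (nat_lit 70) (nat_lit 5) (nat_lit 74) (nat_lit 5) (nat_lit 75) (nat_lit 5) (nat_lit 344) (nat_lit 294) (nat_lit 142)) (XT.lf (nat_lit 0) (nat_lit 17324978363) (nat_lit 304) (nat_lit 6892849737) (nat_lit 380) (nat_lit 3348342451) (nat_lit 70) (nat_lit 5) (nat_lit 74) (nat_lit 5) (nat_lit 75) (nat_lit 5) (nat_lit 345) (nat_lit 294) (nat_lit 141))))) (XT.nd (nat_lit 234) (nat_lit 532) (nat_lit 0) (XT.nd (nat_lit 78) (nat_lit 0) (nat_lit 0) (XT.lf (nat_lit 0) (nat_lit 440145197) (nat_lit 380) (nat_lit 26386299119) (nat_lit 76) (nat_lit 1303425671) (nat_lit 65) (nat_lit 5) (nat_lit 70) (nat_lit 5) (nat_lit 66) (nat_lit 5) (nat_lit 346) (nat_lit 294) (nat_lit 140)) (XT.nd (nat_lit 78) (nat_lit 0) (nat_lit 0) (XT.lf (nat_lit 0) (nat_lit 4442248464) (nat_lit 380) (nat_lit 14519540584) (nat_lit 76) (nat_lit 9742686112)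 (nat_lit 65) (nat_lit 5) (nat_lit 70) (nat_lit 5) (nat_lit 66) (nat_lit 5) (nat_lit 347) (nat_lit 294) (nat_lit 139)) (XT.lf (nat_lit 0) (nat_lit 8559146323) (nat_lit 380) (nat_lit 2304111342) (nat_lit 76) (nat_lit 18433225762) (nat_lit 65) (nat_lit 5) (nat_lit 70) (nat_lit 5) (nat_lit 66) (nat_lit 5) (nat_lit 348) (nat_lit 294) (nat_lit 138)))) (XT.nd (nat_lit 78) (nat_lit 228) (nat_lit 0) (XT.lf (nat_lit 0) (nat_lit 10475068599) (nat_lit 304) (nat_lit 2420060231) (nat_lit 380) (nat_lit 17008262465) (nat_lit 61) (nat_lit 5) (nat_lit 65) (nat_lit 5) (nat_lit 66) (nat_lit 5) (nat_lit 349) (nat_lit 294) (nat_lit 137)) (XT.nd (nat_lit 78) (nat_lit 228) (nat_lit 0) (XT.lf (nat_lit 0) (nat_lit 17439967905) (nat_lit 380) (nat_lit 6910702547) (nat_lit 76) (nat_lit 6175479123) (nat_lit 61) (nat_lit 5) (nat_lit 66) (nat_lit 5) (nat_lit 62) (nat_lit 5) (nat_lit 350) (nat_lit 294) (nat_lit 136)) (XT.lf (nat_lit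 0) (nat_lit 6069954371) (nat_lit 228) (nat_lit 16128600870) (nat_lit 304) (nat_lit 8966719569) (nat_lit 58) (nat_lit 5) (nat_lit 61) (nat_lit 5) (nat_lit 62) (nat_lit 5) (nat_lit 351) (nat_lit 294) (nat_lit 135))))))))
noncomputable def xc195 : XT := (XT.nd (nat_lit 1794) (nat_lit 912) (nat_lit 0) (XT.nd (nat_lit 858) (nat_lit 836) (nat_lit 0) (XT.nd (nat_lit 390) (nat_lit 532) (nat_lit 0) (XT.nd (nat_lit 156) (nat_lit 304) (nat_lit 0) (XT.nd (nat_lit 78) (nat_lit 228) (nat_lit 0) (XT.lf (nat_lit 0) (nat_lit 19574784516) (nat_lit 228) (nat_lit 7590070690) (nat_lit 304) (nat_lit 4656776062) (nat_lit 58) (nat_lit 5) (nat_lit 61) (nat_lit 5) (nat_lit 62) (nat_lit 5) (nat_lit 352) (nat_lit 294) (nat_lit 134)) (XT.lf (nat_lit 0) (nat_lit 987944939) (nat_lit 228) (nat_lit 31308567183) (nat_lit 304) (nat_lit 200681198) (nat_lit 55) (nat_lit 5) (nat_lit 58) (nat_lit 5) (nat_lit 59) (nat_lit 5) (nat_lit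 353) (nat_lit 294) (nat_lit 133))) (XT.nd (nat_lit 78) (nat_lit 228) (nat_lit 0) (XT.lf (nat_lit 0) (nat_lit 4498804470) (nat_lit 304) (nat_lit 18443914720) (nat_lit 76) (nat_lit 10243182268) (nat_lit 54) (nat_lit 5) (nat_lit 58) (nat_lit 5) (nat_lit 55) (nat_lit 5) (nat_lit 354) (nat_lit 294) (nat_lit 132)) (XT.nd (nat_lit 78) (nat_lit 228) (nat_lit 0) (XT.lf (nat_lit 0) (nat_lit 9330689994) (nat_lit 304) (nat_lit 4995274935) (nat_lit 76) (nat_lit 19569388277) (nat_lit 54) (nat_lit 5) (nat_lit 58) (nat_lit 5) (nat_lit 55) (nat_lit 5) (nat_lit 355) (nat_lit 294) (nat_lit 131)) (XT.lf (nat_lit 0) (nat_lit 9026490627) (nat_lit 228) (nat_lit 5363390942) (nat_lit 304) (nat_lit 20233741726) (nat_lit 51) (nat_lit 5) (nat_lit 54) (nat_lit 5) (nat_lit 55) (nat_lit 5) (nat_lit 356) (nat_lit 294) (nat_lit 130))))) (XT.nd (nat_lit 234) (nat_lit 304) (nat_lit 0) (XT.nd (nat_lit 78) (nat_lit 228) (nat_lit 0)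 (XT.lf (nat_lit 0) (nat_lit 19684601614) (nat_lit 304) (nat_lit 11845127602) (nat_lit 76) (nat_lit 3841504814) (nat_lit 51) (nat_lit 5) (nat_lit 55) (nat_lit 5) (nat_lit 52) (nat_lit 5) (nat_lit 357) (nat_lit 294) (nat_lit 129)) (XT.nd (nat_lit 78) (nat_lit 0) (nat_lit 0) (XT.lf (nat_lit 0) (nat_lit 2304978021) (nat_lit 228) (nat_lit 22904200943) (nat_lit 304) (nat_lit 10929968623) (nat_lit 48) (nat_lit 5) (nat_lit 51) (nat_lit 5) (nat_lit 52) (nat_lit 5) (nat_lit 358) (nat_lit 294) (nat_lit 128)) (XT.lf (nat_lit 0) (nat_lit 17116127289) (nat_lit 228) (nat_lit 13898798190) (nat_lit 304) (nat_lit 5911714946) (nat_lit 48) (nat_lit 5) (nat_lit 51) (nat_lit 5) (nat_lit 52) (nat_lit 5) (nat_lit 359) (nat_lit 294) (nat_lit 127)))) (XT.nd (nat_lit 78) (nat_lit 304) (nat_lit 0) (XT.lf (nat_lit 0) (nat_lit 32365520717) (nat_lit 228) (nat_lit 4625264720) (nat_lit 304) (nat_lit 747099067) (nat_lit 48) (nat_lit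 5) (nat_lit 51) (nat_lit 5) (nat_lit 52) (nat_lit 5) (nat_lit 360) (nat_lit 294) (nat_lit 126)) (XT.nd (nat_lit 78) (nat_lit 0) (nat_lit 0) (XT.lf (nat_lit 0) (nat_lit 4620572389) (nat_lit 304) (nat_lit 28981148073) (nat_lit 76) (nat_lit 4966311000) (nat_lit 44) (nat_lit 5) (nat_lit 48) (nat_lit 5) (nat_lit 45) (nat_lit 5) (nat_lit 361) (nat_lit 294) (nat_lit 125)) (XT.lf (nat_lit 0) (nat_lit 10230895621) (nat_lit 304) (nat_lit 14376188552) (nat_lit 76) (nat_lit 14812881908) (nat_lit 44) (nat_lit 5) (nat_lit 48) (nat_lit 5) (nat_lit 45) (nat_lit 5) (nat_lit 362) (nat_lit 294) (nat_lit 124)))))) (XT.nd (nat_lit 468) (nat_lit 380) (nat_lit 0) (XT.nd (nat_lit 234) (nat_lit 228) (nat_lit 0) (XT.nd (nat_lit 78) (nat_lit 0) (nat_lit 0) (XT.lf (nat_lit 0) (nat_lit 674211434) (nat_lit 228) (nat_lit 15337968350) (nat_lit 304) (nat_lit 24285203582) (nat_lit 41) (nat_lit 5) (nat_lit 44) (nat_lit 5) (nat_lit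 45) (nat_lit 5) (nat_lit 363) (nat_lit 294) (nat_lit 123)) (XT.nd (nat_lit 78) (nat_lit 0) (nat_lit 0) (XT.lf (nat_lit 0) (nat_lit 16465014072) (nat_lit 228) (nat_lit 5643285741) (nat_lit 304) (nat_lit 19088585480) (nat_lit 41) (nat_lit 5) (nat_lit 44) (nat_lit 5) (nat_lit 45) (nat_lit 5) (nat_lit 364) (nat_lit 294) (nat_lit 122)) (XT.lf (nat_lit 0) (nat_lit 28425360656) (nat_lit 304) (nat_lit 9441304582) (nat_lit 76) (nat_lit 4255569249) (nat_lit 41) (nat_lit 5) (nat_lit 45) (nat_lit 5) (nat_lit 42) (nat_lit 5) (nat_lit 365) (nat_lit 294) (nat_lit 121)))) (XT.nd (nat_lit 78) (nat_lit 76) (nat_lit 0) (XT.lf (nat_lit 0) (nat_lit 6370857439) (nat_lit 152) (nat_lit 28674614824) (nat_lit 228) (nat_lit 8026469537) (nat_lit 39) (nat_lit 5) (nat_lit 41) (nat_lit 5) (nat_lit 42) (nat_lit 5) (nat_lit 366) (nat_lit 294) (nat_lit 120)) (XT.nd (nat_lit 78) (nat_lit 76) (nat_lit 0) (XT.lf (nat_lit 0) (nat_lit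 22845410501) (nat_lit 152) (nat_lit 19110590797) (nat_lit 228) (nat_lit 2091388314) (nat_lit 39) (nat_lit 5) (nat_lit 41) (nat_lit 5) (nat_lit 42) (nat_lit 5) (nat_lit 367) (nat_lit 294) (nat_lit 119)) (XT.lf (nat_lit 0) (nat_lit 3939807276) (nat_lit 228) (nat_lit 5281983301) (nat_lit 76) (nat_lit 35829257765) (nat_lit 38) (nat_lit 5) (nat_lit 41) (nat_lit 5) (nat_lit 39) (nat_lit 5) (nat_lit 368) (nat_lit 294) (nat_lit 118))))) (XT.nd (nat_lit 234) (nat_lit 152) (nat_lit 0) (XT.nd (nat_lit 78) (nat_lit 0) (nat_lit 0) (XT.lf (nat_lit 0) (nat_lit 10225793858) (nat_lit 304) (nat_lit 34781218688) (nat_lit 76) (nat_lit 1073709770) (nat_lit 35) (nat_lit 5) (nat_lit 39) (nat_lit 5) (nat_lit 36) (nat_lit 5) (nat_lit 369) (nat_lit 294) (nat_lit 117)) (XT.nd (nat_lit 78) (nat_lit 0) (nat_lit 0) (XT.lf (nat_lit 0) (nat_lit 16842201508) (nat_lit 304) (nat_lit 18750106558) (nat_lit 76) (nat_lit 11544726488)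 (nat_lit 35) (nat_lit 5) (nat_lit 39) (nat_lit 5) (nat_lit 36) (nat_lit 5) (nat_lit 370) (nat_lit 294) (nat_lit 116)) (XT.lf (nat_lit 0) (nat_lit 23653869197) (nat_lit 304) (nat_lit 2243204627) (nat_lit 76) (nat_lit 22328062492) (nat_lit 35) (nat_lit 5) (nat_lit 39) (nat_lit 5) (nat_lit 36) (nat_lit 5) (nat_lit 371) (nat_lit 294) (nat_lit 115)))) (XT.nd (nat_lit 78) (nat_lit 0) (nat_lit 0) (XT.lf (nat_lit 0) (nat_lit 15047542361) (nat_lit 152) (nat_lit 15763852688) (nat_lit 228) (nat_lit 18530243938) (nat_lit 33) (nat_lit 5) (nat_lit 35) (nat_lit 5) (nat_lit 36) (nat_lit 5) (nat_lit 372) (nat_lit 294) (nat_lit 114)) (XT.nd (nat_lit 78) (nat_lit 0) (nat_lit 0) (XT.lf (nat_lit 0) (nat_lit 32898050462) (nat_lit 152) (nat_lit 5305154002) (nat_lit 228) (nat_lit 12287848550) (nat_lit 33) (nat_lit 5) (nat_lit 35) (nat_lit 5) (nat_lit 36) (nat_lit 5) (nat_lit 373) (nat_lit 294) (nat_lit 113)) (XT.lf (nat_lit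 0) (nat_lit 45866301915) (nat_lit 228) (nat_lit 448307283) (nat_lit 76) (nat_lit 5358857171) (nat_lit 33) (nat_lit 5) (nat_lit 36) (nat_lit 5) (nat_lit 34) (nat_lit 5) (nat_lit 374) (nat_lit 294) (nat_lit 112))))))) (XT.nd (nat_lit 936) (nat_lit 152) (nat_lit 0) (XT.nd (nat_lit 468) (nat_lit 380) (nat_lit 0) (XT.nd (nat_lit 234) (nat_lit 152) (nat_lit 0) (XT.nd (nat_lit 78) (nat_lit 0) (nat_lit 0) (XT.lf (nat_lit 0) (nat_lit 1070921026) (nat_lit 228) (nat_lit 35400465552) (nat_lit 76) (nat_lit 16413120479) (nat_lit 30) (nat_lit 5) (nat_lit 33) (nat_lit 5) (nat_lit 31) (nat_lit 5) (nat_lit 375) (nat_lit 294) (nat_lit 111)) (XT.nd (nat_lit 78) (nat_lit 0) (nat_lit 0) (XT.lf (nat_lit 0) (nat_lit 8040278360) (nat_lit 228) (nat_lit 18230483001) (nat_lit 76) (nat_lit 27859345954) (nat_lit 30) (nat_lit 5) (nat_lit 33) (nat_lit 5) (nat_lit 31) (nat_lit 5) (nat_lit 376) (nat_lit 294) (nat_lit 110)) (XT.lf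 (nat_lit 0) (nat_lit 15215877286) (nat_lit 228) (nat_lit 550011615) (nat_lit 76) (nat_lit 39647274448) (nat_lit 30) (nat_lit 5) (nat_lit 33) (nat_lit 5) (nat_lit 31) (nat_lit 5) (nat_lit 377) (nat_lit 294) (nat_lit 109)))) (XT.nd (nat_lit 78) (nat_lit 0) (nat_lit 0) (XT.lf (nat_lit 0) (nat_lit 18007794490) (nat_lit 152) (nat_lit 4769295189) (nat_lit 228) (nat_lit 33952513539) (nat_lit 28) (nat_lit 5) (nat_lit 30) (nat_lit 5) (nat_lit 31) (nat_lit 5) (nat_lit 378) (nat_lit 294) (nat_lit 108)) (XT.nd (nat_lit 78) (nat_lit 0) (nat_lit 0) (XT.lf (nat_lit 0) (nat_lit 30631044026) (nat_lit 228) (nat_lit 21019346962) (nat_lit 76) (nat_lit 6433170577) (nat_lit 28) (nat_lit 5) (nat_lit 31) (nat_lit 5) (nat_lit 29) (nat_lit 5) (nat_lit 379) (nat_lit 294) (nat_lit 107)) (XT.lf (nat_lit 0) (nat_lit 38765182181) (nat_lit 228) (nat_lit 2837401020) (nat_lit 76) (nat_lit 17874220878) (nat_lit 28) (nat_lit 5) (nat_lit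 31) (nat_lit 5) (nat_lit 29) (nat_lit 5) (nat_lit 380) (nat_lit 294) (nat_lit 106))))) (XT.nd (nat_lit 234) (nat_lit 152) (nat_lit 0) (XT.nd (nat_lit 78) (nat_lit 76) (nat_lit 0) (XT.lf (nat_lit 0) (nat_lit 16201919419) (nat_lit 152) (nat_lit 31094589604) (nat_lit 228) (nat_lit 13610742216) (nat_lit 26) (nat_lit 5) (nat_lit 28) (nat_lit 5) (nat_lit 29) (nat_lit 5) (nat_lit 381) (nat_lit 294) (nat_lit 105)) (XT.nd (nat_lit 78) (nat_lit 76) (nat_lit 0) (XT.lf (nat_lit 0) (nat_lit 35866383313) (nat_lit 152) (nat_lit 20243501047) (nat_lit 228) (nat_lit 6269946433) (nat_lit 26) (nat_lit 5) (nat_lit 28) (nat_lit 5) (nat_lit 29) (nat_lit 5) (nat_lit 382) (nat_lit 294) (nat_lit 104)) (XT.lf (nat_lit 0) (nat_lit 1263383736) (nat_lit 228) (nat_lit 7792346747) (nat_lit 76) (nat_lit 54840561923) (nat_lit 25) (nat_lit 5) (nat_lit 28) (nat_lit 5) (nat_lit 26) (nat_lit 5) (nat_lit 383) (nat_lit 294) (nat_lit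 103)))) (XT.nd (nat_lit 78) (nat_lit 0) (nat_lit 0) (XT.lf (nat_lit 0) (nat_lit 9031702850) (nat_lit 228) (nat_lit 53826864279) (nat_lit 76) (nat_lit 2593770165) (nat_lit 23) (nat_lit 5) (nat_lit 26) (nat_lit 5) (nat_lit 24) (nat_lit 5) (nat_lit 384) (nat_lit 294) (nat_lit 102)) (XT.nd (nat_lit 78) (nat_lit 0) (nat_lit 0) (XT.lf (nat_lit 0) (nat_lit 17199792683) (nat_lit 228) (nat_lit 35361608350) (nat_lit 76) (nat_lit 14488662849) (nat_lit 23) (nat_lit 5) (nat_lit 26) (nat_lit 5) (nat_lit 24) (nat_lit 5) (nat_lit 385) (nat_lit 294) (nat_lit 101)) (XT.lf (nat_lit 0) (nat_lit 25610589233) (nat_lit 228) (nat_lit 16346305912) (nat_lit 76) (nat_lit 26738899135) (nat_lit 23) (nat_lit 5) (nat_lit 26) (nat_lit 5) (nat_lit 24) (nat_lit 5) (nat_lit 386) (nat_lit 294) (nat_lit 100)))))) (XT.nd (nat_lit 33852) (nat_lit 0) (nat_lit 11704) (XT.nd (nat_lit 33618) (nat_lit 0) (nat_lit 11628) (XT.nd (nat_lit 33462)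 (nat_lit 0) (nat_lit 11552) (XT.lf (nat_lit 0) (nat_lit 3300054294) (nat_lit 152) (nat_lit 31003109586) (nat_lit 228) (nat_lit 36086850958) (nat_lit 21) (nat_lit 5) (nat_lit 23) (nat_lit 5) (nat_lit 24) (nat_lit 5) (nat_lit 387) (nat_lit 294) (nat_lit 99)) (XT.nd (nat_lit 78) (nat_lit 0) (nat_lit 0) (XT.lf (nat_lit 0) (nat_lit 575742745) (nat_lit 1140) (nat_lit 2681514957) (nat_lit 1140) (nat_lit 2681514957) (nat_lit 173) (nat_lit 3) (nat_lit 188) (nat_lit 3) (nat_lit 188) (nat_lit 5) (nat_lit 295) (nat_lit 295) (nat_lit 190)) (XT.lf (nat_lit 0) (nat_lit 1616704993) (nat_lit 1140) (nat_lit 251615932) (nat_lit 1140) (nat_lit 10173052701) (nat_lit 173) (nat_lit 3) (nat_lit 188) (nat_lit 3) (nat_lit 188) (nat_lit 5) (nat_lit 296) (nat_lit 295) (nat_lit 189)))) (XT.nd (nat_lit 78) (nat_lit 0) (nat_lit 0) (XT.lf (nat_lit 0) (nat_lit 2156068509) (nat_lit 1064) (nat_lit 7134102517) (nat_lit 1140) (nat_lit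 2918175118) (nat_lit 174) (nat_lit 5) (nat_lit 188) (nat_lit 5) (nat_lit 189) (nat_lit 5) (nat_lit 297) (nat_lit 295) (nat_lit 188)) (XT.nd (nat_lit 78) (nat_lit 0) (nat_lit 76) (XT.lf (nat_lit 0) (nat_lit 2715696456) (nat_lit 1064) (nat_lit 1843294341) (nat_lit 1140) (nat_lit 7821248503) (nat_lit 174) (nat_lit 5) (nat_lit 188) (nat_lit 5) (nat_lit 189) (nat_lit 5) (nat_lit 298) (nat_lit 295) (nat_lit 187)) (XT.lf (nat_lit 0) (nat_lit 3314329456) (nat_lit 1064) (nat_lit 8891650104) (nat_lit 1140) (nat_lit 350676181) (nat_lit 175) (nat_lit 5) (nat_lit 189) (nat_lit 5) (nat_lit 190) (nat_lit 5) (nat_lit 299) (nat_lit 295) (nat_lit 186))))) (XT.nd (nat_lit 234) (nat_lit 0) (nat_lit 76) (XT.nd (nat_lit 78) (nat_lit 0) (nat_lit 0) (XT.lf (nat_lit 0) (nat_lit 3978830084) (nat_lit 1064) (nat_lit 3416556884) (nat_lit 1140) (nat_lit 5341572467) (nat_lit 175) (nat_lit 5) (nat_lit 189) (nat_lit 5) (nat_lit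 190) (nat_lit 5) (nat_lit 300) (nat_lit 295) (nat_lit 185)) (XT.nd (nat_lit 78) (nat_lit 0) (nat_lit 76) (XT.lf (nat_lit 76) (nat_lit 2257354617) (nat_lit 0) (nat_lit 2412049179) (nat_lit 1140) (nat_lit 8253115385) (nat_lit 176) (nat_lit 5) (nat_lit 175) (nat_lit 5) (nat_lit 190) (nat_lit 5) (nat_lit 301) (nat_lit 295) (nat_lit 184)) (XT.lf (nat_lit 0) (nat_lit 5426548501) (nat_lit 1064) (nat_lit 4977519253) (nat_lit 1140) (nat_lit 2708232531) (nat_lit 176) (nat_lit 5) (nat_lit 190) (nat_lit 5) (nat_lit 191) (nat_lit 5) (nat_lit 302) (nat_lit 295) (nat_lit 183)))) (XT.nd (nat_lit 78) (nat_lit 0) (nat_lit 0) (XT.lf (nat_lit 76) (nat_lit 864091985) (nat_lit 0) (nat_lit 5359802235) (nat_lit 1140) (nat_lit 7083385305) (nat_lit 177) (nat_lit 5) (nat_lit 176) (nat_lit 5) (nat_lit 191) (nat_lit 5) (nat_lit 303) (nat_lit 295) (nat_lit 182)) (XT.nd (nat_lit 78) (nat_lit 0) (nat_lit 76) (XT.lf (nat_lit 76)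 (nat_lit 6973437064) (nat_lit 0) (nat_lit 107621649) (nat_lit 1140) (nat_lit 6426000922) (nat_lit 177) (nat_lit 5) (nat_lit 176) (nat_lit 5) (nat_lit 191) (nat_lit 5) (nat_lit 304) (nat_lit 295) (nat_lit 181)) (XT.lf (nat_lit 0) (nat_lit 8001003960) (nat_lit 1064) (nat_lit 507499516) (nat_lit 1140) (nat_lit 5203245318) (nat_lit 177) (nat_lit 5) (nat_lit 191) (nat_lit 5) (nat_lit 192) (nat_lit 5) (nat_lit 305) (nat_lit 295) (nat_lit 180))))))))
noncomputable def xc196 : XT := (XT.nd (nat_lit 1794) (nat_lit 3952) (nat_lit 0) (XT.nd (nat_lit 858) (nat_lit 3116) (nat_lit 0) (XT.nd (nat_lit 390) (nat_lit 1976) (nat_lit 0) (XT.nd (nat_lit 156) (nat_lit 0) (nat_lit 76) (XT.nd (nat_lit 78) (nat_lit 0) (nat_lit 76) (XT.lf (nat_lit 76) (nat_lit 5802083946) (nat_lit 0) (nat_lit 3189805810) (nat_lit 1140) (nat_lit 4929415417) (nat_lit 178) (nat_lit 5) (nat_lit 177) (nat_lit 5) (nat_lit 192) (nat_lit 5) (nat_lit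 306) (nat_lit 295) (nat_lit 179)) (XT.lf (nat_lit 0) (nat_lit 10026518591) (nat_lit 1064) (nat_lit 1857527922) (nat_lit 1140) (nat_lit 2252707272) (nat_lit 178) (nat_lit 5) (nat_lit 192) (nat_lit 5) (nat_lit 193) (nat_lit 5) (nat_lit 307) (nat_lit 295) (nat_lit 178))) (XT.nd (nat_lit 78) (nat_lit 0) (nat_lit 0) (XT.lf (nat_lit 76) (nat_lit 4641449196) (nat_lit 0) (nat_lit 6514161956) (nat_lit 1140) (nat_lit 3201177231) (nat_lit 179) (nat_lit 5) (nat_lit 178) (nat_lit 5) (nat_lit 193) (nat_lit 5) (nat_lit 308) (nat_lit 295) (nat_lit 177)) (XT.nd (nat_lit 78) (nat_lit 0) (nat_lit 76) (XT.lf (nat_lit 76) (nat_lit 11364010677) (nat_lit 0) (nat_lit 960830478) (nat_lit 1140) (nat_lit 2258419463) (nat_lit 179) (nat_lit 5) (nat_lit 178) (nat_lit 5) (nat_lit 193) (nat_lit 5) (nat_lit 309) (nat_lit 295) (nat_lit 176)) (XT.lf (nat_lit 76) (nat_lit 3484364269) (nat_lit 0) (nat_lit 10111924439) (nat_lit 1140)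 (nat_lit 1218247918) (nat_lit 180) (nat_lit 5) (nat_lit 179) (nat_lit 5) (nat_lit 194) (nat_lit 5) (nat_lit 310) (nat_lit 295) (nat_lit 175))))) (XT.nd (nat_lit 234) (nat_lit 1064) (nat_lit 0) (XT.nd (nat_lit 78) (nat_lit 1064) (nat_lit 0) (XT.lf (nat_lit 76) (nat_lit 10435867198) (nat_lit 0) (nat_lit 4500100968) (nat_lit 1140) (nat_lit 115903222) (nat_lit 180) (nat_lit 5) (nat_lit 179) (nat_lit 5) (nat_lit 194) (nat_lit 5) (nat_lit 311) (nat_lit 295) (nat_lit 174)) (XT.nd (nat_lit 78) (nat_lit 0) (nat_lit 0) (XT.lf (nat_lit 0) (nat_lit 1022986747) (nat_lit 1140) (nat_lit 12982689743) (nat_lit 76) (nat_lit 1289676422) (nat_lit 165) (nat_lit 5) (nat_lit 180) (nat_lit 5) (nat_lit 166) (nat_lit 5) (nat_lit 312) (nat_lit 295) (nat_lit 173)) (XT.lf (nat_lit 0) (nat_lit 2273980509) (nat_lit 1140) (nat_lit 6056864677) (nat_lit 76) (nat_lit 7212872437) (nat_lit 165) (nat_lit 5) (nat_lit 180) (nat_lit 5)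 (nat_lit 166) (nat_lit 5) (nat_lit 313) (nat_lit 295) (nat_lit 172)))) (XT.nd (nat_lit 78) (nat_lit 0) (nat_lit 0) (XT.lf (nat_lit 0) (nat_lit 1088486338) (nat_lit 1064) (nat_lit 2473448976) (nat_lit 1140) (nat_lit 12237635575) (nat_lit 151) (nat_lit 5) (nat_lit 165) (nat_lit 5) (nat_lit 166) (nat_lit 5) (nat_lit 314) (nat_lit 295) (nat_lit 171)) (XT.nd (nat_lit 78) (nat_lit 0) (nat_lit 0) (XT.lf (nat_lit 0) (nat_lit 4973727045) (nat_lit 1140) (nat_lit 7533484039) (nat_lit 76) (nat_lit 3553352674) (nat_lit 151) (nat_lit 5) (nat_lit 166) (nat_lit 5) (nat_lit 152) (nat_lit 5) (nat_lit 315) (nat_lit 295) (nat_lit 170)) (XT.lf (nat_lit 0) (nat_lit 6441888858) (nat_lit 1140) (nat_lit 174514566) (nat_lit 76) (nat_lit 9712581870) (nat_lit 151) (nat_lit 5) (nat_lit 166) (nat_lit 5) (nat_lit 152) (nat_lit 5) (nat_lit 316) (nat_lit 295) (nat_lit 169)))))) (XT.nd (nat_lit 468) (nat_lit 1520) (nat_lit 0) (XT.nd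 (nat_lit 234) (nat_lit 532) (nat_lit 0) (XT.nd (nat_lit 78) (nat_lit 532) (nat_lit 0) (XT.lf (nat_lit 0) (nat_lit 7543225844) (nat_lit 532) (nat_lit 473211563) (nat_lit 608) (nat_lit 8587170617) (nat_lit 144) (nat_lit 5) (nat_lit 151) (nat_lit 5) (nat_lit 152) (nat_lit 5) (nat_lit 317) (nat_lit 295) (nat_lit 168)) (XT.nd (nat_lit 78) (nat_lit 532) (nat_lit 0) (XT.lf (nat_lit 0) (nat_lit 9686325665) (nat_lit 608) (nat_lit 1456061850) (nat_lit 76) (nat_lit 5742657085) (nat_lit 144) (nat_lit 5) (nat_lit 152) (nat_lit 5) (nat_lit 145) (nat_lit 5) (nat_lit 318) (nat_lit 295) (nat_lit 167)) (XT.lf (nat_lit 0) (nat_lit 6489175854) (nat_lit 532) (nat_lit 4974536416) (nat_lit 608) (nat_lit 5709507679) (nat_lit 137) (nat_lit 5) (nat_lit 144) (nat_lit 5) (nat_lit 145) (nat_lit 5) (nat_lit 319) (nat_lit 295) (nat_lit 166)))) (XT.nd (nat_lit 78) (nat_lit 532) (nat_lit 0) (XT.lf (nat_lit 0) (nat_lit 13313055617)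 (nat_lit 608) (nat_lit 2789745572) (nat_lit 76) (nat_lit 1366697525) (nat_lit 137) (nat_lit 5) (nat_lit 145) (nat_lit 5) (nat_lit 138) (nat_lit 5) (nat_lit 320) (nat_lit 295) (nat_lit 165)) (XT.nd (nat_lit 78) (nat_lit 0) (nat_lit 0) (XT.lf (nat_lit 0) (nat_lit 5388175153) (nat_lit 532) (nat_lit 9921563665) (nat_lit 608) (nat_lit 2462187948) (nat_lit 130) (nat_lit 5) (nat_lit 137) (nat_lit 5) (nat_lit 138) (nat_lit 5) (nat_lit 321) (nat_lit 295) (nat_lit 164)) (XT.lf (nat_lit 0) (nat_lit 13859613111) (nat_lit 532) (nat_lit 3525873665) (nat_lit 608) (nat_lit 697382178) (nat_lit 130) (nat_lit 5) (nat_lit 137) (nat_lit 5) (nat_lit 138) (nat_lit 5) (nat_lit 322) (nat_lit 295) (nat_lit 163))))) (XT.nd (nat_lit 234) (nat_lit 456) (nat_lit 0) (XT.nd (nat_lit 78) (nat_lit 456) (nat_lit 0) (XT.lf (nat_lit 0) (nat_lit 1160406911) (nat_lit 608) (nat_lit 14186625790) (nat_lit 76) (nat_lit 3053941863) (nat_lit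 122) (nat_lit 5) (nat_lit 130) (nat_lit 5) (nat_lit 123) (nat_lit 5) (nat_lit 323) (nat_lit 295) (nat_lit 162)) (XT.nd (nat_lit 78) (nat_lit 456) (nat_lit 0) (XT.lf (nat_lit 0) (nat_lit 3129215999) (nat_lit 608) (nat_lit 5787048669) (nat_lit 76) (nat_lit 9810087286) (nat_lit 122) (nat_lit 5) (nat_lit 130) (nat_lit 5) (nat_lit 123) (nat_lit 5) (nat_lit 324) (nat_lit 295) (nat_lit 161)) (XT.lf (nat_lit 0) (nat_lit 2912492474) (nat_lit 456) (nat_lit 2264170758) (nat_lit 532) (nat_lit 13884254631) (nat_lit 116) (nat_lit 5) (nat_lit 122) (nat_lit 5) (nat_lit 123) (nat_lit 5) (nat_lit 325) (nat_lit 295) (nat_lit 160)))) (XT.nd (nat_lit 78) (nat_lit 456) (nat_lit 0) (XT.lf (nat_lit 0) (nat_lit 7380381397) (nat_lit 532) (nat_lit 7465821896) (nat_lit 76) (nat_lit 4556486024) (nat_lit 116) (nat_lit 5) (nat_lit 123) (nat_lit 5) (nat_lit 117) (nat_lit 5) (nat_lit 326) (nat_lit 295) (nat_lit 159)) (XT.nd (nat_lit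 78) (nat_lit 0) (nat_lit 0) (XT.lf (nat_lit 0) (nat_lit 1474858231) (nat_lit 456) (nat_lit 8203921778) (nat_lit 532) (nat_lit 10075090427) (nat_lit 110) (nat_lit 5) (nat_lit 116) (nat_lit 5) (nat_lit 117) (nat_lit 5) (nat_lit 327) (nat_lit 295) (nat_lit 158)) (XT.lf (nat_lit 0) (nat_lit 10828122979) (nat_lit 456) (nat_lit 1285522242) (nat_lit 532) (nat_lit 7999929519) (nat_lit 110) (nat_lit 5) (nat_lit 116) (nat_lit 5) (nat_lit 117) (nat_lit 5) (nat_lit 328) (nat_lit 295) (nat_lit 157))))))) (XT.nd (nat_lit 936) (nat_lit 1900) (nat_lit 0) (XT.nd (nat_lit 468) (nat_lit 760) (nat_lit 0) (XT.nd (nat_lit 234) (nat_lit 912) (nat_lit 0) (XT.nd (nat_lit 78) (nat_lit 380) (nat_lit 0) (XT.lf (nat_lit 0) (nat_lit 14670044543) (nat_lit 532) (nat_lit 86886047) (nat_lit 76) (nat_lit 5725697744) (nat_lit 110) (nat_lit 5) (nat_lit 117) (nat_lit 5) (nat_lit 111) (nat_lit 5) (nat_lit 329) (nat_lit 295) (nat_lit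 156)) (XT.nd (nat_lit 78) (nat_lit 0) (nat_lit 0) (XT.lf (nat_lit 0) (nat_lit 9552912894) (nat_lit 380) (nat_lit 7847348631) (nat_lit 456) (nat_lit 3459590674) (nat_lit 105) (nat_lit 5) (nat_lit 110) (nat_lit 5) (nat_lit 111) (nat_lit 5) (nat_lit 330) (nat_lit 295) (nat_lit 155)) (XT.lf (nat_lit 0) (nat_lit 19475361771) (nat_lit 380) (nat_lit 730606323) (nat_lit 456) (nat_lit 1042629265) (nat_lit 105) (nat_lit 5) (nat_lit 110) (nat_lit 5) (nat_lit 111) (nat_lit 5) (nat_lit 331) (nat_lit 295) (nat_lit 154)))) (XT.nd (nat_lit 78) (nat_lit 380) (nat_lit 0) (XT.lf (nat_lit 0) (nat_lit 1554460457) (nat_lit 532) (nat_lit 13526765144) (nat_lit 76) (nat_lit 6563297838) (nat_lit 98) (nat_lit 5) (nat_lit 105) (nat_lit 5) (nat_lit 99) (nat_lit 5) (nat_lit 332) (nat_lit 295) (nat_lit 153)) (XT.nd (nat_lit 78) (nat_lit 380) (nat_lit 0) (XT.lf (nat_lit 0) (nat_lit 4226780272) (nat_lit 532) (nat_lit 3736059683)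 (nat_lit 76) (nat_lit 14088640504) (nat_lit 98) (nat_lit 5) (nat_lit 105) (nat_lit 5) (nat_lit 99) (nat_lit 5) (nat_lit 333) (nat_lit 295) (nat_lit 152)) (XT.lf (nat_lit 0) (nat_lit 6466426841) (nat_lit 380) (nat_lit 568163256) (nat_lit 456) (nat_lit 15434407207) (nat_lit 93) (nat_lit 5) (nat_lit 98) (nat_lit 5) (nat_lit 99) (nat_lit 5) (nat_lit 334) (nat_lit 295) (nat_lit 151))))) (XT.nd (nat_lit 234) (nat_lit 380) (nat_lit 0) (XT.nd (nat_lit 78) (nat_lit 380) (nat_lit 0) (XT.lf (nat_lit 0) (nat_lit 10025757994) (nat_lit 456) (nat_lit 5922703851) (nat_lit 76) (nat_lit 6947614507) (nat_lit 93) (nat_lit 5) (nat_lit 99) (nat_lit 5) (nat_lit 94) (nat_lit 5) (nat_lit 335) (nat_lit 295) (nat_lit 150)) (XT.nd (nat_lit 78) (nat_lit 0) (nat_lit 0) (XT.lf (nat_lit 0) (nat_lit 4534413294) (nat_lit 380) (nat_lit 8614926857) (nat_lit 456) (nat_lit 10185357354) (nat_lit 88) (nat_lit 5) (nat_lit 93) (nat_lit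 5) (nat_lit 94) (nat_lit 5) (nat_lit 336) (nat_lit 295) (nat_lit 149)) (XT.lf (nat_lit 0) (nat_lit 15418729215) (nat_lit 380) (nat_lit 1001288672) (nat_lit 456) (nat_lit 7364867577) (nat_lit 88) (nat_lit 5) (nat_lit 93) (nat_lit 5) (nat_lit 94) (nat_lit 5) (nat_lit 337) (nat_lit 295) (nat_lit 148)))) (XT.nd (nat_lit 78) (nat_lit 76) (nat_lit 0) (XT.lf (nat_lit 0) (nat_lit 2353283002) (nat_lit 304) (nat_lit 17517665059) (nat_lit 380) (nat_lit 4375176567) (nat_lit 84) (nat_lit 5) (nat_lit 88) (nat_lit 5) (nat_lit 89) (nat_lit 5) (nat_lit 338) (nat_lit 295) (nat_lit 147)) (XT.nd (nat_lit 78) (nat_lit 76) (nat_lit 0) (XT.lf (nat_lit 0) (nat_lit 13547893577) (nat_lit 304) (nat_lit 9965671220) (nat_lit 380) (nat_lit 1205000663) (nat_lit 84) (nat_lit 5) (nat_lit 88) (nat_lit 5) (nat_lit 89) (nat_lit 5) (nat_lit 339) (nat_lit 295) (nat_lit 146)) (XT.lf (nat_lit 0) (nat_lit 2014048352) (nat_lit 380) (nat_lit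 154342080) (nat_lit 76) (nat_lit 23036384524) (nat_lit 83) (nat_lit 5) (nat_lit 88) (nat_lit 5) (nat_lit 84) (nat_lit 5) (nat_lit 340) (nat_lit 295) (nat_lit 145)))))) (XT.nd (nat_lit 468) (nat_lit 912) (nat_lit 0) (XT.nd (nat_lit 234) (nat_lit 304) (nat_lit 0) (XT.nd (nat_lit 78) (nat_lit 304) (nat_lit 0) (XT.lf (nat_lit 0) (nat_lit 5466680331) (nat_lit 456) (nat_lit 14364217801) (nat_lit 76) (nat_lit 5869486227) (nat_lit 78) (nat_lit 5) (nat_lit 84) (nat_lit 5) (nat_lit 79) (nat_lit 5) (nat_lit 341) (nat_lit 295) (nat_lit 144)) (XT.nd (nat_lit 78) (nat_lit 304) (nat_lit 0) (XT.lf (nat_lit 0) (nat_lit 9040164851) (nat_lit 456) (nat_lit 3065313374) (nat_lit 76) (nat_lit 14104873831) (nat_lit 78) (nat_lit 5) (nat_lit 84) (nat_lit 5) (nat_lit 79) (nat_lit 5) (nat_lit 342) (nat_lit 295) (nat_lit 143)) (XT.lf (nat_lit 0) (nat_lit 8735675334) (nat_lit 304) (nat_lit 4063549661) (nat_lit 380) (nat_lit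 13934050637) (nat_lit 74) (nat_lit 5) (nat_lit 78) (nat_lit 5) (nat_lit 79) (nat_lit 5) (nat_lit 343) (nat_lit 295) (nat_lit 142)))) (XT.nd (nat_lit 78) (nat_lit 304) (nat_lit 0) (XT.lf (nat_lit 0) (nat_lit 16737353467) (nat_lit 380) (nat_lit 6365728206) (nat_lit 76) (nat_lit 4166824095) (nat_lit 74) (nat_lit 5) (nat_lit 79) (nat_lit 5) (nat_lit 75) (nat_lit 5) (nat_lit 344) (nat_lit 295) (nat_lit 141)) (XT.nd (nat_lit 78) (nat_lit 0) (nat_lit 0) (XT.lf (nat_lit 0) (nat_lit 5678459200) (nat_lit 304) (nat_lit 15204620179) (nat_lit 380) (nat_lit 6936879344) (nat_lit 70) (nat_lit 5) (nat_lit 74) (nat_lit 5) (nat_lit 75) (nat_lit 5) (nat_lit 345) (nat_lit 295) (nat_lit 140)) (XT.lf (nat_lit 0) (nat_lit 18207319275) (nat_lit 304) (nat_lit 7004862336) (nat_lit 380) (nat_lit 3172568823) (nat_lit 70) (nat_lit 5) (nat_lit 74) (nat_lit 5) (nat_lit 75) (nat_lit 5) (nat_lit 346) (nat_lit 295) (nat_lit 139)))))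 (XT.nd (nat_lit 234) (nat_lit 532) (nat_lit 0) (XT.nd (nat_lit 78) (nat_lit 0) (nat_lit 0) (XT.lf (nat_lit 0) (nat_lit 720745698) (nat_lit 380) (nat_lit 26805759502) (nat_lit 76) (nat_lit 1438889608) (nat_lit 65) (nat_lit 5) (nat_lit 70) (nat_lit 5) (nat_lit 66) (nat_lit 5) (nat_lit 347) (nat_lit 295) (nat_lit 138)) (XT.nd (nat_lit 78) (nat_lit 0) (nat_lit 0) (XT.lf (nat_lit 0) (nat_lit 4835123825) (nat_lit 380) (nat_lit 14593836907) (nat_lit 76) (nat_lit 10128521226) (nat_lit 65) (nat_lit 5) (nat_lit 70) (nat_lit 5) (nat_lit 66) (nat_lit 5) (nat_lit 348) (nat_lit 295) (nat_lit 137)) (XT.lf (nat_lit 0) (nat_lit 9067967225) (nat_lit 380) (nat_lit 2022467795) (nat_lit 76) (nat_lit 19077052176) (nat_lit 65) (nat_lit 5) (nat_lit 70) (nat_lit 5) (nat_lit 66) (nat_lit 5) (nat_lit 349) (nat_lit 295) (nat_lit 136)))) (XT.nd (nat_lit 78) (nat_lit 228) (nat_lit 0) (XT.lf (nat_lit 0) (nat_lit 11136648654)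 (nat_lit 304) (nat_lit 2393378122) (nat_lit 380) (nat_lit 17262705189) (nat_lit 61) (nat_lit 5) (nat_lit 65) (nat_lit 5) (nat_lit 66) (nat_lit 5) (nat_lit 350) (nat_lit 295) (nat_lit 135)) (XT.nd (nat_lit 78) (nat_lit 228) (nat_lit 0) (XT.lf (nat_lit 0) (nat_lit 18204913018) (nat_lit 380) (nat_lit 6774203538) (nat_lit 76) (nat_lit 6455254690) (nat_lit 61) (nat_lit 5) (nat_lit 66) (nat_lit 5) (nat_lit 62) (nat_lit 5) (nat_lit 351) (nat_lit 295) (nat_lit 134)) (XT.lf (nat_lit 0) (nat_lit 6592502302) (nat_lit 228) (nat_lit 16509987132) (nat_lit 304) (nat_lit 8990302903) (nat_lit 58) (nat_lit 5) (nat_lit 61) (nat_lit 5) (nat_lit 62) (nat_lit 5) (nat_lit 352) (nat_lit 295) (nat_lit 133))))))))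
noncomputable def xc197 : XT := (XT.nd (nat_lit 1794) (nat_lit 760) (nat_lit 0) (XT.nd (nat_lit 858) (nat_lit 836) (nat_lit 0) (XT.nd (nat_lit 390) (nat_lit 532) (nat_lit 0) (XT.nd (nat_lit 156) (nat_lit 228) (nat_lit 0) (XT.nd (nat_lit 78) (nat_lit 304) (nat_lit 0) (XT.lf (nat_lit 0) (nat_lit 20492561352) (nat_lit 228) (nat_lit 7718285661) (nat_lit 304) (nat_lit 4558209195) (nat_lit 58) (nat_lit 5) (nat_lit 61) (nat_lit 5) (nat_lit 62) (nat_lit 5) (nat_lit 353) (nat_lit 295) (nat_lit 132)) (XT.lf (nat_lit 0) (nat_lit 28323220) (nat_lit 304) (nat_lit 32114166897) (nat_lit 76) (nat_lit 1322473054) (nat_lit 54) (nat_lit 5) (nat_lit 58) (nat_lit 5) (nat_lit 55) (nat_lit 5) (nat_lit 354) (nat_lit 295) (nat_lit 131))) (XT.nd (nat_lit 78) (nat_lit 228) (nat_lit 0) (XT.lf (nat_lit 0) (nat_lit 4858032063) (nat_lit 304) (nat_lit 18668715663) (nat_lit 76) (nat_lit 10647735091) (nat_lit 54) (nat_lit 5) (nat_lit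 58) (nat_lit 5) (nat_lit 55) (nat_lit 5) (nat_lit 355) (nat_lit 295) (nat_lit 130)) (XT.nd (nat_lit 78) (nat_lit 228) (nat_lit 0) (XT.lf (nat_lit 0) (nat_lit 9828342206) (nat_lit 304) (nat_lit 4826185126) (nat_lit 76) (nat_lit 20250894541) (nat_lit 54) (nat_lit 5) (nat_lit 58) (nat_lit 5) (nat_lit 55) (nat_lit 5) (nat_lit 356) (nat_lit 295) (nat_lit 129)) (XT.lf (nat_lit 0) (nat_lit 9613106462) (nat_lit 228) (nat_lit 5422897239) (nat_lit 304) (nat_lit 20619643113) (nat_lit 51) (nat_lit 5) (nat_lit 54) (nat_lit 5) (nat_lit 55) (nat_lit 5) (nat_lit 357) (nat_lit 295) (nat_lit 128))))) (XT.nd (nat_lit 234) (nat_lit 304) (nat_lit 0) (XT.nd (nat_lit 78) (nat_lit 228) (nat_lit 0) (XT.lf (nat_lit 0) (nat_lit 20484266224) (nat_lit 304) (nat_lit 11888314807) (nat_lit 76) (nat_lit 4053271163) (nat_lit 51) (nat_lit 5) (nat_lit 55) (nat_lit 5) (nat_lit 52) (nat_lit 5) (nat_lit 358) (nat_lit 295) (nat_lit 127))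 (XT.nd (nat_lit 78) (nat_lit 0) (nat_lit 0) (XT.lf (nat_lit 0) (nat_lit 2683233528) (nat_lit 228) (nat_lit 23488227620) (nat_lit 304) (nat_lit 11045442741) (nat_lit 48) (nat_lit 5) (nat_lit 51) (nat_lit 5) (nat_lit 52) (nat_lit 5) (nat_lit 359) (nat_lit 295) (nat_lit 126)) (XT.lf (nat_lit 0) (nat_lit 17929714182) (nat_lit 228) (nat_lit 14215665678) (nat_lit 304) (nat_lit 5882828588) (nat_lit 48) (nat_lit 5) (nat_lit 51) (nat_lit 5) (nat_lit 52) (nat_lit 5) (nat_lit 360) (nat_lit 295) (nat_lit 125)))) (XT.nd (nat_lit 78) (nat_lit 304) (nat_lit 0) (XT.lf (nat_lit 0) (nat_lit 33627848546) (nat_lit 228) (nat_lit 4666841635) (nat_lit 304) (nat_lit 569281160) (nat_lit 48) (nat_lit 5) (nat_lit 51) (nat_lit 5) (nat_lit 52) (nat_lit 5) (nat_lit 361) (nat_lit 295) (nat_lit 124)) (XT.nd (nat_lit 78) (nat_lit 0) (nat_lit 0) (XT.lf (nat_lit 0) (nat_lit 4953560910) (nat_lit 304) (nat_lit 29552931656) (nat_lit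 76) (nat_lit 5212537310) (nat_lit 44) (nat_lit 5) (nat_lit 48) (nat_lit 5) (nat_lit 45) (nat_lit 5) (nat_lit 362) (nat_lit 295) (nat_lit 123)) (XT.lf (nat_lit 0) (nat_lit 10726532538) (nat_lit 304) (nat_lit 14518492791) (nat_lit 76) (nat_lit 15351673200) (nat_lit 44) (nat_lit 5) (nat_lit 48) (nat_lit 5) (nat_lit 45) (nat_lit 5) (nat_lit 363) (nat_lit 295) (nat_lit 122)))))) (XT.nd (nat_lit 468) (nat_lit 380) (nat_lit 0) (XT.nd (nat_lit 234) (nat_lit 228) (nat_lit 0) (XT.nd (nat_lit 78) (nat_lit 0) (nat_lit 0) (XT.lf (nat_lit 0) (nat_lit 980586043) (nat_lit 228) (nat_lit 15697923406) (nat_lit 304) (nat_lit 24822017234) (nat_lit 41) (nat_lit 5) (nat_lit 44) (nat_lit 5) (nat_lit 45) (nat_lit 5) (nat_lit 364) (nat_lit 295) (nat_lit 121)) (XT.nd (nat_lit 78) (nat_lit 0) (nat_lit 0) (XT.lf (nat_lit 0) (nat_lit 17236778345) (nat_lit 228) (nat_lit 5715318298) (nat_lit 304) (nat_lit 19475085321) (nat_lit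 41) (nat_lit 5) (nat_lit 44) (nat_lit 5) (nat_lit 45) (nat_lit 5) (nat_lit 365) (nat_lit 295) (nat_lit 120)) (XT.lf (nat_lit 0) (nat_lit 29454318385) (nat_lit 304) (nat_lit 9450282790) (nat_lit 76) (nat_lit 4475826622) (nat_lit 41) (nat_lit 5) (nat_lit 45) (nat_lit 5) (nat_lit 42) (nat_lit 5) (nat_lit 366) (nat_lit 295) (nat_lit 119)))) (XT.nd (nat_lit 78) (nat_lit 76) (nat_lit 0) (XT.lf (nat_lit 0) (nat_lit 6833555258) (nat_lit 152) (nat_lit 29436956650) (nat_lit 228) (nat_lit 8088195535) (nat_lit 39) (nat_lit 5) (nat_lit 41) (nat_lit 5) (nat_lit 42) (nat_lit 5) (nat_lit 367) (nat_lit 295) (nat_lit 118)) (XT.nd (nat_lit 78) (nat_lit 76) (nat_lit 0) (XT.lf (nat_lit 0) (nat_lit 23794435045) (nat_lit 152) (nat_lit 19588863260) (nat_lit 228) (nat_lit 1980277451) (nat_lit 39) (nat_lit 5) (nat_lit 41) (nat_lit 5) (nat_lit 42) (nat_lit 5) (nat_lit 368) (nat_lit 295) (nat_lit 117)) (XT.lf (nat_lit 0)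 (nat_lit 4223496664) (nat_lit 228) (nat_lit 5180999501) (nat_lit 76) (nat_lit 36992951899) (nat_lit 38) (nat_lit 5) (nat_lit 41) (nat_lit 5) (nat_lit 39) (nat_lit 5) (nat_lit 369) (nat_lit 295) (nat_lit 116))))) (XT.nd (nat_lit 234) (nat_lit 152) (nat_lit 0) (XT.nd (nat_lit 78) (nat_lit 0) (nat_lit 0) (XT.lf (nat_lit 0) (nat_lit 10696613307) (nat_lit 304) (nat_lit 35563600400) (nat_lit 76) (nat_lit 1197846897) (nat_lit 35) (nat_lit 5) (nat_lit 39) (nat_lit 5) (nat_lit 36) (nat_lit 5) (nat_lit 370) (nat_lit 295) (nat_lit 115)) (XT.nd (nat_lit 78) (nat_lit 0) (nat_lit 0) (XT.lf (nat_lit 0) (nat_lit 17506735158) (nat_lit 304) (nat_lit 19059158445) (nat_lit 76) (nat_lit 11980316664) (nat_lit 35) (nat_lit 5) (nat_lit 39) (nat_lit 5) (nat_lit 36) (nat_lit 5) (nat_lit 371) (nat_lit 295) (nat_lit 114)) (XT.lf (nat_lit 0) (nat_lit 24518114016) (nat_lit 304) (nat_lit 2064431534) (nat_lit 76) (nat_lit 23084553282)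 (nat_lit 35) (nat_lit 5) (nat_lit 39) (nat_lit 5) (nat_lit 36) (nat_lit 5) (nat_lit 372) (nat_lit 295) (nat_lit 113)))) (XT.nd (nat_lit 78) (nat_lit 0) (nat_lit 0) (XT.lf (nat_lit 0) (nat_lit 15742625420) (nat_lit 152) (nat_lit 16145578651) (nat_lit 228) (nat_lit 18928961805) (nat_lit 33) (nat_lit 5) (nat_lit 35) (nat_lit 5) (nat_lit 36) (nat_lit 5) (nat_lit 373) (nat_lit 295) (nat_lit 112)) (XT.nd (nat_lit 78) (nat_lit 0) (nat_lit 0) (XT.lf (nat_lit 0) (nat_lit 34121551964) (nat_lit 152) (nat_lit 5375775012) (nat_lit 228) (nat_lit 12503872889) (nat_lit 33) (nat_lit 5) (nat_lit 35) (nat_lit 5) (nat_lit 36) (nat_lit 5) (nat_lit 374) (nat_lit 295) (nat_lit 111)) (XT.lf (nat_lit 0) (nat_lit 47386832156) (nat_lit 228) (nat_lit 228461659) (nat_lit 76) (nat_lit 5603900556) (nat_lit 33) (nat_lit 5) (nat_lit 36) (nat_lit 5) (nat_lit 34) (nat_lit 5) (nat_lit 375) (nat_lit 295) (nat_lit 110))))))) (XT.nd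 (nat_lit 34398) (nat_lit 0) (nat_lit 11400) (XT.nd (nat_lit 468) (nat_lit 380) (nat_lit 0) (XT.nd (nat_lit 234) (nat_lit 152) (nat_lit 0) (XT.nd (nat_lit 78) (nat_lit 0) (nat_lit 0) (XT.lf (nat_lit 0) (nat_lit 1247144930) (nat_lit 228) (nat_lit 36228472351) (nat_lit 76) (nat_lit 16990970369) (nat_lit 30) (nat_lit 5) (nat_lit 33) (nat_lit 5) (nat_lit 31) (nat_lit 5) (nat_lit 376) (nat_lit 295) (nat_lit 109)) (XT.nd (nat_lit 78) (nat_lit 0) (nat_lit 0) (XT.lf (nat_lit 0) (nat_lit 8421386005) (nat_lit 228) (nat_lit 18550206066) (nat_lit 76) (nat_lit 28778093590) (nat_lit 30) (nat_lit 5) (nat_lit 33) (nat_lit 5) (nat_lit 31) (nat_lit 5) (nat_lit 377) (nat_lit 295) (nat_lit 108)) (XT.lf (nat_lit 0) (nat_lit 15808178161) (nat_lit 228) (nat_lit 345937765) (nat_lit 76) (nat_lit 40917243417) (nat_lit 30) (nat_lit 5) (nat_lit 33) (nat_lit 5) (nat_lit 31) (nat_lit 5) (nat_lit 378) (nat_lit 295) (nat_lit 107))))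 (XT.nd (nat_lit 78) (nat_lit 0) (nat_lit 0) (XT.lf (nat_lit 0) (nat_lit 18766440031) (nat_lit 152) (nat_lit 4827930347) (nat_lit 228) (nat_lit 34832981344) (nat_lit 28) (nat_lit 5) (nat_lit 30) (nat_lit 5) (nat_lit 31) (nat_lit 5) (nat_lit 379) (nat_lit 295) (nat_lit 106)) (XT.nd (nat_lit 78) (nat_lit 0) (nat_lit 0) (XT.lf (nat_lit 0) (nat_lit 31680829456) (nat_lit 228) (nat_lit 21434646230) (nat_lit 76) (nat_lit 6706550060) (nat_lit 28) (nat_lit 5) (nat_lit 31) (nat_lit 5) (nat_lit 29) (nat_lit 5) (nat_lit 380) (nat_lit 295) (nat_lit 105)) (XT.lf (nat_lit 0) (nat_lit 40055180472) (nat_lit 228) (nat_lit 2713512234) (nat_lit 76) (nat_lit 18488490578) (nat_lit 28) (nat_lit 5) (nat_lit 31) (nat_lit 5) (nat_lit 29) (nat_lit 5) (nat_lit 381) (nat_lit 295) (nat_lit 104))))) (XT.nd (nat_lit 234) (nat_lit 152) (nat_lit 0) (XT.nd (nat_lit 78) (nat_lit 76) (nat_lit 0) (XT.lf (nat_lit 0) (nat_lit 16894938693)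 (nat_lit 152) (nat_lit 31945797593) (nat_lit 228) (nat_lit 13889862209) (nat_lit 26) (nat_lit 5) (nat_lit 28) (nat_lit 5) (nat_lit 29) (nat_lit 5) (nat_lit 382) (nat_lit 295) (nat_lit 103)) (XT.nd (nat_lit 78) (nat_lit 76) (nat_lit 0) (XT.lf (nat_lit 0) (nat_lit 37143308493) (nat_lit 152) (nat_lit 20771553943) (nat_lit 228) (nat_lit 6332605725) (nat_lit 26) (nat_lit 5) (nat_lit 28) (nat_lit 5) (nat_lit 29) (nat_lit 5) (nat_lit 383) (nat_lit 295) (nat_lit 102)) (XT.lf (nat_lit 0) (nat_lit 1420694309) (nat_lit 228) (nat_lit 7828558471) (nat_lit 76) (nat_lit 56560245166) (nat_lit 25) (nat_lit 5) (nat_lit 28) (nat_lit 5) (nat_lit 26) (nat_lit 5) (nat_lit 384) (nat_lit 295) (nat_lit 101)))) (XT.nd (nat_lit 78) (nat_lit 0) (nat_lit 0) (XT.lf (nat_lit 0) (nat_lit 9421213458) (nat_lit 228) (nat_lit 55243163972) (nat_lit 76) (nat_lit 2747875177) (nat_lit 23) (nat_lit 5) (nat_lit 26) (nat_lit 5) (nat_lit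 24) (nat_lit 5) (nat_lit 385) (nat_lit 295) (nat_lit 100)) (XT.nd (nat_lit 78) (nat_lit 0) (nat_lit 0) (XT.lf (nat_lit 0) (nat_lit 17830892796) (nat_lit 228) (nat_lit 36229732100) (nat_lit 76) (nat_lit 14997392547) (nat_lit 23) (nat_lit 5) (nat_lit 26) (nat_lit 5) (nat_lit 24) (nat_lit 5) (nat_lit 386) (nat_lit 295) (nat_lit 99)) (XT.lf (nat_lit 0) (nat_lit 26490660631) (nat_lit 228) (nat_lit 16649583923) (nat_lit 76) (nat_lit 27612978548) (nat_lit 23) (nat_lit 5) (nat_lit 26) (nat_lit 5) (nat_lit 24) (nat_lit 5) (nat_lit 387) (nat_lit 295) (nat_lit 98)))))) (XT.nd (nat_lit 468) (nat_lit 0) (nat_lit 152) (XT.nd (nat_lit 234) (nat_lit 0) (nat_lit 76) (XT.nd (nat_lit 78) (nat_lit 0) (nat_lit 0) (XT.lf (nat_lit 0) (nat_lit 1036656304) (nat_lit 1140) (nat_lit 2533041228) (nat_lit 1140) (nat_lit 2533041228) (nat_lit 173) (nat_lit 3) (nat_lit 188) (nat_lit 3) (nat_lit 188) (nat_lit 5) (nat_lit 296) (nat_lit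 296) (nat_lit 188)) (XT.nd (nat_lit 78) (nat_lit 0) (nat_lit 76) (XT.lf (nat_lit 76) (nat_lit 189027453) (nat_lit 0) (nat_lit 2339435109) (nat_lit 1140) (nat_lit 9846530619) (nat_lit 174) (nat_lit 5) (nat_lit 173) (nat_lit 3) (nat_lit 188) (nat_lit 5) (nat_lit 297) (nat_lit 296) (nat_lit 187)) (XT.lf (nat_lit 0) (nat_lit 3057481195) (nat_lit 1064) (nat_lit 6877239846) (nat_lit 1140) (nat_lit 2613099820) (nat_lit 174) (nat_lit 5) (nat_lit 188) (nat_lit 5) (nat_lit 189) (nat_lit 5) (nat_lit 298) (nat_lit 296) (nat_lit 186)))) (XT.nd (nat_lit 78) (nat_lit 0) (nat_lit 76) (XT.lf (nat_lit 0) (nat_lit 3609527185) (nat_lit 1064) (nat_lit 1441422543) (nat_lit 1140) (nat_lit 7674700957) (nat_lit 174) (nat_lit 5) (nat_lit 188) (nat_lit 5) (nat_lit 189) (nat_lit 5) (nat_lit 299) (nat_lit 296) (nat_lit 185)) (XT.nd (nat_lit 78) (nat_lit 0) (nat_lit 0) (XT.lf (nat_lit 0) (nat_lit 4203537963) (nat_lit 1064)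 (nat_lit 8677070097) (nat_lit 1140) (nat_lit 27476326) (nat_lit 175) (nat_lit 5) (nat_lit 189) (nat_lit 5) (nat_lit 190) (nat_lit 5) (nat_lit 300) (nat_lit 296) (nat_lit 184)) (XT.lf (nat_lit 0) (nat_lit 4864970348) (nat_lit 1064) (nat_lit 3051743386) (nat_lit 1140) (nat_lit 5177819505) (nat_lit 175) (nat_lit 5) (nat_lit 189) (nat_lit 5) (nat_lit 190) (nat_lit 5) (nat_lit 301) (nat_lit 296) (nat_lit 183))))) (XT.nd (nat_lit 234) (nat_lit 0) (nat_lit 76) (XT.nd (nat_lit 78) (nat_lit 0) (nat_lit 76) (XT.lf (nat_lit 76) (nat_lit 2787803986) (nat_lit 0) (nat_lit 2770572054) (nat_lit 1140) (nat_lit 7727864909) (nat_lit 176) (nat_lit 5) (nat_lit 175) (nat_lit 5) (nat_lit 190) (nat_lit 5) (nat_lit 302) (nat_lit 296) (nat_lit 182)) (XT.nd (nat_lit 78) (nat_lit 0) (nat_lit 0) (XT.lf (nat_lit 0) (nat_lit 6313752114) (nat_lit 1064) (nat_lit 4651666872) (nat_lit 1140) (nat_lit 2517074304) (nat_lit 176) (nat_lit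 5) (nat_lit 190) (nat_lit 5) (nat_lit 191) (nat_lit 5) (nat_lit 303) (nat_lit 296) (nat_lit 181)) (XT.lf (nat_lit 76) (nat_lit 1360534095) (nat_lit 0) (nat_lit 5757907791) (nat_lit 1140) (nat_lit 6565419361) (nat_lit 177) (nat_lit 5) (nat_lit 176) (nat_lit 5) (nat_lit 191) (nat_lit 5) (nat_lit 304) (nat_lit 296) (nat_lit 180)))) (XT.nd (nat_lit 78) (nat_lit 0) (nat_lit 76) (XT.lf (nat_lit 76) (nat_lit 7639455080) (nat_lit 0) (nat_lit 341249802) (nat_lit 1140) (nat_lit 5909589199) (nat_lit 177) (nat_lit 5) (nat_lit 176) (nat_lit 5) (nat_lit 191) (nat_lit 5) (nat_lit 305) (nat_lit 296) (nat_lit 179)) (XT.nd (nat_lit 78) (nat_lit 0) (nat_lit 0) (XT.lf (nat_lit 0) (nat_lit 8906082299) (nat_lit 1064) (nat_lit 55727425) (nat_lit 1140) (nat_lit 5140018814) (nat_lit 177) (nat_lit 5) (nat_lit 191) (nat_lit 5) (nat_lit 192) (nat_lit 5) (nat_lit 306) (nat_lit 296) (nat_lit 178)) (XT.lf (nat_lit 76) (nat_lit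 6438565138) (nat_lit 0) (nat_lit 3473204246) (nat_lit 1140) (nat_lit 4406388468) (nat_lit 178) (nat_lit 5) (nat_lit 177) (nat_lit 5) (nat_lit 192) (nat_lit 5) (nat_lit 307) (nat_lit 296) (nat_lit 177))))))))
noncomputable def xc198 : XT := (XT.nd (nat_lit 1794) (nat_lit 3572) (nat_lit 0) (XT.nd (nat_lit 858) (nat_lit 2964) (nat_lit 0) (XT.nd (nat_lit 390) (nat_lit 1520) (nat_lit 0) (XT.nd (nat_lit 156) (nat_lit 1064) (nat_lit 0) (XT.nd (nat_lit 78) (nat_lit 0) (nat_lit 0) (XT.lf (nat_lit 0) (nat_lit 10956749689) (nat_lit 1064) (nat_lit 1442370771) (nat_lit 1140) (nat_lit 2141607446) (nat_lit 178) (nat_lit 5) (nat_lit 192) (nat_lit 5) (nat_lit 193) (nat_lit 5) (nat_lit 308) (nat_lit 296) (nat_lit 176)) (XT.lf (nat_lit 76) (nat_lit 5246959161) (nat_lit 0) (nat_lit 6858904832) (nat_lit 1140) (nat_lit 2661951356) (nat_lit 179) (nat_lit 5) (nat_lit 178) (nat_lit 5) (nat_lit 193) (nat_lit 5) (nat_lit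 309) (nat_lit 296) (nat_lit 175))) (XT.nd (nat_lit 78) (nat_lit 1064) (nat_lit 0) (XT.lf (nat_lit 76) (nat_lit 12157616909) (nat_lit 0) (nat_lit 1134624340) (nat_lit 1140) (nat_lit 1709413609) (nat_lit 179) (nat_lit 5) (nat_lit 178) (nat_lit 5) (nat_lit 193) (nat_lit 5) (nat_lit 310) (nat_lit 296) (nat_lit 174)) (XT.nd (nat_lit 78) (nat_lit 1140) (nat_lit 0) (XT.lf (nat_lit 76) (nat_lit 4057439168) (nat_lit 0) (nat_lit 10530136626) (nat_lit 1140) (nat_lit 652755236) (nat_lit 180) (nat_lit 5) (nat_lit 179) (nat_lit 5) (nat_lit 194) (nat_lit 5) (nat_lit 311) (nat_lit 296) (nat_lit 173)) (XT.lf (nat_lit 0) (nat_lit 456048394) (nat_lit 1140) (nat_lit 4285959587) (nat_lit 1216) (nat_lit 10743186685) (nat_lit 164) (nat_lit 5) (nat_lit 179) (nat_lit 5) (nat_lit 180) (nat_lit 5) (nat_lit 312) (nat_lit 296) (nat_lit 172))))) (XT.nd (nat_lit 234) (nat_lit 532) (nat_lit 0) (XT.nd (nat_lit 78) (nat_lit 1064)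 (nat_lit 0) (XT.lf (nat_lit 0) (nat_lit 1613589365) (nat_lit 1140) (nat_lit 12890564080) (nat_lit 76) (nat_lit 1232219640) (nat_lit 165) (nat_lit 5) (nat_lit 180) (nat_lit 5) (nat_lit 166) (nat_lit 5) (nat_lit 313) (nat_lit 296) (nat_lit 171)) (XT.nd (nat_lit 78) (nat_lit 1064) (nat_lit 0) (XT.lf (nat_lit 0) (nat_lit 2885804793) (nat_lit 1140) (nat_lit 5770991632) (nat_lit 76) (nat_lit 7335911935) (nat_lit 165) (nat_lit 5) (nat_lit 180) (nat_lit 5) (nat_lit 166) (nat_lit 5) (nat_lit 314) (nat_lit 296) (nat_lit 170)) (XT.lf (nat_lit 0) (nat_lit 1584135807) (nat_lit 1064) (nat_lit 2616879874) (nat_lit 1140) (nat_lit 12055592515) (nat_lit 151) (nat_lit 5) (nat_lit 165) (nat_lit 5) (nat_lit 166) (nat_lit 5) (nat_lit 315) (nat_lit 296) (nat_lit 169)))) (XT.nd (nat_lit 78) (nat_lit 532) (nat_lit 0) (XT.lf (nat_lit 0) (nat_lit 5639013469) (nat_lit 1140) (nat_lit 7292876759) (nat_lit 76) (nat_lit 3594053688)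 (nat_lit 151) (nat_lit 5) (nat_lit 166) (nat_lit 5) (nat_lit 152) (nat_lit 5) (nat_lit 316) (nat_lit 296) (nat_lit 168)) (XT.nd (nat_lit 78) (nat_lit 0) (nat_lit 0) (XT.lf (nat_lit 0) (nat_lit 278709794) (nat_lit 532) (nat_lit 6860158171) (nat_lit 608) (nat_lit 9663948499) (nat_lit 144) (nat_lit 5) (nat_lit 151) (nat_lit 5) (nat_lit 152) (nat_lit 5) (nat_lit 317) (nat_lit 296) (nat_lit 167)) (XT.lf (nat_lit 0) (nat_lit 8218102401) (nat_lit 532) (nat_lit 529589970) (nat_lit 608) (nat_lit 8338401316) (nat_lit 144) (nat_lit 5) (nat_lit 151) (nat_lit 5) (nat_lit 152) (nat_lit 5) (nat_lit 318) (nat_lit 296) (nat_lit 166)))))) (XT.nd (nat_lit 468) (nat_lit 1292) (nat_lit 0) (XT.nd (nat_lit 234) (nat_lit 1140) (nat_lit 0) (XT.nd (nat_lit 78) (nat_lit 532) (nat_lit 0) (XT.lf (nat_lit 0) (nat_lit 10452989573) (nat_lit 608) (nat_lit 1048668133) (nat_lit 76) (nat_lit 5874782491) (nat_lit 144) (nat_lit 5)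 (nat_lit 152) (nat_lit 5) (nat_lit 145) (nat_lit 5) (nat_lit 319) (nat_lit 296) (nat_lit 165)) (XT.nd (nat_lit 78) (nat_lit 0) (nat_lit 0) (XT.lf (nat_lit 0) (nat_lit 7130504392) (nat_lit 532) (nat_lit 5143620652) (nat_lit 608) (nat_lit 5399448387) (nat_lit 137) (nat_lit 5) (nat_lit 144) (nat_lit 5) (nat_lit 145) (nat_lit 5) (nat_lit 320) (nat_lit 296) (nat_lit 164)) (XT.lf (nat_lit 0) (nat_lit 14165176036) (nat_lit 608) (nat_lit 2425197967) (nat_lit 76) (nat_lit 1388804437) (nat_lit 137) (nat_lit 5) (nat_lit 145) (nat_lit 5) (nat_lit 138) (nat_lit 5) (nat_lit 321) (nat_lit 296) (nat_lit 163)))) (XT.nd (nat_lit 78) (nat_lit 608) (nat_lit 0) (XT.lf (nat_lit 0) (nat_lit 5993665871) (nat_lit 532) (nat_lit 10219174102) (nat_lit 608) (nat_lit 2078130935) (nat_lit 130) (nat_lit 5) (nat_lit 137) (nat_lit 5) (nat_lit 138) (nat_lit 5) (nat_lit 322) (nat_lit 296) (nat_lit 162)) (XT.nd (nat_lit 78) (nat_lit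 608) (nat_lit 0) (XT.lf (nat_lit 0) (nat_lit 14706319430) (nat_lit 532) (nat_lit 3631614464) (nat_lit 608) (nat_lit 273718545) (nat_lit 130) (nat_lit 5) (nat_lit 137) (nat_lit 5) (nat_lit 138) (nat_lit 5) (nat_lit 323) (nat_lit 296) (nat_lit 161)) (XT.lf (nat_lit 0) (nat_lit 1622706657) (nat_lit 608) (nat_lit 14162724019) (nat_lit 76) (nat_lit 3154016941) (nat_lit 122) (nat_lit 5) (nat_lit 130) (nat_lit 5) (nat_lit 123) (nat_lit 5) (nat_lit 324) (nat_lit 296) (nat_lit 160))))) (XT.nd (nat_lit 234) (nat_lit 836) (nat_lit 0) (XT.nd (nat_lit 78) (nat_lit 456) (nat_lit 0) (XT.lf (nat_lit 0) (nat_lit 3638128925) (nat_lit 608) (nat_lit 5524251834) (nat_lit 76) (nat_lit 10112600411) (nat_lit 122) (nat_lit 5) (nat_lit 130) (nat_lit 5) (nat_lit 123) (nat_lit 5) (nat_lit 325) (nat_lit 296) (nat_lit 159)) (XT.nd (nat_lit 78) (nat_lit 0) (nat_lit 0) (XT.lf (nat_lit 0) (nat_lit 3431997031) (nat_lit 456) (nat_lit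 2307068000) (nat_lit 532) (nat_lit 13880777749) (nat_lit 116) (nat_lit 5) (nat_lit 122) (nat_lit 5) (nat_lit 123) (nat_lit 5) (nat_lit 326) (nat_lit 296) (nat_lit 158)) (XT.lf (nat_lit 0) (nat_lit 7997270980) (nat_lit 532) (nat_lit 7257959836) (nat_lit 76) (nat_lit 4717005359) (nat_lit 116) (nat_lit 5) (nat_lit 123) (nat_lit 5) (nat_lit 117) (nat_lit 5) (nat_lit 327) (nat_lit 296) (nat_lit 157)))) (XT.nd (nat_lit 78) (nat_lit 380) (nat_lit 0) (XT.lf (nat_lit 0) (nat_lit 1946707002) (nat_lit 456) (nat_lit 8410506150) (nat_lit 532) (nat_lit 9976981327) (nat_lit 110) (nat_lit 5) (nat_lit 116) (nat_lit 5) (nat_lit 117) (nat_lit 5) (nat_lit 328) (nat_lit 296) (nat_lit 156)) (XT.nd (nat_lit 78) (nat_lit 380) (nat_lit 0) (XT.lf (nat_lit 0) (nat_lit 11568115235) (nat_lit 456) (nat_lit 1285706082) (nat_lit 532) (nat_lit 7851226616) (nat_lit 110) (nat_lit 5) (nat_lit 116) (nat_lit 5) (nat_lit 117) (nat_lit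 5) (nat_lit 329) (nat_lit 296) (nat_lit 155)) (XT.lf (nat_lit 0) (nat_lit 331256491) (nat_lit 380) (nat_lit 15148224783) (nat_lit 456) (nat_lit 5605933182) (nat_lit 105) (nat_lit 5) (nat_lit 110) (nat_lit 5) (nat_lit 111) (nat_lit 5) (nat_lit 330) (nat_lit 296) (nat_lit 154))))))) (XT.nd (nat_lit 936) (nat_lit 1520) (nat_lit 0) (XT.nd (nat_lit 468) (nat_lit 1140) (nat_lit 0) (XT.nd (nat_lit 234) (nat_lit 380) (nat_lit 0) (XT.nd (nat_lit 78) (nat_lit 532) (nat_lit 0) (XT.lf (nat_lit 0) (nat_lit 10249723775) (nat_lit 380) (nat_lit 8031975473) (nat_lit 456) (nat_lit 3192570799) (nat_lit 105) (nat_lit 5) (nat_lit 110) (nat_lit 5) (nat_lit 111) (nat_lit 5) (nat_lit 331) (nat_lit 296) (nat_lit 153)) (XT.nd (nat_lit 78) (nat_lit 532) (nat_lit 0) (XT.lf (nat_lit 0) (nat_lit 20457897861) (nat_lit 380) (nat_lit 703210322) (nat_lit 456) (nat_lit 713900769) (nat_lit 105) (nat_lit 5) (nat_lit 110) (nat_lit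 5) (nat_lit 111) (nat_lit 5) (nat_lit 332) (nat_lit 296) (nat_lit 152)) (XT.lf (nat_lit 0) (nat_lit 1948190446) (nat_lit 532) (nat_lit 13520276638) (nat_lit 76) (nat_lit 6814434826) (nat_lit 98) (nat_lit 5) (nat_lit 105) (nat_lit 5) (nat_lit 99) (nat_lit 5) (nat_lit 333) (nat_lit 296) (nat_lit 151)))) (XT.nd (nat_lit 78) (nat_lit 380) (nat_lit 0) (XT.lf (nat_lit 0) (nat_lit 4690570259) (nat_lit 532) (nat_lit 3447858503) (nat_lit 76) (nat_lit 14563958022) (nat_lit 98) (nat_lit 5) (nat_lit 105) (nat_lit 5) (nat_lit 99) (nat_lit 5) (nat_lit 334) (nat_lit 296) (nat_lit 150)) (XT.nd (nat_lit 78) (nat_lit 0) (nat_lit 0) (XT.lf (nat_lit 0) (nat_lit 7056778274) (nat_lit 380) (nat_lit 519831002) (nat_lit 456) (nat_lit 15556015403) (nat_lit 93) (nat_lit 5) (nat_lit 98) (nat_lit 5) (nat_lit 99) (nat_lit 5) (nat_lit 335) (nat_lit 296) (nat_lit 149)) (XT.lf (nat_lit 0) (nat_lit 10648482115) (nat_lit 456) (nat_lit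 5706042514) (nat_lit 76) (nat_lit 7218277318) (nat_lit 93) (nat_lit 5) (nat_lit 99) (nat_lit 5) (nat_lit 94) (nat_lit 5) (nat_lit 336) (nat_lit 296) (nat_lit 148))))) (XT.nd (nat_lit 234) (nat_lit 456) (nat_lit 0) (XT.nd (nat_lit 78) (nat_lit 304) (nat_lit 0) (XT.lf (nat_lit 0) (nat_lit 5060922043) (nat_lit 380) (nat_lit 8799225966) (nat_lit 456) (nat_lit 10164616946) (nat_lit 88) (nat_lit 5) (nat_lit 93) (nat_lit 5) (nat_lit 94) (nat_lit 5) (nat_lit 337) (nat_lit 296) (nat_lit 147)) (XT.nd (nat_lit 78) (nat_lit 304) (nat_lit 0) (XT.lf (nat_lit 0) (nat_lit 16260394344) (nat_lit 380) (nat_lit 959338306) (nat_lit 456) (nat_lit 7269016393) (nat_lit 88) (nat_lit 5) (nat_lit 93) (nat_lit 5) (nat_lit 94) (nat_lit 5) (nat_lit 338) (nat_lit 296) (nat_lit 146)) (XT.lf (nat_lit 0) (nat_lit 2808170881) (nat_lit 304) (nat_lit 17961440645) (nat_lit 380) (nat_lit 4194364908) (nat_lit 84) (nat_lit 5) (nat_lit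 88) (nat_lit 5) (nat_lit 89) (nat_lit 5) (nat_lit 339) (nat_lit 296) (nat_lit 145)))) (XT.nd (nat_lit 78) (nat_lit 456) (nat_lit 0) (XT.lf (nat_lit 0) (nat_lit 14327426879) (nat_lit 304) (nat_lit 10185268186) (nat_lit 380) (nat_lit 938173055) (nat_lit 84) (nat_lit 5) (nat_lit 88) (nat_lit 5) (nat_lit 89) (nat_lit 5) (nat_lit 340) (nat_lit 296) (nat_lit 144)) (XT.nd (nat_lit 78) (nat_lit 0) (nat_lit 0) (XT.lf (nat_lit 0) (nat_lit 213582203) (nat_lit 380) (nat_lit 2151353733) (nat_lit 456) (nat_lit 23586851088) (nat_lit 78) (nat_lit 5) (nat_lit 83) (nat_lit 5) (nat_lit 84) (nat_lit 5) (nat_lit 341) (nat_lit 296) (nat_lit 143)) (XT.lf (nat_lit 0) (nat_lit 5914980937) (nat_lit 456) (nat_lit 14422239646) (nat_lit 76) (nat_lit 6125241256) (nat_lit 78) (nat_lit 5) (nat_lit 84) (nat_lit 5) (nat_lit 79) (nat_lit 5) (nat_lit 342) (nat_lit 296) (nat_lit 142)))))) (XT.nd (nat_lit 468) (nat_lit 532) (nat_lit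 0) (XT.nd (nat_lit 234) (nat_lit 684) (nat_lit 0) (XT.nd (nat_lit 78) (nat_lit 304) (nat_lit 0) (XT.lf (nat_lit 0) (nat_lit 9587389404) (nat_lit 456) (nat_lit 2795229388) (nat_lit 76) (nat_lit 14605369990) (nat_lit 78) (nat_lit 5) (nat_lit 84) (nat_lit 5) (nat_lit 79) (nat_lit 5) (nat_lit 343) (nat_lit 296) (nat_lit 141)) (XT.nd (nat_lit 78) (nat_lit 0) (nat_lit 0) (XT.lf (nat_lit 0) (nat_lit 9356239537) (nat_lit 304) (nat_lit 4098388473) (nat_lit 380) (nat_lit 14072121309) (nat_lit 74) (nat_lit 5) (nat_lit 78) (nat_lit 5) (nat_lit 79) (nat_lit 5) (nat_lit 344) (nat_lit 296) (nat_lit 140)) (XT.lf (nat_lit 0) (nat_lit 17503807287) (nat_lit 380) (nat_lit 6201183959) (nat_lit 76) (nat_lit 4374711025) (nat_lit 74) (nat_lit 5) (nat_lit 79) (nat_lit 5) (nat_lit 75) (nat_lit 5) (nat_lit 345) (nat_lit 296) (nat_lit 139)))) (XT.nd (nat_lit 78) (nat_lit 380) (nat_lit 0) (XT.lf (nat_lit 0) (nat_lit 6200843618)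 (nat_lit 304) (nat_lit 15568746267) (nat_lit 380) (nat_lit 6876807179) (nat_lit 70) (nat_lit 5) (nat_lit 74) (nat_lit 5) (nat_lit 75) (nat_lit 5) (nat_lit 346) (nat_lit 296) (nat_lit 138)) (XT.nd (nat_lit 78) (nat_lit 380) (nat_lit 0) (XT.lf (nat_lit 0) (nat_lit 19095316176) (nat_lit 304) (nat_lit 7125675665) (nat_lit 380) (nat_lit 3007378368) (nat_lit 70) (nat_lit 5) (nat_lit 74) (nat_lit 5) (nat_lit 75) (nat_lit 5) (nat_lit 347) (nat_lit 296) (nat_lit 137)) (XT.lf (nat_lit 0) (nat_lit 994414581) (nat_lit 380) (nat_lit 27259165399) (nat_lit 76) (nat_lit 1572885937) (nat_lit 65) (nat_lit 5) (nat_lit 70) (nat_lit 5) (nat_lit 66) (nat_lit 5) (nat_lit 348) (nat_lit 296) (nat_lit 136))))) (XT.nd (nat_lit 234) (nat_lit 228) (nat_lit 0) (XT.nd (nat_lit 78) (nat_lit 304) (nat_lit 0) (XT.lf (nat_lit 0) (nat_lit 5224882892) (nat_lit 380) (nat_lit 14691101639) (nat_lit 76) (nat_lit 10520560980) (nat_lit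 65) (nat_lit 5) (nat_lit 70) (nat_lit 5) (nat_lit 66) (nat_lit 5) (nat_lit 349) (nat_lit 296) (nat_lit 135)) (XT.nd (nat_lit 78) (nat_lit 304) (nat_lit 0) (XT.lf (nat_lit 0) (nat_lit 9577584253) (nat_lit 380) (nat_lit 1752510396) (nat_lit 76) (nat_lit 19734979390) (nat_lit 65) (nat_lit 5) (nat_lit 70) (nat_lit 5) (nat_lit 66) (nat_lit 5) (nat_lit 350) (nat_lit 296) (nat_lit 134)) (XT.lf (nat_lit 0) (nat_lit 11798138062) (nat_lit 304) (nat_lit 2371594853) (nat_lit 380) (nat_lit 17539465457) (nat_lit 61) (nat_lit 5) (nat_lit 65) (nat_lit 5) (nat_lit 66) (nat_lit 5) (nat_lit 351) (nat_lit 296) (nat_lit 133)))) (XT.nd (nat_lit 78) (nat_lit 228) (nat_lit 0) (XT.lf (nat_lit 0) (nat_lit 18978929271) (nat_lit 380) (nat_lit 6653346239) (nat_lit 76) (nat_lit 6737998194) (nat_lit 61) (nat_lit 5) (nat_lit 66) (nat_lit 5) (nat_lit 62) (nat_lit 5) (nat_lit 352) (nat_lit 296) (nat_lit 132)) (XT.nd (nat_lit 78)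 (nat_lit 0) (nat_lit 0) (XT.lf (nat_lit 0) (nat_lit 7111183488) (nat_lit 228) (nat_lit 16908697279) (nat_lit 304) (nat_lit 9028681749) (nat_lit 58) (nat_lit 5) (nat_lit 61) (nat_lit 5) (nat_lit 62) (nat_lit 5) (nat_lit 353) (nat_lit 296) (nat_lit 131)) (XT.lf (nat_lit 0) (nat_lit 21418897530) (nat_lit 228) (nat_lit 7856058050) (nat_lit 304) (nat_lit 4470363004) (nat_lit 58) (nat_lit 5) (nat_lit 61) (nat_lit 5) (nat_lit 62) (nat_lit 5) (nat_lit 354) (nat_lit 296) (nat_lit 130))))))))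
noncomputable def xc199 : XT := (XT.nd (nat_lit 1794) (nat_lit 532) (nat_lit 0) (XT.nd (nat_lit 858) (nat_lit 836) (nat_lit 0) (XT.nd (nat_lit 390) (nat_lit 760) (nat_lit 0) (XT.nd (nat_lit 156) (nat_lit 228) (nat_lit 0) (XT.nd (nat_lit 78) (nat_lit 0) (nat_lit 0) (XT.lf (nat_lit 0) (nat_lit 246904430) (nat_lit 304) (nat_lit 32758643847) (nat_lit 76) (nat_lit 1456571861) (nat_lit 54) (nat_lit 5) (nat_lit 58) (nat_lit 5) (nat_lit 55) (nat_lit 5) (nat_lit 355) (nat_lit 296) (nat_lit 129)) (XT.lf (nat_lit 0) (nat_lit 5215162843) (nat_lit 304) (nat_lit 18919118825) (nat_lit 76) (nat_lit 11058841528) (nat_lit 54) (nat_lit 5) (nat_lit 58) (nat_lit 5) (nat_lit 55) (nat_lit 5) (nat_lit 356) (nat_lit 296) (nat_lit 128))) (XT.nd (nat_lit 78) (nat_lit 228) (nat_lit 0) (XT.lf (nat_lit 0) (nat_lit 10328425306) (nat_lit 304) (nat_lit 4670331545) (nat_lit 76) (nat_lit 20947425634) (nat_lit 54) (nat_lit 5) (nat_lit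 58) (nat_lit 5) (nat_lit 55) (nat_lit 5) (nat_lit 357) (nat_lit 296) (nat_lit 127)) (XT.nd (nat_lit 78) (nat_lit 0) (nat_lit 0) (XT.lf (nat_lit 0) (nat_lit 10199191347) (nat_lit 228) (nat_lit 5490009237) (nat_lit 304) (nat_lit 21029814209) (nat_lit 51) (nat_lit 5) (nat_lit 54) (nat_lit 5) (nat_lit 55) (nat_lit 5) (nat_lit 358) (nat_lit 296) (nat_lit 126)) (XT.lf (nat_lit 0) (nat_lit 21295916053) (nat_lit 304) (nat_lit 11950717269) (nat_lit 76) (nat_lit 4265849791) (nat_lit 51) (nat_lit 5) (nat_lit 55) (nat_lit 5) (nat_lit 52) (nat_lit 5) (nat_lit 359) (nat_lit 296) (nat_lit 125))))) (XT.nd (nat_lit 234) (nat_lit 532) (nat_lit 0) (XT.nd (nat_lit 78) (nat_lit 0) (nat_lit 0) (XT.lf (nat_lit 0) (nat_lit 3055092742) (nat_lit 228) (nat_lit 24095693422) (nat_lit 304) (nat_lit 11176575143) (nat_lit 48) (nat_lit 5) (nat_lit 51) (nat_lit 5) (nat_lit 52) (nat_lit 5) (nat_lit 360) (nat_lit 296) (nat_lit 124))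 (XT.nd (nat_lit 78) (nat_lit 0) (nat_lit 0) (XT.lf (nat_lit 0) (nat_lit 18750481537) (nat_lit 228) (nat_lit 14547785137) (nat_lit 304) (nat_lit 5864914533) (nat_lit 48) (nat_lit 5) (nat_lit 51) (nat_lit 5) (nat_lit 52) (nat_lit 5) (nat_lit 361) (nat_lit 296) (nat_lit 123)) (XT.lf (nat_lit 0) (nat_lit 34911320828) (nat_lit 228) (nat_lit 4715244445) (nat_lit 304) (nat_lit 397622786) (nat_lit 48) (nat_lit 5) (nat_lit 51) (nat_lit 5) (nat_lit 52) (nat_lit 5) (nat_lit 362) (nat_lit 296) (nat_lit 122)))) (XT.nd (nat_lit 78) (nat_lit 228) (nat_lit 0) (XT.lf (nat_lit 0) (nat_lit 5285381376) (nat_lit 304) (nat_lit 30158955123) (nat_lit 76) (nat_lit 5460568608) (nat_lit 44) (nat_lit 5) (nat_lit 48) (nat_lit 5) (nat_lit 45) (nat_lit 5) (nat_lit 363) (nat_lit 296) (nat_lit 121)) (XT.nd (nat_lit 78) (nat_lit 228) (nat_lit 0) (XT.lf (nat_lit 0) (nat_lit 11226205833) (nat_lit 304) (nat_lit 14681654873) (nat_lit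 76) (nat_lit 15901209007) (nat_lit 44) (nat_lit 5) (nat_lit 48) (nat_lit 5) (nat_lit 45) (nat_lit 5) (nat_lit 364) (nat_lit 296) (nat_lit 120)) (XT.lf (nat_lit 0) (nat_lit 1279725809) (nat_lit 228) (nat_lit 16074428084) (nat_lit 304) (nat_lit 25385942098) (nat_lit 41) (nat_lit 5) (nat_lit 44) (nat_lit 5) (nat_lit 45) (nat_lit 5) (nat_lit 365) (nat_lit 296) (nat_lit 119)))))) (XT.nd (nat_lit 468) (nat_lit 380) (nat_lit 0) (XT.nd (nat_lit 234) (nat_lit 304) (nat_lit 0) (XT.nd (nat_lit 78) (nat_lit 152) (nat_lit 0) (XT.lf (nat_lit 0) (nat_lit 18015747894) (nat_lit 228) (nat_lit 5795095300) (nat_lit 304) (nat_lit 19883866373) (nat_lit 41) (nat_lit 5) (nat_lit 44) (nat_lit 5) (nat_lit 45) (nat_lit 5) (nat_lit 366) (nat_lit 296) (nat_lit 118)) (XT.nd (nat_lit 78) (nat_lit 152) (nat_lit 0) (XT.lf (nat_lit 0) (nat_lit 30504030422) (nat_lit 304) (nat_lit 9475274044) (nat_lit 76) (nat_lit 4697376654) (nat_lit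 41) (nat_lit 5) (nat_lit 45) (nat_lit 5) (nat_lit 42) (nat_lit 5) (nat_lit 367) (nat_lit 296) (nat_lit 117)) (XT.lf (nat_lit 0) (nat_lit 7294544663) (nat_lit 152) (nat_lit 30227788397) (nat_lit 228) (nat_lit 8162052553) (nat_lit 39) (nat_lit 5) (nat_lit 41) (nat_lit 5) (nat_lit 42) (nat_lit 5) (nat_lit 368) (nat_lit 296) (nat_lit 116)))) (XT.nd (nat_lit 78) (nat_lit 304) (nat_lit 0) (XT.lf (nat_lit 0) (nat_lit 24756795036) (nat_lit 152) (nat_lit 20086939883) (nat_lit 228) (nat_lit 1875813106) (nat_lit 39) (nat_lit 5) (nat_lit 41) (nat_lit 5) (nat_lit 42) (nat_lit 5) (nat_lit 369) (nat_lit 296) (nat_lit 115)) (XT.nd (nat_lit 78) (nat_lit 228) (nat_lit 0) (XT.lf (nat_lit 0) (nat_lit 4506196633) (nat_lit 228) (nat_lit 5091879294) (nat_lit 76) (nat_lit 38186458432) (nat_lit 38) (nat_lit 5) (nat_lit 41) (nat_lit 5) (nat_lit 39) (nat_lit 5) (nat_lit 370) (nat_lit 296) (nat_lit 114)) (XT.lf (nat_lit 0)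 (nat_lit 11172140448) (nat_lit 304) (nat_lit 36384439180) (nat_lit 76) (nat_lit 1320431218) (nat_lit 35) (nat_lit 5) (nat_lit 39) (nat_lit 5) (nat_lit 36) (nat_lit 5) (nat_lit 371) (nat_lit 296) (nat_lit 113))))) (XT.nd (nat_lit 234) (nat_lit 228) (nat_lit 0) (XT.nd (nat_lit 78) (nat_lit 152) (nat_lit 0) (XT.lf (nat_lit 0) (nat_lit 18182062206) (nat_lit 304) (nat_lit 19392031032) (nat_lit 76) (nat_lit 12423851324) (nat_lit 35) (nat_lit 5) (nat_lit 39) (nat_lit 5) (nat_lit 36) (nat_lit 5) (nat_lit 372) (nat_lit 296) (nat_lit 112)) (XT.nd (nat_lit 78) (nat_lit 152) (nat_lit 0) (XT.lf (nat_lit 0) (nat_lit 25399409856) (nat_lit 304) (nat_lit 1894420628) (nat_lit 76) (nat_lit 23858764792) (nat_lit 35) (nat_lit 5) (nat_lit 39) (nat_lit 5) (nat_lit 36) (nat_lit 5) (nat_lit 373) (nat_lit 296) (nat_lit 111)) (XT.lf (nat_lit 0) (nat_lit 16444574075) (nat_lit 152) (nat_lit 16543991050) (nat_lit 228) (nat_lit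 19348664526) (nat_lit 33) (nat_lit 5) (nat_lit 35) (nat_lit 5) (nat_lit 36) (nat_lit 5) (nat_lit 374) (nat_lit 296) (nat_lit 110)))) (XT.nd (nat_lit 78) (nat_lit 228) (nat_lit 0) (XT.lf (nat_lit 0) (nat_lit 35368179001) (nat_lit 152) (nat_lit 5453596845) (nat_lit 228) (nat_lit 12735138461) (nat_lit 33) (nat_lit 5) (nat_lit 35) (nat_lit 5) (nat_lit 36) (nat_lit 5) (nat_lit 375) (nat_lit 296) (nat_lit 109)) (XT.nd (nat_lit 78) (nat_lit 228) (nat_lit 0) (XT.lf (nat_lit 0) (nat_lit 48944681048) (nat_lit 228) (nat_lit 15412745) (nat_lit 76) (nat_lit 5851457359) (nat_lit 33) (nat_lit 5) (nat_lit 36) (nat_lit 5) (nat_lit 34) (nat_lit 5) (nat_lit 376) (nat_lit 296) (nat_lit 108)) (XT.lf (nat_lit 0) (nat_lit 1420383834) (nat_lit 228) (nat_lit 37094752323) (nat_lit 76) (nat_lit 17581250216) (nat_lit 30) (nat_lit 5) (nat_lit 33) (nat_lit 5) (nat_lit 31) (nat_lit 5) (nat_lit 377) (nat_lit 296) (nat_lit 107)))))))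 (XT.nd (nat_lit 34554) (nat_lit 0) (nat_lit 11476) (XT.nd (nat_lit 468) (nat_lit 228) (nat_lit 0) (XT.nd (nat_lit 234) (nat_lit 152) (nat_lit 0) (XT.nd (nat_lit 78) (nat_lit 152) (nat_lit 0) (XT.lf (nat_lit 0) (nat_lit 8805896087) (nat_lit 228) (nat_lit 18892562541) (nat_lit 76) (nat_lit 29719640996) (nat_lit 30) (nat_lit 5) (nat_lit 33) (nat_lit 5) (nat_lit 31) (nat_lit 5) (nat_lit 378) (nat_lit 296) (nat_lit 106)) (XT.nd (nat_lit 78) (nat_lit 152) (nat_lit 0) (XT.lf (nat_lit 0) (nat_lit 16410451177) (nat_lit 228) (nat_lit 148403561) (nat_lit 76) (nat_lit 42220687514) (nat_lit 30) (nat_lit 5) (nat_lit 33) (nat_lit 5) (nat_lit 31) (nat_lit 5) (nat_lit 379) (nat_lit 296) (nat_lit 105)) (XT.lf (nat_lit 0) (nat_lit 19535307213) (nat_lit 152) (nat_lit 4893171974) (nat_lit 228) (nat_lit 35747791124) (nat_lit 28) (nat_lit 5) (nat_lit 30) (nat_lit 5) (nat_lit 31) (nat_lit 5) (nat_lit 380) (nat_lit 296)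 (nat_lit 104)))) (XT.nd (nat_lit 78) (nat_lit 152) (nat_lit 0) (XT.lf (nat_lit 0) (nat_lit 32754596889) (nat_lit 228) (nat_lit 21874762494) (nat_lit 76) (nat_lit 6983516536) (nat_lit 28) (nat_lit 5) (nat_lit 31) (nat_lit 5) (nat_lit 29) (nat_lit 5) (nat_lit 381) (nat_lit 296) (nat_lit 103)) (XT.nd (nat_lit 78) (nat_lit 152) (nat_lit 0) (XT.lf (nat_lit 0) (nat_lit 41376585933) (nat_lit 228) (nat_lit 2597904861) (nat_lit 76) (nat_lit 19116708378) (nat_lit 28) (nat_lit 5) (nat_lit 31) (nat_lit 5) (nat_lit 29) (nat_lit 5) (nat_lit 382) (nat_lit 296) (nat_lit 102)) (XT.lf (nat_lit 0) (nat_lit 17596868097) (nat_lit 152) (nat_lit 32827227700) (nat_lit 228) (nat_lit 14184772540) (nat_lit 26) (nat_lit 5) (nat_lit 28) (nat_lit 5) (nat_lit 29) (nat_lit 5) (nat_lit 383) (nat_lit 296) (nat_lit 101))))) (XT.nd (nat_lit 33852) (nat_lit 0) (nat_lit 11400) (XT.nd (nat_lit 78) (nat_lit 228) (nat_lit 0) (XT.lf (nat_lit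 0) (nat_lit 38447007013) (nat_lit 152) (nat_lit 21319997822) (nat_lit 228) (nat_lit 6404345514) (nat_lit 26) (nat_lit 5) (nat_lit 28) (nat_lit 5) (nat_lit 29) (nat_lit 5) (nat_lit 384) (nat_lit 296) (nat_lit 100)) (XT.nd (nat_lit 78) (nat_lit 152) (nat_lit 0) (XT.lf (nat_lit 0) (nat_lit 1575869630) (nat_lit 228) (nat_lit 7877197223) (nat_lit 76) (nat_lit 58327244231) (nat_lit 25) (nat_lit 5) (nat_lit 28) (nat_lit 5) (nat_lit 26) (nat_lit 5) (nat_lit 385) (nat_lit 296) (nat_lit 99)) (XT.lf (nat_lit 0) (nat_lit 9815603583) (nat_lit 228) (nat_lit 56713347725) (nat_lit 76) (nat_lit 2902223872) (nat_lit 23) (nat_lit 5) (nat_lit 26) (nat_lit 5) (nat_lit 24) (nat_lit 5) (nat_lit 386) (nat_lit 296) (nat_lit 98)))) (XT.nd (nat_lit 78) (nat_lit 0) (nat_lit 0) (XT.lf (nat_lit 0) (nat_lit 1485930446) (nat_lit 1140) (nat_lit 2393254185) (nat_lit 1140) (nat_lit 2393254185) (nat_lit 173) (nat_lit 3) (nat_lit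 188) (nat_lit 3) (nat_lit 188) (nat_lit 5) (nat_lit 297) (nat_lit 297) (nat_lit 186)) (XT.nd (nat_lit 78) (nat_lit 0) (nat_lit 76) (XT.lf (nat_lit 76) (nat_lit 622023890) (nat_lit 0) (nat_lit 2798389492) (nat_lit 1140) (nat_lit 9299721687) (nat_lit 174) (nat_lit 5) (nat_lit 173) (nat_lit 3) (nat_lit 188) (nat_lit 5) (nat_lit 298) (nat_lit 297) (nat_lit 185)) (XT.lf (nat_lit 0) (nat_lit 3937904500) (nat_lit 1064) (nat_lit 6639702062) (nat_lit 1140) (nat_lit 2321410290) (nat_lit 174) (nat_lit 5) (nat_lit 188) (nat_lit 5) (nat_lit 189) (nat_lit 5) (nat_lit 299) (nat_lit 297) (nat_lit 184)))))) (XT.nd (nat_lit 468) (nat_lit 0) (nat_lit 152) (XT.nd (nat_lit 234) (nat_lit 0) (nat_lit 76) (XT.nd (nat_lit 78) (nat_lit 0) (nat_lit 0) (XT.lf (nat_lit 0) (nat_lit 4483540059) (nat_lit 1064) (nat_lit 1053738055) (nat_lit 1140) (nat_lit 7545638563) (nat_lit 174) (nat_lit 5) (nat_lit 188) (nat_lit 5) (nat_lit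 189) (nat_lit 5) (nat_lit 300) (nat_lit 297) (nat_lit 183)) (XT.nd (nat_lit 78) (nat_lit 0) (nat_lit 76) (XT.lf (nat_lit 76) (nat_lit 4784932887) (nat_lit 0) (nat_lit 291959810) (nat_lit 1140) (nat_lit 8194529660) (nat_lit 175) (nat_lit 5) (nat_lit 174) (nat_lit 5) (nat_lit 189) (nat_lit 5) (nat_lit 301) (nat_lit 297) (nat_lit 182)) (XT.lf (nat_lit 0) (nat_lit 5733678778) (nat_lit 1064) (nat_lit 2702811002) (nat_lit 1140) (nat_lit 5027752887) (nat_lit 175) (nat_lit 5) (nat_lit 189) (nat_lit 5) (nat_lit 190) (nat_lit 5) (nat_lit 302) (nat_lit 297) (nat_lit 181)))) (XT.nd (nat_lit 78) (nat_lit 0) (nat_lit 76) (XT.lf (nat_lit 76) (nat_lit 3307604315) (nat_lit 0) (nat_lit 3123423780) (nat_lit 1140) (nat_lit 7231221321) (nat_lit 176) (nat_lit 5) (nat_lit 175) (nat_lit 5) (nat_lit 190) (nat_lit 5) (nat_lit 303) (nat_lit 297) (nat_lit 180)) (XT.nd (nat_lit 78) (nat_lit 0) (nat_lit 0) (XT.lf (nat_lit 0)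 (nat_lit 7185987901) (nat_lit 1064) (nat_lit 4343316079) (nat_lit 1140) (nat_lit 2335818502) (nat_lit 176) (nat_lit 5) (nat_lit 190) (nat_lit 5) (nat_lit 191) (nat_lit 5) (nat_lit 304) (nat_lit 297) (nat_lit 179)) (XT.lf (nat_lit 76) (nat_lit 1844859734) (nat_lit 0) (nat_lit 6154333863) (nat_lit 1140) (nat_lit 6073846262) (nat_lit 177) (nat_lit 5) (nat_lit 176) (nat_lit 5) (nat_lit 191) (nat_lit 5) (nat_lit 305) (nat_lit 297) (nat_lit 178))))) (XT.nd (nat_lit 234) (nat_lit 0) (nat_lit 152) (XT.nd (nat_lit 78) (nat_lit 0) (nat_lit 76) (XT.lf (nat_lit 76) (nat_lit 8299230592) (nat_lit 0) (nat_lit 568660926) (nat_lit 1140) (nat_lit 5418395633) (nat_lit 177) (nat_lit 5) (nat_lit 176) (nat_lit 5) (nat_lit 191) (nat_lit 5) (nat_lit 306) (nat_lit 297) (nat_lit 177)) (XT.nd (nat_lit 78) (nat_lit 0) (nat_lit 0) (XT.lf (nat_lit 76) (nat_lit 390408561) (nat_lit 0) (nat_lit 9413480783) (nat_lit 1140) (nat_lit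 4700829886) (nat_lit 178) (nat_lit 5) (nat_lit 177) (nat_lit 5) (nat_lit 192) (nat_lit 5) (nat_lit 307) (nat_lit 297) (nat_lit 176)) (XT.lf (nat_lit 76) (nat_lit 7067596041) (nat_lit 0) (nat_lit 3754329643) (nat_lit 1140) (nat_lit 3906183656) (nat_lit 178) (nat_lit 5) (nat_lit 177) (nat_lit 5) (nat_lit 192) (nat_lit 5) (nat_lit 308) (nat_lit 297) (nat_lit 175)))) (XT.nd (nat_lit 78) (nat_lit 0) (nat_lit 0) (XT.lf (nat_lit 0) (nat_lit 11878755545) (nat_lit 1064) (nat_lit 1041789516) (nat_lit 1140) (nat_lit 2037431648) (nat_lit 178) (nat_lit 5) (nat_lit 192) (nat_lit 5) (nat_lit 193) (nat_lit 5) (nat_lit 309) (nat_lit 297) (nat_lit 174)) (XT.nd (nat_lit 78) (nat_lit 0) (nat_lit 0) (XT.lf (nat_lit 76) (nat_lit 5843868820) (nat_lit 0) (nat_lit 7205418528) (nat_lit 1140) (nat_lit 2143015296) (nat_lit 179) (nat_lit 5) (nat_lit 178) (nat_lit 5) (nat_lit 193) (nat_lit 5) (nat_lit 310) (nat_lit 297) (nat_lit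 173)) (XT.lf (nat_lit 76) (nat_lit 12949045304) (nat_lit 0) (nat_lit 1305310208) (nat_lit 1140) (nat_lit 1179342036) (nat_lit 179) (nat_lit 5) (nat_lit 178) (nat_lit 5) (nat_lit 193) (nat_lit 5) (nat_lit 311) (nat_lit 297) (nat_lit 172))))))))
noncomputable def xc200 : XT := (XT.nd (nat_lit 1794) (nat_lit 3344) (nat_lit 0) (XT.nd (nat_lit 858) (nat_lit 2964) (nat_lit 0) (XT.nd (nat_lit 390) (nat_lit 1064) (nat_lit 0) (XT.nd (nat_lit 156) (nat_lit 988) (nat_lit 0) (XT.nd (nat_lit 78) (nat_lit 1140) (nat_lit 0) (XT.lf (nat_lit 76) (nat_lit 4620809974) (nat_lit 0) (nat_lit 10954302063) (nat_lit 1140) (nat_lit 104857339) (nat_lit 180) (nat_lit 5) (nat_lit 179) (nat_lit 5) (nat_lit 194) (nat_lit 5) (nat_lit 312) (nat_lit 297) (nat_lit 171)) (XT.lf (nat_lit 0) (nat_lit 1009930782) (nat_lit 1140) (nat_lit 3973990564) (nat_lit 1216) (nat_lit 10948610486) (nat_lit 164) (nat_lit 5) (nat_lit 179) (nat_lit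 5) (nat_lit 180) (nat_lit 5) (nat_lit 313) (nat_lit 297) (nat_lit 170))) (XT.nd (nat_lit 78) (nat_lit 1064) (nat_lit 0) (XT.lf (nat_lit 0) (nat_lit 2189768763) (nat_lit 1140) (nat_lit 12823320822) (nat_lit 76) (nat_lit 1178558390) (nat_lit 165) (nat_lit 5) (nat_lit 180) (nat_lit 5) (nat_lit 166) (nat_lit 5) (nat_lit 314) (nat_lit 297) (nat_lit 169)) (XT.nd (nat_lit 78) (nat_lit 1064) (nat_lit 0) (XT.lf (nat_lit 0) (nat_lit 3484778663) (nat_lit 1140) (nat_lit 5503383341) (nat_lit 76) (nat_lit 7468001100) (nat_lit 165) (nat_lit 5) (nat_lit 180) (nat_lit 5) (nat_lit 166) (nat_lit 5) (nat_lit 315) (nat_lit 297) (nat_lit 168)) (XT.lf (nat_lit 0) (nat_lit 2068076959) (nat_lit 1064) (nat_lit 2760639762) (nat_lit 1140) (nat_lit 11899612890) (nat_lit 151) (nat_lit 5) (nat_lit 165) (nat_lit 5) (nat_lit 166) (nat_lit 5) (nat_lit 316) (nat_lit 297) (nat_lit 167))))) (XT.nd (nat_lit 234) (nat_lit 532) (nat_lit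 0) (XT.nd (nat_lit 78) (nat_lit 532) (nat_lit 0) (XT.lf (nat_lit 0) (nat_lit 6294633692) (nat_lit 1140) (nat_lit 7071836688) (nat_lit 76) (nat_lit 3639758638) (nat_lit 151) (nat_lit 5) (nat_lit 166) (nat_lit 5) (nat_lit 152) (nat_lit 5) (nat_lit 317) (nat_lit 297) (nat_lit 166)) (XT.nd (nat_lit 78) (nat_lit 0) (nat_lit 0) (XT.lf (nat_lit 0) (nat_lit 722585439) (nat_lit 532) (nat_lit 7106916373) (nat_lit 608) (nat_lit 9462231596) (nat_lit 144) (nat_lit 5) (nat_lit 151) (nat_lit 5) (nat_lit 152) (nat_lit 5) (nat_lit 318) (nat_lit 297) (nat_lit 165)) (XT.lf (nat_lit 0) (nat_lit 8887474941) (nat_lit 532) (nat_lit 585238307) (nat_lit 608) (nat_lit 8111237473) (nat_lit 144) (nat_lit 5) (nat_lit 151) (nat_lit 5) (nat_lit 152) (nat_lit 5) (nat_lit 319) (nat_lit 297) (nat_lit 164)))) (XT.nd (nat_lit 78) (nat_lit 532) (nat_lit 0) (XT.lf (nat_lit 0) (nat_lit 11215324795) (nat_lit 608) (nat_lit 654946189)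 (nat_lit 76) (nat_lit 6013176680) (nat_lit 144) (nat_lit 5) (nat_lit 152) (nat_lit 5) (nat_lit 145) (nat_lit 5) (nat_lit 320) (nat_lit 297) (nat_lit 163)) (XT.nd (nat_lit 78) (nat_lit 0) (nat_lit 0) (XT.lf (nat_lit 0) (nat_lit 7765433061) (nat_lit 532) (nat_lit 5316638050) (nat_lit 608) (nat_lit 5107718462) (nat_lit 137) (nat_lit 5) (nat_lit 144) (nat_lit 5) (nat_lit 145) (nat_lit 5) (nat_lit 321) (nat_lit 297) (nat_lit 162)) (XT.lf (nat_lit 0) (nat_lit 15016871585) (nat_lit 608) (nat_lit 2075444742) (nat_lit 76) (nat_lit 1412659150) (nat_lit 137) (nat_lit 5) (nat_lit 145) (nat_lit 5) (nat_lit 138) (nat_lit 5) (nat_lit 322) (nat_lit 297) (nat_lit 161)))))) (XT.nd (nat_lit 468) (nat_lit 1368) (nat_lit 0) (XT.nd (nat_lit 234) (nat_lit 456) (nat_lit 0) (XT.nd (nat_lit 78) (nat_lit 608) (nat_lit 0) (XT.lf (nat_lit 0) (nat_lit 6591842765) (nat_lit 532) (nat_lit 10525714946) (nat_lit 608) (nat_lit 1708838846)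 (nat_lit 130) (nat_lit 5) (nat_lit 137) (nat_lit 5) (nat_lit 138) (nat_lit 5) (nat_lit 323) (nat_lit 297) (nat_lit 160)) (XT.nd (nat_lit 78) (nat_lit 532) (nat_lit 0) (XT.lf (nat_lit 0) (nat_lit 134458014) (nat_lit 608) (nat_lit 3604713744) (nat_lit 76) (nat_lit 15417874709) (nat_lit 129) (nat_lit 5) (nat_lit 137) (nat_lit 5) (nat_lit 130) (nat_lit 5) (nat_lit 324) (nat_lit 297) (nat_lit 159)) (XT.lf (nat_lit 0) (nat_lit 2074335863) (nat_lit 608) (nat_lit 14163908366) (nat_lit 76) (nat_lit 3256608815) (nat_lit 122) (nat_lit 5) (nat_lit 130) (nat_lit 5) (nat_lit 123) (nat_lit 5) (nat_lit 325) (nat_lit 297) (nat_lit 158)))) (XT.nd (nat_lit 78) (nat_lit 456) (nat_lit 0) (XT.lf (nat_lit 0) (nat_lit 4138484449) (nat_lit 608) (nat_lit 5278622715) (nat_lit 76) (nat_lit 10423717614) (nat_lit 122) (nat_lit 5) (nat_lit 130) (nat_lit 5) (nat_lit 123) (nat_lit 5) (nat_lit 326) (nat_lit 297) (nat_lit 157))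 (XT.nd (nat_lit 78) (nat_lit 0) (nat_lit 0) (XT.lf (nat_lit 0) (nat_lit 3942280707) (nat_lit 456) (nat_lit 2352688862) (nat_lit 532) (nat_lit 13901306538) (nat_lit 116) (nat_lit 5) (nat_lit 122) (nat_lit 5) (nat_lit 123) (nat_lit 5) (nat_lit 327) (nat_lit 297) (nat_lit 156)) (XT.lf (nat_lit 0) (nat_lit 8609965187) (nat_lit 532) (nat_lit 7068651109) (nat_lit 76) (nat_lit 4880972636) (nat_lit 116) (nat_lit 5) (nat_lit 123) (nat_lit 5) (nat_lit 117) (nat_lit 5) (nat_lit 328) (nat_lit 297) (nat_lit 155))))) (XT.nd (nat_lit 234) (nat_lit 532) (nat_lit 0) (XT.nd (nat_lit 78) (nat_lit 380) (nat_lit 0) (XT.lf (nat_lit 0) (nat_lit 2408165073) (nat_lit 456) (nat_lit 8625557424) (nat_lit 532) (nat_lit 9898911360) (nat_lit 110) (nat_lit 5) (nat_lit 116) (nat_lit 5) (nat_lit 117) (nat_lit 5) (nat_lit 329) (nat_lit 297) (nat_lit 154)) (XT.nd (nat_lit 78) (nat_lit 380) (nat_lit 0) (XT.lf (nat_lit 0) (nat_lit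 12306476033) (nat_lit 456) (nat_lit 1288098711) (nat_lit 532) (nat_lit 7720375641) (nat_lit 110) (nat_lit 5) (nat_lit 116) (nat_lit 5) (nat_lit 117) (nat_lit 5) (nat_lit 330) (nat_lit 297) (nat_lit 153)) (XT.lf (nat_lit 0) (nat_lit 739469423) (nat_lit 380) (nat_lit 15553357334) (nat_lit 456) (nat_lit 5414103803) (nat_lit 105) (nat_lit 5) (nat_lit 110) (nat_lit 5) (nat_lit 111) (nat_lit 5) (nat_lit 331) (nat_lit 297) (nat_lit 152)))) (XT.nd (nat_lit 78) (nat_lit 532) (nat_lit 0) (XT.lf (nat_lit 0) (nat_lit 10943890476) (nat_lit 380) (nat_lit 8225056881) (nat_lit 456) (nat_lit 2938826200) (nat_lit 105) (nat_lit 5) (nat_lit 110) (nat_lit 5) (nat_lit 111) (nat_lit 5) (nat_lit 332) (nat_lit 297) (nat_lit 151)) (XT.nd (nat_lit 78) (nat_lit 532) (nat_lit 0) (XT.lf (nat_lit 0) (nat_lit 21447047406) (nat_lit 380) (nat_lit 677823276) (nat_lit 456) (nat_lit 395976313) (nat_lit 105) (nat_lit 5) (nat_lit 110)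 (nat_lit 5) (nat_lit 111) (nat_lit 5) (nat_lit 333) (nat_lit 297) (nat_lit 150)) (XT.lf (nat_lit 0) (nat_lit 2333807595) (nat_lit 532) (nat_lit 13537260694) (nat_lit 76) (nat_lit 7069992437) (nat_lit 98) (nat_lit 5) (nat_lit 105) (nat_lit 5) (nat_lit 99) (nat_lit 5) (nat_lit 334) (nat_lit 297) (nat_lit 149))))))) (XT.nd (nat_lit 936) (nat_lit 1520) (nat_lit 0) (XT.nd (nat_lit 468) (nat_lit 760) (nat_lit 0) (XT.nd (nat_lit 234) (nat_lit 684) (nat_lit 0) (XT.nd (nat_lit 78) (nat_lit 380) (nat_lit 0) (XT.lf (nat_lit 0) (nat_lit 5148929536) (nat_lit 532) (nat_lit 3173989167) (nat_lit 76) (nat_lit 15050512264) (nat_lit 98) (nat_lit 5) (nat_lit 105) (nat_lit 5) (nat_lit 99) (nat_lit 5) (nat_lit 335) (nat_lit 297) (nat_lit 148)) (XT.nd (nat_lit 78) (nat_lit 0) (nat_lit 0) (XT.lf (nat_lit 0) (nat_lit 7642087644) (nat_lit 380) (nat_lit 473801697) (nat_lit 456) (nat_lit 15700870980) (nat_lit 93) (nat_lit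 5) (nat_lit 98) (nat_lit 5) (nat_lit 99) (nat_lit 5) (nat_lit 336) (nat_lit 297) (nat_lit 147)) (XT.lf (nat_lit 0) (nat_lit 11271406632) (nat_lit 456) (nat_lit 5505518207) (nat_lit 76) (nat_lit 7493487506) (nat_lit 93) (nat_lit 5) (nat_lit 99) (nat_lit 5) (nat_lit 94) (nat_lit 5) (nat_lit 337) (nat_lit 297) (nat_lit 146)))) (XT.nd (nat_lit 78) (nat_lit 304) (nat_lit 0) (XT.lf (nat_lit 0) (nat_lit 5580811115) (nat_lit 380) (nat_lit 8993310486) (nat_lit 456) (nat_lit 10161985346) (nat_lit 88) (nat_lit 5) (nat_lit 93) (nat_lit 5) (nat_lit 94) (nat_lit 5) (nat_lit 338) (nat_lit 297) (nat_lit 145)) (XT.nd (nat_lit 78) (nat_lit 304) (nat_lit 0) (XT.lf (nat_lit 0) (nat_lit 17105547350) (nat_lit 380) (nat_lit 920261894) (nat_lit 456) (nat_lit 7188475129) (nat_lit 88) (nat_lit 5) (nat_lit 93) (nat_lit 5) (nat_lit 94) (nat_lit 5) (nat_lit 339) (nat_lit 297) (nat_lit 144)) (XT.lf (nat_lit 0) (nat_lit 3254645615)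 (nat_lit 304) (nat_lit 18423222534) (nat_lit 380) (nat_lit 4026042819) (nat_lit 84) (nat_lit 5) (nat_lit 88) (nat_lit 5) (nat_lit 89) (nat_lit 5) (nat_lit 340) (nat_lit 297) (nat_lit 143))))) (XT.nd (nat_lit 234) (nat_lit 304) (nat_lit 0) (XT.nd (nat_lit 78) (nat_lit 456) (nat_lit 0) (XT.lf (nat_lit 0) (nat_lit 15108928915) (nat_lit 304) (nat_lit 10416009406) (nat_lit 380) (nat_lit 680732774) (nat_lit 84) (nat_lit 5) (nat_lit 88) (nat_lit 5) (nat_lit 89) (nat_lit 5) (nat_lit 341) (nat_lit 297) (nat_lit 142)) (XT.nd (nat_lit 78) (nat_lit 0) (nat_lit 0) (XT.lf (nat_lit 0) (nat_lit 574140304) (nat_lit 380) (nat_lit 2137004986) (nat_lit 456) (nat_lit 24010544259) (nat_lit 78) (nat_lit 5) (nat_lit 83) (nat_lit 5) (nat_lit 84) (nat_lit 5) (nat_lit 342) (nat_lit 297) (nat_lit 141)) (XT.lf (nat_lit 0) (nat_lit 6360410566) (nat_lit 456) (nat_lit 14503408401) (nat_lit 76) (nat_lit 6384095526) (nat_lit 78)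 (nat_lit 5) (nat_lit 84) (nat_lit 5) (nat_lit 79) (nat_lit 5) (nat_lit 343) (nat_lit 297) (nat_lit 140)))) (XT.nd (nat_lit 78) (nat_lit 304) (nat_lit 0) (XT.lf (nat_lit 0) (nat_lit 10135186040) (nat_lit 456) (nat_lit 2537825654) (nat_lit 76) (nat_lit 15116440830) (nat_lit 78) (nat_lit 5) (nat_lit 84) (nat_lit 5) (nat_lit 79) (nat_lit 5) (nat_lit 344) (nat_lit 297) (nat_lit 139)) (XT.nd (nat_lit 78) (nat_lit 0) (nat_lit 0) (XT.lf (nat_lit 0) (nat_lit 9974841646) (nat_lit 304) (nat_lit 4139270491) (nat_lit 380) (nat_lit 14230404426) (nat_lit 74) (nat_lit 5) (nat_lit 78) (nat_lit 5) (nat_lit 79) (nat_lit 5) (nat_lit 345) (nat_lit 297) (nat_lit 138)) (XT.lf (nat_lit 0) (nat_lit 18278080914) (nat_lit 380) (nat_lit 6052111462) (nat_lit 76) (nat_lit 4584076786) (nat_lit 74) (nat_lit 5) (nat_lit 79) (nat_lit 5) (nat_lit 75) (nat_lit 5) (nat_lit 346) (nat_lit 297) (nat_lit 137)))))) (XT.nd (nat_lit 468)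 (nat_lit 532) (nat_lit 0) (XT.nd (nat_lit 234) (nat_lit 304) (nat_lit 0) (XT.nd (nat_lit 78) (nat_lit 380) (nat_lit 0) (XT.lf (nat_lit 0) (nat_lit 6718691569) (nat_lit 304) (nat_lit 15949078033) (nat_lit 380) (nat_lit 6830327395) (nat_lit 70) (nat_lit 5) (nat_lit 74) (nat_lit 5) (nat_lit 75) (nat_lit 5) (nat_lit 347) (nat_lit 297) (nat_lit 136)) (XT.nd (nat_lit 78) (nat_lit 380) (nat_lit 0) (XT.lf (nat_lit 0) (nat_lit 19990333566) (nat_lit 304) (nat_lit 7255241447) (nat_lit 380) (nat_lit 2852178360) (nat_lit 70) (nat_lit 5) (nat_lit 74) (nat_lit 5) (nat_lit 75) (nat_lit 5) (nat_lit 348) (nat_lit 297) (nat_lit 135)) (XT.lf (nat_lit 0) (nat_lit 1261825030) (nat_lit 380) (nat_lit 27746308928) (nat_lit 76) (nat_lit 1705688164) (nat_lit 65) (nat_lit 5) (nat_lit 70) (nat_lit 5) (nat_lit 66) (nat_lit 5) (nat_lit 349) (nat_lit 297) (nat_lit 134)))) (XT.nd (nat_lit 78) (nat_lit 304) (nat_lit 0) (XT.lf (nat_lit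 0) (nat_lit 5612287642) (nat_lit 380) (nat_lit 14810833296) (nat_lit 76) (nat_lit 10919299798) (nat_lit 65) (nat_lit 5) (nat_lit 70) (nat_lit 5) (nat_lit 66) (nat_lit 5) (nat_lit 350) (nat_lit 297) (nat_lit 133)) (XT.nd (nat_lit 78) (nat_lit 304) (nat_lit 0) (XT.lf (nat_lit 0) (nat_lit 10088851842) (nat_lit 380) (nat_lit 1493433871) (nat_lit 76) (nat_lit 20407729731) (nat_lit 65) (nat_lit 5) (nat_lit 70) (nat_lit 5) (nat_lit 66) (nat_lit 5) (nat_lit 351) (nat_lit 297) (nat_lit 132)) (XT.lf (nat_lit 0) (nat_lit 12460678630) (nat_lit 304) (nat_lit 2354530226) (nat_lit 380) (nat_lit 17838369859) (nat_lit 61) (nat_lit 5) (nat_lit 65) (nat_lit 5) (nat_lit 66) (nat_lit 5) (nat_lit 352) (nat_lit 297) (nat_lit 131))))) (XT.nd (nat_lit 234) (nat_lit 304) (nat_lit 0) (XT.nd (nat_lit 78) (nat_lit 228) (nat_lit 0) (XT.lf (nat_lit 0) (nat_lit 19763085407) (nat_lit 380) (nat_lit 6547466934) (nat_lit 76) (nat_lit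 7024110111) (nat_lit 61) (nat_lit 5) (nat_lit 66) (nat_lit 5) (nat_lit 62) (nat_lit 5) (nat_lit 353) (nat_lit 297) (nat_lit 130)) (XT.nd (nat_lit 78) (nat_lit 0) (nat_lit 0) (XT.lf (nat_lit 0) (nat_lit 7627003786) (nat_lit 228) (nat_lit 17324913362) (nat_lit 304) (nat_lit 9081491262) (nat_lit 58) (nat_lit 5) (nat_lit 61) (nat_lit 5) (nat_lit 62) (nat_lit 5) (nat_lit 354) (nat_lit 297) (nat_lit 129)) (XT.lf (nat_lit 0) (nat_lit 22355139012) (nat_lit 228) (nat_lit 8003346747) (nat_lit 304) (nat_lit 4392773953) (nat_lit 58) (nat_lit 5) (nat_lit 61) (nat_lit 5) (nat_lit 62) (nat_lit 5) (nat_lit 355) (nat_lit 297) (nat_lit 128)))) (XT.nd (nat_lit 78) (nat_lit 0) (nat_lit 0) (XT.lf (nat_lit 0) (nat_lit 459544396) (nat_lit 304) (nat_lit 33440764028) (nat_lit 76) (nat_lit 1589273274) (nat_lit 54) (nat_lit 5) (nat_lit 58) (nat_lit 5) (nat_lit 55) (nat_lit 5) (nat_lit 356) (nat_lit 297) (nat_lit 127)) (XT.nd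 (nat_lit 78) (nat_lit 0) (nat_lit 0) (XT.lf (nat_lit 0) (nat_lit 5570872906) (nat_lit 304) (nat_lit 19194809736) (nat_lit 76) (nat_lit 11477018674) (nat_lit 54) (nat_lit 5) (nat_lit 58) (nat_lit 5) (nat_lit 55) (nat_lit 5) (nat_lit 357) (nat_lit 297) (nat_lit 126)) (XT.lf (nat_lit 0) (nat_lit 10831729694) (nat_lit 304) (nat_lit 4527060274) (nat_lit 76) (nat_lit 21659743452) (nat_lit 54) (nat_lit 5) (nat_lit 58) (nat_lit 5) (nat_lit 55) (nat_lit 5) (nat_lit 358) (nat_lit 297) (nat_lit 125))))))))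
noncomputable def xc201 : XT := (XT.nd (nat_lit 1794) (nat_lit 228) (nat_lit 0) (XT.nd (nat_lit 858) (nat_lit 836) (nat_lit 0) (XT.nd (nat_lit 390) (nat_lit 684) (nat_lit 0) (XT.nd (nat_lit 156) (nat_lit 228) (nat_lit 0) (XT.nd (nat_lit 78) (nat_lit 0) (nat_lit 0) (XT.lf (nat_lit 0) (nat_lit 10785770058) (nat_lit 228) (nat_lit 5564620987) (nat_lit 304) (nat_lit 21464254496) (nat_lit 51) (nat_lit 5) (nat_lit 54) (nat_lit 5) (nat_lit 55) (nat_lit 5) (nat_lit 359) (nat_lit 297) (nat_lit 124)) (XT.lf (nat_lit 0) (nat_lit 22120599776) (nat_lit 304) (nat_lit 12031882786) (nat_lit 76) (nat_lit 4479583126) (nat_lit 51) (nat_lit 5) (nat_lit 55) (nat_lit 5) (nat_lit 52) (nat_lit 5) (nat_lit 360) (nat_lit 297) (nat_lit 123))) (XT.nd (nat_lit 78) (nat_lit 0) (nat_lit 0) (XT.lf (nat_lit 0) (nat_lit 3421382349) (nat_lit 228) (nat_lit 24726961786) (nat_lit 304) (nat_lit 11323135589) (nat_lit 48) (nat_lit 5) (nat_lit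 51) (nat_lit 5) (nat_lit 52) (nat_lit 5) (nat_lit 361) (nat_lit 297) (nat_lit 122)) (XT.nd (nat_lit 78) (nat_lit 0) (nat_lit 0) (XT.lf (nat_lit 0) (nat_lit 19579633677) (nat_lit 228) (nat_lit 14895284285) (nat_lit 304) (nat_lit 5857622350) (nat_lit 48) (nat_lit 5) (nat_lit 51) (nat_lit 5) (nat_lit 52) (nat_lit 5) (nat_lit 362) (nat_lit 297) (nat_lit 121)) (XT.lf (nat_lit 0) (nat_lit 36217532000) (nat_lit 228) (nat_lit 4770357695) (nat_lit 304) (nat_lit 231648927) (nat_lit 48) (nat_lit 5) (nat_lit 51) (nat_lit 5) (nat_lit 52) (nat_lit 5) (nat_lit 363) (nat_lit 297) (nat_lit 120))))) (XT.nd (nat_lit 234) (nat_lit 152) (nat_lit 0) (XT.nd (nat_lit 78) (nat_lit 228) (nat_lit 0) (XT.lf (nat_lit 0) (nat_lit 5616639244) (nat_lit 304) (nat_lit 30799264843) (nat_lit 76) (nat_lit 5710779464) (nat_lit 44) (nat_lit 5) (nat_lit 48) (nat_lit 5) (nat_lit 45) (nat_lit 5) (nat_lit 364) (nat_lit 297) (nat_lit 119))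 (XT.nd (nat_lit 78) (nat_lit 228) (nat_lit 0) (XT.lf (nat_lit 0) (nat_lit 11730658442) (nat_lit 304) (nat_lit 14865348273) (nat_lit 76) (nat_lit 16462122750) (nat_lit 44) (nat_lit 5) (nat_lit 48) (nat_lit 5) (nat_lit 45) (nat_lit 5) (nat_lit 365) (nat_lit 297) (nat_lit 118)) (XT.lf (nat_lit 0) (nat_lit 1572356611) (nat_lit 228) (nat_lit 16467648745) (nat_lit 304) (nat_lit 25977159674) (nat_lit 41) (nat_lit 5) (nat_lit 44) (nat_lit 5) (nat_lit 45) (nat_lit 5) (nat_lit 366) (nat_lit 297) (nat_lit 117)))) (XT.nd (nat_lit 78) (nat_lit 152) (nat_lit 0) (XT.lf (nat_lit 0) (nat_lit 18803054339) (nat_lit 228) (nat_lit 5882528565) (nat_lit 304) (nat_lit 20314983639) (nat_lit 41) (nat_lit 5) (nat_lit 44) (nat_lit 5) (nat_lit 45) (nat_lit 5) (nat_lit 367) (nat_lit 297) (nat_lit 116)) (XT.nd (nat_lit 78) (nat_lit 152) (nat_lit 0) (XT.lf (nat_lit 0) (nat_lit 31575700007) (nat_lit 304) (nat_lit 9515854982) (nat_lit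 76) (nat_lit 4920563232) (nat_lit 41) (nat_lit 5) (nat_lit 45) (nat_lit 5) (nat_lit 42) (nat_lit 5) (nat_lit 368) (nat_lit 297) (nat_lit 115)) (XT.lf (nat_lit 0) (nat_lit 7754669293) (nat_lit 152) (nat_lit 31047642171) (nat_lit 228) (nat_lit 8247814452) (nat_lit 39) (nat_lit 5) (nat_lit 41) (nat_lit 5) (nat_lit 42) (nat_lit 5) (nat_lit 369) (nat_lit 297) (nat_lit 114)))))) (XT.nd (nat_lit 468) (nat_lit 380) (nat_lit 0) (XT.nd (nat_lit 234) (nat_lit 152) (nat_lit 0) (XT.nd (nat_lit 78) (nat_lit 304) (nat_lit 0) (XT.lf (nat_lit 0) (nat_lit 25733759363) (nat_lit 152) (nat_lit 20605101596) (nat_lit 228) (nat_lit 1777621793) (nat_lit 39) (nat_lit 5) (nat_lit 41) (nat_lit 5) (nat_lit 42) (nat_lit 5) (nat_lit 370) (nat_lit 297) (nat_lit 113)) (XT.nd (nat_lit 78) (nat_lit 228) (nat_lit 0) (XT.lf (nat_lit 0) (nat_lit 4788422847) (nat_lit 228) (nat_lit 5014123662) (nat_lit 76) (nat_lit 39410964407) (nat_lit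 38) (nat_lit 5) (nat_lit 41) (nat_lit 5) (nat_lit 39) (nat_lit 5) (nat_lit 371) (nat_lit 297) (nat_lit 112)) (XT.lf (nat_lit 0) (nat_lit 11653057082) (nat_lit 304) (nat_lit 37244028505) (nat_lit 76) (nat_lit 1441719067) (nat_lit 35) (nat_lit 5) (nat_lit 39) (nat_lit 5) (nat_lit 36) (nat_lit 5) (nat_lit 372) (nat_lit 297) (nat_lit 111)))) (XT.nd (nat_lit 78) (nat_lit 152) (nat_lit 0) (XT.lf (nat_lit 0) (nat_lit 18869031276) (nat_lit 304) (nat_lit 19748603758) (nat_lit 76) (nat_lit 12875862895) (nat_lit 35) (nat_lit 5) (nat_lit 39) (nat_lit 5) (nat_lit 36) (nat_lit 5) (nat_lit 373) (nat_lit 297) (nat_lit 110)) (XT.nd (nat_lit 78) (nat_lit 152) (nat_lit 0) (XT.lf (nat_lit 0) (nat_lit 26298777787) (nat_lit 304) (nat_lit 1732623922) (nat_lit 76) (nat_lit 24651514175) (nat_lit 35) (nat_lit 5) (nat_lit 39) (nat_lit 5) (nat_lit 36) (nat_lit 5) (nat_lit 374) (nat_lit 297) (nat_lit 109)) (XT.lf (nat_lit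 0) (nat_lit 17154397198) (nat_lit 152) (nat_lit 16959289988) (nat_lit 228) (nat_lit 19789463671) (nat_lit 33) (nat_lit 5) (nat_lit 35) (nat_lit 5) (nat_lit 36) (nat_lit 5) (nat_lit 375) (nat_lit 297) (nat_lit 108))))) (XT.nd (nat_lit 234) (nat_lit 152) (nat_lit 0) (XT.nd (nat_lit 78) (nat_lit 228) (nat_lit 0) (XT.lf (nat_lit 0) (nat_lit 36639404857) (nat_lit 152) (nat_lit 5538543785) (nat_lit 228) (nat_lit 12981599614) (nat_lit 33) (nat_lit 5) (nat_lit 35) (nat_lit 5) (nat_lit 36) (nat_lit 5) (nat_lit 376) (nat_lit 297) (nat_lit 107)) (XT.nd (nat_lit 78) (nat_lit 76) (nat_lit 0) (XT.lf (nat_lit 0) (nat_lit 195213638) (nat_lit 152) (nat_lit 50348107323) (nat_lit 228) (nat_lit 5908543572) (nat_lit 31) (nat_lit 5) (nat_lit 33) (nat_lit 5) (nat_lit 34) (nat_lit 5) (nat_lit 377) (nat_lit 297) (nat_lit 106)) (XT.lf (nat_lit 0) (nat_lit 1591023021) (nat_lit 228) (nat_lit 37999682556) (nat_lit 76) (nat_lit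 18184614516) (nat_lit 30) (nat_lit 5) (nat_lit 33) (nat_lit 5) (nat_lit 31) (nat_lit 5) (nat_lit 378) (nat_lit 297) (nat_lit 105)))) (XT.nd (nat_lit 78) (nat_lit 152) (nat_lit 0) (XT.lf (nat_lit 0) (nat_lit 9194371680) (nat_lit 228) (nat_lit 19257482779) (nat_lit 76) (nat_lit 30684945560) (nat_lit 30) (nat_lit 5) (nat_lit 33) (nat_lit 5) (nat_lit 31) (nat_lit 5) (nat_lit 379) (nat_lit 297) (nat_lit 104)) (XT.nd (nat_lit 78) (nat_lit 0) (nat_lit 0) (XT.lf (nat_lit 0) (nat_lit 43979855) (nat_lit 152) (nat_lit 16979885978) (nat_lit 228) (nat_lit 43515319330) (nat_lit 28) (nat_lit 5) (nat_lit 30) (nat_lit 5) (nat_lit 31) (nat_lit 5) (nat_lit 380) (nat_lit 297) (nat_lit 103)) (XT.lf (nat_lit 0) (nat_lit 20315422402) (nat_lit 152) (nat_lit 4964940001) (nat_lit 228) (nat_lit 36697518042) (nat_lit 28) (nat_lit 5) (nat_lit 30) (nat_lit 5) (nat_lit 31) (nat_lit 5) (nat_lit 381) (nat_lit 297) (nat_lit 102)))))))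 (XT.nd (nat_lit 34632) (nat_lit 0) (nat_lit 10564) (XT.nd (nat_lit 34164) (nat_lit 0) (nat_lit 11248) (XT.nd (nat_lit 234) (nat_lit 76) (nat_lit 0) (XT.nd (nat_lit 78) (nat_lit 152) (nat_lit 0) (XT.lf (nat_lit 0) (nat_lit 33853496977) (nat_lit 228) (nat_lit 22339730863) (nat_lit 76) (nat_lit 7264442501) (nat_lit 28) (nat_lit 5) (nat_lit 31) (nat_lit 5) (nat_lit 29) (nat_lit 5) (nat_lit 382) (nat_lit 297) (nat_lit 101)) (XT.nd (nat_lit 78) (nat_lit 152) (nat_lit 0) (XT.lf (nat_lit 0) (nat_lit 42730759416) (nat_lit 228) (nat_lit 2490138604) (nat_lit 76) (nat_lit 19759549889) (nat_lit 28) (nat_lit 5) (nat_lit 31) (nat_lit 5) (nat_lit 29) (nat_lit 5) (nat_lit 383) (nat_lit 297) (nat_lit 100)) (XT.lf (nat_lit 0) (nat_lit 18308656921) (nat_lit 152) (nat_lit 33739517600) (nat_lit 228) (nat_lit 14495521170) (nat_lit 26) (nat_lit 5) (nat_lit 28) (nat_lit 5) (nat_lit 29) (nat_lit 5) (nat_lit 384) (nat_lit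 297) (nat_lit 99)))) (XT.nd (nat_lit 78) (nat_lit 76) (nat_lit 0) (XT.lf (nat_lit 0) (nat_lit 39778944196) (nat_lit 152) (nat_lit 21889183261) (nat_lit 228) (nat_lit 6485024863) (nat_lit 26) (nat_lit 5) (nat_lit 28) (nat_lit 5) (nat_lit 29) (nat_lit 5) (nat_lit 385) (nat_lit 297) (nat_lit 98)) (XT.nd (nat_lit 33774) (nat_lit 0) (nat_lit 11248) (XT.lf (nat_lit 0) (nat_lit 1729239122) (nat_lit 228) (nat_lit 7937984813) (nat_lit 76) (nat_lit 60143223977) (nat_lit 25) (nat_lit 5) (nat_lit 28) (nat_lit 5) (nat_lit 26) (nat_lit 5) (nat_lit 386) (nat_lit 297) (nat_lit 97)) (XT.lf (nat_lit 0) (nat_lit 1924677888) (nat_lit 1140) (nat_lit 2261660086) (nat_lit 1140) (nat_lit 2261660086) (nat_lit 173) (nat_lit 3) (nat_lit 188) (nat_lit 3) (nat_lit 188) (nat_lit 5) (nat_lit 298) (nat_lit 298) (nat_lit 184))))) (XT.nd (nat_lit 234) (nat_lit 0) (nat_lit 76) (XT.nd (nat_lit 78) (nat_lit 0) (nat_lit 76) (XT.lf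 (nat_lit 76) (nat_lit 1043479982) (nat_lit 0) (nat_lit 3248795442) (nat_lit 1140) (nat_lit 8784854491) (nat_lit 174) (nat_lit 5) (nat_lit 173) (nat_lit 3) (nat_lit 188) (nat_lit 5) (nat_lit 299) (nat_lit 298) (nat_lit 183)) (XT.nd (nat_lit 78) (nat_lit 0) (nat_lit 0) (XT.lf (nat_lit 0) (nat_lit 4799465963) (nat_lit 1064) (nat_lit 6420517236) (nat_lit 1140) (nat_lit 2042214324) (nat_lit 174) (nat_lit 5) (nat_lit 188) (nat_lit 5) (nat_lit 189) (nat_lit 5) (nat_lit 300) (nat_lit 298) (nat_lit 182)) (XT.lf (nat_lit 0) (nat_lit 5339817453) (nat_lit 1064) (nat_lit 679160014) (nat_lit 1140) (nat_lit 7433329784) (nat_lit 174) (nat_lit 5) (nat_lit 188) (nat_lit 5) (nat_lit 189) (nat_lit 5) (nat_lit 301) (nat_lit 298) (nat_lit 181)))) (XT.nd (nat_lit 78) (nat_lit 0) (nat_lit 76) (XT.lf (nat_lit 76) (nat_lit 5330688799) (nat_lit 0) (nat_lit 603125678) (nat_lit 1140) (nat_lit 7713210362) (nat_lit 175) (nat_lit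 5) (nat_lit 174) (nat_lit 5) (nat_lit 189) (nat_lit 5) (nat_lit 302) (nat_lit 298) (nat_lit 180)) (XT.nd (nat_lit 78) (nat_lit 0) (nat_lit 0) (XT.lf (nat_lit 0) (nat_lit 6586959119) (nat_lit 1064) (nat_lit 2368696269) (nat_lit 1140) (nat_lit 4890715549) (nat_lit 175) (nat_lit 5) (nat_lit 189) (nat_lit 5) (nat_lit 190) (nat_lit 5) (nat_lit 303) (nat_lit 298) (nat_lit 179)) (XT.lf (nat_lit 76) (nat_lit 3817960929) (nat_lit 0) (nat_lit 3471377191) (nat_lit 1140) (nat_lit 6761496131) (nat_lit 176) (nat_lit 5) (nat_lit 175) (nat_lit 5) (nat_lit 190) (nat_lit 5) (nat_lit 304) (nat_lit 298) (nat_lit 178)))))) (XT.nd (nat_lit 468) (nat_lit 912) (nat_lit 0) (XT.nd (nat_lit 234) (nat_lit 0) (nat_lit 76) (XT.nd (nat_lit 78) (nat_lit 0) (nat_lit 0) (XT.lf (nat_lit 0) (nat_lit 8045193915) (nat_lit 1064) (nat_lit 4051426099) (nat_lit 1140) (nat_lit 2163864562) (nat_lit 176) (nat_lit 5) (nat_lit 190) (nat_lit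 5) (nat_lit 191) (nat_lit 5) (nat_lit 305) (nat_lit 298) (nat_lit 177)) (XT.nd (nat_lit 78) (nat_lit 0) (nat_lit 0) (XT.lf (nat_lit 76) (nat_lit 2318255875) (nat_lit 0) (nat_lit 6549812063) (nat_lit 1140) (nat_lit 5607050734) (nat_lit 177) (nat_lit 5) (nat_lit 176) (nat_lit 5) (nat_lit 191) (nat_lit 5) (nat_lit 306) (nat_lit 298) (nat_lit 176)) (XT.lf (nat_lit 76) (nat_lit 8954081635) (nat_lit 0) (nat_lit 790427728) (nat_lit 1140) (nat_lit 4950839817) (nat_lit 177) (nat_lit 5) (nat_lit 176) (nat_lit 5) (nat_lit 191) (nat_lit 5) (nat_lit 307) (nat_lit 298) (nat_lit 175)))) (XT.nd (nat_lit 78) (nat_lit 0) (nat_lit 0) (XT.lf (nat_lit 76) (nat_lit 825299410) (nat_lit 0) (nat_lit 9867661196) (nat_lit 1140) (nat_lit 4227877630) (nat_lit 178) (nat_lit 5) (nat_lit 177) (nat_lit 5) (nat_lit 192) (nat_lit 5) (nat_lit 308) (nat_lit 298) (nat_lit 174)) (XT.nd (nat_lit 78) (nat_lit 0) (nat_lit 76) (XT.lf (nat_lit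 76) (nat_lit 7690476924) (nat_lit 0) (nat_lit 4033732337) (nat_lit 1140) (nat_lit 3427274843) (nat_lit 178) (nat_lit 5) (nat_lit 177) (nat_lit 5) (nat_lit 192) (nat_lit 5) (nat_lit 309) (nat_lit 298) (nat_lit 173)) (XT.lf (nat_lit 0) (nat_lit 12794363536) (nat_lit 1064) (nat_lit 654669765) (nat_lit 1140) (nat_lit 1939798805) (nat_lit 178) (nat_lit 5) (nat_lit 192) (nat_lit 5) (nat_lit 193) (nat_lit 5) (nat_lit 310) (nat_lit 298) (nat_lit 172))))) (XT.nd (nat_lit 234) (nat_lit 0) (nat_lit 0) (XT.nd (nat_lit 78) (nat_lit 1064) (nat_lit 0) (XT.lf (nat_lit 76) (nat_lit 6433456621) (nat_lit 0) (nat_lit 7554248207) (nat_lit 1140) (nat_lit 1642884414) (nat_lit 179) (nat_lit 5) (nat_lit 178) (nat_lit 5) (nat_lit 193) (nat_lit 5) (nat_lit 311) (nat_lit 298) (nat_lit 171)) (XT.nd (nat_lit 78) (nat_lit 1064) (nat_lit 0) (XT.lf (nat_lit 76) (nat_lit 13739722232) (nat_lit 0) (nat_lit 1473272547) (nat_lit 1140)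 (nat_lit 666740413) (nat_lit 179) (nat_lit 5) (nat_lit 178) (nat_lit 5) (nat_lit 193) (nat_lit 5) (nat_lit 312) (nat_lit 298) (nat_lit 170)) (XT.lf (nat_lit 0) (nat_lit 418571397) (nat_lit 1140) (nat_lit 10962179672) (nat_lit 1216) (nat_lit 4752931376) (nat_lit 164) (nat_lit 5) (nat_lit 179) (nat_lit 5) (nat_lit 180) (nat_lit 5) (nat_lit 313) (nat_lit 298) (nat_lit 169)))) (XT.nd (nat_lit 78) (nat_lit 0) (nat_lit 76) (XT.lf (nat_lit 0) (nat_lit 1549419898) (nat_lit 1140) (nat_lit 3677951717) (nat_lit 1216) (nat_lit 11166905922) (nat_lit 164) (nat_lit 5) (nat_lit 179) (nat_lit 5) (nat_lit 180) (nat_lit 5) (nat_lit 314) (nat_lit 298) (nat_lit 168)) (XT.nd (nat_lit 78) (nat_lit 0) (nat_lit 0) (XT.lf (nat_lit 0) (nat_lit 2752937288) (nat_lit 1140) (nat_lit 12780119437) (nat_lit 76) (nat_lit 1128489711) (nat_lit 165) (nat_lit 5) (nat_lit 180) (nat_lit 5) (nat_lit 166) (nat_lit 5) (nat_lit 315) (nat_lit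 298) (nat_lit 167)) (XT.lf (nat_lit 0) (nat_lit 4072307908) (nat_lit 1140) (nat_lit 5253046969) (nat_lit 76) (nat_lit 7609103822) (nat_lit 165) (nat_lit 5) (nat_lit 180) (nat_lit 5) (nat_lit 166) (nat_lit 5) (nat_lit 316) (nat_lit 298) (nat_lit 166))))))))
noncomputable def xc202 : XT := (XT.nd (nat_lit 1794) (nat_lit 3040) (nat_lit 0) (XT.nd (nat_lit 858) (nat_lit 2584) (nat_lit 0) (XT.nd (nat_lit 390) (nat_lit 1672) (nat_lit 0) (XT.nd (nat_lit 156) (nat_lit 532) (nat_lit 0) (XT.nd (nat_lit 78) (nat_lit 0) (nat_lit 0) (XT.lf (nat_lit 0) (nat_lit 2541484220) (nat_lit 1064) (nat_lit 2904966629) (nat_lit 1140) (nat_lit 11768668955) (nat_lit 151) (nat_lit 5) (nat_lit 165) (nat_lit 5) (nat_lit 166) (nat_lit 5) (nat_lit 317) (nat_lit 298) (nat_lit 165)) (XT.lf (nat_lit 0) (nat_lit 6941998312) (nat_lit 1140) (nat_lit 6869413247) (nat_lit 76) (nat_lit 3690400486) (nat_lit 151) (nat_lit 5) (nat_lit 166)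 (nat_lit 5) (nat_lit 152) (nat_lit 5) (nat_lit 318) (nat_lit 298) (nat_lit 164))) (XT.nd (nat_lit 78) (nat_lit 0) (nat_lit 0) (XT.lf (nat_lit 0) (nat_lit 1154777048) (nat_lit 532) (nat_lit 7358726425) (nat_lit 608) (nat_lit 9282685066) (nat_lit 144) (nat_lit 5) (nat_lit 151) (nat_lit 5) (nat_lit 152) (nat_lit 5) (nat_lit 319) (nat_lit 298) (nat_lit 163)) (XT.nd (nat_lit 78) (nat_lit 0) (nat_lit 0) (XT.lf (nat_lit 0) (nat_lit 9552656515) (nat_lit 532) (nat_lit 640273670) (nat_lit 608) (nat_lit 7904658600) (nat_lit 144) (nat_lit 5) (nat_lit 151) (nat_lit 5) (nat_lit 152) (nat_lit 5) (nat_lit 320) (nat_lit 298) (nat_lit 162)) (XT.lf (nat_lit 0) (nat_lit 11974770245) (nat_lit 608) (nat_lit 273819771) (nat_lit 76) (nat_lit 6157895399) (nat_lit 144) (nat_lit 5) (nat_lit 152) (nat_lit 5) (nat_lit 145) (nat_lit 5) (nat_lit 321) (nat_lit 298) (nat_lit 161))))) (XT.nd (nat_lit 234) (nat_lit 608) (nat_lit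 0) (XT.nd (nat_lit 78) (nat_lit 532) (nat_lit 0) (XT.lf (nat_lit 0) (nat_lit 8395241692) (nat_lit 532) (nat_lit 5493772009) (nat_lit 608) (nat_lit 4833281642) (nat_lit 137) (nat_lit 5) (nat_lit 144) (nat_lit 5) (nat_lit 145) (nat_lit 5) (nat_lit 322) (nat_lit 298) (nat_lit 160)) (XT.nd (nat_lit 78) (nat_lit 532) (nat_lit 0) (XT.lf (nat_lit 0) (nat_lit 15869621363) (nat_lit 608) (nat_lit 1739452674) (nat_lit 76) (nat_lit 1438251838) (nat_lit 137) (nat_lit 5) (nat_lit 145) (nat_lit 5) (nat_lit 138) (nat_lit 5) (nat_lit 323) (nat_lit 298) (nat_lit 159)) (XT.lf (nat_lit 0) (nat_lit 7183948993) (nat_lit 532) (nat_lit 10841453989) (nat_lit 608) (nat_lit 1353245666) (nat_lit 130) (nat_lit 5) (nat_lit 137) (nat_lit 5) (nat_lit 138) (nat_lit 5) (nat_lit 324) (nat_lit 298) (nat_lit 158)))) (XT.nd (nat_lit 78) (nat_lit 532) (nat_lit 0) (XT.lf (nat_lit 0) (nat_lit 525791826) (nat_lit 608) (nat_lit 3321612652)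 (nat_lit 76) (nat_lit 15872064903) (nat_lit 129) (nat_lit 5) (nat_lit 137) (nat_lit 5) (nat_lit 130) (nat_lit 5) (nat_lit 325) (nat_lit 298) (nat_lit 157)) (XT.nd (nat_lit 78) (nat_lit 0) (nat_lit 0) (XT.lf (nat_lit 0) (nat_lit 2516383081) (nat_lit 608) (nat_lit 14189450206) (nat_lit 76) (nat_lit 3361820856) (nat_lit 122) (nat_lit 5) (nat_lit 130) (nat_lit 5) (nat_lit 123) (nat_lit 5) (nat_lit 326) (nat_lit 298) (nat_lit 156)) (XT.lf (nat_lit 0) (nat_lit 4631393489) (nat_lit 608) (nat_lit 5049238278) (nat_lit 76) (nat_lit 10743724071) (nat_lit 122) (nat_lit 5) (nat_lit 130) (nat_lit 5) (nat_lit 123) (nat_lit 5) (nat_lit 327) (nat_lit 298) (nat_lit 155)))))) (XT.nd (nat_lit 468) (nat_lit 1292) (nat_lit 0) (XT.nd (nat_lit 234) (nat_lit 380) (nat_lit 0) (XT.nd (nat_lit 78) (nat_lit 456) (nat_lit 0) (XT.lf (nat_lit 0) (nat_lit 4444490843) (nat_lit 456) (nat_lit 2401032579) (nat_lit 532) (nat_lit 13945177157)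 (nat_lit 116) (nat_lit 5) (nat_lit 122) (nat_lit 5) (nat_lit 123) (nat_lit 5) (nat_lit 328) (nat_lit 298) (nat_lit 154)) (XT.nd (nat_lit 78) (nat_lit 456) (nat_lit 0) (XT.lf (nat_lit 0) (nat_lit 9219641348) (nat_lit 532) (nat_lit 6897029312) (nat_lit 76) (nat_lit 5048569801) (nat_lit 116) (nat_lit 5) (nat_lit 123) (nat_lit 5) (nat_lit 117) (nat_lit 5) (nat_lit 329) (nat_lit 298) (nat_lit 153)) (XT.lf (nat_lit 0) (nat_lit 2860329773) (nat_lit 456) (nat_lit 8849199338) (nat_lit 532) (nat_lit 9840162416) (nat_lit 110) (nat_lit 5) (nat_lit 116) (nat_lit 5) (nat_lit 117) (nat_lit 5) (nat_lit 330) (nat_lit 298) (nat_lit 152)))) (XT.nd (nat_lit 78) (nat_lit 380) (nat_lit 0) (XT.lf (nat_lit 0) (nat_lit 13044524439) (nat_lit 456) (nat_lit 1292639916) (nat_lit 532) (nat_lit 7606631293) (nat_lit 110) (nat_lit 5) (nat_lit 116) (nat_lit 5) (nat_lit 117) (nat_lit 5) (nat_lit 331) (nat_lit 298) (nat_lit 151))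 (XT.nd (nat_lit 78) (nat_lit 0) (nat_lit 0) (XT.lf (nat_lit 0) (nat_lit 1137066115) (nat_lit 380) (nat_lit 15973474699) (nat_lit 456) (nat_lit 5237185438) (nat_lit 105) (nat_lit 5) (nat_lit 110) (nat_lit 5) (nat_lit 111) (nat_lit 5) (nat_lit 332) (nat_lit 298) (nat_lit 150)) (XT.lf (nat_lit 0) (nat_lit 11636685452) (nat_lit 380) (nat_lit 8426679117) (nat_lit 456) (nat_lit 2697533240) (nat_lit 105) (nat_lit 5) (nat_lit 110) (nat_lit 5) (nat_lit 111) (nat_lit 5) (nat_lit 333) (nat_lit 298) (nat_lit 149))))) (XT.nd (nat_lit 234) (nat_lit 760) (nat_lit 0) (XT.nd (nat_lit 78) (nat_lit 532) (nat_lit 0) (XT.lf (nat_lit 0) (nat_lit 22444321218) (nat_lit 380) (nat_lit 654342954) (nat_lit 456) (nat_lit 87993713) (nat_lit 105) (nat_lit 5) (nat_lit 110) (nat_lit 5) (nat_lit 111) (nat_lit 5) (nat_lit 334) (nat_lit 298) (nat_lit 148)) (XT.nd (nat_lit 78) (nat_lit 0) (nat_lit 0) (XT.lf (nat_lit 0) (nat_lit 2712212279)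 (nat_lit 532) (nat_lit 13577062892) (nat_lit 76) (nat_lit 7330282017) (nat_lit 98) (nat_lit 5) (nat_lit 105) (nat_lit 5) (nat_lit 99) (nat_lit 5) (nat_lit 335) (nat_lit 298) (nat_lit 147)) (XT.lf (nat_lit 0) (nat_lit 5602805633) (nat_lit 532) (nat_lit 2913562607) (nat_lit 76) (nat_lit 15548813853) (nat_lit 98) (nat_lit 5) (nat_lit 105) (nat_lit 5) (nat_lit 99) (nat_lit 5) (nat_lit 336) (nat_lit 298) (nat_lit 146)))) (XT.nd (nat_lit 78) (nat_lit 380) (nat_lit 0) (XT.lf (nat_lit 0) (nat_lit 8223509780) (nat_lit 380) (nat_lit 429928996) (nat_lit 456) (nat_lit 15868546290) (nat_lit 93) (nat_lit 5) (nat_lit 98) (nat_lit 5) (nat_lit 99) (nat_lit 5) (nat_lit 337) (nat_lit 298) (nat_lit 145)) (XT.nd (nat_lit 78) (nat_lit 380) (nat_lit 0) (XT.lf (nat_lit 0) (nat_lit 11895598463) (nat_lit 456) (nat_lit 5320315591) (nat_lit 76) (nat_lit 7773586569) (nat_lit 93) (nat_lit 5) (nat_lit 99) (nat_lit 5) (nat_lit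 94) (nat_lit 5) (nat_lit 338) (nat_lit 298) (nat_lit 144)) (XT.lf (nat_lit 0) (nat_lit 6095168628) (nat_lit 380) (nat_lit 9197229644) (nat_lit 456) (nat_lit 10176930581) (nat_lit 88) (nat_lit 5) (nat_lit 93) (nat_lit 5) (nat_lit 94) (nat_lit 5) (nat_lit 339) (nat_lit 298) (nat_lit 143))))))) (XT.nd (nat_lit 936) (nat_lit 1292) (nat_lit 0) (XT.nd (nat_lit 468) (nat_lit 988) (nat_lit 0) (XT.nd (nat_lit 234) (nat_lit 456) (nat_lit 0) (XT.nd (nat_lit 78) (nat_lit 304) (nat_lit 0) (XT.lf (nat_lit 0) (nat_lit 17955542100) (nat_lit 380) (nat_lit 883908433) (nat_lit 456) (nat_lit 7122659163) (nat_lit 88) (nat_lit 5) (nat_lit 93) (nat_lit 5) (nat_lit 94) (nat_lit 5) (nat_lit 340) (nat_lit 298) (nat_lit 142)) (XT.nd (nat_lit 78) (nat_lit 0) (nat_lit 0) (XT.lf (nat_lit 0) (nat_lit 3693721129) (nat_lit 304) (nat_lit 18903281515) (nat_lit 380) (nat_lit 3869556654) (nat_lit 84) (nat_lit 5) (nat_lit 88) (nat_lit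 5) (nat_lit 89) (nat_lit 5) (nat_lit 341) (nat_lit 298) (nat_lit 141)) (XT.lf (nat_lit 0) (nat_lit 15893688186) (nat_lit 304) (nat_lit 10657967654) (nat_lit 380) (nat_lit 431963059) (nat_lit 84) (nat_lit 5) (nat_lit 88) (nat_lit 5) (nat_lit 89) (nat_lit 5) (nat_lit 342) (nat_lit 298) (nat_lit 140)))) (XT.nd (nat_lit 78) (nat_lit 0) (nat_lit 0) (XT.lf (nat_lit 0) (nat_lit 925185452) (nat_lit 380) (nat_lit 2126754348) (nat_lit 456) (nat_lit 24463245957) (nat_lit 78) (nat_lit 5) (nat_lit 83) (nat_lit 5) (nat_lit 84) (nat_lit 5) (nat_lit 343) (nat_lit 298) (nat_lit 139)) (XT.nd (nat_lit 78) (nat_lit 0) (nat_lit 0) (XT.lf (nat_lit 0) (nat_lit 6803819925) (nat_lit 456) (nat_lit 14607189667) (nat_lit 76) (nat_lit 6646404548) (nat_lit 78) (nat_lit 5) (nat_lit 84) (nat_lit 5) (nat_lit 79) (nat_lit 5) (nat_lit 344) (nat_lit 298) (nat_lit 138)) (XT.lf (nat_lit 0) (nat_lit 10684481467) (nat_lit 456) (nat_lit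 2292289563) (nat_lit 76) (nat_lit 15638658478) (nat_lit 78) (nat_lit 5) (nat_lit 84) (nat_lit 5) (nat_lit 79) (nat_lit 5) (nat_lit 345) (nat_lit 298) (nat_lit 137))))) (XT.nd (nat_lit 234) (nat_lit 380) (nat_lit 0) (XT.nd (nat_lit 78) (nat_lit 304) (nat_lit 0) (XT.lf (nat_lit 0) (nat_lit 10592604121) (nat_lit 304) (nat_lit 4186090101) (nat_lit 380) (nat_lit 14408583858) (nat_lit 74) (nat_lit 5) (nat_lit 78) (nat_lit 5) (nat_lit 79) (nat_lit 5) (nat_lit 346) (nat_lit 298) (nat_lit 136)) (XT.nd (nat_lit 78) (nat_lit 304) (nat_lit 0) (XT.lf (nat_lit 0) (nat_lit 19061279980) (nat_lit 380) (nat_lit 5917803361) (nat_lit 76) (nat_lit 4795238857) (nat_lit 74) (nat_lit 5) (nat_lit 79) (nat_lit 5) (nat_lit 75) (nat_lit 5) (nat_lit 347) (nat_lit 298) (nat_lit 135)) (XT.lf (nat_lit 0) (nat_lit 7233026982) (nat_lit 304) (nat_lit 16345798443) (nat_lit 380) (nat_lit 6796964052) (nat_lit 70) (nat_lit 5) (nat_lit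 74) (nat_lit 5) (nat_lit 75) (nat_lit 5) (nat_lit 348) (nat_lit 298) (nat_lit 134)))) (XT.nd (nat_lit 78) (nat_lit 380) (nat_lit 0) (XT.lf (nat_lit 0) (nat_lit 20893708297) (nat_lit 304) (nat_lit 7393527884) (nat_lit 380) (nat_lit 2706410542) (nat_lit 70) (nat_lit 5) (nat_lit 74) (nat_lit 5) (nat_lit 75) (nat_lit 5) (nat_lit 349) (nat_lit 298) (nat_lit 133)) (XT.nd (nat_lit 78) (nat_lit 0) (nat_lit 0) (XT.lf (nat_lit 0) (nat_lit 1523619842) (nat_lit 380) (nat_lit 28267046360) (nat_lit 76) (nat_lit 1837559768) (nat_lit 65) (nat_lit 5) (nat_lit 70) (nat_lit 5) (nat_lit 66) (nat_lit 5) (nat_lit 350) (nat_lit 298) (nat_lit 132)) (XT.lf (nat_lit 0) (nat_lit 5998073807) (nat_lit 380) (nat_lit 14952583697) (nat_lit 76) (nat_lit 11325229239) (nat_lit 65) (nat_lit 5) (nat_lit 70) (nat_lit 5) (nat_lit 66) (nat_lit 5) (nat_lit 351) (nat_lit 298) (nat_lit 131)))))) (XT.nd (nat_lit 468) (nat_lit 456) (nat_lit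 0) (XT.nd (nat_lit 234) (nat_lit 532) (nat_lit 0) (XT.nd (nat_lit 78) (nat_lit 304) (nat_lit 0) (XT.lf (nat_lit 0) (nat_lit 10602602383) (nat_lit 380) (nat_lit 1244475142) (nat_lit 76) (nat_lit 21096030018) (nat_lit 65) (nat_lit 5) (nat_lit 70) (nat_lit 5) (nat_lit 66) (nat_lit 5) (nat_lit 352) (nat_lit 298) (nat_lit 130)) (XT.nd (nat_lit 78) (nat_lit 0) (nat_lit 0) (XT.lf (nat_lit 0) (nat_lit 13125380718) (nat_lit 304) (nat_lit 2342017416) (nat_lit 380) (nat_lit 18159288169) (nat_lit 61) (nat_lit 5) (nat_lit 65) (nat_lit 5) (nat_lit 66) (nat_lit 5) (nat_lit 353) (nat_lit 298) (nat_lit 129)) (XT.lf (nat_lit 0) (nat_lit 20558436502) (nat_lit 380) (nat_lit 6455947034) (nat_lit 76) (nat_lit 7313985051) (nat_lit 61) (nat_lit 5) (nat_lit 66) (nat_lit 5) (nat_lit 62) (nat_lit 5) (nat_lit 354) (nat_lit 298) (nat_lit 128)))) (XT.nd (nat_lit 78) (nat_lit 304) (nat_lit 0) (XT.lf (nat_lit 0) (nat_lit 8140934828)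 (nat_lit 228) (nat_lit 17758842274) (nat_lit 304) (nat_lit 9148402077) (nat_lit 58) (nat_lit 5) (nat_lit 61) (nat_lit 5) (nat_lit 62) (nat_lit 5) (nat_lit 355) (nat_lit 298) (nat_lit 127)) (XT.nd (nat_lit 78) (nat_lit 304) (nat_lit 0) (XT.lf (nat_lit 0) (nat_lit 23302609618) (nat_lit 228) (nat_lit 8160128228) (nat_lit 304) (nat_lit 4325009674) (nat_lit 58) (nat_lit 5) (nat_lit 61) (nat_lit 5) (nat_lit 62) (nat_lit 5) (nat_lit 356) (nat_lit 298) (nat_lit 126)) (XT.lf (nat_lit 0) (nat_lit 666782357) (nat_lit 304) (nat_lit 34160605731) (nat_lit 76) (nat_lit 1720846521) (nat_lit 54) (nat_lit 5) (nat_lit 58) (nat_lit 5) (nat_lit 55) (nat_lit 5) (nat_lit 357) (nat_lit 298) (nat_lit 125))))) (XT.nd (nat_lit 234) (nat_lit 228) (nat_lit 0) (XT.nd (nat_lit 78) (nat_lit 228) (nat_lit 0) (XT.lf (nat_lit 0) (nat_lit 5925816209) (nat_lit 304) (nat_lit 19495526632) (nat_lit 76) (nat_lit 11902780737) (nat_lit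 54) (nat_lit 5) (nat_lit 58) (nat_lit 5) (nat_lit 55) (nat_lit 5) (nat_lit 358) (nat_lit 298) (nat_lit 124)) (XT.nd (nat_lit 78) (nat_lit 228) (nat_lit 0) (XT.lf (nat_lit 0) (nat_lit 11339028299) (nat_lit 304) (nat_lit 4395758106) (nat_lit 76) (nat_lit 22388614885) (nat_lit 54) (nat_lit 5) (nat_lit 58) (nat_lit 5) (nat_lit 55) (nat_lit 5) (nat_lit 359) (nat_lit 298) (nat_lit 123)) (XT.lf (nat_lit 0) (nat_lit 11373838372) (nat_lit 228) (nat_lit 5646642539) (nat_lit 304) (nat_lit 21923005262) (nat_lit 51) (nat_lit 5) (nat_lit 54) (nat_lit 5) (nat_lit 55) (nat_lit 5) (nat_lit 360) (nat_lit 298) (nat_lit 122)))) (XT.nd (nat_lit 78) (nat_lit 228) (nat_lit 0) (XT.lf (nat_lit 0) (nat_lit 22959357973) (nat_lit 304) (nat_lit 12131404637) (nat_lit 76) (nat_lit 4694805610) (nat_lit 51) (nat_lit 5) (nat_lit 55) (nat_lit 5) (nat_lit 52) (nat_lit 5) (nat_lit 361) (nat_lit 298) (nat_lit 121)) (XT.nd (nat_lit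 78) (nat_lit 0) (nat_lit 0) (XT.lf (nat_lit 0) (nat_lit 3782895367) (nat_lit 228) (nat_lit 25382426556) (nat_lit 304) (nat_lit 11484927114) (nat_lit 48) (nat_lit 5) (nat_lit 51) (nat_lit 5) (nat_lit 52) (nat_lit 5) (nat_lit 362) (nat_lit 298) (nat_lit 120)) (XT.lf (nat_lit 0) (nat_lit 20418354287) (nat_lit 228) (nat_lit 15258313606) (nat_lit 304) (nat_lit 5860630104) (nat_lit 48) (nat_lit 5) (nat_lit 51) (nat_lit 5) (nat_lit 52) (nat_lit 5) (nat_lit 363) (nat_lit 298) (nat_lit 119))))))))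
noncomputable def xc203 : XT := (XT.nd (nat_lit 35646) (nat_lit 0) (nat_lit 8436) (XT.nd (nat_lit 858) (nat_lit 684) (nat_lit 0) (XT.nd (nat_lit 390) (nat_lit 456) (nat_lit 0) (XT.nd (nat_lit 156) (nat_lit 228) (nat_lit 0) (XT.nd (nat_lit 78) (nat_lit 304) (nat_lit 0) (XT.lf (nat_lit 0) (nat_lit 37548069222) (nat_lit 228) (nat_lit 4832080846) (nat_lit 304) (nat_lit 70908185) (nat_lit 48) (nat_lit 5) (nat_lit 51) (nat_lit 5) (nat_lit 52) (nat_lit 5) (nat_lit 364) (nat_lit 298) (nat_lit 118)) (XT.lf (nat_lit 0) (nat_lit 5947921366) (nat_lit 304) (nat_lit 31473964879) (nat_lit 76) (nat_lit 5963537287) (nat_lit 44) (nat_lit 5) (nat_lit 48) (nat_lit 5) (nat_lit 45) (nat_lit 5) (nat_lit 365) (nat_lit 298) (nat_lit 117))) (XT.nd (nat_lit 78) (nat_lit 228) (nat_lit 0) (XT.lf (nat_lit 0) (nat_lit 12240619889) (nat_lit 304) (nat_lit 15069291334) (nat_lit 76) (nat_lit 17035048995) (nat_lit 44) (nat_lit 5)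 (nat_lit 48) (nat_lit 5) (nat_lit 45) (nat_lit 5) (nat_lit 366) (nat_lit 298) (nat_lit 116)) (XT.nd (nat_lit 78) (nat_lit 0) (nat_lit 0) (XT.lf (nat_lit 0) (nat_lit 1859171978) (nat_lit 228) (nat_lit 16877775689) (nat_lit 304) (nat_lit 26595893177) (nat_lit 41) (nat_lit 5) (nat_lit 44) (nat_lit 5) (nat_lit 45) (nat_lit 5) (nat_lit 367) (nat_lit 298) (nat_lit 115)) (XT.lf (nat_lit 0) (nat_lit 19599810695) (nat_lit 228) (nat_lit 5977545666) (nat_lit 304) (nat_lit 20768528986) (nat_lit 41) (nat_lit 5) (nat_lit 44) (nat_lit 5) (nat_lit 45) (nat_lit 5) (nat_lit 368) (nat_lit 298) (nat_lit 114))))) (XT.nd (nat_lit 234) (nat_lit 304) (nat_lit 0) (XT.nd (nat_lit 78) (nat_lit 152) (nat_lit 0) (XT.lf (nat_lit 0) (nat_lit 32670533144) (nat_lit 304) (nat_lit 9571641422) (nat_lit 76) (nat_lit 5145723044) (nat_lit 41) (nat_lit 5) (nat_lit 45) (nat_lit 5) (nat_lit 42) (nat_lit 5) (nat_lit 369) (nat_lit 298) (nat_lit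 113)) (XT.nd (nat_lit 78) (nat_lit 0) (nat_lit 0) (XT.lf (nat_lit 0) (nat_lit 8214746728) (nat_lit 152) (nat_lit 31897084559) (nat_lit 228) (nat_lit 8345282181) (nat_lit 39) (nat_lit 5) (nat_lit 41) (nat_lit 5) (nat_lit 42) (nat_lit 5) (nat_lit 370) (nat_lit 298) (nat_lit 112)) (XT.lf (nat_lit 0) (nat_lit 26726585110) (nat_lit 152) (nat_lit 21143655734) (nat_lit 228) (nat_lit 1685351704) (nat_lit 39) (nat_lit 5) (nat_lit 41) (nat_lit 5) (nat_lit 42) (nat_lit 5) (nat_lit 371) (nat_lit 298) (nat_lit 111)))) (XT.nd (nat_lit 78) (nat_lit 228) (nat_lit 0) (XT.lf (nat_lit 0) (nat_lit 5070675131) (nat_lit 228) (nat_lit 4947267694) (nat_lit 76) (nat_lit 40667675676) (nat_lit 38) (nat_lit 5) (nat_lit 41) (nat_lit 5) (nat_lit 39) (nat_lit 5) (nat_lit 372) (nat_lit 298) (nat_lit 110)) (XT.nd (nat_lit 78) (nat_lit 0) (nat_lit 0) (XT.lf (nat_lit 0) (nat_lit 12140034429) (nat_lit 304) (nat_lit 38142720034) (nat_lit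 76) (nat_lit 1561957077) (nat_lit 35) (nat_lit 5) (nat_lit 39) (nat_lit 5) (nat_lit 36) (nat_lit 5) (nat_lit 373) (nat_lit 298) (nat_lit 109)) (XT.lf (nat_lit 0) (nat_lit 19568486326) (nat_lit 304) (nat_lit 20128800389) (nat_lit 76) (nat_lit 13336882897) (nat_lit 35) (nat_lit 5) (nat_lit 39) (nat_lit 5) (nat_lit 36) (nat_lit 5) (nat_lit 374) (nat_lit 298) (nat_lit 108)))))) (XT.nd (nat_lit 468) (nat_lit 304) (nat_lit 0) (XT.nd (nat_lit 234) (nat_lit 228) (nat_lit 0) (XT.nd (nat_lit 78) (nat_lit 152) (nat_lit 0) (XT.lf (nat_lit 0) (nat_lit 27217240258) (nat_lit 304) (nat_lit 1578523531) (nat_lit 76) (nat_lit 25463626702) (nat_lit 35) (nat_lit 5) (nat_lit 39) (nat_lit 5) (nat_lit 36) (nat_lit 5) (nat_lit 375) (nat_lit 298) (nat_lit 107)) (XT.nd (nat_lit 78) (nat_lit 0) (nat_lit 0) (XT.lf (nat_lit 0) (nat_lit 17873087838) (nat_lit 152) (nat_lit 17391698818) (nat_lit 228) (nat_lit 20251503891) (nat_lit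 33) (nat_lit 5) (nat_lit 35) (nat_lit 5) (nat_lit 36) (nat_lit 5) (nat_lit 376) (nat_lit 298) (nat_lit 106)) (XT.lf (nat_lit 0) (nat_lit 37936702269) (nat_lit 152) (nat_lit 5630554594) (nat_lit 228) (nat_lit 13243238194) (nat_lit 33) (nat_lit 5) (nat_lit 35) (nat_lit 5) (nat_lit 36) (nat_lit 5) (nat_lit 377) (nat_lit 298) (nat_lit 105)))) (XT.nd (nat_lit 78) (nat_lit 76) (nat_lit 0) (XT.lf (nat_lit 0) (nat_lit 400339265) (nat_lit 152) (nat_lit 51782247788) (nat_lit 228) (nat_lit 5959027381) (nat_lit 31) (nat_lit 5) (nat_lit 33) (nat_lit 5) (nat_lit 34) (nat_lit 5) (nat_lit 378) (nat_lit 298) (nat_lit 104)) (XT.nd (nat_lit 78) (nat_lit 0) (nat_lit 0) (XT.lf (nat_lit 0) (nat_lit 1759432071) (nat_lit 228) (nat_lit 38943695714) (nat_lit 76) (nat_lit 18801721237) (nat_lit 30) (nat_lit 5) (nat_lit 33) (nat_lit 5) (nat_lit 31) (nat_lit 5) (nat_lit 379) (nat_lit 298) (nat_lit 103)) (XT.lf (nat_lit 0) (nat_lit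 9587366286) (nat_lit 228) (nat_lit 19644938021) (nat_lit 76) (nat_lit 31674977699) (nat_lit 30) (nat_lit 5) (nat_lit 33) (nat_lit 5) (nat_lit 31) (nat_lit 5) (nat_lit 380) (nat_lit 298) (nat_lit 102))))) (XT.nd (nat_lit 234) (nat_lit 152) (nat_lit 0) (XT.nd (nat_lit 78) (nat_lit 0) (nat_lit 0) (XT.lf (nat_lit 0) (nat_lit 233703108) (nat_lit 152) (nat_lit 17416440682) (nat_lit 228) (nat_lit 44701646079) (nat_lit 28) (nat_lit 5) (nat_lit 30) (nat_lit 5) (nat_lit 31) (nat_lit 5) (nat_lit 381) (nat_lit 298) (nat_lit 101)) (XT.nd (nat_lit 78) (nat_lit 0) (nat_lit 0) (XT.lf (nat_lit 0) (nat_lit 21107801440) (nat_lit 152) (nat_lit 5043167934) (nat_lit 228) (nat_lit 37682780641) (nat_lit 28) (nat_lit 5) (nat_lit 30) (nat_lit 5) (nat_lit 31) (nat_lit 5) (nat_lit 382) (nat_lit 298) (nat_lit 100)) (XT.lf (nat_lit 0) (nat_lit 34978690143) (nat_lit 228) (nat_lit 22829628223) (nat_lit 76) (nat_lit 7549696417)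 (nat_lit 28) (nat_lit 5) (nat_lit 31) (nat_lit 5) (nat_lit 29) (nat_lit 5) (nat_lit 383) (nat_lit 298) (nat_lit 99)))) (XT.nd (nat_lit 78) (nat_lit 152) (nat_lit 0) (XT.lf (nat_lit 0) (nat_lit 44119078565) (nat_lit 228) (nat_lit 2389799493) (nat_lit 76) (nat_lit 20417696232) (nat_lit 28) (nat_lit 5) (nat_lit 31) (nat_lit 5) (nat_lit 29) (nat_lit 5) (nat_lit 384) (nat_lit 298) (nat_lit 98)) (XT.nd (nat_lit 33930) (nat_lit 0) (nat_lit 11172) (XT.lf (nat_lit 0) (nat_lit 19031243786) (nat_lit 152) (nat_lit 34683339540) (nat_lit 228) (nat_lit 14822181935) (nat_lit 26) (nat_lit 5) (nat_lit 28) (nat_lit 5) (nat_lit 29) (nat_lit 5) (nat_lit 385) (nat_lit 298) (nat_lit 97)) (XT.lf (nat_lit 0) (nat_lit 2353960809) (nat_lit 1140) (nat_lit 2137793682) (nat_lit 1140) (nat_lit 2137793682) (nat_lit 173) (nat_lit 3) (nat_lit 188) (nat_lit 3) (nat_lit 188) (nat_lit 5) (nat_lit 299) (nat_lit 299) (nat_lit 182)))))))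 (XT.nd (nat_lit 936) (nat_lit 2736) (nat_lit 0) (XT.nd (nat_lit 468) (nat_lit 0) (nat_lit 228) (XT.nd (nat_lit 234) (nat_lit 0) (nat_lit 76) (XT.nd (nat_lit 78) (nat_lit 0) (nat_lit 76) (XT.lf (nat_lit 76) (nat_lit 1454457655) (nat_lit 0) (nat_lit 3691677596) (nat_lit 1140) (nat_lit 8300112025) (nat_lit 174) (nat_lit 5) (nat_lit 173) (nat_lit 3) (nat_lit 188) (nat_lit 5) (nat_lit 300) (nat_lit 299) (nat_lit 181)) (XT.nd (nat_lit 78) (nat_lit 0) (nat_lit 0) (XT.lf (nat_lit 0) (nat_lit 5644198673) (nat_lit 1064) (nat_lit 6218773353) (nat_lit 1140) (nat_lit 1774667224) (nat_lit 174) (nat_lit 5) (nat_lit 188) (nat_lit 5) (nat_lit 189) (nat_lit 5) (nat_lit 301) (nat_lit 299) (nat_lit 180)) (XT.lf (nat_lit 0) (nat_lit 6180350549) (nat_lit 1064) (nat_lit 316661611) (nat_lit 1140) (nat_lit 7337093240) (nat_lit 174) (nat_lit 5) (nat_lit 188) (nat_lit 5) (nat_lit 189) (nat_lit 5) (nat_lit 302) (nat_lit 299)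 (nat_lit 179)))) (XT.nd (nat_lit 78) (nat_lit 0) (nat_lit 76) (XT.lf (nat_lit 76) (nat_lit 5869729008) (nat_lit 0) (nat_lit 906267118) (nat_lit 1140) (nat_lit 7259193169) (nat_lit 175) (nat_lit 5) (nat_lit 174) (nat_lit 5) (nat_lit 189) (nat_lit 5) (nat_lit 303) (nat_lit 299) (nat_lit 178)) (XT.nd (nat_lit 78) (nat_lit 0) (nat_lit 0) (XT.lf (nat_lit 0) (nat_lit 7426730187) (nat_lit 1064) (nat_lit 2048392218) (nat_lit 1140) (nat_lit 4766092002) (nat_lit 175) (nat_lit 5) (nat_lit 189) (nat_lit 5) (nat_lit 190) (nat_lit 5) (nat_lit 304) (nat_lit 299) (nat_lit 177)) (XT.lf (nat_lit 76) (nat_lit 4320027784) (nat_lit 0) (nat_lit 3815174173) (nat_lit 1140) (nat_lit 6317096384) (nat_lit 176) (nat_lit 5) (nat_lit 175) (nat_lit 5) (nat_lit 190) (nat_lit 5) (nat_lit 305) (nat_lit 299) (nat_lit 176))))) (XT.nd (nat_lit 234) (nat_lit 0) (nat_lit 76) (XT.nd (nat_lit 78) (nat_lit 0) (nat_lit 0) (XT.lf (nat_lit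 0) (nat_lit 8893229322) (nat_lit 1064) (nat_lit 3775014823) (nat_lit 1140) (nat_lit 2000645429) (nat_lit 176) (nat_lit 5) (nat_lit 190) (nat_lit 5) (nat_lit 191) (nat_lit 5) (nat_lit 306) (nat_lit 299) (nat_lit 175)) (XT.nd (nat_lit 78) (nat_lit 0) (nat_lit 0) (XT.lf (nat_lit 76) (nat_lit 2781856100) (nat_lit 0) (nat_lit 6945051060) (nat_lit 1140) (nat_lit 5163507222) (nat_lit 177) (nat_lit 5) (nat_lit 176) (nat_lit 5) (nat_lit 191) (nat_lit 5) (nat_lit 307) (nat_lit 299) (nat_lit 174)) (XT.lf (nat_lit 76) (nat_lit 9605279375) (nat_lit 0) (nat_lit 1007096517) (nat_lit 1140) (nat_lit 4505428085) (nat_lit 177) (nat_lit 5) (nat_lit 176) (nat_lit 5) (nat_lit 191) (nat_lit 5) (nat_lit 308) (nat_lit 299) (nat_lit 173)))) (XT.nd (nat_lit 78) (nat_lit 0) (nat_lit 0) (XT.lf (nat_lit 76) (nat_lit 1248944801) (nat_lit 0) (nat_lit 10325606377) (nat_lit 1140) (nat_lit 3775981607) (nat_lit 178) (nat_lit 5) (nat_lit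 177) (nat_lit 5) (nat_lit 192) (nat_lit 5) (nat_lit 309) (nat_lit 299) (nat_lit 172)) (XT.nd (nat_lit 78) (nat_lit 0) (nat_lit 76) (XT.lf (nat_lit 76) (nat_lit 8308459590) (nat_lit 0) (nat_lit 4311943672) (nat_lit 1140) (nat_lit 2968217018) (nat_lit 178) (nat_lit 5) (nat_lit 177) (nat_lit 5) (nat_lit 192) (nat_lit 5) (nat_lit 310) (nat_lit 299) (nat_lit 171)) (XT.lf (nat_lit 0) (nat_lit 13705336797) (nat_lit 1064) (nat_lit 279952769) (nat_lit 1140) (nat_lit 1848350207) (nat_lit 178) (nat_lit 5) (nat_lit 192) (nat_lit 5) (nat_lit 193) (nat_lit 5) (nat_lit 311) (nat_lit 299) (nat_lit 170)))))) (XT.nd (nat_lit 468) (nat_lit 2052) (nat_lit 0) (XT.nd (nat_lit 234) (nat_lit 0) (nat_lit 0) (XT.nd (nat_lit 78) (nat_lit 1064) (nat_lit 0) (XT.lf (nat_lit 76) (nat_lit 7016951163) (nat_lit 0) (nat_lit 7905927142) (nat_lit 1140) (nat_lit 1160149700) (nat_lit 179) (nat_lit 5) (nat_lit 178) (nat_lit 5) (nat_lit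 193) (nat_lit 5) (nat_lit 312) (nat_lit 299) (nat_lit 169)) (XT.nd (nat_lit 78) (nat_lit 1064) (nat_lit 0) (XT.lf (nat_lit 76) (nat_lit 14531031223) (nat_lit 0) (nat_lit 1638879935) (nat_lit 1140) (nat_lit 170217143) (nat_lit 179) (nat_lit 5) (nat_lit 178) (nat_lit 5) (nat_lit 193) (nat_lit 5) (nat_lit 313) (nat_lit 299) (nat_lit 168)) (XT.lf (nat_lit 0) (nat_lit 925488920) (nat_lit 1140) (nat_lit 10887881408) (nat_lit 1216) (nat_lit 4788565065) (nat_lit 164) (nat_lit 5) (nat_lit 179) (nat_lit 5) (nat_lit 180) (nat_lit 5) (nat_lit 314) (nat_lit 299) (nat_lit 167)))) (XT.nd (nat_lit 78) (nat_lit 0) (nat_lit 76) (XT.lf (nat_lit 0) (nat_lit 2075864030) (nat_lit 1140) (nat_lit 3396869244) (nat_lit 1216) (nat_lit 11398074020) (nat_lit 164) (nat_lit 5) (nat_lit 179) (nat_lit 5) (nat_lit 180) (nat_lit 5) (nat_lit 315) (nat_lit 299) (nat_lit 166)) (XT.nd (nat_lit 78) (nat_lit 0) (nat_lit 0) (XT.lf (nat_lit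 0) (nat_lit 3304443741) (nat_lit 1140) (nat_lit 12760185280) (nat_lit 76) (nat_lit 1081822741) (nat_lit 165) (nat_lit 5) (nat_lit 180) (nat_lit 5) (nat_lit 166) (nat_lit 5) (nat_lit 316) (nat_lit 299) (nat_lit 165)) (XT.lf (nat_lit 0) (nat_lit 4649737664) (nat_lit 1140) (nat_lit 5019048339) (nat_lit 76) (nat_lit 7759200566) (nat_lit 165) (nat_lit 5) (nat_lit 180) (nat_lit 5) (nat_lit 166) (nat_lit 5) (nat_lit 317) (nat_lit 299) (nat_lit 164))))) (XT.nd (nat_lit 234) (nat_lit 532) (nat_lit 0) (XT.nd (nat_lit 78) (nat_lit 532) (nat_lit 0) (XT.lf (nat_lit 0) (nat_lit 3005479669) (nat_lit 1064) (nat_lit 3050092510) (nat_lit 1140) (nat_lit 11661806012) (nat_lit 151) (nat_lit 5) (nat_lit 165) (nat_lit 5) (nat_lit 166) (nat_lit 5) (nat_lit 318) (nat_lit 299) (nat_lit 163)) (XT.nd (nat_lit 78) (nat_lit 532) (nat_lit 0) (XT.lf (nat_lit 0) (nat_lit 7582462625) (nat_lit 1140) (nat_lit 6684715607) (nat_lit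 76) (nat_lit 3745922652) (nat_lit 151) (nat_lit 5) (nat_lit 166) (nat_lit 5) (nat_lit 152) (nat_lit 5) (nat_lit 319) (nat_lit 299) (nat_lit 162)) (XT.lf (nat_lit 0) (nat_lit 1576369220) (nat_lit 532) (nat_lit 7615874833) (nat_lit 608) (nat_lit 9124353969) (nat_lit 144) (nat_lit 5) (nat_lit 151) (nat_lit 5) (nat_lit 152) (nat_lit 5) (nat_lit 320) (nat_lit 299) (nat_lit 161)))) (XT.nd (nat_lit 78) (nat_lit 532) (nat_lit 0) (XT.lf (nat_lit 0) (nat_lit 10214914715) (nat_lit 532) (nat_lit 694808692) (nat_lit 608) (nat_lit 7717709379) (nat_lit 144) (nat_lit 5) (nat_lit 151) (nat_lit 5) (nat_lit 152) (nat_lit 5) (nat_lit 321) (nat_lit 299) (nat_lit 160)) (XT.nd (nat_lit 78) (nat_lit 0) (nat_lit 0) (XT.lf (nat_lit 0) (nat_lit 97639626) (nat_lit 532) (nat_lit 12636016893) (nat_lit 608) (nat_lit 6212302606) (nat_lit 137) (nat_lit 5) (nat_lit 144) (nat_lit 5) (nat_lit 145) (nat_lit 5) (nat_lit 322) (nat_lit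 299) (nat_lit 159)) (XT.lf (nat_lit 0) (nat_lit 9021164018) (nat_lit 532) (nat_lit 5675207677) (nat_lit 608) (nat_lit 4575161632) (nat_lit 137) (nat_lit 5) (nat_lit 144) (nat_lit 5) (nat_lit 145) (nat_lit 5) (nat_lit 323) (nat_lit 299) (nat_lit 158))))))))
noncomputable def xc204 : XT := (XT.nd (nat_lit 1794) (nat_lit 2812) (nat_lit 0) (XT.nd (nat_lit 858) (nat_lit 2052) (nat_lit 0) (XT.nd (nat_lit 390) (nat_lit 1292) (nat_lit 0) (XT.nd (nat_lit 156) (nat_lit 608) (nat_lit 0) (XT.nd (nat_lit 78) (nat_lit 532) (nat_lit 0) (XT.lf (nat_lit 0) (nat_lit 16724863205) (nat_lit 608) (nat_lit 1416242334) (nat_lit 76) (nat_lit 1465575955) (nat_lit 137) (nat_lit 5) (nat_lit 145) (nat_lit 5) (nat_lit 138) (nat_lit 5) (nat_lit 324) (nat_lit 299) (nat_lit 157)) (XT.lf (nat_lit 0) (nat_lit 7771181050) (nat_lit 532) (nat_lit 11166667063) (nat_lit 608) (nat_lit 1010340025) (nat_lit 130) (nat_lit 5) (nat_lit 137)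 (nat_lit 5) (nat_lit 138) (nat_lit 5) (nat_lit 325) (nat_lit 299) (nat_lit 156))) (XT.nd (nat_lit 78) (nat_lit 532) (nat_lit 0) (XT.lf (nat_lit 0) (nat_lit 906633043) (nat_lit 608) (nat_lit 3052477448) (nat_lit 76) (nat_lit 16340359900) (nat_lit 129) (nat_lit 5) (nat_lit 137) (nat_lit 5) (nat_lit 130) (nat_lit 5) (nat_lit 326) (nat_lit 299) (nat_lit 155)) (XT.nd (nat_lit 78) (nat_lit 0) (nat_lit 0) (XT.lf (nat_lit 0) (nat_lit 2949888657) (nat_lit 608) (nat_lit 14238684083) (nat_lit 76) (nat_lit 3469757937) (nat_lit 122) (nat_lit 5) (nat_lit 130) (nat_lit 5) (nat_lit 123) (nat_lit 5) (nat_lit 327) (nat_lit 299) (nat_lit 154)) (XT.lf (nat_lit 0) (nat_lit 5117921783) (nat_lit 608) (nat_lit 4835230350) (nat_lit 76) (nat_lit 11072911963) (nat_lit 122) (nat_lit 5) (nat_lit 130) (nat_lit 5) (nat_lit 123) (nat_lit 5) (nat_lit 328) (nat_lit 299) (nat_lit 153))))) (XT.nd (nat_lit 234) (nat_lit 380) (nat_lit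 0) (XT.nd (nat_lit 78) (nat_lit 456) (nat_lit 0) (XT.lf (nat_lit 0) (nat_lit 4939727459) (nat_lit 456) (nat_lit 2452103101) (nat_lit 532) (nat_lit 14011785298) (nat_lit 116) (nat_lit 5) (nat_lit 122) (nat_lit 5) (nat_lit 123) (nat_lit 5) (nat_lit 329) (nat_lit 299) (nat_lit 152)) (XT.nd (nat_lit 78) (nat_lit 456) (nat_lit 0) (XT.lf (nat_lit 0) (nat_lit 9827437306) (nat_lit 532) (nat_lit 6742283739) (nat_lit 76) (nat_lit 5219979751) (nat_lit 116) (nat_lit 5) (nat_lit 123) (nat_lit 5) (nat_lit 117) (nat_lit 5) (nat_lit 330) (nat_lit 299) (nat_lit 151)) (XT.lf (nat_lit 0) (nat_lit 3304250467) (nat_lit 456) (nat_lit 9081566817) (nat_lit 532) (nat_lit 9800070574) (nat_lit 110) (nat_lit 5) (nat_lit 116) (nat_lit 5) (nat_lit 117) (nat_lit 5) (nat_lit 331) (nat_lit 299) (nat_lit 150)))) (XT.nd (nat_lit 78) (nat_lit 380) (nat_lit 0) (XT.lf (nat_lit 0) (nat_lit 13783540561) (nat_lit 456) (nat_lit 1299274938)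 (nat_lit 532) (nat_lit 7509299441) (nat_lit 110) (nat_lit 5) (nat_lit 116) (nat_lit 5) (nat_lit 117) (nat_lit 5) (nat_lit 332) (nat_lit 299) (nat_lit 149)) (XT.nd (nat_lit 78) (nat_lit 0) (nat_lit 0) (XT.lf (nat_lit 0) (nat_lit 1525040488) (nat_lit 380) (nat_lit 16408863920) (nat_lit 456) (nat_lit 5074439112) (nat_lit 105) (nat_lit 5) (nat_lit 110) (nat_lit 5) (nat_lit 111) (nat_lit 5) (nat_lit 333) (nat_lit 299) (nat_lit 148)) (XT.lf (nat_lit 0) (nat_lit 12329341733) (nat_lit 380) (nat_lit 8636940635) (nat_lit 456) (nat_lit 2467913713) (nat_lit 105) (nat_lit 5) (nat_lit 110) (nat_lit 5) (nat_lit 111) (nat_lit 5) (nat_lit 334) (nat_lit 299) (nat_lit 147)))))) (XT.nd (nat_lit 468) (nat_lit 760) (nat_lit 0) (XT.nd (nat_lit 234) (nat_lit 760) (nat_lit 0) (XT.nd (nat_lit 78) (nat_lit 456) (nat_lit 0) (XT.lf (nat_lit 0) (nat_lit 206752208) (nat_lit 456) (nat_lit 423833383) (nat_lit 76) (nat_lit 23242360095)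 (nat_lit 104) (nat_lit 5) (nat_lit 110) (nat_lit 5) (nat_lit 105) (nat_lit 5) (nat_lit 335) (nat_lit 299) (nat_lit 146)) (XT.nd (nat_lit 78) (nat_lit 0) (nat_lit 0) (XT.lf (nat_lit 0) (nat_lit 3084266230) (nat_lit 532) (nat_lit 13639087172) (nat_lit 76) (nat_lit 7595613993) (nat_lit 98) (nat_lit 5) (nat_lit 105) (nat_lit 5) (nat_lit 99) (nat_lit 5) (nat_lit 336) (nat_lit 299) (nat_lit 145)) (XT.lf (nat_lit 0) (nat_lit 6053110756) (nat_lit 532) (nat_lit 2665738799) (nat_lit 76) (nat_lit 16059378768) (nat_lit 98) (nat_lit 5) (nat_lit 105) (nat_lit 5) (nat_lit 99) (nat_lit 5) (nat_lit 337) (nat_lit 299) (nat_lit 144)))) (XT.nd (nat_lit 78) (nat_lit 380) (nat_lit 0) (XT.lf (nat_lit 0) (nat_lit 8802159185) (nat_lit 380) (nat_lit 388074531) (nat_lit 456) (nat_lit 16058665436) (nat_lit 93) (nat_lit 5) (nat_lit 98) (nat_lit 5) (nat_lit 99) (nat_lit 5) (nat_lit 338) (nat_lit 299) (nat_lit 143)) (XT.nd (nat_lit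 78) (nat_lit 380) (nat_lit 0) (XT.lf (nat_lit 0) (nat_lit 12522095630) (nat_lit 456) (nat_lit 5149669463) (nat_lit 76) (nat_lit 8058914476) (nat_lit 93) (nat_lit 5) (nat_lit 99) (nat_lit 5) (nat_lit 94) (nat_lit 5) (nat_lit 339) (nat_lit 299) (nat_lit 142)) (XT.lf (nat_lit 0) (nat_lit 6605041483) (nat_lit 380) (nat_lit 9411048167) (nat_lit 456) (nat_lit 10208966440) (nat_lit 88) (nat_lit 5) (nat_lit 93) (nat_lit 5) (nat_lit 94) (nat_lit 5) (nat_lit 340) (nat_lit 299) (nat_lit 141))))) (XT.nd (nat_lit 234) (nat_lit 456) (nat_lit 0) (XT.nd (nat_lit 78) (nat_lit 304) (nat_lit 0) (XT.lf (nat_lit 0) (nat_lit 18811701369) (nat_lit 380) (nat_lit 850136010) (nat_lit 456) (nat_lit 7071026261) (nat_lit 88) (nat_lit 5) (nat_lit 93) (nat_lit 5) (nat_lit 94) (nat_lit 5) (nat_lit 341) (nat_lit 299) (nat_lit 140)) (XT.nd (nat_lit 78) (nat_lit 0) (nat_lit 0) (XT.lf (nat_lit 0) (nat_lit 4126369076) (nat_lit 304)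 (nat_lit 19401911966) (nat_lit 380) (nat_lit 3724292191) (nat_lit 84) (nat_lit 5) (nat_lit 88) (nat_lit 5) (nat_lit 89) (nat_lit 5) (nat_lit 342) (nat_lit 299) (nat_lit 139)) (XT.lf (nat_lit 0) (nat_lit 16682961273) (nat_lit 304) (nat_lit 10911232902) (nat_lit 380) (nat_lit 191182958) (nat_lit 84) (nat_lit 5) (nat_lit 88) (nat_lit 5) (nat_lit 89) (nat_lit 5) (nat_lit 343) (nat_lit 299) (nat_lit 138)))) (XT.nd (nat_lit 78) (nat_lit 0) (nat_lit 0) (XT.lf (nat_lit 0) (nat_lit 1267599267) (nat_lit 380) (nat_lit 2120464804) (nat_lit 456) (nat_lit 24944890881) (nat_lit 78) (nat_lit 5) (nat_lit 83) (nat_lit 5) (nat_lit 84) (nat_lit 5) (nat_lit 344) (nat_lit 299) (nat_lit 137)) (XT.nd (nat_lit 78) (nat_lit 0) (nat_lit 0) (XT.lf (nat_lit 0) (nat_lit 7246031461) (nat_lit 456) (nat_lit 14733103550) (nat_lit 76) (nat_lit 6912519425) (nat_lit 78) (nat_lit 5) (nat_lit 84) (nat_lit 5) (nat_lit 79) (nat_lit 5)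 (nat_lit 345) (nat_lit 299) (nat_lit 136)) (XT.lf (nat_lit 0) (nat_lit 11236177987) (nat_lit 456) (nat_lit 2057852612) (nat_lit 76) (nat_lit 16172597593) (nat_lit 78) (nat_lit 5) (nat_lit 84) (nat_lit 5) (nat_lit 79) (nat_lit 5) (nat_lit 346) (nat_lit 299) (nat_lit 135))))))) (XT.nd (nat_lit 936) (nat_lit 988) (nat_lit 0) (XT.nd (nat_lit 468) (nat_lit 836) (nat_lit 0) (XT.nd (nat_lit 234) (nat_lit 380) (nat_lit 0) (XT.nd (nat_lit 78) (nat_lit 304) (nat_lit 0) (XT.lf (nat_lit 0) (nat_lit 11210615277) (nat_lit 304) (nat_lit 4238754995) (nat_lit 380) (nat_lit 14606386947) (nat_lit 74) (nat_lit 5) (nat_lit 78) (nat_lit 5) (nat_lit 79) (nat_lit 5) (nat_lit 347) (nat_lit 299) (nat_lit 134)) (XT.nd (nat_lit 78) (nat_lit 304) (nat_lit 0) (XT.lf (nat_lit 0) (nat_lit 19854493287) (nat_lit 380) (nat_lit 5797598330) (nat_lit 76) (nat_lit 5008508567) (nat_lit 74) (nat_lit 5) (nat_lit 79) (nat_lit 5) (nat_lit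 75) (nat_lit 5) (nat_lit 348) (nat_lit 299) (nat_lit 133)) (XT.lf (nat_lit 0) (nat_lit 7744837912) (nat_lit 304) (nat_lit 16759113362) (nat_lit 380) (nat_lit 6776277664) (nat_lit 70) (nat_lit 5) (nat_lit 74) (nat_lit 5) (nat_lit 75) (nat_lit 5) (nat_lit 349) (nat_lit 299) (nat_lit 132)))) (XT.nd (nat_lit 78) (nat_lit 380) (nat_lit 0) (XT.lf (nat_lit 0) (nat_lit 21806752673) (nat_lit 304) (nat_lit 7540519124) (nat_lit 380) (nat_lit 2569549159) (nat_lit 70) (nat_lit 5) (nat_lit 74) (nat_lit 5) (nat_lit 75) (nat_lit 5) (nat_lit 350) (nat_lit 299) (nat_lit 131)) (XT.nd (nat_lit 78) (nat_lit 0) (nat_lit 0) (XT.lf (nat_lit 0) (nat_lit 1780413423) (nat_lit 380) (nat_lit 28821296005) (nat_lit 76) (nat_lit 1968754956) (nat_lit 65) (nat_lit 5) (nat_lit 70) (nat_lit 5) (nat_lit 66) (nat_lit 5) (nat_lit 351) (nat_lit 299) (nat_lit 130)) (XT.lf (nat_lit 0) (nat_lit 6382952900) (nat_lit 380) (nat_lit 15115955629)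 (nat_lit 76) (nat_lit 11738838926) (nat_lit 65) (nat_lit 5) (nat_lit 70) (nat_lit 5) (nat_lit 66) (nat_lit 5) (nat_lit 352) (nat_lit 299) (nat_lit 129))))) (XT.nd (nat_lit 234) (nat_lit 532) (nat_lit 0) (XT.nd (nat_lit 78) (nat_lit 304) (nat_lit 0) (XT.lf (nat_lit 0) (nat_lit 11119648298) (nat_lit 380) (nat_lit 1004910776) (nat_lit 76) (nat_lit 21800612676) (nat_lit 65) (nat_lit 5) (nat_lit 70) (nat_lit 5) (nat_lit 66) (nat_lit 5) (nat_lit 353) (nat_lit 299) (nat_lit 128)) (XT.nd (nat_lit 78) (nat_lit 0) (nat_lit 0) (XT.lf (nat_lit 0) (nat_lit 13793326067) (nat_lit 304) (nat_lit 2333902299) (nat_lit 380) (nat_lit 18502131867) (nat_lit 61) (nat_lit 5) (nat_lit 65) (nat_lit 5) (nat_lit 66) (nat_lit 5) (nat_lit 354) (nat_lit 299) (nat_lit 127)) (XT.lf (nat_lit 0) (nat_lit 21366026182) (nat_lit 380) (nat_lit 6378210695) (nat_lit 76) (nat_lit 7608012611) (nat_lit 61) (nat_lit 5) (nat_lit 66) (nat_lit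 5) (nat_lit 62) (nat_lit 5) (nat_lit 355) (nat_lit 299) (nat_lit 126)))) (XT.nd (nat_lit 78) (nat_lit 304) (nat_lit 0) (XT.lf (nat_lit 0) (nat_lit 8653916694) (nat_lit 228) (nat_lit 18210715385) (nat_lit 304) (nat_lit 9229118704) (nat_lit 58) (nat_lit 5) (nat_lit 61) (nat_lit 5) (nat_lit 62) (nat_lit 5) (nat_lit 356) (nat_lit 299) (nat_lit 125)) (XT.nd (nat_lit 78) (nat_lit 304) (nat_lit 0) (XT.lf (nat_lit 0) (nat_lit 24262613947) (nat_lit 228) (nat_lit 8326396000) (nat_lit 304) (nat_lit 4266667309) (nat_lit 58) (nat_lit 5) (nat_lit 61) (nat_lit 5) (nat_lit 62) (nat_lit 5) (nat_lit 357) (nat_lit 299) (nat_lit 124)) (XT.lf (nat_lit 0) (nat_lit 869132541) (nat_lit 304) (nat_lit 34918309927) (nat_lit 76) (nat_lit 1851551046) (nat_lit 54) (nat_lit 5) (nat_lit 58) (nat_lit 5) (nat_lit 55) (nat_lit 5) (nat_lit 358) (nat_lit 299) (nat_lit 123)))))) (XT.nd (nat_lit 468) (nat_lit 532) (nat_lit 0) (XT.nd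 (nat_lit 234) (nat_lit 228) (nat_lit 0) (XT.nd (nat_lit 78) (nat_lit 228) (nat_lit 0) (XT.lf (nat_lit 0) (nat_lit 6280626340) (nat_lit 304) (nat_lit 19821058473) (nat_lit 76) (nat_lit 12336640013) (nat_lit 54) (nat_lit 5) (nat_lit 58) (nat_lit 5) (nat_lit 55) (nat_lit 5) (nat_lit 359) (nat_lit 299) (nat_lit 122)) (XT.nd (nat_lit 78) (nat_lit 228) (nat_lit 0) (XT.lf (nat_lit 0) (nat_lit 11851078415) (nat_lit 304) (nat_lit 4275850307) (nat_lit 76) (nat_lit 23134812995) (nat_lit 54) (nat_lit 5) (nat_lit 58) (nat_lit 5) (nat_lit 55) (nat_lit 5) (nat_lit 360) (nat_lit 299) (nat_lit 121)) (XT.lf (nat_lit 0) (nat_lit 11964365628) (nat_lit 228) (nat_lit 5735999325) (nat_lit 304) (nat_lit 22406148461) (nat_lit 51) (nat_lit 5) (nat_lit 54) (nat_lit 5) (nat_lit 55) (nat_lit 5) (nat_lit 361) (nat_lit 299) (nat_lit 120)))) (XT.nd (nat_lit 78) (nat_lit 228) (nat_lit 0) (XT.lf (nat_lit 0) (nat_lit 23813225151)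 (nat_lit 304) (nat_lit 12248919561) (nat_lit 76) (nat_lit 4911844509) (nat_lit 51) (nat_lit 5) (nat_lit 55) (nat_lit 5) (nat_lit 52) (nat_lit 5) (nat_lit 362) (nat_lit 299) (nat_lit 119)) (XT.nd (nat_lit 78) (nat_lit 0) (nat_lit 0) (XT.lf (nat_lit 0) (nat_lit 4140393490) (nat_lit 228) (nat_lit 26062511773) (nat_lit 304) (nat_lit 11661784718) (nat_lit 48) (nat_lit 5) (nat_lit 51) (nat_lit 5) (nat_lit 52) (nat_lit 5) (nat_lit 363) (nat_lit 299) (nat_lit 118)) (XT.lf (nat_lit 0) (nat_lit 21267809054) (nat_lit 228) (nat_lit 15637045946) (nat_lit 304) (nat_lit 5873642979) (nat_lit 48) (nat_lit 5) (nat_lit 51) (nat_lit 5) (nat_lit 52) (nat_lit 5) (nat_lit 364) (nat_lit 299) (nat_lit 117))))) (XT.nd (nat_lit 234) (nat_lit 228) (nat_lit 0) (XT.nd (nat_lit 78) (nat_lit 228) (nat_lit 0) (XT.lf (nat_lit 0) (nat_lit 83369459) (nat_lit 304) (nat_lit 4816116344) (nat_lit 76) (nat_lit 38820303989) (nat_lit 47)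 (nat_lit 5) (nat_lit 51) (nat_lit 5) (nat_lit 48) (nat_lit 5) (nat_lit 365) (nat_lit 299) (nat_lit 116)) (XT.nd (nat_lit 78) (nat_lit 0) (nat_lit 0) (XT.lf (nat_lit 0) (nat_lit 6279797546) (nat_lit 304) (nat_lit 32183215489) (nat_lit 76) (nat_lit 6219203175) (nat_lit 44) (nat_lit 5) (nat_lit 48) (nat_lit 5) (nat_lit 45) (nat_lit 5) (nat_lit 366) (nat_lit 299) (nat_lit 115)) (XT.lf (nat_lit 0) (nat_lit 12756807941) (nat_lit 304) (nat_lit 15293245475) (nat_lit 76) (nat_lit 17620624513) (nat_lit 44) (nat_lit 5) (nat_lit 48) (nat_lit 5) (nat_lit 45) (nat_lit 5) (nat_lit 367) (nat_lit 299) (nat_lit 114)))) (XT.nd (nat_lit 78) (nat_lit 0) (nat_lit 0) (XT.lf (nat_lit 0) (nat_lit 2140835220) (nat_lit 228) (nat_lit 17305022789) (nat_lit 304) (nat_lit 27242406708) (nat_lit 41) (nat_lit 5) (nat_lit 44) (nat_lit 5) (nat_lit 45) (nat_lit 5) (nat_lit 368) (nat_lit 299) (nat_lit 113)) (XT.nd (nat_lit 78) (nat_lit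 0) (nat_lit 0) (XT.lf (nat_lit 0) (nat_lit 20407113835) (nat_lit 228) (nat_lit 6080089346) (nat_lit 304) (nat_lit 21244630230) (nat_lit 41) (nat_lit 5) (nat_lit 44) (nat_lit 5) (nat_lit 45) (nat_lit 5) (nat_lit 369) (nat_lit 299) (nat_lit 112)) (XT.lf (nat_lit 0) (nat_lit 33789740606) (nat_lit 304) (nat_lit 9642286554) (nat_lit 76) (nat_lit 5373186369) (nat_lit 41) (nat_lit 5) (nat_lit 45) (nat_lit 5) (nat_lit 42) (nat_lit 5) (nat_lit 370) (nat_lit 299) (nat_lit 111))))))))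
noncomputable def xc205 : XT := (XT.nd (nat_lit 35724) (nat_lit 0) (nat_lit 6688) (XT.nd (nat_lit 858) (nat_lit 152) (nat_lit 0) (XT.nd (nat_lit 390) (nat_lit 380) (nat_lit 0) (XT.nd (nat_lit 156) (nat_lit 304) (nat_lit 0) (XT.nd (nat_lit 78) (nat_lit 0) (nat_lit 0) (XT.lf (nat_lit 0) (nat_lit 8675570650) (nat_lit 152) (nat_lit 32776716601) (nat_lit 228) (nat_lit 8454282643) (nat_lit 39) (nat_lit 5) (nat_lit 41) (nat_lit 5) (nat_lit 42) (nat_lit 5) (nat_lit 371) (nat_lit 299) (nat_lit 110)) (XT.lf (nat_lit 0) (nat_lit 27736520062) (nat_lit 152) (nat_lit 21702935799) (nat_lit 228) (nat_lit 1598671476) (nat_lit 39) (nat_lit 5) (nat_lit 41) (nat_lit 5) (nat_lit 42) (nat_lit 5) (nat_lit 372) (nat_lit 299) (nat_lit 109))) (XT.nd (nat_lit 78) (nat_lit 228) (nat_lit 0) (XT.lf (nat_lit 0) (nat_lit 5353438800) (nat_lit 228) (nat_lit 4890878789) (nat_lit 76) (nat_lit 41957818434) (nat_lit 38) (nat_lit 5)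 (nat_lit 41) (nat_lit 5) (nat_lit 39) (nat_lit 5) (nat_lit 373) (nat_lit 299) (nat_lit 108)) (XT.nd (nat_lit 78) (nat_lit 0) (nat_lit 0) (XT.lf (nat_lit 0) (nat_lit 12633734600) (nat_lit 304) (nat_lit 39080922527) (nat_lit 76) (nat_lit 1681382891) (nat_lit 35) (nat_lit 5) (nat_lit 39) (nat_lit 5) (nat_lit 36) (nat_lit 5) (nat_lit 374) (nat_lit 299) (nat_lit 107)) (XT.lf (nat_lit 0) (nat_lit 20281268234) (nat_lit 304) (nat_lit 20532587597) (nat_lit 76) (nat_lit 13807442881) (nat_lit 35) (nat_lit 5) (nat_lit 39) (nat_lit 5) (nat_lit 36) (nat_lit 5) (nat_lit 375) (nat_lit 299) (nat_lit 106))))) (XT.nd (nat_lit 234) (nat_lit 228) (nat_lit 0) (XT.nd (nat_lit 78) (nat_lit 152) (nat_lit 0) (XT.lf (nat_lit 0) (nat_lit 28155822823) (nat_lit 304) (nat_lit 1431629913) (nat_lit 76) (nat_lit 26295936956) (nat_lit 35) (nat_lit 5) (nat_lit 39) (nat_lit 5) (nat_lit 36) (nat_lit 5) (nat_lit 376) (nat_lit 299) (nat_lit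 105)) (XT.nd (nat_lit 78) (nat_lit 0) (nat_lit 0) (XT.lf (nat_lit 0) (nat_lit 18601625392) (nat_lit 152) (nat_lit 17841463857) (nat_lit 228) (nat_lit 20734962204) (nat_lit 33) (nat_lit 5) (nat_lit 35) (nat_lit 5) (nat_lit 36) (nat_lit 5) (nat_lit 377) (nat_lit 299) (nat_lit 104)) (XT.lf (nat_lit 0) (nat_lit 39261545977) (nat_lit 152) (nat_lit 5729581983) (nat_lit 228) (nat_lit 13520062715) (nat_lit 33) (nat_lit 5) (nat_lit 35) (nat_lit 5) (nat_lit 36) (nat_lit 5) (nat_lit 378) (nat_lit 299) (nat_lit 103)))) (XT.nd (nat_lit 78) (nat_lit 76) (nat_lit 0) (XT.lf (nat_lit 0) (nat_lit 600179792) (nat_lit 152) (nat_lit 53263792557) (nat_lit 228) (nat_lit 6018302964) (nat_lit 31) (nat_lit 5) (nat_lit 33) (nat_lit 5) (nat_lit 34) (nat_lit 5) (nat_lit 379) (nat_lit 299) (nat_lit 102)) (XT.nd (nat_lit 78) (nat_lit 0) (nat_lit 0) (XT.lf (nat_lit 0) (nat_lit 1925965961) (nat_lit 228) (nat_lit 39927279167) (nat_lit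 76) (nat_lit 19433232848) (nat_lit 30) (nat_lit 5) (nat_lit 33) (nat_lit 5) (nat_lit 31) (nat_lit 5) (nat_lit 380) (nat_lit 299) (nat_lit 101)) (XT.lf (nat_lit 0) (nat_lit 9985425069) (nat_lit 228) (nat_lit 20054939153) (nat_lit 76) (nat_lit 32690722149) (nat_lit 30) (nat_lit 5) (nat_lit 33) (nat_lit 5) (nat_lit 31) (nat_lit 5) (nat_lit 381) (nat_lit 299) (nat_lit 100)))))) (XT.nd (nat_lit 34398) (nat_lit 0) (nat_lit 11096) (XT.nd (nat_lit 234) (nat_lit 0) (nat_lit 0) (XT.nd (nat_lit 78) (nat_lit 0) (nat_lit 0) (XT.lf (nat_lit 0) (nat_lit 418302905) (nat_lit 152) (nat_lit 17870273448) (nat_lit 228) (nat_lit 45930401343) (nat_lit 28) (nat_lit 5) (nat_lit 30) (nat_lit 5) (nat_lit 31) (nat_lit 5) (nat_lit 382) (nat_lit 299) (nat_lit 99)) (XT.nd (nat_lit 78) (nat_lit 0) (nat_lit 0) (XT.lf (nat_lit 0) (nat_lit 21913451701) (nat_lit 152) (nat_lit 5127802337) (nat_lit 228) (nat_lit 38704240644) (nat_lit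 28) (nat_lit 5) (nat_lit 30) (nat_lit 5) (nat_lit 31) (nat_lit 5) (nat_lit 383) (nat_lit 299) (nat_lit 98)) (XT.lf (nat_lit 0) (nat_lit 36131348290) (nat_lit 228) (nat_lit 23344572149) (nat_lit 76) (nat_lit 7839643470) (nat_lit 28) (nat_lit 5) (nat_lit 31) (nat_lit 5) (nat_lit 29) (nat_lit 5) (nat_lit 384) (nat_lit 299) (nat_lit 97)))) (XT.nd (nat_lit 34008) (nat_lit 0) (nat_lit 11020) (XT.lf (nat_lit 0) (nat_lit 45542939701) (nat_lit 228) (nat_lit 2296498410) (nat_lit 76) (nat_lit 21091835042) (nat_lit 28) (nat_lit 5) (nat_lit 31) (nat_lit 5) (nat_lit 29) (nat_lit 5) (nat_lit 385) (nat_lit 299) (nat_lit 96)) (XT.nd (nat_lit 78) (nat_lit 0) (nat_lit 0) (XT.lf (nat_lit 0) (nat_lit 2774794154) (nat_lit 1140) (nat_lit 2021216579) (nat_lit 1140) (nat_lit 2021216579) (nat_lit 173) (nat_lit 3) (nat_lit 188) (nat_lit 3) (nat_lit 188) (nat_lit 5) (nat_lit 300) (nat_lit 300) (nat_lit 180)) (XT.lf (nat_lit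 76) (nat_lit 1855969858) (nat_lit 0) (nat_lit 4128017792) (nat_lit 1140) (nat_lit 7843782082) (nat_lit 174) (nat_lit 5) (nat_lit 173) (nat_lit 3) (nat_lit 188) (nat_lit 5) (nat_lit 301) (nat_lit 300) (nat_lit 179))))) (XT.nd (nat_lit 234) (nat_lit 0) (nat_lit 76) (XT.nd (nat_lit 78) (nat_lit 0) (nat_lit 0) (XT.lf (nat_lit 0) (nat_lit 6474047519) (nat_lit 1064) (nat_lit 6033614997) (nat_lit 1140) (nat_lit 1517968952) (nat_lit 174) (nat_lit 5) (nat_lit 188) (nat_lit 5) (nat_lit 189) (nat_lit 5) (nat_lit 302) (nat_lit 300) (nat_lit 178)) (XT.nd (nat_lit 78) (nat_lit 0) (nat_lit 0) (XT.lf (nat_lit 76) (nat_lit 35424515) (nat_lit 0) (nat_lit 6971961428) (nat_lit 1140) (nat_lit 7221211084) (nat_lit 175) (nat_lit 5) (nat_lit 174) (nat_lit 5) (nat_lit 189) (nat_lit 5) (nat_lit 303) (nat_lit 300) (nat_lit 177)) (XT.lf (nat_lit 76) (nat_lit 6403177411) (nat_lit 0) (nat_lit 1202139900) (nat_lit 1140) (nat_lit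 6830900998) (nat_lit 175) (nat_lit 5) (nat_lit 174) (nat_lit 5) (nat_lit 189) (nat_lit 5) (nat_lit 304) (nat_lit 300) (nat_lit 176)))) (XT.nd (nat_lit 78) (nat_lit 0) (nat_lit 0) (XT.lf (nat_lit 0) (nat_lit 8254831644) (nat_lit 1064) (nat_lit 1740944995) (nat_lit 1140) (nat_lit 4653306063) (nat_lit 175) (nat_lit 5) (nat_lit 189) (nat_lit 5) (nat_lit 190) (nat_lit 5) (nat_lit 305) (nat_lit 300) (nat_lit 175)) (XT.nd (nat_lit 78) (nat_lit 0) (nat_lit 76) (XT.lf (nat_lit 76) (nat_lit 4814910951) (nat_lit 0) (nat_lit 4155527850) (nat_lit 1140) (nat_lit 5896519134) (nat_lit 176) (nat_lit 5) (nat_lit 175) (nat_lit 5) (nat_lit 190) (nat_lit 5) (nat_lit 306) (nat_lit 300) (nat_lit 174)) (XT.lf (nat_lit 0) (nat_lit 9731879901) (nat_lit 1064) (nat_lit 3513155399) (nat_lit 1140) (nat_lit 1845625608) (nat_lit 176) (nat_lit 5) (nat_lit 190) (nat_lit 5) (nat_lit 191) (nat_lit 5) (nat_lit 307) (nat_lit 300) (nat_lit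 173))))))) (XT.nd (nat_lit 936) (nat_lit 2660) (nat_lit 0) (XT.nd (nat_lit 468) (nat_lit 1900) (nat_lit 0) (XT.nd (nat_lit 234) (nat_lit 0) (nat_lit 76) (XT.nd (nat_lit 78) (nat_lit 0) (nat_lit 0) (XT.lf (nat_lit 76) (nat_lit 3236744104) (nat_lit 0) (nat_lit 7340738473) (nat_lit 1140) (nat_lit 4741774647) (nat_lit 177) (nat_lit 5) (nat_lit 176) (nat_lit 5) (nat_lit 191) (nat_lit 5) (nat_lit 308) (nat_lit 300) (nat_lit 172)) (XT.nd (nat_lit 78) (nat_lit 0) (nat_lit 76) (XT.lf (nat_lit 76) (nat_lit 10254051660) (nat_lit 0) (nat_lit 1219188908) (nat_lit 1140) (nat_lit 4080748411) (nat_lit 177) (nat_lit 5) (nat_lit 176) (nat_lit 5) (nat_lit 191) (nat_lit 5) (nat_lit 309) (nat_lit 300) (nat_lit 171)) (XT.lf (nat_lit 76) (nat_lit 1662401843) (nat_lit 0) (nat_lit 10787995310) (nat_lit 1140) (nat_lit 3343750308) (nat_lit 178) (nat_lit 5) (nat_lit 177) (nat_lit 5) (nat_lit 192) (nat_lit 5) (nat_lit 310)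 (nat_lit 300) (nat_lit 170)))) (XT.nd (nat_lit 78) (nat_lit 0) (nat_lit 76) (XT.lf (nat_lit 76) (nat_lit 8922750949) (nat_lit 0) (nat_lit 4589477459) (nat_lit 1140) (nat_lit 2527641444) (nat_lit 178) (nat_lit 5) (nat_lit 177) (nat_lit 5) (nat_lit 192) (nat_lit 5) (nat_lit 311) (nat_lit 300) (nat_lit 169)) (XT.nd (nat_lit 78) (nat_lit 0) (nat_lit 0) (XT.lf (nat_lit 76) (nat_lit 85027214) (nat_lit 0) (nat_lit 14529169249) (nat_lit 1140) (nat_lit 1678538367) (nat_lit 179) (nat_lit 5) (nat_lit 178) (nat_lit 5) (nat_lit 193) (nat_lit 5) (nat_lit 312) (nat_lit 300) (nat_lit 168)) (XT.lf (nat_lit 76) (nat_lit 7595534770) (nat_lit 0) (nat_lit 8260977977) (nat_lit 1140) (nat_lit 693473140) (nat_lit 179) (nat_lit 5) (nat_lit 178) (nat_lit 5) (nat_lit 193) (nat_lit 5) (nat_lit 313) (nat_lit 300) (nat_lit 167))))) (XT.nd (nat_lit 234) (nat_lit 912) (nat_lit 0) (XT.nd (nat_lit 78) (nat_lit 0) (nat_lit 76) (XT.lf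 (nat_lit 0) (nat_lit 305471663) (nat_lit 1140) (nat_lit 1493929830) (nat_lit 1216) (nat_lit 15015760269) (nat_lit 163) (nat_lit 5) (nat_lit 178) (nat_lit 5) (nat_lit 179) (nat_lit 5) (nat_lit 314) (nat_lit 300) (nat_lit 166)) (XT.nd (nat_lit 78) (nat_lit 0) (nat_lit 0) (XT.lf (nat_lit 0) (nat_lit 1419235660) (nat_lit 1140) (nat_lit 10834497438) (nat_lit 1216) (nat_lit 4831407377) (nat_lit 164) (nat_lit 5) (nat_lit 179) (nat_lit 5) (nat_lit 180) (nat_lit 5) (nat_lit 315) (nat_lit 300) (nat_lit 165)) (XT.lf (nat_lit 0) (nat_lit 2590549730) (nat_lit 1140) (nat_lit 3129823466) (nat_lit 1216) (nat_lit 11642137949) (nat_lit 164) (nat_lit 5) (nat_lit 179) (nat_lit 5) (nat_lit 180) (nat_lit 5) (nat_lit 316) (nat_lit 300) (nat_lit 164)))) (XT.nd (nat_lit 78) (nat_lit 1064) (nat_lit 0) (XT.lf (nat_lit 0) (nat_lit 3845577558) (nat_lit 1140) (nat_lit 12762806334) (nat_lit 76) (nat_lit 1038378035) (nat_lit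 165) (nat_lit 5) (nat_lit 180) (nat_lit 5) (nat_lit 166) (nat_lit 5) (nat_lit 317) (nat_lit 300) (nat_lit 163)) (XT.nd (nat_lit 78) (nat_lit 1064) (nat_lit 0) (XT.lf (nat_lit 0) (nat_lit 5218356498) (nat_lit 1140) (nat_lit 4800508619) (nat_lit 76) (nat_lit 7918287857) (nat_lit 165) (nat_lit 5) (nat_lit 180) (nat_lit 5) (nat_lit 166) (nat_lit 5) (nat_lit 318) (nat_lit 300) (nat_lit 162)) (XT.lf (nat_lit 0) (nat_lit 3461136491) (nat_lit 1064) (nat_lit 3196244057) (nat_lit 1140) (nat_lit 11578138644) (nat_lit 151) (nat_lit 5) (nat_lit 165) (nat_lit 5) (nat_lit 166) (nat_lit 5) (nat_lit 319) (nat_lit 300) (nat_lit 161)))))) (XT.nd (nat_lit 468) (nat_lit 1596) (nat_lit 0) (XT.nd (nat_lit 234) (nat_lit 532) (nat_lit 0) (XT.nd (nat_lit 78) (nat_lit 532) (nat_lit 0) (XT.lf (nat_lit 0) (nat_lit 8217330568) (nat_lit 1140) (nat_lit 6516909411) (nat_lit 76) (nat_lit 3806278606) (nat_lit 151) (nat_lit 5) (nat_lit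 166) (nat_lit 5) (nat_lit 152) (nat_lit 5) (nat_lit 320) (nat_lit 300) (nat_lit 160)) (XT.nd (nat_lit 78) (nat_lit 0) (nat_lit 0) (XT.lf (nat_lit 0) (nat_lit 1988396709) (nat_lit 532) (nat_lit 7878648953) (nat_lit 608) (nat_lit 8986347715) (nat_lit 144) (nat_lit 5) (nat_lit 151) (nat_lit 5) (nat_lit 152) (nat_lit 5) (nat_lit 321) (nat_lit 300) (nat_lit 159)) (XT.lf (nat_lit 0) (nat_lit 10875475179) (nat_lit 532) (nat_lit 748951860) (nat_lit 608) (nat_lit 7549496123) (nat_lit 144) (nat_lit 5) (nat_lit 151) (nat_lit 5) (nat_lit 152) (nat_lit 5) (nat_lit 322) (nat_lit 300) (nat_lit 158)))) (XT.nd (nat_lit 78) (nat_lit 0) (nat_lit 0) (XT.lf (nat_lit 0) (nat_lit 463738791) (nat_lit 532) (nat_lit 13031235757) (nat_lit 608) (nat_lit 6007294539) (nat_lit 137) (nat_lit 5) (nat_lit 144) (nat_lit 5) (nat_lit 145) (nat_lit 5) (nat_lit 323) (nat_lit 300) (nat_lit 157)) (XT.nd (nat_lit 78) (nat_lit 0) (nat_lit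 0) (XT.lf (nat_lit 0) (nat_lit 9644391148) (nat_lit 532) (nat_lit 5861132214) (nat_lit 608) (nat_lit 4332438671) (nat_lit 137) (nat_lit 5) (nat_lit 144) (nat_lit 5) (nat_lit 145) (nat_lit 5) (nat_lit 324) (nat_lit 300) (nat_lit 156)) (XT.lf (nat_lit 0) (nat_lit 17583997358) (nat_lit 608) (nat_lit 1104884831) (nat_lit 76) (nat_lit 1494628124) (nat_lit 137) (nat_lit 5) (nat_lit 145) (nat_lit 5) (nat_lit 138) (nat_lit 5) (nat_lit 325) (nat_lit 300) (nat_lit 155))))) (XT.nd (nat_lit 234) (nat_lit 456) (nat_lit 0) (XT.nd (nat_lit 78) (nat_lit 608) (nat_lit 0) (XT.lf (nat_lit 0) (nat_lit 8354692188) (nat_lit 532) (nat_lit 11501638283) (nat_lit 608) (nat_lit 679161856) (nat_lit 130) (nat_lit 5) (nat_lit 137) (nat_lit 5) (nat_lit 138) (nat_lit 5) (nat_lit 326) (nat_lit 300) (nat_lit 154)) (XT.nd (nat_lit 78) (nat_lit 532) (nat_lit 0) (XT.lf (nat_lit 0) (nat_lit 1277943131) (nat_lit 608) (nat_lit 2796437874)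 (nat_lit 76) (nat_lit 16823155343) (nat_lit 129) (nat_lit 5) (nat_lit 137) (nat_lit 5) (nat_lit 130) (nat_lit 5) (nat_lit 327) (nat_lit 300) (nat_lit 153)) (XT.lf (nat_lit 0) (nat_lit 3375847928) (nat_lit 608) (nat_lit 14311004725) (nat_lit 76) (nat_lit 3580526569) (nat_lit 122) (nat_lit 5) (nat_lit 130) (nat_lit 5) (nat_lit 123) (nat_lit 5) (nat_lit 328) (nat_lit 300) (nat_lit 152)))) (XT.nd (nat_lit 78) (nat_lit 456) (nat_lit 0) (XT.lf (nat_lit 0) (nat_lit 5599093040) (nat_lit 608) (nat_lit 4635782522) (nat_lit 76) (nat_lit 11411580772) (nat_lit 122) (nat_lit 5) (nat_lit 130) (nat_lit 5) (nat_lit 123) (nat_lit 5) (nat_lit 329) (nat_lit 300) (nat_lit 151)) (XT.nd (nat_lit 78) (nat_lit 0) (nat_lit 0) (XT.lf (nat_lit 0) (nat_lit 5429046523) (nat_lit 456) (nat_lit 2505908953) (nat_lit 532) (nat_lit 14100583410) (nat_lit 116) (nat_lit 5) (nat_lit 122) (nat_lit 5) (nat_lit 123) (nat_lit 5) (nat_lit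 330) (nat_lit 300) (nat_lit 150)) (XT.lf (nat_lit 0) (nat_lit 10434454521) (nat_lit 532) (nat_lit 6603656359) (nat_lit 76) (nat_lit 5395386625) (nat_lit 116) (nat_lit 5) (nat_lit 123) (nat_lit 5) (nat_lit 117) (nat_lit 5) (nat_lit 331) (nat_lit 300) (nat_lit 149))))))))
noncomputable def xc206 : XT := (XT.nd (nat_lit 1794) (nat_lit 2432) (nat_lit 0) (XT.nd (nat_lit 858) (nat_lit 1748) (nat_lit 0) (XT.nd (nat_lit 390) (nat_lit 1216) (nat_lit 0) (XT.nd (nat_lit 156) (nat_lit 456) (nat_lit 0) (XT.nd (nat_lit 78) (nat_lit 0) (nat_lit 0) (XT.lf (nat_lit 0) (nat_lit 3740931757) (nat_lit 456) (nat_lit 9322805884) (nat_lit 532) (nat_lit 9778023379) (nat_lit 110) (nat_lit 5) (nat_lit 116) (nat_lit 5) (nat_lit 117) (nat_lit 5) (nat_lit 332) (nat_lit 300) (nat_lit 148)) (XT.lf (nat_lit 0) (nat_lit 14524768890) (nat_lit 456) (nat_lit 1307954217) (nat_lit 532) (nat_lit 7427734432) (nat_lit 110) (nat_lit 5)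 (nat_lit 116) (nat_lit 5) (nat_lit 117) (nat_lit 5) (nat_lit 333) (nat_lit 300) (nat_lit 147))) (XT.nd (nat_lit 78) (nat_lit 76) (nat_lit 0) (XT.lf (nat_lit 0) (nat_lit 1904340944) (nat_lit 380) (nat_lit 16859829978) (nat_lit 456) (nat_lit 4925171777) (nat_lit 105) (nat_lit 5) (nat_lit 110) (nat_lit 5) (nat_lit 111) (nat_lit 5) (nat_lit 334) (nat_lit 300) (nat_lit 146)) (XT.nd (nat_lit 78) (nat_lit 76) (nat_lit 0) (XT.lf (nat_lit 0) (nat_lit 13023056200) (nat_lit 380) (nat_lit 8855951904) (nat_lit 456) (nat_lit 2249232184) (nat_lit 105) (nat_lit 5) (nat_lit 110) (nat_lit 5) (nat_lit 111) (nat_lit 5) (nat_lit 335) (nat_lit 300) (nat_lit 145)) (XT.lf (nat_lit 0) (nat_lit 491602289) (nat_lit 456) (nat_lit 116157998) (nat_lit 76) (nat_lit 23972571740) (nat_lit 104) (nat_lit 5) (nat_lit 110) (nat_lit 5) (nat_lit 105) (nat_lit 5) (nat_lit 336) (nat_lit 300) (nat_lit 144))))) (XT.nd (nat_lit 234) (nat_lit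 380) (nat_lit 0) (XT.nd (nat_lit 78) (nat_lit 380) (nat_lit 0) (XT.lf (nat_lit 0) (nat_lit 3450795143) (nat_lit 532) (nat_lit 13722793102) (nat_lit 76) (nat_lit 7866298432) (nat_lit 98) (nat_lit 5) (nat_lit 105) (nat_lit 5) (nat_lit 99) (nat_lit 5) (nat_lit 337) (nat_lit 300) (nat_lit 143)) (XT.nd (nat_lit 78) (nat_lit 380) (nat_lit 0) (XT.lf (nat_lit 0) (nat_lit 6500724395) (nat_lit 532) (nat_lit 2429723889) (nat_lit 76) (nat_lit 16582729082) (nat_lit 98) (nat_lit 5) (nat_lit 105) (nat_lit 5) (nat_lit 99) (nat_lit 5) (nat_lit 338) (nat_lit 300) (nat_lit 142)) (XT.lf (nat_lit 0) (nat_lit 9379113122) (nat_lit 380) (nat_lit 348107440) (nat_lit 456) (nat_lit 16270902125) (nat_lit 93) (nat_lit 5) (nat_lit 98) (nat_lit 5) (nat_lit 99) (nat_lit 5) (nat_lit 339) (nat_lit 300) (nat_lit 141)))) (XT.nd (nat_lit 78) (nat_lit 380) (nat_lit 0) (XT.lf (nat_lit 0) (nat_lit 13151909891) (nat_lit 456) (nat_lit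 4992861973) (nat_lit 76) (nat_lit 8349810302) (nat_lit 93) (nat_lit 5) (nat_lit 99) (nat_lit 5) (nat_lit 94) (nat_lit 5) (nat_lit 340) (nat_lit 300) (nat_lit 140)) (XT.nd (nat_lit 78) (nat_lit 0) (nat_lit 0) (XT.lf (nat_lit 0) (nat_lit 7111438364) (nat_lit 380) (nat_lit 9634845947) (nat_lit 456) (nat_lit 10257650310) (nat_lit 88) (nat_lit 5) (nat_lit 93) (nat_lit 5) (nat_lit 94) (nat_lit 5) (nat_lit 341) (nat_lit 300) (nat_lit 139)) (XT.lf (nat_lit 0) (nat_lit 19675320018) (nat_lit 380) (nat_lit 818811289) (nat_lit 456) (nat_lit 7033074404) (nat_lit 88) (nat_lit 5) (nat_lit 93) (nat_lit 5) (nat_lit 94) (nat_lit 5) (nat_lit 342) (nat_lit 300) (nat_lit 138)))))) (XT.nd (nat_lit 468) (nat_lit 684) (nat_lit 0) (XT.nd (nat_lit 234) (nat_lit 304) (nat_lit 0) (XT.nd (nat_lit 78) (nat_lit 456) (nat_lit 0) (XT.lf (nat_lit 0) (nat_lit 4553521742) (nat_lit 304) (nat_lit 19919431674) (nat_lit 380) (nat_lit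 3589672419) (nat_lit 84) (nat_lit 5) (nat_lit 88) (nat_lit 5) (nat_lit 89) (nat_lit 5) (nat_lit 343) (nat_lit 300) (nat_lit 137)) (XT.nd (nat_lit 78) (nat_lit 380) (nat_lit 0) (XT.lf (nat_lit 0) (nat_lit 41430345) (nat_lit 380) (nat_lit 11134063265) (nat_lit 76) (nat_lit 17436127219) (nat_lit 83) (nat_lit 5) (nat_lit 88) (nat_lit 5) (nat_lit 84) (nat_lit 5) (nat_lit 344) (nat_lit 300) (nat_lit 136)) (XT.lf (nat_lit 0) (nat_lit 1602222826) (nat_lit 380) (nat_lit 2118010152) (nat_lit 456) (nat_lit 25455465475) (nat_lit 78) (nat_lit 5) (nat_lit 83) (nat_lit 5) (nat_lit 84) (nat_lit 5) (nat_lit 345) (nat_lit 300) (nat_lit 135)))) (XT.nd (nat_lit 78) (nat_lit 304) (nat_lit 0) (XT.lf (nat_lit 0) (nat_lit 7687841605) (nat_lit 456) (nat_lit 14880722252) (nat_lit 76) (nat_lit 7182787591) (nat_lit 78) (nat_lit 5) (nat_lit 84) (nat_lit 5) (nat_lit 79) (nat_lit 5) (nat_lit 346) (nat_lit 300) (nat_lit 134))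 (XT.nd (nat_lit 78) (nat_lit 304) (nat_lit 0) (XT.lf (nat_lit 0) (nat_lit 11791155754) (nat_lit 456) (nat_lit 1833787798) (nat_lit 76) (nat_lit 16718836280) (nat_lit 78) (nat_lit 5) (nat_lit 84) (nat_lit 5) (nat_lit 79) (nat_lit 5) (nat_lit 347) (nat_lit 300) (nat_lit 133)) (XT.lf (nat_lit 0) (nat_lit 11829932164) (nat_lit 304) (nat_lit 4297185616) (nat_lit 380) (nat_lit 14823582772) (nat_lit 74) (nat_lit 5) (nat_lit 78) (nat_lit 5) (nat_lit 79) (nat_lit 5) (nat_lit 348) (nat_lit 300) (nat_lit 132))))) (XT.nd (nat_lit 234) (nat_lit 380) (nat_lit 0) (XT.nd (nat_lit 78) (nat_lit 304) (nat_lit 0) (XT.lf (nat_lit 0) (nat_lit 20658795167) (nat_lit 380) (nat_lit 5690878593) (nat_lit 76) (nat_lit 5224191804) (nat_lit 74) (nat_lit 5) (nat_lit 79) (nat_lit 5) (nat_lit 75) (nat_lit 5) (nat_lit 349) (nat_lit 300) (nat_lit 131)) (XT.nd (nat_lit 78) (nat_lit 0) (nat_lit 0) (XT.lf (nat_lit 0) (nat_lit 8255079288)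 (nat_lit 304) (nat_lit 17189251232) (nat_lit 380) (nat_lit 6767863374) (nat_lit 70) (nat_lit 5) (nat_lit 74) (nat_lit 5) (nat_lit 75) (nat_lit 5) (nat_lit 350) (nat_lit 300) (nat_lit 130)) (XT.lf (nat_lit 0) (nat_lit 22730757427) (nat_lit 304) (nat_lit 7696214764) (nat_lit 380) (nat_lit 2441099110) (nat_lit 70) (nat_lit 5) (nat_lit 74) (nat_lit 5) (nat_lit 75) (nat_lit 5) (nat_lit 351) (nat_lit 300) (nat_lit 129)))) (XT.nd (nat_lit 78) (nat_lit 0) (nat_lit 0) (XT.lf (nat_lit 0) (nat_lit 2032793670) (nat_lit 380) (nat_lit 29409036265) (nat_lit 76) (nat_lit 2099519362) (nat_lit 65) (nat_lit 5) (nat_lit 70) (nat_lit 5) (nat_lit 66) (nat_lit 5) (nat_lit 352) (nat_lit 300) (nat_lit 128)) (XT.nd (nat_lit 78) (nat_lit 0) (nat_lit 0) (XT.lf (nat_lit 0) (nat_lit 6767614151) (nat_lit 380) (nat_lit 15300600686) (nat_lit 76) (nat_lit 12160617451) (nat_lit 65) (nat_lit 5) (nat_lit 70) (nat_lit 5) (nat_lit 66)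 (nat_lit 5) (nat_lit 353) (nat_lit 300) (nat_lit 127)) (XT.lf (nat_lit 0) (nat_lit 11640784023) (nat_lit 380) (nat_lit 774054593) (nat_lit 76) (nat_lit 22522216839) (nat_lit 65) (nat_lit 5) (nat_lit 70) (nat_lit 5) (nat_lit 66) (nat_lit 5) (nat_lit 354) (nat_lit 300) (nat_lit 126))))))) (XT.nd (nat_lit 936) (nat_lit 1064) (nat_lit 0) (XT.nd (nat_lit 468) (nat_lit 532) (nat_lit 0) (XT.nd (nat_lit 234) (nat_lit 304) (nat_lit 0) (XT.nd (nat_lit 78) (nat_lit 228) (nat_lit 0) (XT.lf (nat_lit 0) (nat_lit 14465570497) (nat_lit 304) (nat_lit 2330042810) (nat_lit 380) (nat_lit 18866852768) (nat_lit 61) (nat_lit 5) (nat_lit 65) (nat_lit 5) (nat_lit 66) (nat_lit 5) (nat_lit 355) (nat_lit 300) (nat_lit 125)) (XT.nd (nat_lit 78) (nat_lit 228) (nat_lit 0) (XT.lf (nat_lit 0) (nat_lit 22186888751) (nat_lit 380) (nat_lit 6313722583) (nat_lit 76) (nat_lit 7906578193) (nat_lit 61) (nat_lit 5) (nat_lit 66) (nat_lit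 5) (nat_lit 62) (nat_lit 5) (nat_lit 356) (nat_lit 300) (nat_lit 124)) (XT.lf (nat_lit 0) (nat_lit 9166860447) (nat_lit 228) (nat_lit 18680788230) (nat_lit 304) (nat_lit 9323378036) (nat_lit 58) (nat_lit 5) (nat_lit 61) (nat_lit 5) (nat_lit 62) (nat_lit 5) (nat_lit 357) (nat_lit 300) (nat_lit 123)))) (XT.nd (nat_lit 78) (nat_lit 304) (nat_lit 0) (XT.lf (nat_lit 0) (nat_lit 25236440183) (nat_lit 228) (nat_lit 8502160097) (nat_lit 304) (nat_lit 4217371960) (nat_lit 58) (nat_lit 5) (nat_lit 61) (nat_lit 5) (nat_lit 62) (nat_lit 5) (nat_lit 358) (nat_lit 300) (nat_lit 122)) (XT.nd (nat_lit 78) (nat_lit 0) (nat_lit 0) (XT.lf (nat_lit 0) (nat_lit 1067085784) (nat_lit 304) (nat_lit 35714078683) (nat_lit 76) (nat_lit 1981637241) (nat_lit 54) (nat_lit 5) (nat_lit 58) (nat_lit 5) (nat_lit 55) (nat_lit 5) (nat_lit 359) (nat_lit 300) (nat_lit 121)) (XT.lf (nat_lit 0) (nat_lit 6635918204) (nat_lit 304) (nat_lit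 20171243099) (nat_lit 76) (nat_lit 12779107820) (nat_lit 54) (nat_lit 5) (nat_lit 58) (nat_lit 5) (nat_lit 55) (nat_lit 5) (nat_lit 360) (nat_lit 300) (nat_lit 120))))) (XT.nd (nat_lit 234) (nat_lit 304) (nat_lit 0) (XT.nd (nat_lit 78) (nat_lit 228) (nat_lit 0) (XT.lf (nat_lit 0) (nat_lit 12368623461) (nat_lit 304) (nat_lit 4166798508) (nat_lit 76) (nat_lit 23899118167) (nat_lit 54) (nat_lit 5) (nat_lit 58) (nat_lit 5) (nat_lit 55) (nat_lit 5) (nat_lit 361) (nat_lit 300) (nat_lit 119)) (XT.nd (nat_lit 78) (nat_lit 0) (nat_lit 0) (XT.lf (nat_lit 0) (nat_lit 12558297167) (nat_lit 228) (nat_lit 5832631581) (nat_lit 304) (nat_lit 22913805665) (nat_lit 51) (nat_lit 5) (nat_lit 54) (nat_lit 5) (nat_lit 55) (nat_lit 5) (nat_lit 362) (nat_lit 300) (nat_lit 118)) (XT.lf (nat_lit 0) (nat_lit 24683231708) (nat_lit 304) (nat_lit 12384105864) (nat_lit 76) (nat_lit 5131020686) (nat_lit 51) (nat_lit 5) (nat_lit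 55) (nat_lit 5) (nat_lit 52) (nat_lit 5) (nat_lit 363) (nat_lit 300) (nat_lit 117)))) (XT.nd (nat_lit 78) (nat_lit 76) (nat_lit 0) (XT.lf (nat_lit 0) (nat_lit 4494609312) (nat_lit 228) (nat_lit 26767671526) (nat_lit 304) (nat_lit 11853574154) (nat_lit 48) (nat_lit 5) (nat_lit 51) (nat_lit 5) (nat_lit 52) (nat_lit 5) (nat_lit 364) (nat_lit 300) (nat_lit 116)) (XT.nd (nat_lit 78) (nat_lit 76) (nat_lit 0) (XT.lf (nat_lit 0) (nat_lit 22129148197) (nat_lit 228) (nat_lit 16031676159) (nat_lit 304) (nat_lit 5896391972) (nat_lit 48) (nat_lit 5) (nat_lit 51) (nat_lit 5) (nat_lit 52) (nat_lit 5) (nat_lit 365) (nat_lit 300) (nat_lit 115)) (XT.lf (nat_lit 0) (nat_lit 231953779) (nat_lit 304) (nat_lit 4740729633) (nat_lit 76) (nat_lit 40054155564) (nat_lit 47) (nat_lit 5) (nat_lit 51) (nat_lit 5) (nat_lit 48) (nat_lit 5) (nat_lit 366) (nat_lit 300) (nat_lit 114)))))) (XT.nd (nat_lit 468) (nat_lit 456) (nat_lit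 0) (XT.nd (nat_lit 234) (nat_lit 152) (nat_lit 0) (XT.nd (nat_lit 78) (nat_lit 228) (nat_lit 0) (XT.lf (nat_lit 0) (nat_lit 6612822010) (nat_lit 304) (nat_lit 32927231760) (nat_lit 76) (nat_lit 6478132716) (nat_lit 44) (nat_lit 5) (nat_lit 48) (nat_lit 5) (nat_lit 45) (nat_lit 5) (nat_lit 367) (nat_lit 300) (nat_lit 113)) (XT.nd (nat_lit 78) (nat_lit 228) (nat_lit 0) (XT.lf (nat_lit 0) (nat_lit 13279930177) (nat_lit 304) (nat_lit 15537013525) (nat_lit 76) (nat_lit 18219489312) (nat_lit 44) (nat_lit 5) (nat_lit 48) (nat_lit 5) (nat_lit 45) (nat_lit 5) (nat_lit 368) (nat_lit 300) (nat_lit 112)) (XT.lf (nat_lit 0) (nat_lit 2417981461) (nat_lit 228) (nat_lit 17749627172) (nat_lit 304) (nat_lit 27917004516) (nat_lit 41) (nat_lit 5) (nat_lit 44) (nat_lit 5) (nat_lit 45) (nat_lit 5) (nat_lit 369) (nat_lit 300) (nat_lit 111)))) (XT.nd (nat_lit 78) (nat_lit 152) (nat_lit 0) (XT.lf (nat_lit 0) (nat_lit 21226046846)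 (nat_lit 228) (nat_lit 6190116977) (nat_lit 304) (nat_lit 21743450308) (nat_lit 41) (nat_lit 5) (nat_lit 44) (nat_lit 5) (nat_lit 45) (nat_lit 5) (nat_lit 370) (nat_lit 300) (nat_lit 110)) (XT.nd (nat_lit 78) (nat_lit 152) (nat_lit 0) (XT.lf (nat_lit 0) (nat_lit 34934539872) (nat_lit 304) (nat_lit 9727479262) (nat_lit 76) (nat_lit 5603277836) (nat_lit 41) (nat_lit 5) (nat_lit 45) (nat_lit 5) (nat_lit 42) (nat_lit 5) (nat_lit 371) (nat_lit 300) (nat_lit 109)) (XT.lf (nat_lit 0) (nat_lit 9137912914) (nat_lit 152) (nat_lit 33687173821) (nat_lit 228) (nat_lit 8574667647) (nat_lit 39) (nat_lit 5) (nat_lit 41) (nat_lit 5) (nat_lit 42) (nat_lit 5) (nat_lit 372) (nat_lit 300) (nat_lit 108))))) (XT.nd (nat_lit 234) (nat_lit 152) (nat_lit 0) (XT.nd (nat_lit 78) (nat_lit 304) (nat_lit 0) (XT.lf (nat_lit 0) (nat_lit 28764805124) (nat_lit 152) (nat_lit 22283301273) (nat_lit 228) (nat_lit 1517269023) (nat_lit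 39) (nat_lit 5) (nat_lit 41) (nat_lit 5) (nat_lit 42) (nat_lit 5) (nat_lit 373) (nat_lit 300) (nat_lit 107)) (XT.nd (nat_lit 78) (nat_lit 228) (nat_lit 0) (XT.lf (nat_lit 0) (nat_lit 5637185913) (nat_lit 228) (nat_lit 4844554973) (nat_lit 76) (nat_lit 43282640730) (nat_lit 38) (nat_lit 5) (nat_lit 41) (nat_lit 5) (nat_lit 39) (nat_lit 5) (nat_lit 374) (nat_lit 300) (nat_lit 106)) (XT.lf (nat_lit 0) (nat_lit 13134811995) (nat_lit 304) (nat_lit 40059100879) (nat_lit 76) (nat_lit 1800225831) (nat_lit 35) (nat_lit 5) (nat_lit 39) (nat_lit 5) (nat_lit 36) (nat_lit 5) (nat_lit 375) (nat_lit 300) (nat_lit 105)))) (XT.nd (nat_lit 78) (nat_lit 152) (nat_lit 0) (XT.lf (nat_lit 0) (nat_lit 21008216336) (nat_lit 304) (nat_lit 20959973649) (nat_lit 76) (nat_lit 14288075345) (nat_lit 35) (nat_lit 5) (nat_lit 39) (nat_lit 5) (nat_lit 36) (nat_lit 5) (nat_lit 376) (nat_lit 300) (nat_lit 104)) (XT.nd (nat_lit 78)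 (nat_lit 152) (nat_lit 0) (XT.lf (nat_lit 0) (nat_lit 29115555814) (nat_lit 304) (nat_lit 1291480193) (nat_lit 76) (nat_lit 27149289995) (nat_lit 35) (nat_lit 5) (nat_lit 39) (nat_lit 5) (nat_lit 36) (nat_lit 5) (nat_lit 377) (nat_lit 300) (nat_lit 103)) (XT.lf (nat_lit 0) (nat_lit 19340977687) (nat_lit 152) (nat_lit 18308854133) (nat_lit 228) (nat_lit 21240047356) (nat_lit 33) (nat_lit 5) (nat_lit 35) (nat_lit 5) (nat_lit 36) (nat_lit 5) (nat_lit 378) (nat_lit 300) (nat_lit 102))))))))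
noncomputable def xc207 : XT := (XT.nd (nat_lit 35958) (nat_lit 0) (nat_lit 4560) (XT.nd (nat_lit 35022) (nat_lit 0) (nat_lit 10260) (XT.nd (nat_lit 34554) (nat_lit 0) (nat_lit 11020) (XT.nd (nat_lit 234) (nat_lit 152) (nat_lit 0) (XT.nd (nat_lit 78) (nat_lit 228) (nat_lit 0) (XT.lf (nat_lit 0) (nat_lit 40615415204) (nat_lit 152) (nat_lit 5835592123) (nat_lit 228) (nat_lit 13812107593) (nat_lit 33) (nat_lit 5) (nat_lit 35) (nat_lit 5) (nat_lit 36) (nat_lit 5) (nat_lit 379) (nat_lit 300) (nat_lit 101)) (XT.nd (nat_lit 78) (nat_lit 76) (nat_lit 0) (XT.lf (nat_lit 0) (nat_lit 795233305) (nat_lit 152) (nat_lit 54793912325) (nat_lit 228) (nat_lit 6086216330) (nat_lit 31) (nat_lit 5) (nat_lit 33) (nat_lit 5) (nat_lit 34) (nat_lit 5) (nat_lit 380) (nat_lit 300) (nat_lit 100)) (XT.lf (nat_lit 0) (nat_lit 2090966100) (nat_lit 228) (nat_lit 40950974232) (nat_lit 76) (nat_lit 20079817328) (nat_lit 30) (nat_lit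 5) (nat_lit 33) (nat_lit 5) (nat_lit 31) (nat_lit 5) (nat_lit 381) (nat_lit 300) (nat_lit 99)))) (XT.nd (nat_lit 78) (nat_lit 152) (nat_lit 0) (XT.lf (nat_lit 0) (nat_lit 10389086034) (nat_lit 228) (nat_lit 20487535571) (nat_lit 76) (nat_lit 33733179245) (nat_lit 30) (nat_lit 5) (nat_lit 33) (nat_lit 5) (nat_lit 31) (nat_lit 5) (nat_lit 382) (nat_lit 300) (nat_lit 98)) (XT.nd (nat_lit 78) (nat_lit 0) (nat_lit 0) (XT.lf (nat_lit 0) (nat_lit 598246379) (nat_lit 152) (nat_lit 18341662589) (nat_lit 228) (nat_lit 47202465407) (nat_lit 28) (nat_lit 5) (nat_lit 30) (nat_lit 5) (nat_lit 31) (nat_lit 5) (nat_lit 383) (nat_lit 300) (nat_lit 97)) (XT.lf (nat_lit 0) (nat_lit 22733374073) (nat_lit 152) (nat_lit 5218802365) (nat_lit 228) (nat_lit 39762602838) (nat_lit 28) (nat_lit 5) (nat_lit 30) (nat_lit 5) (nat_lit 31) (nat_lit 5) (nat_lit 384) (nat_lit 300) (nat_lit 96))))) (XT.nd (nat_lit 234) (nat_lit 0)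 (nat_lit 76) (XT.nd (nat_lit 78) (nat_lit 0) (nat_lit 0) (XT.lf (nat_lit 0) (nat_lit 3188148753) (nat_lit 1140) (nat_lit 1911515710) (nat_lit 1140) (nat_lit 1911515710) (nat_lit 173) (nat_lit 3) (nat_lit 188) (nat_lit 3) (nat_lit 188) (nat_lit 5) (nat_lit 301) (nat_lit 301) (nat_lit 178)) (XT.nd (nat_lit 78) (nat_lit 0) (nat_lit 76) (XT.lf (nat_lit 76) (nat_lit 2248983740) (nat_lit 0) (nat_lit 4558758004) (nat_lit 1140) (nat_lit 7414251259) (nat_lit 174) (nat_lit 5) (nat_lit 173) (nat_lit 3) (nat_lit 188) (nat_lit 5) (nat_lit 302) (nat_lit 301) (nat_lit 177)) (XT.lf (nat_lit 0) (nat_lit 7290875116) (nat_lit 1064) (nat_lit 5864240227) (nat_lit 1140) (nat_lit 1271361458) (nat_lit 174) (nat_lit 5) (nat_lit 188) (nat_lit 5) (nat_lit 189) (nat_lit 5) (nat_lit 303) (nat_lit 301) (nat_lit 176)))) (XT.nd (nat_lit 78) (nat_lit 0) (nat_lit 0) (XT.lf (nat_lit 76) (nat_lit 383435340) (nat_lit 0) (nat_lit 7441979269)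 (nat_lit 1140) (nat_lit 6810596965) (nat_lit 175) (nat_lit 5) (nat_lit 174) (nat_lit 5) (nat_lit 189) (nat_lit 5) (nat_lit 304) (nat_lit 301) (nat_lit 175)) (XT.nd (nat_lit 78) (nat_lit 0) (nat_lit 76) (XT.lf (nat_lit 76) (nat_lit 6932115538) (nat_lit 0) (nat_lit 1491465260) (nat_lit 1140) (nat_lit 6426847007) (nat_lit 175) (nat_lit 5) (nat_lit 174) (nat_lit 5) (nat_lit 189) (nat_lit 5) (nat_lit 305) (nat_lit 301) (nat_lit 174)) (XT.lf (nat_lit 0) (nat_lit 9073029475) (nat_lit 1064) (nat_lit 1445450665) (nat_lit 1140) (nat_lit 4551818715) (nat_lit 175) (nat_lit 5) (nat_lit 189) (nat_lit 5) (nat_lit 190) (nat_lit 5) (nat_lit 306) (nat_lit 301) (nat_lit 173)))))) (XT.nd (nat_lit 468) (nat_lit 912) (nat_lit 0) (XT.nd (nat_lit 234) (nat_lit 0) (nat_lit 76) (XT.nd (nat_lit 78) (nat_lit 0) (nat_lit 76) (XT.lf (nat_lit 76) (nat_lit 5303671912) (nat_lit 0) (nat_lit 4493124642) (nat_lit 1140) (nat_lit 5498346236)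 (nat_lit 176) (nat_lit 5) (nat_lit 175) (nat_lit 5) (nat_lit 190) (nat_lit 5) (nat_lit 307) (nat_lit 301) (nat_lit 172)) (XT.nd (nat_lit 78) (nat_lit 0) (nat_lit 0) (XT.lf (nat_lit 0) (nat_lit 10562863256) (nat_lit 1064) (nat_lit 3264973034) (nat_lit 1140) (nat_lit 1698299322) (nat_lit 176) (nat_lit 5) (nat_lit 190) (nat_lit 5) (nat_lit 191) (nat_lit 5) (nat_lit 308) (nat_lit 301) (nat_lit 171)) (XT.lf (nat_lit 76) (nat_lit 3683957013) (nat_lit 0) (nat_lit 7737542662) (nat_lit 1140) (nat_lit 4340491462) (nat_lit 177) (nat_lit 5) (nat_lit 176) (nat_lit 5) (nat_lit 191) (nat_lit 5) (nat_lit 309) (nat_lit 301) (nat_lit 170)))) (XT.nd (nat_lit 78) (nat_lit 0) (nat_lit 76) (XT.lf (nat_lit 76) (nat_lit 10901586400) (nat_lit 0) (nat_lit 1427203444) (nat_lit 1140) (nat_lit 3675465598) (nat_lit 177) (nat_lit 5) (nat_lit 176) (nat_lit 5) (nat_lit 191) (nat_lit 5) (nat_lit 310) (nat_lit 301) (nat_lit 169))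 (XT.nd (nat_lit 78) (nat_lit 0) (nat_lit 0) (XT.lf (nat_lit 76) (nat_lit 2066679307) (nat_lit 0) (nat_lit 11255494856) (nat_lit 1140) (nat_lit 2929866619) (nat_lit 178) (nat_lit 5) (nat_lit 177) (nat_lit 5) (nat_lit 192) (nat_lit 5) (nat_lit 311) (nat_lit 301) (nat_lit 168)) (XT.lf (nat_lit 76) (nat_lit 9534516398) (nat_lit 0) (nat_lit 4866831382) (nat_lit 1140) (nat_lit 2104251077) (nat_lit 178) (nat_lit 5) (nat_lit 177) (nat_lit 5) (nat_lit 192) (nat_lit 5) (nat_lit 312) (nat_lit 301) (nat_lit 167))))) (XT.nd (nat_lit 234) (nat_lit 0) (nat_lit 76) (XT.nd (nat_lit 78) (nat_lit 1140) (nat_lit 0) (XT.lf (nat_lit 76) (nat_lit 444932469) (nat_lit 0) (nat_lit 15079484152) (nat_lit 1140) (nat_lit 1242019711) (nat_lit 179) (nat_lit 5) (nat_lit 178) (nat_lit 5) (nat_lit 193) (nat_lit 5) (nat_lit 313) (nat_lit 301) (nat_lit 166)) (XT.nd (nat_lit 78) (nat_lit 1140) (nat_lit 0) (XT.lf (nat_lit 76) (nat_lit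 8170346870) (nat_lit 0) (nat_lit 8619913944) (nat_lit 1140) (nat_lit 241583347) (nat_lit 179) (nat_lit 5) (nat_lit 178) (nat_lit 5) (nat_lit 193) (nat_lit 5) (nat_lit 314) (nat_lit 301) (nat_lit 165)) (XT.lf (nat_lit 0) (nat_lit 764606711) (nat_lit 1140) (nat_lit 1192103516) (nat_lit 1216) (nat_lit 15348559187) (nat_lit 163) (nat_lit 5) (nat_lit 178) (nat_lit 5) (nat_lit 179) (nat_lit 5) (nat_lit 315) (nat_lit 301) (nat_lit 164)))) (XT.nd (nat_lit 78) (nat_lit 0) (nat_lit 0) (XT.lf (nat_lit 0) (nat_lit 1901045526) (nat_lit 1140) (nat_lit 10801326676) (nat_lit 1216) (nat_lit 4881322131) (nat_lit 164) (nat_lit 5) (nat_lit 179) (nat_lit 5) (nat_lit 180) (nat_lit 5) (nat_lit 316) (nat_lit 301) (nat_lit 163)) (XT.nd (nat_lit 78) (nat_lit 0) (nat_lit 76) (XT.lf (nat_lit 0) (nat_lit 3094705829) (nat_lit 1140) (nat_lit 2875945660) (nat_lit 1216) (nat_lit 11899142410) (nat_lit 164) (nat_lit 5) (nat_lit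 179) (nat_lit 5) (nat_lit 180) (nat_lit 5) (nat_lit 317) (nat_lit 301) (nat_lit 162)) (XT.lf (nat_lit 0) (nat_lit 4377572752) (nat_lit 1140) (nat_lit 12787330165) (nat_lit 76) (nat_lit 997986923) (nat_lit 165) (nat_lit 5) (nat_lit 180) (nat_lit 5) (nat_lit 166) (nat_lit 5) (nat_lit 318) (nat_lit 301) (nat_lit 161))))))) (XT.nd (nat_lit 936) (nat_lit 2584) (nat_lit 0) (XT.nd (nat_lit 468) (nat_lit 1140) (nat_lit 0) (XT.nd (nat_lit 234) (nat_lit 1064) (nat_lit 0) (XT.nd (nat_lit 78) (nat_lit 1064) (nat_lit 0) (XT.lf (nat_lit 0) (nat_lit 5779400268) (nat_lit 1140) (nat_lit 4596601200) (nat_lit 76) (nat_lit 8086377800) (nat_lit 165) (nat_lit 5) (nat_lit 180) (nat_lit 5) (nat_lit 166) (nat_lit 5) (nat_lit 319) (nat_lit 301) (nat_lit 160)) (XT.nd (nat_lit 78) (nat_lit 0) (nat_lit 0) (XT.lf (nat_lit 0) (nat_lit 3909482257) (nat_lit 1064) (nat_lit 3343643087) (nat_lit 1140) (nat_lit 11516847165) (nat_lit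 151) (nat_lit 5) (nat_lit 165) (nat_lit 5) (nat_lit 166) (nat_lit 5) (nat_lit 320) (nat_lit 301) (nat_lit 159)) (XT.lf (nat_lit 0) (nat_lit 8847858464) (nat_lit 1140) (nat_lit 6365213692) (nat_lit 76) (nat_lit 3871431499) (nat_lit 151) (nat_lit 5) (nat_lit 166) (nat_lit 5) (nat_lit 152) (nat_lit 5) (nat_lit 321) (nat_lit 301) (nat_lit 158)))) (XT.nd (nat_lit 78) (nat_lit 532) (nat_lit 0) (XT.lf (nat_lit 0) (nat_lit 2391847661) (nat_lit 532) (nat_lit 8147337458) (nat_lit 608) (nat_lit 8867836655) (nat_lit 144) (nat_lit 5) (nat_lit 151) (nat_lit 5) (nat_lit 152) (nat_lit 5) (nat_lit 322) (nat_lit 301) (nat_lit 157)) (XT.nd (nat_lit 78) (nat_lit 532) (nat_lit 0) (XT.lf (nat_lit 0) (nat_lit 11535524920) (nat_lit 532) (nat_lit 802807830) (nat_lit 608) (nat_lit 7399183442) (nat_lit 144) (nat_lit 5) (nat_lit 151) (nat_lit 5) (nat_lit 152) (nat_lit 5) (nat_lit 323) (nat_lit 301) (nat_lit 156)) (XT.lf (nat_lit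 0) (nat_lit 819973488) (nat_lit 532) (nat_lit 13437384778) (nat_lit 608) (nat_lit 5818602880) (nat_lit 137) (nat_lit 5) (nat_lit 144) (nat_lit 5) (nat_lit 145) (nat_lit 5) (nat_lit 324) (nat_lit 301) (nat_lit 155))))) (XT.nd (nat_lit 234) (nat_lit 608) (nat_lit 0) (XT.nd (nat_lit 78) (nat_lit 532) (nat_lit 0) (XT.lf (nat_lit 0) (nat_lit 10266074857) (nat_lit 532) (nat_lit 6051735063) (nat_lit 608) (nat_lit 4104246301) (nat_lit 137) (nat_lit 5) (nat_lit 144) (nat_lit 5) (nat_lit 145) (nat_lit 5) (nat_lit 325) (nat_lit 301) (nat_lit 154)) (XT.nd (nat_lit 78) (nat_lit 532) (nat_lit 0) (XT.lf (nat_lit 0) (nat_lit 18448389987) (nat_lit 608) (nat_lit 804498740) (nat_lit 76) (nat_lit 1525408047) (nat_lit 137) (nat_lit 5) (nat_lit 145) (nat_lit 5) (nat_lit 138) (nat_lit 5) (nat_lit 326) (nat_lit 301) (nat_lit 153)) (XT.lf (nat_lit 0) (nat_lit 8935595662) (nat_lit 532) (nat_lit 11846660292) (nat_lit 608)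 (nat_lit 358799253) (nat_lit 130) (nat_lit 5) (nat_lit 137) (nat_lit 5) (nat_lit 138) (nat_lit 5) (nat_lit 327) (nat_lit 301) (nat_lit 152)))) (XT.nd (nat_lit 78) (nat_lit 532) (nat_lit 0) (XT.lf (nat_lit 0) (nat_lit 1640639137) (nat_lit 608) (nat_lit 2552671573) (nat_lit 76) (nat_lit 17320860320) (nat_lit 129) (nat_lit 5) (nat_lit 137) (nat_lit 5) (nat_lit 130) (nat_lit 5) (nat_lit 328) (nat_lit 301) (nat_lit 151)) (XT.nd (nat_lit 78) (nat_lit 0) (nat_lit 0) (XT.lf (nat_lit 0) (nat_lit 3795214243) (nat_lit 608) (nat_lit 14405864247) (nat_lit 76) (nat_lit 3694235036) (nat_lit 122) (nat_lit 5) (nat_lit 130) (nat_lit 5) (nat_lit 123) (nat_lit 5) (nat_lit 329) (nat_lit 301) (nat_lit 150)) (XT.lf (nat_lit 0) (nat_lit 6075891925) (nat_lit 608) (nat_lit 4450127241) (nat_lit 76) (nat_lit 11760037583) (nat_lit 122) (nat_lit 5) (nat_lit 130) (nat_lit 5) (nat_lit 123) (nat_lit 5) (nat_lit 330) (nat_lit 301)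 (nat_lit 149)))))) (XT.nd (nat_lit 468) (nat_lit 1292) (nat_lit 0) (XT.nd (nat_lit 234) (nat_lit 380) (nat_lit 0) (XT.nd (nat_lit 78) (nat_lit 456) (nat_lit 0) (XT.lf (nat_lit 0) (nat_lit 5913463060) (nat_lit 456) (nat_lit 2562463128) (nat_lit 532) (nat_lit 14211078104) (nat_lit 116) (nat_lit 5) (nat_lit 122) (nat_lit 5) (nat_lit 123) (nat_lit 5) (nat_lit 331) (nat_lit 301) (nat_lit 148)) (XT.nd (nat_lit 78) (nat_lit 456) (nat_lit 0) (XT.lf (nat_lit 0) (nat_lit 11041761035) (nat_lit 532) (nat_lit 6480438977) (nat_lit 76) (nat_lit 5574976078) (nat_lit 116) (nat_lit 5) (nat_lit 123) (nat_lit 5) (nat_lit 117) (nat_lit 5) (nat_lit 332) (nat_lit 301) (nat_lit 147)) (XT.lf (nat_lit 0) (nat_lit 4171336517) (nat_lit 456) (nat_lit 9573073586) (nat_lit 532) (nat_lit 9773457292) (nat_lit 110) (nat_lit 5) (nat_lit 116) (nat_lit 5) (nat_lit 117) (nat_lit 5) (nat_lit 333) (nat_lit 301) (nat_lit 146)))) (XT.nd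 (nat_lit 78) (nat_lit 380) (nat_lit 0) (XT.lf (nat_lit 0) (nat_lit 15269421479) (nat_lit 456) (nat_lit 1318633159) (nat_lit 532) (nat_lit 7361336573) (nat_lit 110) (nat_lit 5) (nat_lit 116) (nat_lit 5) (nat_lit 117) (nat_lit 5) (nat_lit 334) (nat_lit 301) (nat_lit 145)) (XT.nd (nat_lit 78) (nat_lit 0) (nat_lit 0) (XT.lf (nat_lit 0) (nat_lit 2275873322) (nat_lit 380) (nat_lit 17326695800) (nat_lit 456) (nat_lit 4788733784) (nat_lit 105) (nat_lit 5) (nat_lit 110) (nat_lit 5) (nat_lit 111) (nat_lit 5) (nat_lit 335) (nat_lit 301) (nat_lit 144)) (XT.lf (nat_lit 0) (nat_lit 13718992692) (nat_lit 380) (nat_lit 9083835240) (nat_lit 456) (nat_lit 2040793474) (nat_lit 105) (nat_lit 5) (nat_lit 110) (nat_lit 5) (nat_lit 111) (nat_lit 5) (nat_lit 336) (nat_lit 301) (nat_lit 143))))) (XT.nd (nat_lit 234) (nat_lit 760) (nat_lit 0) (XT.nd (nat_lit 78) (nat_lit 0) (nat_lit 0) (XT.lf (nat_lit 0) (nat_lit 185985168)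 (nat_lit 456) (nat_lit 584804999) (nat_lit 532) (nat_lit 24538601431) (nat_lit 98) (nat_lit 5) (nat_lit 104) (nat_lit 5) (nat_lit 105) (nat_lit 5) (nat_lit 337) (nat_lit 301) (nat_lit 142)) (XT.nd (nat_lit 78) (nat_lit 0) (nat_lit 0) (XT.lf (nat_lit 0) (nat_lit 3812591150) (nat_lit 532) (nat_lit 13827693328) (nat_lit 76) (nat_lit 8142645589) (nat_lit 98) (nat_lit 5) (nat_lit 105) (nat_lit 5) (nat_lit 99) (nat_lit 5) (nat_lit 338) (nat_lit 301) (nat_lit 141)) (XT.lf (nat_lit 0) (nat_lit 6946495789) (nat_lit 532) (nat_lit 2204767483) (nat_lit 76) (nat_lit 17119393678) (nat_lit 98) (nat_lit 5) (nat_lit 105) (nat_lit 5) (nat_lit 99) (nat_lit 5) (nat_lit 339) (nat_lit 301) (nat_lit 140)))) (XT.nd (nat_lit 78) (nat_lit 380) (nat_lit 0) (XT.lf (nat_lit 0) (nat_lit 9955414558) (nat_lit 380) (nat_lit 309903923) (nat_lit 456) (nat_lit 16504977653) (nat_lit 93) (nat_lit 5) (nat_lit 98) (nat_lit 5) (nat_lit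 99) (nat_lit 5) (nat_lit 340) (nat_lit 301) (nat_lit 139)) (XT.nd (nat_lit 78) (nat_lit 380) (nat_lit 0) (XT.lf (nat_lit 0) (nat_lit 13786029251) (nat_lit 456) (nat_lit 4849220013) (nat_lit 76) (nat_lit 8646612831) (nat_lit 93) (nat_lit 5) (nat_lit 99) (nat_lit 5) (nat_lit 94) (nat_lit 5) (nat_lit 341) (nat_lit 301) (nat_lit 138)) (XT.lf (nat_lit 0) (nat_lit 7615332591) (nat_lit 380) (nat_lit 9868717731) (nat_lit 456) (nat_lit 10322581135) (nat_lit 88) (nat_lit 5) (nat_lit 93) (nat_lit 5) (nat_lit 94) (nat_lit 5) (nat_lit 342) (nat_lit 301) (nat_lit 137))))))))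
noncomputable def xc208 : XT := (XT.nd (nat_lit 1794) (nat_lit 1520) (nat_lit 0) (XT.nd (nat_lit 858) (nat_lit 1292) (nat_lit 0) (XT.nd (nat_lit 390) (nat_lit 988) (nat_lit 0) (XT.nd (nat_lit 156) (nat_lit 456) (nat_lit 0) (XT.nd (nat_lit 78) (nat_lit 304) (nat_lit 0) (XT.lf (nat_lit 0) (nat_lit 20547668042) (nat_lit 380) (nat_lit 789809031) (nat_lit 456) (nat_lit 7008339759) (nat_lit 88) (nat_lit 5) (nat_lit 93) (nat_lit 5) (nat_lit 94) (nat_lit 5) (nat_lit 343) (nat_lit 301) (nat_lit 136)) (XT.lf (nat_lit 0) (nat_lit 4976074790) (nat_lit 304) (nat_lit 20456181698) (nat_lit 380) (nat_lit 3465155468) (nat_lit 84) (nat_lit 5) (nat_lit 88) (nat_lit 5) (nat_lit 89) (nat_lit 5) (nat_lit 344) (nat_lit 301) (nat_lit 135))) (XT.nd (nat_lit 78) (nat_lit 380) (nat_lit 0) (XT.lf (nat_lit 0) (nat_lit 263717843) (nat_lit 380) (nat_lit 11185747364) (nat_lit 76) (nat_lit 18013553161) (nat_lit 83) (nat_lit 5)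 (nat_lit 88) (nat_lit 5) (nat_lit 84) (nat_lit 5) (nat_lit 345) (nat_lit 301) (nat_lit 134)) (XT.nd (nat_lit 78) (nat_lit 0) (nat_lit 0) (XT.lf (nat_lit 0) (nat_lit 1929859292) (nat_lit 380) (nat_lit 2119274468) (nat_lit 456) (nat_lit 25995006400) (nat_lit 78) (nat_lit 5) (nat_lit 83) (nat_lit 5) (nat_lit 84) (nat_lit 5) (nat_lit 346) (nat_lit 301) (nat_lit 133)) (XT.lf (nat_lit 0) (nat_lit 8130022899) (nat_lit 456) (nat_lit 15049667809) (nat_lit 76) (nat_lit 7457553510) (nat_lit 78) (nat_lit 5) (nat_lit 84) (nat_lit 5) (nat_lit 79) (nat_lit 5) (nat_lit 347) (nat_lit 301) (nat_lit 132))))) (XT.nd (nat_lit 234) (nat_lit 684) (nat_lit 0) (XT.nd (nat_lit 78) (nat_lit 304) (nat_lit 0) (XT.lf (nat_lit 0) (nat_lit 12350274937) (nat_lit 456) (nat_lit 1619407150) (nat_lit 76) (nat_lit 17277956991) (nat_lit 78) (nat_lit 5) (nat_lit 84) (nat_lit 5) (nat_lit 79) (nat_lit 5) (nat_lit 348) (nat_lit 301) (nat_lit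 131)) (XT.nd (nat_lit 78) (nat_lit 0) (nat_lit 0) (XT.lf (nat_lit 0) (nat_lit 12451583290) (nat_lit 304) (nat_lit 4361314655) (nat_lit 380) (nat_lit 15059980533) (nat_lit 74) (nat_lit 5) (nat_lit 78) (nat_lit 5) (nat_lit 79) (nat_lit 5) (nat_lit 349) (nat_lit 301) (nat_lit 130)) (XT.lf (nat_lit 0) (nat_lit 21475247760) (nat_lit 380) (nat_lit 5597067589) (nat_lit 76) (nat_lit 5442589704) (nat_lit 74) (nat_lit 5) (nat_lit 79) (nat_lit 5) (nat_lit 75) (nat_lit 5) (nat_lit 350) (nat_lit 301) (nat_lit 129)))) (XT.nd (nat_lit 78) (nat_lit 380) (nat_lit 0) (XT.lf (nat_lit 0) (nat_lit 8764675526) (nat_lit 304) (nat_lit 17636462814) (nat_lit 380) (nat_lit 6771349252) (nat_lit 70) (nat_lit 5) (nat_lit 74) (nat_lit 5) (nat_lit 75) (nat_lit 5) (nat_lit 351) (nat_lit 301) (nat_lit 128)) (XT.nd (nat_lit 78) (nat_lit 380) (nat_lit 0) (XT.lf (nat_lit 0) (nat_lit 23666994576) (nat_lit 304) (nat_lit 7860629407)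 (nat_lit 380) (nat_lit 2320594196) (nat_lit 70) (nat_lit 5) (nat_lit 74) (nat_lit 5) (nat_lit 75) (nat_lit 5) (nat_lit 352) (nat_lit 301) (nat_lit 127)) (XT.lf (nat_lit 0) (nat_lit 2281323756) (nat_lit 380) (nat_lit 30030303846) (nat_lit 76) (nat_lit 2230090726) (nat_lit 65) (nat_lit 5) (nat_lit 70) (nat_lit 5) (nat_lit 66) (nat_lit 5) (nat_lit 353) (nat_lit 301) (nat_lit 126)))))) (XT.nd (nat_lit 468) (nat_lit 760) (nat_lit 0) (XT.nd (nat_lit 234) (nat_lit 228) (nat_lit 0) (XT.nd (nat_lit 78) (nat_lit 304) (nat_lit 0) (XT.lf (nat_lit 0) (nat_lit 7152726339) (nat_lit 380) (nat_lit 15506217244) (nat_lit 76) (nat_lit 12591053240) (nat_lit 65) (nat_lit 5) (nat_lit 70) (nat_lit 5) (nat_lit 66) (nat_lit 5) (nat_lit 354) (nat_lit 301) (nat_lit 125)) (XT.nd (nat_lit 78) (nat_lit 304) (nat_lit 0) (XT.lf (nat_lit 0) (nat_lit 12166787897) (nat_lit 380) (nat_lit 551255393) (nat_lit 76) (nat_lit 23261589427)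 (nat_lit 65) (nat_lit 5) (nat_lit 70) (nat_lit 5) (nat_lit 66) (nat_lit 5) (nat_lit 355) (nat_lit 301) (nat_lit 124)) (XT.lf (nat_lit 0) (nat_lit 15143146481) (nat_lit 304) (nat_lit 2330308354) (nat_lit 380) (nat_lit 19253441766) (nat_lit 61) (nat_lit 5) (nat_lit 65) (nat_lit 5) (nat_lit 66) (nat_lit 5) (nat_lit 356) (nat_lit 301) (nat_lit 123)))) (XT.nd (nat_lit 78) (nat_lit 228) (nat_lit 0) (XT.lf (nat_lit 0) (nat_lit 23022051248) (nat_lit 380) (nat_lit 6261985770) (nat_lit 76) (nat_lit 8210063788) (nat_lit 61) (nat_lit 5) (nat_lit 66) (nat_lit 5) (nat_lit 62) (nat_lit 5) (nat_lit 357) (nat_lit 301) (nat_lit 122)) (XT.nd (nat_lit 78) (nat_lit 0) (nat_lit 0) (XT.lf (nat_lit 0) (nat_lit 9680650550) (nat_lit 228) (nat_lit 19169340243) (nat_lit 304) (nat_lit 9430947953) (nat_lit 58) (nat_lit 5) (nat_lit 61) (nat_lit 5) (nat_lit 62) (nat_lit 5) (nat_lit 358) (nat_lit 301) (nat_lit 121)) (XT.lf (nat_lit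 0) (nat_lit 26225362795) (nat_lit 228) (nat_lit 8687446615) (nat_lit 304) (nat_lit 4176775231) (nat_lit 58) (nat_lit 5) (nat_lit 61) (nat_lit 5) (nat_lit 62) (nat_lit 5) (nat_lit 359) (nat_lit 301) (nat_lit 120))))) (XT.nd (nat_lit 234) (nat_lit 456) (nat_lit 0) (XT.nd (nat_lit 78) (nat_lit 0) (nat_lit 0) (XT.lf (nat_lit 0) (nat_lit 1261111052) (nat_lit 304) (nat_lit 36548173735) (nat_lit 76) (nat_lit 2111347140) (nat_lit 54) (nat_lit 5) (nat_lit 58) (nat_lit 5) (nat_lit 55) (nat_lit 5) (nat_lit 360) (nat_lit 301) (nat_lit 119)) (XT.nd (nat_lit 78) (nat_lit 0) (nat_lit 0) (XT.lf (nat_lit 0) (nat_lit 6992289628) (nat_lit 304) (nat_lit 20545965530) (nat_lit 76) (nat_lit 13230695406) (nat_lit 54) (nat_lit 5) (nat_lit 58) (nat_lit 5) (nat_lit 55) (nat_lit 5) (nat_lit 361) (nat_lit 301) (nat_lit 118)) (XT.lf (nat_lit 0) (nat_lit 12892394667) (nat_lit 304) (nat_lit 4068098713) (nat_lit 76) (nat_lit 24682319238)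 (nat_lit 54) (nat_lit 5) (nat_lit 58) (nat_lit 5) (nat_lit 55) (nat_lit 5) (nat_lit 362) (nat_lit 301) (nat_lit 117)))) (XT.nd (nat_lit 78) (nat_lit 228) (nat_lit 0) (XT.lf (nat_lit 0) (nat_lit 13156556658) (nat_lit 228) (nat_lit 5936493813) (nat_lit 304) (nat_lit 23446137123) (nat_lit 51) (nat_lit 5) (nat_lit 54) (nat_lit 5) (nat_lit 55) (nat_lit 5) (nat_lit 363) (nat_lit 301) (nat_lit 116)) (XT.nd (nat_lit 78) (nat_lit 228) (nat_lit 0) (XT.lf (nat_lit 0) (nat_lit 25570405822) (nat_lit 304) (nat_lit 12536681651) (nat_lit 76) (nat_lit 5352649338) (nat_lit 51) (nat_lit 5) (nat_lit 55) (nat_lit 5) (nat_lit 52) (nat_lit 5) (nat_lit 364) (nat_lit 301) (nat_lit 115)) (XT.lf (nat_lit 0) (nat_lit 4846248437) (nat_lit 228) (nat_lit 27498389861) (nat_lit 304) (nat_lit 12060190799) (nat_lit 48) (nat_lit 5) (nat_lit 51) (nat_lit 5) (nat_lit 52) (nat_lit 5) (nat_lit 365) (nat_lit 301) (nat_lit 114))))))) (XT.nd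 (nat_lit 936) (nat_lit 532) (nat_lit 0) (XT.nd (nat_lit 468) (nat_lit 456) (nat_lit 0) (XT.nd (nat_lit 234) (nat_lit 228) (nat_lit 0) (XT.nd (nat_lit 78) (nat_lit 304) (nat_lit 0) (XT.lf (nat_lit 0) (nat_lit 23003508900) (nat_lit 228) (nat_lit 16442420802) (nat_lit 304) (nat_lit 5928632683) (nat_lit 48) (nat_lit 5) (nat_lit 51) (nat_lit 5) (nat_lit 52) (nat_lit 5) (nat_lit 366) (nat_lit 301) (nat_lit 113)) (XT.nd (nat_lit 78) (nat_lit 228) (nat_lit 0) (XT.lf (nat_lit 0) (nat_lit 376609853) (nat_lit 304) (nat_lit 4675702770) (nat_lit 76) (nat_lit 41321047885) (nat_lit 47) (nat_lit 5) (nat_lit 51) (nat_lit 5) (nat_lit 48) (nat_lit 5) (nat_lit 367) (nat_lit 301) (nat_lit 112)) (XT.lf (nat_lit 0) (nat_lit 6947534825) (nat_lit 304) (nat_lit 33706282388) (nat_lit 76) (nat_lit 6740676758) (nat_lit 44) (nat_lit 5) (nat_lit 48) (nat_lit 5) (nat_lit 45) (nat_lit 5) (nat_lit 368) (nat_lit 301) (nat_lit 111))))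 (XT.nd (nat_lit 78) (nat_lit 228) (nat_lit 0) (XT.lf (nat_lit 0) (nat_lit 13810685513) (nat_lit 304) (nat_lit 15800438179) (nat_lit 76) (nat_lit 18832287642) (nat_lit 44) (nat_lit 5) (nat_lit 48) (nat_lit 5) (nat_lit 45) (nat_lit 5) (nat_lit 369) (nat_lit 301) (nat_lit 110)) (XT.nd (nat_lit 78) (nat_lit 0) (nat_lit 0) (XT.lf (nat_lit 0) (nat_lit 2691219541) (nat_lit 228) (nat_lit 18211848948) (nat_lit 304) (nat_lit 28620030351) (nat_lit 41) (nat_lit 5) (nat_lit 44) (nat_lit 5) (nat_lit 45) (nat_lit 5) (nat_lit 370) (nat_lit 301) (nat_lit 109)) (XT.lf (nat_lit 0) (nat_lit 22057681296) (nat_lit 228) (nat_lit 6307600061) (nat_lit 304) (nat_lit 22265186536) (nat_lit 41) (nat_lit 5) (nat_lit 44) (nat_lit 5) (nat_lit 45) (nat_lit 5) (nat_lit 371) (nat_lit 301) (nat_lit 108))))) (XT.nd (nat_lit 234) (nat_lit 304) (nat_lit 0) (XT.nd (nat_lit 78) (nat_lit 152) (nat_lit 0) (XT.lf (nat_lit 0) (nat_lit 36106157035)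 (nat_lit 304) (nat_lit 9826942543) (nat_lit 76) (nat_lit 5836317141) (nat_lit 41) (nat_lit 5) (nat_lit 45) (nat_lit 5) (nat_lit 42) (nat_lit 5) (nat_lit 372) (nat_lit 301) (nat_lit 107)) (XT.nd (nat_lit 78) (nat_lit 0) (nat_lit 0) (XT.lf (nat_lit 0) (nat_lit 9602525506) (nat_lit 152) (nat_lit 34629126316) (nat_lit 228) (nat_lit 8706312922) (nat_lit 39) (nat_lit 5) (nat_lit 41) (nat_lit 5) (nat_lit 42) (nat_lit 5) (nat_lit 373) (nat_lit 301) (nat_lit 106)) (XT.lf (nat_lit 0) (nat_lit 29812676661) (nat_lit 152) (nat_lit 22885137477) (nat_lit 228) (nat_lit 1440850439) (nat_lit 39) (nat_lit 5) (nat_lit 41) (nat_lit 5) (nat_lit 42) (nat_lit 5) (nat_lit 374) (nat_lit 301) (nat_lit 105)))) (XT.nd (nat_lit 78) (nat_lit 228) (nat_lit 0) (XT.lf (nat_lit 0) (nat_lit 5922376472) (nat_lit 228) (nat_lit 4807923312) (nat_lit 76) (nat_lit 44643413989) (nat_lit 38) (nat_lit 5) (nat_lit 41) (nat_lit 5) (nat_lit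 39) (nat_lit 5) (nat_lit 375) (nat_lit 301) (nat_lit 104)) (XT.nd (nat_lit 78) (nat_lit 0) (nat_lit 0) (XT.lf (nat_lit 0) (nat_lit 13643914661) (nat_lit 304) (nat_lit 41077775288) (nat_lit 76) (nat_lit 1918707536) (nat_lit 35) (nat_lit 5) (nat_lit 39) (nat_lit 5) (nat_lit 36) (nat_lit 5) (nat_lit 376) (nat_lit 301) (nat_lit 103)) (XT.lf (nat_lit 0) (nat_lit 21750169920) (nat_lit 304) (nat_lit 21411007209) (nat_lit 76) (nat_lit 14779314625) (nat_lit 35) (nat_lit 5) (nat_lit 39) (nat_lit 5) (nat_lit 36) (nat_lit 5) (nat_lit 377) (nat_lit 301) (nat_lit 102)))))) (XT.nd (nat_lit 468) (nat_lit 152) (nat_lit 0) (XT.nd (nat_lit 234) (nat_lit 228) (nat_lit 0) (XT.nd (nat_lit 78) (nat_lit 152) (nat_lit 0) (XT.lf (nat_lit 0) (nat_lit 30097475977) (nat_lit 304) (nat_lit 1157636590) (nat_lit 76) (nat_lit 28024542500) (nat_lit 35) (nat_lit 5) (nat_lit 39) (nat_lit 5) (nat_lit 36) (nat_lit 5) (nat_lit 378) (nat_lit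 301) (nat_lit 101)) (XT.nd (nat_lit 78) (nat_lit 0) (nat_lit 0) (XT.lf (nat_lit 0) (nat_lit 20092102987) (nat_lit 152) (nat_lit 18794161194) (nat_lit 228) (nat_lit 21766999259) (nat_lit 33) (nat_lit 5) (nat_lit 35) (nat_lit 5) (nat_lit 36) (nat_lit 5) (nat_lit 379) (nat_lit 301) (nat_lit 100)) (XT.lf (nat_lit 0) (nat_lit 41999796077) (nat_lit 152) (nat_lit 5948564194) (nat_lit 228) (nat_lit 14119432454) (nat_lit 33) (nat_lit 5) (nat_lit 35) (nat_lit 5) (nat_lit 36) (nat_lit 5) (nat_lit 380) (nat_lit 301) (nat_lit 99)))) (XT.nd (nat_lit 78) (nat_lit 76) (nat_lit 0) (XT.lf (nat_lit 0) (nat_lit 985975136) (nat_lit 152) (nat_lit 56373827339) (nat_lit 228) (nat_lit 6162632848) (nat_lit 31) (nat_lit 5) (nat_lit 33) (nat_lit 5) (nat_lit 34) (nat_lit 5) (nat_lit 381) (nat_lit 301) (nat_lit 98)) (XT.nd (nat_lit 78) (nat_lit 0) (nat_lit 0) (XT.lf (nat_lit 0) (nat_lit 2254761309) (nat_lit 228) (nat_lit 42015375540)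 (nat_lit 76) (nat_lit 20742149160) (nat_lit 30) (nat_lit 5) (nat_lit 33) (nat_lit 5) (nat_lit 31) (nat_lit 5) (nat_lit 382) (nat_lit 301) (nat_lit 97)) (XT.lf (nat_lit 0) (nat_lit 10798881164) (nat_lit 228) (nat_lit 20942814144) (nat_lit 76) (nat_lit 34803366188) (nat_lit 30) (nat_lit 5) (nat_lit 33) (nat_lit 5) (nat_lit 31) (nat_lit 5) (nat_lit 383) (nat_lit 301) (nat_lit 96))))) (XT.nd (nat_lit 34398) (nat_lit 0) (nat_lit 11096) (XT.nd (nat_lit 34242) (nat_lit 0) (nat_lit 11020) (XT.lf (nat_lit 0) (nat_lit 773979034) (nat_lit 152) (nat_lit 18830908542) (nat_lit 228) (nat_lit 48518767499) (nat_lit 28) (nat_lit 5) (nat_lit 30) (nat_lit 5) (nat_lit 31) (nat_lit 5) (nat_lit 384) (nat_lit 301) (nat_lit 95)) (XT.nd (nat_lit 78) (nat_lit 0) (nat_lit 0) (XT.lf (nat_lit 0) (nat_lit 3594954281) (nat_lit 1140) (nat_lit 1808301876) (nat_lit 1140) (nat_lit 1808301876) (nat_lit 173) (nat_lit 3) (nat_lit 188)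 (nat_lit 3) (nat_lit 188) (nat_lit 5) (nat_lit 302) (nat_lit 302) (nat_lit 176)) (XT.lf (nat_lit 76) (nat_lit 2634423641) (nat_lit 0) (nat_lit 4984803125) (nat_lit 1140) (nat_lit 7009999292) (nat_lit 174) (nat_lit 5) (nat_lit 173) (nat_lit 3) (nat_lit 188) (nat_lit 5) (nat_lit 303) (nat_lit 302) (nat_lit 175)))) (XT.nd (nat_lit 78) (nat_lit 0) (nat_lit 0) (XT.lf (nat_lit 0) (nat_lit 8096467399) (nat_lit 1064) (nat_lit 5709897645) (nat_lit 1140) (nat_lit 1034126147) (nat_lit 174) (nat_lit 5) (nat_lit 188) (nat_lit 5) (nat_lit 189) (nat_lit 5) (nat_lit 304) (nat_lit 302) (nat_lit 174)) (XT.nd (nat_lit 78) (nat_lit 0) (nat_lit 0) (XT.lf (nat_lit 76) (nat_lit 721970251) (nat_lit 0) (nat_lit 7911123272) (nat_lit 1140) (nat_lit 6423671164) (nat_lit 175) (nat_lit 5) (nat_lit 174) (nat_lit 5) (nat_lit 189) (nat_lit 5) (nat_lit 305) (nat_lit 302) (nat_lit 173)) (XT.lf (nat_lit 76) (nat_lit 7457585655) (nat_lit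 0) (nat_lit 1774932154) (nat_lit 1140) (nat_lit 6045629398) (nat_lit 175) (nat_lit 5) (nat_lit 174) (nat_lit 5) (nat_lit 189) (nat_lit 5) (nat_lit 306) (nat_lit 302) (nat_lit 172))))))))
noncomputable def xc209 : XT := (XT.nd (nat_lit 1794) (nat_lit 4484) (nat_lit 0) (XT.nd (nat_lit 858) (nat_lit 2584) (nat_lit 0) (XT.nd (nat_lit 390) (nat_lit 912) (nat_lit 0) (XT.nd (nat_lit 156) (nat_lit 0) (nat_lit 76) (XT.nd (nat_lit 78) (nat_lit 0) (nat_lit 0) (XT.lf (nat_lit 0) (nat_lit 9883021170) (nat_lit 1064) (nat_lit 1161052211) (nat_lit 1140) (nat_lit 4461126100) (nat_lit 175) (nat_lit 5) (nat_lit 189) (nat_lit 5) (nat_lit 190) (nat_lit 5) (nat_lit 307) (nat_lit 302) (nat_lit 171)) (XT.lf (nat_lit 76) (nat_lit 5787330692) (nat_lit 0) (nat_lit 4828626229) (nat_lit 1140) (nat_lit 5121239434) (nat_lit 176) (nat_lit 5) (nat_lit 175) (nat_lit 5) (nat_lit 190) (nat_lit 5) (nat_lit 308) (nat_lit 302) (nat_lit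 170))) (XT.nd (nat_lit 78) (nat_lit 0) (nat_lit 0) (XT.lf (nat_lit 0) (nat_lit 11387833759) (nat_lit 1064) (nat_lit 3029641965) (nat_lit 1140) (nat_lit 1558188772) (nat_lit 176) (nat_lit 5) (nat_lit 190) (nat_lit 5) (nat_lit 191) (nat_lit 5) (nat_lit 309) (nat_lit 302) (nat_lit 169)) (XT.nd (nat_lit 78) (nat_lit 0) (nat_lit 0) (XT.lf (nat_lit 76) (nat_lit 4124488530) (nat_lit 0) (nat_lit 8136114445) (nat_lit 1140) (nat_lit 3958370996) (nat_lit 177) (nat_lit 5) (nat_lit 176) (nat_lit 5) (nat_lit 191) (nat_lit 5) (nat_lit 310) (nat_lit 302) (nat_lit 168)) (XT.lf (nat_lit 76) (nat_lit 11549034774) (nat_lit 0) (nat_lit 1631617123) (nat_lit 1140) (nat_lit 3288316740) (nat_lit 177) (nat_lit 5) (nat_lit 176) (nat_lit 5) (nat_lit 191) (nat_lit 5) (nat_lit 311) (nat_lit 302) (nat_lit 167))))) (XT.nd (nat_lit 234) (nat_lit 1064) (nat_lit 0) (XT.nd (nat_lit 78) (nat_lit 0) (nat_lit 0) (XT.lf (nat_lit 76)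 (nat_lit 2462740774) (nat_lit 0) (nat_lit 11728761255) (nat_lit 1140) (nat_lit 2533083384) (nat_lit 178) (nat_lit 5) (nat_lit 177) (nat_lit 5) (nat_lit 192) (nat_lit 5) (nat_lit 312) (nat_lit 302) (nat_lit 166)) (XT.nd (nat_lit 78) (nat_lit 0) (nat_lit 76) (XT.lf (nat_lit 76) (nat_lit 10144883043) (nat_lit 0) (nat_lit 5144488316) (nat_lit 1140) (nat_lit 1696816246) (nat_lit 178) (nat_lit 5) (nat_lit 177) (nat_lit 5) (nat_lit 192) (nat_lit 5) (nat_lit 313) (nat_lit 302) (nat_lit 165)) (XT.lf (nat_lit 76) (nat_lit 795121275) (nat_lit 0) (nat_lit 15639739189) (nat_lit 1140) (nat_lit 820354101) (nat_lit 179) (nat_lit 5) (nat_lit 178) (nat_lit 5) (nat_lit 193) (nat_lit 5) (nat_lit 314) (nat_lit 302) (nat_lit 164)))) (XT.nd (nat_lit 78) (nat_lit 0) (nat_lit 0) (XT.lf (nat_lit 0) (nat_lit 192889687) (nat_lit 1140) (nat_lit 8788402519) (nat_lit 1216) (nat_lit 8547649714) (nat_lit 163) (nat_lit 5) (nat_lit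 178) (nat_lit 5) (nat_lit 179) (nat_lit 5) (nat_lit 315) (nat_lit 302) (nat_lit 163)) (XT.nd (nat_lit 78) (nat_lit 0) (nat_lit 76) (XT.lf (nat_lit 0) (nat_lit 1211685640) (nat_lit 1140) (nat_lit 901121207) (nat_lit 1216) (nat_lit 15698097036) (nat_lit 163) (nat_lit 5) (nat_lit 178) (nat_lit 5) (nat_lit 179) (nat_lit 5) (nat_lit 316) (nat_lit 302) (nat_lit 162)) (XT.lf (nat_lit 0) (nat_lit 2372095928) (nat_lit 1140) (nat_lit 10787723263) (nat_lit 1216) (nat_lit 4938189292) (nat_lit 164) (nat_lit 5) (nat_lit 179) (nat_lit 5) (nat_lit 180) (nat_lit 5) (nat_lit 317) (nat_lit 302) (nat_lit 161)))))) (XT.nd (nat_lit 468) (nat_lit 1140) (nat_lit 0) (XT.nd (nat_lit 234) (nat_lit 1520) (nat_lit 0) (XT.nd (nat_lit 78) (nat_lit 0) (nat_lit 76) (XT.lf (nat_lit 0) (nat_lit 3589507234) (nat_lit 1140) (nat_lit 2634415084) (nat_lit 1216) (nat_lit 12169153088) (nat_lit 164) (nat_lit 5) (nat_lit 179) (nat_lit 5)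 (nat_lit 180) (nat_lit 5) (nat_lit 318) (nat_lit 302) (nat_lit 160)) (XT.nd (nat_lit 78) (nat_lit 0) (nat_lit 0) (XT.lf (nat_lit 0) (nat_lit 4901611658) (nat_lit 1140) (nat_lit 12833161062) (nat_lit 76) (nat_lit 960490907) (nat_lit 165) (nat_lit 5) (nat_lit 180) (nat_lit 5) (nat_lit 166) (nat_lit 5) (nat_lit 319) (nat_lit 302) (nat_lit 159)) (XT.lf (nat_lit 0) (nat_lit 6334055793) (nat_lit 1140) (nat_lit 4406548743) (nat_lit 76) (nat_lit 8263497655) (nat_lit 165) (nat_lit 5) (nat_lit 180) (nat_lit 5) (nat_lit 166) (nat_lit 5) (nat_lit 320) (nat_lit 302) (nat_lit 158)))) (XT.nd (nat_lit 78) (nat_lit 532) (nat_lit 0) (XT.lf (nat_lit 0) (nat_lit 4351502017) (nat_lit 1064) (nat_lit 3492507106) (nat_lit 1140) (nat_lit 11477174299) (nat_lit 151) (nat_lit 5) (nat_lit 165) (nat_lit 5) (nat_lit 166) (nat_lit 5) (nat_lit 321) (nat_lit 302) (nat_lit 157)) (XT.nd (nat_lit 78) (nat_lit 532) (nat_lit 0) (XT.lf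 (nat_lit 0) (nat_lit 9475258568) (nat_lit 1140) (nat_lit 6228897974) (nat_lit 76) (nat_lit 3941353814) (nat_lit 151) (nat_lit 5) (nat_lit 166) (nat_lit 5) (nat_lit 152) (nat_lit 5) (nat_lit 322) (nat_lit 302) (nat_lit 156)) (XT.lf (nat_lit 0) (nat_lit 2787666669) (nat_lit 532) (nat_lit 8422230800) (nat_lit 608) (nat_lit 8768048876) (nat_lit 144) (nat_lit 5) (nat_lit 151) (nat_lit 5) (nat_lit 152) (nat_lit 5) (nat_lit 323) (nat_lit 302) (nat_lit 155))))) (XT.nd (nat_lit 234) (nat_lit 608) (nat_lit 0) (XT.nd (nat_lit 78) (nat_lit 532) (nat_lit 0) (XT.lf (nat_lit 0) (nat_lit 12196215501) (nat_lit 532) (nat_lit 856477714) (nat_lit 608) (nat_lit 7265991102) (nat_lit 144) (nat_lit 5) (nat_lit 151) (nat_lit 5) (nat_lit 152) (nat_lit 5) (nat_lit 324) (nat_lit 302) (nat_lit 154)) (XT.nd (nat_lit 78) (nat_lit 0) (nat_lit 0) (XT.lf (nat_lit 0) (nat_lit 1167244513) (nat_lit 532) (nat_lit 13854845042) (nat_lit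 608) (nat_lit 5645427442) (nat_lit 137) (nat_lit 5) (nat_lit 144) (nat_lit 5) (nat_lit 145) (nat_lit 5) (nat_lit 325) (nat_lit 302) (nat_lit 153)) (XT.lf (nat_lit 0) (nat_lit 10887330715) (nat_lit 532) (nat_lit 6247208203) (nat_lit 608) (nat_lit 3889768327) (nat_lit 137) (nat_lit 5) (nat_lit 144) (nat_lit 5) (nat_lit 145) (nat_lit 5) (nat_lit 326) (nat_lit 302) (nat_lit 152)))) (XT.nd (nat_lit 78) (nat_lit 608) (nat_lit 0) (XT.lf (nat_lit 0) (nat_lit 19319376523) (nat_lit 608) (nat_lit 514247204) (nat_lit 76) (nat_lit 1557918408) (nat_lit 137) (nat_lit 5) (nat_lit 145) (nat_lit 5) (nat_lit 138) (nat_lit 5) (nat_lit 327) (nat_lit 302) (nat_lit 151)) (XT.nd (nat_lit 78) (nat_lit 76) (nat_lit 0) (XT.lf (nat_lit 0) (nat_lit 9514967810) (nat_lit 532) (nat_lit 12202034520) (nat_lit 608) (nat_lit 48385496) (nat_lit 130) (nat_lit 5) (nat_lit 137) (nat_lit 5) (nat_lit 138) (nat_lit 5) (nat_lit 328) (nat_lit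 302) (nat_lit 150)) (XT.lf (nat_lit 0) (nat_lit 1995596563) (nat_lit 608) (nat_lit 2320401274) (nat_lit 76) (nat_lit 17833897683) (nat_lit 129) (nat_lit 5) (nat_lit 137) (nat_lit 5) (nat_lit 130) (nat_lit 5) (nat_lit 329) (nat_lit 302) (nat_lit 149))))))) (XT.nd (nat_lit 936) (nat_lit 1748) (nat_lit 0) (XT.nd (nat_lit 468) (nat_lit 1292) (nat_lit 0) (XT.nd (nat_lit 234) (nat_lit 456) (nat_lit 0) (XT.nd (nat_lit 78) (nat_lit 456) (nat_lit 0) (XT.lf (nat_lit 0) (nat_lit 4208901829) (nat_lit 608) (nat_lit 14522769537) (nat_lit 76) (nat_lit 3810993532) (nat_lit 122) (nat_lit 5) (nat_lit 130) (nat_lit 5) (nat_lit 123) (nat_lit 5) (nat_lit 330) (nat_lit 302) (nat_lit 148)) (XT.nd (nat_lit 78) (nat_lit 456) (nat_lit 0) (XT.lf (nat_lit 0) (nat_lit 6549266896) (nat_lit 608) (nat_lit 4277543061) (nat_lit 76) (nat_lit 12118597395) (nat_lit 122) (nat_lit 5) (nat_lit 130) (nat_lit 5) (nat_lit 123) (nat_lit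 5) (nat_lit 331) (nat_lit 302) (nat_lit 147)) (XT.lf (nat_lit 0) (nat_lit 6393954087) (nat_lit 456) (nat_lit 2621782970) (nat_lit 532) (nat_lit 14342827726) (nat_lit 116) (nat_lit 5) (nat_lit 122) (nat_lit 5) (nat_lit 123) (nat_lit 5) (nat_lit 332) (nat_lit 302) (nat_lit 146)))) (XT.nd (nat_lit 78) (nat_lit 456) (nat_lit 0) (XT.lf (nat_lit 0) (nat_lit 11650394277) (nat_lit 532) (nat_lit 6371970561) (nat_lit 76) (nat_lit 5758935564) (nat_lit 116) (nat_lit 5) (nat_lit 123) (nat_lit 5) (nat_lit 117) (nat_lit 5) (nat_lit 333) (nat_lit 302) (nat_lit 145)) (XT.nd (nat_lit 78) (nat_lit 0) (nat_lit 0) (XT.lf (nat_lit 0) (nat_lit 4596388770) (nat_lit 456) (nat_lit 9832537945) (nat_lit 532) (nat_lit 9785855291) (nat_lit 110) (nat_lit 5) (nat_lit 116) (nat_lit 5) (nat_lit 117) (nat_lit 5) (nat_lit 334) (nat_lit 302) (nat_lit 144)) (XT.lf (nat_lit 0) (nat_lit 16018680975) (nat_lit 456) (nat_lit 1331271913)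 (nat_lit 532) (nat_lit 7309549758) (nat_lit 110) (nat_lit 5) (nat_lit 116) (nat_lit 5) (nat_lit 117) (nat_lit 5) (nat_lit 335) (nat_lit 302) (nat_lit 143))))) (XT.nd (nat_lit 234) (nat_lit 380) (nat_lit 0) (XT.nd (nat_lit 78) (nat_lit 532) (nat_lit 0) (XT.lf (nat_lit 0) (nat_lit 2640503702) (nat_lit 380) (nat_lit 17809802284) (nat_lit 456) (nat_lit 4664516501) (nat_lit 105) (nat_lit 5) (nat_lit 110) (nat_lit 5) (nat_lit 111) (nat_lit 5) (nat_lit 336) (nat_lit 302) (nat_lit 142)) (XT.nd (nat_lit 78) (nat_lit 532) (nat_lit 0) (XT.lf (nat_lit 0) (nat_lit 14418284978) (nat_lit 380) (nat_lit 9320724676) (nat_lit 456) (nat_lit 1841940291) (nat_lit 105) (nat_lit 5) (nat_lit 110) (nat_lit 5) (nat_lit 111) (nat_lit 5) (nat_lit 337) (nat_lit 302) (nat_lit 141)) (XT.lf (nat_lit 0) (nat_lit 481892777) (nat_lit 456) (nat_lit 562386613) (nat_lit 532) (nat_lit 25016489743) (nat_lit 98) (nat_lit 5) (nat_lit 104)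 (nat_lit 5) (nat_lit 105) (nat_lit 5) (nat_lit 338) (nat_lit 302) (nat_lit 140)))) (XT.nd (nat_lit 78) (nat_lit 380) (nat_lit 0) (XT.lf (nat_lit 0) (nat_lit 4170415158) (nat_lit 532) (nat_lit 13953351193) (nat_lit 76) (nat_lit 8424966436) (nat_lit 98) (nat_lit 5) (nat_lit 105) (nat_lit 5) (nat_lit 99) (nat_lit 5) (nat_lit 339) (nat_lit 302) (nat_lit 139)) (XT.nd (nat_lit 78) (nat_lit 380) (nat_lit 0) (XT.lf (nat_lit 0) (nat_lit 7391246269) (nat_lit 532) (nat_lit 1990160085) (nat_lit 76) (nat_lit 17669908962) (nat_lit 98) (nat_lit 5) (nat_lit 105) (nat_lit 5) (nat_lit 99) (nat_lit 5) (nat_lit 340) (nat_lit 302) (nat_lit 138)) (XT.lf (nat_lit 0) (nat_lit 10532074962) (nat_lit 380) (nat_lit 273346822) (nat_lit 456) (nat_lit 16760659044) (nat_lit 93) (nat_lit 5) (nat_lit 98) (nat_lit 5) (nat_lit 99) (nat_lit 5) (nat_lit 341) (nat_lit 302) (nat_lit 137)))))) (XT.nd (nat_lit 468) (nat_lit 608) (nat_lit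 0) (XT.nd (nat_lit 234) (nat_lit 760) (nat_lit 0) (XT.nd (nat_lit 78) (nat_lit 380) (nat_lit 0) (XT.lf (nat_lit 0) (nat_lit 14425420350) (nat_lit 456) (nat_lit 4718112751) (nat_lit 76) (nat_lit 8949661156) (nat_lit 93) (nat_lit 5) (nat_lit 99) (nat_lit 5) (nat_lit 94) (nat_lit 5) (nat_lit 342) (nat_lit 302) (nat_lit 136)) (XT.nd (nat_lit 78) (nat_lit 0) (nat_lit 0) (XT.lf (nat_lit 0) (nat_lit 8117664824) (nat_lit 380) (nat_lit 10112772859) (nat_lit 456) (nat_lit 10403397523) (nat_lit 88) (nat_lit 5) (nat_lit 93) (nat_lit 5) (nat_lit 94) (nat_lit 5) (nat_lit 343) (nat_lit 302) (nat_lit 135)) (XT.lf (nat_lit 0) (nat_lit 21429993477) (nat_lit 380) (nat_lit 763011648) (nat_lit 456) (nat_lit 6996394761) (nat_lit 88) (nat_lit 5) (nat_lit 93) (nat_lit 5) (nat_lit 94) (nat_lit 5) (nat_lit 344) (nat_lit 302) (nat_lit 134)))) (XT.nd (nat_lit 78) (nat_lit 456) (nat_lit 0) (XT.lf (nat_lit 0) (nat_lit 5394889880)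 (nat_lit 304) (nat_lit 21012526281) (nat_lit 380) (nat_lit 3350232648) (nat_lit 84) (nat_lit 5) (nat_lit 88) (nat_lit 5) (nat_lit 89) (nat_lit 5) (nat_lit 345) (nat_lit 302) (nat_lit 133)) (XT.nd (nat_lit 78) (nat_lit 380) (nat_lit 0) (XT.lf (nat_lit 0) (nat_lit 479985104) (nat_lit 380) (nat_lit 11255189331) (nat_lit 76) (nat_lit 18605182422) (nat_lit 83) (nat_lit 5) (nat_lit 88) (nat_lit 5) (nat_lit 84) (nat_lit 5) (nat_lit 346) (nat_lit 302) (nat_lit 132)) (XT.lf (nat_lit 0) (nat_lit 2251276402) (nat_lit 380) (nat_lit 2124151610) (nat_lit 456) (nat_lit 26563599131) (nat_lit 78) (nat_lit 5) (nat_lit 83) (nat_lit 5) (nat_lit 84) (nat_lit 5) (nat_lit 347) (nat_lit 302) (nat_lit 131))))) (XT.nd (nat_lit 234) (nat_lit 304) (nat_lit 0) (XT.nd (nat_lit 78) (nat_lit 304) (nat_lit 0) (XT.lf (nat_lit 0) (nat_lit 8573326023) (nat_lit 456) (nat_lit 15239609998) (nat_lit 76) (nat_lit 7737159360) (nat_lit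 78) (nat_lit 5) (nat_lit 84) (nat_lit 5) (nat_lit 79) (nat_lit 5) (nat_lit 348) (nat_lit 302) (nat_lit 130)) (XT.nd (nat_lit 78) (nat_lit 304) (nat_lit 0) (XT.lf (nat_lit 0) (nat_lit 12914377785) (nat_lit 456) (nat_lit 1414059417) (nat_lit 76) (nat_lit 17850547395) (nat_lit 78) (nat_lit 5) (nat_lit 84) (nat_lit 5) (nat_lit 79) (nat_lit 5) (nat_lit 349) (nat_lit 302) (nat_lit 129)) (XT.lf (nat_lit 0) (nat_lit 13076571227) (nat_lit 304) (nat_lit 4431086578) (nat_lit 380) (nat_lit 15315428058) (nat_lit 74) (nat_lit 5) (nat_lit 78) (nat_lit 5) (nat_lit 79) (nat_lit 5) (nat_lit 350) (nat_lit 302) (nat_lit 128)))) (XT.nd (nat_lit 78) (nat_lit 304) (nat_lit 0) (XT.lf (nat_lit 0) (nat_lit 22304903192) (nat_lit 380) (nat_lit 5515627781) (nat_lit 76) (nat_lit 5663999308) (nat_lit 74) (nat_lit 5) (nat_lit 79) (nat_lit 5) (nat_lit 75) (nat_lit 5) (nat_lit 351) (nat_lit 302) (nat_lit 127)) (XT.nd (nat_lit 78)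 (nat_lit 0) (nat_lit 0) (XT.lf (nat_lit 0) (nat_lit 9274523001) (nat_lit 304) (nat_lit 18101020970) (nat_lit 380) (nat_lit 6786394693) (nat_lit 70) (nat_lit 5) (nat_lit 74) (nat_lit 5) (nat_lit 75) (nat_lit 5) (nat_lit 352) (nat_lit 302) (nat_lit 126)) (XT.lf (nat_lit 0) (nat_lit 24616720150) (nat_lit 304) (nat_lit 8033792242) (nat_lit 380) (nat_lit 2207595482) (nat_lit 70) (nat_lit 5) (nat_lit 74) (nat_lit 5) (nat_lit 75) (nat_lit 5) (nat_lit 353) (nat_lit 302) (nat_lit 125))))))))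
noncomputable def xc210 : XT := (XT.nd (nat_lit 1794) (nat_lit 608) (nat_lit 0) (XT.nd (nat_lit 858) (nat_lit 988) (nat_lit 0) (XT.nd (nat_lit 390) (nat_lit 760) (nat_lit 0) (XT.nd (nat_lit 156) (nat_lit 304) (nat_lit 0) (XT.nd (nat_lit 78) (nat_lit 0) (nat_lit 0) (XT.lf (nat_lit 0) (nat_lit 2526543821) (nat_lit 380) (nat_lit 30685192124) (nat_lit 76) (nat_lit 2360699531) (nat_lit 65) (nat_lit 5) (nat_lit 70) (nat_lit 5) (nat_lit 66) (nat_lit 5) (nat_lit 354) (nat_lit 302) (nat_lit 124)) (XT.lf (nat_lit 0) (nat_lit 7538939539) (nat_lit 380) (nat_lit 15732548580) (nat_lit 76) (nat_lit 13030635403) (nat_lit 65) (nat_lit 5) (nat_lit 70) (nat_lit 5) (nat_lit 66) (nat_lit 5) (nat_lit 355) (nat_lit 302) (nat_lit 123))) (XT.nd (nat_lit 78) (nat_lit 304) (nat_lit 0) (XT.lf (nat_lit 0) (nat_lit 12698423970) (nat_lit 380) (nat_lit 335894820) (nat_lit 76) (nat_lit 24019486203) (nat_lit 65) (nat_lit 5) (nat_lit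 70) (nat_lit 5) (nat_lit 66) (nat_lit 5) (nat_lit 356) (nat_lit 302) (nat_lit 122)) (XT.nd (nat_lit 78) (nat_lit 0) (nat_lit 0) (XT.lf (nat_lit 0) (nat_lit 15827065598) (nat_lit 304) (nat_lit 2334579240) (nat_lit 380) (nat_lit 19661927679) (nat_lit 61) (nat_lit 5) (nat_lit 65) (nat_lit 5) (nat_lit 66) (nat_lit 5) (nat_lit 357) (nat_lit 302) (nat_lit 121)) (XT.lf (nat_lit 0) (nat_lit 23872535421) (nat_lit 380) (nat_lit 6222539763) (nat_lit 76) (nat_lit 8518848734) (nat_lit 61) (nat_lit 5) (nat_lit 66) (nat_lit 5) (nat_lit 62) (nat_lit 5) (nat_lit 358) (nat_lit 302) (nat_lit 120))))) (XT.nd (nat_lit 234) (nat_lit 228) (nat_lit 0) (XT.nd (nat_lit 78) (nat_lit 304) (nat_lit 0) (XT.lf (nat_lit 0) (nat_lit 10196147160) (nat_lit 228) (nat_lit 19676674542) (nat_lit 304) (nat_lit 9551626014) (nat_lit 58) (nat_lit 5) (nat_lit 61) (nat_lit 5) (nat_lit 62) (nat_lit 5) (nat_lit 359) (nat_lit 302) (nat_lit 119))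 (XT.nd (nat_lit 78) (nat_lit 304) (nat_lit 0) (XT.lf (nat_lit 0) (nat_lit 27230645129) (nat_lit 228) (nat_lit 8882297287) (nat_lit 304) (nat_lit 4144553850) (nat_lit 58) (nat_lit 5) (nat_lit 61) (nat_lit 5) (nat_lit 62) (nat_lit 5) (nat_lit 360) (nat_lit 302) (nat_lit 118)) (XT.lf (nat_lit 0) (nat_lit 1451656885) (nat_lit 304) (nat_lit 37420915197) (nat_lit 76) (nat_lit 2240915081) (nat_lit 54) (nat_lit 5) (nat_lit 58) (nat_lit 5) (nat_lit 55) (nat_lit 5) (nat_lit 361) (nat_lit 302) (nat_lit 117)))) (XT.nd (nat_lit 78) (nat_lit 228) (nat_lit 0) (XT.lf (nat_lit 0) (nat_lit 7350322882) (nat_lit 304) (nat_lit 20945156388) (nat_lit 76) (nat_lit 13691914837) (nat_lit 54) (nat_lit 5) (nat_lit 58) (nat_lit 5) (nat_lit 55) (nat_lit 5) (nat_lit 362) (nat_lit 302) (nat_lit 116)) (XT.nd (nat_lit 78) (nat_lit 228) (nat_lit 0) (XT.lf (nat_lit 0) (nat_lit 13423112687) (nat_lit 304) (nat_lit 3979279435) (nat_lit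 76) (nat_lit 25485214610) (nat_lit 54) (nat_lit 5) (nat_lit 58) (nat_lit 5) (nat_lit 55) (nat_lit 5) (nat_lit 363) (nat_lit 302) (nat_lit 115)) (XT.lf (nat_lit 0) (nat_lit 13760048321) (nat_lit 228) (nat_lit 6047554302) (nat_lit 304) (nat_lit 24003340907) (nat_lit 51) (nat_lit 5) (nat_lit 54) (nat_lit 5) (nat_lit 55) (nat_lit 5) (nat_lit 364) (nat_lit 302) (nat_lit 114)))))) (XT.nd (nat_lit 468) (nat_lit 456) (nat_lit 0) (XT.nd (nat_lit 234) (nat_lit 304) (nat_lit 0) (XT.nd (nat_lit 78) (nat_lit 228) (nat_lit 0) (XT.lf (nat_lit 0) (nat_lit 26475775291) (nat_lit 304) (nat_lit 12706403187) (nat_lit 76) (nat_lit 5577040705) (nat_lit 51) (nat_lit 5) (nat_lit 55) (nat_lit 5) (nat_lit 52) (nat_lit 5) (nat_lit 365) (nat_lit 302) (nat_lit 113)) (XT.nd (nat_lit 78) (nat_lit 0) (nat_lit 0) (XT.lf (nat_lit 0) (nat_lit 5195991480) (nat_lit 228) (nat_lit 28255180740) (nat_lit 304) (nat_lit 12281558613) (nat_lit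 48) (nat_lit 5) (nat_lit 51) (nat_lit 5) (nat_lit 52) (nat_lit 5) (nat_lit 366) (nat_lit 302) (nat_lit 112)) (XT.lf (nat_lit 0) (nat_lit 23892017653) (nat_lit 228) (nat_lit 16869517876) (nat_lit 304) (nat_lit 5970144177) (nat_lit 48) (nat_lit 5) (nat_lit 51) (nat_lit 5) (nat_lit 52) (nat_lit 5) (nat_lit 367) (nat_lit 302) (nat_lit 111)))) (XT.nd (nat_lit 78) (nat_lit 228) (nat_lit 0) (XT.lf (nat_lit 0) (nat_lit 517701212) (nat_lit 304) (nat_lit 4620622027) (nat_lit 76) (nat_lit 42622200346) (nat_lit 47) (nat_lit 5) (nat_lit 51) (nat_lit 5) (nat_lit 48) (nat_lit 5) (nat_lit 368) (nat_lit 302) (nat_lit 110)) (XT.nd (nat_lit 78) (nat_lit 0) (nat_lit 0) (XT.lf (nat_lit 0) (nat_lit 7284463229) (nat_lit 304) (nat_lit 34520688577) (nat_lit 76) (nat_lit 7007182160) (nat_lit 44) (nat_lit 5) (nat_lit 48) (nat_lit 5) (nat_lit 45) (nat_lit 5) (nat_lit 369) (nat_lit 302) (nat_lit 109)) (XT.lf (nat_lit 0) (nat_lit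 14349765652) (nat_lit 304) (nat_lit 16083400564) (nat_lit 76) (nat_lit 19459668989) (nat_lit 44) (nat_lit 5) (nat_lit 48) (nat_lit 5) (nat_lit 45) (nat_lit 5) (nat_lit 370) (nat_lit 302) (nat_lit 108))))) (XT.nd (nat_lit 234) (nat_lit 228) (nat_lit 0) (XT.nd (nat_lit 78) (nat_lit 0) (nat_lit 0) (XT.lf (nat_lit 0) (nat_lit 2961133841) (nat_lit 228) (nat_lit 18691970994) (nat_lit 304) (nat_lit 29351866911) (nat_lit 41) (nat_lit 5) (nat_lit 44) (nat_lit 5) (nat_lit 45) (nat_lit 5) (nat_lit 371) (nat_lit 302) (nat_lit 107)) (XT.nd (nat_lit 78) (nat_lit 0) (nat_lit 0) (XT.lf (nat_lit 0) (nat_lit 22903079418) (nat_lit 228) (nat_lit 6432523768) (nat_lit 304) (nat_lit 22810069946) (nat_lit 41) (nat_lit 5) (nat_lit 44) (nat_lit 5) (nat_lit 45) (nat_lit 5) (nat_lit 372) (nat_lit 302) (nat_lit 106)) (XT.lf (nat_lit 0) (nat_lit 37305828660) (nat_lit 304) (nat_lit 9940432035) (nat_lit 76) (nat_lit 6072619748)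 (nat_lit 41) (nat_lit 5) (nat_lit 45) (nat_lit 5) (nat_lit 42) (nat_lit 5) (nat_lit 373) (nat_lit 302) (nat_lit 105)))) (XT.nd (nat_lit 78) (nat_lit 76) (nat_lit 0) (XT.lf (nat_lit 0) (nat_lit 10070142420) (nat_lit 152) (nat_lit 35603278908) (nat_lit 228) (nat_lit 8849117208) (nat_lit 39) (nat_lit 5) (nat_lit 41) (nat_lit 5) (nat_lit 42) (nat_lit 5) (nat_lit 374) (nat_lit 302) (nat_lit 104)) (XT.nd (nat_lit 78) (nat_lit 76) (nat_lit 0) (XT.lf (nat_lit 0) (nat_lit 30881368756) (nat_lit 152) (nat_lit 23508855487) (nat_lit 228) (nat_lit 1369138960) (nat_lit 39) (nat_lit 5) (nat_lit 41) (nat_lit 5) (nat_lit 42) (nat_lit 5) (nat_lit 375) (nat_lit 302) (nat_lit 103)) (XT.lf (nat_lit 0) (nat_lit 6209459570) (nat_lit 228) (nat_lit 4780638427) (nat_lit 76) (nat_lit 46041434513) (nat_lit 38) (nat_lit 5) (nat_lit 41) (nat_lit 5) (nat_lit 39) (nat_lit 5) (nat_lit 376) (nat_lit 302) (nat_lit 102))))))) (XT.nd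 (nat_lit 35256) (nat_lit 0) (nat_lit 10108) (XT.nd (nat_lit 468) (nat_lit 76) (nat_lit 0) (XT.nd (nat_lit 234) (nat_lit 304) (nat_lit 0) (XT.nd (nat_lit 78) (nat_lit 0) (nat_lit 0) (XT.lf (nat_lit 0) (nat_lit 14161685590) (nat_lit 304) (nat_lit 42137520538) (nat_lit 76) (nat_lit 2037042568) (nat_lit 35) (nat_lit 5) (nat_lit 39) (nat_lit 5) (nat_lit 36) (nat_lit 5) (nat_lit 377) (nat_lit 302) (nat_lit 101)) (XT.nd (nat_lit 78) (nat_lit 0) (nat_lit 0) (XT.lf (nat_lit 0) (nat_lit 22507969667) (nat_lit 304) (nat_lit 21885776252) (nat_lit 76) (nat_lit 15281697758) (nat_lit 35) (nat_lit 5) (nat_lit 39) (nat_lit 5) (nat_lit 36) (nat_lit 5) (nat_lit 378) (nat_lit 302) (nat_lit 100)) (XT.lf (nat_lit 0) (nat_lit 31102628071) (nat_lit 304) (nat_lit 1029684937) (nat_lit 76) (nat_lit 28922563915) (nat_lit 35) (nat_lit 5) (nat_lit 39) (nat_lit 5) (nat_lit 36) (nat_lit 5) (nat_lit 379) (nat_lit 302) (nat_lit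 99)))) (XT.nd (nat_lit 78) (nat_lit 152) (nat_lit 0) (XT.lf (nat_lit 0) (nat_lit 20855951918) (nat_lit 152) (nat_lit 19297698949) (nat_lit 228) (nat_lit 22316088492) (nat_lit 33) (nat_lit 5) (nat_lit 35) (nat_lit 5) (nat_lit 36) (nat_lit 5) (nat_lit 380) (nat_lit 302) (nat_lit 98)) (XT.nd (nat_lit 78) (nat_lit 152) (nat_lit 0) (XT.lf (nat_lit 0) (nat_lit 43416183980) (nat_lit 152) (nat_lit 6068489974) (nat_lit 228) (nat_lit 14442121500) (nat_lit 33) (nat_lit 5) (nat_lit 35) (nat_lit 5) (nat_lit 36) (nat_lit 5) (nat_lit 381) (nat_lit 302) (nat_lit 97)) (XT.lf (nat_lit 0) (nat_lit 1172859351) (nat_lit 152) (nat_lit 58004808060) (nat_lit 228) (nat_lit 6247436453) (nat_lit 31) (nat_lit 5) (nat_lit 33) (nat_lit 5) (nat_lit 34) (nat_lit 5) (nat_lit 382) (nat_lit 302) (nat_lit 96))))) (XT.nd (nat_lit 34554) (nat_lit 0) (nat_lit 10944) (XT.nd (nat_lit 34398) (nat_lit 0) (nat_lit 10868) (XT.lf (nat_lit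 0) (nat_lit 2417668760) (nat_lit 228) (nat_lit 43121130501) (nat_lit 76) (nat_lit 21420910300) (nat_lit 30) (nat_lit 5) (nat_lit 33) (nat_lit 5) (nat_lit 31) (nat_lit 5) (nat_lit 383) (nat_lit 302) (nat_lit 95)) (XT.nd (nat_lit 78) (nat_lit 0) (nat_lit 0) (XT.lf (nat_lit 0) (nat_lit 3996102057) (nat_lit 1140) (nat_lit 1711208388) (nat_lit 1140) (nat_lit 1711208388) (nat_lit 173) (nat_lit 3) (nat_lit 188) (nat_lit 3) (nat_lit 188) (nat_lit 5) (nat_lit 303) (nat_lit 303) (nat_lit 174)) (XT.lf (nat_lit 76) (nat_lit 3013173938) (nat_lit 0) (nat_lit 5407023607) (nat_lit 1140) (nat_lit 6629593734) (nat_lit 174) (nat_lit 5) (nat_lit 173) (nat_lit 3) (nat_lit 188) (nat_lit 5) (nat_lit 304) (nat_lit 303) (nat_lit 173)))) (XT.nd (nat_lit 78) (nat_lit 0) (nat_lit 0) (XT.lf (nat_lit 0) (nat_lit 8892538939) (nat_lit 1064) (nat_lit 5569883622) (nat_lit 1140) (nat_lit 805581494) (nat_lit 174) (nat_lit 5) (nat_lit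 188) (nat_lit 5) (nat_lit 189) (nat_lit 5) (nat_lit 305) (nat_lit 303) (nat_lit 172)) (XT.nd (nat_lit 78) (nat_lit 0) (nat_lit 0) (XT.lf (nat_lit 76) (nat_lit 1051888242) (nat_lit 0) (nat_lit 8380226811) (nat_lit 1140) (nat_lit 6059077397) (nat_lit 175) (nat_lit 5) (nat_lit 174) (nat_lit 5) (nat_lit 189) (nat_lit 5) (nat_lit 306) (nat_lit 303) (nat_lit 171)) (XT.lf (nat_lit 76) (nat_lit 7980593694) (nat_lit 0) (nat_lit 2053199382) (nat_lit 1140) (nat_lit 5685926530) (nat_lit 175) (nat_lit 5) (nat_lit 174) (nat_lit 5) (nat_lit 189) (nat_lit 5) (nat_lit 307) (nat_lit 303) (nat_lit 170)))))) (XT.nd (nat_lit 468) (nat_lit 912) (nat_lit 0) (XT.nd (nat_lit 234) (nat_lit 0) (nat_lit 76) (XT.nd (nat_lit 78) (nat_lit 0) (nat_lit 0) (XT.lf (nat_lit 0) (nat_lit 10686440650) (nat_lit 1064) (nat_lit 886936681) (nat_lit 1140) (nat_lit 4380757624) (nat_lit 175) (nat_lit 5) (nat_lit 189) (nat_lit 5) (nat_lit 190)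 (nat_lit 5) (nat_lit 308) (nat_lit 303) (nat_lit 169)) (XT.nd (nat_lit 78) (nat_lit 0) (nat_lit 76) (XT.lf (nat_lit 76) (nat_lit 6266868816) (nat_lit 0) (nat_lit 5162671413) (nat_lit 1140) (nat_lit 4763935728) (nat_lit 176) (nat_lit 5) (nat_lit 175) (nat_lit 5) (nat_lit 190) (nat_lit 5) (nat_lit 309) (nat_lit 303) (nat_lit 168)) (XT.lf (nat_lit 0) (nat_lit 12208387242) (nat_lit 1064) (nat_lit 2806382615) (nat_lit 1140) (nat_lit 1424842505) (nat_lit 176) (nat_lit 5) (nat_lit 190) (nat_lit 5) (nat_lit 191) (nat_lit 5) (nat_lit 310) (nat_lit 303) (nat_lit 167)))) (XT.nd (nat_lit 78) (nat_lit 0) (nat_lit 0) (XT.lf (nat_lit 76) (nat_lit 4559291907) (nat_lit 0) (nat_lit 8537088729) (nat_lit 1140) (nat_lit 3594197053) (nat_lit 177) (nat_lit 5) (nat_lit 176) (nat_lit 5) (nat_lit 191) (nat_lit 5) (nat_lit 311) (nat_lit 303) (nat_lit 166)) (XT.nd (nat_lit 78) (nat_lit 0) (nat_lit 76) (XT.lf (nat_lit 76)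 (nat_lit 12197514285) (nat_lit 0) (nat_lit 1832886851) (nat_lit 1140) (nat_lit 2918106949) (nat_lit 177) (nat_lit 5) (nat_lit 176) (nat_lit 5) (nat_lit 191) (nat_lit 5) (nat_lit 312) (nat_lit 303) (nat_lit 165)) (XT.lf (nat_lit 76) (nat_lit 2851507612) (nat_lit 0) (nat_lit 12208441561) (nat_lit 1140) (nat_lit 2152219222) (nat_lit 178) (nat_lit 5) (nat_lit 177) (nat_lit 5) (nat_lit 192) (nat_lit 5) (nat_lit 313) (nat_lit 303) (nat_lit 164))))) (XT.nd (nat_lit 234) (nat_lit 0) (nat_lit 0) (XT.nd (nat_lit 78) (nat_lit 1064) (nat_lit 0) (XT.lf (nat_lit 76) (nat_lit 10754942753) (nat_lit 0) (nat_lit 5422917595) (nat_lit 1140) (nat_lit 1304170576) (nat_lit 178) (nat_lit 5) (nat_lit 177) (nat_lit 5) (nat_lit 192) (nat_lit 5) (nat_lit 314) (nat_lit 303) (nat_lit 163)) (XT.nd (nat_lit 78) (nat_lit 1140) (nat_lit 0) (XT.lf (nat_lit 76) (nat_lit 1136479703) (nat_lit 0) (nat_lit 16210609668) (nat_lit 1140)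 (nat_lit 412382764) (nat_lit 179) (nat_lit 5) (nat_lit 178) (nat_lit 5) (nat_lit 193) (nat_lit 5) (nat_lit 315) (nat_lit 303) (nat_lit 162)) (XT.lf (nat_lit 0) (nat_lit 610463492) (nat_lit 1140) (nat_lit 8734826038) (nat_lit 1216) (nat_lit 8696390927) (nat_lit 163) (nat_lit 5) (nat_lit 178) (nat_lit 5) (nat_lit 179) (nat_lit 5) (nat_lit 316) (nat_lit 303) (nat_lit 161)))) (XT.nd (nat_lit 78) (nat_lit 0) (nat_lit 76) (XT.lf (nat_lit 0) (nat_lit 1647829524) (nat_lit 1140) (nat_lit 620165953) (nat_lit 1216) (nat_lit 16064488220) (nat_lit 163) (nat_lit 5) (nat_lit 178) (nat_lit 5) (nat_lit 179) (nat_lit 5) (nat_lit 317) (nat_lit 303) (nat_lit 160)) (XT.nd (nat_lit 78) (nat_lit 0) (nat_lit 0) (XT.lf (nat_lit 0) (nat_lit 2833511456) (nat_lit 1140) (nat_lit 10793093849) (nat_lit 1216) (nat_lit 5001904297) (nat_lit 164) (nat_lit 5) (nat_lit 179) (nat_lit 5) (nat_lit 180) (nat_lit 5) (nat_lit 318) (nat_lit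 303) (nat_lit 159)) (XT.lf (nat_lit 0) (nat_lit 4076078518) (nat_lit 1140) (nat_lit 2404456166) (nat_lit 1216) (nat_lit 12452256153) (nat_lit 164) (nat_lit 5) (nat_lit 179) (nat_lit 5) (nat_lit 180) (nat_lit 5) (nat_lit 319) (nat_lit 303) (nat_lit 158))))))))
noncomputable def xc211 : XT := (XT.nd (nat_lit 1794) (nat_lit 3192) (nat_lit 0) (XT.nd (nat_lit 858) (nat_lit 2736) (nat_lit 0) (XT.nd (nat_lit 390) (nat_lit 1140) (nat_lit 0) (XT.nd (nat_lit 156) (nat_lit 1596) (nat_lit 0) (XT.nd (nat_lit 78) (nat_lit 0) (nat_lit 0) (XT.lf (nat_lit 0) (nat_lit 5418828471) (nat_lit 1140) (nat_lit 12899757357) (nat_lit 76) (nat_lit 925741091) (nat_lit 165) (nat_lit 5) (nat_lit 180) (nat_lit 5) (nat_lit 166) (nat_lit 5) (nat_lit 320) (nat_lit 303) (nat_lit 157)) (XT.lf (nat_lit 0) (nat_lit 6883464325) (nat_lit 1140) (nat_lit 4229620412) (nat_lit 76) (nat_lit 8449689436) (nat_lit 165) (nat_lit 5) (nat_lit 180)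 (nat_lit 5) (nat_lit 166) (nat_lit 5) (nat_lit 321) (nat_lit 303) (nat_lit 156))) (XT.nd (nat_lit 78) (nat_lit 532) (nat_lit 0) (XT.lf (nat_lit 0) (nat_lit 4788141236) (nat_lit 1064) (nat_lit 3643049805) (nat_lit 1140) (nat_lit 11458422056) (nat_lit 151) (nat_lit 5) (nat_lit 165) (nat_lit 5) (nat_lit 166) (nat_lit 5) (nat_lit 322) (nat_lit 303) (nat_lit 155)) (XT.nd (nat_lit 78) (nat_lit 532) (nat_lit 0) (XT.lf (nat_lit 0) (nat_lit 10100702440) (nat_lit 1140) (nat_lit 6107279544) (nat_lit 76) (nat_lit 4016027052) (nat_lit 151) (nat_lit 5) (nat_lit 166) (nat_lit 5) (nat_lit 152) (nat_lit 5) (nat_lit 323) (nat_lit 303) (nat_lit 154)) (XT.lf (nat_lit 0) (nat_lit 3176757673) (nat_lit 532) (nat_lit 8703621654) (nat_lit 608) (nat_lit 8686267193) (nat_lit 144) (nat_lit 5) (nat_lit 151) (nat_lit 5) (nat_lit 152) (nat_lit 5) (nat_lit 324) (nat_lit 303) (nat_lit 153))))) (XT.nd (nat_lit 234) (nat_lit 608)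 (nat_lit 0) (XT.nd (nat_lit 78) (nat_lit 532) (nat_lit 0) (XT.lf (nat_lit 0) (nat_lit 12858666048) (nat_lit 532) (nat_lit 910059356) (nat_lit 608) (nat_lit 7149191078) (nat_lit 144) (nat_lit 5) (nat_lit 151) (nat_lit 5) (nat_lit 152) (nat_lit 5) (nat_lit 325) (nat_lit 303) (nat_lit 152)) (XT.nd (nat_lit 78) (nat_lit 0) (nat_lit 0) (XT.lf (nat_lit 0) (nat_lit 1506410986) (nat_lit 532) (nat_lit 14284006013) (nat_lit 608) (nat_lit 5487018068) (nat_lit 137) (nat_lit 5) (nat_lit 144) (nat_lit 5) (nat_lit 145) (nat_lit 5) (nat_lit 326) (nat_lit 303) (nat_lit 151)) (XT.lf (nat_lit 0) (nat_lit 11509241061) (nat_lit 532) (nat_lit 6447746410) (nat_lit 608) (nat_lit 3688235942) (nat_lit 137) (nat_lit 5) (nat_lit 144) (nat_lit 5) (nat_lit 145) (nat_lit 5) (nat_lit 327) (nat_lit 303) (nat_lit 150)))) (XT.nd (nat_lit 78) (nat_lit 608) (nat_lit 0) (XT.lf (nat_lit 0) (nat_lit 20198264857) (nat_lit 608) (nat_lit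 233335193) (nat_lit 76) (nat_lit 1592164791) (nat_lit 137) (nat_lit 5) (nat_lit 145) (nat_lit 5) (nat_lit 138) (nat_lit 5) (nat_lit 328) (nat_lit 303) (nat_lit 149)) (XT.nd (nat_lit 78) (nat_lit 0) (nat_lit 0) (XT.lf (nat_lit 0) (nat_lit 247968693) (nat_lit 608) (nat_lit 12317598751) (nat_lit 76) (nat_lit 9843378291) (nat_lit 129) (nat_lit 5) (nat_lit 137) (nat_lit 5) (nat_lit 130) (nat_lit 5) (nat_lit 329) (nat_lit 303) (nat_lit 148)) (XT.lf (nat_lit 0) (nat_lit 2343652086) (nat_lit 608) (nat_lit 2098892146) (nat_lit 76) (nat_lit 18362704371) (nat_lit 129) (nat_lit 5) (nat_lit 137) (nat_lit 5) (nat_lit 130) (nat_lit 5) (nat_lit 330) (nat_lit 303) (nat_lit 147)))))) (XT.nd (nat_lit 468) (nat_lit 1292) (nat_lit 0) (XT.nd (nat_lit 234) (nat_lit 456) (nat_lit 0) (XT.nd (nat_lit 78) (nat_lit 456) (nat_lit 0) (XT.lf (nat_lit 0) (nat_lit 4617788508) (nat_lit 608) (nat_lit 14661279809) (nat_lit 76) (nat_lit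 3930914293) (nat_lit 122) (nat_lit 5) (nat_lit 130) (nat_lit 5) (nat_lit 123) (nat_lit 5) (nat_lit 331) (nat_lit 303) (nat_lit 146)) (XT.nd (nat_lit 78) (nat_lit 456) (nat_lit 0) (XT.lf (nat_lit 0) (nat_lit 7020132887) (nat_lit 608) (nat_lit 4117352058) (nat_lit 76) (nat_lit 12487583429) (nat_lit 122) (nat_lit 5) (nat_lit 130) (nat_lit 5) (nat_lit 123) (nat_lit 5) (nat_lit 332) (nat_lit 303) (nat_lit 145)) (XT.lf (nat_lit 0) (nat_lit 6871461404) (nat_lit 456) (nat_lit 2683890081) (nat_lit 532) (nat_lit 14495440091) (nat_lit 116) (nat_lit 5) (nat_lit 122) (nat_lit 5) (nat_lit 123) (nat_lit 5) (nat_lit 333) (nat_lit 303) (nat_lit 144)))) (XT.nd (nat_lit 78) (nat_lit 456) (nat_lit 0) (XT.lf (nat_lit 0) (nat_lit 12261363746) (nat_lit 532) (nat_lit 6277634735) (nat_lit 76) (nat_lit 5947454600) (nat_lit 116) (nat_lit 5) (nat_lit 123) (nat_lit 5) (nat_lit 117) (nat_lit 5) (nat_lit 334) (nat_lit 303) (nat_lit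 143)) (XT.nd (nat_lit 78) (nat_lit 0) (nat_lit 0) (XT.lf (nat_lit 0) (nat_lit 5016976406) (nat_lit 456) (nat_lit 10101377927) (nat_lit 532) (nat_lit 9814744626) (nat_lit 110) (nat_lit 5) (nat_lit 116) (nat_lit 5) (nat_lit 117) (nat_lit 5) (nat_lit 335) (nat_lit 303) (nat_lit 142)) (XT.lf (nat_lit 0) (nat_lit 16773703514) (nat_lit 456) (nat_lit 1345835161) (nat_lit 532) (nat_lit 7271859238) (nat_lit 110) (nat_lit 5) (nat_lit 116) (nat_lit 5) (nat_lit 117) (nat_lit 5) (nat_lit 336) (nat_lit 303) (nat_lit 141))))) (XT.nd (nat_lit 234) (nat_lit 380) (nat_lit 0) (XT.nd (nat_lit 78) (nat_lit 532) (nat_lit 0) (XT.lf (nat_lit 0) (nat_lit 2999061051) (nat_lit 380) (nat_lit 18309508371) (nat_lit 456) (nat_lit 4551950067) (nat_lit 105) (nat_lit 5) (nat_lit 110) (nat_lit 5) (nat_lit 111) (nat_lit 5) (nat_lit 337) (nat_lit 303) (nat_lit 140)) (XT.nd (nat_lit 78) (nat_lit 532) (nat_lit 0) (XT.lf (nat_lit 0)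 (nat_lit 15122039584) (nat_lit 380) (nat_lit 9566765851) (nat_lit 456) (nat_lit 1652050996) (nat_lit 105) (nat_lit 5) (nat_lit 110) (nat_lit 5) (nat_lit 111) (nat_lit 5) (nat_lit 338) (nat_lit 303) (nat_lit 139)) (XT.lf (nat_lit 0) (nat_lit 770011596) (nat_lit 456) (nat_lit 541589688) (nat_lit 532) (nat_lit 25523540443) (nat_lit 98) (nat_lit 5) (nat_lit 104) (nat_lit 5) (nat_lit 105) (nat_lit 5) (nat_lit 339) (nat_lit 303) (nat_lit 138)))) (XT.nd (nat_lit 78) (nat_lit 380) (nat_lit 0) (XT.lf (nat_lit 0) (nat_lit 4524999075) (nat_lit 532) (nat_lit 14099378503) (nat_lit 76) (nat_lit 8713573171) (nat_lit 98) (nat_lit 5) (nat_lit 105) (nat_lit 5) (nat_lit 99) (nat_lit 5) (nat_lit 340) (nat_lit 303) (nat_lit 137)) (XT.nd (nat_lit 78) (nat_lit 380) (nat_lit 0) (XT.lf (nat_lit 0) (nat_lit 7835771484) (nat_lit 532) (nat_lit 1785230688) (nat_lit 76) (nat_lit 18234819573) (nat_lit 98) (nat_lit 5) (nat_lit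 105) (nat_lit 5) (nat_lit 99) (nat_lit 5) (nat_lit 341) (nat_lit 303) (nat_lit 136)) (XT.lf (nat_lit 0) (nat_lit 11110076958) (nat_lit 380) (nat_lit 238325228) (nat_lit 456) (nat_lit 17037757317) (nat_lit 93) (nat_lit 5) (nat_lit 98) (nat_lit 5) (nat_lit 99) (nat_lit 5) (nat_lit 342) (nat_lit 303) (nat_lit 135))))))) (XT.nd (nat_lit 936) (nat_lit 1444) (nat_lit 0) (XT.nd (nat_lit 468) (nat_lit 608) (nat_lit 0) (XT.nd (nat_lit 234) (nat_lit 760) (nat_lit 0) (XT.nd (nat_lit 78) (nat_lit 380) (nat_lit 0) (XT.lf (nat_lit 0) (nat_lit 15071030750) (nat_lit 456) (nat_lit 4598949317) (nat_lit 76) (nat_lit 9259295245) (nat_lit 93) (nat_lit 5) (nat_lit 99) (nat_lit 5) (nat_lit 94) (nat_lit 5) (nat_lit 343) (nat_lit 303) (nat_lit 134)) (XT.nd (nat_lit 78) (nat_lit 0) (nat_lit 0) (XT.lf (nat_lit 0) (nat_lit 8619345637) (nat_lit 380) (nat_lit 10367135021) (nat_lit 456) (nat_lit 10499775963) (nat_lit 88) (nat_lit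 5) (nat_lit 93) (nat_lit 5) (nat_lit 94) (nat_lit 5) (nat_lit 344) (nat_lit 303) (nat_lit 133)) (XT.lf (nat_lit 0) (nat_lit 22323525192) (nat_lit 380) (nat_lit 738308771) (nat_lit 456) (nat_lit 6996846326) (nat_lit 88) (nat_lit 5) (nat_lit 93) (nat_lit 5) (nat_lit 94) (nat_lit 5) (nat_lit 345) (nat_lit 303) (nat_lit 132)))) (XT.nd (nat_lit 78) (nat_lit 456) (nat_lit 0) (XT.lf (nat_lit 0) (nat_lit 5810797135) (nat_lit 304) (nat_lit 21588852803) (nat_lit 380) (nat_lit 3244426606) (nat_lit 84) (nat_lit 5) (nat_lit 88) (nat_lit 5) (nat_lit 89) (nat_lit 5) (nat_lit 346) (nat_lit 303) (nat_lit 131)) (XT.nd (nat_lit 78) (nat_lit 380) (nat_lit 0) (XT.lf (nat_lit 0) (nat_lit 690779910) (nat_lit 380) (nat_lit 11341991534) (nat_lit 76) (nat_lit 19211620170) (nat_lit 83) (nat_lit 5) (nat_lit 88) (nat_lit 5) (nat_lit 84) (nat_lit 5) (nat_lit 347) (nat_lit 303) (nat_lit 130)) (XT.lf (nat_lit 0) (nat_lit 2567208824)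 (nat_lit 380) (nat_lit 2132544749) (nat_lit 456) (nat_lit 27161376688) (nat_lit 78) (nat_lit 5) (nat_lit 83) (nat_lit 5) (nat_lit 84) (nat_lit 5) (nat_lit 348) (nat_lit 303) (nat_lit 129))))) (XT.nd (nat_lit 234) (nat_lit 304) (nat_lit 0) (XT.nd (nat_lit 78) (nat_lit 304) (nat_lit 0) (XT.lf (nat_lit 0) (nat_lit 9018481726) (nat_lit 456) (nat_lit 15450264368) (nat_lit 76) (nat_lit 8021945689) (nat_lit 78) (nat_lit 5) (nat_lit 84) (nat_lit 5) (nat_lit 79) (nat_lit 5) (nat_lit 349) (nat_lit 303) (nat_lit 128)) (XT.nd (nat_lit 78) (nat_lit 304) (nat_lit 0) (XT.lf (nat_lit 0) (nat_lit 13484290596) (nat_lit 456) (nat_lit 1217127869) (nat_lit 76) (nat_lit 18437201242) (nat_lit 78) (nat_lit 5) (nat_lit 84) (nat_lit 5) (nat_lit 79) (nat_lit 5) (nat_lit 350) (nat_lit 303) (nat_lit 127)) (XT.lf (nat_lit 0) (nat_lit 13705875093) (nat_lit 304) (nat_lit 4506457183) (nat_lit 380) (nat_lit 15589810411) (nat_lit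 74) (nat_lit 5) (nat_lit 78) (nat_lit 5) (nat_lit 79) (nat_lit 5) (nat_lit 351) (nat_lit 303) (nat_lit 126)))) (XT.nd (nat_lit 78) (nat_lit 304) (nat_lit 0) (XT.lf (nat_lit 0) (nat_lit 23148805683) (nat_lit 380) (nat_lit 5446058595) (nat_lit 76) (nat_lit 5888714190) (nat_lit 74) (nat_lit 5) (nat_lit 79) (nat_lit 5) (nat_lit 75) (nat_lit 5) (nat_lit 352) (nat_lit 303) (nat_lit 125)) (XT.nd (nat_lit 78) (nat_lit 0) (nat_lit 0) (XT.lf (nat_lit 0) (nat_lit 9785492416) (nat_lit 304) (nat_lit 18583220486) (nat_lit 380) (nat_lit 6812688923) (nat_lit 70) (nat_lit 5) (nat_lit 74) (nat_lit 5) (nat_lit 75) (nat_lit 5) (nat_lit 353) (nat_lit 303) (nat_lit 124)) (XT.lf (nat_lit 0) (nat_lit 25581176828) (nat_lit 304) (nat_lit 8215746676) (nat_lit 380) (nat_lit 2101689743) (nat_lit 70) (nat_lit 5) (nat_lit 74) (nat_lit 5) (nat_lit 75) (nat_lit 5) (nat_lit 354) (nat_lit 303) (nat_lit 123)))))) (XT.nd (nat_lit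 468) (nat_lit 532) (nat_lit 0) (XT.nd (nat_lit 234) (nat_lit 532) (nat_lit 0) (XT.nd (nat_lit 78) (nat_lit 0) (nat_lit 0) (XT.lf (nat_lit 0) (nat_lit 2768972573) (nat_lit 380) (nat_lit 31373849653) (nat_lit 76) (nat_lit 2491569610) (nat_lit 65) (nat_lit 5) (nat_lit 70) (nat_lit 5) (nat_lit 66) (nat_lit 5) (nat_lit 355) (nat_lit 303) (nat_lit 122)) (XT.nd (nat_lit 78) (nat_lit 0) (nat_lit 0) (XT.lf (nat_lit 0) (nat_lit 7926886791) (nat_lit 380) (nat_lit 15979381120) (nat_lit 76) (nat_lit 13479854555) (nat_lit 65) (nat_lit 5) (nat_lit 70) (nat_lit 5) (nat_lit 66) (nat_lit 5) (nat_lit 356) (nat_lit 303) (nat_lit 121)) (XT.lf (nat_lit 0) (nat_lit 13236443743) (nat_lit 380) (nat_lit 127385337) (nat_lit 76) (nat_lit 24796672819) (nat_lit 65) (nat_lit 5) (nat_lit 70) (nat_lit 5) (nat_lit 66) (nat_lit 5) (nat_lit 357) (nat_lit 303) (nat_lit 120)))) (XT.nd (nat_lit 78) (nat_lit 228) (nat_lit 0) (XT.lf (nat_lit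 0) (nat_lit 16518320891) (nat_lit 304) (nat_lit 2342746163) (nat_lit 380) (nat_lit 20092376198) (nat_lit 61) (nat_lit 5) (nat_lit 65) (nat_lit 5) (nat_lit 66) (nat_lit 5) (nat_lit 358) (nat_lit 303) (nat_lit 119)) (XT.nd (nat_lit 78) (nat_lit 228) (nat_lit 0) (XT.lf (nat_lit 0) (nat_lit 24739359646) (nat_lit 380) (nat_lit 6194958646) (nat_lit 76) (nat_lit 8833310447) (nat_lit 61) (nat_lit 5) (nat_lit 66) (nat_lit 5) (nat_lit 62) (nat_lit 5) (nat_lit 359) (nat_lit 303) (nat_lit 118)) (XT.lf (nat_lit 0) (nat_lit 10714188323) (nat_lit 228) (nat_lit 20203117763) (nat_lit 304) (nat_lit 9685238253) (nat_lit 58) (nat_lit 5) (nat_lit 61) (nat_lit 5) (nat_lit 62) (nat_lit 5) (nat_lit 360) (nat_lit 303) (nat_lit 117))))) (XT.nd (nat_lit 234) (nat_lit 228) (nat_lit 0) (XT.nd (nat_lit 78) (nat_lit 304) (nat_lit 0) (XT.lf (nat_lit 0) (nat_lit 28253541909) (nat_lit 228) (nat_lit 9086769103) (nat_lit 304) (nat_lit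 4120408386) (nat_lit 58) (nat_lit 5) (nat_lit 61) (nat_lit 5) (nat_lit 62) (nat_lit 5) (nat_lit 361) (nat_lit 303) (nat_lit 116)) (XT.nd (nat_lit 78) (nat_lit 0) (nat_lit 0) (XT.lf (nat_lit 0) (nat_lit 1639152772) (nat_lit 304) (nat_lit 38332680413) (nat_lit 76) (nat_lit 2370568328) (nat_lit 54) (nat_lit 5) (nat_lit 58) (nat_lit 5) (nat_lit 55) (nat_lit 5) (nat_lit 362) (nat_lit 303) (nat_lit 115)) (XT.lf (nat_lit 0) (nat_lit 7710586141) (nat_lit 304) (nat_lit 21368790459) (nat_lit 76) (nat_lit 14163279850) (nat_lit 54) (nat_lit 5) (nat_lit 58) (nat_lit 5) (nat_lit 55) (nat_lit 5) (nat_lit 363) (nat_lit 303) (nat_lit 114)))) (XT.nd (nat_lit 78) (nat_lit 228) (nat_lit 0) (XT.lf (nat_lit 0) (nat_lit 13961489148) (nat_lit 304) (nat_lit 3899899933) (nat_lit 76) (nat_lit 26308613348) (nat_lit 54) (nat_lit 5) (nat_lit 58) (nat_lit 5) (nat_lit 55) (nat_lit 5) (nat_lit 364) (nat_lit 303) (nat_lit 113))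 (XT.nd (nat_lit 78) (nat_lit 0) (nat_lit 0) (XT.lf (nat_lit 0) (nat_lit 14369659048) (nat_lit 228) (nat_lit 6165794651) (nat_lit 304) (nat_lit 24585652153) (nat_lit 51) (nat_lit 5) (nat_lit 54) (nat_lit 5) (nat_lit 55) (nat_lit 5) (nat_lit 365) (nat_lit 303) (nat_lit 112)) (XT.lf (nat_lit 0) (nat_lit 27400369309) (nat_lit 304) (nat_lit 12893063364) (nat_lit 76) (nat_lit 5804500750) (nat_lit 51) (nat_lit 5) (nat_lit 55) (nat_lit 5) (nat_lit 52) (nat_lit 5) (nat_lit 366) (nat_lit 303) (nat_lit 111))))))))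
noncomputable def xc212 : XT := (XT.nd (nat_lit 36192) (nat_lit 0) (nat_lit 6916) (XT.nd (nat_lit 858) (nat_lit 532) (nat_lit 0) (XT.nd (nat_lit 390) (nat_lit 456) (nat_lit 0) (XT.nd (nat_lit 156) (nat_lit 304) (nat_lit 0) (XT.nd (nat_lit 78) (nat_lit 0) (nat_lit 0) (XT.lf (nat_lit 0) (nat_lit 5544495968) (nat_lit 228) (nat_lit 29038588055) (nat_lit 304) (nat_lit 12517629171) (nat_lit 48) (nat_lit 5) (nat_lit 51) (nat_lit 5) (nat_lit 52) (nat_lit 5) (nat_lit 367) (nat_lit 303) (nat_lit 110)) (XT.lf (nat_lit 0) (nat_lit 24795792497) (nat_lit 228) (nat_lit 17313226609) (nat_lit 304) (nat_lit 6020727920) (nat_lit 48) (nat_lit 5) (nat_lit 51) (nat_lit 5) (nat_lit 52) (nat_lit 5) (nat_lit 368) (nat_lit 303) (nat_lit 109))) (XT.nd (nat_lit 78) (nat_lit 228) (nat_lit 0) (XT.lf (nat_lit 0) (nat_lit 655574659) (nat_lit 304) (nat_lit 4575102855) (nat_lit 76) (nat_lit 43958855823) (nat_lit 47) (nat_lit 5)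 (nat_lit 51) (nat_lit 5) (nat_lit 48) (nat_lit 5) (nat_lit 369) (nat_lit 303) (nat_lit 108)) (XT.nd (nat_lit 78) (nat_lit 0) (nat_lit 0) (XT.lf (nat_lit 0) (nat_lit 7624122925) (nat_lit 304) (nat_lit 35370823059) (nat_lit 76) (nat_lit 7277992495) (nat_lit 44) (nat_lit 5) (nat_lit 48) (nat_lit 5) (nat_lit 45) (nat_lit 5) (nat_lit 370) (nat_lit 303) (nat_lit 107)) (XT.lf (nat_lit 0) (nat_lit 14897856484) (nat_lit 304) (nat_lit 16385818916) (nat_lit 76) (nat_lit 20102289030) (nat_lit 44) (nat_lit 5) (nat_lit 48) (nat_lit 5) (nat_lit 45) (nat_lit 5) (nat_lit 371) (nat_lit 303) (nat_lit 106))))) (XT.nd (nat_lit 234) (nat_lit 228) (nat_lit 0) (XT.nd (nat_lit 78) (nat_lit 0) (nat_lit 0) (XT.lf (nat_lit 0) (nat_lit 3228285995) (nat_lit 228) (nat_lit 19190298770) (nat_lit 304) (nat_lit 30112935360) (nat_lit 41) (nat_lit 5) (nat_lit 44) (nat_lit 5) (nat_lit 45) (nat_lit 5) (nat_lit 372) (nat_lit 303) (nat_lit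 105)) (XT.nd (nat_lit 78) (nat_lit 0) (nat_lit 0) (XT.lf (nat_lit 0) (nat_lit 23763296208) (nat_lit 228) (nat_lit 6564886517) (nat_lit 304) (nat_lit 23378364706) (nat_lit 41) (nat_lit 5) (nat_lit 44) (nat_lit 5) (nat_lit 45) (nat_lit 5) (nat_lit 373) (nat_lit 303) (nat_lit 104)) (XT.lf (nat_lit 0) (nat_lit 38534803609) (nat_lit 304) (nat_lit 10067734653) (nat_lit 76) (nat_lit 6312497551) (nat_lit 41) (nat_lit 5) (nat_lit 45) (nat_lit 5) (nat_lit 42) (nat_lit 5) (nat_lit 374) (nat_lit 303) (nat_lit 103)))) (XT.nd (nat_lit 78) (nat_lit 76) (nat_lit 0) (XT.lf (nat_lit 0) (nat_lit 10541481444) (nat_lit 152) (nat_lit 36610371339) (nat_lit 228) (nat_lit 9003001412) (nat_lit 39) (nat_lit 5) (nat_lit 41) (nat_lit 5) (nat_lit 42) (nat_lit 5) (nat_lit 375) (nat_lit 303) (nat_lit 102)) (XT.nd (nat_lit 78) (nat_lit 76) (nat_lit 0) (XT.lf (nat_lit 0) (nat_lit 31972115403) (nat_lit 152) (nat_lit 24154892087)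 (nat_lit 228) (nat_lit 1301873990) (nat_lit 39) (nat_lit 5) (nat_lit 41) (nat_lit 5) (nat_lit 42) (nat_lit 5) (nat_lit 376) (nat_lit 303) (nat_lit 101)) (XT.lf (nat_lit 0) (nat_lit 6498874475) (nat_lit 228) (nat_lit 4762381094) (nat_lit 76) (nat_lit 47478024993) (nat_lit 38) (nat_lit 5) (nat_lit 41) (nat_lit 5) (nat_lit 39) (nat_lit 5) (nat_lit 377) (nat_lit 303) (nat_lit 100)))))) (XT.nd (nat_lit 34866) (nat_lit 0) (nat_lit 10792) (XT.nd (nat_lit 234) (nat_lit 304) (nat_lit 0) (XT.nd (nat_lit 78) (nat_lit 0) (nat_lit 0) (XT.lf (nat_lit 0) (nat_lit 14688763972) (nat_lit 304) (nat_lit 43238965403) (nat_lit 76) (nat_lit 2155438985) (nat_lit 35) (nat_lit 5) (nat_lit 39) (nat_lit 5) (nat_lit 36) (nat_lit 5) (nat_lit 378) (nat_lit 303) (nat_lit 99)) (XT.nd (nat_lit 78) (nat_lit 0) (nat_lit 0) (XT.lf (nat_lit 0) (nat_lit 23282459063) (nat_lit 304) (nat_lit 22384407064) (nat_lit 76) (nat_lit 15795765332)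 (nat_lit 35) (nat_lit 5) (nat_lit 39) (nat_lit 5) (nat_lit 36) (nat_lit 5) (nat_lit 379) (nat_lit 303) (nat_lit 98)) (XT.lf (nat_lit 0) (nat_lit 32132066434) (nat_lit 304) (nat_lit 907233275) (nat_lit 76) (nat_lit 29844237571) (nat_lit 35) (nat_lit 5) (nat_lit 39) (nat_lit 5) (nat_lit 36) (nat_lit 5) (nat_lit 380) (nat_lit 303) (nat_lit 97)))) (XT.nd (nat_lit 78) (nat_lit 152) (nat_lit 0) (XT.lf (nat_lit 0) (nat_lit 21633469331) (nat_lit 152) (nat_lit 19819803563) (nat_lit 228) (nat_lit 22887615878) (nat_lit 33) (nat_lit 5) (nat_lit 35) (nat_lit 5) (nat_lit 36) (nat_lit 5) (nat_lit 381) (nat_lit 303) (nat_lit 96)) (XT.nd (nat_lit 78) (nat_lit 152) (nat_lit 0) (XT.lf (nat_lit 0) (nat_lit 44866085864) (nat_lit 152) (nat_lit 6195373455) (nat_lit 228) (nat_lit 14780282943) (nat_lit 33) (nat_lit 5) (nat_lit 35) (nat_lit 5) (nat_lit 36) (nat_lit 5) (nat_lit 382) (nat_lit 303) (nat_lit 95)) (XT.lf (nat_lit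 0) (nat_lit 1356320144) (nat_lit 152) (nat_lit 59688175887) (nat_lit 228) (nat_lit 6340528902) (nat_lit 31) (nat_lit 5) (nat_lit 33) (nat_lit 5) (nat_lit 34) (nat_lit 5) (nat_lit 383) (nat_lit 303) (nat_lit 94))))) (XT.nd (nat_lit 234) (nat_lit 0) (nat_lit 76) (XT.nd (nat_lit 78) (nat_lit 0) (nat_lit 0) (XT.lf (nat_lit 0) (nat_lit 4392447695) (nat_lit 1140) (nat_lit 1619889776) (nat_lit 1140) (nat_lit 1619889776) (nat_lit 173) (nat_lit 3) (nat_lit 188) (nat_lit 3) (nat_lit 188) (nat_lit 5) (nat_lit 304) (nat_lit 304) (nat_lit 172)) (XT.nd (nat_lit 78) (nat_lit 0) (nat_lit 76) (XT.lf (nat_lit 76) (nat_lit 3386081728) (nat_lit 0) (nat_lit 5826257964) (nat_lit 1140) (nat_lit 6271684923) (nat_lit 174) (nat_lit 5) (nat_lit 173) (nat_lit 3) (nat_lit 188) (nat_lit 5) (nat_lit 305) (nat_lit 304) (nat_lit 171)) (XT.lf (nat_lit 0) (nat_lit 9680737974) (nat_lit 1064) (nat_lit 5443539701) (nat_lit 1140) (nat_lit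 585080792) (nat_lit 174) (nat_lit 5) (nat_lit 188) (nat_lit 5) (nat_lit 189) (nat_lit 5) (nat_lit 306) (nat_lit 304) (nat_lit 170)))) (XT.nd (nat_lit 78) (nat_lit 0) (nat_lit 0) (XT.lf (nat_lit 76) (nat_lit 1374008452) (nat_lit 0) (nat_lit 8850098919) (nat_lit 1140) (nat_lit 5715537340) (nat_lit 175) (nat_lit 5) (nat_lit 174) (nat_lit 5) (nat_lit 189) (nat_lit 5) (nat_lit 307) (nat_lit 304) (nat_lit 169)) (XT.nd (nat_lit 78) (nat_lit 0) (nat_lit 76) (XT.lf (nat_lit 76) (nat_lit 8502112052) (nat_lit 0) (nat_lit 2326897601) (nat_lit 1140) (nat_lit 5346492308) (nat_lit 175) (nat_lit 5) (nat_lit 174) (nat_lit 5) (nat_lit 189) (nat_lit 5) (nat_lit 308) (nat_lit 304) (nat_lit 168)) (XT.lf (nat_lit 0) (nat_lit 11484862925) (nat_lit 1064) (nat_lit 622332512) (nat_lit 1140) (nat_lit 4310274179) (nat_lit 175) (nat_lit 5) (nat_lit 189) (nat_lit 5) (nat_lit 190) (nat_lit 5) (nat_lit 309) (nat_lit 304) (nat_lit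 167))))))) (XT.nd (nat_lit 936) (nat_lit 3116) (nat_lit 0) (XT.nd (nat_lit 468) (nat_lit 912) (nat_lit 0) (XT.nd (nat_lit 234) (nat_lit 0) (nat_lit 76) (XT.nd (nat_lit 78) (nat_lit 0) (nat_lit 76) (XT.lf (nat_lit 76) (nat_lit 6743232127) (nat_lit 0) (nat_lit 5495877878) (nat_lit 1140) (nat_lit 4425243008) (nat_lit 176) (nat_lit 5) (nat_lit 175) (nat_lit 5) (nat_lit 190) (nat_lit 5) (nat_lit 310) (nat_lit 304) (nat_lit 166)) (XT.nd (nat_lit 78) (nat_lit 0) (nat_lit 0) (XT.lf (nat_lit 0) (nat_lit 13026065451) (nat_lit 1064) (nat_lit 2594458899) (nat_lit 1140) (nat_lit 1297833863) (nat_lit 176) (nat_lit 5) (nat_lit 190) (nat_lit 5) (nat_lit 191) (nat_lit 5) (nat_lit 311) (nat_lit 304) (nat_lit 165)) (XT.lf (nat_lit 76) (nat_lit 4989282768) (nat_lit 0) (nat_lit 8941086065) (nat_lit 1140) (nat_lit 3246819767) (nat_lit 177) (nat_lit 5) (nat_lit 176) (nat_lit 5) (nat_lit 191) (nat_lit 5) (nat_lit 312)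 (nat_lit 304) (nat_lit 164)))) (XT.nd (nat_lit 78) (nat_lit 0) (nat_lit 76) (XT.lf (nat_lit 76) (nat_lit 12848111659) (nat_lit 0) (nat_lit 2031450810) (nat_lit 1140) (nat_lit 2563705305) (nat_lit 177) (nat_lit 5) (nat_lit 176) (nat_lit 5) (nat_lit 191) (nat_lit 5) (nat_lit 313) (nat_lit 304) (nat_lit 163)) (XT.nd (nat_lit 78) (nat_lit 0) (nat_lit 0) (XT.lf (nat_lit 76) (nat_lit 3233861791) (nat_lit 0) (nat_lit 12695175030) (nat_lit 1140) (nat_lit 1786154577) (nat_lit 178) (nat_lit 5) (nat_lit 177) (nat_lit 5) (nat_lit 192) (nat_lit 5) (nat_lit 314) (nat_lit 304) (nat_lit 162)) (XT.lf (nat_lit 76) (nat_lit 11365755065) (nat_lit 0) (nat_lit 5702576213) (nat_lit 1140) (nat_lit 925207128) (nat_lit 178) (nat_lit 5) (nat_lit 177) (nat_lit 5) (nat_lit 192) (nat_lit 5) (nat_lit 315) (nat_lit 304) (nat_lit 161))))) (XT.nd (nat_lit 234) (nat_lit 0) (nat_lit 76) (XT.nd (nat_lit 78) (nat_lit 1140) (nat_lit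 0) (XT.lf (nat_lit 76) (nat_lit 1469852811) (nat_lit 0) (nat_lit 16792769511) (nat_lit 1140) (nat_lit 17004262) (nat_lit 179) (nat_lit 5) (nat_lit 178) (nat_lit 5) (nat_lit 193) (nat_lit 5) (nat_lit 316) (nat_lit 304) (nat_lit 160)) (XT.nd (nat_lit 78) (nat_lit 0) (nat_lit 0) (XT.lf (nat_lit 0) (nat_lit 1016926246) (nat_lit 1140) (nat_lit 8697852479) (nat_lit 1216) (nat_lit 8855776124) (nat_lit 163) (nat_lit 5) (nat_lit 178) (nat_lit 5) (nat_lit 179) (nat_lit 5) (nat_lit 317) (nat_lit 304) (nat_lit 159)) (XT.lf (nat_lit 0) (nat_lit 2074107953) (nat_lit 1140) (nat_lit 348461864) (nat_lit 1216) (nat_lit 16447872837) (nat_lit 163) (nat_lit 5) (nat_lit 178) (nat_lit 5) (nat_lit 179) (nat_lit 5) (nat_lit 318) (nat_lit 304) (nat_lit 158)))) (XT.nd (nat_lit 78) (nat_lit 0) (nat_lit 0) (XT.lf (nat_lit 0) (nat_lit 3286367351) (nat_lit 1140) (nat_lit 10816895042) (nat_lit 1216) (nat_lit 5072377418) (nat_lit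 164) (nat_lit 5) (nat_lit 179) (nat_lit 5) (nat_lit 180) (nat_lit 5) (nat_lit 319) (nat_lit 304) (nat_lit 157)) (XT.nd (nat_lit 78) (nat_lit 0) (nat_lit 76) (XT.lf (nat_lit 0) (nat_lit 4555497332) (nat_lit 1140) (nat_lit 2185335849) (nat_lit 1216) (nat_lit 12748557810) (nat_lit 164) (nat_lit 5) (nat_lit 179) (nat_lit 5) (nat_lit 180) (nat_lit 5) (nat_lit 320) (nat_lit 304) (nat_lit 156)) (XT.lf (nat_lit 0) (nat_lit 5930312605) (nat_lit 1140) (nat_lit 12986628920) (nat_lit 76) (nat_lit 893597645) (nat_lit 165) (nat_lit 5) (nat_lit 180) (nat_lit 5) (nat_lit 166) (nat_lit 5) (nat_lit 321) (nat_lit 304) (nat_lit 155)))))) (XT.nd (nat_lit 468) (nat_lit 1140) (nat_lit 0) (XT.nd (nat_lit 234) (nat_lit 1064) (nat_lit 0) (XT.nd (nat_lit 78) (nat_lit 1064) (nat_lit 0) (XT.lf (nat_lit 0) (nat_lit 7428724837) (nat_lit 1140) (nat_lit 4065129259) (nat_lit 76) (nat_lit 8645009558) (nat_lit 165) (nat_lit 5) (nat_lit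 180) (nat_lit 5) (nat_lit 166) (nat_lit 5) (nat_lit 322) (nat_lit 304) (nat_lit 154)) (XT.nd (nat_lit 78) (nat_lit 0) (nat_lit 0) (XT.lf (nat_lit 0) (nat_lit 5220308574) (nat_lit 1064) (nat_lit 3795481545) (nat_lit 1140) (nat_lit 11459948804) (nat_lit 151) (nat_lit 5) (nat_lit 165) (nat_lit 5) (nat_lit 166) (nat_lit 5) (nat_lit 323) (nat_lit 304) (nat_lit 153)) (XT.lf (nat_lit 0) (nat_lit 10725324150) (nat_lit 1140) (nat_lit 5999720882) (nat_lit 76) (nat_lit 4095441433) (nat_lit 151) (nat_lit 5) (nat_lit 166) (nat_lit 5) (nat_lit 152) (nat_lit 5) (nat_lit 324) (nat_lit 304) (nat_lit 152)))) (XT.nd (nat_lit 78) (nat_lit 532) (nat_lit 0) (XT.lf (nat_lit 0) (nat_lit 3559986695) (nat_lit 532) (nat_lit 8991805363) (nat_lit 608) (nat_lit 8621826319) (nat_lit 144) (nat_lit 5) (nat_lit 151) (nat_lit 5) (nat_lit 152) (nat_lit 5) (nat_lit 325) (nat_lit 304) (nat_lit 151)) (XT.nd (nat_lit 78) (nat_lit 532)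 (nat_lit 0) (XT.lf (nat_lit 0) (nat_lit 13523966119) (nat_lit 532) (nat_lit 963647602) (nat_lit 608) (nat_lit 7048104782) (nat_lit 144) (nat_lit 5) (nat_lit 151) (nat_lit 5) (nat_lit 152) (nat_lit 5) (nat_lit 326) (nat_lit 304) (nat_lit 150)) (XT.lf (nat_lit 0) (nat_lit 1838293048) (nat_lit 532) (nat_lit 14725265961) (nat_lit 608) (nat_lit 5342671878) (nat_lit 137) (nat_lit 5) (nat_lit 144) (nat_lit 5) (nat_lit 145) (nat_lit 5) (nat_lit 327) (nat_lit 304) (nat_lit 149))))) (XT.nd (nat_lit 234) (nat_lit 532) (nat_lit 0) (XT.nd (nat_lit 78) (nat_lit 608) (nat_lit 0) (XT.lf (nat_lit 0) (nat_lit 12132857839) (nat_lit 532) (nat_lit 6653547509) (nat_lit 608) (nat_lit 3498925028) (nat_lit 137) (nat_lit 5) (nat_lit 144) (nat_lit 5) (nat_lit 145) (nat_lit 5) (nat_lit 328) (nat_lit 304) (nat_lit 148)) (XT.nd (nat_lit 78) (nat_lit 76) (nat_lit 0) (XT.lf (nat_lit 0) (nat_lit 39769121) (nat_lit 532) (nat_lit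 21046951556) (nat_lit 608) (nat_lit 1588768774) (nat_lit 130) (nat_lit 5) (nat_lit 137) (nat_lit 5) (nat_lit 138) (nat_lit 5) (nat_lit 329) (nat_lit 304) (nat_lit 147)) (XT.lf (nat_lit 0) (nat_lit 535201566) (nat_lit 608) (nat_lit 12404484805) (nat_lit 76) (nat_lit 10132650278) (nat_lit 129) (nat_lit 5) (nat_lit 137) (nat_lit 5) (nat_lit 130) (nat_lit 5) (nat_lit 330) (nat_lit 304) (nat_lit 146)))) (XT.nd (nat_lit 78) (nat_lit 532) (nat_lit 0) (XT.lf (nat_lit 0) (nat_lit 2685606126) (nat_lit 608) (nat_lit 1887449290) (nat_lit 76) (nat_lit 18907731753) (nat_lit 129) (nat_lit 5) (nat_lit 137) (nat_lit 5) (nat_lit 130) (nat_lit 5) (nat_lit 331) (nat_lit 304) (nat_lit 145)) (XT.nd (nat_lit 78) (nat_lit 0) (nat_lit 0) (XT.lf (nat_lit 0) (nat_lit 5022718265) (nat_lit 608) (nat_lit 14821004325) (nat_lit 76) (nat_lit 4054111734) (nat_lit 122) (nat_lit 5) (nat_lit 130) (nat_lit 5) (nat_lit 123) (nat_lit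 5) (nat_lit 332) (nat_lit 304) (nat_lit 144)) (XT.lf (nat_lit 0) (nat_lit 7489373865) (nat_lit 608) (nat_lit 3968917398) (nat_lit 76) (nat_lit 12867327448) (nat_lit 122) (nat_lit 5) (nat_lit 130) (nat_lit 5) (nat_lit 123) (nat_lit 5) (nat_lit 333) (nat_lit 304) (nat_lit 143))))))))
noncomputable def xc213 : XT := (XT.nd (nat_lit 1794) (nat_lit 2280) (nat_lit 0) (XT.nd (nat_lit 858) (nat_lit 2128) (nat_lit 0) (XT.nd (nat_lit 390) (nat_lit 912) (nat_lit 0) (XT.nd (nat_lit 156) (nat_lit 836) (nat_lit 0) (XT.nd (nat_lit 78) (nat_lit 0) (nat_lit 0) (XT.lf (nat_lit 0) (nat_lit 7346894240) (nat_lit 456) (nat_lit 2748810236) (nat_lit 532) (nat_lit 14668570362) (nat_lit 116) (nat_lit 5) (nat_lit 122) (nat_lit 5) (nat_lit 123) (nat_lit 5) (nat_lit 334) (nat_lit 304) (nat_lit 142)) (XT.lf (nat_lit 0) (nat_lit 12875653561) (nat_lit 532) (nat_lit 6196857412) (nat_lit 76) (nat_lit 6140725037) (nat_lit 116) (nat_lit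 5) (nat_lit 123) (nat_lit 5) (nat_lit 117) (nat_lit 5) (nat_lit 335) (nat_lit 304) (nat_lit 141))) (XT.nd (nat_lit 78) (nat_lit 380) (nat_lit 0) (XT.lf (nat_lit 0) (nat_lit 5433953766) (nat_lit 456) (nat_lit 10379783430) (nat_lit 532) (nat_lit 9859694720) (nat_lit 110) (nat_lit 5) (nat_lit 116) (nat_lit 5) (nat_lit 117) (nat_lit 5) (nat_lit 336) (nat_lit 304) (nat_lit 140)) (XT.nd (nat_lit 78) (nat_lit 380) (nat_lit 0) (XT.lf (nat_lit 0) (nat_lit 17535621481) (nat_lit 456) (nat_lit 1362291930) (nat_lit 532) (nat_lit 7247789534) (nat_lit 110) (nat_lit 5) (nat_lit 116) (nat_lit 5) (nat_lit 117) (nat_lit 5) (nat_lit 337) (nat_lit 304) (nat_lit 139)) (XT.lf (nat_lit 0) (nat_lit 3352339734) (nat_lit 380) (nat_lit 18826191132) (nat_lit 456) (nat_lit 4450501284) (nat_lit 105) (nat_lit 5) (nat_lit 110) (nat_lit 5) (nat_lit 111) (nat_lit 5) (nat_lit 338) (nat_lit 304) (nat_lit 138))))) (XT.nd (nat_lit 234)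 (nat_lit 380) (nat_lit 0) (XT.nd (nat_lit 78) (nat_lit 532) (nat_lit 0) (XT.lf (nat_lit 0) (nat_lit 15831338491) (nat_lit 380) (nat_lit 9822115924) (nat_lit 456) (nat_lit 1470537491) (nat_lit 105) (nat_lit 5) (nat_lit 110) (nat_lit 5) (nat_lit 111) (nat_lit 5) (nat_lit 339) (nat_lit 304) (nat_lit 137)) (XT.nd (nat_lit 78) (nat_lit 0) (nat_lit 0) (XT.lf (nat_lit 0) (nat_lit 1051064660) (nat_lit 456) (nat_lit 522331183) (nat_lit 532) (nat_lit 26059777345) (nat_lit 98) (nat_lit 5) (nat_lit 104) (nat_lit 5) (nat_lit 105) (nat_lit 5) (nat_lit 340) (nat_lit 304) (nat_lit 136)) (XT.lf (nat_lit 0) (nat_lit 4877047909) (nat_lit 532) (nat_lit 14265433451) (nat_lit 76) (nat_lit 9008779727) (nat_lit 98) (nat_lit 5) (nat_lit 105) (nat_lit 5) (nat_lit 99) (nat_lit 5) (nat_lit 341) (nat_lit 304) (nat_lit 135)))) (XT.nd (nat_lit 78) (nat_lit 380) (nat_lit 0) (XT.lf (nat_lit 0) (nat_lit 8280843523) (nat_lit 532)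 (nat_lit 1589344495) (nat_lit 76) (nat_lit 18814679074) (nat_lit 98) (nat_lit 5) (nat_lit 105) (nat_lit 5) (nat_lit 99) (nat_lit 5) (nat_lit 342) (nat_lit 304) (nat_lit 134)) (XT.nd (nat_lit 78) (nat_lit 0) (nat_lit 0) (XT.lf (nat_lit 0) (nat_lit 11690376860) (nat_lit 380) (nat_lit 204734105) (nat_lit 456) (nat_lit 17336125874) (nat_lit 93) (nat_lit 5) (nat_lit 98) (nat_lit 5) (nat_lit 99) (nat_lit 5) (nat_lit 343) (nat_lit 304) (nat_lit 133)) (XT.lf (nat_lit 0) (nat_lit 15723791129) (nat_lit 456) (nat_lit 4491176617) (nat_lit 76) (nat_lit 9575856508) (nat_lit 93) (nat_lit 5) (nat_lit 99) (nat_lit 5) (nat_lit 94) (nat_lit 5) (nat_lit 344) (nat_lit 304) (nat_lit 132)))))) (XT.nd (nat_lit 468) (nat_lit 988) (nat_lit 0) (XT.nd (nat_lit 234) (nat_lit 456) (nat_lit 0) (XT.nd (nat_lit 78) (nat_lit 304) (nat_lit 0) (XT.lf (nat_lit 0) (nat_lit 9121257958) (nat_lit 380) (nat_lit 10631942055) (nat_lit 456)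 (nat_lit 10611429167) (nat_lit 88) (nat_lit 5) (nat_lit 93) (nat_lit 5) (nat_lit 94) (nat_lit 5) (nat_lit 345) (nat_lit 304) (nat_lit 131)) (XT.nd (nat_lit 78) (nat_lit 304) (nat_lit 0) (XT.lf (nat_lit 0) (nat_lit 23229475562) (nat_lit 380) (nat_lit 715596853) (nat_lit 456) (nat_lit 7009334167) (nat_lit 88) (nat_lit 5) (nat_lit 93) (nat_lit 5) (nat_lit 94) (nat_lit 5) (nat_lit 346) (nat_lit 304) (nat_lit 130)) (XT.lf (nat_lit 0) (nat_lit 6224597492) (nat_lit 304) (nat_lit 22185571769) (nat_lit 380) (nat_lit 3147289594) (nat_lit 84) (nat_lit 5) (nat_lit 88) (nat_lit 5) (nat_lit 89) (nat_lit 5) (nat_lit 347) (nat_lit 304) (nat_lit 129)))) (XT.nd (nat_lit 78) (nat_lit 380) (nat_lit 0) (XT.lf (nat_lit 0) (nat_lit 896624671) (nat_lit 380) (nat_lit 11445797819) (nat_lit 76) (nat_lit 19833479451) (nat_lit 83) (nat_lit 5) (nat_lit 88) (nat_lit 5) (nat_lit 84) (nat_lit 5) (nat_lit 348) (nat_lit 304) (nat_lit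 128)) (XT.nd (nat_lit 78) (nat_lit 0) (nat_lit 0) (XT.lf (nat_lit 0) (nat_lit 2878360379) (nat_lit 380) (nat_lit 2144365931) (nat_lit 456) (nat_lit 27788518471) (nat_lit 78) (nat_lit 5) (nat_lit 83) (nat_lit 5) (nat_lit 84) (nat_lit 5) (nat_lit 349) (nat_lit 304) (nat_lit 127)) (XT.lf (nat_lit 0) (nat_lit 9466202661) (nat_lit 456) (nat_lit 15681390425) (nat_lit 76) (nat_lit 8312252045) (nat_lit 78) (nat_lit 5) (nat_lit 84) (nat_lit 5) (nat_lit 79) (nat_lit 5) (nat_lit 350) (nat_lit 304) (nat_lit 126))))) (XT.nd (nat_lit 234) (nat_lit 684) (nat_lit 0) (XT.nd (nat_lit 78) (nat_lit 304) (nat_lit 0) (XT.lf (nat_lit 0) (nat_lit 14060825608) (nat_lit 456) (nat_lit 1028028236) (nat_lit 76) (nat_lit 19038519207) (nat_lit 78) (nat_lit 5) (nat_lit 84) (nat_lit 5) (nat_lit 79) (nat_lit 5) (nat_lit 351) (nat_lit 304) (nat_lit 125)) (XT.nd (nat_lit 78) (nat_lit 0) (nat_lit 0) (XT.lf (nat_lit 0) (nat_lit 14340452918)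 (nat_lit 304) (nat_lit 4587393200) (nat_lit 380) (nat_lit 15883048611) (nat_lit 74) (nat_lit 5) (nat_lit 78) (nat_lit 5) (nat_lit 79) (nat_lit 5) (nat_lit 352) (nat_lit 304) (nat_lit 124)) (XT.lf (nat_lit 0) (nat_lit 24007993575) (nat_lit 380) (nat_lit 5387894477) (nat_lit 76) (nat_lit 6117025068) (nat_lit 74) (nat_lit 5) (nat_lit 79) (nat_lit 5) (nat_lit 75) (nat_lit 5) (nat_lit 353) (nat_lit 304) (nat_lit 123)))) (XT.nd (nat_lit 78) (nat_lit 380) (nat_lit 0) (XT.lf (nat_lit 0) (nat_lit 10298431046) (nat_lit 304) (nat_lit 19083377941) (nat_lit 380) (nat_lit 6849949587) (nat_lit 70) (nat_lit 5) (nat_lit 74) (nat_lit 5) (nat_lit 75) (nat_lit 5) (nat_lit 354) (nat_lit 304) (nat_lit 122)) (XT.nd (nat_lit 78) (nat_lit 380) (nat_lit 0) (XT.lf (nat_lit 0) (nat_lit 26561596461) (nat_lit 304) (nat_lit 8406549990) (nat_lit 380) (nat_lit 2002488005) (nat_lit 70) (nat_lit 5) (nat_lit 74) (nat_lit 5) (nat_lit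 75) (nat_lit 5) (nat_lit 355) (nat_lit 304) (nat_lit 121)) (XT.lf (nat_lit 0) (nat_lit 3009108803) (nat_lit 380) (nat_lit 32096478815) (nat_lit 76) (nat_lit 2622918728) (nat_lit 65) (nat_lit 5) (nat_lit 70) (nat_lit 5) (nat_lit 66) (nat_lit 5) (nat_lit 356) (nat_lit 304) (nat_lit 120))))))) (XT.nd (nat_lit 936) (nat_lit 988) (nat_lit 0) (XT.nd (nat_lit 468) (nat_lit 760) (nat_lit 0) (XT.nd (nat_lit 234) (nat_lit 228) (nat_lit 0) (XT.nd (nat_lit 78) (nat_lit 304) (nat_lit 0) (XT.lf (nat_lit 0) (nat_lit 8317185679) (nat_lit 380) (nat_lit 16246542818) (nat_lit 76) (nat_lit 13939203619) (nat_lit 65) (nat_lit 5) (nat_lit 70) (nat_lit 5) (nat_lit 66) (nat_lit 5) (nat_lit 357) (nat_lit 304) (nat_lit 119)) (XT.nd (nat_lit 78) (nat_lit 0) (nat_lit 0) (XT.lf (nat_lit 0) (nat_lit 76320978) (nat_lit 304) (nat_lit 13706000483) (nat_lit 380) (nat_lit 25518338511) (nat_lit 61) (nat_lit 5) (nat_lit 65) (nat_lit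 5) (nat_lit 66) (nat_lit 5) (nat_lit 358) (nat_lit 304) (nat_lit 118)) (XT.lf (nat_lit 0) (nat_lit 17217889109) (nat_lit 304) (nat_lit 2354709711) (nat_lit 380) (nat_lit 20544888918) (nat_lit 61) (nat_lit 5) (nat_lit 65) (nat_lit 5) (nat_lit 66) (nat_lit 5) (nat_lit 359) (nat_lit 304) (nat_lit 117)))) (XT.nd (nat_lit 78) (nat_lit 228) (nat_lit 0) (XT.lf (nat_lit 0) (nat_lit 25623540777) (nat_lit 380) (nat_lit 6178849342) (nat_lit 76) (nat_lit 9153825126) (nat_lit 61) (nat_lit 5) (nat_lit 66) (nat_lit 5) (nat_lit 62) (nat_lit 5) (nat_lit 360) (nat_lit 304) (nat_lit 116)) (XT.nd (nat_lit 78) (nat_lit 0) (nat_lit 0) (XT.lf (nat_lit 0) (nat_lit 11235592056) (nat_lit 228) (nat_lit 20749019934) (nat_lit 304) (nat_lit 9831638042) (nat_lit 58) (nat_lit 5) (nat_lit 61) (nat_lit 5) (nat_lit 62) (nat_lit 5) (nat_lit 361) (nat_lit 304) (nat_lit 115)) (XT.lf (nat_lit 0) (nat_lit 29295301644) (nat_lit 228) (nat_lit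 9300933960) (nat_lit 304) (nat_lit 4104062038) (nat_lit 58) (nat_lit 5) (nat_lit 61) (nat_lit 5) (nat_lit 62) (nat_lit 5) (nat_lit 362) (nat_lit 304) (nat_lit 114))))) (XT.nd (nat_lit 234) (nat_lit 456) (nat_lit 0) (XT.nd (nat_lit 78) (nat_lit 0) (nat_lit 0) (XT.lf (nat_lit 0) (nat_lit 1824010436) (nat_lit 304) (nat_lit 39283902940) (nat_lit 76) (nat_lit 2500527677) (nat_lit 54) (nat_lit 5) (nat_lit 58) (nat_lit 5) (nat_lit 55) (nat_lit 5) (nat_lit 363) (nat_lit 304) (nat_lit 113)) (XT.nd (nat_lit 78) (nat_lit 0) (nat_lit 0) (XT.lf (nat_lit 0) (nat_lit 8073634871) (nat_lit 304) (nat_lit 21816885353) (nat_lit 76) (nat_lit 14645306691) (nat_lit 54) (nat_lit 5) (nat_lit 58) (nat_lit 5) (nat_lit 55) (nat_lit 5) (nat_lit 364) (nat_lit 304) (nat_lit 112)) (XT.lf (nat_lit 0) (nat_lit 14508228139) (nat_lit 304) (nat_lit 3829548562) (nat_lit 76) (nat_lit 27153336258) (nat_lit 54) (nat_lit 5) (nat_lit 58)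 (nat_lit 5) (nat_lit 55) (nat_lit 5) (nat_lit 365) (nat_lit 304) (nat_lit 111)))) (XT.nd (nat_lit 78) (nat_lit 228) (nat_lit 0) (XT.lf (nat_lit 0) (nat_lit 14986260440) (nat_lit 228) (nat_lit 6291209360) (nat_lit 304) (nat_lit 25193342388) (nat_lit 51) (nat_lit 5) (nat_lit 54) (nat_lit 5) (nat_lit 55) (nat_lit 5) (nat_lit 366) (nat_lit 304) (nat_lit 110)) (XT.nd (nat_lit 78) (nat_lit 228) (nat_lit 0) (XT.lf (nat_lit 0) (nat_lit 28345220203) (nat_lit 304) (nat_lit 13096490274) (nat_lit 76) (nat_lit 6035331808) (nat_lit 51) (nat_lit 5) (nat_lit 55) (nat_lit 5) (nat_lit 52) (nat_lit 5) (nat_lit 367) (nat_lit 304) (nat_lit 109)) (XT.lf (nat_lit 0) (nat_lit 5892398142) (nat_lit 228) (nat_lit 29849185694) (nat_lit 304) (nat_lit 12768380782) (nat_lit 48) (nat_lit 5) (nat_lit 51) (nat_lit 5) (nat_lit 52) (nat_lit 5) (nat_lit 368) (nat_lit 304) (nat_lit 108)))))) (XT.nd (nat_lit 468) (nat_lit 456) (nat_lit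 0) (XT.nd (nat_lit 234) (nat_lit 228) (nat_lit 0) (XT.nd (nat_lit 78) (nat_lit 304) (nat_lit 0) (XT.lf (nat_lit 0) (nat_lit 25715945199) (nat_lit 228) (nat_lit 17773827288) (nat_lit 304) (nat_lit 6080206783) (nat_lit 48) (nat_lit 5) (nat_lit 51) (nat_lit 5) (nat_lit 52) (nat_lit 5) (nat_lit 369) (nat_lit 304) (nat_lit 107)) (XT.nd (nat_lit 78) (nat_lit 228) (nat_lit 0) (XT.lf (nat_lit 0) (nat_lit 790561355) (nat_lit 304) (nat_lit 4538788374) (nat_lit 76) (nat_lit 45332282131) (nat_lit 47) (nat_lit 5) (nat_lit 51) (nat_lit 5) (nat_lit 48) (nat_lit 5) (nat_lit 370) (nat_lit 304) (nat_lit 106)) (XT.lf (nat_lit 0) (nat_lit 7967019296) (nat_lit 304) (nat_lit 36257109241) (nat_lit 76) (nat_lit 7553448748) (nat_lit 44) (nat_lit 5) (nat_lit 48) (nat_lit 5) (nat_lit 45) (nat_lit 5) (nat_lit 371) (nat_lit 304) (nat_lit 105)))) (XT.nd (nat_lit 78) (nat_lit 228) (nat_lit 0) (XT.lf (nat_lit 0) (nat_lit 15455639444)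 (nat_lit 304) (nat_lit 16707647357) (nat_lit 76) (nat_lit 20760810592) (nat_lit 44) (nat_lit 5) (nat_lit 48) (nat_lit 5) (nat_lit 45) (nat_lit 5) (nat_lit 372) (nat_lit 304) (nat_lit 104)) (XT.nd (nat_lit 78) (nat_lit 0) (nat_lit 0) (XT.lf (nat_lit 0) (nat_lit 3493216524) (nat_lit 228) (nat_lit 19707160195) (nat_lit 304) (nat_lit 30903694937) (nat_lit 41) (nat_lit 5) (nat_lit 44) (nat_lit 5) (nat_lit 45) (nat_lit 5) (nat_lit 373) (nat_lit 304) (nat_lit 103)) (XT.lf (nat_lit 0) (nat_lit 24639381452) (nat_lit 228) (nat_lit 6704699580) (nat_lit 304) (nat_lit 23970367605) (nat_lit 41) (nat_lit 5) (nat_lit 44) (nat_lit 5) (nat_lit 45) (nat_lit 5) (nat_lit 374) (nat_lit 304) (nat_lit 102))))) (XT.nd (nat_lit 234) (nat_lit 304) (nat_lit 0) (XT.nd (nat_lit 78) (nat_lit 152) (nat_lit 0) (XT.lf (nat_lit 0) (nat_lit 39794344831) (nat_lit 304) (nat_lit 10208667302) (nat_lit 76) (nat_lit 6556259518) (nat_lit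 41) (nat_lit 5) (nat_lit 45) (nat_lit 5) (nat_lit 42) (nat_lit 5) (nat_lit 375) (nat_lit 304) (nat_lit 101)) (XT.nd (nat_lit 78) (nat_lit 0) (nat_lit 0) (XT.lf (nat_lit 0) (nat_lit 11017245873) (nat_lit 152) (nat_lit 37651178533) (nat_lit 228) (nat_lit 9167907824) (nat_lit 39) (nat_lit 5) (nat_lit 41) (nat_lit 5) (nat_lit 42) (nat_lit 5) (nat_lit 376) (nat_lit 304) (nat_lit 100)) (XT.lf (nat_lit 0) (nat_lit 33086152637) (nat_lit 152) (nat_lit 24823709776) (nat_lit 228) (nat_lit 1238810181) (nat_lit 39) (nat_lit 5) (nat_lit 41) (nat_lit 5) (nat_lit 42) (nat_lit 5) (nat_lit 377) (nat_lit 304) (nat_lit 99)))) (XT.nd (nat_lit 78) (nat_lit 228) (nat_lit 0) (XT.lf (nat_lit 0) (nat_lit 6791051680) (nat_lit 228) (nat_lit 4752856932) (nat_lit 76) (nat_lit 48954536018) (nat_lit 38) (nat_lit 5) (nat_lit 41) (nat_lit 5) (nat_lit 39) (nat_lit 5) (nat_lit 378) (nat_lit 304) (nat_lit 98)) (XT.nd (nat_lit 78)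 (nat_lit 0) (nat_lit 0) (XT.lf (nat_lit 0) (nat_lit 15225786412) (nat_lit 304) (nat_lit 44382792155) (nat_lit 76) (nat_lit 2274098893) (nat_lit 35) (nat_lit 5) (nat_lit 39) (nat_lit 5) (nat_lit 36) (nat_lit 5) (nat_lit 379) (nat_lit 304) (nat_lit 97)) (XT.lf (nat_lit 0) (nat_lit 24074485767) (nat_lit 304) (nat_lit 22907063343) (nat_lit 76) (nat_lit 16322062310) (nat_lit 35) (nat_lit 5) (nat_lit 39) (nat_lit 5) (nat_lit 36) (nat_lit 5) (nat_lit 380) (nat_lit 304) (nat_lit 96))))))))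
noncomputable def xc214 : XT := (XT.nd (nat_lit 36348) (nat_lit 0) (nat_lit 3800) (XT.nd (nat_lit 35412) (nat_lit 0) (nat_lit 8968) (XT.nd (nat_lit 34944) (nat_lit 0) (nat_lit 10716) (XT.nd (nat_lit 34710) (nat_lit 0) (nat_lit 10640) (XT.nd (nat_lit 78) (nat_lit 152) (nat_lit 0) (XT.lf (nat_lit 0) (nat_lit 33186856516) (nat_lit 304) (nat_lit 789910533) (nat_lit 76) (nat_lit 30790461804) (nat_lit 35) (nat_lit 5) (nat_lit 39) (nat_lit 5) (nat_lit 36) (nat_lit 5) (nat_lit 381) (nat_lit 304) (nat_lit 95)) (XT.lf (nat_lit 0) (nat_lit 22425596094) (nat_lit 152) (nat_lit 20360833380) (nat_lit 228) (nat_lit 23481912118) (nat_lit 33) (nat_lit 5) (nat_lit 35) (nat_lit 5) (nat_lit 36) (nat_lit 5) (nat_lit 382) (nat_lit 304) (nat_lit 94))) (XT.nd (nat_lit 78) (nat_lit 0) (nat_lit 0) (XT.lf (nat_lit 0) (nat_lit 4784813620) (nat_lit 1140) (nat_lit 1534020579) (nat_lit 1140) (nat_lit 1534020579) (nat_lit 173)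 (nat_lit 3) (nat_lit 188) (nat_lit 3) (nat_lit 188) (nat_lit 5) (nat_lit 305) (nat_lit 305) (nat_lit 170)) (XT.nd (nat_lit 78) (nat_lit 0) (nat_lit 76) (XT.lf (nat_lit 76) (nat_lit 3753959375) (nat_lit 0) (nat_lit 6243315142) (nat_lit 1140) (nat_lit 5935001252) (nat_lit 174) (nat_lit 5) (nat_lit 173) (nat_lit 3) (nat_lit 188) (nat_lit 5) (nat_lit 306) (nat_lit 305) (nat_lit 169)) (XT.lf (nat_lit 0) (nat_lit 10462651173) (nat_lit 1064) (nat_lit 5330250144) (nat_lit 1140) (nat_lit 372010022) (nat_lit 174) (nat_lit 5) (nat_lit 188) (nat_lit 5) (nat_lit 189) (nat_lit 5) (nat_lit 307) (nat_lit 305) (nat_lit 168))))) (XT.nd (nat_lit 234) (nat_lit 0) (nat_lit 76) (XT.nd (nat_lit 78) (nat_lit 0) (nat_lit 0) (XT.lf (nat_lit 76) (nat_lit 1689112732) (nat_lit 0) (nat_lit 9321526389) (nat_lit 1140) (nat_lit 5391846161) (nat_lit 175) (nat_lit 5) (nat_lit 174) (nat_lit 5) (nat_lit 189) (nat_lit 5) (nat_lit 308)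 (nat_lit 305) (nat_lit 167)) (XT.nd (nat_lit 78) (nat_lit 0) (nat_lit 76) (XT.lf (nat_lit 76) (nat_lit 9023082235) (nat_lit 0) (nat_lit 2596631230) (nat_lit 1140) (nat_lit 5026151836) (nat_lit 175) (nat_lit 5) (nat_lit 174) (nat_lit 5) (nat_lit 189) (nat_lit 5) (nat_lit 309) (nat_lit 305) (nat_lit 166)) (XT.lf (nat_lit 0) (nat_lit 12279808526) (nat_lit 1064) (nat_lit 366506993) (nat_lit 1140) (nat_lit 4249266472) (nat_lit 175) (nat_lit 5) (nat_lit 189) (nat_lit 5) (nat_lit 190) (nat_lit 5) (nat_lit 310) (nat_lit 305) (nat_lit 165)))) (XT.nd (nat_lit 78) (nat_lit 0) (nat_lit 76) (XT.lf (nat_lit 76) (nat_lit 7217333453) (nat_lit 0) (nat_lit 5828843878) (nat_lit 1140) (nat_lit 4104035937) (nat_lit 176) (nat_lit 5) (nat_lit 175) (nat_lit 5) (nat_lit 190) (nat_lit 5) (nat_lit 311) (nat_lit 305) (nat_lit 164)) (XT.nd (nat_lit 78) (nat_lit 0) (nat_lit 0) (XT.lf (nat_lit 0) (nat_lit 13842360272) (nat_lit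 1064) (nat_lit 2393175696) (nat_lit 1140) (nat_lit 1176759531) (nat_lit 176) (nat_lit 5) (nat_lit 190) (nat_lit 5) (nat_lit 191) (nat_lit 5) (nat_lit 312) (nat_lit 305) (nat_lit 163)) (XT.lf (nat_lit 76) (nat_lit 5415341781) (nat_lit 0) (nat_lit 9348714136) (nat_lit 1140) (nat_lit 2915151688) (nat_lit 177) (nat_lit 5) (nat_lit 176) (nat_lit 5) (nat_lit 191) (nat_lit 5) (nat_lit 313) (nat_lit 305) (nat_lit 162)))))) (XT.nd (nat_lit 468) (nat_lit 912) (nat_lit 0) (XT.nd (nat_lit 234) (nat_lit 988) (nat_lit 0) (XT.nd (nat_lit 78) (nat_lit 0) (nat_lit 76) (XT.lf (nat_lit 76) (nat_lit 13501885620) (nat_lit 0) (nat_lit 2227729761) (nat_lit 1140) (nat_lit 2224041054) (nat_lit 177) (nat_lit 5) (nat_lit 176) (nat_lit 5) (nat_lit 191) (nat_lit 5) (nat_lit 314) (nat_lit 305) (nat_lit 161)) (XT.nd (nat_lit 78) (nat_lit 0) (nat_lit 0) (XT.lf (nat_lit 76) (nat_lit 3610648546) (nat_lit 0) (nat_lit 13189594447)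 (nat_lit 1140) (nat_lit 1433827987) (nat_lit 178) (nat_lit 5) (nat_lit 177) (nat_lit 5) (nat_lit 192) (nat_lit 5) (nat_lit 315) (nat_lit 305) (nat_lit 160)) (XT.lf (nat_lit 76) (nat_lit 11978349952) (nat_lit 0) (nat_lit 5983909971) (nat_lit 1140) (nat_lit 558874772) (nat_lit 178) (nat_lit 5) (nat_lit 177) (nat_lit 5) (nat_lit 192) (nat_lit 5) (nat_lit 316) (nat_lit 305) (nat_lit 159)))) (XT.nd (nat_lit 78) (nat_lit 0) (nat_lit 0) (XT.lf (nat_lit 0) (nat_lit 359670921) (nat_lit 1140) (nat_lit 17023589559) (nat_lit 1216) (nat_lit 1432744396) (nat_lit 163) (nat_lit 5) (nat_lit 178) (nat_lit 5) (nat_lit 179) (nat_lit 5) (nat_lit 317) (nat_lit 305) (nat_lit 158)) (XT.nd (nat_lit 78) (nat_lit 0) (nat_lit 0) (XT.lf (nat_lit 0) (nat_lit 1413301551) (nat_lit 1140) (nat_lit 8676934589) (nat_lit 1216) (nat_lit 9025769767) (nat_lit 163) (nat_lit 5) (nat_lit 178) (nat_lit 5) (nat_lit 179) (nat_lit 5) (nat_lit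 318) (nat_lit 305) (nat_lit 157)) (XT.lf (nat_lit 0) (nat_lit 2491542373) (nat_lit 1140) (nat_lit 85271579) (nat_lit 1216) (nat_lit 16848416166) (nat_lit 163) (nat_lit 5) (nat_lit 178) (nat_lit 5) (nat_lit 179) (nat_lit 5) (nat_lit 319) (nat_lit 305) (nat_lit 156))))) (XT.nd (nat_lit 234) (nat_lit 988) (nat_lit 0) (XT.nd (nat_lit 78) (nat_lit 0) (nat_lit 0) (XT.lf (nat_lit 0) (nat_lit 3731692796) (nat_lit 1140) (nat_lit 10858631018) (nat_lit 1216) (nat_lit 5149533180) (nat_lit 164) (nat_lit 5) (nat_lit 179) (nat_lit 5) (nat_lit 180) (nat_lit 5) (nat_lit 320) (nat_lit 305) (nat_lit 155)) (XT.nd (nat_lit 78) (nat_lit 0) (nat_lit 76) (XT.lf (nat_lit 0) (nat_lit 5028797615) (nat_lit 1140) (nat_lit 1976361094) (nat_lit 1216) (nat_lit 13058183903) (nat_lit 164) (nat_lit 5) (nat_lit 179) (nat_lit 5) (nat_lit 180) (nat_lit 5) (nat_lit 321) (nat_lit 305) (nat_lit 154)) (XT.lf (nat_lit 0) (nat_lit 6437111869)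 (nat_lit 1140) (nat_lit 13093334811) (nat_lit 76) (nat_lit 863929302) (nat_lit 165) (nat_lit 5) (nat_lit 180) (nat_lit 5) (nat_lit 166) (nat_lit 5) (nat_lit 322) (nat_lit 305) (nat_lit 153)))) (XT.nd (nat_lit 78) (nat_lit 1064) (nat_lit 0) (XT.lf (nat_lit 0) (nat_lit 7970897151) (nat_lit 1140) (nat_lit 3912429762) (nat_lit 76) (nat_lit 8849528511) (nat_lit 165) (nat_lit 5) (nat_lit 180) (nat_lit 5) (nat_lit 166) (nat_lit 5) (nat_lit 323) (nat_lit 305) (nat_lit 152)) (XT.nd (nat_lit 78) (nat_lit 0) (nat_lit 0) (XT.lf (nat_lit 0) (nat_lit 5648878526) (nat_lit 1064) (nat_lit 3950009809) (nat_lit 1140) (nat_lit 11481166522) (nat_lit 151) (nat_lit 5) (nat_lit 165) (nat_lit 5) (nat_lit 166) (nat_lit 5) (nat_lit 324) (nat_lit 305) (nat_lit 151)) (XT.lf (nat_lit 0) (nat_lit 11350223319) (nat_lit 1140) (nat_lit 5905627253) (nat_lit 76) (nat_lit 4179595627) (nat_lit 151) (nat_lit 5) (nat_lit 166) (nat_lit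 5) (nat_lit 152) (nat_lit 5) (nat_lit 325) (nat_lit 305) (nat_lit 150))))))) (XT.nd (nat_lit 936) (nat_lit 2052) (nat_lit 0) (XT.nd (nat_lit 468) (nat_lit 1444) (nat_lit 0) (XT.nd (nat_lit 234) (nat_lit 608) (nat_lit 0) (XT.nd (nat_lit 78) (nat_lit 532) (nat_lit 0) (XT.lf (nat_lit 0) (nat_lit 3938184441) (nat_lit 532) (nat_lit 9287080364) (nat_lit 608) (nat_lit 8574110207) (nat_lit 144) (nat_lit 5) (nat_lit 151) (nat_lit 5) (nat_lit 152) (nat_lit 5) (nat_lit 326) (nat_lit 305) (nat_lit 149)) (XT.nd (nat_lit 78) (nat_lit 532) (nat_lit 0) (XT.lf (nat_lit 0) (nat_lit 14193178447) (nat_lit 532) (nat_lit 1017334545) (nat_lit 608) (nat_lit 6962100448) (nat_lit 144) (nat_lit 5) (nat_lit 151) (nat_lit 5) (nat_lit 152) (nat_lit 5) (nat_lit 327) (nat_lit 305) (nat_lit 148)) (XT.lf (nat_lit 0) (nat_lit 2163674409) (nat_lit 532) (nat_lit 15179032393) (nat_lit 608) (nat_lit 5211730682) (nat_lit 137) (nat_lit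 5) (nat_lit 144) (nat_lit 5) (nat_lit 145) (nat_lit 5) (nat_lit 328) (nat_lit 305) (nat_lit 147)))) (XT.nd (nat_lit 78) (nat_lit 608) (nat_lit 0) (XT.lf (nat_lit 0) (nat_lit 12759205292) (nat_lit 532) (nat_lit 6864812626) (nat_lit 608) (nat_lit 3321153602) (nat_lit 137) (nat_lit 5) (nat_lit 144) (nat_lit 5) (nat_lit 145) (nat_lit 5) (nat_lit 329) (nat_lit 305) (nat_lit 146)) (XT.nd (nat_lit 78) (nat_lit 76) (nat_lit 0) (XT.lf (nat_lit 0) (nat_lit 309495999) (nat_lit 532) (nat_lit 21678338036) (nat_lit 608) (nat_lit 1359381102) (nat_lit 130) (nat_lit 5) (nat_lit 137) (nat_lit 5) (nat_lit 138) (nat_lit 5) (nat_lit 330) (nat_lit 305) (nat_lit 145)) (XT.lf (nat_lit 0) (nat_lit 814990115) (nat_lit 608) (nat_lit 12510202242) (nat_lit 76) (nat_lit 10430946534) (nat_lit 129) (nat_lit 5) (nat_lit 137) (nat_lit 5) (nat_lit 130) (nat_lit 5) (nat_lit 331) (nat_lit 305) (nat_lit 144))))) (XT.nd (nat_lit 234)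 (nat_lit 912) (nat_lit 0) (XT.nd (nat_lit 78) (nat_lit 532) (nat_lit 0) (XT.lf (nat_lit 0) (nat_lit 3022225283) (nat_lit 608) (nat_lit 1685415383) (nat_lit 76) (nat_lit 19469445985) (nat_lit 129) (nat_lit 5) (nat_lit 137) (nat_lit 5) (nat_lit 130) (nat_lit 5) (nat_lit 332) (nat_lit 305) (nat_lit 143)) (XT.nd (nat_lit 78) (nat_lit 0) (nat_lit 0) (XT.lf (nat_lit 0) (nat_lit 5424503689) (nat_lit 608) (nat_lit 15001600259) (nat_lit 76) (nat_lit 4180702577) (nat_lit 122) (nat_lit 5) (nat_lit 130) (nat_lit 5) (nat_lit 123) (nat_lit 5) (nat_lit 333) (nat_lit 305) (nat_lit 142)) (XT.lf (nat_lit 0) (nat_lit 7957845252) (nat_lit 608) (nat_lit 3831641040) (nat_lit 76) (nat_lit 13258170079) (nat_lit 122) (nat_lit 5) (nat_lit 130) (nat_lit 5) (nat_lit 123) (nat_lit 5) (nat_lit 334) (nat_lit 305) (nat_lit 141)))) (XT.nd (nat_lit 78) (nat_lit 456) (nat_lit 0) (XT.lf (nat_lit 0) (nat_lit 7821131771) (nat_lit 456)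 (nat_lit 2816573301) (nat_lit 532) (nat_lit 14861919082) (nat_lit 116) (nat_lit 5) (nat_lit 122) (nat_lit 5) (nat_lit 123) (nat_lit 5) (nat_lit 335) (nat_lit 305) (nat_lit 140)) (XT.nd (nat_lit 78) (nat_lit 456) (nat_lit 0) (XT.lf (nat_lit 0) (nat_lit 13494224895) (nat_lit 532) (nat_lit 6129104576) (nat_lit 76) (nat_lit 6338941320) (nat_lit 116) (nat_lit 5) (nat_lit 123) (nat_lit 5) (nat_lit 117) (nat_lit 5) (nat_lit 336) (nat_lit 305) (nat_lit 139)) (XT.lf (nat_lit 0) (nat_lit 5848144089) (nat_lit 456) (nat_lit 10667955296) (nat_lit 532) (nat_lit 9920315191) (nat_lit 110) (nat_lit 5) (nat_lit 116) (nat_lit 5) (nat_lit 117) (nat_lit 5) (nat_lit 337) (nat_lit 305) (nat_lit 138)))))) (XT.nd (nat_lit 468) (nat_lit 1140) (nat_lit 0) (XT.nd (nat_lit 234) (nat_lit 532) (nat_lit 0) (XT.nd (nat_lit 78) (nat_lit 380) (nat_lit 0) (XT.lf (nat_lit 0) (nat_lit 18305546155) (nat_lit 456) (nat_lit 1380615410)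 (nat_lit 532) (nat_lit 7236902473) (nat_lit 110) (nat_lit 5) (nat_lit 116) (nat_lit 5) (nat_lit 117) (nat_lit 5) (nat_lit 338) (nat_lit 305) (nat_lit 137)) (XT.nd (nat_lit 78) (nat_lit 0) (nat_lit 0) (XT.lf (nat_lit 0) (nat_lit 3701101886) (nat_lit 380) (nat_lit 19360245892) (nat_lit 456) (nat_lit 4359671629) (nat_lit 105) (nat_lit 5) (nat_lit 110) (nat_lit 5) (nat_lit 111) (nat_lit 5) (nat_lit 339) (nat_lit 305) (nat_lit 136)) (XT.lf (nat_lit 0) (nat_lit 16547241714) (nat_lit 380) (nat_lit 10086943504) (nat_lit 456) (nat_lit 1296843234) (nat_lit 105) (nat_lit 5) (nat_lit 110) (nat_lit 5) (nat_lit 111) (nat_lit 5) (nat_lit 340) (nat_lit 305) (nat_lit 135)))) (XT.nd (nat_lit 78) (nat_lit 0) (nat_lit 0) (XT.lf (nat_lit 0) (nat_lit 1325741774) (nat_lit 456) (nat_lit 504533124) (nat_lit 532) (nat_lit 26625273831) (nat_lit 98) (nat_lit 5) (nat_lit 104) (nat_lit 5) (nat_lit 105) (nat_lit 5) (nat_lit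 341) (nat_lit 305) (nat_lit 134)) (XT.nd (nat_lit 78) (nat_lit 0) (nat_lit 0) (XT.lf (nat_lit 0) (nat_lit 5227241768) (nat_lit 532) (nat_lit 14451218675) (nat_lit 76) (nat_lit 9310902259) (nat_lit 98) (nat_lit 5) (nat_lit 105) (nat_lit 5) (nat_lit 99) (nat_lit 5) (nat_lit 342) (nat_lit 305) (nat_lit 133)) (XT.lf (nat_lit 0) (nat_lit 8727212928) (nat_lit 532) (nat_lit 1401900771) (nat_lit 76) (nat_lit 19410050650) (nat_lit 98) (nat_lit 5) (nat_lit 105) (nat_lit 5) (nat_lit 99) (nat_lit 5) (nat_lit 343) (nat_lit 305) (nat_lit 132))))) (XT.nd (nat_lit 234) (nat_lit 380) (nat_lit 0) (XT.nd (nat_lit 78) (nat_lit 380) (nat_lit 0) (XT.lf (nat_lit 0) (nat_lit 12273907086) (nat_lit 380) (nat_lit 172473942) (nat_lit 456) (nat_lit 17655659022) (nat_lit 93) (nat_lit 5) (nat_lit 98) (nat_lit 5) (nat_lit 99) (nat_lit 5) (nat_lit 344) (nat_lit 305) (nat_lit 131)) (XT.nd (nat_lit 78) (nat_lit 380) (nat_lit 0)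 (XT.lf (nat_lit 0) (nat_lit 16384617368) (nat_lit 456) (nat_lit 4394277285) (nat_lit 76) (nat_lit 9899688340) (nat_lit 93) (nat_lit 5) (nat_lit 99) (nat_lit 5) (nat_lit 94) (nat_lit 5) (nat_lit 345) (nat_lit 305) (nat_lit 130)) (XT.lf (nat_lit 0) (nat_lit 9624259399) (nat_lit 380) (nat_lit 10907345772) (nat_lit 456) (nat_lit 10738104518) (nat_lit 88) (nat_lit 5) (nat_lit 93) (nat_lit 5) (nat_lit 94) (nat_lit 5) (nat_lit 346) (nat_lit 305) (nat_lit 129)))) (XT.nd (nat_lit 78) (nat_lit 380) (nat_lit 0) (XT.lf (nat_lit 0) (nat_lit 24149043035) (nat_lit 380) (nat_lit 694778793) (nat_lit 456) (nat_lit 7033529218) (nat_lit 88) (nat_lit 5) (nat_lit 93) (nat_lit 5) (nat_lit 94) (nat_lit 5) (nat_lit 347) (nat_lit 305) (nat_lit 128)) (XT.nd (nat_lit 78) (nat_lit 76) (nat_lit 0) (XT.lf (nat_lit 0) (nat_lit 6637064932) (nat_lit 304) (nat_lit 22803116848) (nat_lit 380) (nat_lit 3058401834) (nat_lit 84) (nat_lit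 5) (nat_lit 88) (nat_lit 5) (nat_lit 89) (nat_lit 5) (nat_lit 348) (nat_lit 305) (nat_lit 127)) (XT.lf (nat_lit 0) (nat_lit 1098018050) (nat_lit 380) (nat_lit 11566291688) (nat_lit 76) (nat_lit 20471382010) (nat_lit 83) (nat_lit 5) (nat_lit 88) (nat_lit 5) (nat_lit 84) (nat_lit 5) (nat_lit 349) (nat_lit 305) (nat_lit 126))))))))
noncomputable def xc215 : XT := (XT.nd (nat_lit 1794) (nat_lit 684) (nat_lit 0) (XT.nd (nat_lit 858) (nat_lit 1292) (nat_lit 0) (XT.nd (nat_lit 390) (nat_lit 988) (nat_lit 0) (XT.nd (nat_lit 156) (nat_lit 304) (nat_lit 0) (XT.nd (nat_lit 78) (nat_lit 0) (nat_lit 0) (XT.lf (nat_lit 0) (nat_lit 3185406157) (nat_lit 380) (nat_lit 2159535668) (nat_lit 456) (nat_lit 28445249229) (nat_lit 78) (nat_lit 5) (nat_lit 83) (nat_lit 5) (nat_lit 84) (nat_lit 5) (nat_lit 350) (nat_lit 305) (nat_lit 125)) (XT.lf (nat_lit 0) (nat_lit 9917185143) (nat_lit 456) (nat_lit 15932789934) (nat_lit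 76) (nat_lit 8608417595) (nat_lit 78) (nat_lit 5) (nat_lit 84) (nat_lit 5) (nat_lit 79) (nat_lit 5) (nat_lit 351) (nat_lit 305) (nat_lit 124))) (XT.nd (nat_lit 78) (nat_lit 304) (nat_lit 0) (XT.lf (nat_lit 0) (nat_lit 14644782805) (nat_lit 456) (nat_lit 846206749) (nat_lit 76) (nat_lit 19655109723) (nat_lit 78) (nat_lit 5) (nat_lit 84) (nat_lit 5) (nat_lit 79) (nat_lit 5) (nat_lit 352) (nat_lit 305) (nat_lit 123)) (XT.nd (nat_lit 78) (nat_lit 0) (nat_lit 0) (XT.lf (nat_lit 0) (nat_lit 14981243914) (nat_lit 304) (nat_lit 4673871912) (nat_lit 380) (nat_lit 16195098451) (nat_lit 74) (nat_lit 5) (nat_lit 78) (nat_lit 5) (nat_lit 79) (nat_lit 5) (nat_lit 353) (nat_lit 305) (nat_lit 122)) (XT.lf (nat_lit 0) (nat_lit 24883501288) (nat_lit 380) (nat_lit 5340703075) (nat_lit 76) (nat_lit 6349220382) (nat_lit 74) (nat_lit 5) (nat_lit 79) (nat_lit 5) (nat_lit 75) (nat_lit 5) (nat_lit 354) (nat_lit 305) (nat_lit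 121))))) (XT.nd (nat_lit 234) (nat_lit 304) (nat_lit 0) (XT.nd (nat_lit 78) (nat_lit 380) (nat_lit 0) (XT.lf (nat_lit 0) (nat_lit 10814164878) (nat_lit 304) (nat_lit 19601831623) (nat_lit 380) (nat_lit 6897921443) (nat_lit 70) (nat_lit 5) (nat_lit 74) (nat_lit 5) (nat_lit 75) (nat_lit 5) (nat_lit 355) (nat_lit 305) (nat_lit 120)) (XT.nd (nat_lit 78) (nat_lit 380) (nat_lit 0) (XT.lf (nat_lit 0) (nat_lit 27559202511) (nat_lit 304) (nat_lit 8606273036) (nat_lit 380) (nat_lit 1909624168) (nat_lit 70) (nat_lit 5) (nat_lit 74) (nat_lit 5) (nat_lit 75) (nat_lit 5) (nat_lit 356) (nat_lit 305) (nat_lit 119)) (XT.lf (nat_lit 0) (nat_lit 3247432830) (nat_lit 380) (nat_lit 32853334601) (nat_lit 76) (nat_lit 2754959131) (nat_lit 65) (nat_lit 5) (nat_lit 70) (nat_lit 5) (nat_lit 66) (nat_lit 5) (nat_lit 357) (nat_lit 305) (nat_lit 118)))) (XT.nd (nat_lit 78) (nat_lit 304) (nat_lit 0) (XT.lf (nat_lit 0) (nat_lit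 8710439854) (nat_lit 380) (nat_lit 16533901648) (nat_lit 76) (nat_lit 14409178602) (nat_lit 65) (nat_lit 5) (nat_lit 70) (nat_lit 5) (nat_lit 66) (nat_lit 5) (nat_lit 358) (nat_lit 305) (nat_lit 117)) (XT.nd (nat_lit 78) (nat_lit 0) (nat_lit 0) (XT.lf (nat_lit 0) (nat_lit 276686910) (nat_lit 304) (nat_lit 14060560268) (nat_lit 380) (nat_lit 26138006564) (nat_lit 61) (nat_lit 5) (nat_lit 65) (nat_lit 5) (nat_lit 66) (nat_lit 5) (nat_lit 359) (nat_lit 305) (nat_lit 116)) (XT.lf (nat_lit 0) (nat_lit 17926732873) (nat_lit 304) (nat_lit 2370379906) (nat_lit 380) (nat_lit 21019602477) (nat_lit 61) (nat_lit 5) (nat_lit 65) (nat_lit 5) (nat_lit 66) (nat_lit 5) (nat_lit 360) (nat_lit 305) (nat_lit 115)))))) (XT.nd (nat_lit 468) (nat_lit 760) (nat_lit 0) (XT.nd (nat_lit 234) (nat_lit 304) (nat_lit 0) (XT.nd (nat_lit 78) (nat_lit 228) (nat_lit 0) (XT.lf (nat_lit 0) (nat_lit 26526095941) (nat_lit 380) (nat_lit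 6173849977) (nat_lit 76) (nat_lit 9480768435) (nat_lit 61) (nat_lit 5) (nat_lit 66) (nat_lit 5) (nat_lit 62) (nat_lit 5) (nat_lit 361) (nat_lit 305) (nat_lit 114)) (XT.nd (nat_lit 78) (nat_lit 0) (nat_lit 0) (XT.lf (nat_lit 0) (nat_lit 11761158340) (nat_lit 228) (nat_lit 21314754400) (nat_lit 304) (nat_lit 9990705047) (nat_lit 58) (nat_lit 5) (nat_lit 61) (nat_lit 5) (nat_lit 62) (nat_lit 5) (nat_lit 362) (nat_lit 305) (nat_lit 113)) (XT.lf (nat_lit 0) (nat_lit 30357168968) (nat_lit 228) (nat_lit 9524878356) (nat_lit 304) (nat_lit 4095259495) (nat_lit 58) (nat_lit 5) (nat_lit 61) (nat_lit 5) (nat_lit 62) (nat_lit 5) (nat_lit 363) (nat_lit 305) (nat_lit 112)))) (XT.nd (nat_lit 78) (nat_lit 0) (nat_lit 0) (XT.lf (nat_lit 0) (nat_lit 2006625065) (nat_lit 304) (nat_lit 40275071660) (nat_lit 76) (nat_lit 2631008017) (nat_lit 54) (nat_lit 5) (nat_lit 58) (nat_lit 5) (nat_lit 55) (nat_lit 5) (nat_lit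 364) (nat_lit 305) (nat_lit 111)) (XT.nd (nat_lit 78) (nat_lit 0) (nat_lit 0) (XT.lf (nat_lit 0) (nat_lit 8440013157) (nat_lit 304) (nat_lit 22289500293) (nat_lit 76) (nat_lit 15138514931) (nat_lit 54) (nat_lit 5) (nat_lit 58) (nat_lit 5) (nat_lit 55) (nat_lit 5) (nat_lit 365) (nat_lit 305) (nat_lit 110)) (XT.lf (nat_lit 0) (nat_lit 15064027642) (nat_lit 304) (nat_lit 3767841213) (nat_lit 76) (nat_lit 28020216967) (nat_lit 54) (nat_lit 5) (nat_lit 58) (nat_lit 5) (nat_lit 55) (nat_lit 5) (nat_lit 366) (nat_lit 305) (nat_lit 109))))) (XT.nd (nat_lit 234) (nat_lit 304) (nat_lit 0) (XT.nd (nat_lit 78) (nat_lit 228) (nat_lit 0) (XT.lf (nat_lit 0) (nat_lit 15610710748) (nat_lit 228) (nat_lit 6423805449) (nat_lit 304) (nat_lit 25826718934) (nat_lit 51) (nat_lit 5) (nat_lit 54) (nat_lit 5) (nat_lit 55) (nat_lit 5) (nat_lit 367) (nat_lit 305) (nat_lit 108)) (XT.nd (nat_lit 78) (nat_lit 228) (nat_lit 0)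 (XT.lf (nat_lit 0) (nat_lit 29311365116) (nat_lit 304) (nat_lit 13316545892) (nat_lit 76) (nat_lit 6269833214) (nat_lit 51) (nat_lit 5) (nat_lit 55) (nat_lit 5) (nat_lit 52) (nat_lit 5) (nat_lit 368) (nat_lit 305) (nat_lit 107)) (XT.lf (nat_lit 0) (nat_lit 6240314676) (nat_lit 228) (nat_lit 30687577654) (nat_lit 304) (nat_lit 13033817666) (nat_lit 48) (nat_lit 5) (nat_lit 51) (nat_lit 5) (nat_lit 52) (nat_lit 5) (nat_lit 369) (nat_lit 305) (nat_lit 106)))) (XT.nd (nat_lit 78) (nat_lit 304) (nat_lit 0) (XT.lf (nat_lit 0) (nat_lit 26653583351) (nat_lit 228) (nat_lit 18251621125) (nat_lit 304) (nat_lit 6148424113) (nat_lit 48) (nat_lit 5) (nat_lit 51) (nat_lit 5) (nat_lit 52) (nat_lit 5) (nat_lit 370) (nat_lit 305) (nat_lit 105)) (XT.nd (nat_lit 78) (nat_lit 228) (nat_lit 0) (XT.lf (nat_lit 0) (nat_lit 922977843) (nat_lit 304) (nat_lit 4511347946) (nat_lit 76) (nat_lit 46743773484) (nat_lit 47) (nat_lit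 5) (nat_lit 51) (nat_lit 5) (nat_lit 48) (nat_lit 5) (nat_lit 371) (nat_lit 305) (nat_lit 104)) (XT.lf (nat_lit 0) (nat_lit 8313648578) (nat_lit 304) (nat_lit 37180020454) (nat_lit 76) (nat_lit 7833889968) (nat_lit 44) (nat_lit 5) (nat_lit 48) (nat_lit 5) (nat_lit 45) (nat_lit 5) (nat_lit 372) (nat_lit 305) (nat_lit 103))))))) (XT.nd (nat_lit 35568) (nat_lit 0) (nat_lit 9728) (XT.nd (nat_lit 468) (nat_lit 304) (nat_lit 0) (XT.nd (nat_lit 234) (nat_lit 152) (nat_lit 0) (XT.nd (nat_lit 78) (nat_lit 228) (nat_lit 0) (XT.lf (nat_lit 0) (nat_lit 16023792805) (nat_lit 304) (nat_lit 17048874774) (nat_lit 76) (nat_lit 21435904578) (nat_lit 44) (nat_lit 5) (nat_lit 48) (nat_lit 5) (nat_lit 45) (nat_lit 5) (nat_lit 373) (nat_lit 305) (nat_lit 102)) (XT.nd (nat_lit 78) (nat_lit 0) (nat_lit 0) (XT.lf (nat_lit 0) (nat_lit 3756446376) (nat_lit 228) (nat_lit 20242905552) (nat_lit 304) (nat_lit 31724642637) (nat_lit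 41) (nat_lit 5) (nat_lit 44) (nat_lit 5) (nat_lit 45) (nat_lit 5) (nat_lit 374) (nat_lit 305) (nat_lit 101)) (XT.lf (nat_lit 0) (nat_lit 25532381689) (nat_lit 228) (nat_lit 6851986733) (nat_lit 304) (nat_lit 24586407616) (nat_lit 41) (nat_lit 5) (nat_lit 44) (nat_lit 5) (nat_lit 45) (nat_lit 5) (nat_lit 375) (nat_lit 305) (nat_lit 100)))) (XT.nd (nat_lit 78) (nat_lit 152) (nat_lit 0) (XT.lf (nat_lit 0) (nat_lit 41085731133) (nat_lit 304) (nat_lit 10363075694) (nat_lit 76) (nat_lit 6804212305) (nat_lit 41) (nat_lit 5) (nat_lit 45) (nat_lit 5) (nat_lit 42) (nat_lit 5) (nat_lit 376) (nat_lit 305) (nat_lit 99)) (XT.nd (nat_lit 78) (nat_lit 0) (nat_lit 0) (XT.lf (nat_lit 0) (nat_lit 11498126134) (nat_lit 152) (nat_lit 38726510904) (nat_lit 228) (nat_lit 9343799400) (nat_lit 39) (nat_lit 5) (nat_lit 41) (nat_lit 5) (nat_lit 42) (nat_lit 5) (nat_lit 377) (nat_lit 305) (nat_lit 98)) (XT.lf (nat_lit 0)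 (nat_lit 34224720600) (nat_lit 152) (nat_lit 25515796813) (nat_lit 228) (nat_lit 1179716565) (nat_lit 39) (nat_lit 5) (nat_lit 41) (nat_lit 5) (nat_lit 42) (nat_lit 5) (nat_lit 378) (nat_lit 305) (nat_lit 97))))) (XT.nd (nat_lit 234) (nat_lit 0) (nat_lit 0) (XT.nd (nat_lit 78) (nat_lit 228) (nat_lit 0) (XT.lf (nat_lit 0) (nat_lit 7086413893) (nat_lit 228) (nat_lit 4751795176) (nat_lit 76) (nat_lit 50472347586) (nat_lit 38) (nat_lit 5) (nat_lit 41) (nat_lit 5) (nat_lit 39) (nat_lit 5) (nat_lit 379) (nat_lit 305) (nat_lit 96)) (XT.nd (nat_lit 78) (nat_lit 0) (nat_lit 0) (XT.lf (nat_lit 0) (nat_lit 15773388094) (nat_lit 304) (nat_lit 45569736180) (nat_lit 76) (nat_lit 2393218965) (nat_lit 35) (nat_lit 5) (nat_lit 39) (nat_lit 5) (nat_lit 36) (nat_lit 5) (nat_lit 380) (nat_lit 305) (nat_lit 95)) (XT.lf (nat_lit 0) (nat_lit 24884902951) (nat_lit 304) (nat_lit 23453945399) (nat_lit 76) (nat_lit 16861138845)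 (nat_lit 35) (nat_lit 5) (nat_lit 39) (nat_lit 5) (nat_lit 36) (nat_lit 5) (nat_lit 381) (nat_lit 305) (nat_lit 94)))) (XT.nd (nat_lit 34710) (nat_lit 0) (nat_lit 10488) (XT.lf (nat_lit 0) (nat_lit 34268076397) (nat_lit 304) (nat_lit 677365282) (nat_lit 76) (nat_lit 31762151061) (nat_lit 35) (nat_lit 5) (nat_lit 39) (nat_lit 5) (nat_lit 36) (nat_lit 5) (nat_lit 382) (nat_lit 305) (nat_lit 93)) (XT.nd (nat_lit 78) (nat_lit 0) (nat_lit 0) (XT.lf (nat_lit 0) (nat_lit 5173991447) (nat_lit 1140) (nat_lit 1453294198) (nat_lit 1140) (nat_lit 1453294198) (nat_lit 173) (nat_lit 3) (nat_lit 188) (nat_lit 3) (nat_lit 188) (nat_lit 5) (nat_lit 306) (nat_lit 306) (nat_lit 168)) (XT.lf (nat_lit 76) (nat_lit 4117586917) (nat_lit 0) (nat_lit 6658976779) (nat_lit 1140) (nat_lit 5618344702) (nat_lit 174) (nat_lit 5) (nat_lit 173) (nat_lit 3) (nat_lit 188) (nat_lit 5) (nat_lit 307) (nat_lit 306) (nat_lit 167))))))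 (XT.nd (nat_lit 468) (nat_lit 836) (nat_lit 0) (XT.nd (nat_lit 234) (nat_lit 0) (nat_lit 76) (XT.nd (nat_lit 78) (nat_lit 0) (nat_lit 0) (XT.lf (nat_lit 0) (nat_lit 11239808171) (nat_lit 1064) (nat_lit 5229439627) (nat_lit 1140) (nat_lit 165785843) (nat_lit 174) (nat_lit 5) (nat_lit 188) (nat_lit 5) (nat_lit 189) (nat_lit 5) (nat_lit 308) (nat_lit 306) (nat_lit 166)) (XT.nd (nat_lit 78) (nat_lit 0) (nat_lit 0) (XT.lf (nat_lit 76) (nat_lit 1997948076) (nat_lit 0) (nat_lit 9795275774) (nat_lit 1140) (nat_lit 5086868302) (nat_lit 175) (nat_lit 5) (nat_lit 174) (nat_lit 5) (nat_lit 189) (nat_lit 5) (nat_lit 309) (nat_lit 306) (nat_lit 165)) (XT.lf (nat_lit 76) (nat_lit 9544417383) (nat_lit 0) (nat_lit 2862980257) (nat_lit 1140) (nat_lit 4723797319) (nat_lit 175) (nat_lit 5) (nat_lit 174) (nat_lit 5) (nat_lit 189) (nat_lit 5) (nat_lit 310) (nat_lit 306) (nat_lit 164)))) (XT.nd (nat_lit 78) (nat_lit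 0) (nat_lit 0) (XT.lf (nat_lit 0) (nat_lit 13072747709) (nat_lit 1064) (nat_lit 118763874) (nat_lit 1140) (nat_lit 4197353446) (nat_lit 175) (nat_lit 5) (nat_lit 189) (nat_lit 5) (nat_lit 190) (nat_lit 5) (nat_lit 311) (nat_lit 306) (nat_lit 163)) (XT.nd (nat_lit 78) (nat_lit 0) (nat_lit 76) (XT.lf (nat_lit 76) (nat_lit 7690055135) (nat_lit 0) (nat_lit 6162149823) (nat_lit 1140) (nat_lit 3799252064) (nat_lit 176) (nat_lit 5) (nat_lit 175) (nat_lit 5) (nat_lit 190) (nat_lit 5) (nat_lit 312) (nat_lit 306) (nat_lit 162)) (XT.lf (nat_lit 0) (nat_lit 14658717760) (nat_lit 1064) (nat_lit 2201876452) (nat_lit 1140) (nat_lit 1061238160) (nat_lit 176) (nat_lit 5) (nat_lit 190) (nat_lit 5) (nat_lit 191) (nat_lit 5) (nat_lit 313) (nat_lit 306) (nat_lit 161))))) (XT.nd (nat_lit 234) (nat_lit 988) (nat_lit 0) (XT.nd (nat_lit 78) (nat_lit 0) (nat_lit 0) (XT.lf (nat_lit 76) (nat_lit 5838317191) (nat_lit 0) (nat_lit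 9760569177) (nat_lit 1140) (nat_lit 2598164093) (nat_lit 177) (nat_lit 5) (nat_lit 176) (nat_lit 5) (nat_lit 191) (nat_lit 5) (nat_lit 314) (nat_lit 306) (nat_lit 160)) (XT.nd (nat_lit 78) (nat_lit 0) (nat_lit 76) (XT.lf (nat_lit 76) (nat_lit 14159869525) (nat_lit 0) (nat_lit 2422128272) (nat_lit 1140) (nat_lit 1898100008) (nat_lit 177) (nat_lit 5) (nat_lit 176) (nat_lit 5) (nat_lit 191) (nat_lit 5) (nat_lit 315) (nat_lit 306) (nat_lit 159)) (XT.lf (nat_lit 76) (nat_lit 3982678910) (nat_lit 0) (nat_lit 13692327398) (nat_lit 1140) (nat_lit 1094232564) (nat_lit 178) (nat_lit 5) (nat_lit 177) (nat_lit 5) (nat_lit 192) (nat_lit 5) (nat_lit 316) (nat_lit 306) (nat_lit 158)))) (XT.nd (nat_lit 78) (nat_lit 1064) (nat_lit 0) (XT.lf (nat_lit 76) (nat_lit 12593730458) (nat_lit 0) (nat_lit 6267354568) (nat_lit 1140) (nat_lit 204174740) (nat_lit 178) (nat_lit 5) (nat_lit 177) (nat_lit 5) (nat_lit 192) (nat_lit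 5) (nat_lit 317) (nat_lit 306) (nat_lit 157)) (XT.nd (nat_lit 78) (nat_lit 0) (nat_lit 0) (XT.lf (nat_lit 0) (nat_lit 725672231) (nat_lit 1140) (nat_lit 17260653106) (nat_lit 1216) (nat_lit 1382833873) (nat_lit 163) (nat_lit 5) (nat_lit 178) (nat_lit 5) (nat_lit 179) (nat_lit 5) (nat_lit 318) (nat_lit 306) (nat_lit 156)) (XT.lf (nat_lit 0) (nat_lit 1800565822) (nat_lit 1140) (nat_lit 8671568704) (nat_lit 1216) (nat_lit 9206355622) (nat_lit 163) (nat_lit 5) (nat_lit 178) (nat_lit 5) (nat_lit 179) (nat_lit 5) (nat_lit 319) (nat_lit 306) (nat_lit 155))))))))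
noncomputable def xc216 : XT := (XT.nd (nat_lit 1794) (nat_lit 3344) (nat_lit 0) (XT.nd (nat_lit 858) (nat_lit 2964) (nat_lit 0) (XT.nd (nat_lit 390) (nat_lit 1976) (nat_lit 0) (XT.nd (nat_lit 156) (nat_lit 0) (nat_lit 76) (XT.nd (nat_lit 78) (nat_lit 0) (nat_lit 76) (XT.lf (nat_lit 76) (nat_lit 173491565) (nat_lit 0) (nat_lit 2729285394) (nat_lit 1216) (nat_lit 17094484368) (nat_lit 164) (nat_lit 5) (nat_lit 163) (nat_lit 5) (nat_lit 179) (nat_lit 5) (nat_lit 320) (nat_lit 306) (nat_lit 154)) (XT.lf (nat_lit 0) (nat_lit 4170474030) (nat_lit 1140) (nat_lit 10917851278) (nat_lit 1216) (nat_lit 5233309815) (nat_lit 164) (nat_lit 5) (nat_lit 179) (nat_lit 5) (nat_lit 180) (nat_lit 5) (nat_lit 321) (nat_lit 306) (nat_lit 153))) (XT.nd (nat_lit 78) (nat_lit 0) (nat_lit 76) (XT.lf (nat_lit 0) (nat_lit 5496972661) (nat_lit 1140) (nat_lit 1776876518) (nat_lit 1216) (nat_lit 13381279556) (nat_lit 164) (nat_lit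 5) (nat_lit 179) (nat_lit 5) (nat_lit 180) (nat_lit 5) (nat_lit 322) (nat_lit 306) (nat_lit 152)) (XT.nd (nat_lit 78) (nat_lit 0) (nat_lit 0) (XT.lf (nat_lit 0) (nat_lit 6940235486) (nat_lit 1140) (nat_lit 13219481093) (nat_lit 76) (nat_lit 836612877) (nat_lit 165) (nat_lit 5) (nat_lit 180) (nat_lit 5) (nat_lit 166) (nat_lit 5) (nat_lit 323) (nat_lit 306) (nat_lit 151)) (XT.lf (nat_lit 0) (nat_lit 8511004901) (nat_lit 1140) (nat_lit 3770915507) (nat_lit 76) (nat_lit 9063330576) (nat_lit 165) (nat_lit 5) (nat_lit 180) (nat_lit 5) (nat_lit 166) (nat_lit 5) (nat_lit 324) (nat_lit 306) (nat_lit 150))))) (XT.nd (nat_lit 234) (nat_lit 532) (nat_lit 0) (XT.nd (nat_lit 78) (nat_lit 532) (nat_lit 0) (XT.lf (nat_lit 0) (nat_lit 6074693920) (nat_lit 1064) (nat_lit 4106839653) (nat_lit 1140) (nat_lit 11521538226) (nat_lit 151) (nat_lit 5) (nat_lit 165) (nat_lit 5) (nat_lit 166) (nat_lit 5) (nat_lit 325) (nat_lit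 306) (nat_lit 149)) (XT.nd (nat_lit 78) (nat_lit 532) (nat_lit 0) (XT.lf (nat_lit 0) (nat_lit 11976468019) (nat_lit 1140) (nat_lit 5824444430) (nat_lit 76) (nat_lit 4268496504) (nat_lit 151) (nat_lit 5) (nat_lit 166) (nat_lit 5) (nat_lit 152) (nat_lit 5) (nat_lit 326) (nat_lit 306) (nat_lit 148)) (XT.lf (nat_lit 0) (nat_lit 4312148756) (nat_lit 532) (nat_lit 9589748615) (nat_lit 608) (nat_lit 8542549555) (nat_lit 144) (nat_lit 5) (nat_lit 151) (nat_lit 5) (nat_lit 152) (nat_lit 5) (nat_lit 327) (nat_lit 306) (nat_lit 147)))) (XT.nd (nat_lit 78) (nat_lit 532) (nat_lit 0) (XT.lf (nat_lit 0) (nat_lit 14867341549) (nat_lit 532) (nat_lit 1071209765) (nat_lit 608) (nat_lit 6890590686) (nat_lit 144) (nat_lit 5) (nat_lit 151) (nat_lit 5) (nat_lit 152) (nat_lit 5) (nat_lit 328) (nat_lit 306) (nat_lit 146)) (XT.nd (nat_lit 78) (nat_lit 0) (nat_lit 0) (XT.lf (nat_lit 0) (nat_lit 2483304756) (nat_lit 532)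 (nat_lit 15645722483) (nat_lit 608) (nat_lit 5093578548) (nat_lit 137) (nat_lit 5) (nat_lit 144) (nat_lit 5) (nat_lit 145) (nat_lit 5) (nat_lit 329) (nat_lit 306) (nat_lit 145)) (XT.lf (nat_lit 0) (nat_lit 13389282533) (nat_lit 532) (nat_lit 7081746440) (nat_lit 608) (nat_lit 3154279419) (nat_lit 137) (nat_lit 5) (nat_lit 144) (nat_lit 5) (nat_lit 145) (nat_lit 5) (nat_lit 330) (nat_lit 306) (nat_lit 144)))))) (XT.nd (nat_lit 468) (nat_lit 1368) (nat_lit 0) (XT.nd (nat_lit 234) (nat_lit 988) (nat_lit 0) (XT.nd (nat_lit 78) (nat_lit 76) (nat_lit 0) (XT.lf (nat_lit 0) (nat_lit 571899744) (nat_lit 532) (nat_lit 22328667377) (nat_lit 608) (nat_lit 1139015645) (nat_lit 130) (nat_lit 5) (nat_lit 137) (nat_lit 5) (nat_lit 138) (nat_lit 5) (nat_lit 331) (nat_lit 306) (nat_lit 143)) (XT.nd (nat_lit 78) (nat_lit 0) (nat_lit 0) (XT.lf (nat_lit 0) (nat_lit 1088032996) (nat_lit 608) (nat_lit 12634384633) (nat_lit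 76) (nat_lit 10738517920) (nat_lit 129) (nat_lit 5) (nat_lit 137) (nat_lit 5) (nat_lit 130) (nat_lit 5) (nat_lit 332) (nat_lit 306) (nat_lit 142)) (XT.lf (nat_lit 0) (nat_lit 3354244641) (nat_lit 608) (nat_lit 1492168451) (nat_lit 76) (nat_lit 20048328384) (nat_lit 129) (nat_lit 5) (nat_lit 137) (nat_lit 5) (nat_lit 130) (nat_lit 5) (nat_lit 333) (nat_lit 306) (nat_lit 141)))) (XT.nd (nat_lit 78) (nat_lit 456) (nat_lit 0) (XT.lf (nat_lit 0) (nat_lit 5823928285) (nat_lit 608) (nat_lit 15202770714) (nat_lit 76) (nat_lit 4310805992) (nat_lit 122) (nat_lit 5) (nat_lit 130) (nat_lit 5) (nat_lit 123) (nat_lit 5) (nat_lit 334) (nat_lit 306) (nat_lit 140)) (XT.nd (nat_lit 78) (nat_lit 456) (nat_lit 0) (XT.lf (nat_lit 0) (nat_lit 8426376227) (nat_lit 608) (nat_lit 3704961580) (nat_lit 76) (nat_lit 13660461140) (nat_lit 122) (nat_lit 5) (nat_lit 130) (nat_lit 5) (nat_lit 123) (nat_lit 5) (nat_lit 335) (nat_lit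 306) (nat_lit 139)) (XT.lf (nat_lit 0) (nat_lit 8295025507) (nat_lit 456) (nat_lit 2887213169) (nat_lit 532) (nat_lit 15075230334) (nat_lit 116) (nat_lit 5) (nat_lit 122) (nat_lit 5) (nat_lit 123) (nat_lit 5) (nat_lit 336) (nat_lit 306) (nat_lit 138))))) (XT.nd (nat_lit 234) (nat_lit 912) (nat_lit 0) (XT.nd (nat_lit 78) (nat_lit 456) (nat_lit 0) (XT.lf (nat_lit 0) (nat_lit 14118018299) (nat_lit 532) (nat_lit 6073880193) (nat_lit 76) (nat_lit 6542300748) (nat_lit 116) (nat_lit 5) (nat_lit 123) (nat_lit 5) (nat_lit 117) (nat_lit 5) (nat_lit 337) (nat_lit 306) (nat_lit 137)) (XT.nd (nat_lit 78) (nat_lit 0) (nat_lit 0) (XT.lf (nat_lit 0) (nat_lit 6260341839) (nat_lit 456) (nat_lit 10966105336) (nat_lit 532) (nat_lit 9996254019) (nat_lit 110) (nat_lit 5) (nat_lit 116) (nat_lit 5) (nat_lit 117) (nat_lit 5) (nat_lit 338) (nat_lit 306) (nat_lit 136)) (XT.lf (nat_lit 0) (nat_lit 19084570235) (nat_lit 456)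 (nat_lit 1400782785) (nat_lit 532) (nat_lit 7238795344) (nat_lit 110) (nat_lit 5) (nat_lit 116) (nat_lit 5) (nat_lit 117) (nat_lit 5) (nat_lit 339) (nat_lit 306) (nat_lit 135)))) (XT.nd (nat_lit 78) (nat_lit 532) (nat_lit 0) (XT.lf (nat_lit 0) (nat_lit 4046079670) (nat_lit 380) (nat_lit 19912086378) (nat_lit 456) (nat_lit 4278995387) (nat_lit 105) (nat_lit 5) (nat_lit 110) (nat_lit 5) (nat_lit 111) (nat_lit 5) (nat_lit 340) (nat_lit 306) (nat_lit 134)) (XT.nd (nat_lit 78) (nat_lit 532) (nat_lit 0) (XT.lf (nat_lit 0) (nat_lit 17270789768) (nat_lit 380) (nat_lit 10361428615) (nat_lit 456) (nat_lit 1130441356) (nat_lit 105) (nat_lit 5) (nat_lit 110) (nat_lit 5) (nat_lit 111) (nat_lit 5) (nat_lit 341) (nat_lit 306) (nat_lit 133)) (XT.lf (nat_lit 0) (nat_lit 1594701674) (nat_lit 456) (nat_lit 488122323) (nat_lit 532) (nat_lit 27220151536) (nat_lit 98) (nat_lit 5) (nat_lit 104) (nat_lit 5) (nat_lit 105)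 (nat_lit 5) (nat_lit 342) (nat_lit 306) (nat_lit 132))))))) (XT.nd (nat_lit 936) (nat_lit 1520) (nat_lit 0) (XT.nd (nat_lit 468) (nat_lit 1064) (nat_lit 0) (XT.nd (nat_lit 234) (nat_lit 380) (nat_lit 0) (XT.nd (nat_lit 78) (nat_lit 380) (nat_lit 0) (XT.lf (nat_lit 0) (nat_lit 5576237758) (nat_lit 532) (nat_lit 14656479450) (nat_lit 76) (nat_lit 9620259621) (nat_lit 98) (nat_lit 5) (nat_lit 105) (nat_lit 5) (nat_lit 99) (nat_lit 5) (nat_lit 343) (nat_lit 306) (nat_lit 131)) (XT.nd (nat_lit 78) (nat_lit 380) (nat_lit 0) (XT.lf (nat_lit 0) (nat_lit 9175610614) (nat_lit 532) (nat_lit 1222330819) (nat_lit 76) (nat_lit 20021507795) (nat_lit 98) (nat_lit 5) (nat_lit 105) (nat_lit 5) (nat_lit 99) (nat_lit 5) (nat_lit 344) (nat_lit 306) (nat_lit 130)) (XT.lf (nat_lit 0) (nat_lit 12861578461) (nat_lit 380) (nat_lit 141450417) (nat_lit 456) (nat_lit 17996290591) (nat_lit 93) (nat_lit 5) (nat_lit 98) (nat_lit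 5) (nat_lit 99) (nat_lit 5) (nat_lit 345) (nat_lit 306) (nat_lit 129)))) (XT.nd (nat_lit 78) (nat_lit 380) (nat_lit 0) (XT.lf (nat_lit 0) (nat_lit 17054412563) (nat_lit 456) (nat_lit 4307767749) (nat_lit 76) (nat_lit 10231136655) (nat_lit 93) (nat_lit 5) (nat_lit 99) (nat_lit 5) (nat_lit 94) (nat_lit 5) (nat_lit 346) (nat_lit 306) (nat_lit 128)) (XT.nd (nat_lit 78) (nat_lit 0) (nat_lit 0) (XT.lf (nat_lit 0) (nat_lit 10129184469) (nat_lit 380) (nat_lit 11193511810) (nat_lit 456) (nat_lit 10879582631) (nat_lit 88) (nat_lit 5) (nat_lit 93) (nat_lit 5) (nat_lit 94) (nat_lit 5) (nat_lit 347) (nat_lit 306) (nat_lit 127)) (XT.lf (nat_lit 0) (nat_lit 25083414605) (nat_lit 380) (nat_lit 675763578) (nat_lit 456) (nat_lit 7069132160) (nat_lit 88) (nat_lit 5) (nat_lit 93) (nat_lit 5) (nat_lit 94) (nat_lit 5) (nat_lit 348) (nat_lit 306) (nat_lit 126))))) (XT.nd (nat_lit 234) (nat_lit 304) (nat_lit 0) (XT.nd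 (nat_lit 78) (nat_lit 456) (nat_lit 0) (XT.lf (nat_lit 0) (nat_lit 7048948598) (nat_lit 304) (nat_lit 23441944944) (nat_lit 380) (nat_lit 2977369982) (nat_lit 84) (nat_lit 5) (nat_lit 88) (nat_lit 5) (nat_lit 89) (nat_lit 5) (nat_lit 349) (nat_lit 306) (nat_lit 125)) (XT.nd (nat_lit 78) (nat_lit 380) (nat_lit 0) (XT.lf (nat_lit 0) (nat_lit 1295436525) (nat_lit 380) (nat_lit 11703194600) (nat_lit 76) (nat_lit 21125959116) (nat_lit 83) (nat_lit 5) (nat_lit 88) (nat_lit 5) (nat_lit 84) (nat_lit 5) (nat_lit 350) (nat_lit 306) (nat_lit 124)) (XT.lf (nat_lit 0) (nat_lit 3488994514) (nat_lit 380) (nat_lit 2177982554) (nat_lit 456) (nat_lit 29131838116) (nat_lit 78) (nat_lit 5) (nat_lit 83) (nat_lit 5) (nat_lit 84) (nat_lit 5) (nat_lit 351) (nat_lit 306) (nat_lit 123)))) (XT.nd (nat_lit 78) (nat_lit 304) (nat_lit 0) (XT.lf (nat_lit 0) (nat_lit 10372110822) (nat_lit 456) (nat_lit 16204305347) (nat_lit 76)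 (nat_lit 8910781715) (nat_lit 78) (nat_lit 5) (nat_lit 84) (nat_lit 5) (nat_lit 79) (nat_lit 5) (nat_lit 352) (nat_lit 306) (nat_lit 122)) (XT.nd (nat_lit 78) (nat_lit 304) (nat_lit 0) (XT.lf (nat_lit 0) (nat_lit 15236951654) (nat_lit 456) (nat_lit 671138306) (nat_lit 76) (nat_lit 20287589803) (nat_lit 78) (nat_lit 5) (nat_lit 84) (nat_lit 5) (nat_lit 79) (nat_lit 5) (nat_lit 353) (nat_lit 306) (nat_lit 121)) (XT.lf (nat_lit 0) (nat_lit 15629170636) (nat_lit 304) (nat_lit 4765880807) (nat_lit 380) (nat_lit 16525949409) (nat_lit 74) (nat_lit 5) (nat_lit 78) (nat_lit 5) (nat_lit 79) (nat_lit 5) (nat_lit 354) (nat_lit 306) (nat_lit 120)))))) (XT.nd (nat_lit 468) (nat_lit 532) (nat_lit 0) (XT.nd (nat_lit 234) (nat_lit 684) (nat_lit 0) (XT.nd (nat_lit 78) (nat_lit 304) (nat_lit 0) (XT.lf (nat_lit 0) (nat_lit 25776361219) (nat_lit 380) (nat_lit 5304083526) (nat_lit 76) (nat_lit 6585586862) (nat_lit 74)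 (nat_lit 5) (nat_lit 79) (nat_lit 5) (nat_lit 75) (nat_lit 5) (nat_lit 355) (nat_lit 306) (nat_lit 119)) (XT.nd (nat_lit 78) (nat_lit 0) (nat_lit 0) (XT.lf (nat_lit 0) (nat_lit 11333500656) (nat_lit 304) (nat_lit 20138941471) (nat_lit 380) (nat_lit 6956375128) (nat_lit 70) (nat_lit 5) (nat_lit 74) (nat_lit 5) (nat_lit 75) (nat_lit 5) (nat_lit 356) (nat_lit 306) (nat_lit 118)) (XT.lf (nat_lit 0) (nat_lit 28575212403) (nat_lit 304) (nat_lit 8814999965) (nat_lit 380) (nat_lit 1822753710) (nat_lit 70) (nat_lit 5) (nat_lit 74) (nat_lit 5) (nat_lit 75) (nat_lit 5) (nat_lit 357) (nat_lit 306) (nat_lit 117)))) (XT.nd (nat_lit 78) (nat_lit 304) (nat_lit 0) (XT.lf (nat_lit 0) (nat_lit 3484407857) (nat_lit 380) (nat_lit 33644723518) (nat_lit 76) (nat_lit 2887898075) (nat_lit 65) (nat_lit 5) (nat_lit 70) (nat_lit 5) (nat_lit 66) (nat_lit 5) (nat_lit 358) (nat_lit 306) (nat_lit 116)) (XT.nd (nat_lit 78) (nat_lit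 304) (nat_lit 0) (XT.lf (nat_lit 0) (nat_lit 9107240469) (nat_lit 380) (nat_lit 16841364211) (nat_lit 76) (nat_lit 14890279368) (nat_lit 65) (nat_lit 5) (nat_lit 70) (nat_lit 5) (nat_lit 66) (nat_lit 5) (nat_lit 359) (nat_lit 306) (nat_lit 115)) (XT.lf (nat_lit 0) (nat_lit 471693430) (nat_lit 304) (nat_lit 14429007079) (nat_lit 380) (nat_lit 26784638888) (nat_lit 61) (nat_lit 5) (nat_lit 65) (nat_lit 5) (nat_lit 66) (nat_lit 5) (nat_lit 360) (nat_lit 306) (nat_lit 114))))) (XT.nd (nat_lit 234) (nat_lit 304) (nat_lit 0) (XT.nd (nat_lit 78) (nat_lit 228) (nat_lit 0) (XT.lf (nat_lit 0) (nat_lit 18645802736) (nat_lit 304) (nat_lit 2389675772) (nat_lit 380) (nat_lit 21516687762) (nat_lit 61) (nat_lit 5) (nat_lit 65) (nat_lit 5) (nat_lit 66) (nat_lit 5) (nat_lit 361) (nat_lit 306) (nat_lit 113)) (XT.nd (nat_lit 78) (nat_lit 228) (nat_lit 0) (XT.lf (nat_lit 0) (nat_lit 27448044284) (nat_lit 380) (nat_lit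 6179628352) (nat_lit 76) (nat_lit 9814516171) (nat_lit 61) (nat_lit 5) (nat_lit 66) (nat_lit 5) (nat_lit 62) (nat_lit 5) (nat_lit 362) (nat_lit 306) (nat_lit 112)) (XT.lf (nat_lit 0) (nat_lit 12291671027) (nat_lit 228) (nat_lit 21900717787) (nat_lit 304) (nat_lit 10162344253) (nat_lit 58) (nat_lit 5) (nat_lit 61) (nat_lit 5) (nat_lit 62) (nat_lit 5) (nat_lit 363) (nat_lit 306) (nat_lit 111)))) (XT.nd (nat_lit 78) (nat_lit 304) (nat_lit 0) (XT.lf (nat_lit 0) (nat_lit 31440386888) (nat_lit 228) (nat_lit 9758703110) (nat_lit 304) (nat_lit 4093765876) (nat_lit 58) (nat_lit 5) (nat_lit 61) (nat_lit 5) (nat_lit 62) (nat_lit 5) (nat_lit 364) (nat_lit 306) (nat_lit 110)) (XT.nd (nat_lit 78) (nat_lit 0) (nat_lit 0) (XT.lf (nat_lit 0) (nat_lit 2187376477) (nat_lit 304) (nat_lit 41306730003) (nat_lit 76) (nat_lit 2762218878) (nat_lit 54) (nat_lit 5) (nat_lit 58) (nat_lit 5) (nat_lit 55) (nat_lit 5) (nat_lit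 365) (nat_lit 306) (nat_lit 109)) (XT.lf (nat_lit 0) (nat_lit 8810254969) (nat_lit 304) (nat_lit 22786735005) (nat_lit 76) (nat_lit 15643428263) (nat_lit 54) (nat_lit 5) (nat_lit 58) (nat_lit 5) (nat_lit 55) (nat_lit 5) (nat_lit 366) (nat_lit 306) (nat_lit 108))))))))
noncomputable def xc217 : XT := (XT.nd (nat_lit 36582) (nat_lit 0) (nat_lit 6156) (XT.nd (nat_lit 858) (nat_lit 456) (nat_lit 0) (XT.nd (nat_lit 390) (nat_lit 532) (nat_lit 0) (XT.nd (nat_lit 156) (nat_lit 228) (nat_lit 0) (XT.nd (nat_lit 78) (nat_lit 228) (nat_lit 0) (XT.lf (nat_lit 0) (nat_lit 15629580915) (nat_lit 304) (nat_lit 3714419850) (nat_lit 76) (nat_lit 28910102975) (nat_lit 54) (nat_lit 5) (nat_lit 58) (nat_lit 5) (nat_lit 55) (nat_lit 5) (nat_lit 367) (nat_lit 306) (nat_lit 107)) (XT.lf (nat_lit 0) (nat_lit 16243856742) (nat_lit 228) (nat_lit 6563602097) (nat_lit 304) (nat_lit 26486124400) (nat_lit 51) (nat_lit 5) (nat_lit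 54) (nat_lit 5) (nat_lit 55) (nat_lit 5) (nat_lit 368) (nat_lit 306) (nat_lit 106))) (XT.nd (nat_lit 78) (nat_lit 228) (nat_lit 0) (XT.lf (nat_lit 0) (nat_lit 30299847654) (nat_lit 304) (nat_lit 13553124849) (nat_lit 76) (nat_lit 6508301904) (nat_lit 51) (nat_lit 5) (nat_lit 55) (nat_lit 5) (nat_lit 52) (nat_lit 5) (nat_lit 369) (nat_lit 306) (nat_lit 105)) (XT.nd (nat_lit 78) (nat_lit 0) (nat_lit 0) (XT.lf (nat_lit 0) (nat_lit 6588844306) (nat_lit 228) (nat_lit 31554398205) (nat_lit 304) (nat_lit 13313969213) (nat_lit 48) (nat_lit 5) (nat_lit 51) (nat_lit 5) (nat_lit 52) (nat_lit 5) (nat_lit 370) (nat_lit 306) (nat_lit 104)) (XT.lf (nat_lit 0) (nat_lit 27609812395) (nat_lit 228) (nat_lit 18746930168) (nat_lit 304) (nat_lit 6225242872) (nat_lit 48) (nat_lit 5) (nat_lit 51) (nat_lit 5) (nat_lit 52) (nat_lit 5) (nat_lit 371) (nat_lit 306) (nat_lit 103))))) (XT.nd (nat_lit 234) (nat_lit 228) (nat_lit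 0) (XT.nd (nat_lit 78) (nat_lit 228) (nat_lit 0) (XT.lf (nat_lit 0) (nat_lit 1053127021) (nat_lit 304) (nat_lit 4492475849) (nat_lit 76) (nat_lit 48194651954) (nat_lit 47) (nat_lit 5) (nat_lit 51) (nat_lit 5) (nat_lit 48) (nat_lit 5) (nat_lit 372) (nat_lit 306) (nat_lit 102)) (XT.nd (nat_lit 78) (nat_lit 0) (nat_lit 0) (XT.lf (nat_lit 0) (nat_lit 8664498985) (nat_lit 304) (nat_lit 38140079316) (nat_lit 76) (nat_lit 8119653918) (nat_lit 44) (nat_lit 5) (nat_lit 48) (nat_lit 5) (nat_lit 45) (nat_lit 5) (nat_lit 373) (nat_lit 306) (nat_lit 101)) (XT.lf (nat_lit 0) (nat_lit 16602992948) (nat_lit 304) (nat_lit 17409523782) (nat_lit 76) (nat_lit 22128250890) (nat_lit 44) (nat_lit 5) (nat_lit 48) (nat_lit 5) (nat_lit 45) (nat_lit 5) (nat_lit 374) (nat_lit 306) (nat_lit 100)))) (XT.nd (nat_lit 78) (nat_lit 0) (nat_lit 0) (XT.lf (nat_lit 0) (nat_lit 4018478402) (nat_lit 228) (nat_lit 20797907443) (nat_lit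 304) (nat_lit 32576312967) (nat_lit 41) (nat_lit 5) (nat_lit 44) (nat_lit 5) (nat_lit 45) (nat_lit 5) (nat_lit 375) (nat_lit 306) (nat_lit 99)) (XT.nd (nat_lit 78) (nat_lit 0) (nat_lit 0) (XT.lf (nat_lit 0) (nat_lit 26443342104) (nat_lit 228) (nat_lit 7006783932) (nat_lit 304) (nat_lit 25226845525) (nat_lit 41) (nat_lit 5) (nat_lit 44) (nat_lit 5) (nat_lit 45) (nat_lit 5) (nat_lit 376) (nat_lit 306) (nat_lit 98)) (XT.lf (nat_lit 0) (nat_lit 42410258912) (nat_lit 304) (nat_lit 10530833243) (nat_lit 76) (nat_lit 7056660855) (nat_lit 41) (nat_lit 5) (nat_lit 45) (nat_lit 5) (nat_lit 42) (nat_lit 5) (nat_lit 377) (nat_lit 306) (nat_lit 97)))))) (XT.nd (nat_lit 35256) (nat_lit 0) (nat_lit 10488) (XT.nd (nat_lit 234) (nat_lit 228) (nat_lit 0) (XT.nd (nat_lit 78) (nat_lit 76) (nat_lit 0) (XT.lf (nat_lit 0) (nat_lit 11984801359) (nat_lit 152) (nat_lit 39837214720) (nat_lit 228) (nat_lit 9530659089) (nat_lit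 39) (nat_lit 5) (nat_lit 41) (nat_lit 5) (nat_lit 42) (nat_lit 5) (nat_lit 378) (nat_lit 306) (nat_lit 96)) (XT.nd (nat_lit 78) (nat_lit 76) (nat_lit 0) (XT.lf (nat_lit 0) (nat_lit 35389065558) (nat_lit 152) (nat_lit 26231667308) (nat_lit 228) (nat_lit 1124375739) (nat_lit 39) (nat_lit 5) (nat_lit 41) (nat_lit 5) (nat_lit 42) (nat_lit 5) (nat_lit 379) (nat_lit 306) (nat_lit 95)) (XT.lf (nat_lit 0) (nat_lit 7385376997) (nat_lit 228) (nat_lit 4758947519) (nat_lit 76) (nat_lit 52032870627) (nat_lit 38) (nat_lit 5) (nat_lit 41) (nat_lit 5) (nat_lit 39) (nat_lit 5) (nat_lit 380) (nat_lit 306) (nat_lit 94)))) (XT.nd (nat_lit 34866) (nat_lit 0) (nat_lit 10488) (XT.lf (nat_lit 0) (nat_lit 16332203922) (nat_lit 304) (nat_lit 46800585698) (nat_lit 76) (nat_lit 2512990937) (nat_lit 35) (nat_lit 5) (nat_lit 39) (nat_lit 5) (nat_lit 36) (nat_lit 5) (nat_lit 381) (nat_lit 306) (nat_lit 93)) (XT.nd (nat_lit 78)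 (nat_lit 0) (nat_lit 0) (XT.lf (nat_lit 0) (nat_lit 5560744246) (nat_lit 1140) (nat_lit 1377421822) (nat_lit 1140) (nat_lit 1377421822) (nat_lit 173) (nat_lit 3) (nat_lit 188) (nat_lit 3) (nat_lit 188) (nat_lit 5) (nat_lit 307) (nat_lit 307) (nat_lit 166)) (XT.lf (nat_lit 76) (nat_lit 4477714356) (nat_lit 0) (nat_lit 7073999342) (nat_lit 1140) (nat_lit 5320586638) (nat_lit 174) (nat_lit 5) (nat_lit 173) (nat_lit 3) (nat_lit 188) (nat_lit 5) (nat_lit 308) (nat_lit 307) (nat_lit 165))))) (XT.nd (nat_lit 234) (nat_lit 0) (nat_lit 152) (XT.nd (nat_lit 78) (nat_lit 0) (nat_lit 76) (XT.lf (nat_lit 76) (nat_lit 11979194745) (nat_lit 0) (nat_lit 34825881) (nat_lit 1140) (nat_lit 5106079962) (nat_lit 174) (nat_lit 5) (nat_lit 173) (nat_lit 3) (nat_lit 188) (nat_lit 5) (nat_lit 309) (nat_lit 307) (nat_lit 164)) (XT.nd (nat_lit 78) (nat_lit 0) (nat_lit 0) (XT.lf (nat_lit 76) (nat_lit 2301228928) (nat_lit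 0) (nat_lit 10272095300) (nat_lit 1140) (nat_lit 4799533504) (nat_lit 175) (nat_lit 5) (nat_lit 174) (nat_lit 5) (nat_lit 189) (nat_lit 5) (nat_lit 310) (nat_lit 307) (nat_lit 163)) (XT.lf (nat_lit 76) (nat_lit 10067004671) (nat_lit 0) (nat_lit 3126501949) (nat_lit 1140) (nat_lit 4438384202) (nat_lit 175) (nat_lit 5) (nat_lit 174) (nat_lit 5) (nat_lit 189) (nat_lit 5) (nat_lit 311) (nat_lit 307) (nat_lit 162)))) (XT.nd (nat_lit 78) (nat_lit 0) (nat_lit 0) (XT.lf (nat_lit 76) (nat_lit 123978160) (nat_lit 0) (nat_lit 13742318044) (nat_lit 1140) (nat_lit 4031394401) (nat_lit 176) (nat_lit 5) (nat_lit 175) (nat_lit 5) (nat_lit 190) (nat_lit 5) (nat_lit 312) (nat_lit 307) (nat_lit 161)) (XT.nd (nat_lit 78) (nat_lit 0) (nat_lit 76) (XT.lf (nat_lit 76) (nat_lit 8162251444) (nat_lit 0) (nat_lit 6496359806) (nat_lit 1140) (nat_lit 3509888170) (nat_lit 176) (nat_lit 5) (nat_lit 175) (nat_lit 5) (nat_lit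 190) (nat_lit 5) (nat_lit 313) (nat_lit 307) (nat_lit 160)) (XT.lf (nat_lit 0) (nat_lit 15476541956) (nat_lit 1064) (nat_lit 2019940932) (nat_lit 1140) (nat_lit 950909072) (nat_lit 176) (nat_lit 5) (nat_lit 190) (nat_lit 5) (nat_lit 191) (nat_lit 5) (nat_lit 314) (nat_lit 307) (nat_lit 159))))))) (XT.nd (nat_lit 936) (nat_lit 2660) (nat_lit 0) (XT.nd (nat_lit 468) (nat_lit 836) (nat_lit 0) (XT.nd (nat_lit 234) (nat_lit 1064) (nat_lit 0) (XT.nd (nat_lit 78) (nat_lit 0) (nat_lit 0) (XT.lf (nat_lit 76) (nat_lit 6259027227) (nat_lit 0) (nat_lit 10177237339) (nat_lit 1140) (nat_lit 2294883504) (nat_lit 177) (nat_lit 5) (nat_lit 176) (nat_lit 5) (nat_lit 191) (nat_lit 5) (nat_lit 315) (nat_lit 307) (nat_lit 158)) (XT.nd (nat_lit 78) (nat_lit 0) (nat_lit 76) (XT.lf (nat_lit 76) (nat_lit 14823073883) (nat_lit 0) (nat_lit 2615035894) (nat_lit 1140) (nat_lit 1584921152) (nat_lit 177) (nat_lit 5) (nat_lit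 176) (nat_lit 5) (nat_lit 191) (nat_lit 5) (nat_lit 316) (nat_lit 307) (nat_lit 157)) (XT.lf (nat_lit 76) (nat_lit 4350732101) (nat_lit 0) (nat_lit 14203997510) (nat_lit 1140) (nat_lit 766412673) (nat_lit 178) (nat_lit 5) (nat_lit 177) (nat_lit 5) (nat_lit 192) (nat_lit 5) (nat_lit 317) (nat_lit 307) (nat_lit 156)))) (XT.nd (nat_lit 78) (nat_lit 0) (nat_lit 76) (XT.lf (nat_lit 0) (nat_lit 137113774) (nat_lit 1140) (nat_lit 6414838297) (nat_lit 1216) (nat_lit 13074376854) (nat_lit 162) (nat_lit 5) (nat_lit 177) (nat_lit 5) (nat_lit 178) (nat_lit 5) (nat_lit 318) (nat_lit 307) (nat_lit 155)) (XT.nd (nat_lit 78) (nat_lit 0) (nat_lit 0) (XT.lf (nat_lit 0) (nat_lit 1082263005) (nat_lit 1140) (nat_lit 17520536852) (nat_lit 1216) (nat_lit 1336758463) (nat_lit 163) (nat_lit 5) (nat_lit 178) (nat_lit 5) (nat_lit 179) (nat_lit 5) (nat_lit 319) (nat_lit 307) (nat_lit 154)) (XT.lf (nat_lit 0) (nat_lit 2179651348)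 (nat_lit 1140) (nat_lit 8681292613) (nat_lit 1216) (nat_lit 9397536169) (nat_lit 163) (nat_lit 5) (nat_lit 178) (nat_lit 5) (nat_lit 179) (nat_lit 5) (nat_lit 320) (nat_lit 307) (nat_lit 153))))) (XT.nd (nat_lit 234) (nat_lit 912) (nat_lit 0) (XT.nd (nat_lit 78) (nat_lit 0) (nat_lit 76) (XT.lf (nat_lit 76) (nat_lit 426664335) (nat_lit 0) (nat_lit 2881180087) (nat_lit 1216) (nat_lit 17279200397) (nat_lit 164) (nat_lit 5) (nat_lit 163) (nat_lit 5) (nat_lit 179) (nat_lit 5) (nat_lit 321) (nat_lit 307) (nat_lit 152)) (XT.nd (nat_lit 78) (nat_lit 0) (nat_lit 0) (XT.lf (nat_lit 0) (nat_lit 4603657297) (nat_lit 1140) (nat_lit 10994148555) (nat_lit 1216) (nat_lit 5323658756) (nat_lit 164) (nat_lit 5) (nat_lit 179) (nat_lit 5) (nat_lit 180) (nat_lit 5) (nat_lit 322) (nat_lit 307) (nat_lit 151)) (XT.lf (nat_lit 0) (nat_lit 5960978001) (nat_lit 1140) (nat_lit 1586262172) (nat_lit 1216) (nat_lit 13718008861)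 (nat_lit 164) (nat_lit 5) (nat_lit 179) (nat_lit 5) (nat_lit 180) (nat_lit 5) (nat_lit 323) (nat_lit 307) (nat_lit 150)))) (XT.nd (nat_lit 78) (nat_lit 1064) (nat_lit 0) (XT.lf (nat_lit 0) (nat_lit 7440656954) (nat_lit 1140) (nat_lit 13364718781) (nat_lit 76) (nat_lit 811532826) (nat_lit 165) (nat_lit 5) (nat_lit 180) (nat_lit 5) (nat_lit 166) (nat_lit 5) (nat_lit 324) (nat_lit 307) (nat_lit 149)) (XT.nd (nat_lit 78) (nat_lit 1064) (nat_lit 0) (XT.lf (nat_lit 0) (nat_lit 9050038353) (nat_lit 1140) (nat_lit 3640017006) (nat_lit 76) (nat_lit 9286513564) (nat_lit 165) (nat_lit 5) (nat_lit 180) (nat_lit 5) (nat_lit 166) (nat_lit 5) (nat_lit 325) (nat_lit 307) (nat_lit 148)) (XT.lf (nat_lit 0) (nat_lit 6498568292) (nat_lit 1064) (nat_lit 4266174119) (nat_lit 1140) (nat_lit 11580575558) (nat_lit 151) (nat_lit 5) (nat_lit 165) (nat_lit 5) (nat_lit 166) (nat_lit 5) (nat_lit 326) (nat_lit 307) (nat_lit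 147)))))) (XT.nd (nat_lit 468) (nat_lit 1064) (nat_lit 0) (XT.nd (nat_lit 234) (nat_lit 1064) (nat_lit 0) (XT.nd (nat_lit 78) (nat_lit 532) (nat_lit 0) (XT.lf (nat_lit 0) (nat_lit 12605097530) (nat_lit 1140) (nat_lit 5755656563) (nat_lit 76) (nat_lit 4362158910) (nat_lit 151) (nat_lit 5) (nat_lit 166) (nat_lit 5) (nat_lit 152) (nat_lit 5) (nat_lit 327) (nat_lit 307) (nat_lit 146)) (XT.nd (nat_lit 78) (nat_lit 0) (nat_lit 0) (XT.lf (nat_lit 0) (nat_lit 4682646955) (nat_lit 532) (nat_lit 9900116009) (nat_lit 608) (nat_lit 8526619464) (nat_lit 144) (nat_lit 5) (nat_lit 151) (nat_lit 5) (nat_lit 152) (nat_lit 5) (nat_lit 328) (nat_lit 307) (nat_lit 145)) (XT.lf (nat_lit 0) (nat_lit 15547472220) (nat_lit 532) (nat_lit 1125360559) (nat_lit 608) (nat_lit 6833030176) (nat_lit 144) (nat_lit 5) (nat_lit 151) (nat_lit 5) (nat_lit 152) (nat_lit 5) (nat_lit 329) (nat_lit 307) (nat_lit 144)))) (XT.nd (nat_lit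 78) (nat_lit 532) (nat_lit 0) (XT.lf (nat_lit 0) (nat_lit 2797902036) (nat_lit 532) (nat_lit 16125763513) (nat_lit 608) (nat_lit 4987639505) (nat_lit 137) (nat_lit 5) (nat_lit 144) (nat_lit 5) (nat_lit 145) (nat_lit 5) (nat_lit 330) (nat_lit 307) (nat_lit 143)) (XT.nd (nat_lit 78) (nat_lit 532) (nat_lit 0) (XT.lf (nat_lit 0) (nat_lit 14024065997) (nat_lit 532) (nat_lit 7304557431) (nat_lit 608) (nat_lit 2997697705) (nat_lit 137) (nat_lit 5) (nat_lit 144) (nat_lit 5) (nat_lit 145) (nat_lit 5) (nat_lit 331) (nat_lit 307) (nat_lit 142)) (XT.lf (nat_lit 0) (nat_lit 827645544) (nat_lit 532) (nat_lit 22998507793) (nat_lit 608) (nat_lit 927030125) (nat_lit 130) (nat_lit 5) (nat_lit 137) (nat_lit 5) (nat_lit 138) (nat_lit 5) (nat_lit 332) (nat_lit 307) (nat_lit 141))))) (XT.nd (nat_lit 234) (nat_lit 456) (nat_lit 0) (XT.nd (nat_lit 78) (nat_lit 532) (nat_lit 0) (XT.lf (nat_lit 0) (nat_lit 1354996899) (nat_lit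 608) (nat_lit 12776708023) (nat_lit 76) (nat_lit 11055623962) (nat_lit 129) (nat_lit 5) (nat_lit 137) (nat_lit 5) (nat_lit 130) (nat_lit 5) (nat_lit 333) (nat_lit 307) (nat_lit 140)) (XT.nd (nat_lit 78) (nat_lit 532) (nat_lit 0) (XT.lf (nat_lit 0) (nat_lit 3682369954) (nat_lit 608) (nat_lit 1307119767) (nat_lit 76) (nat_lit 20644875812) (nat_lit 129) (nat_lit 5) (nat_lit 137) (nat_lit 5) (nat_lit 130) (nat_lit 5) (nat_lit 334) (nat_lit 307) (nat_lit 139)) (XT.lf (nat_lit 0) (nat_lit 6221748675) (nat_lit 608) (nat_lit 15424262873) (nat_lit 76) (nat_lit 4444543724) (nat_lit 122) (nat_lit 5) (nat_lit 130) (nat_lit 5) (nat_lit 123) (nat_lit 5) (nat_lit 335) (nat_lit 307) (nat_lit 138)))) (XT.nd (nat_lit 78) (nat_lit 456) (nat_lit 0) (XT.lf (nat_lit 0) (nat_lit 8895771922) (nat_lit 608) (nat_lit 3588352210) (nat_lit 76) (nat_lit 14074559976) (nat_lit 122) (nat_lit 5) (nat_lit 130) (nat_lit 5) (nat_lit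 123) (nat_lit 5) (nat_lit 336) (nat_lit 307) (nat_lit 137)) (XT.nd (nat_lit 78) (nat_lit 0) (nat_lit 0) (XT.lf (nat_lit 0) (nat_lit 8769401566) (nat_lit 456) (nat_lit 2960767701) (nat_lit 532) (nat_lit 15308290034) (nat_lit 116) (nat_lit 5) (nat_lit 122) (nat_lit 5) (nat_lit 123) (nat_lit 5) (nat_lit 337) (nat_lit 307) (nat_lit 136)) (XT.lf (nat_lit 0) (nat_lit 14747955924) (nat_lit 532) (nat_lit 6030724254) (nat_lit 76) (nat_lit 6751003731) (nat_lit 116) (nat_lit 5) (nat_lit 123) (nat_lit 5) (nat_lit 117) (nat_lit 5) (nat_lit 338) (nat_lit 307) (nat_lit 135))))))))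
noncomputable def xc218 : XT := (XT.nd (nat_lit 1794) (nat_lit 1748) (nat_lit 0) (XT.nd (nat_lit 858) (nat_lit 2052) (nat_lit 0) (XT.nd (nat_lit 390) (nat_lit 760) (nat_lit 0) (XT.nd (nat_lit 156) (nat_lit 912) (nat_lit 0) (XT.nd (nat_lit 78) (nat_lit 0) (nat_lit 0) (XT.lf (nat_lit 0) (nat_lit 6671314905) (nat_lit 456) (nat_lit 11274456372) (nat_lit 532) (nat_lit 10087195812) (nat_lit 110) (nat_lit 5) (nat_lit 116) (nat_lit 5) (nat_lit 117) (nat_lit 5) (nat_lit 339) (nat_lit 307) (nat_lit 134)) (XT.lf (nat_lit 0) (nat_lit 19873770266) (nat_lit 456) (nat_lit 1422775081) (nat_lit 532) (nat_lit 7253099178) (nat_lit 110) (nat_lit 5) (nat_lit 116) (nat_lit 5) (nat_lit 117) (nat_lit 5) (nat_lit 340) (nat_lit 307) (nat_lit 133))) (XT.nd (nat_lit 78) (nat_lit 532) (nat_lit 0) (XT.lf (nat_lit 0) (nat_lit 4387977402) (nat_lit 380) (nat_lit 20482144898) (nat_lit 456) (nat_lit 4208037894) (nat_lit 105) (nat_lit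 5) (nat_lit 110) (nat_lit 5) (nat_lit 111) (nat_lit 5) (nat_lit 341) (nat_lit 307) (nat_lit 132)) (XT.nd (nat_lit 78) (nat_lit 532) (nat_lit 0) (XT.lf (nat_lit 0) (nat_lit 18003006026) (nat_lit 380) (nat_lit 10645762666) (nat_lit 456) (nat_lit 970832893) (nat_lit 105) (nat_lit 5) (nat_lit 110) (nat_lit 5) (nat_lit 111) (nat_lit 5) (nat_lit 342) (nat_lit 307) (nat_lit 131)) (XT.lf (nat_lit 0) (nat_lit 1858574063) (nat_lit 456) (nat_lit 473030112) (nat_lit 532) (nat_lit 27844579146) (nat_lit 98) (nat_lit 5) (nat_lit 104) (nat_lit 5) (nat_lit 105) (nat_lit 5) (nat_lit 343) (nat_lit 307) (nat_lit 130))))) (XT.nd (nat_lit 234) (nat_lit 380) (nat_lit 0) (XT.nd (nat_lit 78) (nat_lit 380) (nat_lit 0) (XT.lf (nat_lit 0) (nat_lit 5924671782) (nat_lit 532) (nat_lit 14881002012) (nat_lit 76) (nat_lit 9937173842) (nat_lit 98) (nat_lit 5) (nat_lit 105) (nat_lit 5) (nat_lit 99) (nat_lit 5) (nat_lit 344) (nat_lit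 307) (nat_lit 129)) (XT.nd (nat_lit 78) (nat_lit 380) (nat_lit 0) (XT.lf (nat_lit 0) (nat_lit 9626749700) (nat_lit 532) (nat_lit 1050096063) (nat_lit 76) (nat_lit 20649635002) (nat_lit 98) (nat_lit 5) (nat_lit 105) (nat_lit 5) (nat_lit 99) (nat_lit 5) (nat_lit 345) (nat_lit 307) (nat_lit 128)) (XT.lf (nat_lit 0) (nat_lit 13454282411) (nat_lit 380) (nat_lit 111574085) (nat_lit 456) (nat_lit 18357992673) (nat_lit 93) (nat_lit 5) (nat_lit 98) (nat_lit 5) (nat_lit 99) (nat_lit 5) (nat_lit 346) (nat_lit 307) (nat_lit 127)))) (XT.nd (nat_lit 78) (nat_lit 380) (nat_lit 0) (XT.lf (nat_lit 0) (nat_lit 17734068951) (nat_lit 456) (nat_lit 4231196412) (nat_lit 76) (nat_lit 10570550409) (nat_lit 93) (nat_lit 5) (nat_lit 99) (nat_lit 5) (nat_lit 94) (nat_lit 5) (nat_lit 347) (nat_lit 307) (nat_lit 126)) (XT.nd (nat_lit 78) (nat_lit 0) (nat_lit 0) (XT.lf (nat_lit 0) (nat_lit 10636846682) (nat_lit 380) (nat_lit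 11490619515) (nat_lit 456) (nat_lit 11035675998) (nat_lit 88) (nat_lit 5) (nat_lit 93) (nat_lit 5) (nat_lit 94) (nat_lit 5) (nat_lit 348) (nat_lit 307) (nat_lit 125)) (XT.lf (nat_lit 0) (nat_lit 26033768188) (nat_lit 380) (nat_lit 658465953) (nat_lit 456) (nat_lit 7115872035) (nat_lit 88) (nat_lit 5) (nat_lit 93) (nat_lit 5) (nat_lit 94) (nat_lit 5) (nat_lit 349) (nat_lit 307) (nat_lit 124)))))) (XT.nd (nat_lit 468) (nat_lit 988) (nat_lit 0) (XT.nd (nat_lit 234) (nat_lit 304) (nat_lit 0) (XT.nd (nat_lit 78) (nat_lit 456) (nat_lit 0) (XT.lf (nat_lit 0) (nat_lit 7460974806) (nat_lit 304) (nat_lit 24102536302) (nat_lit 380) (nat_lit 2903825677) (nat_lit 84) (nat_lit 5) (nat_lit 88) (nat_lit 5) (nat_lit 89) (nat_lit 5) (nat_lit 350) (nat_lit 307) (nat_lit 123)) (XT.nd (nat_lit 78) (nat_lit 380) (nat_lit 0) (XT.lf (nat_lit 0) (nat_lit 1489335847) (nat_lit 380) (nat_lit 11856264387) (nat_lit 76) (nat_lit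 21797852364) (nat_lit 83) (nat_lit 5) (nat_lit 88) (nat_lit 5) (nat_lit 84) (nat_lit 5) (nat_lit 351) (nat_lit 307) (nat_lit 122)) (XT.lf (nat_lit 0) (nat_lit 3789748969) (nat_lit 380) (nat_lit 2199642905) (nat_lit 456) (nat_lit 29848597869) (nat_lit 78) (nat_lit 5) (nat_lit 83) (nat_lit 5) (nat_lit 84) (nat_lit 5) (nat_lit 352) (nat_lit 307) (nat_lit 121)))) (XT.nd (nat_lit 78) (nat_lit 304) (nat_lit 0) (XT.lf (nat_lit 0) (nat_lit 10831648287) (nat_lit 456) (nat_lit 16495818347) (nat_lit 76) (nat_lit 9219684572) (nat_lit 78) (nat_lit 5) (nat_lit 84) (nat_lit 5) (nat_lit 79) (nat_lit 5) (nat_lit 353) (nat_lit 307) (nat_lit 120)) (XT.nd (nat_lit 78) (nat_lit 304) (nat_lit 0) (XT.lf (nat_lit 0) (nat_lit 15838112767) (nat_lit 456) (nat_lit 502324727) (nat_lit 76) (nat_lit 20936585853) (nat_lit 78) (nat_lit 5) (nat_lit 84) (nat_lit 5) (nat_lit 79) (nat_lit 5) (nat_lit 354) (nat_lit 307) (nat_lit 119))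 (XT.lf (nat_lit 0) (nat_lit 16285141055) (nat_lit 304) (nat_lit 4863417263) (nat_lit 380) (nat_lit 16875623644) (nat_lit 74) (nat_lit 5) (nat_lit 78) (nat_lit 5) (nat_lit 79) (nat_lit 5) (nat_lit 355) (nat_lit 307) (nat_lit 118))))) (XT.nd (nat_lit 234) (nat_lit 684) (nat_lit 0) (XT.nd (nat_lit 78) (nat_lit 304) (nat_lit 0) (XT.lf (nat_lit 0) (nat_lit 26687605579) (nat_lit 380) (nat_lit 5277664848) (nat_lit 76) (nat_lit 6826410070) (nat_lit 74) (nat_lit 5) (nat_lit 79) (nat_lit 5) (nat_lit 75) (nat_lit 5) (nat_lit 356) (nat_lit 307) (nat_lit 117)) (XT.nd (nat_lit 78) (nat_lit 0) (nat_lit 0) (XT.lf (nat_lit 0) (nat_lit 11857227828) (nat_lit 304) (nat_lit 20695089073) (nat_lit 380) (nat_lit 7025106011) (nat_lit 70) (nat_lit 5) (nat_lit 74) (nat_lit 5) (nat_lit 75) (nat_lit 5) (nat_lit 357) (nat_lit 307) (nat_lit 116)) (XT.lf (nat_lit 0) (nat_lit 29610839796) (nat_lit 304) (nat_lit 9032827981) (nat_lit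 380) (nat_lit 1741552466) (nat_lit 70) (nat_lit 5) (nat_lit 74) (nat_lit 5) (nat_lit 75) (nat_lit 5) (nat_lit 358) (nat_lit 307) (nat_lit 115)))) (XT.nd (nat_lit 78) (nat_lit 304) (nat_lit 0) (XT.lf (nat_lit 0) (nat_lit 3720481277) (nat_lit 380) (nat_lit 34471002616) (nat_lit 76) (nat_lit 3021938326) (nat_lit 65) (nat_lit 5) (nat_lit 70) (nat_lit 5) (nat_lit 66) (nat_lit 5) (nat_lit 359) (nat_lit 307) (nat_lit 114)) (XT.nd (nat_lit 78) (nat_lit 304) (nat_lit 0) (XT.lf (nat_lit 0) (nat_lit 9508167571) (nat_lit 380) (nat_lit 17168874450) (nat_lit 76) (nat_lit 15383010379) (nat_lit 65) (nat_lit 5) (nat_lit 70) (nat_lit 5) (nat_lit 66) (nat_lit 5) (nat_lit 360) (nat_lit 307) (nat_lit 113)) (XT.lf (nat_lit 0) (nat_lit 661832463) (nat_lit 304) (nat_lit 14811570951) (nat_lit 380) (nat_lit 27458563696) (nat_lit 61) (nat_lit 5) (nat_lit 65) (nat_lit 5) (nat_lit 66) (nat_lit 5) (nat_lit 361) (nat_lit 307)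 (nat_lit 112))))))) (XT.nd (nat_lit 936) (nat_lit 684) (nat_lit 0) (XT.nd (nat_lit 468) (nat_lit 532) (nat_lit 0) (XT.nd (nat_lit 234) (nat_lit 304) (nat_lit 0) (XT.nd (nat_lit 78) (nat_lit 228) (nat_lit 0) (XT.lf (nat_lit 0) (nat_lit 19376039177) (nat_lit 304) (nat_lit 2412524938) (nat_lit 380) (nat_lit 22036349212) (nat_lit 61) (nat_lit 5) (nat_lit 65) (nat_lit 5) (nat_lit 66) (nat_lit 5) (nat_lit 362) (nat_lit 307) (nat_lit 111)) (XT.nd (nat_lit 78) (nat_lit 228) (nat_lit 0) (XT.lf (nat_lit 0) (nat_lit 28390408663) (nat_lit 380) (nat_lit 6195880504) (nat_lit 76) (nat_lit 10155444901) (nat_lit 61) (nat_lit 5) (nat_lit 66) (nat_lit 5) (nat_lit 62) (nat_lit 5) (nat_lit 363) (nat_lit 307) (nat_lit 110)) (XT.lf (nat_lit 0) (nat_lit 12827899654) (nat_lit 228) (nat_lit 22507330003) (nat_lit 304) (nat_lit 10346485063) (nat_lit 58) (nat_lit 5) (nat_lit 61) (nat_lit 5) (nat_lit 62) (nat_lit 5) (nat_lit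 364) (nat_lit 307) (nat_lit 109)))) (XT.nd (nat_lit 78) (nat_lit 304) (nat_lit 0) (XT.lf (nat_lit 0) (nat_lit 32546198977) (nat_lit 228) (nat_lit 10002523118) (nat_lit 304) (nat_lit 4099365728) (nat_lit 58) (nat_lit 5) (nat_lit 61) (nat_lit 5) (nat_lit 62) (nat_lit 5) (nat_lit 365) (nat_lit 307) (nat_lit 108)) (XT.nd (nat_lit 78) (nat_lit 0) (nat_lit 0) (XT.lf (nat_lit 0) (nat_lit 2366630215) (nat_lit 304) (nat_lit 42379475304) (nat_lit 76) (nat_lit 2894364944) (nat_lit 54) (nat_lit 5) (nat_lit 58) (nat_lit 5) (nat_lit 55) (nat_lit 5) (nat_lit 366) (nat_lit 307) (nat_lit 107)) (XT.lf (nat_lit 0) (nat_lit 9184885379) (nat_lit 304) (nat_lit 23308728706) (nat_lit 76) (nat_lit 16160575284) (nat_lit 54) (nat_lit 5) (nat_lit 58) (nat_lit 5) (nat_lit 55) (nat_lit 5) (nat_lit 367) (nat_lit 307) (nat_lit 106))))) (XT.nd (nat_lit 234) (nat_lit 304) (nat_lit 0) (XT.nd (nat_lit 78) (nat_lit 228) (nat_lit 0)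 (XT.lf (nat_lit 0) (nat_lit 16205577820) (nat_lit 304) (nat_lit 3668951136) (nat_lit 76) (nat_lit 29823856718) (nat_lit 54) (nat_lit 5) (nat_lit 58) (nat_lit 5) (nat_lit 55) (nat_lit 5) (nat_lit 368) (nat_lit 307) (nat_lit 105)) (XT.nd (nat_lit 78) (nat_lit 0) (nat_lit 0) (XT.lf (nat_lit 0) (nat_lit 16886535505) (nat_lit 228) (nat_lit 6710630327) (nat_lit 304) (nat_lit 27171936238) (nat_lit 51) (nat_lit 5) (nat_lit 54) (nat_lit 5) (nat_lit 55) (nat_lit 5) (nat_lit 369) (nat_lit 307) (nat_lit 104)) (XT.lf (nat_lit 0) (nat_lit 31311719495) (nat_lit 304) (nat_lit 13806153301) (nat_lit 76) (nat_lit 6751032998) (nat_lit 51) (nat_lit 5) (nat_lit 55) (nat_lit 5) (nat_lit 52) (nat_lit 5) (nat_lit 370) (nat_lit 307) (nat_lit 103)))) (XT.nd (nat_lit 78) (nat_lit 76) (nat_lit 0) (XT.lf (nat_lit 0) (nat_lit 6938569387) (nat_lit 228) (nat_lit 32450312102) (nat_lit 304) (nat_lit 13608889294) (nat_lit 48) (nat_lit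 5) (nat_lit 51) (nat_lit 5) (nat_lit 52) (nat_lit 5) (nat_lit 371) (nat_lit 307) (nat_lit 102)) (XT.nd (nat_lit 78) (nat_lit 76) (nat_lit 0) (XT.lf (nat_lit 0) (nat_lit 28585737593) (nat_lit 228) (nat_lit 19260097249) (nat_lit 304) (nat_lit 6310544824) (nat_lit 48) (nat_lit 5) (nat_lit 51) (nat_lit 5) (nat_lit 52) (nat_lit 5) (nat_lit 372) (nat_lit 307) (nat_lit 101)) (XT.lf (nat_lit 0) (nat_lit 1181299060) (nat_lit 304) (nat_lit 4481890019) (nat_lit 76) (nat_lit 49686268932) (nat_lit 47) (nat_lit 5) (nat_lit 51) (nat_lit 5) (nat_lit 48) (nat_lit 5) (nat_lit 373) (nat_lit 307) (nat_lit 100)))))) (XT.nd (nat_lit 468) (nat_lit 76) (nat_lit 0) (XT.nd (nat_lit 234) (nat_lit 152) (nat_lit 0) (XT.nd (nat_lit 78) (nat_lit 228) (nat_lit 0) (XT.lf (nat_lit 0) (nat_lit 9020051779) (nat_lit 304) (nat_lit 39137857196) (nat_lit 76) (nat_lit 8411077686) (nat_lit 44) (nat_lit 5) (nat_lit 48) (nat_lit 5) (nat_lit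 45) (nat_lit 5) (nat_lit 374) (nat_lit 307) (nat_lit 99)) (XT.nd (nat_lit 78) (nat_lit 228) (nat_lit 0) (XT.lf (nat_lit 0) (nat_lit 17193915576) (nat_lit 304) (nat_lit 17789649788) (nat_lit 76) (nat_lit 22838539340) (nat_lit 44) (nat_lit 5) (nat_lit 48) (nat_lit 5) (nat_lit 45) (nat_lit 5) (nat_lit 375) (nat_lit 307) (nat_lit 98)) (XT.lf (nat_lit 0) (nat_lit 4279798739) (nat_lit 228) (nat_lit 21372560779) (nat_lit 304) (nat_lit 33459277774) (nat_lit 41) (nat_lit 5) (nat_lit 44) (nat_lit 5) (nat_lit 45) (nat_lit 5) (nat_lit 376) (nat_lit 307) (nat_lit 97)))) (XT.nd (nat_lit 78) (nat_lit 152) (nat_lit 0) (XT.lf (nat_lit 0) (nat_lit 27373308373) (nat_lit 228) (nat_lit 7169139016) (nat_lit 304) (nat_lit 25892073626) (nat_lit 41) (nat_lit 5) (nat_lit 44) (nat_lit 5) (nat_lit 45) (nat_lit 5) (nat_lit 377) (nat_lit 307) (nat_lit 96)) (XT.nd (nat_lit 78) (nat_lit 152) (nat_lit 0) (XT.lf (nat_lit 0) (nat_lit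 43769243884) (nat_lit 304) (nat_lit 10711840036) (nat_lit 76) (nat_lit 7313908971) (nat_lit 41) (nat_lit 5) (nat_lit 45) (nat_lit 5) (nat_lit 42) (nat_lit 5) (nat_lit 378) (nat_lit 307) (nat_lit 95)) (XT.lf (nat_lit 0) (nat_lit 12477940876) (nat_lit 152) (nat_lit 40984172512) (nat_lit 228) (nat_lit 9728489228) (nat_lit 39) (nat_lit 5) (nat_lit 41) (nat_lit 5) (nat_lit 42) (nat_lit 5) (nat_lit 379) (nat_lit 307) (nat_lit 94))))) (XT.nd (nat_lit 35100) (nat_lit 0) (nat_lit 10260) (XT.nd (nat_lit 78) (nat_lit 76) (nat_lit 0) (XT.lf (nat_lit 0) (nat_lit 36580441871) (nat_lit 152) (nat_lit 26971861357) (nat_lit 228) (nat_lit 1072583095) (nat_lit 39) (nat_lit 5) (nat_lit 41) (nat_lit 5) (nat_lit 42) (nat_lit 5) (nat_lit 380) (nat_lit 307) (nat_lit 93)) (XT.nd (nat_lit 34944) (nat_lit 0) (nat_lit 10260) (XT.lf (nat_lit 0) (nat_lit 7688350964) (nat_lit 228) (nat_lit 4774087033) (nat_lit 76) (nat_lit 53637548530)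 (nat_lit 38) (nat_lit 5) (nat_lit 41) (nat_lit 5) (nat_lit 39) (nat_lit 5) (nat_lit 381) (nat_lit 307) (nat_lit 92)) (XT.lf (nat_lit 0) (nat_lit 5945808684) (nat_lit 1140) (nat_lit 1306131411) (nat_lit 1140) (nat_lit 1306131411) (nat_lit 173) (nat_lit 3) (nat_lit 188) (nat_lit 3) (nat_lit 188) (nat_lit 5) (nat_lit 308) (nat_lit 308) (nat_lit 164)))) (XT.nd (nat_lit 78) (nat_lit 0) (nat_lit 0) (XT.lf (nat_lit 76) (nat_lit 4835063820) (nat_lit 0) (nat_lit 7489116164) (nat_lit 1140) (nat_lit 5040663841) (nat_lit 174) (nat_lit 5) (nat_lit 173) (nat_lit 3) (nat_lit 188) (nat_lit 5) (nat_lit 309) (nat_lit 308) (nat_lit 163)) (XT.nd (nat_lit 78) (nat_lit 0) (nat_lit 76) (XT.lf (nat_lit 76) (nat_lit 12555092949) (nat_lit 0) (nat_lit 232857882) (nat_lit 1140) (nat_lit 4832524112) (nat_lit 174) (nat_lit 5) (nat_lit 173) (nat_lit 3) (nat_lit 188) (nat_lit 5) (nat_lit 310) (nat_lit 308) (nat_lit 162)) (XT.lf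 (nat_lit 76) (nat_lit 2599639355) (nat_lit 0) (nat_lit 10752716687) (nat_lit 1140) (nat_lit 4528833067) (nat_lit 175) (nat_lit 5) (nat_lit 174) (nat_lit 5) (nat_lit 189) (nat_lit 5) (nat_lit 311) (nat_lit 308) (nat_lit 161))))))))
noncomputable def xc219 : XT := (XT.nd (nat_lit 1794) (nat_lit 4484) (nat_lit 0) (XT.nd (nat_lit 858) (nat_lit 2508) (nat_lit 0) (XT.nd (nat_lit 390) (nat_lit 912) (nat_lit 0) (XT.nd (nat_lit 156) (nat_lit 0) (nat_lit 76) (XT.nd (nat_lit 78) (nat_lit 0) (nat_lit 76) (XT.lf (nat_lit 76) (nat_lit 10591707588) (nat_lit 0) (nat_lit 3387732472) (nat_lit 1140) (nat_lit 4168927532) (nat_lit 175) (nat_lit 5) (nat_lit 174) (nat_lit 5) (nat_lit 189) (nat_lit 5) (nat_lit 312) (nat_lit 308) (nat_lit 160)) (XT.lf (nat_lit 76) (nat_lit 362158335) (nat_lit 0) (nat_lit 14299583206) (nat_lit 1140) (nat_lit 3760742587) (nat_lit 176) (nat_lit 5) (nat_lit 175) (nat_lit 5) (nat_lit 190) (nat_lit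 5) (nat_lit 313) (nat_lit 308) (nat_lit 159))) (XT.nd (nat_lit 78) (nat_lit 0) (nat_lit 76) (XT.lf (nat_lit 76) (nat_lit 8634750861) (nat_lit 0) (nat_lit 6832023047) (nat_lit 1140) (nat_lit 3234996809) (nat_lit 176) (nat_lit 5) (nat_lit 175) (nat_lit 5) (nat_lit 190) (nat_lit 5) (nat_lit 314) (nat_lit 308) (nat_lit 158)) (XT.nd (nat_lit 78) (nat_lit 0) (nat_lit 0) (XT.lf (nat_lit 0) (nat_lit 16297198534) (nat_lit 1064) (nat_lit 1846783092) (nat_lit 1140) (nat_lit 845431034) (nat_lit 176) (nat_lit 5) (nat_lit 190) (nat_lit 5) (nat_lit 191) (nat_lit 5) (nat_lit 315) (nat_lit 308) (nat_lit 157)) (XT.lf (nat_lit 76) (nat_lit 6678262386) (nat_lit 0) (nat_lit 10599295986) (nat_lit 1140) (nat_lit 2004388401) (nat_lit 177) (nat_lit 5) (nat_lit 176) (nat_lit 5) (nat_lit 191) (nat_lit 5) (nat_lit 316) (nat_lit 308) (nat_lit 156))))) (XT.nd (nat_lit 234) (nat_lit 0) (nat_lit 76) (XT.nd (nat_lit 78) (nat_lit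 1064) (nat_lit 0) (XT.lf (nat_lit 76) (nat_lit 15492488762) (nat_lit 0) (nat_lit 2806828259) (nat_lit 1140) (nat_lit 1283593439) (nat_lit 177) (nat_lit 5) (nat_lit 176) (nat_lit 5) (nat_lit 191) (nat_lit 5) (nat_lit 317) (nat_lit 308) (nat_lit 155)) (XT.nd (nat_lit 78) (nat_lit 1140) (nat_lit 0) (XT.lf (nat_lit 76) (nat_lit 4715557790) (nat_lit 0) (nat_lit 14725225635) (nat_lit 1140) (nat_lit 449460790) (nat_lit 178) (nat_lit 5) (nat_lit 177) (nat_lit 5) (nat_lit 192) (nat_lit 5) (nat_lit 318) (nat_lit 308) (nat_lit 154)) (XT.lf (nat_lit 0) (nat_lit 464829834) (nat_lit 1140) (nat_lit 6372751106) (nat_lit 1216) (nat_lit 13367217107) (nat_lit 162) (nat_lit 5) (nat_lit 177) (nat_lit 5) (nat_lit 178) (nat_lit 5) (nat_lit 319) (nat_lit 308) (nat_lit 153)))) (XT.nd (nat_lit 78) (nat_lit 0) (nat_lit 0) (XT.lf (nat_lit 0) (nat_lit 1430331429) (nat_lit 1140) (nat_lit 17803023683) (nat_lit 1216) (nat_lit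 1294327119) (nat_lit 163) (nat_lit 5) (nat_lit 178) (nat_lit 5) (nat_lit 179) (nat_lit 5) (nat_lit 320) (nat_lit 308) (nat_lit 152)) (XT.nd (nat_lit 78) (nat_lit 0) (nat_lit 0) (XT.lf (nat_lit 0) (nat_lit 2551449174) (nat_lit 1140) (nat_lit 8705683552) (nat_lit 1216) (nat_lit 9599332061) (nat_lit 163) (nat_lit 5) (nat_lit 178) (nat_lit 5) (nat_lit 179) (nat_lit 5) (nat_lit 321) (nat_lit 308) (nat_lit 151)) (XT.lf (nat_lit 76) (nat_lit 673197910) (nat_lit 0) (nat_lit 3033612408) (nat_lit 1216) (nat_lit 17488293252) (nat_lit 164) (nat_lit 5) (nat_lit 163) (nat_lit 5) (nat_lit 179) (nat_lit 5) (nat_lit 322) (nat_lit 308) (nat_lit 150)))))) (XT.nd (nat_lit 468) (nat_lit 1672) (nat_lit 0) (XT.nd (nat_lit 234) (nat_lit 988) (nat_lit 0) (XT.nd (nat_lit 78) (nat_lit 0) (nat_lit 0) (XT.lf (nat_lit 0) (nat_lit 5032151638) (nat_lit 1140) (nat_lit 11087156855) (nat_lit 1216) (nat_lit 5420544168) (nat_lit 164)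 (nat_lit 5) (nat_lit 179) (nat_lit 5) (nat_lit 180) (nat_lit 5) (nat_lit 323) (nat_lit 308) (nat_lit 149)) (XT.nd (nat_lit 78) (nat_lit 0) (nat_lit 76) (XT.lf (nat_lit 0) (nat_lit 6421734159) (nat_lit 1140) (nat_lit 1403931439) (nat_lit 1216) (nat_lit 14068554612) (nat_lit 164) (nat_lit 5) (nat_lit 179) (nat_lit 5) (nat_lit 180) (nat_lit 5) (nat_lit 324) (nat_lit 308) (nat_lit 148)) (XT.lf (nat_lit 0) (nat_lit 7939316764) (nat_lit 1140) (nat_lit 13528741930) (nat_lit 76) (nat_lit 788580821) (nat_lit 165) (nat_lit 5) (nat_lit 180) (nat_lit 5) (nat_lit 166) (nat_lit 5) (nat_lit 325) (nat_lit 308) (nat_lit 147)))) (XT.nd (nat_lit 78) (nat_lit 1064) (nat_lit 0) (XT.lf (nat_lit 0) (nat_lit 9588957078) (nat_lit 1140) (nat_lit 3519199638) (nat_lit 76) (nat_lit 9519188593) (nat_lit 165) (nat_lit 5) (nat_lit 180) (nat_lit 5) (nat_lit 166) (nat_lit 5) (nat_lit 326) (nat_lit 308) (nat_lit 146)) (XT.nd (nat_lit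 78) (nat_lit 0) (nat_lit 0) (XT.lf (nat_lit 0) (nat_lit 6921288142) (nat_lit 1064) (nat_lit 4428214650) (nat_lit 1140) (nat_lit 11657836528) (nat_lit 151) (nat_lit 5) (nat_lit 165) (nat_lit 5) (nat_lit 166) (nat_lit 5) (nat_lit 327) (nat_lit 308) (nat_lit 145)) (XT.lf (nat_lit 0) (nat_lit 13237124968) (nat_lit 1140) (nat_lit 5698784174) (nat_lit 76) (nat_lit 4460605457) (nat_lit 151) (nat_lit 5) (nat_lit 166) (nat_lit 5) (nat_lit 152) (nat_lit 5) (nat_lit 328) (nat_lit 308) (nat_lit 144))))) (XT.nd (nat_lit 234) (nat_lit 608) (nat_lit 0) (XT.nd (nat_lit 78) (nat_lit 532) (nat_lit 0) (XT.lf (nat_lit 0) (nat_lit 5050418038) (nat_lit 532) (nat_lit 10218492791) (nat_lit 608) (nat_lit 8525837241) (nat_lit 144) (nat_lit 5) (nat_lit 151) (nat_lit 5) (nat_lit 152) (nat_lit 5) (nat_lit 329) (nat_lit 308) (nat_lit 143)) (XT.nd (nat_lit 78) (nat_lit 532) (nat_lit 0) (XT.lf (nat_lit 0) (nat_lit 16234567915)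 (nat_lit 532) (nat_lit 1179872154) (nat_lit 608) (nat_lit 6788913502) (nat_lit 144) (nat_lit 5) (nat_lit 151) (nat_lit 5) (nat_lit 152) (nat_lit 5) (nat_lit 330) (nat_lit 308) (nat_lit 142)) (XT.lf (nat_lit 0) (nat_lit 3108154620) (nat_lit 532) (nat_lit 16619593309) (nat_lit 608) (nat_lit 4893375393) (nat_lit 137) (nat_lit 5) (nat_lit 144) (nat_lit 5) (nat_lit 145) (nat_lit 5) (nat_lit 331) (nat_lit 308) (nat_lit 141)))) (XT.nd (nat_lit 78) (nat_lit 608) (nat_lit 0) (XT.lf (nat_lit 0) (nat_lit 14664511785) (nat_lit 532) (nat_lit 7533458125) (nat_lit 608) (nat_lit 2850839027) (nat_lit 137) (nat_lit 5) (nat_lit 144) (nat_lit 5) (nat_lit 145) (nat_lit 5) (nat_lit 332) (nat_lit 308) (nat_lit 140)) (XT.nd (nat_lit 78) (nat_lit 76) (nat_lit 0) (XT.lf (nat_lit 0) (nat_lit 1077367744) (nat_lit 532) (nat_lit 23688444546) (nat_lit 608) (nat_lit 722815400) (nat_lit 130) (nat_lit 5) (nat_lit 137) (nat_lit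 5) (nat_lit 138) (nat_lit 5) (nat_lit 333) (nat_lit 308) (nat_lit 139)) (XT.lf (nat_lit 0) (nat_lit 1616518624) (nat_lit 608) (nat_lit 12936889131) (nat_lit 76) (nat_lit 11382533047) (nat_lit 129) (nat_lit 5) (nat_lit 137) (nat_lit 5) (nat_lit 130) (nat_lit 5) (nat_lit 334) (nat_lit 308) (nat_lit 138))))))) (XT.nd (nat_lit 936) (nat_lit 2128) (nat_lit 0) (XT.nd (nat_lit 468) (nat_lit 912) (nat_lit 0) (XT.nd (nat_lit 234) (nat_lit 912) (nat_lit 0) (XT.nd (nat_lit 78) (nat_lit 532) (nat_lit 0) (XT.lf (nat_lit 0) (nat_lit 4007279711) (nat_lit 608) (nat_lit 1129711872) (nat_lit 76) (nat_lit 21259601083) (nat_lit 129) (nat_lit 5) (nat_lit 137) (nat_lit 5) (nat_lit 130) (nat_lit 5) (nat_lit 335) (nat_lit 308) (nat_lit 137)) (XT.nd (nat_lit 78) (nat_lit 0) (nat_lit 0) (XT.lf (nat_lit 0) (nat_lit 6618696677) (nat_lit 608) (nat_lit 15665866277) (nat_lit 76) (nat_lit 4582040231) (nat_lit 122) (nat_lit 5)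 (nat_lit 130) (nat_lit 5) (nat_lit 123) (nat_lit 5) (nat_lit 336) (nat_lit 308) (nat_lit 136)) (XT.lf (nat_lit 0) (nat_lit 9366815509) (nat_lit 608) (nat_lit 3481318814) (nat_lit 76) (nat_lit 14500835801) (nat_lit 122) (nat_lit 5) (nat_lit 130) (nat_lit 5) (nat_lit 123) (nat_lit 5) (nat_lit 337) (nat_lit 308) (nat_lit 135)))) (XT.nd (nat_lit 78) (nat_lit 456) (nat_lit 0) (XT.lf (nat_lit 0) (nat_lit 9245062831) (nat_lit 456) (nat_lit 3037278673) (nat_lit 532) (nat_lit 15560924342) (nat_lit 116) (nat_lit 5) (nat_lit 122) (nat_lit 5) (nat_lit 123) (nat_lit 5) (nat_lit 338) (nat_lit 308) (nat_lit 134)) (XT.nd (nat_lit 78) (nat_lit 456) (nat_lit 0) (XT.lf (nat_lit 0) (nat_lit 15384943642) (nat_lit 532) (nat_lit 5999210932) (nat_lit 76) (nat_lit 6965254044) (nat_lit 116) (nat_lit 5) (nat_lit 123) (nat_lit 5) (nat_lit 117) (nat_lit 5) (nat_lit 339) (nat_lit 308) (nat_lit 133)) (XT.lf (nat_lit 0) (nat_lit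 7081806706) (nat_lit 456) (nat_lit 11593242308) (nat_lit 532) (nat_lit 10192860204) (nat_lit 110) (nat_lit 5) (nat_lit 116) (nat_lit 5) (nat_lit 117) (nat_lit 5) (nat_lit 340) (nat_lit 308) (nat_lit 132))))) (XT.nd (nat_lit 234) (nat_lit 532) (nat_lit 0) (XT.nd (nat_lit 78) (nat_lit 380) (nat_lit 0) (XT.lf (nat_lit 0) (nat_lit 20674208960) (nat_lit 456) (nat_lit 1446577018) (nat_lit 532) (nat_lit 7279477122) (nat_lit 110) (nat_lit 5) (nat_lit 116) (nat_lit 5) (nat_lit 117) (nat_lit 5) (nat_lit 341) (nat_lit 308) (nat_lit 131)) (XT.nd (nat_lit 78) (nat_lit 0) (nat_lit 0) (XT.lf (nat_lit 0) (nat_lit 4727473584) (nat_lit 380) (nat_lit 21070872538) (nat_lit 456) (nat_lit 4146393882) (nat_lit 105) (nat_lit 5) (nat_lit 110) (nat_lit 5) (nat_lit 111) (nat_lit 5) (nat_lit 342) (nat_lit 308) (nat_lit 130)) (XT.lf (nat_lit 0) (nat_lit 18744898983) (nat_lit 380) (nat_lit 10940148452) (nat_lit 456) (nat_lit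 817545114) (nat_lit 105) (nat_lit 5) (nat_lit 110) (nat_lit 5) (nat_lit 111) (nat_lit 5) (nat_lit 343) (nat_lit 308) (nat_lit 129)))) (XT.nd (nat_lit 78) (nat_lit 0) (nat_lit 0) (XT.lf (nat_lit 0) (nat_lit 2117961541) (nat_lit 456) (nat_lit 459192097) (nat_lit 532) (nat_lit 28498771328) (nat_lit 98) (nat_lit 5) (nat_lit 104) (nat_lit 5) (nat_lit 105) (nat_lit 5) (nat_lit 344) (nat_lit 308) (nat_lit 128)) (XT.nd (nat_lit 78) (nat_lit 0) (nat_lit 0) (XT.lf (nat_lit 0) (nat_lit 6273160254) (nat_lit 532) (nat_lit 15124611994) (nat_lit 76) (nat_lit 10261970585) (nat_lit 98) (nat_lit 5) (nat_lit 105) (nat_lit 5) (nat_lit 99) (nat_lit 5) (nat_lit 345) (nat_lit 308) (nat_lit 127)) (XT.lf (nat_lit 0) (nat_lit 10081327258) (nat_lit 532) (nat_lit 884686247) (nat_lit 76) (nat_lit 21295028448) (nat_lit 98) (nat_lit 5) (nat_lit 105) (nat_lit 5) (nat_lit 99) (nat_lit 5) (nat_lit 346) (nat_lit 308) (nat_lit 126))))))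 (XT.nd (nat_lit 468) (nat_lit 988) (nat_lit 0) (XT.nd (nat_lit 234) (nat_lit 380) (nat_lit 0) (XT.nd (nat_lit 78) (nat_lit 380) (nat_lit 0) (XT.lf (nat_lit 0) (nat_lit 14052893064) (nat_lit 380) (nat_lit 82760081) (nat_lit 456) (nat_lit 18740774459) (nat_lit 93) (nat_lit 5) (nat_lit 98) (nat_lit 5) (nat_lit 99) (nat_lit 5) (nat_lit 347) (nat_lit 308) (nat_lit 125)) (XT.nd (nat_lit 78) (nat_lit 380) (nat_lit 0) (XT.lf (nat_lit 0) (nat_lit 18424469765) (nat_lit 456) (nat_lit 4164141949) (nat_lit 76) (nat_lit 10918282111) (nat_lit 93) (nat_lit 5) (nat_lit 99) (nat_lit 5) (nat_lit 94) (nat_lit 5) (nat_lit 348) (nat_lit 308) (nat_lit 124)) (XT.lf (nat_lit 0) (nat_lit 11148040573) (nat_lit 380) (nat_lit 11798861855) (nat_lit 456) (nat_lit 11206227745) (nat_lit 88) (nat_lit 5) (nat_lit 93) (nat_lit 5) (nat_lit 94) (nat_lit 5) (nat_lit 349) (nat_lit 308) (nat_lit 123)))) (XT.nd (nat_lit 78) (nat_lit 380)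 (nat_lit 0) (XT.lf (nat_lit 0) (nat_lit 27001274913) (nat_lit 380) (nat_lit 642806101) (nat_lit 456) (nat_lit 7173504960) (nat_lit 88) (nat_lit 5) (nat_lit 93) (nat_lit 5) (nat_lit 94) (nat_lit 5) (nat_lit 350) (nat_lit 308) (nat_lit 122)) (XT.nd (nat_lit 78) (nat_lit 76) (nat_lit 0) (XT.lf (nat_lit 0) (nat_lit 7873848966) (nat_lit 304) (nat_lit 24785394660) (nat_lit 380) (nat_lit 2837424183) (nat_lit 84) (nat_lit 5) (nat_lit 88) (nat_lit 5) (nat_lit 89) (nat_lit 5) (nat_lit 351) (nat_lit 308) (nat_lit 121)) (XT.lf (nat_lit 0) (nat_lit 1680152436) (nat_lit 380) (nat_lit 12025293773) (nat_lit 76) (nat_lit 22487714482) (nat_lit 83) (nat_lit 5) (nat_lit 88) (nat_lit 5) (nat_lit 84) (nat_lit 5) (nat_lit 352) (nat_lit 308) (nat_lit 120))))) (XT.nd (nat_lit 234) (nat_lit 608) (nat_lit 0) (XT.nd (nat_lit 78) (nat_lit 0) (nat_lit 0) (XT.lf (nat_lit 0) (nat_lit 4088269999) (nat_lit 380) (nat_lit 2224460427)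 (nat_lit 456) (nat_lit 30595884073) (nat_lit 78) (nat_lit 5) (nat_lit 83) (nat_lit 5) (nat_lit 84) (nat_lit 5) (nat_lit 353) (nat_lit 308) (nat_lit 119)) (XT.nd (nat_lit 78) (nat_lit 0) (nat_lit 0) (XT.lf (nat_lit 0) (nat_lit 11296454593) (nat_lit 456) (nat_lit 16807248501) (nat_lit 76) (nat_lit 9535467688) (nat_lit 78) (nat_lit 5) (nat_lit 84) (nat_lit 5) (nat_lit 79) (nat_lit 5) (nat_lit 354) (nat_lit 308) (nat_lit 118)) (XT.lf (nat_lit 0) (nat_lit 16449039506) (nat_lit 456) (nat_lit 339293112) (nat_lit 76) (nat_lit 21602734476) (nat_lit 78) (nat_lit 5) (nat_lit 84) (nat_lit 5) (nat_lit 79) (nat_lit 5) (nat_lit 355) (nat_lit 308) (nat_lit 117)))) (XT.nd (nat_lit 78) (nat_lit 304) (nat_lit 0) (XT.lf (nat_lit 0) (nat_lit 16950050551) (nat_lit 304) (nat_lit 4966488253) (nat_lit 380) (nat_lit 17244175087) (nat_lit 74) (nat_lit 5) (nat_lit 78) (nat_lit 5) (nat_lit 79) (nat_lit 5) (nat_lit 356) (nat_lit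 308) (nat_lit 116)) (XT.nd (nat_lit 78) (nat_lit 304) (nat_lit 0) (XT.lf (nat_lit 0) (nat_lit 27618268173) (nat_lit 380) (nat_lit 5261104434) (nat_lit 76) (nat_lit 7071974926) (nat_lit 74) (nat_lit 5) (nat_lit 79) (nat_lit 5) (nat_lit 75) (nat_lit 5) (nat_lit 357) (nat_lit 308) (nat_lit 115)) (XT.lf (nat_lit 0) (nat_lit 12386120411) (nat_lit 304) (nat_lit 21270677683) (nat_lit 380) (nat_lit 7103933117) (nat_lit 70) (nat_lit 5) (nat_lit 74) (nat_lit 5) (nat_lit 75) (nat_lit 5) (nat_lit 358) (nat_lit 308) (nat_lit 114))))))))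
noncomputable def xc220 : XT := (XT.nd (nat_lit 36816) (nat_lit 0) (nat_lit 7448) (XT.nd (nat_lit 858) (nat_lit 1140) (nat_lit 0) (XT.nd (nat_lit 390) (nat_lit 532) (nat_lit 0) (XT.nd (nat_lit 156) (nat_lit 304) (nat_lit 0) (XT.nd (nat_lit 78) (nat_lit 380) (nat_lit 0) (XT.lf (nat_lit 0) (nat_lit 30667296785) (nat_lit 304) (nat_lit 9259867129) (nat_lit 380) (nat_lit 1665715473) (nat_lit 70) (nat_lit 5) (nat_lit 74) (nat_lit 5) (nat_lit 75) (nat_lit 5) (nat_lit 359) (nat_lit 308) (nat_lit 113)) (XT.lf (nat_lit 0) (nat_lit 3956085898) (nat_lit 380) (nat_lit 35332578629) (nat_lit 76) (nat_lit 3157278641) (nat_lit 65) (nat_lit 5) (nat_lit 70) (nat_lit 5) (nat_lit 66) (nat_lit 5) (nat_lit 360) (nat_lit 308) (nat_lit 112))) (XT.nd (nat_lit 78) (nat_lit 304) (nat_lit 0) (XT.lf (nat_lit 0) (nat_lit 9913791416) (nat_lit 380) (nat_lit 17516412464) (nat_lit 76) (nat_lit 15887881433) (nat_lit 65) (nat_lit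 5) (nat_lit 70) (nat_lit 5) (nat_lit 66) (nat_lit 5) (nat_lit 361) (nat_lit 308) (nat_lit 111)) (XT.nd (nat_lit 78) (nat_lit 0) (nat_lit 0) (XT.lf (nat_lit 0) (nat_lit 847573222) (nat_lit 304) (nat_lit 15208499528) (nat_lit 380) (nat_lit 28160146643) (nat_lit 61) (nat_lit 5) (nat_lit 65) (nat_lit 5) (nat_lit 66) (nat_lit 5) (nat_lit 362) (nat_lit 308) (nat_lit 110)) (XT.lf (nat_lit 0) (nat_lit 20118374513) (nat_lit 304) (nat_lit 2438863258) (nat_lit 380) (nat_lit 22578824189) (nat_lit 61) (nat_lit 5) (nat_lit 65) (nat_lit 5) (nat_lit 66) (nat_lit 5) (nat_lit 363) (nat_lit 308) (nat_lit 109))))) (XT.nd (nat_lit 234) (nat_lit 304) (nat_lit 0) (XT.nd (nat_lit 78) (nat_lit 228) (nat_lit 0) (XT.lf (nat_lit 0) (nat_lit 29354217303) (nat_lit 380) (nat_lit 6222329359) (nat_lit 76) (nat_lit 10503932590) (nat_lit 61) (nat_lit 5) (nat_lit 66) (nat_lit 5) (nat_lit 62) (nat_lit 5) (nat_lit 364) (nat_lit 308)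 (nat_lit 108)) (XT.nd (nat_lit 78) (nat_lit 0) (nat_lit 0) (XT.lf (nat_lit 0) (nat_lit 13370601189) (nat_lit 228) (nat_lit 23135034286) (nat_lit 304) (nat_lit 10543080464) (nat_lit 58) (nat_lit 5) (nat_lit 61) (nat_lit 5) (nat_lit 62) (nat_lit 5) (nat_lit 365) (nat_lit 308) (nat_lit 107)) (XT.lf (nat_lit 0) (nat_lit 33675851495) (nat_lit 228) (nat_lit 10256467144) (nat_lit 304) (nat_lit 4111862088) (nat_lit 58) (nat_lit 5) (nat_lit 61) (nat_lit 5) (nat_lit 62) (nat_lit 5) (nat_lit 366) (nat_lit 308) (nat_lit 106)))) (XT.nd (nat_lit 78) (nat_lit 0) (nat_lit 0) (XT.lf (nat_lit 0) (nat_lit 2544738598) (nat_lit 304) (nat_lit 43493958254) (nat_lit 76) (nat_lit 3027646546) (nat_lit 54) (nat_lit 5) (nat_lit 58) (nat_lit 5) (nat_lit 55) (nat_lit 5) (nat_lit 367) (nat_lit 308) (nat_lit 105)) (XT.nd (nat_lit 78) (nat_lit 0) (nat_lit 0) (XT.lf (nat_lit 0) (nat_lit 9564421723) (nat_lit 304) (nat_lit 23855659199)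 (nat_lit 76) (nat_lit 16690490266) (nat_lit 54) (nat_lit 5) (nat_lit 58) (nat_lit 5) (nat_lit 55) (nat_lit 5) (nat_lit 368) (nat_lit 308) (nat_lit 104)) (XT.lf (nat_lit 0) (nat_lit 16792706109) (nat_lit 304) (nat_lit 3631125138) (nat_lit 76) (nat_lit 30762356616) (nat_lit 54) (nat_lit 5) (nat_lit 58) (nat_lit 5) (nat_lit 55) (nat_lit 5) (nat_lit 369) (nat_lit 308) (nat_lit 103)))))) (XT.nd (nat_lit 468) (nat_lit 380) (nat_lit 0) (XT.nd (nat_lit 234) (nat_lit 304) (nat_lit 0) (XT.nd (nat_lit 78) (nat_lit 228) (nat_lit 0) (XT.lf (nat_lit 0) (nat_lit 17539576157) (nat_lit 228) (nat_lit 6864932710) (nat_lit 304) (nat_lit 27884566383) (nat_lit 51) (nat_lit 5) (nat_lit 54) (nat_lit 5) (nat_lit 55) (nat_lit 5) (nat_lit 370) (nat_lit 308) (nat_lit 102)) (XT.nd (nat_lit 78) (nat_lit 228) (nat_lit 0) (XT.lf (nat_lit 0) (nat_lit 32348041964) (nat_lit 304) (nat_lit 14075587883) (nat_lit 76) (nat_lit 6998320362)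 (nat_lit 51) (nat_lit 5) (nat_lit 55) (nat_lit 5) (nat_lit 52) (nat_lit 5) (nat_lit 371) (nat_lit 308) (nat_lit 101)) (XT.lf (nat_lit 0) (nat_lit 7290057368) (nat_lit 228) (nat_lit 33376014839) (nat_lit 304) (nat_lit 13918655648) (nat_lit 48) (nat_lit 5) (nat_lit 51) (nat_lit 5) (nat_lit 52) (nat_lit 5) (nat_lit 372) (nat_lit 308) (nat_lit 100)))) (XT.nd (nat_lit 78) (nat_lit 304) (nat_lit 0) (XT.lf (nat_lit 0) (nat_lit 29582465934) (nat_lit 228) (nat_lit 19791485967) (nat_lit 304) (nat_lit 6404229785) (nat_lit 48) (nat_lit 5) (nat_lit 51) (nat_lit 5) (nat_lit 52) (nat_lit 5) (nat_lit 373) (nat_lit 308) (nat_lit 99)) (XT.nd (nat_lit 78) (nat_lit 228) (nat_lit 0) (XT.lf (nat_lit 0) (nat_lit 1307772275) (nat_lit 304) (nat_lit 4479330879) (nat_lit 76) (nat_lit 51220006609) (nat_lit 47) (nat_lit 5) (nat_lit 51) (nat_lit 5) (nat_lit 48) (nat_lit 5) (nat_lit 374) (nat_lit 308) (nat_lit 98)) (XT.lf (nat_lit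 0) (nat_lit 9380782302) (nat_lit 304) (nat_lit 40173973778) (nat_lit 76) (nat_lit 8708498291) (nat_lit 44) (nat_lit 5) (nat_lit 48) (nat_lit 5) (nat_lit 45) (nat_lit 5) (nat_lit 375) (nat_lit 308) (nat_lit 97))))) (XT.nd (nat_lit 234) (nat_lit 152) (nat_lit 0) (XT.nd (nat_lit 78) (nat_lit 228) (nat_lit 0) (XT.lf (nat_lit 0) (nat_lit 17797236897) (nat_lit 304) (nat_lit 18189340122) (nat_lit 76) (nat_lit 23567470545) (nat_lit 44) (nat_lit 5) (nat_lit 48) (nat_lit 5) (nat_lit 45) (nat_lit 5) (nat_lit 376) (nat_lit 308) (nat_lit 96)) (XT.nd (nat_lit 78) (nat_lit 0) (nat_lit 0) (XT.lf (nat_lit 0) (nat_lit 4540878144) (nat_lit 228) (nat_lit 21967282812) (nat_lit 304) (nat_lit 34374146142) (nat_lit 41) (nat_lit 5) (nat_lit 44) (nat_lit 5) (nat_lit 45) (nat_lit 5) (nat_lit 377) (nat_lit 308) (nat_lit 95)) (XT.lf (nat_lit 0) (nat_lit 28323328442) (nat_lit 228) (nat_lit 7339111448) (nat_lit 304) (nat_lit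 26582515480) (nat_lit 41) (nat_lit 5) (nat_lit 44) (nat_lit 5) (nat_lit 45) (nat_lit 5) (nat_lit 378) (nat_lit 308) (nat_lit 94)))) (XT.nd (nat_lit 78) (nat_lit 152) (nat_lit 0) (XT.lf (nat_lit 0) (nat_lit 45164022778) (nat_lit 304) (nat_lit 10906021891) (nat_lit 76) (nat_lit 7576259872) (nat_lit 41) (nat_lit 5) (nat_lit 45) (nat_lit 5) (nat_lit 42) (nat_lit 5) (nat_lit 379) (nat_lit 308) (nat_lit 93)) (XT.nd (nat_lit 35100) (nat_lit 0) (nat_lit 10184) (XT.lf (nat_lit 0) (nat_lit 12978205651) (nat_lit 152) (nat_lit 42168303542) (nat_lit 228) (nat_lit 9937310976) (nat_lit 39) (nat_lit 5) (nat_lit 41) (nat_lit 5) (nat_lit 42) (nat_lit 5) (nat_lit 380) (nat_lit 308) (nat_lit 92)) (XT.lf (nat_lit 0) (nat_lit 6329897065) (nat_lit 1140) (nat_lit 1239166738) (nat_lit 1140) (nat_lit 1239166738) (nat_lit 173) (nat_lit 3) (nat_lit 188) (nat_lit 3) (nat_lit 188) (nat_lit 5) (nat_lit 309) (nat_lit 309) (nat_lit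 162))))))) (XT.nd (nat_lit 936) (nat_lit 1900) (nat_lit 0) (XT.nd (nat_lit 468) (nat_lit 836) (nat_lit 0) (XT.nd (nat_lit 234) (nat_lit 0) (nat_lit 76) (XT.nd (nat_lit 78) (nat_lit 0) (nat_lit 0) (XT.lf (nat_lit 76) (nat_lit 5190331620) (nat_lit 0) (nat_lit 7905039381) (nat_lit 1140) (nat_lit 4777574778) (nat_lit 174) (nat_lit 5) (nat_lit 173) (nat_lit 3) (nat_lit 188) (nat_lit 5) (nat_lit 310) (nat_lit 309) (nat_lit 161)) (XT.nd (nat_lit 78) (nat_lit 0) (nat_lit 76) (XT.lf (nat_lit 76) (nat_lit 13135838831) (nat_lit 0) (nat_lit 425522971) (nat_lit 1140) (nat_lit 4575258109) (nat_lit 174) (nat_lit 5) (nat_lit 173) (nat_lit 3) (nat_lit 188) (nat_lit 5) (nat_lit 311) (nat_lit 309) (nat_lit 160)) (XT.lf (nat_lit 76) (nat_lit 2893835115) (nat_lit 0) (nat_lit 11237856891) (nat_lit 1140) (nat_lit 4273816315) (nat_lit 175) (nat_lit 5) (nat_lit 174) (nat_lit 5) (nat_lit 189) (nat_lit 5) (nat_lit 312) (nat_lit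 309) (nat_lit 159)))) (XT.nd (nat_lit 78) (nat_lit 0) (nat_lit 76) (XT.lf (nat_lit 76) (nat_lit 11119368116) (nat_lit 0) (nat_lit 3647188430) (nat_lit 1140) (nat_lit 3914498519) (nat_lit 175) (nat_lit 5) (nat_lit 174) (nat_lit 5) (nat_lit 189) (nat_lit 5) (nat_lit 313) (nat_lit 309) (nat_lit 158)) (XT.nd (nat_lit 78) (nat_lit 0) (nat_lit 0) (XT.lf (nat_lit 76) (nat_lit 594024904) (nat_lit 0) (nat_lit 14865242980) (nat_lit 1140) (nat_lit 3504450295) (nat_lit 176) (nat_lit 5) (nat_lit 175) (nat_lit 5) (nat_lit 190) (nat_lit 5) (nat_lit 314) (nat_lit 309) (nat_lit 157)) (XT.lf (nat_lit 76) (nat_lit 9108358260) (nat_lit 0) (nat_lit 7169675270) (nat_lit 1140) (nat_lit 2973683054) (nat_lit 176) (nat_lit 5) (nat_lit 175) (nat_lit 5) (nat_lit 190) (nat_lit 5) (nat_lit 315) (nat_lit 309) (nat_lit 156))))) (XT.nd (nat_lit 234) (nat_lit 1064) (nat_lit 0) (XT.nd (nat_lit 78) (nat_lit 0) (nat_lit 0) (XT.lf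 (nat_lit 0) (nat_lit 17122018270) (nat_lit 1064) (nat_lit 1681849071) (nat_lit 1140) (nat_lit 744481108) (nat_lit 176) (nat_lit 5) (nat_lit 190) (nat_lit 5) (nat_lit 191) (nat_lit 5) (nat_lit 316) (nat_lit 309) (nat_lit 155)) (XT.nd (nat_lit 78) (nat_lit 0) (nat_lit 0) (XT.lf (nat_lit 76) (nat_lit 7096787600) (nat_lit 0) (nat_lit 11027314952) (nat_lit 1140) (nat_lit 1725806123) (nat_lit 177) (nat_lit 5) (nat_lit 176) (nat_lit 5) (nat_lit 191) (nat_lit 5) (nat_lit 317) (nat_lit 309) (nat_lit 154)) (XT.lf (nat_lit 76) (nat_lit 16169086088) (nat_lit 0) (nat_lit 2997868142) (nat_lit 1140) (nat_lit 993252767) (nat_lit 177) (nat_lit 5) (nat_lit 176) (nat_lit 5) (nat_lit 191) (nat_lit 5) (nat_lit 318) (nat_lit 309) (nat_lit 153)))) (XT.nd (nat_lit 78) (nat_lit 1140) (nat_lit 0) (XT.lf (nat_lit 76) (nat_lit 5077878257) (nat_lit 0) (nat_lit 15256631005) (nat_lit 1140) (nat_lit 142514542) (nat_lit 178) (nat_lit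 5) (nat_lit 177) (nat_lit 5) (nat_lit 192) (nat_lit 5) (nat_lit 319) (nat_lit 309) (nat_lit 152)) (XT.nd (nat_lit 78) (nat_lit 0) (nat_lit 76) (XT.lf (nat_lit 0) (nat_lit 783801259) (nat_lit 1140) (nat_lit 6342864415) (nat_lit 1216) (nat_lit 13674548020) (nat_lit 162) (nat_lit 5) (nat_lit 177) (nat_lit 5) (nat_lit 178) (nat_lit 5) (nat_lit 320) (nat_lit 309) (nat_lit 151)) (XT.lf (nat_lit 0) (nat_lit 1770725145) (nat_lit 1140) (nat_lit 18107941734) (nat_lit 1216) (nat_lit 1255360628) (nat_lit 163) (nat_lit 5) (nat_lit 178) (nat_lit 5) (nat_lit 179) (nat_lit 5) (nat_lit 321) (nat_lit 309) (nat_lit 150)))))) (XT.nd (nat_lit 468) (nat_lit 1976) (nat_lit 0) (XT.nd (nat_lit 234) (nat_lit 0) (nat_lit 76) (XT.nd (nat_lit 78) (nat_lit 0) (nat_lit 0) (XT.lf (nat_lit 0) (nat_lit 2916811846) (nat_lit 1140) (nat_lit 8744356331) (nat_lit 1216) (nat_lit 9811781631) (nat_lit 163) (nat_lit 5) (nat_lit 178) (nat_lit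 5) (nat_lit 179) (nat_lit 5) (nat_lit 322) (nat_lit 309) (nat_lit 149)) (XT.nd (nat_lit 78) (nat_lit 0) (nat_lit 76) (XT.lf (nat_lit 76) (nat_lit 913710224) (nat_lit 0) (nat_lit 3186829206) (nat_lit 1216) (nat_lit 17721413010) (nat_lit 164) (nat_lit 5) (nat_lit 163) (nat_lit 5) (nat_lit 179) (nat_lit 5) (nat_lit 323) (nat_lit 309) (nat_lit 148)) (XT.lf (nat_lit 0) (nat_lit 5456831544) (nat_lit 1140) (nat_lit 11196549620) (nat_lit 1216) (nat_lit 5523942517) (nat_lit 164) (nat_lit 5) (nat_lit 179) (nat_lit 5) (nat_lit 180) (nat_lit 5) (nat_lit 324) (nat_lit 309) (nat_lit 147)))) (XT.nd (nat_lit 78) (nat_lit 0) (nat_lit 76) (XT.lf (nat_lit 0) (nat_lit 6880129249) (nat_lit 1140) (nat_lit 1229329051) (nat_lit 1216) (nat_lit 14433118069) (nat_lit 164) (nat_lit 5) (nat_lit 179) (nat_lit 5) (nat_lit 180) (nat_lit 5) (nat_lit 325) (nat_lit 309) (nat_lit 146)) (XT.nd (nat_lit 78) (nat_lit 0) (nat_lit 0)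 (XT.lf (nat_lit 0) (nat_lit 8437124980) (nat_lit 1140) (nat_lit 13711285860) (nat_lit 76) (nat_lit 767655354) (nat_lit 165) (nat_lit 5) (nat_lit 180) (nat_lit 5) (nat_lit 166) (nat_lit 5) (nat_lit 326) (nat_lit 309) (nat_lit 145)) (XT.lf (nat_lit 0) (nat_lit 10128692502) (nat_lit 1140) (nat_lit 3407961717) (nat_lit 76) (nat_lit 9761479890) (nat_lit 165) (nat_lit 5) (nat_lit 180) (nat_lit 5) (nat_lit 166) (nat_lit 5) (nat_lit 327) (nat_lit 309) (nat_lit 144))))) (XT.nd (nat_lit 234) (nat_lit 532) (nat_lit 0) (XT.nd (nat_lit 78) (nat_lit 532) (nat_lit 0) (XT.lf (nat_lit 0) (nat_lit 7343615070) (nat_lit 1064) (nat_lit 4593161483) (nat_lit 1140) (nat_lit 11752923404) (nat_lit 151) (nat_lit 5) (nat_lit 165) (nat_lit 5) (nat_lit 166) (nat_lit 5) (nat_lit 328) (nat_lit 309) (nat_lit 143)) (XT.nd (nat_lit 78) (nat_lit 532) (nat_lit 0) (XT.lf (nat_lit 0) (nat_lit 13873539794) (nat_lit 1140) (nat_lit 5653382267)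 (nat_lit 76) (nat_lit 4563866340) (nat_lit 151) (nat_lit 5) (nat_lit 166) (nat_lit 5) (nat_lit 152) (nat_lit 5) (nat_lit 329) (nat_lit 309) (nat_lit 142)) (XT.lf (nat_lit 0) (nat_lit 5416174781) (nat_lit 532) (nat_lit 10545193962) (nat_lit 608) (nat_lit 8539760339) (nat_lit 144) (nat_lit 5) (nat_lit 151) (nat_lit 5) (nat_lit 152) (nat_lit 5) (nat_lit 330) (nat_lit 309) (nat_lit 141)))) (XT.nd (nat_lit 78) (nat_lit 532) (nat_lit 0) (XT.lf (nat_lit 0) (nat_lit 16929609032) (nat_lit 532) (nat_lit 1234827918) (nat_lit 608) (nat_lit 6757773121) (nat_lit 144) (nat_lit 5) (nat_lit 151) (nat_lit 5) (nat_lit 152) (nat_lit 5) (nat_lit 331) (nat_lit 309) (nat_lit 140)) (XT.nd (nat_lit 78) (nat_lit 0) (nat_lit 0) (XT.lf (nat_lit 0) (nat_lit 3414723344) (nat_lit 532) (nat_lit 17127660691) (nat_lit 608) (nat_lit 4810283830) (nat_lit 137) (nat_lit 5) (nat_lit 144) (nat_lit 5) (nat_lit 145) (nat_lit 5) (nat_lit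 332) (nat_lit 309) (nat_lit 139)) (XT.lf (nat_lit 0) (nat_lit 15311557901) (nat_lit 532) (nat_lit 7768665348) (nat_lit 608) (nat_lit 2713167281) (nat_lit 137) (nat_lit 5) (nat_lit 144) (nat_lit 5) (nat_lit 145) (nat_lit 5) (nat_lit 333) (nat_lit 309) (nat_lit 138))))))))
noncomputable def xc221 : XT := (XT.nd (nat_lit 1794) (nat_lit 2812) (nat_lit 0) (XT.nd (nat_lit 858) (nat_lit 2052) (nat_lit 0) (XT.nd (nat_lit 390) (nat_lit 1292) (nat_lit 0) (XT.nd (nat_lit 156) (nat_lit 532) (nat_lit 0) (XT.nd (nat_lit 78) (nat_lit 76) (nat_lit 0) (XT.lf (nat_lit 0) (nat_lit 1321671841) (nat_lit 532) (nat_lit 24399080463) (nat_lit 608) (nat_lit 525793453) (nat_lit 130) (nat_lit 5) (nat_lit 137) (nat_lit 5) (nat_lit 138) (nat_lit 5) (nat_lit 334) (nat_lit 309) (nat_lit 137)) (XT.lf (nat_lit 0) (nat_lit 1873207056) (nat_lit 608) (nat_lit 13114683680) (nat_lit 76) (nat_lit 11719522627) (nat_lit 129) (nat_lit 5)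 (nat_lit 137) (nat_lit 5) (nat_lit 130) (nat_lit 5) (nat_lit 335) (nat_lit 309) (nat_lit 136))) (XT.nd (nat_lit 78) (nat_lit 532) (nat_lit 0) (XT.lf (nat_lit 0) (nat_lit 4329627105) (nat_lit 608) (nat_lit 959416699) (nat_lit 76) (nat_lit 21893033376) (nat_lit 129) (nat_lit 5) (nat_lit 137) (nat_lit 5) (nat_lit 130) (nat_lit 5) (nat_lit 336) (nat_lit 309) (nat_lit 135)) (XT.nd (nat_lit 78) (nat_lit 0) (nat_lit 0) (XT.lf (nat_lit 0) (nat_lit 7015481296) (nat_lit 608) (nat_lit 15927411233) (nat_lit 76) (nat_lit 4723422822) (nat_lit 122) (nat_lit 5) (nat_lit 130) (nat_lit 5) (nat_lit 123) (nat_lit 5) (nat_lit 337) (nat_lit 309) (nat_lit 134)) (XT.lf (nat_lit 0) (nat_lit 9840270186) (nat_lit 608) (nat_lit 3383398152) (nat_lit 76) (nat_lit 14939668044) (nat_lit 122) (nat_lit 5) (nat_lit 130) (nat_lit 5) (nat_lit 123) (nat_lit 5) (nat_lit 338) (nat_lit 309) (nat_lit 133))))) (XT.nd (nat_lit 234) (nat_lit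 380) (nat_lit 0) (XT.nd (nat_lit 78) (nat_lit 456) (nat_lit 0) (XT.lf (nat_lit 0) (nat_lit 9722791018) (nat_lit 456) (nat_lit 3116791736) (nat_lit 532) (nat_lit 15832998191) (nat_lit 116) (nat_lit 5) (nat_lit 122) (nat_lit 5) (nat_lit 123) (nat_lit 5) (nat_lit 339) (nat_lit 309) (nat_lit 132)) (XT.nd (nat_lit 78) (nat_lit 456) (nat_lit 0) (XT.lf (nat_lit 0) (nat_lit 16029873080) (nat_lit 532) (nat_lit 5978946852) (nat_lit 76) (nat_lit 7185259078) (nat_lit 116) (nat_lit 5) (nat_lit 123) (nat_lit 5) (nat_lit 117) (nat_lit 5) (nat_lit 340) (nat_lit 309) (nat_lit 131)) (XT.lf (nat_lit 0) (nat_lit 7492538174) (nat_lit 456) (nat_lit 11922708203) (nat_lit 532) (nat_lit 10313000348) (nat_lit 110) (nat_lit 5) (nat_lit 116) (nat_lit 5) (nat_lit 117) (nat_lit 5) (nat_lit 341) (nat_lit 309) (nat_lit 130)))) (XT.nd (nat_lit 78) (nat_lit 380) (nat_lit 0) (XT.lf (nat_lit 0) (nat_lit 21486937430) (nat_lit 456)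 (nat_lit 1472176877) (nat_lit 532) (nat_lit 7317622929) (nat_lit 110) (nat_lit 5) (nat_lit 116) (nat_lit 5) (nat_lit 117) (nat_lit 5) (nat_lit 342) (nat_lit 309) (nat_lit 129)) (XT.nd (nat_lit 78) (nat_lit 0) (nat_lit 0) (XT.lf (nat_lit 0) (nat_lit 5065222817) (nat_lit 380) (nat_lit 21678739399) (nat_lit 456) (nat_lit 4093685925) (nat_lit 105) (nat_lit 5) (nat_lit 110) (nat_lit 5) (nat_lit 111) (nat_lit 5) (nat_lit 343) (nat_lit 309) (nat_lit 128)) (XT.lf (nat_lit 0) (nat_lit 19497464424) (nat_lit 380) (nat_lit 11244800173) (nat_lit 456) (nat_lit 670129940) (nat_lit 105) (nat_lit 5) (nat_lit 110) (nat_lit 5) (nat_lit 111) (nat_lit 5) (nat_lit 344) (nat_lit 309) (nat_lit 127)))))) (XT.nd (nat_lit 468) (nat_lit 760) (nat_lit 0) (XT.nd (nat_lit 234) (nat_lit 760) (nat_lit 0) (XT.nd (nat_lit 78) (nat_lit 0) (nat_lit 0) (XT.lf (nat_lit 0) (nat_lit 2373441433) (nat_lit 456) (nat_lit 446547916) (nat_lit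 532) (nat_lit 29182987749) (nat_lit 98) (nat_lit 5) (nat_lit 104) (nat_lit 5) (nat_lit 105) (nat_lit 5) (nat_lit 345) (nat_lit 309) (nat_lit 126)) (XT.nd (nat_lit 78) (nat_lit 0) (nat_lit 0) (XT.lf (nat_lit 0) (nat_lit 6622301728) (nat_lit 532) (nat_lit 15387172978) (nat_lit 76) (nat_lit 10594979602) (nat_lit 98) (nat_lit 5) (nat_lit 105) (nat_lit 5) (nat_lit 99) (nat_lit 5) (nat_lit 346) (nat_lit 309) (nat_lit 125)) (XT.lf (nat_lit 0) (nat_lit 10540025975) (nat_lit 532) (nat_lit 725617731) (nat_lit 76) (nat_lit 21958296679) (nat_lit 98) (nat_lit 5) (nat_lit 105) (nat_lit 5) (nat_lit 99) (nat_lit 5) (nat_lit 347) (nat_lit 309) (nat_lit 124)))) (XT.nd (nat_lit 78) (nat_lit 380) (nat_lit 0) (XT.lf (nat_lit 0) (nat_lit 14658269262) (nat_lit 380) (nat_lit 54927843) (nat_lit 456) (nat_lit 19144681175) (nat_lit 93) (nat_lit 5) (nat_lit 98) (nat_lit 5) (nat_lit 99) (nat_lit 5) (nat_lit 348) (nat_lit 309)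 (nat_lit 123)) (XT.nd (nat_lit 78) (nat_lit 380) (nat_lit 0) (XT.lf (nat_lit 0) (nat_lit 19126491015) (nat_lit 456) (nat_lit 4106211691) (nat_lit 76) (nat_lit 11274688326) (nat_lit 93) (nat_lit 5) (nat_lit 99) (nat_lit 5) (nat_lit 94) (nat_lit 5) (nat_lit 349) (nat_lit 309) (nat_lit 122)) (XT.lf (nat_lit 0) (nat_lit 11663543615) (nat_lit 380) (nat_lit 12118445351) (nat_lit 456) (nat_lit 11391110464) (nat_lit 88) (nat_lit 5) (nat_lit 93) (nat_lit 5) (nat_lit 94) (nat_lit 5) (nat_lit 350) (nat_lit 309) (nat_lit 121))))) (XT.nd (nat_lit 234) (nat_lit 380) (nat_lit 0) (XT.nd (nat_lit 78) (nat_lit 380) (nat_lit 0) (XT.lf (nat_lit 0) (nat_lit 27987101340) (nat_lit 380) (nat_lit 628709352) (nat_lit 456) (nat_lit 7241812912) (nat_lit 88) (nat_lit 5) (nat_lit 93) (nat_lit 5) (nat_lit 94) (nat_lit 5) (nat_lit 351) (nat_lit 309) (nat_lit 120)) (XT.nd (nat_lit 78) (nat_lit 76) (nat_lit 0) (XT.lf (nat_lit 0)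 (nat_lit 8288257399) (nat_lit 304) (nat_lit 25491047431) (nat_lit 380) (nat_lit 2777843106) (nat_lit 84) (nat_lit 5) (nat_lit 88) (nat_lit 5) (nat_lit 89) (nat_lit 5) (nat_lit 352) (nat_lit 309) (nat_lit 119)) (XT.lf (nat_lit 0) (nat_lit 1868304689) (nat_lit 380) (nat_lit 12210109004) (nat_lit 76) (nat_lit 23196210133) (nat_lit 83) (nat_lit 5) (nat_lit 88) (nat_lit 5) (nat_lit 84) (nat_lit 5) (nat_lit 353) (nat_lit 309) (nat_lit 118)))) (XT.nd (nat_lit 78) (nat_lit 0) (nat_lit 0) (XT.lf (nat_lit 0) (nat_lit 4385136743) (nat_lit 380) (nat_lit 2252385903) (nat_lit 456) (nat_lit 31374094526) (nat_lit 78) (nat_lit 5) (nat_lit 83) (nat_lit 5) (nat_lit 84) (nat_lit 5) (nat_lit 354) (nat_lit 309) (nat_lit 117)) (XT.nd (nat_lit 78) (nat_lit 0) (nat_lit 0) (XT.lf (nat_lit 0) (nat_lit 11767176733) (nat_lit 456) (nat_lit 17138552018) (nat_lit 76) (nat_lit 9858474482) (nat_lit 78) (nat_lit 5) (nat_lit 84)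 (nat_lit 5) (nat_lit 79) (nat_lit 5) (nat_lit 355) (nat_lit 309) (nat_lit 116)) (XT.lf (nat_lit 0) (nat_lit 17070499528) (nat_lit 456) (nat_lit 181594296) (nat_lit 76) (nat_lit 22286683271) (nat_lit 78) (nat_lit 5) (nat_lit 84) (nat_lit 5) (nat_lit 79) (nat_lit 5) (nat_lit 356) (nat_lit 309) (nat_lit 115))))))) (XT.nd (nat_lit 936) (nat_lit 988) (nat_lit 0) (XT.nd (nat_lit 468) (nat_lit 836) (nat_lit 0) (XT.nd (nat_lit 234) (nat_lit 380) (nat_lit 0) (XT.nd (nat_lit 78) (nat_lit 304) (nat_lit 0) (XT.lf (nat_lit 0) (nat_lit 17624783819) (nat_lit 304) (nat_lit 5075110078) (nat_lit 380) (nat_lit 17631688608) (nat_lit 74) (nat_lit 5) (nat_lit 78) (nat_lit 5) (nat_lit 79) (nat_lit 5) (nat_lit 357) (nat_lit 309) (nat_lit 114)) (XT.nd (nat_lit 78) (nat_lit 304) (nat_lit 0) (XT.lf (nat_lit 0) (nat_lit 28569386137) (nat_lit 380) (nat_lit 5254086628) (nat_lit 76) (nat_lit 7322566217) (nat_lit 74) (nat_lit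 5) (nat_lit 79) (nat_lit 5) (nat_lit 75) (nat_lit 5) (nat_lit 358) (nat_lit 309) (nat_lit 113)) (XT.lf (nat_lit 0) (nat_lit 12920938776) (nat_lit 304) (nat_lit 21866132294) (nat_lit 380) (nat_lit 7192698133) (nat_lit 70) (nat_lit 5) (nat_lit 74) (nat_lit 5) (nat_lit 75) (nat_lit 5) (nat_lit 359) (nat_lit 309) (nat_lit 112)))) (XT.nd (nat_lit 78) (nat_lit 380) (nat_lit 0) (XT.lf (nat_lit 0) (nat_lit 31745796031) (nat_lit 304) (nat_lit 9496240115) (nat_lit 380) (nat_lit 1594955891) (nat_lit 70) (nat_lit 5) (nat_lit 74) (nat_lit 5) (nat_lit 75) (nat_lit 5) (nat_lit 360) (nat_lit 309) (nat_lit 111)) (XT.nd (nat_lit 78) (nat_lit 0) (nat_lit 0) (XT.lf (nat_lit 0) (nat_lit 4191641114) (nat_lit 380) (nat_lit 36229907231) (nat_lit 76) (nat_lit 3294114226) (nat_lit 65) (nat_lit 5) (nat_lit 70) (nat_lit 5) (nat_lit 66) (nat_lit 5) (nat_lit 361) (nat_lit 309) (nat_lit 110)) (XT.lf (nat_lit 0) (nat_lit 10324673740)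 (nat_lit 380) (nat_lit 17883993424) (nat_lit 76) (nat_lit 16405408386) (nat_lit 65) (nat_lit 5) (nat_lit 70) (nat_lit 5) (nat_lit 66) (nat_lit 5) (nat_lit 362) (nat_lit 309) (nat_lit 109))))) (XT.nd (nat_lit 234) (nat_lit 532) (nat_lit 0) (XT.nd (nat_lit 78) (nat_lit 0) (nat_lit 0) (XT.lf (nat_lit 0) (nat_lit 1029363682) (nat_lit 304) (nat_lit 15620057982) (nat_lit 380) (nat_lit 28889790364) (nat_lit 61) (nat_lit 5) (nat_lit 65) (nat_lit 5) (nat_lit 66) (nat_lit 5) (nat_lit 363) (nat_lit 309) (nat_lit 108)) (XT.nd (nat_lit 78) (nat_lit 0) (nat_lit 0) (XT.lf (nat_lit 0) (nat_lit 20873734741) (nat_lit 304) (nat_lit 2468634464) (nat_lit 380) (nat_lit 23144382431) (nat_lit 61) (nat_lit 5) (nat_lit 65) (nat_lit 5) (nat_lit 66) (nat_lit 5) (nat_lit 364) (nat_lit 309) (nat_lit 107)) (XT.lf (nat_lit 0) (nat_lit 30340505413) (nat_lit 380) (nat_lit 6258723473) (nat_lit 76) (nat_lit 10860359213) (nat_lit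 61) (nat_lit 5) (nat_lit 66) (nat_lit 5) (nat_lit 62) (nat_lit 5) (nat_lit 365) (nat_lit 309) (nat_lit 106)))) (XT.nd (nat_lit 78) (nat_lit 304) (nat_lit 0) (XT.lf (nat_lit 0) (nat_lit 13920521699) (nat_lit 228) (nat_lit 23784297288) (nat_lit 304) (nat_lit 10752106265) (nat_lit 58) (nat_lit 5) (nat_lit 61) (nat_lit 5) (nat_lit 62) (nat_lit 5) (nat_lit 366) (nat_lit 309) (nat_lit 105)) (XT.nd (nat_lit 78) (nat_lit 304) (nat_lit 0) (XT.lf (nat_lit 0) (nat_lit 34830595461) (nat_lit 228) (nat_lit 10520677638) (nat_lit 304) (nat_lit 4131075608) (nat_lit 58) (nat_lit 5) (nat_lit 61) (nat_lit 5) (nat_lit 62) (nat_lit 5) (nat_lit 367) (nat_lit 309) (nat_lit 104)) (XT.lf (nat_lit 0) (nat_lit 2722041710) (nat_lit 304) (nat_lit 44650882469) (nat_lit 76) (nat_lit 3162260139) (nat_lit 54) (nat_lit 5) (nat_lit 58) (nat_lit 5) (nat_lit 55) (nat_lit 5) (nat_lit 368) (nat_lit 309) (nat_lit 103)))))) (XT.nd (nat_lit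 468) (nat_lit 532) (nat_lit 0) (XT.nd (nat_lit 234) (nat_lit 228) (nat_lit 0) (XT.nd (nat_lit 78) (nat_lit 228) (nat_lit 0) (XT.lf (nat_lit 0) (nat_lit 9949374719) (nat_lit 304) (nat_lit 24427742050) (nat_lit 76) (nat_lit 17233713902) (nat_lit 54) (nat_lit 5) (nat_lit 58) (nat_lit 5) (nat_lit 55) (nat_lit 5) (nat_lit 369) (nat_lit 309) (nat_lit 102)) (XT.nd (nat_lit 78) (nat_lit 228) (nat_lit 0) (XT.lf (nat_lit 0) (nat_lit 17391652674) (nat_lit 304) (nat_lit 3600654111) (nat_lit 76) (nat_lit 31726498119) (nat_lit 54) (nat_lit 5) (nat_lit 58) (nat_lit 5) (nat_lit 55) (nat_lit 5) (nat_lit 370) (nat_lit 309) (nat_lit 101)) (XT.lf (nat_lit 0) (nat_lit 18203801509) (nat_lit 228) (nat_lit 7026563105) (nat_lit 304) (nat_lit 28624460955) (nat_lit 51) (nat_lit 5) (nat_lit 54) (nat_lit 5) (nat_lit 55) (nat_lit 5) (nat_lit 371) (nat_lit 309) (nat_lit 100)))) (XT.nd (nat_lit 78) (nat_lit 228) (nat_lit 0) (XT.lf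 (nat_lit 0) (nat_lit 33409887581) (nat_lit 304) (nat_lit 14361414745) (nat_lit 76) (nat_lit 7250457148) (nat_lit 51) (nat_lit 5) (nat_lit 55) (nat_lit 5) (nat_lit 52) (nat_lit 5) (nat_lit 372) (nat_lit 309) (nat_lit 99)) (XT.nd (nat_lit 78) (nat_lit 0) (nat_lit 0) (XT.lf (nat_lit 0) (nat_lit 7643862208) (nat_lit 228) (nat_lit 34332232955) (nat_lit 304) (nat_lit 14243369315) (nat_lit 48) (nat_lit 5) (nat_lit 51) (nat_lit 5) (nat_lit 52) (nat_lit 5) (nat_lit 373) (nat_lit 309) (nat_lit 98)) (XT.lf (nat_lit 0) (nat_lit 30601107989) (nat_lit 228) (nat_lit 20341480711) (nat_lit 304) (nat_lit 6506214928) (nat_lit 48) (nat_lit 5) (nat_lit 51) (nat_lit 5) (nat_lit 52) (nat_lit 5) (nat_lit 374) (nat_lit 309) (nat_lit 97))))) (XT.nd (nat_lit 234) (nat_lit 228) (nat_lit 0) (XT.nd (nat_lit 78) (nat_lit 228) (nat_lit 0) (XT.lf (nat_lit 0) (nat_lit 1432813949) (nat_lit 304) (nat_lit 4484560235) (nat_lit 76)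 (nat_lit 52797279452) (nat_lit 47) (nat_lit 5) (nat_lit 51) (nat_lit 5) (nat_lit 48) (nat_lit 5) (nat_lit 375) (nat_lit 309) (nat_lit 96)) (XT.nd (nat_lit 78) (nat_lit 0) (nat_lit 0) (XT.lf (nat_lit 0) (nat_lit 9747160970) (nat_lit 304) (nat_lit 41249096720) (nat_lit 76) (nat_lit 9012253263) (nat_lit 44) (nat_lit 5) (nat_lit 48) (nat_lit 5) (nat_lit 45) (nat_lit 5) (nat_lit 376) (nat_lit 309) (nat_lit 95)) (XT.lf (nat_lit 0) (nat_lit 18413634779) (nat_lit 304) (nat_lit 18608713266) (nat_lit 76) (nat_lit 24315756819) (nat_lit 44) (nat_lit 5) (nat_lit 48) (nat_lit 5) (nat_lit 45) (nat_lit 5) (nat_lit 377) (nat_lit 309) (nat_lit 94)))) (XT.nd (nat_lit 78) (nat_lit 0) (nat_lit 0) (XT.lf (nat_lit 0) (nat_lit 4802173243) (nat_lit 228) (nat_lit 22582513202) (nat_lit 304) (nat_lit 35321564356) (nat_lit 41) (nat_lit 5) (nat_lit 44) (nat_lit 5) (nat_lit 45) (nat_lit 5) (nat_lit 378) (nat_lit 309) (nat_lit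 93)) (XT.nd (nat_lit 78) (nat_lit 0) (nat_lit 0) (XT.lf (nat_lit 0) (nat_lit 29294454271) (nat_lit 228) (nat_lit 7516772078) (nat_lit 304) (nat_lit 27298625732) (nat_lit 41) (nat_lit 5) (nat_lit 44) (nat_lit 5) (nat_lit 45) (nat_lit 5) (nat_lit 379) (nat_lit 309) (nat_lit 92)) (XT.lf (nat_lit 0) (nat_lit 46595955034) (nat_lit 304) (nat_lit 11113329471) (nat_lit 76) (nat_lit 7844016734) (nat_lit 41) (nat_lit 5) (nat_lit 45) (nat_lit 5) (nat_lit 42) (nat_lit 5) (nat_lit 380) (nat_lit 309) (nat_lit 91))))))))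
noncomputable def xc222 : XT := (XT.nd (nat_lit 1794) (nat_lit 5016) (nat_lit 0) (XT.nd (nat_lit 858) (nat_lit 1368) (nat_lit 0) (XT.nd (nat_lit 390) (nat_lit 836) (nat_lit 0) (XT.nd (nat_lit 156) (nat_lit 0) (nat_lit 0) (XT.nd (nat_lit 78) (nat_lit 0) (nat_lit 0) (XT.lf (nat_lit 0) (nat_lit 6713699266) (nat_lit 1140) (nat_lit 1176286489) (nat_lit 1140) (nat_lit 1176286489) (nat_lit 173) (nat_lit 3) (nat_lit 188) (nat_lit 3) (nat_lit 188) (nat_lit 5) (nat_lit 310) (nat_lit 310) (nat_lit 160)) (XT.lf (nat_lit 76) (nat_lit 5544190203) (nat_lit 0) (nat_lit 8322461779) (nat_lit 1140) (nat_lit 4530376072) (nat_lit 174) (nat_lit 5) (nat_lit 173) (nat_lit 3) (nat_lit 188) (nat_lit 5) (nat_lit 311) (nat_lit 310) (nat_lit 159))) (XT.nd (nat_lit 78) (nat_lit 0) (nat_lit 76) (XT.lf (nat_lit 76) (nat_lit 13722291310) (nat_lit 0) (nat_lit 613309257) (nat_lit 1140) (nat_lit 4333364446) (nat_lit 174) (nat_lit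 5) (nat_lit 173) (nat_lit 3) (nat_lit 188) (nat_lit 5) (nat_lit 312) (nat_lit 310) (nat_lit 158)) (XT.nd (nat_lit 78) (nat_lit 0) (nat_lit 0) (XT.lf (nat_lit 76) (nat_lit 3184445605) (nat_lit 0) (nat_lit 11728219767) (nat_lit 1140) (nat_lit 4033587271) (nat_lit 175) (nat_lit 5) (nat_lit 174) (nat_lit 5) (nat_lit 189) (nat_lit 5) (nat_lit 313) (nat_lit 310) (nat_lit 157)) (XT.lf (nat_lit 76) (nat_lit 11650808807) (nat_lit 0) (nat_lit 3905368325) (nat_lit 1140) (nat_lit 3674221307) (nat_lit 175) (nat_lit 5) (nat_lit 174) (nat_lit 5) (nat_lit 189) (nat_lit 5) (nat_lit 314) (nat_lit 310) (nat_lit 156))))) (XT.nd (nat_lit 234) (nat_lit 988) (nat_lit 0) (XT.nd (nat_lit 78) (nat_lit 0) (nat_lit 0) (XT.lf (nat_lit 76) (nat_lit 820161062) (nat_lit 0) (nat_lit 15440027000) (nat_lit 1140) (nat_lit 3261657921) (nat_lit 176) (nat_lit 5) (nat_lit 175) (nat_lit 5) (nat_lit 190) (nat_lit 5) (nat_lit 315) (nat_lit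 310) (nat_lit 155)) (XT.nd (nat_lit 78) (nat_lit 0) (nat_lit 76) (XT.lf (nat_lit 76) (nat_lit 9583856979) (nat_lit 0) (nat_lit 7509840024) (nat_lit 1140) (nat_lit 2725101426) (nat_lit 176) (nat_lit 5) (nat_lit 175) (nat_lit 5) (nat_lit 190) (nat_lit 5) (nat_lit 316) (nat_lit 310) (nat_lit 154)) (XT.lf (nat_lit 0) (nat_lit 17952300346) (nat_lit 1064) (nat_lit 1524615303) (nat_lit 1140) (nat_lit 647753560) (nat_lit 176) (nat_lit 5) (nat_lit 190) (nat_lit 5) (nat_lit 191) (nat_lit 5) (nat_lit 317) (nat_lit 310) (nat_lit 153)))) (XT.nd (nat_lit 78) (nat_lit 1064) (nat_lit 0) (XT.lf (nat_lit 76) (nat_lit 7515344299) (nat_lit 0) (nat_lit 11461857736) (nat_lit 1140) (nat_lit 1458309942) (nat_lit 177) (nat_lit 5) (nat_lit 176) (nat_lit 5) (nat_lit 191) (nat_lit 5) (nat_lit 318) (nat_lit 310) (nat_lit 152)) (XT.nd (nat_lit 78) (nat_lit 1064) (nat_lit 0) (XT.lf (nat_lit 76) (nat_lit 16853821845) (nat_lit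 0) (nat_lit 3188506453) (nat_lit 1140) (nat_lit 713079122) (nat_lit 177) (nat_lit 5) (nat_lit 176) (nat_lit 5) (nat_lit 191) (nat_lit 5) (nat_lit 319) (nat_lit 310) (nat_lit 151)) (XT.lf (nat_lit 0) (nat_lit 152216684) (nat_lit 1140) (nat_lit 15645078565) (nat_lit 1216) (nat_lit 5284636655) (nat_lit 162) (nat_lit 5) (nat_lit 177) (nat_lit 5) (nat_lit 178) (nat_lit 5) (nat_lit 320) (nat_lit 310) (nat_lit 150)))))) (XT.nd (nat_lit 468) (nat_lit 1368) (nat_lit 0) (XT.nd (nat_lit 234) (nat_lit 0) (nat_lit 76) (XT.nd (nat_lit 78) (nat_lit 0) (nat_lit 76) (XT.lf (nat_lit 0) (nat_lit 1094832057) (nat_lit 1140) (nat_lit 6324771402) (nat_lit 1216) (nat_lit 13996476797) (nat_lit 162) (nat_lit 5) (nat_lit 177) (nat_lit 5) (nat_lit 178) (nat_lit 5) (nat_lit 321) (nat_lit 310) (nat_lit 149)) (XT.nd (nat_lit 78) (nat_lit 0) (nat_lit 0) (XT.lf (nat_lit 0) (nat_lit 2104253886) (nat_lit 1140) (nat_lit 18435162775)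 (nat_lit 1216) (nat_lit 1219690970) (nat_lit 163) (nat_lit 5) (nat_lit 178) (nat_lit 5) (nat_lit 179) (nat_lit 5) (nat_lit 322) (nat_lit 310) (nat_lit 148)) (XT.lf (nat_lit 0) (nat_lit 3276555995) (nat_lit 1140) (nat_lit 8796961573) (nat_lit 1216) (nat_lit 10034940441) (nat_lit 163) (nat_lit 5) (nat_lit 178) (nat_lit 5) (nat_lit 179) (nat_lit 5) (nat_lit 323) (nat_lit 310) (nat_lit 147)))) (XT.nd (nat_lit 78) (nat_lit 0) (nat_lit 76) (XT.lf (nat_lit 76) (nat_lit 1148790847) (nat_lit 0) (nat_lit 3341071490) (nat_lit 1216) (nat_lit 17978261321) (nat_lit 164) (nat_lit 5) (nat_lit 163) (nat_lit 5) (nat_lit 179) (nat_lit 5) (nat_lit 324) (nat_lit 310) (nat_lit 146)) (XT.nd (nat_lit 78) (nat_lit 0) (nat_lit 0) (XT.lf (nat_lit 0) (nat_lit 5878539466) (nat_lit 1140) (nat_lit 11322038021) (nat_lit 1216) (nat_lit 5633842171) (nat_lit 164) (nat_lit 5) (nat_lit 179) (nat_lit 5) (nat_lit 180) (nat_lit 5) (nat_lit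 325) (nat_lit 310) (nat_lit 145)) (XT.lf (nat_lit 0) (nat_lit 7337021452) (nat_lit 1140) (nat_lit 1061929226) (nat_lit 1216) (nat_lit 14811918775) (nat_lit 164) (nat_lit 5) (nat_lit 179) (nat_lit 5) (nat_lit 180) (nat_lit 5) (nat_lit 326) (nat_lit 310) (nat_lit 144))))) (XT.nd (nat_lit 234) (nat_lit 532) (nat_lit 0) (XT.nd (nat_lit 78) (nat_lit 1064) (nat_lit 0) (XT.lf (nat_lit 0) (nat_lit 8934963692) (nat_lit 1140) (nat_lit 13912125494) (nat_lit 76) (nat_lit 748661363) (nat_lit 165) (nat_lit 5) (nat_lit 180) (nat_lit 5) (nat_lit 166) (nat_lit 5) (nat_lit 327) (nat_lit 310) (nat_lit 143)) (XT.nd (nat_lit 78) (nat_lit 1064) (nat_lit 0) (XT.lf (nat_lit 0) (nat_lit 10670150328) (nat_lit 1140) (nat_lit 3305832664) (nat_lit 76) (nat_lit 10013524625) (nat_lit 165) (nat_lit 5) (nat_lit 180) (nat_lit 5) (nat_lit 166) (nat_lit 5) (nat_lit 328) (nat_lit 310) (nat_lit 142)) (XT.lf (nat_lit 0) (nat_lit 7766287820)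 (nat_lit 1064) (nat_lit 4761214028) (nat_lit 1140) (nat_lit 11865480736) (nat_lit 151) (nat_lit 5) (nat_lit 165) (nat_lit 5) (nat_lit 166) (nat_lit 5) (nat_lit 329) (nat_lit 310) (nat_lit 141)))) (XT.nd (nat_lit 78) (nat_lit 532) (nat_lit 0) (XT.lf (nat_lit 0) (nat_lit 14515310204) (nat_lit 1140) (nat_lit 5619038565) (nat_lit 76) (nat_lit 4671979162) (nat_lit 151) (nat_lit 5) (nat_lit 166) (nat_lit 5) (nat_lit 152) (nat_lit 5) (nat_lit 330) (nat_lit 310) (nat_lit 140)) (XT.nd (nat_lit 78) (nat_lit 0) (nat_lit 0) (XT.lf (nat_lit 0) (nat_lit 5780605733) (nat_lit 532) (nat_lit 10880539683) (nat_lit 608) (nat_lit 8567984425) (nat_lit 144) (nat_lit 5) (nat_lit 151) (nat_lit 5) (nat_lit 152) (nat_lit 5) (nat_lit 331) (nat_lit 310) (nat_lit 139)) (XT.lf (nat_lit 0) (nat_lit 17633561097) (nat_lit 532) (nat_lit 1290309553) (nat_lit 608) (nat_lit 6739177457) (nat_lit 144) (nat_lit 5) (nat_lit 151) (nat_lit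 5) (nat_lit 152) (nat_lit 5) (nat_lit 332) (nat_lit 310) (nat_lit 138))))))) (XT.nd (nat_lit 936) (nat_lit 2052) (nat_lit 0) (XT.nd (nat_lit 468) (nat_lit 1292) (nat_lit 0) (XT.nd (nat_lit 234) (nat_lit 608) (nat_lit 0) (XT.nd (nat_lit 78) (nat_lit 532) (nat_lit 0) (XT.lf (nat_lit 0) (nat_lit 3718243455) (nat_lit 532) (nat_lit 17650425929) (nat_lit 608) (nat_lit 4737896309) (nat_lit 137) (nat_lit 5) (nat_lit 144) (nat_lit 5) (nat_lit 145) (nat_lit 5) (nat_lit 333) (nat_lit 310) (nat_lit 137)) (XT.nd (nat_lit 78) (nat_lit 532) (nat_lit 0) (XT.lf (nat_lit 0) (nat_lit 15966126396) (nat_lit 532) (nat_lit 8010400470) (nat_lit 608) (nat_lit 2584177799) (nat_lit 137) (nat_lit 5) (nat_lit 144) (nat_lit 5) (nat_lit 145) (nat_lit 5) (nat_lit 334) (nat_lit 310) (nat_lit 136)) (XT.lf (nat_lit 0) (nat_lit 1561136366) (nat_lit 532) (nat_lit 25131036457) (nat_lit 608) (nat_lit 335415491) (nat_lit 130) (nat_lit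 5) (nat_lit 137) (nat_lit 5) (nat_lit 138) (nat_lit 5) (nat_lit 335) (nat_lit 310) (nat_lit 135)))) (XT.nd (nat_lit 78) (nat_lit 532) (nat_lit 0) (XT.lf (nat_lit 0) (nat_lit 2125645017) (nat_lit 608) (nat_lit 13309884842) (nat_lit 76) (nat_lit 12066879433) (nat_lit 129) (nat_lit 5) (nat_lit 137) (nat_lit 5) (nat_lit 130) (nat_lit 5) (nat_lit 336) (nat_lit 310) (nat_lit 134)) (XT.nd (nat_lit 78) (nat_lit 532) (nat_lit 0) (XT.lf (nat_lit 0) (nat_lit 4650041889) (nat_lit 608) (nat_lit 795733814) (nat_lit 76) (nat_lit 22545718675) (nat_lit 129) (nat_lit 5) (nat_lit 137) (nat_lit 5) (nat_lit 130) (nat_lit 5) (nat_lit 337) (nat_lit 310) (nat_lit 133)) (XT.lf (nat_lit 0) (nat_lit 7412790600) (nat_lit 608) (nat_lit 16208767331) (nat_lit 76) (nat_lit 4868821787) (nat_lit 122) (nat_lit 5) (nat_lit 130) (nat_lit 5) (nat_lit 123) (nat_lit 5) (nat_lit 338) (nat_lit 310) (nat_lit 132))))) (XT.nd (nat_lit 234)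 (nat_lit 836) (nat_lit 0) (XT.nd (nat_lit 78) (nat_lit 456) (nat_lit 0) (XT.lf (nat_lit 0) (nat_lit 10316881074) (nat_lit 608) (nat_lit 3294156176) (nat_lit 76) (nat_lit 15391446707) (nat_lit 122) (nat_lit 5) (nat_lit 130) (nat_lit 5) (nat_lit 123) (nat_lit 5) (nat_lit 339) (nat_lit 310) (nat_lit 131)) (XT.nd (nat_lit 78) (nat_lit 0) (nat_lit 0) (XT.lf (nat_lit 0) (nat_lit 10203348631) (nat_lit 456) (nat_lit 3199356384) (nat_lit 532) (nat_lit 16124413924) (nat_lit 116) (nat_lit 5) (nat_lit 122) (nat_lit 5) (nat_lit 123) (nat_lit 5) (nat_lit 340) (nat_lit 310) (nat_lit 130)) (XT.lf (nat_lit 0) (nat_lit 16683623574) (nat_lit 532) (nat_lit 5969569467) (nat_lit 76) (nat_lit 7411230097) (nat_lit 116) (nat_lit 5) (nat_lit 123) (nat_lit 5) (nat_lit 117) (nat_lit 5) (nat_lit 341) (nat_lit 310) (nat_lit 129)))) (XT.nd (nat_lit 78) (nat_lit 380) (nat_lit 0) (XT.lf (nat_lit 0) (nat_lit 7904209661) (nat_lit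 456) (nat_lit 12263110371) (nat_lit 532) (nat_lit 10447401517) (nat_lit 110) (nat_lit 5) (nat_lit 116) (nat_lit 5) (nat_lit 117) (nat_lit 5) (nat_lit 342) (nat_lit 310) (nat_lit 128)) (XT.nd (nat_lit 78) (nat_lit 380) (nat_lit 0) (XT.lf (nat_lit 0) (nat_lit 22312997341) (nat_lit 456) (nat_lit 1499566379) (nat_lit 532) (nat_lit 7367259538) (nat_lit 110) (nat_lit 5) (nat_lit 116) (nat_lit 5) (nat_lit 117) (nat_lit 5) (nat_lit 343) (nat_lit 310) (nat_lit 127)) (XT.lf (nat_lit 0) (nat_lit 5401857629) (nat_lit 380) (nat_lit 22306234851) (nat_lit 456) (nat_lit 4049562982) (nat_lit 105) (nat_lit 5) (nat_lit 110) (nat_lit 5) (nat_lit 111) (nat_lit 5) (nat_lit 344) (nat_lit 310) (nat_lit 126)))))) (XT.nd (nat_lit 468) (nat_lit 1140) (nat_lit 0) (XT.nd (nat_lit 234) (nat_lit 380) (nat_lit 0) (XT.nd (nat_lit 78) (nat_lit 532) (nat_lit 0) (XT.lf (nat_lit 0) (nat_lit 20261687510) (nat_lit 380) (nat_lit 11559943469)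 (nat_lit 456) (nat_lit 528162458) (nat_lit 105) (nat_lit 5) (nat_lit 110) (nat_lit 5) (nat_lit 111) (nat_lit 5) (nat_lit 345) (nat_lit 310) (nat_lit 125)) (XT.nd (nat_lit 78) (nat_lit 0) (nat_lit 0) (XT.lf (nat_lit 0) (nat_lit 2625567521) (nat_lit 456) (nat_lit 435041022) (nat_lit 532) (nat_lit 29897532224) (nat_lit 98) (nat_lit 5) (nat_lit 104) (nat_lit 5) (nat_lit 105) (nat_lit 5) (nat_lit 346) (nat_lit 310) (nat_lit 124)) (XT.lf (nat_lit 0) (nat_lit 6972678449) (nat_lit 532) (nat_lit 15668585154) (nat_lit 76) (nat_lit 10936535182) (nat_lit 98) (nat_lit 5) (nat_lit 105) (nat_lit 5) (nat_lit 99) (nat_lit 5) (nat_lit 347) (nat_lit 310) (nat_lit 123)))) (XT.nd (nat_lit 78) (nat_lit 380) (nat_lit 0) (XT.lf (nat_lit 0) (nat_lit 11003515754) (nat_lit 532) (nat_lit 572431882) (nat_lit 76) (nat_lit 22640061300) (nat_lit 98) (nat_lit 5) (nat_lit 105) (nat_lit 5) (nat_lit 99) (nat_lit 5) (nat_lit 348)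 (nat_lit 310) (nat_lit 122)) (XT.nd (nat_lit 78) (nat_lit 0) (nat_lit 0) (XT.lf (nat_lit 0) (nat_lit 15271256482) (nat_lit 380) (nat_lit 28000845) (nat_lit 456) (nat_lit 19569793108) (nat_lit 93) (nat_lit 5) (nat_lit 98) (nat_lit 5) (nat_lit 99) (nat_lit 5) (nat_lit 349) (nat_lit 310) (nat_lit 121)) (XT.lf (nat_lit 0) (nat_lit 19841003210) (nat_lit 456) (nat_lit 4057040123) (nat_lit 76) (nat_lit 11640130175) (nat_lit 93) (nat_lit 5) (nat_lit 99) (nat_lit 5) (nat_lit 94) (nat_lit 5) (nat_lit 350) (nat_lit 310) (nat_lit 120))))) (XT.nd (nat_lit 234) (nat_lit 456) (nat_lit 0) (XT.nd (nat_lit 78) (nat_lit 304) (nat_lit 0) (XT.lf (nat_lit 0) (nat_lit 12184118058) (nat_lit 380) (nat_lit 12449590040) (nat_lit 456) (nat_lit 11590225141) (nat_lit 88) (nat_lit 5) (nat_lit 93) (nat_lit 5) (nat_lit 94) (nat_lit 5) (nat_lit 351) (nat_lit 310) (nat_lit 119)) (XT.nd (nat_lit 78) (nat_lit 304) (nat_lit 0) (XT.lf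 (nat_lit 0) (nat_lit 28992411599) (nat_lit 380) (nat_lit 616105903) (nat_lit 456) (nat_lit 7320602603) (nat_lit 88) (nat_lit 5) (nat_lit 93) (nat_lit 5) (nat_lit 94) (nat_lit 5) (nat_lit 352) (nat_lit 310) (nat_lit 118)) (XT.lf (nat_lit 0) (nat_lit 8704869079) (nat_lit 304) (nat_lit 26220045922) (nat_lit 380) (nat_lit 2724781187) (nat_lit 84) (nat_lit 5) (nat_lit 88) (nat_lit 5) (nat_lit 89) (nat_lit 5) (nat_lit 353) (nat_lit 310) (nat_lit 117)))) (XT.nd (nat_lit 78) (nat_lit 380) (nat_lit 0) (XT.lf (nat_lit 0) (nat_lit 2054194229) (nat_lit 380) (nat_lit 12410568574) (nat_lit 76) (nat_lit 23924016709) (nat_lit 83) (nat_lit 5) (nat_lit 88) (nat_lit 5) (nat_lit 84) (nat_lit 5) (nat_lit 354) (nat_lit 310) (nat_lit 116)) (XT.nd (nat_lit 78) (nat_lit 0) (nat_lit 0) (XT.lf (nat_lit 0) (nat_lit 4680908627) (nat_lit 380) (nat_lit 2283376900) (nat_lit 456) (nat_lit 32183668697) (nat_lit 78) (nat_lit 5)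 (nat_lit 83) (nat_lit 5) (nat_lit 84) (nat_lit 5) (nat_lit 355) (nat_lit 310) (nat_lit 115)) (XT.lf (nat_lit 0) (nat_lit 12244453042) (nat_lit 456) (nat_lit 17489720607) (nat_lit 76) (nat_lit 10189050815) (nat_lit 78) (nat_lit 5) (nat_lit 84) (nat_lit 5) (nat_lit 79) (nat_lit 5) (nat_lit 356) (nat_lit 310) (nat_lit 114))))))))
noncomputable def xc223 : XT := (XT.nd (nat_lit 37128) (nat_lit 0) (nat_lit 7296) (XT.nd (nat_lit 936) (nat_lit 1292) (nat_lit 0) (XT.nd (nat_lit 468) (nat_lit 532) (nat_lit 0) (XT.nd (nat_lit 234) (nat_lit 684) (nat_lit 0) (XT.nd (nat_lit 78) (nat_lit 304) (nat_lit 0) (XT.lf (nat_lit 0) (nat_lit 17703256268) (nat_lit 456) (nat_lit 28801376) (nat_lit 76) (nat_lit 22989091631) (nat_lit 78) (nat_lit 5) (nat_lit 84) (nat_lit 5) (nat_lit 79) (nat_lit 5) (nat_lit 357) (nat_lit 310) (nat_lit 113)) (XT.nd (nat_lit 78) (nat_lit 0) (nat_lit 0) (XT.lf (nat_lit 0) (nat_lit 18310216702)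 (nat_lit 304) (nat_lit 5189308122) (nat_lit 380) (nat_lit 18038279259) (nat_lit 74) (nat_lit 5) (nat_lit 78) (nat_lit 5) (nat_lit 79) (nat_lit 5) (nat_lit 358) (nat_lit 310) (nat_lit 112)) (XT.lf (nat_lit 0) (nat_lit 29542001625) (nat_lit 380) (nat_lit 5256321407) (nat_lit 76) (nat_lit 7578469089) (nat_lit 74) (nat_lit 5) (nat_lit 79) (nat_lit 5) (nat_lit 75) (nat_lit 5) (nat_lit 359) (nat_lit 310) (nat_lit 111)))) (XT.nd (nat_lit 78) (nat_lit 380) (nat_lit 0) (XT.lf (nat_lit 0) (nat_lit 13462431349) (nat_lit 304) (nat_lit 22481899731) (nat_lit 380) (nat_lit 7291264469) (nat_lit 70) (nat_lit 5) (nat_lit 74) (nat_lit 5) (nat_lit 75) (nat_lit 5) (nat_lit 360) (nat_lit 310) (nat_lit 110)) (XT.nd (nat_lit 78) (nat_lit 380) (nat_lit 0) (XT.lf (nat_lit 0) (nat_lit 32847552834) (nat_lit 304) (nat_lit 9742082141) (nat_lit 380) (nat_lit 1529003978) (nat_lit 70) (nat_lit 5) (nat_lit 74) (nat_lit 5) (nat_lit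 75) (nat_lit 5) (nat_lit 361) (nat_lit 310) (nat_lit 109)) (XT.lf (nat_lit 0) (nat_lit 4427554018) (nat_lit 380) (nat_lit 37163492396) (nat_lit 76) (nat_lit 3432637177) (nat_lit 65) (nat_lit 5) (nat_lit 70) (nat_lit 5) (nat_lit 66) (nat_lit 5) (nat_lit 362) (nat_lit 310) (nat_lit 108))))) (XT.nd (nat_lit 234) (nat_lit 228) (nat_lit 0) (XT.nd (nat_lit 78) (nat_lit 304) (nat_lit 0) (XT.lf (nat_lit 0) (nat_lit 10741368973) (nat_lit 380) (nat_lit 18271666575) (nat_lit 76) (nat_lit 16936113866) (nat_lit 65) (nat_lit 5) (nat_lit 70) (nat_lit 5) (nat_lit 66) (nat_lit 5) (nat_lit 363) (nat_lit 310) (nat_lit 107)) (XT.nd (nat_lit 78) (nat_lit 0) (nat_lit 0) (XT.lf (nat_lit 0) (nat_lit 1207631964) (nat_lit 304) (nat_lit 16046528953) (nat_lit 380) (nat_lit 29647934090) (nat_lit 61) (nat_lit 5) (nat_lit 65) (nat_lit 5) (nat_lit 66) (nat_lit 5) (nat_lit 364) (nat_lit 310) (nat_lit 106)) (XT.lf (nat_lit 0) (nat_lit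 21643041319) (nat_lit 304) (nat_lit 2501789839) (nat_lit 380) (nat_lit 23733325569) (nat_lit 61) (nat_lit 5) (nat_lit 65) (nat_lit 5) (nat_lit 66) (nat_lit 5) (nat_lit 365) (nat_lit 310) (nat_lit 105)))) (XT.nd (nat_lit 78) (nat_lit 228) (nat_lit 0) (XT.lf (nat_lit 0) (nat_lit 31350316758) (nat_lit 380) (nat_lit 6304835855) (nat_lit 76) (nat_lit 11225107350) (nat_lit 61) (nat_lit 5) (nat_lit 66) (nat_lit 5) (nat_lit 62) (nat_lit 5) (nat_lit 366) (nat_lit 310) (nat_lit 104)) (XT.nd (nat_lit 78) (nat_lit 0) (nat_lit 0) (XT.lf (nat_lit 0) (nat_lit 14478397954) (nat_lit 228) (nat_lit 24455609197) (nat_lit 304) (nat_lit 10973560382) (nat_lit 58) (nat_lit 5) (nat_lit 61) (nat_lit 5) (nat_lit 62) (nat_lit 5) (nat_lit 367) (nat_lit 310) (nat_lit 103)) (XT.lf (nat_lit 0) (nat_lit 36011688669) (nat_lit 228) (nat_lit 10795310579) (nat_lit 304) (nat_lit 4156843730) (nat_lit 58) (nat_lit 5) (nat_lit 61) (nat_lit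 5) (nat_lit 62) (nat_lit 5) (nat_lit 368) (nat_lit 310) (nat_lit 102)))))) (XT.nd (nat_lit 468) (nat_lit 532) (nat_lit 0) (XT.nd (nat_lit 234) (nat_lit 456) (nat_lit 0) (XT.nd (nat_lit 78) (nat_lit 0) (nat_lit 0) (XT.lf (nat_lit 0) (nat_lit 2898868344) (nat_lit 304) (nat_lit 45851004162) (nat_lit 76) (nat_lit 3298398748) (nat_lit 54) (nat_lit 5) (nat_lit 58) (nat_lit 5) (nat_lit 55) (nat_lit 5) (nat_lit 369) (nat_lit 310) (nat_lit 101)) (XT.nd (nat_lit 78) (nat_lit 0) (nat_lit 0) (XT.lf (nat_lit 0) (nat_lit 10340249536) (nat_lit 304) (nat_lit 25025229864) (nat_lit 76) (nat_lit 17790794062) (nat_lit 54) (nat_lit 5) (nat_lit 58) (nat_lit 5) (nat_lit 55) (nat_lit 5) (nat_lit 370) (nat_lit 310) (nat_lit 100)) (XT.lf (nat_lit 0) (nat_lit 18003104755) (nat_lit 304) (nat_lit 3577271357) (nat_lit 76) (nat_lit 32717194755) (nat_lit 54) (nat_lit 5) (nat_lit 58) (nat_lit 5) (nat_lit 55) (nat_lit 5) (nat_lit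 371) (nat_lit 310) (nat_lit 99)))) (XT.nd (nat_lit 78) (nat_lit 228) (nat_lit 0) (XT.lf (nat_lit 0) (nat_lit 18880029672) (nat_lit 228) (nat_lit 7195586423) (nat_lit 304) (nat_lit 29392100035) (nat_lit 51) (nat_lit 5) (nat_lit 54) (nat_lit 5) (nat_lit 55) (nat_lit 5) (nat_lit 372) (nat_lit 310) (nat_lit 98)) (XT.nd (nat_lit 78) (nat_lit 228) (nat_lit 0) (XT.lf (nat_lit 0) (nat_lit 34498341584) (nat_lit 304) (nat_lit 14663648672) (nat_lit 76) (nat_lit 7507736321) (nat_lit 51) (nat_lit 5) (nat_lit 55) (nat_lit 5) (nat_lit 52) (nat_lit 5) (nat_lit 373) (nat_lit 310) (nat_lit 97)) (XT.lf (nat_lit 0) (nat_lit 8000525722) (nat_lit 228) (nat_lit 35319724376) (nat_lit 304) (nat_lit 14583154131) (nat_lit 48) (nat_lit 5) (nat_lit 51) (nat_lit 5) (nat_lit 52) (nat_lit 5) (nat_lit 374) (nat_lit 310) (nat_lit 96))))) (XT.nd (nat_lit 234) (nat_lit 228) (nat_lit 0) (XT.nd (nat_lit 78) (nat_lit 304) (nat_lit 0)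 (XT.lf (nat_lit 0) (nat_lit 31642779722) (nat_lit 228) (nat_lit 20910486717) (nat_lit 304) (nat_lit 6616434130) (nat_lit 48) (nat_lit 5) (nat_lit 51) (nat_lit 5) (nat_lit 52) (nat_lit 5) (nat_lit 375) (nat_lit 310) (nat_lit 95)) (XT.nd (nat_lit 78) (nat_lit 228) (nat_lit 0) (XT.lf (nat_lit 0) (nat_lit 1556681114) (nat_lit 304) (nat_lit 4497360242) (nat_lit 76) (nat_lit 54419535704) (nat_lit 47) (nat_lit 5) (nat_lit 51) (nat_lit 5) (nat_lit 48) (nat_lit 5) (nat_lit 376) (nat_lit 310) (nat_lit 94)) (XT.lf (nat_lit 0) (nat_lit 10119654221) (nat_lit 304) (nat_lit 42363941408) (nat_lit 76) (nat_lit 9322681210) (nat_lit 44) (nat_lit 5) (nat_lit 48) (nat_lit 5) (nat_lit 45) (nat_lit 5) (nat_lit 377) (nat_lit 310) (nat_lit 93)))) (XT.nd (nat_lit 78) (nat_lit 228) (nat_lit 0) (XT.lf (nat_lit 0) (nat_lit 19043789864) (nat_lit 304) (nat_lit 19047918146) (nat_lit 76) (nat_lit 25084123066) (nat_lit 44) (nat_lit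 5) (nat_lit 48) (nat_lit 5) (nat_lit 45) (nat_lit 5) (nat_lit 378) (nat_lit 310) (nat_lit 92)) (XT.nd (nat_lit 35334) (nat_lit 0) (nat_lit 10032) (XT.lf (nat_lit 0) (nat_lit 5064127737) (nat_lit 228) (nat_lit 23218714118) (nat_lit 304) (nat_lit 36302215934) (nat_lit 41) (nat_lit 5) (nat_lit 44) (nat_lit 5) (nat_lit 45) (nat_lit 5) (nat_lit 379) (nat_lit 310) (nat_lit 91)) (XT.lf (nat_lit 0) (nat_lit 7097884576) (nat_lit 1140) (nat_lit 1117263413) (nat_lit 1140) (nat_lit 1117263413) (nat_lit 173) (nat_lit 3) (nat_lit 188) (nat_lit 3) (nat_lit 188) (nat_lit 5) (nat_lit 311) (nat_lit 311) (nat_lit 158))))))) (XT.nd (nat_lit 936) (nat_lit 1900) (nat_lit 0) (XT.nd (nat_lit 468) (nat_lit 836) (nat_lit 0) (XT.nd (nat_lit 234) (nat_lit 0) (nat_lit 76) (XT.nd (nat_lit 78) (nat_lit 0) (nat_lit 0) (XT.lf (nat_lit 76) (nat_lit 5897290001) (nat_lit 0) (nat_lit 8742058543) (nat_lit 1140) (nat_lit 4298179193)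 (nat_lit 174) (nat_lit 5) (nat_lit 173) (nat_lit 3) (nat_lit 188) (nat_lit 5) (nat_lit 312) (nat_lit 311) (nat_lit 157)) (XT.nd (nat_lit 78) (nat_lit 0) (nat_lit 76) (XT.lf (nat_lit 76) (nat_lit 14315294119) (nat_lit 0) (nat_lit 796682235) (nat_lit 1140) (nat_lit 4105978815) (nat_lit 174) (nat_lit 5) (nat_lit 173) (nat_lit 3) (nat_lit 188) (nat_lit 5) (nat_lit 313) (nat_lit 311) (nat_lit 156)) (XT.lf (nat_lit 76) (nat_lit 3472075719) (nat_lit 0) (nat_lit 12224497662) (nat_lit 1140) (nat_lit 3807301522) (nat_lit 175) (nat_lit 5) (nat_lit 174) (nat_lit 5) (nat_lit 189) (nat_lit 5) (nat_lit 314) (nat_lit 311) (nat_lit 155)))) (XT.nd (nat_lit 78) (nat_lit 0) (nat_lit 76) (XT.lf (nat_lit 76) (nat_lit 12186834765) (nat_lit 0) (nat_lit 4162753940) (nat_lit 1140) (nat_lit 3447269920) (nat_lit 175) (nat_lit 5) (nat_lit 174) (nat_lit 5) (nat_lit 189) (nat_lit 5) (nat_lit 315) (nat_lit 311) (nat_lit 154))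 (XT.nd (nat_lit 78) (nat_lit 0) (nat_lit 0) (XT.lf (nat_lit 76) (nat_lit 1041123147) (nat_lit 0) (nat_lit 16024659359) (nat_lit 1140) (nat_lit 3031554145) (nat_lit 176) (nat_lit 5) (nat_lit 175) (nat_lit 5) (nat_lit 190) (nat_lit 5) (nat_lit 316) (nat_lit 311) (nat_lit 153)) (XT.lf (nat_lit 76) (nat_lit 10062010799) (nat_lit 0) (nat_lit 7853029932) (nat_lit 1140) (nat_lit 2488452999) (nat_lit 176) (nat_lit 5) (nat_lit 175) (nat_lit 5) (nat_lit 190) (nat_lit 5) (nat_lit 317) (nat_lit 311) (nat_lit 152))))) (XT.nd (nat_lit 234) (nat_lit 1064) (nat_lit 0) (XT.nd (nat_lit 78) (nat_lit 0) (nat_lit 0) (XT.lf (nat_lit 0) (nat_lit 18789315514) (nat_lit 1064) (nat_lit 1374586735) (nat_lit 1140) (nat_lit 554958829) (nat_lit 176) (nat_lit 5) (nat_lit 190) (nat_lit 5) (nat_lit 191) (nat_lit 5) (nat_lit 318) (nat_lit 311) (nat_lit 151)) (XT.nd (nat_lit 78) (nat_lit 0) (nat_lit 0) (XT.lf (nat_lit 76) (nat_lit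 7934652370) (nat_lit 0) (nat_lit 11903482659) (nat_lit 1140) (nat_lit 1201116301) (nat_lit 177) (nat_lit 5) (nat_lit 176) (nat_lit 5) (nat_lit 191) (nat_lit 5) (nat_lit 319) (nat_lit 311) (nat_lit 150)) (XT.lf (nat_lit 76) (nat_lit 17547638193) (nat_lit 0) (nat_lit 3379083192) (nat_lit 1140) (nat_lit 442293885) (nat_lit 177) (nat_lit 5) (nat_lit 176) (nat_lit 5) (nat_lit 191) (nat_lit 5) (nat_lit 320) (nat_lit 311) (nat_lit 149)))) (XT.nd (nat_lit 78) (nat_lit 0) (nat_lit 0) (XT.lf (nat_lit 0) (nat_lit 435925670) (nat_lit 1140) (nat_lit 15912121265) (nat_lit 1216) (nat_lit 5357440160) (nat_lit 162) (nat_lit 5) (nat_lit 177) (nat_lit 5) (nat_lit 178) (nat_lit 5) (nat_lit 321) (nat_lit 311) (nat_lit 148)) (XT.nd (nat_lit 78) (nat_lit 0) (nat_lit 76) (XT.lf (nat_lit 0) (nat_lit 1398689141) (nat_lit 1140) (nat_lit 6318097401) (nat_lit 1216) (nat_lit 14333132659) (nat_lit 162) (nat_lit 5) (nat_lit 177)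 (nat_lit 5) (nat_lit 178) (nat_lit 5) (nat_lit 322) (nat_lit 311) (nat_lit 147)) (XT.lf (nat_lit 0) (nat_lit 2431691982) (nat_lit 1140) (nat_lit 18784600719) (nat_lit 1216) (nat_lit 1187160690) (nat_lit 163) (nat_lit 5) (nat_lit 178) (nat_lit 5) (nat_lit 179) (nat_lit 5) (nat_lit 323) (nat_lit 311) (nat_lit 146)))))) (XT.nd (nat_lit 468) (nat_lit 1976) (nat_lit 0) (XT.nd (nat_lit 234) (nat_lit 0) (nat_lit 76) (XT.nd (nat_lit 78) (nat_lit 0) (nat_lit 0) (XT.lf (nat_lit 0) (nat_lit 3631464790) (nat_lit 1140) (nat_lit 8863184071) (nat_lit 1216) (nat_lit 10268880879) (nat_lit 163) (nat_lit 5) (nat_lit 178) (nat_lit 5) (nat_lit 179) (nat_lit 5) (nat_lit 324) (nat_lit 311) (nat_lit 145)) (XT.nd (nat_lit 78) (nat_lit 0) (nat_lit 76) (XT.lf (nat_lit 76) (nat_lit 1379002820) (nat_lit 0) (nat_lit 3496575016) (nat_lit 1216) (nat_lit 18258589385) (nat_lit 164) (nat_lit 5) (nat_lit 163) (nat_lit 5) (nat_lit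 179) (nat_lit 5) (nat_lit 325) (nat_lit 311) (nat_lit 144)) (XT.lf (nat_lit 0) (nat_lit 6298088199) (nat_lit 1140) (nat_lit 11463369359) (nat_lit 1216) (nat_lit 5750243031) (nat_lit 164) (nat_lit 5) (nat_lit 179) (nat_lit 5) (nat_lit 180) (nat_lit 5) (nat_lit 326) (nat_lit 311) (nat_lit 143)))) (XT.nd (nat_lit 78) (nat_lit 0) (nat_lit 76) (XT.lf (nat_lit 0) (nat_lit 7793241367) (nat_lit 1140) (nat_lit 901233896) (nat_lit 1216) (nat_lit 15205194392) (nat_lit 164) (nat_lit 5) (nat_lit 179) (nat_lit 5) (nat_lit 180) (nat_lit 5) (nat_lit 327) (nat_lit 311) (nat_lit 142)) (XT.nd (nat_lit 78) (nat_lit 0) (nat_lit 0) (XT.lf (nat_lit 0) (nat_lit 9433689352) (nat_lit 1140) (nat_lit 14131073817) (nat_lit 76) (nat_lit 731509882) (nat_lit 165) (nat_lit 5) (nat_lit 180) (nat_lit 5) (nat_lit 166) (nat_lit 5) (nat_lit 328) (nat_lit 311) (nat_lit 141)) (XT.lf (nat_lit 0) (nat_lit 11214212846) (nat_lit 1140) (nat_lit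 3212371292) (nat_lit 76) (nat_lit 10275472770) (nat_lit 165) (nat_lit 5) (nat_lit 180) (nat_lit 5) (nat_lit 166) (nat_lit 5) (nat_lit 329) (nat_lit 311) (nat_lit 140))))) (XT.nd (nat_lit 234) (nat_lit 532) (nat_lit 0) (XT.nd (nat_lit 78) (nat_lit 532) (nat_lit 0) (XT.lf (nat_lit 0) (nat_lit 8190024214) (nat_lit 1064) (nat_lit 4932571233) (nat_lit 1140) (nat_lit 11995193513) (nat_lit 151) (nat_lit 5) (nat_lit 165) (nat_lit 5) (nat_lit 166) (nat_lit 5) (nat_lit 330) (nat_lit 311) (nat_lit 139)) (XT.nd (nat_lit 78) (nat_lit 532) (nat_lit 0) (XT.lf (nat_lit 0) (nat_lit 15163385417) (nat_lit 1140) (nat_lit 5595371838) (nat_lit 76) (nat_lit 4784988788) (nat_lit 151) (nat_lit 5) (nat_lit 166) (nat_lit 5) (nat_lit 152) (nat_lit 5) (nat_lit 331) (nat_lit 311) (nat_lit 138)) (XT.lf (nat_lit 0) (nat_lit 6144377103) (nat_lit 532) (nat_lit 11224855677) (nat_lit 608) (nat_lit 8610141572) (nat_lit 144) (nat_lit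 5) (nat_lit 151) (nat_lit 5) (nat_lit 152) (nat_lit 5) (nat_lit 332) (nat_lit 311) (nat_lit 137)))) (XT.nd (nat_lit 78) (nat_lit 532) (nat_lit 0) (XT.lf (nat_lit 0) (nat_lit 18347376861) (nat_lit 532) (nat_lit 1346397290) (nat_lit 608) (nat_lit 6732729105) (nat_lit 144) (nat_lit 5) (nat_lit 151) (nat_lit 5) (nat_lit 152) (nat_lit 5) (nat_lit 333) (nat_lit 311) (nat_lit 136)) (XT.nd (nat_lit 78) (nat_lit 0) (nat_lit 0) (XT.lf (nat_lit 0) (nat_lit 4019326445) (nat_lit 532) (nat_lit 18188361194) (nat_lit 608) (nat_lit 4675776401) (nat_lit 137) (nat_lit 5) (nat_lit 144) (nat_lit 5) (nat_lit 145) (nat_lit 5) (nat_lit 334) (nat_lit 311) (nat_lit 135)) (XT.lf (nat_lit 0) (nat_lit 16629125418) (nat_lit 532) (nat_lit 8258889656) (nat_lit 608) (nat_lit 2463395563) (nat_lit 137) (nat_lit 5) (nat_lit 144) (nat_lit 5) (nat_lit 145) (nat_lit 5) (nat_lit 335) (nat_lit 311) (nat_lit 134))))))))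
noncomputable def xc224 : XT := (XT.nd (nat_lit 1794) (nat_lit 2280) (nat_lit 0) (XT.nd (nat_lit 858) (nat_lit 2356) (nat_lit 0) (XT.nd (nat_lit 390) (nat_lit 1292) (nat_lit 0) (XT.nd (nat_lit 156) (nat_lit 532) (nat_lit 0) (XT.nd (nat_lit 78) (nat_lit 76) (nat_lit 0) (XT.lf (nat_lit 0) (nat_lit 1796314665) (nat_lit 532) (nat_lit 25884952074) (nat_lit 608) (nat_lit 151160144) (nat_lit 130) (nat_lit 5) (nat_lit 137) (nat_lit 5) (nat_lit 138) (nat_lit 5) (nat_lit 336) (nat_lit 311) (nat_lit 133)) (XT.lf (nat_lit 0) (nat_lit 2374391039) (nat_lit 608) (nat_lit 13522321789) (nat_lit 76) (nat_lit 12424899697) (nat_lit 129) (nat_lit 5) (nat_lit 137) (nat_lit 5) (nat_lit 130) (nat_lit 5) (nat_lit 337) (nat_lit 311) (nat_lit 132))) (XT.nd (nat_lit 78) (nat_lit 532) (nat_lit 0) (XT.lf (nat_lit 0) (nat_lit 4969132147) (nat_lit 608) (nat_lit 638188742) (nat_lit 76) (nat_lit 23218220217) (nat_lit 129) (nat_lit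 5) (nat_lit 137) (nat_lit 5) (nat_lit 130) (nat_lit 5) (nat_lit 338) (nat_lit 311) (nat_lit 131)) (XT.nd (nat_lit 78) (nat_lit 0) (nat_lit 0) (XT.lf (nat_lit 0) (nat_lit 7811293525) (nat_lit 608) (nat_lit 16509842079) (nat_lit 76) (nat_lit 5018370539) (nat_lit 122) (nat_lit 5) (nat_lit 130) (nat_lit 5) (nat_lit 123) (nat_lit 5) (nat_lit 339) (nat_lit 311) (nat_lit 130)) (XT.lf (nat_lit 0) (nat_lit 10797377027) (nat_lit 608) (nat_lit 3213186422) (nat_lit 76) (nat_lit 15856572728) (nat_lit 122) (nat_lit 5) (nat_lit 130) (nat_lit 5) (nat_lit 123) (nat_lit 5) (nat_lit 340) (nat_lit 311) (nat_lit 129))))) (XT.nd (nat_lit 234) (nat_lit 380) (nat_lit 0) (XT.nd (nat_lit 78) (nat_lit 456) (nat_lit 0) (XT.lf (nat_lit 0) (nat_lit 10687480838) (nat_lit 456) (nat_lit 3285025920) (nat_lit 532) (nat_lit 16435110040) (nat_lit 116) (nat_lit 5) (nat_lit 122) (nat_lit 5) (nat_lit 123) (nat_lit 5) (nat_lit 341) (nat_lit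 311) (nat_lit 128)) (XT.nd (nat_lit 78) (nat_lit 456) (nat_lit 0) (XT.lf (nat_lit 0) (nat_lit 17347064039) (nat_lit 532) (nat_lit 5970745541) (nat_lit 76) (nat_lit 7643382483) (nat_lit 116) (nat_lit 5) (nat_lit 123) (nat_lit 5) (nat_lit 117) (nat_lit 5) (nat_lit 342) (nat_lit 311) (nat_lit 127)) (XT.lf (nat_lit 0) (nat_lit 8317502735) (nat_lit 456) (nat_lit 12614716493) (nat_lit 532) (nat_lit 10595879797) (nat_lit 110) (nat_lit 5) (nat_lit 116) (nat_lit 5) (nat_lit 117) (nat_lit 5) (nat_lit 343) (nat_lit 311) (nat_lit 126)))) (XT.nd (nat_lit 78) (nat_lit 380) (nat_lit 0) (XT.lf (nat_lit 0) (nat_lit 23153422974) (nat_lit 456) (nat_lit 1528740566) (nat_lit 532) (nat_lit 7428137746) (nat_lit 110) (nat_lit 5) (nat_lit 116) (nat_lit 5) (nat_lit 117) (nat_lit 5) (nat_lit 344) (nat_lit 311) (nat_lit 125)) (XT.nd (nat_lit 78) (nat_lit 0) (nat_lit 0) (XT.lf (nat_lit 0) (nat_lit 5737990205) (nat_lit 380)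 (nat_lit 22953867810) (nat_lit 456) (nat_lit 4013699017) (nat_lit 105) (nat_lit 5) (nat_lit 110) (nat_lit 5) (nat_lit 111) (nat_lit 5) (nat_lit 345) (nat_lit 311) (nat_lit 124)) (XT.lf (nat_lit 0) (nat_lit 21038544783) (nat_lit 380) (nat_lit 11885815475) (nat_lit 456) (nat_lit 391239512) (nat_lit 105) (nat_lit 5) (nat_lit 110) (nat_lit 5) (nat_lit 111) (nat_lit 5) (nat_lit 346) (nat_lit 311) (nat_lit 123)))))) (XT.nd (nat_lit 468) (nat_lit 1064) (nat_lit 0) (XT.nd (nat_lit 234) (nat_lit 760) (nat_lit 0) (XT.nd (nat_lit 78) (nat_lit 0) (nat_lit 0) (XT.lf (nat_lit 0) (nat_lit 2874871680) (nat_lit 456) (nat_lit 424618475) (nat_lit 532) (nat_lit 30642751943) (nat_lit 98) (nat_lit 5) (nat_lit 104) (nat_lit 5) (nat_lit 105) (nat_lit 5) (nat_lit 347) (nat_lit 311) (nat_lit 122)) (XT.nd (nat_lit 78) (nat_lit 0) (nat_lit 0) (XT.lf (nat_lit 0) (nat_lit 7324857831) (nat_lit 532) (nat_lit 15968784086) (nat_lit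 76) (nat_lit 11286976597) (nat_lit 98) (nat_lit 5) (nat_lit 105) (nat_lit 5) (nat_lit 99) (nat_lit 5) (nat_lit 348) (nat_lit 311) (nat_lit 121)) (XT.lf (nat_lit 0) (nat_lit 11472455235) (nat_lit 532) (nat_lit 424693554) (nat_lit 76) (nat_lit 23340957663) (nat_lit 98) (nat_lit 5) (nat_lit 105) (nat_lit 5) (nat_lit 99) (nat_lit 5) (nat_lit 349) (nat_lit 311) (nat_lit 120)))) (XT.nd (nat_lit 78) (nat_lit 380) (nat_lit 0) (XT.lf (nat_lit 0) (nat_lit 15892688683) (nat_lit 380) (nat_lit 1906350) (nat_lit 456) (nat_lit 20016224726) (nat_lit 93) (nat_lit 5) (nat_lit 98) (nat_lit 5) (nat_lit 99) (nat_lit 5) (nat_lit 350) (nat_lit 311) (nat_lit 119)) (XT.nd (nat_lit 78) (nat_lit 380) (nat_lit 0) (XT.lf (nat_lit 0) (nat_lit 20568873012) (nat_lit 456) (nat_lit 4016287457) (nat_lit 76) (nat_lit 12014973820) (nat_lit 93) (nat_lit 5) (nat_lit 99) (nat_lit 5) (nat_lit 94) (nat_lit 5) (nat_lit 351) (nat_lit 311)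 (nat_lit 118)) (XT.lf (nat_lit 0) (nat_lit 12710512686) (nat_lit 380) (nat_lit 12792529460) (nat_lit 456) (nat_lit 11803500151) (nat_lit 88) (nat_lit 5) (nat_lit 93) (nat_lit 5) (nat_lit 94) (nat_lit 5) (nat_lit 352) (nat_lit 311) (nat_lit 117))))) (XT.nd (nat_lit 234) (nat_lit 684) (nat_lit 0) (XT.nd (nat_lit 78) (nat_lit 380) (nat_lit 0) (XT.lf (nat_lit 0) (nat_lit 30018369468) (nat_lit 380) (nat_lit 604930555) (nat_lit 456) (nat_lit 7409704424) (nat_lit 88) (nat_lit 5) (nat_lit 93) (nat_lit 5) (nat_lit 94) (nat_lit 5) (nat_lit 353) (nat_lit 311) (nat_lit 116)) (XT.nd (nat_lit 78) (nat_lit 76) (nat_lit 0) (XT.lf (nat_lit 0) (nat_lit 9124337292) (nat_lit 304) (nat_lit 26972965583) (nat_lit 380) (nat_lit 2677957169) (nat_lit 84) (nat_lit 5) (nat_lit 88) (nat_lit 5) (nat_lit 89) (nat_lit 5) (nat_lit 354) (nat_lit 311) (nat_lit 115)) (XT.lf (nat_lit 0) (nat_lit 2238207085) (nat_lit 380) (nat_lit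 12626562038) (nat_lit 76) (nat_lit 24671825128) (nat_lit 83) (nat_lit 5) (nat_lit 88) (nat_lit 5) (nat_lit 84) (nat_lit 5) (nat_lit 355) (nat_lit 311) (nat_lit 114)))) (XT.nd (nat_lit 78) (nat_lit 304) (nat_lit 0) (XT.lf (nat_lit 0) (nat_lit 4976126896) (nat_lit 380) (nat_lit 2317397502) (nat_lit 456) (nat_lit 33025087265) (nat_lit 78) (nat_lit 5) (nat_lit 83) (nat_lit 5) (nat_lit 84) (nat_lit 5) (nat_lit 356) (nat_lit 311) (nat_lit 113)) (XT.nd (nat_lit 78) (nat_lit 304) (nat_lit 0) (XT.lf (nat_lit 0) (nat_lit 12728914549) (nat_lit 456) (nat_lit 17860780431) (nat_lit 76) (nat_lit 10527545507) (nat_lit 78) (nat_lit 5) (nat_lit 84) (nat_lit 5) (nat_lit 79) (nat_lit 5) (nat_lit 357) (nat_lit 311) (nat_lit 112)) (XT.lf (nat_lit 0) (nat_lit 121869782) (nat_lit 304) (nat_lit 18227372085) (nat_lit 380) (nat_lit 23589933238) (nat_lit 74) (nat_lit 5) (nat_lit 78) (nat_lit 5) (nat_lit 79) (nat_lit 5) (nat_lit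 358) (nat_lit 311) (nat_lit 111))))))) (XT.nd (nat_lit 936) (nat_lit 760) (nat_lit 0) (XT.nd (nat_lit 468) (nat_lit 836) (nat_lit 0) (XT.nd (nat_lit 234) (nat_lit 380) (nat_lit 0) (XT.nd (nat_lit 78) (nat_lit 304) (nat_lit 0) (XT.lf (nat_lit 0) (nat_lit 19007217961) (nat_lit 304) (nat_lit 5309116636) (nat_lit 380) (nat_lit 18464091595) (nat_lit 74) (nat_lit 5) (nat_lit 78) (nat_lit 5) (nat_lit 79) (nat_lit 5) (nat_lit 359) (nat_lit 311) (nat_lit 110)) (XT.nd (nat_lit 78) (nat_lit 304) (nat_lit 0) (XT.lf (nat_lit 0) (nat_lit 30537163459) (nat_lit 380) (nat_lit 5267543126) (nat_lit 76) (nat_lit 7839969534) (nat_lit 74) (nat_lit 5) (nat_lit 79) (nat_lit 5) (nat_lit 75) (nat_lit 5) (nat_lit 360) (nat_lit 311) (nat_lit 109)) (XT.lf (nat_lit 0) (nat_lit 14011336253) (nat_lit 304) (nat_lit 23118448784) (nat_lit 380) (nat_lit 7399516394) (nat_lit 70) (nat_lit 5) (nat_lit 74) (nat_lit 5) (nat_lit 75) (nat_lit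 5) (nat_lit 361) (nat_lit 311) (nat_lit 108)))) (XT.nd (nat_lit 78) (nat_lit 380) (nat_lit 0) (XT.lf (nat_lit 0) (nat_lit 33973787150) (nat_lit 304) (nat_lit 9997540781) (nat_lit 380) (nat_lit 1467606126) (nat_lit 70) (nat_lit 5) (nat_lit 74) (nat_lit 5) (nat_lit 75) (nat_lit 5) (nat_lit 362) (nat_lit 311) (nat_lit 107)) (XT.nd (nat_lit 78) (nat_lit 0) (nat_lit 0) (XT.lf (nat_lit 0) (nat_lit 4664220465) (nat_lit 380) (nat_lit 38133885855) (nat_lit 76) (nat_lit 3573036902) (nat_lit 65) (nat_lit 5) (nat_lit 70) (nat_lit 5) (nat_lit 66) (nat_lit 5) (nat_lit 363) (nat_lit 311) (nat_lit 106)) (XT.lf (nat_lit 0) (nat_lit 11164425407) (nat_lit 380) (nat_lit 18679514326) (nat_lit 76) (nat_lit 17480527971) (nat_lit 65) (nat_lit 5) (nat_lit 70) (nat_lit 5) (nat_lit 66) (nat_lit 5) (nat_lit 364) (nat_lit 311) (nat_lit 105))))) (XT.nd (nat_lit 234) (nat_lit 532) (nat_lit 0) (XT.nd (nat_lit 78) (nat_lit 0)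 (nat_lit 0) (XT.lf (nat_lit 0) (nat_lit 1382787656) (nat_lit 304) (nat_lit 16488212532) (nat_lit 380) (nat_lit 30435053341) (nat_lit 61) (nat_lit 5) (nat_lit 65) (nat_lit 5) (nat_lit 66) (nat_lit 5) (nat_lit 365) (nat_lit 311) (nat_lit 104)) (XT.nd (nat_lit 78) (nat_lit 0) (nat_lit 0) (XT.lf (nat_lit 0) (nat_lit 22427212883) (nat_lit 304) (nat_lit 2538287913) (nat_lit 380) (nat_lit 24345986723) (nat_lit 61) (nat_lit 5) (nat_lit 65) (nat_lit 5) (nat_lit 66) (nat_lit 5) (nat_lit 366) (nat_lit 311) (nat_lit 103)) (XT.lf (nat_lit 0) (nat_lit 32384705215) (nat_lit 380) (nat_lit 6360462858) (nat_lit 76) (nat_lit 11598562766) (nat_lit 61) (nat_lit 5) (nat_lit 66) (nat_lit 5) (nat_lit 62) (nat_lit 5) (nat_lit 367) (nat_lit 311) (nat_lit 102)))) (XT.nd (nat_lit 78) (nat_lit 304) (nat_lit 0) (XT.lf (nat_lit 0) (nat_lit 15044958964) (nat_lit 228) (nat_lit 25149483892) (nat_lit 304) (nat_lit 11207462198) (nat_lit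 58) (nat_lit 5) (nat_lit 61) (nat_lit 5) (nat_lit 62) (nat_lit 5) (nat_lit 368) (nat_lit 311) (nat_lit 101)) (XT.nd (nat_lit 78) (nat_lit 304) (nat_lit 0) (XT.lf (nat_lit 0) (nat_lit 37220397651) (nat_lit 228) (nat_lit 11080535351) (nat_lit 304) (nat_lit 4189019919) (nat_lit 58) (nat_lit 5) (nat_lit 61) (nat_lit 5) (nat_lit 62) (nat_lit 5) (nat_lit 369) (nat_lit 311) (nat_lit 100)) (XT.lf (nat_lit 0) (nat_lit 3075536895) (nat_lit 304) (nat_lit 47095131910) (nat_lit 76) (nat_lit 3436252402) (nat_lit 54) (nat_lit 5) (nat_lit 58) (nat_lit 5) (nat_lit 55) (nat_lit 5) (nat_lit 370) (nat_lit 311) (nat_lit 99)))))) (XT.nd (nat_lit 468) (nat_lit 304) (nat_lit 0) (XT.nd (nat_lit 234) (nat_lit 228) (nat_lit 0) (XT.nd (nat_lit 78) (nat_lit 228) (nat_lit 0) (XT.lf (nat_lit 0) (nat_lit 10737546828) (nat_lit 304) (nat_lit 25648411637) (nat_lit 76) (nat_lit 18362286516) (nat_lit 54) (nat_lit 5) (nat_lit 58) (nat_lit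 5) (nat_lit 55) (nat_lit 5) (nat_lit 371) (nat_lit 311) (nat_lit 98)) (XT.nd (nat_lit 78) (nat_lit 228) (nat_lit 0) (XT.lf (nat_lit 0) (nat_lit 18627751108) (nat_lit 304) (nat_lit 3560730156) (nat_lit 76) (nat_lit 33735379173) (nat_lit 54) (nat_lit 5) (nat_lit 58) (nat_lit 5) (nat_lit 55) (nat_lit 5) (nat_lit 372) (nat_lit 311) (nat_lit 97)) (XT.lf (nat_lit 0) (nat_lit 19569075598) (nat_lit 228) (nat_lit 7372078414) (nat_lit 304) (nat_lit 30187997499) (nat_lit 51) (nat_lit 5) (nat_lit 54) (nat_lit 5) (nat_lit 55) (nat_lit 5) (nat_lit 373) (nat_lit 311) (nat_lit 96)))) (XT.nd (nat_lit 78) (nat_lit 228) (nat_lit 0) (XT.lf (nat_lit 0) (nat_lit 35614503420) (nat_lit 304) (nat_lit 14982332272) (nat_lit 76) (nat_lit 7770451169) (nat_lit 51) (nat_lit 5) (nat_lit 55) (nat_lit 5) (nat_lit 52) (nat_lit 5) (nat_lit 374) (nat_lit 311) (nat_lit 95)) (XT.nd (nat_lit 78) (nat_lit 0) (nat_lit 0) (XT.lf (nat_lit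 0) (nat_lit 8360578866) (nat_lit 228) (nat_lit 36339278811) (nat_lit 304) (nat_lit 14938156284) (nat_lit 48) (nat_lit 5) (nat_lit 51) (nat_lit 5) (nat_lit 52) (nat_lit 5) (nat_lit 375) (nat_lit 311) (nat_lit 94)) (XT.lf (nat_lit 0) (nat_lit 32708604251) (nat_lit 228) (nat_lit 21498930157) (nat_lit 304) (nat_lit 6734837376) (nat_lit 48) (nat_lit 5) (nat_lit 51) (nat_lit 5) (nat_lit 52) (nat_lit 5) (nat_lit 376) (nat_lit 311) (nat_lit 93))))) (XT.nd (nat_lit 35568) (nat_lit 0) (nat_lit 9804) (XT.nd (nat_lit 78) (nat_lit 228) (nat_lit 0) (XT.lf (nat_lit 0) (nat_lit 1679621293) (nat_lit 304) (nat_lit 4517532441) (nat_lit 76) (nat_lit 56088258893) (nat_lit 47) (nat_lit 5) (nat_lit 51) (nat_lit 5) (nat_lit 48) (nat_lit 5) (nat_lit 377) (nat_lit 311) (nat_lit 92)) (XT.nd (nat_lit 78) (nat_lit 0) (nat_lit 0) (XT.lf (nat_lit 0) (nat_lit 10498725441) (nat_lit 304) (nat_lit 43519270798) (nat_lit 76) (nat_lit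 9640122366) (nat_lit 44) (nat_lit 5) (nat_lit 48) (nat_lit 5) (nat_lit 45) (nat_lit 5) (nat_lit 378) (nat_lit 311) (nat_lit 91)) (XT.lf (nat_lit 0) (nat_lit 19688386660) (nat_lit 304) (nat_lit 19507133504) (nat_lit 76) (nat_lit 25873307651) (nat_lit 44) (nat_lit 5) (nat_lit 48) (nat_lit 5) (nat_lit 45) (nat_lit 5) (nat_lit 379) (nat_lit 311) (nat_lit 90)))) (XT.nd (nat_lit 78) (nat_lit 0) (nat_lit 0) (XT.lf (nat_lit 0) (nat_lit 7483103451) (nat_lit 1140) (nat_lit 1061883521) (nat_lit 1140) (nat_lit 1061883521) (nat_lit 173) (nat_lit 3) (nat_lit 188) (nat_lit 3) (nat_lit 188) (nat_lit 5) (nat_lit 312) (nat_lit 312) (nat_lit 156)) (XT.nd (nat_lit 78) (nat_lit 0) (nat_lit 0) (XT.lf (nat_lit 76) (nat_lit 6250261196) (nat_lit 0) (nat_lit 9164488939) (nat_lit 1140) (nat_lit 4080147322) (nat_lit 174) (nat_lit 5) (nat_lit 173) (nat_lit 3) (nat_lit 188) (nat_lit 5) (nat_lit 313) (nat_lit 312) (nat_lit 155))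 (XT.lf (nat_lit 76) (nat_lit 14915677695) (nat_lit 0) (nat_lit 976086236) (nat_lit 1140) (nat_lit 3892287065) (nat_lit 174) (nat_lit 5) (nat_lit 173) (nat_lit 3) (nat_lit 188) (nat_lit 5) (nat_lit 314) (nat_lit 312) (nat_lit 154))))))))
noncomputable def xc225 : XT := (XT.nd (nat_lit 1794) (nat_lit 4180) (nat_lit 0) (XT.nd (nat_lit 858) (nat_lit 2508) (nat_lit 0) (XT.nd (nat_lit 390) (nat_lit 912) (nat_lit 0) (XT.nd (nat_lit 156) (nat_lit 0) (nat_lit 76) (XT.nd (nat_lit 78) (nat_lit 0) (nat_lit 0) (XT.lf (nat_lit 76) (nat_lit 3757307597) (nat_lit 0) (nat_lit 12727372947) (nat_lit 1140) (nat_lit 3594163261) (nat_lit 175) (nat_lit 5) (nat_lit 174) (nat_lit 5) (nat_lit 189) (nat_lit 5) (nat_lit 315) (nat_lit 312) (nat_lit 153)) (XT.lf (nat_lit 76) (nat_lit 12728235542) (nat_lit 0) (nat_lit 4419811660) (nat_lit 1140) (nat_lit 3232865389) (nat_lit 175) (nat_lit 5) (nat_lit 174) (nat_lit 5) (nat_lit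 189) (nat_lit 5) (nat_lit 316) (nat_lit 312) (nat_lit 152))) (XT.nd (nat_lit 78) (nat_lit 0) (nat_lit 0) (XT.lf (nat_lit 76) (nat_lit 1257442386) (nat_lit 0) (nat_lit 16619860021) (nat_lit 1140) (nat_lit 2813373129) (nat_lit 176) (nat_lit 5) (nat_lit 175) (nat_lit 5) (nat_lit 190) (nat_lit 5) (nat_lit 317) (nat_lit 312) (nat_lit 151)) (XT.nd (nat_lit 78) (nat_lit 0) (nat_lit 76) (XT.lf (nat_lit 76) (nat_lit 10543565826) (nat_lit 0) (nat_lit 8199747900) (nat_lit 1140) (nat_lit 2262982666) (nat_lit 176) (nat_lit 5) (nat_lit 175) (nat_lit 5) (nat_lit 190) (nat_lit 5) (nat_lit 318) (nat_lit 312) (nat_lit 150)) (XT.lf (nat_lit 0) (nat_lit 19634309106) (nat_lit 1064) (nat_lit 1231295138) (nat_lit 1140) (nat_lit 465822565) (nat_lit 176) (nat_lit 5) (nat_lit 190) (nat_lit 5) (nat_lit 191) (nat_lit 5) (nat_lit 319) (nat_lit 312) (nat_lit 149))))) (XT.nd (nat_lit 234) (nat_lit 0) (nat_lit 0) (XT.nd (nat_lit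 78) (nat_lit 1064) (nat_lit 0) (XT.lf (nat_lit 76) (nat_lit 8355412031) (nat_lit 0) (nat_lit 12352743978) (nat_lit 1140) (nat_lit 953482206) (nat_lit 177) (nat_lit 5) (nat_lit 176) (nat_lit 5) (nat_lit 191) (nat_lit 5) (nat_lit 320) (nat_lit 312) (nat_lit 148)) (XT.nd (nat_lit 78) (nat_lit 1064) (nat_lit 0) (XT.lf (nat_lit 76) (nat_lit 18251465483) (nat_lit 0) (nat_lit 3569928347) (nat_lit 1140) (nat_lit 180157280) (nat_lit 177) (nat_lit 5) (nat_lit 176) (nat_lit 5) (nat_lit 191) (nat_lit 5) (nat_lit 321) (nat_lit 312) (nat_lit 147)) (XT.lf (nat_lit 0) (nat_lit 712122005) (nat_lit 1140) (nat_lit 16198788649) (nat_lit 1216) (nat_lit 5437349343) (nat_lit 162) (nat_lit 5) (nat_lit 177) (nat_lit 5) (nat_lit 178) (nat_lit 5) (nat_lit 322) (nat_lit 312) (nat_lit 146)))) (XT.nd (nat_lit 78) (nat_lit 0) (nat_lit 76) (XT.lf (nat_lit 0) (nat_lit 1696104732) (nat_lit 1140) (nat_lit 6322498329) (nat_lit 1216)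 (nat_lit 14684666424) (nat_lit 162) (nat_lit 5) (nat_lit 177) (nat_lit 5) (nat_lit 178) (nat_lit 5) (nat_lit 323) (nat_lit 312) (nat_lit 145)) (XT.nd (nat_lit 78) (nat_lit 0) (nat_lit 0) (XT.lf (nat_lit 0) (nat_lit 2753780718) (nat_lit 1140) (nat_lit 19156210247) (nat_lit 1216) (nat_lit 1157622331) (nat_lit 163) (nat_lit 5) (nat_lit 178) (nat_lit 5) (nat_lit 179) (nat_lit 5) (nat_lit 324) (nat_lit 312) (nat_lit 144)) (XT.lf (nat_lit 0) (nat_lit 3982290264) (nat_lit 1140) (nat_lit 8942741250) (nat_lit 1216) (nat_lit 10513691791) (nat_lit 163) (nat_lit 5) (nat_lit 178) (nat_lit 5) (nat_lit 179) (nat_lit 5) (nat_lit 325) (nat_lit 312) (nat_lit 143)))))) (XT.nd (nat_lit 468) (nat_lit 1672) (nat_lit 0) (XT.nd (nat_lit 234) (nat_lit 912) (nat_lit 0) (XT.nd (nat_lit 78) (nat_lit 0) (nat_lit 76) (XT.lf (nat_lit 76) (nat_lit 1604884402) (nat_lit 0) (nat_lit 3653570843) (nat_lit 1216) (nat_lit 18562196086)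 (nat_lit 164) (nat_lit 5) (nat_lit 163) (nat_lit 5) (nat_lit 179) (nat_lit 5) (nat_lit 326) (nat_lit 312) (nat_lit 142)) (XT.nd (nat_lit 78) (nat_lit 0) (nat_lit 0) (XT.lf (nat_lit 0) (nat_lit 6716263147) (nat_lit 1140) (nat_lit 11620325579) (nat_lit 1216) (nat_lit 5873156199) (nat_lit 164) (nat_lit 5) (nat_lit 179) (nat_lit 5) (nat_lit 180) (nat_lit 5) (nat_lit 327) (nat_lit 312) (nat_lit 141)) (XT.lf (nat_lit 0) (nat_lit 8249594241) (nat_lit 1140) (nat_lit 746771048) (nat_lit 1216) (nat_lit 15613200590) (nat_lit 164) (nat_lit 5) (nat_lit 179) (nat_lit 5) (nat_lit 180) (nat_lit 5) (nat_lit 328) (nat_lit 312) (nat_lit 140)))) (XT.nd (nat_lit 78) (nat_lit 1064) (nat_lit 0) (XT.lf (nat_lit 0) (nat_lit 9934134992) (nat_lit 1140) (nat_lit 14367980448) (nat_lit 76) (nat_lit 716117709) (nat_lit 165) (nat_lit 5) (nat_lit 180) (nat_lit 5) (nat_lit 166) (nat_lit 5) (nat_lit 329) (nat_lit 312) (nat_lit 139))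 (XT.nd (nat_lit 78) (nat_lit 1064) (nat_lit 0) (XT.lf (nat_lit 0) (nat_lit 11761741134) (nat_lit 1140) (nat_lit 3127164194) (nat_lit 76) (nat_lit 10547486982) (nat_lit 165) (nat_lit 5) (nat_lit 180) (nat_lit 5) (nat_lit 166) (nat_lit 5) (nat_lit 330) (nat_lit 312) (nat_lit 138)) (XT.lf (nat_lit 0) (nat_lit 8615522998) (nat_lit 1064) (nat_lit 5107431944) (nat_lit 1140) (nat_lit 12141785443) (nat_lit 151) (nat_lit 5) (nat_lit 165) (nat_lit 5) (nat_lit 166) (nat_lit 5) (nat_lit 331) (nat_lit 312) (nat_lit 137))))) (XT.nd (nat_lit 234) (nat_lit 1140) (nat_lit 0) (XT.nd (nat_lit 78) (nat_lit 532) (nat_lit 0) (XT.lf (nat_lit 0) (nat_lit 15818697864) (nat_lit 1140) (nat_lit 5582030350) (nat_lit 76) (nat_lit 4902947210) (nat_lit 151) (nat_lit 5) (nat_lit 166) (nat_lit 5) (nat_lit 152) (nat_lit 5) (nat_lit 332) (nat_lit 312) (nat_lit 136)) (XT.nd (nat_lit 78) (nat_lit 0) (nat_lit 0) (XT.lf (nat_lit 0) (nat_lit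 6508134563) (nat_lit 532) (nat_lit 11578473629) (nat_lit 608) (nat_lit 8665898561) (nat_lit 144) (nat_lit 5) (nat_lit 151) (nat_lit 5) (nat_lit 152) (nat_lit 5) (nat_lit 333) (nat_lit 312) (nat_lit 135)) (XT.lf (nat_lit 0) (nat_lit 19071998309) (nat_lit 532) (nat_lit 1403170065) (nat_lit 608) (nat_lit 6738063154) (nat_lit 144) (nat_lit 5) (nat_lit 151) (nat_lit 5) (nat_lit 152) (nat_lit 5) (nat_lit 334) (nat_lit 312) (nat_lit 134)))) (XT.nd (nat_lit 78) (nat_lit 608) (nat_lit 0) (XT.lf (nat_lit 0) (nat_lit 4318561802) (nat_lit 532) (nat_lit 18741951032) (nat_lit 608) (nat_lit 4623518072) (nat_lit 137) (nat_lit 5) (nat_lit 144) (nat_lit 5) (nat_lit 145) (nat_lit 5) (nat_lit 335) (nat_lit 312) (nat_lit 133)) (XT.nd (nat_lit 78) (nat_lit 608) (nat_lit 0) (XT.lf (nat_lit 0) (nat_lit 17301451184) (nat_lit 532) (nat_lit 8514364115) (nat_lit 608) (nat_lit 2350373525) (nat_lit 137) (nat_lit 5) (nat_lit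 144) (nat_lit 5) (nat_lit 145) (nat_lit 5) (nat_lit 336) (nat_lit 312) (nat_lit 132)) (XT.lf (nat_lit 0) (nat_lit 26932221) (nat_lit 608) (nat_lit 26634281864) (nat_lit 76) (nat_lit 2000532401) (nat_lit 129) (nat_lit 5) (nat_lit 137) (nat_lit 5) (nat_lit 130) (nat_lit 5) (nat_lit 337) (nat_lit 312) (nat_lit 131))))))) (XT.nd (nat_lit 936) (nat_lit 1824) (nat_lit 0) (XT.nd (nat_lit 468) (nat_lit 1368) (nat_lit 0) (XT.nd (nat_lit 234) (nat_lit 456) (nat_lit 0) (XT.nd (nat_lit 78) (nat_lit 532) (nat_lit 0) (XT.lf (nat_lit 0) (nat_lit 2619981023) (nat_lit 608) (nat_lit 13751858349) (nat_lit 76) (nat_lit 12793889389) (nat_lit 129) (nat_lit 5) (nat_lit 137) (nat_lit 5) (nat_lit 130) (nat_lit 5) (nat_lit 338) (nat_lit 312) (nat_lit 130)) (XT.nd (nat_lit 78) (nat_lit 532) (nat_lit 0) (XT.lf (nat_lit 0) (nat_lit 5287485969) (nat_lit 608) (nat_lit 486331401) (nat_lit 76) (nat_lit 23911118961) (nat_lit 129)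 (nat_lit 5) (nat_lit 137) (nat_lit 5) (nat_lit 130) (nat_lit 5) (nat_lit 339) (nat_lit 312) (nat_lit 129)) (XT.lf (nat_lit 0) (nat_lit 8211641573) (nat_lit 608) (nat_lit 16830579633) (nat_lit 76) (nat_lit 5172205753) (nat_lit 122) (nat_lit 5) (nat_lit 130) (nat_lit 5) (nat_lit 123) (nat_lit 5) (nat_lit 340) (nat_lit 312) (nat_lit 128)))) (XT.nd (nat_lit 78) (nat_lit 456) (nat_lit 0) (XT.lf (nat_lit 0) (nat_lit 11282472360) (nat_lit 608) (nat_lit 3140108512) (nat_lit 76) (nat_lit 16335458354) (nat_lit 122) (nat_lit 5) (nat_lit 130) (nat_lit 5) (nat_lit 123) (nat_lit 5) (nat_lit 341) (nat_lit 312) (nat_lit 127)) (XT.nd (nat_lit 78) (nat_lit 0) (nat_lit 0) (XT.lf (nat_lit 0) (nat_lit 11175917262) (nat_lit 456) (nat_lit 3373857444) (nat_lit 532) (nat_lit 16765060031) (nat_lit 116) (nat_lit 5) (nat_lit 122) (nat_lit 5) (nat_lit 123) (nat_lit 5) (nat_lit 342) (nat_lit 312) (nat_lit 126)) (XT.lf (nat_lit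 0) (nat_lit 18021054768) (nat_lit 532) (nat_lit 5982169718) (nat_lit 76) (nat_lit 7881935992) (nat_lit 116) (nat_lit 5) (nat_lit 123) (nat_lit 5) (nat_lit 117) (nat_lit 5) (nat_lit 343) (nat_lit 312) (nat_lit 125))))) (XT.nd (nat_lit 234) (nat_lit 532) (nat_lit 0) (XT.nd (nat_lit 78) (nat_lit 380) (nat_lit 0) (XT.lf (nat_lit 0) (nat_lit 8733081907) (nat_lit 456) (nat_lit 12977805751) (nat_lit 532) (nat_lit 10758280872) (nat_lit 110) (nat_lit 5) (nat_lit 116) (nat_lit 5) (nat_lit 117) (nat_lit 5) (nat_lit 344) (nat_lit 312) (nat_lit 124)) (XT.nd (nat_lit 78) (nat_lit 380) (nat_lit 0) (XT.lf (nat_lit 0) (nat_lit 24009243226) (nat_lit 456) (nat_lit 1559697698) (nat_lit 532) (nat_lit 7500034967) (nat_lit 110) (nat_lit 5) (nat_lit 116) (nat_lit 5) (nat_lit 117) (nat_lit 5) (nat_lit 345) (nat_lit 312) (nat_lit 123)) (XT.lf (nat_lit 0) (nat_lit 6074214036) (nat_lit 380) (nat_lit 23622167050) (nat_lit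 456) (nat_lit 3985791716) (nat_lit 105) (nat_lit 5) (nat_lit 110) (nat_lit 5) (nat_lit 111) (nat_lit 5) (nat_lit 346) (nat_lit 312) (nat_lit 122)))) (XT.nd (nat_lit 78) (nat_lit 532) (nat_lit 0) (XT.lf (nat_lit 0) (nat_lit 21829006102) (nat_lit 380) (nat_lit 12222664896) (nat_lit 456) (nat_lit 258978376) (nat_lit 105) (nat_lit 5) (nat_lit 110) (nat_lit 5) (nat_lit 111) (nat_lit 5) (nat_lit 347) (nat_lit 312) (nat_lit 121)) (XT.nd (nat_lit 78) (nat_lit 0) (nat_lit 0) (XT.lf (nat_lit 0) (nat_lit 3121865434) (nat_lit 456) (nat_lit 415230742) (nat_lit 532) (nat_lit 31419036813) (nat_lit 98) (nat_lit 5) (nat_lit 104) (nat_lit 5) (nat_lit 105) (nat_lit 5) (nat_lit 348) (nat_lit 312) (nat_lit 120)) (XT.lf (nat_lit 0) (nat_lit 7679393866) (nat_lit 532) (nat_lit 16287739566) (nat_lit 76) (nat_lit 11646648539) (nat_lit 98) (nat_lit 5) (nat_lit 105) (nat_lit 5) (nat_lit 99) (nat_lit 5) (nat_lit 349) (nat_lit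 312) (nat_lit 119)))))) (XT.nd (nat_lit 468) (nat_lit 760) (nat_lit 0) (XT.nd (nat_lit 234) (nat_lit 684) (nat_lit 0) (XT.nd (nat_lit 78) (nat_lit 380) (nat_lit 0) (XT.lf (nat_lit 0) (nat_lit 11947493260) (nat_lit 532) (nat_lit 281989659) (nat_lit 76) (nat_lit 24061635562) (nat_lit 98) (nat_lit 5) (nat_lit 105) (nat_lit 5) (nat_lit 99) (nat_lit 5) (nat_lit 350) (nat_lit 312) (nat_lit 118)) (XT.nd (nat_lit 78) (nat_lit 0) (nat_lit 0) (XT.lf (nat_lit 0) (nat_lit 16500190424) (nat_lit 456) (nat_lit 20460924222) (nat_lit 76) (nat_lit 22967725) (nat_lit 93) (nat_lit 5) (nat_lit 99) (nat_lit 5) (nat_lit 94) (nat_lit 5) (nat_lit 351) (nat_lit 312) (nat_lit 117)) (XT.lf (nat_lit 0) (nat_lit 21310964847) (nat_lit 456) (nat_lit 3983638303) (nat_lit 76) (nat_lit 12399590947) (nat_lit 93) (nat_lit 5) (nat_lit 99) (nat_lit 5) (nat_lit 94) (nat_lit 5) (nat_lit 352) (nat_lit 312) (nat_lit 116)))) (XT.nd (nat_lit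 78) (nat_lit 304) (nat_lit 0) (XT.lf (nat_lit 0) (nat_lit 13243464495) (nat_lit 380) (nat_lit 13147510659) (nat_lit 456) (nat_lit 12030890343) (nat_lit 88) (nat_lit 5) (nat_lit 93) (nat_lit 5) (nat_lit 94) (nat_lit 5) (nat_lit 353) (nat_lit 312) (nat_lit 115)) (XT.nd (nat_lit 78) (nat_lit 304) (nat_lit 0) (XT.lf (nat_lit 0) (nat_lit 31066140385) (nat_lit 380) (nat_lit 595122466) (nat_lit 456) (nat_lit 7508971467) (nat_lit 88) (nat_lit 5) (nat_lit 93) (nat_lit 5) (nat_lit 94) (nat_lit 5) (nat_lit 354) (nat_lit 312) (nat_lit 114)) (XT.lf (nat_lit 0) (nat_lit 9547301213) (nat_lit 304) (nat_lit 27750406303) (nat_lit 380) (nat_lit 2637108727) (nat_lit 84) (nat_lit 5) (nat_lit 88) (nat_lit 5) (nat_lit 89) (nat_lit 5) (nat_lit 355) (nat_lit 312) (nat_lit 113))))) (XT.nd (nat_lit 234) (nat_lit 304) (nat_lit 0) (XT.nd (nat_lit 78) (nat_lit 380) (nat_lit 0) (XT.lf (nat_lit 0) (nat_lit 2420714810) (nat_lit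 380) (nat_lit 12858008919) (nat_lit 76) (nat_lit 25440340630) (nat_lit 83) (nat_lit 5) (nat_lit 88) (nat_lit 5) (nat_lit 84) (nat_lit 5) (nat_lit 356) (nat_lit 312) (nat_lit 112)) (XT.nd (nat_lit 78) (nat_lit 0) (nat_lit 0) (XT.lf (nat_lit 0) (nat_lit 5271316075) (nat_lit 380) (nat_lit 2354418056) (nat_lit 456) (nat_lit 33898871750) (nat_lit 78) (nat_lit 5) (nat_lit 83) (nat_lit 5) (nat_lit 84) (nat_lit 5) (nat_lit 357) (nat_lit 312) (nat_lit 111)) (XT.lf (nat_lit 0) (nat_lit 13221186281) (nat_lit 456) (nat_lit 18251791143) (nat_lit 76) (nat_lit 10874310855) (nat_lit 78) (nat_lit 5) (nat_lit 84) (nat_lit 5) (nat_lit 79) (nat_lit 5) (nat_lit 358) (nat_lit 312) (nat_lit 110)))) (XT.nd (nat_lit 78) (nat_lit 0) (nat_lit 0) (XT.lf (nat_lit 0) (nat_lit 268918844) (nat_lit 304) (nat_lit 18739367295) (nat_lit 380) (nat_lit 24185654495) (nat_lit 74) (nat_lit 5) (nat_lit 78) (nat_lit 5) (nat_lit 79) (nat_lit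 5) (nat_lit 359) (nat_lit 312) (nat_lit 109)) (XT.nd (nat_lit 78) (nat_lit 0) (nat_lit 0) (XT.lf (nat_lit 0) (nat_lit 19716650974) (nat_lit 304) (nat_lit 5434578531) (nat_lit 380) (nat_lit 18909299061) (nat_lit 74) (nat_lit 5) (nat_lit 78) (nat_lit 5) (nat_lit 79) (nat_lit 5) (nat_lit 360) (nat_lit 312) (nat_lit 108)) (XT.lf (nat_lit 0) (nat_lit 31555928740) (nat_lit 380) (nat_lit 5287509355) (nat_lit 76) (nat_lit 8107354851) (nat_lit 74) (nat_lit 5) (nat_lit 79) (nat_lit 5) (nat_lit 75) (nat_lit 5) (nat_lit 361) (nat_lit 312) (nat_lit 107))))))))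
noncomputable def xc226 : XT := (XT.nd (nat_lit 37284) (nat_lit 0) (nat_lit 5700) (XT.nd (nat_lit 858) (nat_lit 532) (nat_lit 0) (XT.nd (nat_lit 390) (nat_lit 532) (nat_lit 0) (XT.nd (nat_lit 156) (nat_lit 684) (nat_lit 0) (XT.nd (nat_lit 78) (nat_lit 0) (nat_lit 0) (XT.lf (nat_lit 0) (nat_lit 14568382876) (nat_lit 304) (nat_lit 23776270379) (nat_lit 380) (nat_lit 7517358225) (nat_lit 70) (nat_lit 5) (nat_lit 74) (nat_lit 5) (nat_lit 75) (nat_lit 5) (nat_lit 362) (nat_lit 312) (nat_lit 106)) (XT.lf (nat_lit 0) (nat_lit 35125725557) (nat_lit 304) (nat_lit 10262775870) (nat_lit 380) (nat_lit 1410523960) (nat_lit 70) (nat_lit 5) (nat_lit 74) (nat_lit 5) (nat_lit 75) (nat_lit 5) (nat_lit 363) (nat_lit 312) (nat_lit 105))) (XT.nd (nat_lit 78) (nat_lit 304) (nat_lit 0) (XT.lf (nat_lit 0) (nat_lit 4902026074) (nat_lit 380) (nat_lit 39141686658) (nat_lit 76) (nat_lit 3715500522) (nat_lit 65) (nat_lit 5)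 (nat_lit 70) (nat_lit 5) (nat_lit 66) (nat_lit 5) (nat_lit 364) (nat_lit 312) (nat_lit 104)) (XT.nd (nat_lit 78) (nat_lit 304) (nat_lit 0) (XT.lf (nat_lit 0) (nat_lit 11594386320) (nat_lit 380) (nat_lit 19107651433) (nat_lit 76) (nat_lit 18039188968) (nat_lit 65) (nat_lit 5) (nat_lit 70) (nat_lit 5) (nat_lit 66) (nat_lit 5) (nat_lit 365) (nat_lit 312) (nat_lit 103)) (XT.lf (nat_lit 0) (nat_lit 1555223057) (nat_lit 304) (nat_lit 16945426266) (nat_lit 380) (nat_lit 31251659686) (nat_lit 61) (nat_lit 5) (nat_lit 65) (nat_lit 5) (nat_lit 66) (nat_lit 5) (nat_lit 366) (nat_lit 312) (nat_lit 102))))) (XT.nd (nat_lit 234) (nat_lit 304) (nat_lit 0) (XT.nd (nat_lit 78) (nat_lit 228) (nat_lit 0) (XT.lf (nat_lit 0) (nat_lit 23227166911) (nat_lit 304) (nat_lit 2578094180) (nat_lit 380) (nat_lit 24982730154) (nat_lit 61) (nat_lit 5) (nat_lit 65) (nat_lit 5) (nat_lit 66) (nat_lit 5) (nat_lit 367) (nat_lit 312)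 (nat_lit 101)) (XT.nd (nat_lit 78) (nat_lit 228) (nat_lit 0) (XT.lf (nat_lit 0) (nat_lit 33444736289) (nat_lit 380) (nat_lit 6425423156) (nat_lit 76) (nat_lit 11981114990) (nat_lit 61) (nat_lit 5) (nat_lit 66) (nat_lit 5) (nat_lit 62) (nat_lit 5) (nat_lit 368) (nat_lit 312) (nat_lit 100)) (XT.lf (nat_lit 0) (nat_lit 15620927463) (nat_lit 228) (nat_lit 25866459142) (nat_lit 304) (nat_lit 11453851964) (nat_lit 58) (nat_lit 5) (nat_lit 61) (nat_lit 5) (nat_lit 62) (nat_lit 5) (nat_lit 369) (nat_lit 312) (nat_lit 99)))) (XT.nd (nat_lit 78) (nat_lit 304) (nat_lit 0) (XT.lf (nat_lit 0) (nat_lit 38457999609) (nat_lit 228) (nat_lit 11376534648) (nat_lit 304) (nat_lit 4227472944) (nat_lit 58) (nat_lit 5) (nat_lit 61) (nat_lit 5) (nat_lit 62) (nat_lit 5) (nat_lit 370) (nat_lit 312) (nat_lit 98)) (XT.nd (nat_lit 78) (nat_lit 0) (nat_lit 0) (XT.lf (nat_lit 0) (nat_lit 3252356211) (nat_lit 304) (nat_lit 48384126525)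 (nat_lit 76) (nat_lit 3576008550) (nat_lit 54) (nat_lit 5) (nat_lit 58) (nat_lit 5) (nat_lit 55) (nat_lit 5) (nat_lit 371) (nat_lit 312) (nat_lit 97)) (XT.lf (nat_lit 0) (nat_lit 11141763728) (nat_lit 304) (nat_lit 26297612197) (nat_lit 76) (nat_lit 18948755670) (nat_lit 54) (nat_lit 5) (nat_lit 58) (nat_lit 5) (nat_lit 55) (nat_lit 5) (nat_lit 372) (nat_lit 312) (nat_lit 96)))))) (XT.nd (nat_lit 35958) (nat_lit 0) (nat_lit 9576) (XT.nd (nat_lit 234) (nat_lit 304) (nat_lit 0) (XT.nd (nat_lit 78) (nat_lit 228) (nat_lit 0) (XT.lf (nat_lit 0) (nat_lit 19266283151) (nat_lit 304) (nat_lit 3550802751) (nat_lit 76) (nat_lit 34782004197) (nat_lit 54) (nat_lit 5) (nat_lit 58) (nat_lit 5) (nat_lit 55) (nat_lit 5) (nat_lit 373) (nat_lit 312) (nat_lit 95)) (XT.nd (nat_lit 78) (nat_lit 0) (nat_lit 0) (XT.lf (nat_lit 0) (nat_lit 20271752574) (nat_lit 228) (nat_lit 7556125486) (nat_lit 304) (nat_lit 31012700919)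 (nat_lit 51) (nat_lit 5) (nat_lit 54) (nat_lit 5) (nat_lit 55) (nat_lit 5) (nat_lit 374) (nat_lit 312) (nat_lit 94)) (XT.lf (nat_lit 0) (nat_lit 36759488234) (nat_lit 304) (nat_lit 15317535239) (nat_lit 76) (nat_lit 8038895799) (nat_lit 51) (nat_lit 5) (nat_lit 55) (nat_lit 5) (nat_lit 52) (nat_lit 5) (nat_lit 375) (nat_lit 312) (nat_lit 93)))) (XT.nd (nat_lit 78) (nat_lit 76) (nat_lit 0) (XT.lf (nat_lit 0) (nat_lit 8724542967) (nat_lit 228) (nat_lit 37391718183) (nat_lit 304) (nat_lit 15308543906) (nat_lit 48) (nat_lit 5) (nat_lit 51) (nat_lit 5) (nat_lit 52) (nat_lit 5) (nat_lit 376) (nat_lit 312) (nat_lit 92)) (XT.nd (nat_lit 78) (nat_lit 76) (nat_lit 0) (XT.lf (nat_lit 0) (nat_lit 33799713578) (nat_lit 228) (nat_lit 22107258264) (nat_lit 304) (nat_lit 6861390201) (nat_lit 48) (nat_lit 5) (nat_lit 51) (nat_lit 5) (nat_lit 52) (nat_lit 5) (nat_lit 377) (nat_lit 312) (nat_lit 91)) (XT.lf (nat_lit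 0) (nat_lit 1801873204) (nat_lit 304) (nat_lit 4544896844) (nat_lit 76) (nat_lit 57804969360) (nat_lit 47) (nat_lit 5) (nat_lit 51) (nat_lit 5) (nat_lit 48) (nat_lit 5) (nat_lit 378) (nat_lit 312) (nat_lit 90))))) (XT.nd (nat_lit 234) (nat_lit 0) (nat_lit 76) (XT.nd (nat_lit 78) (nat_lit 0) (nat_lit 0) (XT.lf (nat_lit 0) (nat_lit 7869989181) (nat_lit 1140) (nat_lit 1009945330) (nat_lit 1140) (nat_lit 1009945330) (nat_lit 173) (nat_lit 3) (nat_lit 188) (nat_lit 3) (nat_lit 188) (nat_lit 5) (nat_lit 313) (nat_lit 313) (nat_lit 154)) (XT.nd (nat_lit 78) (nat_lit 0) (nat_lit 0) (XT.lf (nat_lit 76) (nat_lit 6603715393) (nat_lit 0) (nat_lit 9590397913) (nat_lit 1140) (nat_lit 3875492408) (nat_lit 174) (nat_lit 5) (nat_lit 173) (nat_lit 3) (nat_lit 188) (nat_lit 5) (nat_lit 314) (nat_lit 313) (nat_lit 153)) (XT.lf (nat_lit 76) (nat_lit 15524260999) (nat_lit 0) (nat_lit 1151945819) (nat_lit 1140) (nat_lit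 3691522344) (nat_lit 174) (nat_lit 5) (nat_lit 173) (nat_lit 3) (nat_lit 188) (nat_lit 5) (nat_lit 315) (nat_lit 313) (nat_lit 152)))) (XT.nd (nat_lit 78) (nat_lit 0) (nat_lit 0) (XT.lf (nat_lit 76) (nat_lit 4040702294) (nat_lit 0) (nat_lit 13237519477) (nat_lit 1140) (nat_lit 3393422500) (nat_lit 175) (nat_lit 5) (nat_lit 174) (nat_lit 5) (nat_lit 189) (nat_lit 5) (nat_lit 316) (nat_lit 313) (nat_lit 151)) (XT.nd (nat_lit 78) (nat_lit 0) (nat_lit 76) (XT.lf (nat_lit 76) (nat_lit 13275786949) (nat_lit 0) (nat_lit 4676993720) (nat_lit 1140) (nat_lit 3030273041) (nat_lit 175) (nat_lit 5) (nat_lit 174) (nat_lit 5) (nat_lit 189) (nat_lit 5) (nat_lit 317) (nat_lit 313) (nat_lit 150)) (XT.lf (nat_lit 76) (nat_lit 1469626534) (nat_lit 0) (nat_lit 17226346180) (nat_lit 1140) (nat_lit 2606391873) (nat_lit 176) (nat_lit 5) (nat_lit 175) (nat_lit 5) (nat_lit 190) (nat_lit 5) (nat_lit 318) (nat_lit 313) (nat_lit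 149))))))) (XT.nd (nat_lit 936) (nat_lit 2964) (nat_lit 0) (XT.nd (nat_lit 468) (nat_lit 0) (nat_lit 152) (XT.nd (nat_lit 234) (nat_lit 1064) (nat_lit 0) (XT.nd (nat_lit 78) (nat_lit 0) (nat_lit 76) (XT.lf (nat_lit 76) (nat_lit 11029252293) (nat_lit 0) (nat_lit 8550488257) (nat_lit 1140) (nat_lit 2047976564) (nat_lit 176) (nat_lit 5) (nat_lit 175) (nat_lit 5) (nat_lit 190) (nat_lit 5) (nat_lit 319) (nat_lit 313) (nat_lit 148)) (XT.nd (nat_lit 78) (nat_lit 0) (nat_lit 0) (XT.lf (nat_lit 0) (nat_lit 20488503925) (nat_lit 1064) (nat_lit 1094297524) (nat_lit 1140) (nat_lit 380084707) (nat_lit 176) (nat_lit 5) (nat_lit 190) (nat_lit 5) (nat_lit 191) (nat_lit 5) (nat_lit 320) (nat_lit 313) (nat_lit 147)) (XT.lf (nat_lit 76) (nat_lit 8778305600) (nat_lit 0) (nat_lit 12810192958) (nat_lit 1140) (nat_lit 714702769) (nat_lit 177) (nat_lit 5) (nat_lit 176) (nat_lit 5) (nat_lit 191) (nat_lit 5) (nat_lit 321)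 (nat_lit 313) (nat_lit 146)))) (XT.nd (nat_lit 78) (nat_lit 0) (nat_lit 76) (XT.lf (nat_lit 0) (nat_lit 72589353) (nat_lit 1140) (nat_lit 3688040397) (nat_lit 1216) (nat_lit 18892901850) (nat_lit 161) (nat_lit 5) (nat_lit 176) (nat_lit 5) (nat_lit 177) (nat_lit 5) (nat_lit 322) (nat_lit 313) (nat_lit 145)) (XT.nd (nat_lit 78) (nat_lit 0) (nat_lit 0) (XT.lf (nat_lit 0) (nat_lit 981500148) (nat_lit 1140) (nat_lit 16505002798) (nat_lit 1216) (nat_lit 5524294857) (nat_lit 162) (nat_lit 5) (nat_lit 177) (nat_lit 5) (nat_lit 178) (nat_lit 5) (nat_lit 323) (nat_lit 313) (nat_lit 144)) (XT.lf (nat_lit 0) (nat_lit 1987778634) (nat_lit 1140) (nat_lit 6337659192) (nat_lit 1216) (nat_lit 15051250139) (nat_lit 162) (nat_lit 5) (nat_lit 177) (nat_lit 5) (nat_lit 178) (nat_lit 5) (nat_lit 324) (nat_lit 313) (nat_lit 143))))) (XT.nd (nat_lit 234) (nat_lit 0) (nat_lit 76) (XT.nd (nat_lit 78) (nat_lit 0) (nat_lit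 0) (XT.lf (nat_lit 0) (nat_lit 3071230577) (nat_lit 1140) (nat_lit 19549985541) (nat_lit 1216) (nat_lit 1130937881) (nat_lit 163) (nat_lit 5) (nat_lit 178) (nat_lit 5) (nat_lit 179) (nat_lit 5) (nat_lit 325) (nat_lit 313) (nat_lit 142)) (XT.nd (nat_lit 78) (nat_lit 0) (nat_lit 0) (XT.lf (nat_lit 0) (nat_lit 4329755513) (nat_lit 1140) (nat_lit 9035381727) (nat_lit 1216) (nat_lit 10769478156) (nat_lit 163) (nat_lit 5) (nat_lit 178) (nat_lit 5) (nat_lit 179) (nat_lit 5) (nat_lit 326) (nat_lit 313) (nat_lit 141)) (XT.lf (nat_lit 76) (nat_lit 1826950716) (nat_lit 0) (nat_lit 3812285874) (nat_lit 1216) (nat_lit 18888926253) (nat_lit 164) (nat_lit 5) (nat_lit 163) (nat_lit 5) (nat_lit 179) (nat_lit 5) (nat_lit 327) (nat_lit 313) (nat_lit 140)))) (XT.nd (nat_lit 78) (nat_lit 0) (nat_lit 0) (XT.lf (nat_lit 0) (nat_lit 7133824472) (nat_lit 1140) (nat_lit 11792721885) (nat_lit 1216) (nat_lit 6002603668) (nat_lit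 164) (nat_lit 5) (nat_lit 179) (nat_lit 5) (nat_lit 180) (nat_lit 5) (nat_lit 328) (nat_lit 313) (nat_lit 139)) (XT.nd (nat_lit 78) (nat_lit 0) (nat_lit 76) (XT.lf (nat_lit 0) (nat_lit 8706862098) (nat_lit 1140) (nat_lit 598093149) (nat_lit 1216) (nat_lit 16036210960) (nat_lit 164) (nat_lit 5) (nat_lit 179) (nat_lit 5) (nat_lit 180) (nat_lit 5) (nat_lit 329) (nat_lit 313) (nat_lit 138)) (XT.lf (nat_lit 0) (nat_lit 10437112345) (nat_lit 1140) (nat_lit 14622730311) (nat_lit 76) (nat_lit 702407094) (nat_lit 165) (nat_lit 5) (nat_lit 180) (nat_lit 5) (nat_lit 166) (nat_lit 5) (nat_lit 330) (nat_lit 313) (nat_lit 137)))))) (XT.nd (nat_lit 468) (nat_lit 1140) (nat_lit 0) (XT.nd (nat_lit 234) (nat_lit 1064) (nat_lit 0) (XT.nd (nat_lit 78) (nat_lit 1064) (nat_lit 0) (XT.lf (nat_lit 0) (nat_lit 12313577158) (nat_lit 1140) (nat_lit 3049824217) (nat_lit 76) (nat_lit 10829742518) (nat_lit 165) (nat_lit 5)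 (nat_lit 180) (nat_lit 5) (nat_lit 166) (nat_lit 5) (nat_lit 331) (nat_lit 313) (nat_lit 136)) (XT.nd (nat_lit 78) (nat_lit 0) (nat_lit 0) (XT.lf (nat_lit 0) (nat_lit 9043465602) (nat_lit 1064) (nat_lit 5285995250) (nat_lit 1140) (nat_lit 12305017350) (nat_lit 151) (nat_lit 5) (nat_lit 165) (nat_lit 5) (nat_lit 166) (nat_lit 5) (nat_lit 332) (nat_lit 313) (nat_lit 135)) (XT.lf (nat_lit 0) (nat_lit 16482165280) (nat_lit 1140) (nat_lit 5578690391) (nat_lit 76) (nat_lit 5025913427) (nat_lit 151) (nat_lit 5) (nat_lit 166) (nat_lit 5) (nat_lit 152) (nat_lit 5) (nat_lit 333) (nat_lit 313) (nat_lit 134)))) (XT.nd (nat_lit 78) (nat_lit 532) (nat_lit 0) (XT.lf (nat_lit 0) (nat_lit 6872504951) (nat_lit 532) (nat_lit 11941731582) (nat_lit 608) (nat_lit 8734955301) (nat_lit 144) (nat_lit 5) (nat_lit 151) (nat_lit 5) (nat_lit 152) (nat_lit 5) (nat_lit 334) (nat_lit 313) (nat_lit 133)) (XT.nd (nat_lit 78) (nat_lit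 532) (nat_lit 0) (XT.lf (nat_lit 0) (nat_lit 19808358599) (nat_lit 532) (nat_lit 1460705695) (nat_lit 608) (nat_lit 6754845615) (nat_lit 144) (nat_lit 5) (nat_lit 151) (nat_lit 5) (nat_lit 152) (nat_lit 5) (nat_lit 335) (nat_lit 313) (nat_lit 132)) (XT.lf (nat_lit 0) (nat_lit 4616518659) (nat_lit 532) (nat_lit 19311692834) (nat_lit 608) (nat_lit 4580744096) (nat_lit 137) (nat_lit 5) (nat_lit 144) (nat_lit 5) (nat_lit 145) (nat_lit 5) (nat_lit 336) (nat_lit 313) (nat_lit 131))))) (XT.nd (nat_lit 234) (nat_lit 532) (nat_lit 0) (XT.nd (nat_lit 78) (nat_lit 608) (nat_lit 0) (XT.lf (nat_lit 0) (nat_lit 17983989868) (nat_lit 532) (nat_lit 8777060350) (nat_lit 608) (nat_lit 2244691024) (nat_lit 137) (nat_lit 5) (nat_lit 144) (nat_lit 5) (nat_lit 145) (nat_lit 5) (nat_lit 337) (nat_lit 313) (nat_lit 130)) (XT.nd (nat_lit 78) (nat_lit 0) (nat_lit 0) (XT.lf (nat_lit 0) (nat_lit 197020045) (nat_lit 608) (nat_lit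 27262307316) (nat_lit 76) (nat_lit 2056900510) (nat_lit 129) (nat_lit 5) (nat_lit 137) (nat_lit 5) (nat_lit 130) (nat_lit 5) (nat_lit 338) (nat_lit 313) (nat_lit 129)) (XT.lf (nat_lit 0) (nat_lit 2862929830) (nat_lit 608) (nat_lit 13998391766) (nat_lit 76) (nat_lit 13174164456) (nat_lit 129) (nat_lit 5) (nat_lit 137) (nat_lit 5) (nat_lit 130) (nat_lit 5) (nat_lit 339) (nat_lit 313) (nat_lit 128)))) (XT.nd (nat_lit 78) (nat_lit 532) (nat_lit 0) (XT.lf (nat_lit 0) (nat_lit 5605673049) (nat_lit 608) (nat_lit 339734612) (nat_lit 76) (nat_lit 24625014069) (nat_lit 129) (nat_lit 5) (nat_lit 137) (nat_lit 5) (nat_lit 130) (nat_lit 5) (nat_lit 340) (nat_lit 313) (nat_lit 127)) (XT.nd (nat_lit 78) (nat_lit 0) (nat_lit 0) (XT.lf (nat_lit 0) (nat_lit 8614470454) (nat_lit 608) (nat_lit 17170959640) (nat_lit 76) (nat_lit 5330467502) (nat_lit 122) (nat_lit 5) (nat_lit 130) (nat_lit 5) (nat_lit 123) (nat_lit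 5) (nat_lit 341) (nat_lit 313) (nat_lit 126)) (XT.lf (nat_lit 0) (nat_lit 11772868505) (nat_lit 608) (nat_lit 3074566736) (nat_lit 76) (nat_lit 16828527518) (nat_lit 122) (nat_lit 5) (nat_lit 130) (nat_lit 5) (nat_lit 123) (nat_lit 5) (nat_lit 342) (nat_lit 313) (nat_lit 125))))))))
noncomputable def xc227 : XT := (XT.nd (nat_lit 1794) (nat_lit 1292) (nat_lit 0) (XT.nd (nat_lit 858) (nat_lit 2128) (nat_lit 0) (XT.nd (nat_lit 390) (nat_lit 912) (nat_lit 0) (XT.nd (nat_lit 156) (nat_lit 836) (nat_lit 0) (XT.nd (nat_lit 78) (nat_lit 0) (nat_lit 0) (XT.lf (nat_lit 0) (nat_lit 11669373683) (nat_lit 456) (nat_lit 3465911839) (nat_lit 532) (nat_lit 17114271320) (nat_lit 116) (nat_lit 5) (nat_lit 122) (nat_lit 5) (nat_lit 123) (nat_lit 5) (nat_lit 343) (nat_lit 313) (nat_lit 124)) (XT.lf (nat_lit 0) (nat_lit 18706449167) (nat_lit 532) (nat_lit 6003563181) (nat_lit 76) (nat_lit 8127115001) (nat_lit 116)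 (nat_lit 5) (nat_lit 123) (nat_lit 5) (nat_lit 117) (nat_lit 5) (nat_lit 344) (nat_lit 313) (nat_lit 123))) (XT.nd (nat_lit 78) (nat_lit 380) (nat_lit 0) (XT.lf (nat_lit 0) (nat_lit 9151596270) (nat_lit 456) (nat_lit 13352668967) (nat_lit 532) (nat_lit 10934478899) (nat_lit 110) (nat_lit 5) (nat_lit 116) (nat_lit 5) (nat_lit 117) (nat_lit 5) (nat_lit 345) (nat_lit 313) (nat_lit 122)) (XT.nd (nat_lit 78) (nat_lit 380) (nat_lit 0) (XT.lf (nat_lit 0) (nat_lit 24881483538) (nat_lit 456) (nat_lit 1592439157) (nat_lit 532) (nat_lit 7582754074) (nat_lit 110) (nat_lit 5) (nat_lit 116) (nat_lit 5) (nat_lit 117) (nat_lit 5) (nat_lit 346) (nat_lit 313) (nat_lit 121)) (XT.lf (nat_lit 0) (nat_lit 6411105481) (nat_lit 380) (nat_lit 24311681535) (nat_lit 456) (nat_lit 3965561271) (nat_lit 105) (nat_lit 5) (nat_lit 110) (nat_lit 5) (nat_lit 111) (nat_lit 5) (nat_lit 347) (nat_lit 313) (nat_lit 120))))) (XT.nd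 (nat_lit 234) (nat_lit 380) (nat_lit 0) (XT.nd (nat_lit 78) (nat_lit 532) (nat_lit 0) (XT.lf (nat_lit 0) (nat_lit 22634036503) (nat_lit 380) (nat_lit 12570752099) (nat_lit 456) (nat_lit 131015498) (nat_lit 105) (nat_lit 5) (nat_lit 110) (nat_lit 5) (nat_lit 111) (nat_lit 5) (nat_lit 348) (nat_lit 313) (nat_lit 119)) (XT.nd (nat_lit 78) (nat_lit 0) (nat_lit 0) (XT.lf (nat_lit 0) (nat_lit 3367041431) (nat_lit 456) (nat_lit 406831516) (nat_lit 532) (nat_lit 32226818882) (nat_lit 98) (nat_lit 5) (nat_lit 104) (nat_lit 5) (nat_lit 105) (nat_lit 5) (nat_lit 349) (nat_lit 313) (nat_lit 118)) (XT.lf (nat_lit 0) (nat_lit 8036828466) (nat_lit 532) (nat_lit 16625454567) (nat_lit 76) (nat_lit 12015901557) (nat_lit 98) (nat_lit 5) (nat_lit 105) (nat_lit 5) (nat_lit 99) (nat_lit 5) (nat_lit 350) (nat_lit 313) (nat_lit 117)))) (XT.nd (nat_lit 78) (nat_lit 380) (nat_lit 0) (XT.lf (nat_lit 0) (nat_lit 12429270277)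 (nat_lit 532) (nat_lit 143927809) (nat_lit 76) (nat_lit 24802759932) (nat_lit 98) (nat_lit 5) (nat_lit 105) (nat_lit 5) (nat_lit 99) (nat_lit 5) (nat_lit 351) (nat_lit 313) (nat_lit 116)) (XT.nd (nat_lit 78) (nat_lit 0) (nat_lit 0) (XT.lf (nat_lit 0) (nat_lit 17116580257) (nat_lit 456) (nat_lit 20926074494) (nat_lit 76) (nat_lit 47120750) (nat_lit 93) (nat_lit 5) (nat_lit 99) (nat_lit 5) (nat_lit 94) (nat_lit 5) (nat_lit 352) (nat_lit 313) (nat_lit 115)) (XT.lf (nat_lit 0) (nat_lit 22068142453) (nat_lit 456) (nat_lit 3958800408) (nat_lit 76) (nat_lit 12794359252) (nat_lit 93) (nat_lit 5) (nat_lit 99) (nat_lit 5) (nat_lit 94) (nat_lit 5) (nat_lit 353) (nat_lit 313) (nat_lit 114)))))) (XT.nd (nat_lit 468) (nat_lit 988) (nat_lit 0) (XT.nd (nat_lit 234) (nat_lit 456) (nat_lit 0) (XT.nd (nat_lit 78) (nat_lit 304) (nat_lit 0) (XT.lf (nat_lit 0) (nat_lit 13783700306) (nat_lit 380) (nat_lit 13514794226)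 (nat_lit 456) (nat_lit 12272376189) (nat_lit 88) (nat_lit 5) (nat_lit 93) (nat_lit 5) (nat_lit 94) (nat_lit 5) (nat_lit 354) (nat_lit 313) (nat_lit 113)) (XT.nd (nat_lit 78) (nat_lit 304) (nat_lit 0) (XT.lf (nat_lit 0) (nat_lit 32136893408) (nat_lit 380) (nat_lit 586624925) (nat_lit 456) (nat_lit 7618278608) (nat_lit 88) (nat_lit 5) (nat_lit 93) (nat_lit 5) (nat_lit 94) (nat_lit 5) (nat_lit 355) (nat_lit 313) (nat_lit 112)) (XT.lf (nat_lit 0) (nat_lit 9974387420) (nat_lit 304) (nat_lit 28552992723) (nat_lit 380) (nat_lit 2601991471) (nat_lit 84) (nat_lit 5) (nat_lit 88) (nat_lit 5) (nat_lit 89) (nat_lit 5) (nat_lit 356) (nat_lit 313) (nat_lit 111)))) (XT.nd (nat_lit 78) (nat_lit 380) (nat_lit 0) (XT.lf (nat_lit 0) (nat_lit 2602075545) (nat_lit 380) (nat_lit 13104857698) (nat_lit 76) (nat_lit 26230283574) (nat_lit 83) (nat_lit 5) (nat_lit 88) (nat_lit 5) (nat_lit 84) (nat_lit 5) (nat_lit 357) (nat_lit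 313) (nat_lit 110)) (XT.nd (nat_lit 78) (nat_lit 0) (nat_lit 0) (XT.lf (nat_lit 0) (nat_lit 5566985364) (nat_lit 380) (nat_lit 2394414938) (nat_lit 456) (nat_lit 34805584218) (nat_lit 78) (nat_lit 5) (nat_lit 83) (nat_lit 5) (nat_lit 84) (nat_lit 5) (nat_lit 358) (nat_lit 313) (nat_lit 109)) (XT.lf (nat_lit 0) (nat_lit 13721888506) (nat_lit 456) (nat_lit 18662845018) (nat_lit 76) (nat_lit 11229703140) (nat_lit 78) (nat_lit 5) (nat_lit 84) (nat_lit 5) (nat_lit 79) (nat_lit 5) (nat_lit 359) (nat_lit 313) (nat_lit 108))))) (XT.nd (nat_lit 234) (nat_lit 684) (nat_lit 0) (XT.nd (nat_lit 78) (nat_lit 0) (nat_lit 0) (XT.lf (nat_lit 0) (nat_lit 412148035) (nat_lit 304) (nat_lit 19268721515) (nat_lit 380) (nat_lit 24805675313) (nat_lit 74) (nat_lit 5) (nat_lit 78) (nat_lit 5) (nat_lit 79) (nat_lit 5) (nat_lit 360) (nat_lit 313) (nat_lit 107)) (XT.nd (nat_lit 78) (nat_lit 0) (nat_lit 0) (XT.lf (nat_lit 0)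 (nat_lit 20439375382) (nat_lit 304) (nat_lit 5565745208) (nat_lit 380) (nat_lit 19374103454) (nat_lit 74) (nat_lit 5) (nat_lit 78) (nat_lit 5) (nat_lit 79) (nat_lit 5) (nat_lit 361) (nat_lit 313) (nat_lit 106)) (XT.lf (nat_lit 0) (nat_lit 32599364427) (nat_lit 380) (nat_lit 5315999782) (nat_lit 76) (nat_lit 8380914106) (nat_lit 74) (nat_lit 5) (nat_lit 79) (nat_lit 5) (nat_lit 75) (nat_lit 5) (nat_lit 362) (nat_lit 313) (nat_lit 105)))) (XT.nd (nat_lit 78) (nat_lit 380) (nat_lit 0) (XT.lf (nat_lit 0) (nat_lit 15134293384) (nat_lit 304) (nat_lit 24455877778) (nat_lit 380) (nat_lit 7644713583) (nat_lit 70) (nat_lit 5) (nat_lit 74) (nat_lit 5) (nat_lit 75) (nat_lit 5) (nat_lit 363) (nat_lit 313) (nat_lit 104)) (XT.nd (nat_lit 78) (nat_lit 380) (nat_lit 0) (XT.lf (nat_lit 0) (nat_lit 36304603169) (nat_lit 304) (nat_lit 10537959425) (nat_lit 380) (nat_lit 1357533476) (nat_lit 70) (nat_lit 5) (nat_lit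 74) (nat_lit 5) (nat_lit 75) (nat_lit 5) (nat_lit 364) (nat_lit 313) (nat_lit 103)) (XT.lf (nat_lit 0) (nat_lit 5141347196) (nat_lit 380) (nat_lit 40187540827) (nat_lit 76) (nat_lit 3860213265) (nat_lit 65) (nat_lit 5) (nat_lit 70) (nat_lit 5) (nat_lit 66) (nat_lit 5) (nat_lit 365) (nat_lit 313) (nat_lit 102))))))) (XT.nd (nat_lit 936) (nat_lit 0) (nat_lit 0) (XT.nd (nat_lit 468) (nat_lit 760) (nat_lit 0) (XT.nd (nat_lit 234) (nat_lit 228) (nat_lit 0) (XT.nd (nat_lit 78) (nat_lit 304) (nat_lit 0) (XT.lf (nat_lit 0) (nat_lit 12031791055) (nat_lit 380) (nat_lit 19556224247) (nat_lit 76) (nat_lit 18612643984) (nat_lit 65) (nat_lit 5) (nat_lit 70) (nat_lit 5) (nat_lit 66) (nat_lit 5) (nat_lit 366) (nat_lit 313) (nat_lit 101)) (XT.nd (nat_lit 78) (nat_lit 0) (nat_lit 0) (XT.lf (nat_lit 0) (nat_lit 1725314352) (nat_lit 304) (nat_lit 17418505198) (nat_lit 380) (nat_lit 32098300573) (nat_lit 61) (nat_lit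 5) (nat_lit 65) (nat_lit 5) (nat_lit 66) (nat_lit 5) (nat_lit 367) (nat_lit 313) (nat_lit 100)) (XT.lf (nat_lit 0) (nat_lit 24043821339) (nat_lit 304) (nat_lit 2621180835) (nat_lit 380) (nat_lit 25643950988) (nat_lit 61) (nat_lit 5) (nat_lit 65) (nat_lit 5) (nat_lit 66) (nat_lit 5) (nat_lit 368) (nat_lit 313) (nat_lit 99)))) (XT.nd (nat_lit 78) (nat_lit 228) (nat_lit 0) (XT.lf (nat_lit 0) (nat_lit 34531488613) (nat_lit 380) (nat_lit 6499556773) (nat_lit 76) (nat_lit 12373157865) (nat_lit 61) (nat_lit 5) (nat_lit 66) (nat_lit 5) (nat_lit 62) (nat_lit 5) (nat_lit 369) (nat_lit 313) (nat_lit 98)) (XT.nd (nat_lit 78) (nat_lit 0) (nat_lit 0) (XT.lf (nat_lit 0) (nat_lit 16207021334) (nat_lit 228) (nat_lit 26607096835) (nat_lit 304) (nat_lit 11712790268) (nat_lit 58) (nat_lit 5) (nat_lit 61) (nat_lit 5) (nat_lit 62) (nat_lit 5) (nat_lit 370) (nat_lit 313) (nat_lit 97)) (XT.lf (nat_lit 0) (nat_lit 39725784304)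 (nat_lit 228) (nat_lit 11683504395) (nat_lit 304) (nat_lit 4272086205) (nat_lit 58) (nat_lit 5) (nat_lit 61) (nat_lit 5) (nat_lit 62) (nat_lit 5) (nat_lit 371) (nat_lit 313) (nat_lit 96))))) (XT.nd (nat_lit 234) (nat_lit 456) (nat_lit 0) (XT.nd (nat_lit 78) (nat_lit 0) (nat_lit 0) (XT.lf (nat_lit 0) (nat_lit 3429626407) (nat_lit 304) (nat_lit 49718901011) (nat_lit 76) (nat_lit 3717852455) (nat_lit 54) (nat_lit 5) (nat_lit 58) (nat_lit 5) (nat_lit 55) (nat_lit 5) (nat_lit 372) (nat_lit 313) (nat_lit 95)) (XT.nd (nat_lit 78) (nat_lit 0) (nat_lit 0) (XT.lf (nat_lit 0) (nat_lit 11553394805) (nat_lit 304) (nat_lit 26973191719) (nat_lit 76) (nat_lit 19550775281) (nat_lit 54) (nat_lit 5) (nat_lit 58) (nat_lit 5) (nat_lit 55) (nat_lit 5) (nat_lit 373) (nat_lit 313) (nat_lit 94)) (XT.lf (nat_lit 0) (nat_lit 19919396077) (nat_lit 304) (nat_lit 3547279412) (nat_lit 76) (nat_lit 35858043877) (nat_lit 54) (nat_lit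 5) (nat_lit 58) (nat_lit 5) (nat_lit 55) (nat_lit 5) (nat_lit 374) (nat_lit 313) (nat_lit 93)))) (XT.nd (nat_lit 78) (nat_lit 228) (nat_lit 0) (XT.lf (nat_lit 0) (nat_lit 20988873677) (nat_lit 228) (nat_lit 7747824539) (nat_lit 304) (nat_lit 31866791529) (nat_lit 51) (nat_lit 5) (nat_lit 54) (nat_lit 5) (nat_lit 55) (nat_lit 5) (nat_lit 375) (nat_lit 313) (nat_lit 92)) (XT.nd (nat_lit 78) (nat_lit 228) (nat_lit 0) (XT.lf (nat_lit 0) (nat_lit 37934428326) (nat_lit 304) (nat_lit 15669353690) (nat_lit 76) (nat_lit 8313365618) (nat_lit 51) (nat_lit 5) (nat_lit 55) (nat_lit 5) (nat_lit 52) (nat_lit 5) (nat_lit 376) (nat_lit 313) (nat_lit 91)) (XT.lf (nat_lit 0) (nat_lit 9092930906) (nat_lit 228) (nat_lit 38477897109) (nat_lit 304) (nat_lit 15694506731) (nat_lit 48) (nat_lit 5) (nat_lit 51) (nat_lit 5) (nat_lit 52) (nat_lit 5) (nat_lit 377) (nat_lit 313) (nat_lit 90)))))) (XT.nd (nat_lit 36036) (nat_lit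 0) (nat_lit 8588) (XT.nd (nat_lit 35802) (nat_lit 0) (nat_lit 9500) (XT.nd (nat_lit 35646) (nat_lit 0) (nat_lit 9500) (XT.lf (nat_lit 0) (nat_lit 34917250277) (nat_lit 228) (nat_lit 22735939488) (nat_lit 304) (nat_lit 6996073176) (nat_lit 48) (nat_lit 5) (nat_lit 51) (nat_lit 5) (nat_lit 52) (nat_lit 5) (nat_lit 378) (nat_lit 313) (nat_lit 89)) (XT.nd (nat_lit 78) (nat_lit 0) (nat_lit 0) (XT.lf (nat_lit 0) (nat_lit 8259159482) (nat_lit 1140) (nat_lit 961259151) (nat_lit 1140) (nat_lit 961259151) (nat_lit 173) (nat_lit 3) (nat_lit 188) (nat_lit 3) (nat_lit 188) (nat_lit 5) (nat_lit 314) (nat_lit 314) (nat_lit 152)) (XT.lf (nat_lit 76) (nat_lit 6958247217) (nat_lit 0) (nat_lit 10020417612) (nat_lit 1140) (nat_lit 3683472390) (nat_lit 174) (nat_lit 5) (nat_lit 173) (nat_lit 3) (nat_lit 188) (nat_lit 5) (nat_lit 315) (nat_lit 314) (nat_lit 151)))) (XT.nd (nat_lit 78) (nat_lit 0) (nat_lit 76) (XT.lf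 (nat_lit 76) (nat_lit 16141853257) (nat_lit 0) (nat_lit 1324667069) (nat_lit 1140) (nat_lit 3502962392) (nat_lit 174) (nat_lit 5) (nat_lit 173) (nat_lit 3) (nat_lit 188) (nat_lit 5) (nat_lit 316) (nat_lit 314) (nat_lit 150)) (XT.nd (nat_lit 78) (nat_lit 0) (nat_lit 0) (XT.lf (nat_lit 76) (nat_lit 4322801363) (nat_lit 0) (nat_lit 13755604003) (nat_lit 1140) (nat_lit 3204372448) (nat_lit 175) (nat_lit 5) (nat_lit 174) (nat_lit 5) (nat_lit 189) (nat_lit 5) (nat_lit 317) (nat_lit 314) (nat_lit 149)) (XT.lf (nat_lit 76) (nat_lit 13830252790) (nat_lit 0) (nat_lit 4934739398) (nat_lit 1140) (nat_lit 2838799944) (nat_lit 175) (nat_lit 5) (nat_lit 174) (nat_lit 5) (nat_lit 189) (nat_lit 5) (nat_lit 318) (nat_lit 314) (nat_lit 148))))) (XT.nd (nat_lit 234) (nat_lit 1064) (nat_lit 0) (XT.nd (nat_lit 78) (nat_lit 0) (nat_lit 0) (XT.lf (nat_lit 76) (nat_lit 1678161439) (nat_lit 0) (nat_lit 17844833576) (nat_lit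 1140) (nat_lit 2409927724) (nat_lit 176) (nat_lit 5) (nat_lit 175) (nat_lit 5) (nat_lit 190) (nat_lit 5) (nat_lit 319) (nat_lit 314) (nat_lit 147)) (XT.nd (nat_lit 78) (nat_lit 0) (nat_lit 76) (XT.lf (nat_lit 76) (nat_lit 11519786278) (nat_lit 0) (nat_lit 8905737867) (nat_lit 1140) (nat_lit 1842759643) (nat_lit 176) (nat_lit 5) (nat_lit 175) (nat_lit 5) (nat_lit 190) (nat_lit 5) (nat_lit 320) (nat_lit 314) (nat_lit 146)) (XT.lf (nat_lit 0) (nat_lit 21353103001) (nat_lit 1064) (nat_lit 963174646) (nat_lit 1140) (nat_lit 297498620) (nat_lit 176) (nat_lit 5) (nat_lit 190) (nat_lit 5) (nat_lit 191) (nat_lit 5) (nat_lit 321) (nat_lit 314) (nat_lit 145)))) (XT.nd (nat_lit 78) (nat_lit 1140) (nat_lit 0) (XT.lf (nat_lit 76) (nat_lit 9203999201) (nat_lit 0) (nat_lit 13276378905) (nat_lit 1140) (nat_lit 484108878) (nat_lit 177) (nat_lit 5) (nat_lit 176) (nat_lit 5) (nat_lit 191) (nat_lit 5) (nat_lit 322)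 (nat_lit 314) (nat_lit 144)) (XT.nd (nat_lit 78) (nat_lit 0) (nat_lit 76) (XT.lf (nat_lit 0) (nat_lit 314686319) (nat_lit 1140) (nat_lit 3635834909) (nat_lit 1216) (nat_lit 19374962860) (nat_lit 161) (nat_lit 5) (nat_lit 176) (nat_lit 5) (nat_lit 177) (nat_lit 5) (nat_lit 323) (nat_lit 314) (nat_lit 143)) (XT.lf (nat_lit 0) (nat_lit 1244722590) (nat_lit 1140) (nat_lit 16830721730) (nat_lit 1216) (nat_lit 5618221491) (nat_lit 162) (nat_lit 5) (nat_lit 177) (nat_lit 5) (nat_lit 178) (nat_lit 5) (nat_lit 324) (nat_lit 314) (nat_lit 142))))))))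
noncomputable def xc228 : XT := (XT.nd (nat_lit 1794) (nat_lit 3952) (nat_lit 0) (XT.nd (nat_lit 858) (nat_lit 2584) (nat_lit 0) (XT.nd (nat_lit 390) (nat_lit 1368) (nat_lit 0) (XT.nd (nat_lit 156) (nat_lit 0) (nat_lit 76) (XT.nd (nat_lit 78) (nat_lit 0) (nat_lit 76) (XT.lf (nat_lit 0) (nat_lit 2274380379) (nat_lit 1140) (nat_lit 6363292703) (nat_lit 1216) (nat_lit 15433076758) (nat_lit 162) (nat_lit 5) (nat_lit 177) (nat_lit 5) (nat_lit 178) (nat_lit 5) (nat_lit 325) (nat_lit 314) (nat_lit 141)) (XT.lf (nat_lit 0) (nat_lit 3384723359) (nat_lit 1140) (nat_lit 19965959126) (nat_lit 1216) (nat_lit 1106978261) (nat_lit 163) (nat_lit 5) (nat_lit 178) (nat_lit 5) (nat_lit 179) (nat_lit 5) (nat_lit 326) (nat_lit 314) (nat_lit 140))) (XT.nd (nat_lit 78) (nat_lit 0) (nat_lit 0) (XT.lf (nat_lit 0) (nat_lit 4674556785) (nat_lit 1140) (nat_lit 9140883973) (nat_lit 1216) (nat_lit 11036360796) (nat_lit 163)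 (nat_lit 5) (nat_lit 178) (nat_lit 5) (nat_lit 179) (nat_lit 5) (nat_lit 327) (nat_lit 314) (nat_lit 139)) (XT.nd (nat_lit 78) (nat_lit 0) (nat_lit 76) (XT.lf (nat_lit 76) (nat_lit 2045695313) (nat_lit 0) (nat_lit 3972943362) (nat_lit 1216) (nat_lit 19238669057) (nat_lit 164) (nat_lit 5) (nat_lit 163) (nat_lit 5) (nat_lit 179) (nat_lit 5) (nat_lit 328) (nat_lit 314) (nat_lit 138)) (XT.lf (nat_lit 0) (nat_lit 7551509137) (nat_lit 1140) (nat_lit 11980405454) (nat_lit 1216) (nat_lit 6138618042) (nat_lit 164) (nat_lit 5) (nat_lit 179) (nat_lit 5) (nat_lit 180) (nat_lit 5) (nat_lit 329) (nat_lit 314) (nat_lit 137))))) (XT.nd (nat_lit 234) (nat_lit 1520) (nat_lit 0) (XT.nd (nat_lit 78) (nat_lit 0) (nat_lit 76) (XT.lf (nat_lit 0) (nat_lit 9165805758) (nat_lit 1140) (nat_lit 454775664) (nat_lit 1216) (nat_lit 16474516963) (nat_lit 164) (nat_lit 5) (nat_lit 179) (nat_lit 5) (nat_lit 180) (nat_lit 5) (nat_lit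 330) (nat_lit 314) (nat_lit 136)) (XT.nd (nat_lit 78) (nat_lit 0) (nat_lit 0) (XT.lf (nat_lit 0) (nat_lit 10943413861) (nat_lit 1140) (nat_lit 14895242412) (nat_lit 76) (nat_lit 690305449) (nat_lit 165) (nat_lit 5) (nat_lit 180) (nat_lit 5) (nat_lit 166) (nat_lit 5) (nat_lit 331) (nat_lit 314) (nat_lit 135)) (XT.lf (nat_lit 0) (nat_lit 12870545778) (nat_lit 1140) (nat_lit 2979989032) (nat_lit 76) (nat_lit 11122427164) (nat_lit 165) (nat_lit 5) (nat_lit 180) (nat_lit 5) (nat_lit 166) (nat_lit 5) (nat_lit 332) (nat_lit 314) (nat_lit 134)))) (XT.nd (nat_lit 78) (nat_lit 532) (nat_lit 0) (XT.lf (nat_lit 0) (nat_lit 9474517816) (nat_lit 1064) (nat_lit 5468460815) (nat_lit 1140) (nat_lit 12484685679) (nat_lit 151) (nat_lit 5) (nat_lit 165) (nat_lit 5) (nat_lit 166) (nat_lit 5) (nat_lit 333) (nat_lit 314) (nat_lit 133)) (XT.nd (nat_lit 78) (nat_lit 532) (nat_lit 0) (XT.lf (nat_lit 0) (nat_lit 17154692714)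 (nat_lit 1140) (nat_lit 5585054902) (nat_lit 76) (nat_lit 5153953343) (nat_lit 151) (nat_lit 5) (nat_lit 166) (nat_lit 5) (nat_lit 152) (nat_lit 5) (nat_lit 334) (nat_lit 314) (nat_lit 132)) (XT.lf (nat_lit 0) (nat_lit 7238097907) (nat_lit 532) (nat_lit 12314974333) (nat_lit 608) (nat_lit 8817043344) (nat_lit 144) (nat_lit 5) (nat_lit 151) (nat_lit 5) (nat_lit 152) (nat_lit 5) (nat_lit 335) (nat_lit 314) (nat_lit 131)))))) (XT.nd (nat_lit 468) (nat_lit 1444) (nat_lit 0) (XT.nd (nat_lit 234) (nat_lit 608) (nat_lit 0) (XT.nd (nat_lit 78) (nat_lit 532) (nat_lit 0) (XT.lf (nat_lit 0) (nat_lit 20557383927) (nat_lit 532) (nat_lit 1519081044) (nat_lit 608) (nat_lit 6782771939) (nat_lit 144) (nat_lit 5) (nat_lit 151) (nat_lit 5) (nat_lit 152) (nat_lit 5) (nat_lit 336) (nat_lit 314) (nat_lit 130)) (XT.nd (nat_lit 78) (nat_lit 0) (nat_lit 0) (XT.lf (nat_lit 0) (nat_lit 4913747373) (nat_lit 532) (nat_lit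 19898097319) (nat_lit 608) (nat_lit 4547104567) (nat_lit 137) (nat_lit 5) (nat_lit 144) (nat_lit 5) (nat_lit 145) (nat_lit 5) (nat_lit 337) (nat_lit 314) (nat_lit 129)) (XT.lf (nat_lit 0) (nat_lit 18677619422) (nat_lit 532) (nat_lit 9047220413) (nat_lit 608) (nat_lit 2145952287) (nat_lit 137) (nat_lit 5) (nat_lit 144) (nat_lit 5) (nat_lit 145) (nat_lit 5) (nat_lit 338) (nat_lit 314) (nat_lit 128)))) (XT.nd (nat_lit 78) (nat_lit 0) (nat_lit 0) (XT.lf (nat_lit 0) (nat_lit 362493147) (nat_lit 608) (nat_lit 27918989804) (nat_lit 76) (nat_lit 2115169064) (nat_lit 129) (nat_lit 5) (nat_lit 137) (nat_lit 5) (nat_lit 130) (nat_lit 5) (nat_lit 339) (nat_lit 314) (nat_lit 127)) (XT.nd (nat_lit 78) (nat_lit 0) (nat_lit 0) (XT.lf (nat_lit 0) (nat_lit 3103732775) (nat_lit 608) (nat_lit 14261851547) (nat_lit 76) (nat_lit 13566051078) (nat_lit 129) (nat_lit 5) (nat_lit 137) (nat_lit 5) (nat_lit 130) (nat_lit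 5) (nat_lit 340) (nat_lit 314) (nat_lit 126)) (XT.lf (nat_lit 0) (nat_lit 5924246202) (nat_lit 608) (nat_lit 197992696) (nat_lit 76) (nat_lit 25360523412) (nat_lit 129) (nat_lit 5) (nat_lit 137) (nat_lit 5) (nat_lit 130) (nat_lit 5) (nat_lit 341) (nat_lit 314) (nat_lit 125))))) (XT.nd (nat_lit 234) (nat_lit 456) (nat_lit 0) (XT.nd (nat_lit 78) (nat_lit 456) (nat_lit 0) (XT.lf (nat_lit 0) (nat_lit 9020401630) (nat_lit 608) (nat_lit 17530996167) (nat_lit 76) (nat_lit 5493299405) (nat_lit 122) (nat_lit 5) (nat_lit 130) (nat_lit 5) (nat_lit 123) (nat_lit 5) (nat_lit 342) (nat_lit 314) (nat_lit 124)) (XT.nd (nat_lit 78) (nat_lit 456) (nat_lit 0) (XT.lf (nat_lit 0) (nat_lit 12269255592) (nat_lit 608) (nat_lit 3016228726) (nat_lit 76) (nat_lit 17336216235) (nat_lit 122) (nat_lit 5) (nat_lit 130) (nat_lit 5) (nat_lit 123) (nat_lit 5) (nat_lit 343) (nat_lit 314) (nat_lit 123)) (XT.lf (nat_lit 0) (nat_lit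 12168553680) (nat_lit 456) (nat_lit 3561253764) (nat_lit 532) (nat_lit 17482784281) (nat_lit 116) (nat_lit 5) (nat_lit 122) (nat_lit 5) (nat_lit 123) (nat_lit 5) (nat_lit 344) (nat_lit 314) (nat_lit 122)))) (XT.nd (nat_lit 78) (nat_lit 456) (nat_lit 0) (XT.lf (nat_lit 0) (nat_lit 19404095424) (nat_lit 532) (nat_lit 6034672407) (nat_lit 76) (nat_lit 8379148764) (nat_lit 116) (nat_lit 5) (nat_lit 123) (nat_lit 5) (nat_lit 117) (nat_lit 5) (nat_lit 345) (nat_lit 314) (nat_lit 121)) (XT.nd (nat_lit 78) (nat_lit 0) (nat_lit 0) (XT.lf (nat_lit 0) (nat_lit 9573681066) (nat_lit 456) (nat_lit 13739608772) (nat_lit 532) (nat_lit 11124375459) (nat_lit 110) (nat_lit 5) (nat_lit 116) (nat_lit 5) (nat_lit 117) (nat_lit 5) (nat_lit 346) (nat_lit 314) (nat_lit 120)) (XT.lf (nat_lit 0) (nat_lit 25771167761) (nat_lit 456) (nat_lit 1626969357) (nat_lit 532) (nat_lit 7676122321) (nat_lit 110) (nat_lit 5) (nat_lit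 116) (nat_lit 5) (nat_lit 117) (nat_lit 5) (nat_lit 347) (nat_lit 314) (nat_lit 119))))))) (XT.nd (nat_lit 936) (nat_lit 1520) (nat_lit 0) (XT.nd (nat_lit 468) (nat_lit 1140) (nat_lit 0) (XT.nd (nat_lit 234) (nat_lit 380) (nat_lit 0) (XT.nd (nat_lit 78) (nat_lit 532) (nat_lit 0) (XT.lf (nat_lit 0) (nat_lit 6749225265) (nat_lit 380) (nat_lit 25022980772) (nat_lit 456) (nat_lit 3952749246) (nat_lit 105) (nat_lit 5) (nat_lit 110) (nat_lit 5) (nat_lit 111) (nat_lit 5) (nat_lit 348) (nat_lit 314) (nat_lit 118)) (XT.nd (nat_lit 78) (nat_lit 532) (nat_lit 0) (XT.lf (nat_lit 0) (nat_lit 23454598005) (nat_lit 380) (nat_lit 12930349217) (nat_lit 456) (nat_lit 7005319) (nat_lit 105) (nat_lit 5) (nat_lit 110) (nat_lit 5) (nat_lit 111) (nat_lit 5) (nat_lit 349) (nat_lit 314) (nat_lit 117)) (XT.lf (nat_lit 0) (nat_lit 3610874839) (nat_lit 456) (nat_lit 399377542) (nat_lit 532) (nat_lit 33066571855) (nat_lit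 98) (nat_lit 5) (nat_lit 104) (nat_lit 5) (nat_lit 105) (nat_lit 5) (nat_lit 350) (nat_lit 314) (nat_lit 116)))) (XT.nd (nat_lit 78) (nat_lit 380) (nat_lit 0) (XT.lf (nat_lit 0) (nat_lit 8397692756) (nat_lit 532) (nat_lit 16981964282) (nat_lit 76) (nat_lit 12395092491) (nat_lit 98) (nat_lit 5) (nat_lit 105) (nat_lit 5) (nat_lit 99) (nat_lit 5) (nat_lit 351) (nat_lit 314) (nat_lit 115)) (XT.nd (nat_lit 78) (nat_lit 380) (nat_lit 0) (XT.lf (nat_lit 0) (nat_lit 12918419681) (nat_lit 532) (nat_lit 10135039) (nat_lit 76) (nat_lit 25565011552) (nat_lit 98) (nat_lit 5) (nat_lit 105) (nat_lit 5) (nat_lit 99) (nat_lit 5) (nat_lit 352) (nat_lit 314) (nat_lit 114)) (XT.lf (nat_lit 0) (nat_lit 17744493840) (nat_lit 456) (nat_lit 21413713968) (nat_lit 76) (nat_lit 70651436) (nat_lit 93) (nat_lit 5) (nat_lit 99) (nat_lit 5) (nat_lit 94) (nat_lit 5) (nat_lit 353) (nat_lit 314) (nat_lit 113))))) (XT.nd (nat_lit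 234) (nat_lit 760) (nat_lit 0) (XT.nd (nat_lit 78) (nat_lit 380) (nat_lit 0) (XT.lf (nat_lit 0) (nat_lit 22841270392) (nat_lit 456) (nat_lit 3941503488) (nat_lit 76) (nat_lit 13199662907) (nat_lit 93) (nat_lit 5) (nat_lit 99) (nat_lit 5) (nat_lit 94) (nat_lit 5) (nat_lit 354) (nat_lit 314) (nat_lit 112)) (XT.nd (nat_lit 78) (nat_lit 0) (nat_lit 0) (XT.lf (nat_lit 0) (nat_lit 14331938317) (nat_lit 380) (nat_lit 13894654349) (nat_lit 456) (nat_lit 12527963005) (nat_lit 88) (nat_lit 5) (nat_lit 93) (nat_lit 5) (nat_lit 94) (nat_lit 5) (nat_lit 355) (nat_lit 314) (nat_lit 111)) (XT.lf (nat_lit 0) (nat_lit 33231803125) (nat_lit 380) (nat_lit 579385124) (nat_lit 456) (nat_lit 7737521656) (nat_lit 88) (nat_lit 5) (nat_lit 93) (nat_lit 5) (nat_lit 94) (nat_lit 5) (nat_lit 356) (nat_lit 314) (nat_lit 110)))) (XT.nd (nat_lit 78) (nat_lit 456) (nat_lit 0) (XT.lf (nat_lit 0) (nat_lit 10406211343) (nat_lit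 304) (nat_lit 29381374598) (nat_lit 380) (nat_lit 2572377997) (nat_lit 84) (nat_lit 5) (nat_lit 88) (nat_lit 5) (nat_lit 89) (nat_lit 5) (nat_lit 357) (nat_lit 314) (nat_lit 109)) (XT.nd (nat_lit 78) (nat_lit 380) (nat_lit 0) (XT.lf (nat_lit 0) (nat_lit 2782635022) (nat_lit 380) (nat_lit 13367084881) (nat_lit 76) (nat_lit 27042390238) (nat_lit 83) (nat_lit 5) (nat_lit 88) (nat_lit 5) (nat_lit 84) (nat_lit 5) (nat_lit 358) (nat_lit 314) (nat_lit 108)) (XT.lf (nat_lit 0) (nat_lit 5863629958) (nat_lit 380) (nat_lit 2437370338) (nat_lit 456) (nat_lit 35745827073) (nat_lit 78) (nat_lit 5) (nat_lit 83) (nat_lit 5) (nat_lit 84) (nat_lit 5) (nat_lit 359) (nat_lit 314) (nat_lit 107)))))) (XT.nd (nat_lit 468) (nat_lit 912) (nat_lit 0) (XT.nd (nat_lit 234) (nat_lit 304) (nat_lit 0) (XT.nd (nat_lit 78) (nat_lit 304) (nat_lit 0) (XT.lf (nat_lit 0) (nat_lit 14231637947) (nat_lit 456) (nat_lit 19094066159) (nat_lit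 76) (nat_lit 11594083120) (nat_lit 78) (nat_lit 5) (nat_lit 84) (nat_lit 5) (nat_lit 79) (nat_lit 5) (nat_lit 360) (nat_lit 314) (nat_lit 106)) (XT.nd (nat_lit 78) (nat_lit 0) (nat_lit 0) (XT.lf (nat_lit 0) (nat_lit 551915271) (nat_lit 304) (nat_lit 19815840753) (nat_lit 380) (nat_lit 25450355689) (nat_lit 74) (nat_lit 5) (nat_lit 78) (nat_lit 5) (nat_lit 79) (nat_lit 5) (nat_lit 361) (nat_lit 314) (nat_lit 105)) (XT.lf (nat_lit 0) (nat_lit 21176248678) (nat_lit 304) (nat_lit 5702676392) (nat_lit 380) (nat_lit 19858734438) (nat_lit 74) (nat_lit 5) (nat_lit 78) (nat_lit 5) (nat_lit 79) (nat_lit 5) (nat_lit 362) (nat_lit 314) (nat_lit 104)))) (XT.nd (nat_lit 78) (nat_lit 304) (nat_lit 0) (XT.lf (nat_lit 0) (nat_lit 33668548891) (nat_lit 380) (nat_lit 5352815196) (nat_lit 76) (nat_lit 8660938578) (nat_lit 74) (nat_lit 5) (nat_lit 79) (nat_lit 5) (nat_lit 75) (nat_lit 5) (nat_lit 363) (nat_lit 314)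 (nat_lit 103)) (XT.nd (nat_lit 78) (nat_lit 0) (nat_lit 0) (XT.lf (nat_lit 0) (nat_lit 15709784171) (nat_lit 304) (nat_lit 25157806809) (nat_lit 380) (nat_lit 7781524696) (nat_lit 70) (nat_lit 5) (nat_lit 74) (nat_lit 5) (nat_lit 75) (nat_lit 5) (nat_lit 364) (nat_lit 314) (nat_lit 102)) (XT.lf (nat_lit 0) (nat_lit 37511665522) (nat_lit 304) (nat_lit 10823275585) (nat_lit 380) (nat_lit 1308424243) (nat_lit 70) (nat_lit 5) (nat_lit 74) (nat_lit 5) (nat_lit 75) (nat_lit 5) (nat_lit 365) (nat_lit 314) (nat_lit 101))))) (XT.nd (nat_lit 234) (nat_lit 228) (nat_lit 0) (XT.nd (nat_lit 78) (nat_lit 304) (nat_lit 0) (XT.lf (nat_lit 0) (nat_lit 5382551831) (nat_lit 380) (nat_lit 41272141102) (nat_lit 76) (nat_lit 4007358834) (nat_lit 65) (nat_lit 5) (nat_lit 70) (nat_lit 5) (nat_lit 66) (nat_lit 5) (nat_lit 366) (nat_lit 314) (nat_lit 100)) (XT.nd (nat_lit 78) (nat_lit 304) (nat_lit 0) (XT.lf (nat_lit 0)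 (nat_lit 12477176068) (nat_lit 380) (nat_lit 20025410053) (nat_lit 76) (nat_lit 19201449684) (nat_lit 65) (nat_lit 5) (nat_lit 70) (nat_lit 5) (nat_lit 66) (nat_lit 5) (nat_lit 367) (nat_lit 314) (nat_lit 99)) (XT.lf (nat_lit 0) (nat_lit 1893422735) (nat_lit 304) (nat_lit 17907801937) (nat_lit 380) (nat_lit 32975559230) (nat_lit 61) (nat_lit 5) (nat_lit 65) (nat_lit 5) (nat_lit 66) (nat_lit 5) (nat_lit 368) (nat_lit 314) (nat_lit 98)))) (XT.nd (nat_lit 78) (nat_lit 228) (nat_lit 0) (XT.lf (nat_lit 0) (nat_lit 24878096127) (nat_lit 304) (nat_lit 2667526534) (nat_lit 380) (nat_lit 26330074993) (nat_lit 61) (nat_lit 5) (nat_lit 65) (nat_lit 5) (nat_lit 66) (nat_lit 5) (nat_lit 369) (nat_lit 314) (nat_lit 97)) (XT.nd (nat_lit 78) (nat_lit 228) (nat_lit 0) (XT.lf (nat_lit 0) (nat_lit 35646055417) (nat_lit 380) (nat_lit 6582724192) (nat_lit 76) (nat_lit 12775090113) (nat_lit 61) (nat_lit 5) (nat_lit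 66) (nat_lit 5) (nat_lit 62) (nat_lit 5) (nat_lit 370) (nat_lit 314) (nat_lit 96)) (XT.lf (nat_lit 0) (nat_lit 16803954990) (nat_lit 228) (nat_lit 27371983242) (nat_lit 304) (nat_lit 11984357542) (nat_lit 58) (nat_lit 5) (nat_lit 61) (nat_lit 5) (nat_lit 62) (nat_lit 5) (nat_lit 371) (nat_lit 314) (nat_lit 95))))))))
noncomputable def xc229 : XT := (XT.nd (nat_lit 37518) (nat_lit 0) (nat_lit 3192) (XT.nd (nat_lit 36582) (nat_lit 0) (nat_lit 8360) (XT.nd (nat_lit 390) (nat_lit 0) (nat_lit 0) (XT.nd (nat_lit 156) (nat_lit 228) (nat_lit 0) (XT.nd (nat_lit 78) (nat_lit 304) (nat_lit 0) (XT.lf (nat_lit 0) (nat_lit 41025055906) (nat_lit 228) (nat_lit 12001653704) (nat_lit 304) (nat_lit 4322757107) (nat_lit 58) (nat_lit 5) (nat_lit 61) (nat_lit 5) (nat_lit 62) (nat_lit 5) (nat_lit 372) (nat_lit 314) (nat_lit 94)) (XT.lf (nat_lit 0) (nat_lit 3607639632) (nat_lit 304) (nat_lit 51100420620) (nat_lit 76)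 (nat_lit 3861967583) (nat_lit 54) (nat_lit 5) (nat_lit 58) (nat_lit 5) (nat_lit 55) (nat_lit 5) (nat_lit 373) (nat_lit 314) (nat_lit 93))) (XT.nd (nat_lit 78) (nat_lit 228) (nat_lit 0) (XT.lf (nat_lit 0) (nat_lit 11972932990) (nat_lit 304) (nat_lit 27675545313) (nat_lit 76) (nat_lit 20168929175) (nat_lit 54) (nat_lit 5) (nat_lit 58) (nat_lit 5) (nat_lit 55) (nat_lit 5) (nat_lit 374) (nat_lit 314) (nat_lit 92)) (XT.nd (nat_lit 78) (nat_lit 228) (nat_lit 0) (XT.lf (nat_lit 0) (nat_lit 20587789941) (nat_lit 304) (nat_lit 3549967544) (nat_lit 76) (nat_lit 36964494548) (nat_lit 54) (nat_lit 5) (nat_lit 58) (nat_lit 5) (nat_lit 55) (nat_lit 5) (nat_lit 375) (nat_lit 314) (nat_lit 91)) (XT.lf (nat_lit 0) (nat_lit 21721253173) (nat_lit 228) (nat_lit 7947282829) (nat_lit 304) (nat_lit 32750884239) (nat_lit 51) (nat_lit 5) (nat_lit 54) (nat_lit 5) (nat_lit 55) (nat_lit 5) (nat_lit 376) (nat_lit 314) (nat_lit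 90))))) (XT.nd (nat_lit 35958) (nat_lit 0) (nat_lit 9272) (XT.nd (nat_lit 35802) (nat_lit 0) (nat_lit 9272) (XT.lf (nat_lit 0) (nat_lit 39140474603) (nat_lit 304) (nat_lit 16037909551) (nat_lit 76) (nat_lit 8594157807) (nat_lit 51) (nat_lit 5) (nat_lit 55) (nat_lit 5) (nat_lit 52) (nat_lit 5) (nat_lit 377) (nat_lit 314) (nat_lit 89)) (XT.nd (nat_lit 78) (nat_lit 0) (nat_lit 0) (XT.lf (nat_lit 0) (nat_lit 8651218012) (nat_lit 1140) (nat_lit 915646422) (nat_lit 1140) (nat_lit 915646422) (nat_lit 173) (nat_lit 3) (nat_lit 188) (nat_lit 3) (nat_lit 188) (nat_lit 5) (nat_lit 315) (nat_lit 315) (nat_lit 150)) (XT.lf (nat_lit 76) (nat_lit 7314435826) (nat_lit 0) (nat_lit 10455168855) (nat_lit 1140) (nat_lit 3503388580) (nat_lit 174) (nat_lit 5) (nat_lit 173) (nat_lit 3) (nat_lit 188) (nat_lit 5) (nat_lit 316) (nat_lit 315) (nat_lit 149)))) (XT.nd (nat_lit 78) (nat_lit 0) (nat_lit 76) (XT.lf (nat_lit 76)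 (nat_lit 16769255644) (nat_lit 0) (nat_lit 1494638843) (nat_lit 1140) (nat_lit 3325927010) (nat_lit 174) (nat_lit 5) (nat_lit 173) (nat_lit 3) (nat_lit 188) (nat_lit 5) (nat_lit 317) (nat_lit 315) (nat_lit 148)) (XT.nd (nat_lit 78) (nat_lit 0) (nat_lit 0) (XT.lf (nat_lit 76) (nat_lit 4604128349) (nat_lit 0) (nat_lit 14282287527) (nat_lit 1140) (nat_lit 3026347031) (nat_lit 175) (nat_lit 5) (nat_lit 174) (nat_lit 5) (nat_lit 189) (nat_lit 5) (nat_lit 318) (nat_lit 315) (nat_lit 147)) (XT.lf (nat_lit 76) (nat_lit 14392386533) (nat_lit 0) (nat_lit 5193476146) (nat_lit 1140) (nat_lit 2657792495) (nat_lit 175) (nat_lit 5) (nat_lit 174) (nat_lit 5) (nat_lit 189) (nat_lit 5) (nat_lit 319) (nat_lit 315) (nat_lit 146)))))) (XT.nd (nat_lit 468) (nat_lit 0) (nat_lit 76) (XT.nd (nat_lit 234) (nat_lit 1064) (nat_lit 0) (XT.nd (nat_lit 78) (nat_lit 0) (nat_lit 0) (XT.lf (nat_lit 76) (nat_lit 1883512511) (nat_lit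 0) (nat_lit 18476037769) (nat_lit 1140) (nat_lit 2223336024) (nat_lit 176) (nat_lit 5) (nat_lit 175) (nat_lit 5) (nat_lit 190) (nat_lit 5) (nat_lit 320) (nat_lit 315) (nat_lit 145)) (XT.nd (nat_lit 78) (nat_lit 0) (nat_lit 76) (XT.lf (nat_lit 76) (nat_lit 12015871351) (nat_lit 0) (nat_lit 9265977174) (nat_lit 1140) (nat_lit 1646693372) (nat_lit 176) (nat_lit 5) (nat_lit 175) (nat_lit 5) (nat_lit 190) (nat_lit 5) (nat_lit 321) (nat_lit 315) (nat_lit 144)) (XT.lf (nat_lit 0) (nat_lit 22229292244) (nat_lit 1064) (nat_lit 837529587) (nat_lit 1140) (nat_lit 217830282) (nat_lit 176) (nat_lit 5) (nat_lit 190) (nat_lit 5) (nat_lit 191) (nat_lit 5) (nat_lit 322) (nat_lit 315) (nat_lit 143)))) (XT.nd (nat_lit 78) (nat_lit 1140) (nat_lit 0) (XT.lf (nat_lit 76) (nat_lit 9633144375) (nat_lit 0) (nat_lit 13751850174) (nat_lit 1140) (nat_lit 261065009) (nat_lit 177) (nat_lit 5) (nat_lit 176) (nat_lit 5) (nat_lit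 191) (nat_lit 5) (nat_lit 323) (nat_lit 315) (nat_lit 142)) (XT.nd (nat_lit 78) (nat_lit 0) (nat_lit 76) (XT.lf (nat_lit 0) (nat_lit 550273845) (nat_lit 1140) (nat_lit 3591411323) (nat_lit 1216) (nat_lit 19876349322) (nat_lit 161) (nat_lit 5) (nat_lit 176) (nat_lit 5) (nat_lit 177) (nat_lit 5) (nat_lit 324) (nat_lit 315) (nat_lit 141)) (XT.lf (nat_lit 0) (nat_lit 1502421923) (nat_lit 1140) (nat_lit 17175938271) (nat_lit 1216) (nat_lit 5719087665) (nat_lit 162) (nat_lit 5) (nat_lit 177) (nat_lit 5) (nat_lit 178) (nat_lit 5) (nat_lit 325) (nat_lit 315) (nat_lit 140))))) (XT.nd (nat_lit 234) (nat_lit 0) (nat_lit 76) (XT.nd (nat_lit 78) (nat_lit 0) (nat_lit 76) (XT.lf (nat_lit 0) (nat_lit 2556551261) (nat_lit 1140) (nat_lit 6399137978) (nat_lit 1216) (nat_lit 15830359866) (nat_lit 162) (nat_lit 5) (nat_lit 177) (nat_lit 5) (nat_lit 178) (nat_lit 5) (nat_lit 326) (nat_lit 315) (nat_lit 139)) (XT.nd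 (nat_lit 78) (nat_lit 0) (nat_lit 0) (XT.lf (nat_lit 0) (nat_lit 3694914193) (nat_lit 1140) (nat_lit 20404200807) (nat_lit 1216) (nat_lit 1085622847) (nat_lit 163) (nat_lit 5) (nat_lit 178) (nat_lit 5) (nat_lit 179) (nat_lit 5) (nat_lit 327) (nat_lit 315) (nat_lit 138)) (XT.lf (nat_lit 0) (nat_lit 5017365463) (nat_lit 1140) (nat_lit 9259055063) (nat_lit 1216) (nat_lit 11314476122) (nat_lit 163) (nat_lit 5) (nat_lit 178) (nat_lit 5) (nat_lit 179) (nat_lit 5) (nat_lit 328) (nat_lit 315) (nat_lit 137)))) (XT.nd (nat_lit 78) (nat_lit 0) (nat_lit 76) (XT.lf (nat_lit 76) (nat_lit 2261591647) (nat_lit 0) (nat_lit 4135763401) (nat_lit 1216) (nat_lit 19611356526) (nat_lit 164) (nat_lit 5) (nat_lit 163) (nat_lit 5) (nat_lit 179) (nat_lit 5) (nat_lit 329) (nat_lit 315) (nat_lit 136)) (XT.nd (nat_lit 78) (nat_lit 0) (nat_lit 0) (XT.lf (nat_lit 0) (nat_lit 7970032856) (nat_lit 1140) (nat_lit 12183254240) (nat_lit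 1216) (nat_lit 6281242287) (nat_lit 164) (nat_lit 5) (nat_lit 179) (nat_lit 5) (nat_lit 180) (nat_lit 5) (nat_lit 330) (nat_lit 315) (nat_lit 135)) (XT.lf (nat_lit 0) (nat_lit 9627166770) (nat_lit 1140) (nat_lit 316415654) (nat_lit 1216) (nat_lit 16928427911) (nat_lit 164) (nat_lit 5) (nat_lit 179) (nat_lit 5) (nat_lit 180) (nat_lit 5) (nat_lit 331) (nat_lit 315) (nat_lit 134))))))) (XT.nd (nat_lit 936) (nat_lit 2204) (nat_lit 0) (XT.nd (nat_lit 468) (nat_lit 1672) (nat_lit 0) (XT.nd (nat_lit 234) (nat_lit 532) (nat_lit 0) (XT.nd (nat_lit 78) (nat_lit 1064) (nat_lit 0) (XT.lf (nat_lit 0) (nat_lit 11453814632) (nat_lit 1140) (nat_lit 15185468702) (nat_lit 76) (nat_lit 679745069) (nat_lit 165) (nat_lit 5) (nat_lit 180) (nat_lit 5) (nat_lit 166) (nat_lit 5) (nat_lit 332) (nat_lit 315) (nat_lit 133)) (XT.nd (nat_lit 78) (nat_lit 1064) (nat_lit 0) (XT.lf (nat_lit 0) (nat_lit 13433456672) (nat_lit 1140)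 (nat_lit 2917319789) (nat_lit 76) (nat_lit 11425741199) (nat_lit 165) (nat_lit 5) (nat_lit 180) (nat_lit 5) (nat_lit 166) (nat_lit 5) (nat_lit 333) (nat_lit 315) (nat_lit 132)) (XT.lf (nat_lit 0) (nat_lit 9909331393) (nat_lit 1064) (nat_lit 5655029210) (nat_lit 1140) (nat_lit 12680621112) (nat_lit 151) (nat_lit 5) (nat_lit 165) (nat_lit 5) (nat_lit 166) (nat_lit 5) (nat_lit 334) (nat_lit 315) (nat_lit 131)))) (XT.nd (nat_lit 78) (nat_lit 532) (nat_lit 0) (XT.lf (nat_lit 0) (nat_lit 17837174456) (nat_lit 1140) (nat_lit 5600852188) (nat_lit 76) (nat_lit 5287139681) (nat_lit 151) (nat_lit 5) (nat_lit 166) (nat_lit 5) (nat_lit 152) (nat_lit 5) (nat_lit 335) (nat_lit 315) (nat_lit 130)) (XT.nd (nat_lit 78) (nat_lit 0) (nat_lit 0) (XT.lf (nat_lit 0) (nat_lit 7605507417) (nat_lit 532) (nat_lit 12698553833) (nat_lit 608) (nat_lit 8911924504) (nat_lit 144) (nat_lit 5) (nat_lit 151) (nat_lit 5) (nat_lit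 152) (nat_lit 5) (nat_lit 336) (nat_lit 315) (nat_lit 129)) (XT.lf (nat_lit 0) (nat_lit 21319995321) (nat_lit 532) (nat_lit 1578372185) (nat_lit 608) (nat_lit 6821565641) (nat_lit 144) (nat_lit 5) (nat_lit 151) (nat_lit 5) (nat_lit 152) (nat_lit 5) (nat_lit 337) (nat_lit 315) (nat_lit 128))))) (XT.nd (nat_lit 234) (nat_lit 532) (nat_lit 0) (XT.nd (nat_lit 78) (nat_lit 608) (nat_lit 0) (XT.lf (nat_lit 0) (nat_lit 5210781016) (nat_lit 532) (nat_lit 20501689028) (nat_lit 608) (nat_lit 4522275502) (nat_lit 137) (nat_lit 5) (nat_lit 144) (nat_lit 5) (nat_lit 145) (nat_lit 5) (nat_lit 338) (nat_lit 315) (nat_lit 127)) (XT.nd (nat_lit 78) (nat_lit 608) (nat_lit 0) (XT.lf (nat_lit 0) (nat_lit 19383211327) (nat_lit 532) (nat_lit 9325092161) (nat_lit 608) (nat_lit 2053785029) (nat_lit 137) (nat_lit 5) (nat_lit 144) (nat_lit 5) (nat_lit 145) (nat_lit 5) (nat_lit 339) (nat_lit 315) (nat_lit 126)) (XT.lf (nat_lit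 0) (nat_lit 523770903) (nat_lit 608) (nat_lit 28604625545) (nat_lit 76) (nat_lit 2175383057) (nat_lit 129) (nat_lit 5) (nat_lit 137) (nat_lit 5) (nat_lit 130) (nat_lit 5) (nat_lit 340) (nat_lit 315) (nat_lit 125)))) (XT.nd (nat_lit 78) (nat_lit 532) (nat_lit 0) (XT.lf (nat_lit 0) (nat_lit 3342867050) (nat_lit 608) (nat_lit 14542198401) (nat_lit 76) (nat_lit 13969885932) (nat_lit 129) (nat_lit 5) (nat_lit 137) (nat_lit 5) (nat_lit 130) (nat_lit 5) (nat_lit 341) (nat_lit 315) (nat_lit 124)) (XT.nd (nat_lit 78) (nat_lit 532) (nat_lit 0) (XT.lf (nat_lit 0) (nat_lit 6243742803) (nat_lit 608) (nat_lit 60720154) (nat_lit 76) (nat_lit 26118284086) (nat_lit 129) (nat_lit 5) (nat_lit 137) (nat_lit 5) (nat_lit 130) (nat_lit 5) (nat_lit 342) (nat_lit 315) (nat_lit 123)) (XT.lf (nat_lit 0) (nat_lit 9430043807) (nat_lit 608) (nat_lit 17910736719) (nat_lit 76) (nat_lit 5660848767) (nat_lit 122) (nat_lit 5) (nat_lit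 130) (nat_lit 5) (nat_lit 123) (nat_lit 5) (nat_lit 343) (nat_lit 315) (nat_lit 122)))))) (XT.nd (nat_lit 468) (nat_lit 912) (nat_lit 0) (XT.nd (nat_lit 234) (nat_lit 836) (nat_lit 0) (XT.nd (nat_lit 78) (nat_lit 456) (nat_lit 0) (XT.lf (nat_lit 0) (nat_lit 12772313966) (nat_lit 608) (nat_lit 2964784197) (nat_lit 76) (nat_lit 17858972993) (nat_lit 122) (nat_lit 5) (nat_lit 130) (nat_lit 5) (nat_lit 123) (nat_lit 5) (nat_lit 344) (nat_lit 315) (nat_lit 121)) (XT.nd (nat_lit 78) (nat_lit 0) (nat_lit 0) (XT.lf (nat_lit 0) (nat_lit 12674150197) (nat_lit 456) (nat_lit 3659951656) (nat_lit 532) (nat_lit 17870671355) (nat_lit 116) (nat_lit 5) (nat_lit 122) (nat_lit 5) (nat_lit 123) (nat_lit 5) (nat_lit 345) (nat_lit 315) (nat_lit 120)) (XT.lf (nat_lit 0) (nat_lit 20114838121) (nat_lit 532) (nat_lit 6075267985) (nat_lit 76) (nat_lit 8638271660) (nat_lit 116) (nat_lit 5) (nat_lit 123) (nat_lit 5) (nat_lit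 117) (nat_lit 5) (nat_lit 346) (nat_lit 315) (nat_lit 119)))) (XT.nd (nat_lit 78) (nat_lit 380) (nat_lit 0) (XT.lf (nat_lit 0) (nat_lit 9999959185) (nat_lit 456) (nat_lit 14138939778) (nat_lit 532) (nat_lit 11327898591) (nat_lit 110) (nat_lit 5) (nat_lit 116) (nat_lit 5) (nat_lit 117) (nat_lit 5) (nat_lit 347) (nat_lit 315) (nat_lit 118)) (XT.nd (nat_lit 78) (nat_lit 380) (nat_lit 0) (XT.lf (nat_lit 0) (nat_lit 26679319965) (nat_lit 456) (nat_lit 1663295664) (nat_lit 532) (nat_lit 7779990328) (nat_lit 110) (nat_lit 5) (nat_lit 116) (nat_lit 5) (nat_lit 117) (nat_lit 5) (nat_lit 348) (nat_lit 315) (nat_lit 117)) (XT.lf (nat_lit 0) (nat_lit 7089119894) (nat_lit 380) (nat_lit 25756655200) (nat_lit 456) (nat_lit 3947117506) (nat_lit 105) (nat_lit 5) (nat_lit 110) (nat_lit 5) (nat_lit 111) (nat_lit 5) (nat_lit 349) (nat_lit 315) (nat_lit 116))))) (XT.nd (nat_lit 234) (nat_lit 380) (nat_lit 0) (XT.nd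 (nat_lit 78) (nat_lit 456) (nat_lit 0) (XT.lf (nat_lit 0) (nat_lit 111168380) (nat_lit 456) (nat_lit 13189449318) (nat_lit 76) (nat_lit 24179360391) (nat_lit 104) (nat_lit 5) (nat_lit 110) (nat_lit 5) (nat_lit 105) (nat_lit 5) (nat_lit 350) (nat_lit 315) (nat_lit 115)) (XT.nd (nat_lit 78) (nat_lit 0) (nat_lit 0) (XT.lf (nat_lit 0) (nat_lit 3853824672) (nat_lit 456) (nat_lit 392828451) (nat_lit 532) (nat_lit 33938810698) (nat_lit 98) (nat_lit 5) (nat_lit 104) (nat_lit 5) (nat_lit 105) (nat_lit 5) (nat_lit 351) (nat_lit 315) (nat_lit 114)) (XT.lf (nat_lit 0) (nat_lit 8762508292) (nat_lit 532) (nat_lit 17357335245) (nat_lit 76) (nat_lit 12784584899) (nat_lit 98) (nat_lit 5) (nat_lit 105) (nat_lit 5) (nat_lit 99) (nat_lit 5) (nat_lit 352) (nat_lit 315) (nat_lit 113)))) (XT.nd (nat_lit 78) (nat_lit 0) (nat_lit 0) (XT.lf (nat_lit 0) (nat_lit 122126528) (nat_lit 380) (nat_lit 13294616547) (nat_lit 456)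 (nat_lit 26228135183) (nat_lit 93) (nat_lit 5) (nat_lit 98) (nat_lit 5) (nat_lit 99) (nat_lit 5) (nat_lit 353) (nat_lit 315) (nat_lit 112)) (XT.nd (nat_lit 78) (nat_lit 0) (nat_lit 0) (XT.lf (nat_lit 0) (nat_lit 18384676875) (nat_lit 456) (nat_lit 21924027394) (nat_lit 76) (nat_lit 93618434) (nat_lit 93) (nat_lit 5) (nat_lit 99) (nat_lit 5) (nat_lit 94) (nat_lit 5) (nat_lit 354) (nat_lit 315) (nat_lit 111)) (XT.lf (nat_lit 0) (nat_lit 23631215513) (nat_lit 456) (nat_lit 3931498114) (nat_lit 76) (nat_lit 13615893041) (nat_lit 93) (nat_lit 5) (nat_lit 99) (nat_lit 5) (nat_lit 94) (nat_lit 5) (nat_lit 355) (nat_lit 315) (nat_lit 110))))))))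
noncomputable def xc230 : XT := (XT.nd (nat_lit 37674) (nat_lit 0) (nat_lit 5700) (XT.nd (nat_lit 858) (nat_lit 1216) (nat_lit 0) (XT.nd (nat_lit 390) (nat_lit 608) (nat_lit 0) (XT.nd (nat_lit 156) (nat_lit 760) (nat_lit 0) (XT.nd (nat_lit 78) (nat_lit 0) (nat_lit 0) (XT.lf (nat_lit 0) (nat_lit 14888889588) (nat_lit 380) (nat_lit 14287378884) (nat_lit 456) (nat_lit 12797680235) (nat_lit 88) (nat_lit 5) (nat_lit 93) (nat_lit 5) (nat_lit 94) (nat_lit 5) (nat_lit 356) (nat_lit 315) (nat_lit 109)) (XT.lf (nat_lit 0) (nat_lit 34352051511) (nat_lit 380) (nat_lit 573353964) (nat_lit 456) (nat_lit 7866616567) (nat_lit 88) (nat_lit 5) (nat_lit 93) (nat_lit 5) (nat_lit 94) (nat_lit 5) (nat_lit 357) (nat_lit 315) (nat_lit 108))) (XT.nd (nat_lit 78) (nat_lit 456) (nat_lit 0) (XT.lf (nat_lit 0) (nat_lit 10843378643) (nat_lit 304) (nat_lit 30236227178) (nat_lit 380) (nat_lit 2548057001) (nat_lit 84) (nat_lit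 5) (nat_lit 88) (nat_lit 5) (nat_lit 89) (nat_lit 5) (nat_lit 358) (nat_lit 315) (nat_lit 107)) (XT.nd (nat_lit 78) (nat_lit 380) (nat_lit 0) (XT.lf (nat_lit 0) (nat_lit 2962727523) (nat_lit 380) (nat_lit 13644694139) (nat_lit 76) (nat_lit 27877413626) (nat_lit 83) (nat_lit 5) (nat_lit 88) (nat_lit 5) (nat_lit 84) (nat_lit 5) (nat_lit 359) (nat_lit 315) (nat_lit 106)) (XT.lf (nat_lit 0) (nat_lit 6161732309) (nat_lit 380) (nat_lit 2483272061) (nat_lit 456) (nat_lit 36720242915) (nat_lit 78) (nat_lit 5) (nat_lit 83) (nat_lit 5) (nat_lit 84) (nat_lit 5) (nat_lit 360) (nat_lit 315) (nat_lit 105))))) (XT.nd (nat_lit 234) (nat_lit 304) (nat_lit 0) (XT.nd (nat_lit 78) (nat_lit 304) (nat_lit 0) (XT.lf (nat_lit 0) (nat_lit 14751048944) (nat_lit 456) (nat_lit 19545609787) (nat_lit 76) (nat_lit 11967816525) (nat_lit 78) (nat_lit 5) (nat_lit 84) (nat_lit 5) (nat_lit 79) (nat_lit 5) (nat_lit 361) (nat_lit 315)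 (nat_lit 104)) (XT.nd (nat_lit 78) (nat_lit 0) (nat_lit 0) (XT.lf (nat_lit 0) (nat_lit 688562083) (nat_lit 304) (nat_lit 20381149789) (nat_lit 380) (nat_lit 26120087603) (nat_lit 74) (nat_lit 5) (nat_lit 78) (nat_lit 5) (nat_lit 79) (nat_lit 5) (nat_lit 362) (nat_lit 315) (nat_lit 103)) (XT.lf (nat_lit 0) (nat_lit 21928127744) (nat_lit 304) (nat_lit 5845439998) (nat_lit 380) (nat_lit 20363449134) (nat_lit 74) (nat_lit 5) (nat_lit 78) (nat_lit 5) (nat_lit 79) (nat_lit 5) (nat_lit 363) (nat_lit 315) (nat_lit 102)))) (XT.nd (nat_lit 78) (nat_lit 304) (nat_lit 0) (XT.lf (nat_lit 0) (nat_lit 34764573432) (nat_lit 380) (nat_lit 5397776521) (nat_lit 76) (nat_lit 8947722197) (nat_lit 74) (nat_lit 5) (nat_lit 79) (nat_lit 5) (nat_lit 75) (nat_lit 5) (nat_lit 364) (nat_lit 315) (nat_lit 101)) (XT.nd (nat_lit 78) (nat_lit 0) (nat_lit 0) (XT.lf (nat_lit 0) (nat_lit 16295567267) (nat_lit 304) (nat_lit 25882616136)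 (nat_lit 380) (nat_lit 7927751761) (nat_lit 70) (nat_lit 5) (nat_lit 74) (nat_lit 5) (nat_lit 75) (nat_lit 5) (nat_lit 365) (nat_lit 315) (nat_lit 100)) (XT.lf (nat_lit 0) (nat_lit 38748170411) (nat_lit 304) (nat_lit 11118920574) (nat_lit 380) (nat_lit 1262998644) (nat_lit 70) (nat_lit 5) (nat_lit 74) (nat_lit 5) (nat_lit 75) (nat_lit 5) (nat_lit 366) (nat_lit 315) (nat_lit 99)))))) (XT.nd (nat_lit 468) (nat_lit 304) (nat_lit 0) (XT.nd (nat_lit 234) (nat_lit 228) (nat_lit 0) (XT.nd (nat_lit 78) (nat_lit 304) (nat_lit 0) (XT.lf (nat_lit 0) (nat_lit 5626000504) (nat_lit 380) (nat_lit 42396226770) (nat_lit 76) (nat_lit 4157119774) (nat_lit 65) (nat_lit 5) (nat_lit 70) (nat_lit 5) (nat_lit 66) (nat_lit 5) (nat_lit 367) (nat_lit 315) (nat_lit 98)) (XT.nd (nat_lit 78) (nat_lit 304) (nat_lit 0) (XT.lf (nat_lit 0) (nat_lit 12931075930) (nat_lit 380) (nat_lit 20515416466) (nat_lit 76) (nat_lit 19806172955)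 (nat_lit 65) (nat_lit 5) (nat_lit 70) (nat_lit 5) (nat_lit 66) (nat_lit 5) (nat_lit 368) (nat_lit 315) (nat_lit 97)) (XT.lf (nat_lit 0) (nat_lit 2059895464) (nat_lit 304) (nat_lit 18413686746) (nat_lit 380) (nat_lit 33884054624) (nat_lit 61) (nat_lit 5) (nat_lit 65) (nat_lit 5) (nat_lit 66) (nat_lit 5) (nat_lit 369) (nat_lit 315) (nat_lit 96)))) (XT.nd (nat_lit 78) (nat_lit 228) (nat_lit 0) (XT.lf (nat_lit 0) (nat_lit 25730914784) (nat_lit 304) (nat_lit 2717116166) (nat_lit 380) (nat_lit 27041558424) (nat_lit 61) (nat_lit 5) (nat_lit 65) (nat_lit 5) (nat_lit 66) (nat_lit 5) (nat_lit 370) (nat_lit 315) (nat_lit 95)) (XT.nd (nat_lit 78) (nat_lit 228) (nat_lit 0) (XT.lf (nat_lit 0) (nat_lit 36789545993) (nat_lit 380) (nat_lit 6674805519) (nat_lit 76) (nat_lit 13187315869) (nat_lit 61) (nat_lit 5) (nat_lit 66) (nat_lit 5) (nat_lit 62) (nat_lit 5) (nat_lit 371) (nat_lit 315) (nat_lit 94)) (XT.lf (nat_lit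 0) (nat_lit 17412440701) (nat_lit 228) (nat_lit 28161729319) (nat_lit 304) (nat_lit 12268653623) (nat_lit 58) (nat_lit 5) (nat_lit 61) (nat_lit 5) (nat_lit 62) (nat_lit 5) (nat_lit 372) (nat_lit 315) (nat_lit 93))))) (XT.nd (nat_lit 234) (nat_lit 0) (nat_lit 0) (XT.nd (nat_lit 78) (nat_lit 304) (nat_lit 0) (XT.lf (nat_lit 0) (nat_lit 42357134828) (nat_lit 228) (nat_lit 12331204849) (nat_lit 304) (nat_lit 4379396477) (nat_lit 58) (nat_lit 5) (nat_lit 61) (nat_lit 5) (nat_lit 62) (nat_lit 5) (nat_lit 373) (nat_lit 315) (nat_lit 92)) (XT.nd (nat_lit 78) (nat_lit 0) (nat_lit 0) (XT.lf (nat_lit 0) (nat_lit 3786680803) (nat_lit 304) (nat_lit 52529702989) (nat_lit 76) (nat_lit 4008535965) (nat_lit 54) (nat_lit 5) (nat_lit 58) (nat_lit 5) (nat_lit 55) (nat_lit 5) (nat_lit 374) (nat_lit 315) (nat_lit 91)) (XT.lf (nat_lit 0) (nat_lit 12400870477) (nat_lit 304) (nat_lit 28405102693) (nat_lit 76) (nat_lit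 20803811958) (nat_lit 54) (nat_lit 5) (nat_lit 58) (nat_lit 5) (nat_lit 55) (nat_lit 5) (nat_lit 375) (nat_lit 315) (nat_lit 90)))) (XT.nd (nat_lit 35958) (nat_lit 0) (nat_lit 9044) (XT.lf (nat_lit 0) (nat_lit 21272170724) (nat_lit 304) (nat_lit 3558690862) (nat_lit 76) (nat_lit 38102375896) (nat_lit 54) (nat_lit 5) (nat_lit 58) (nat_lit 5) (nat_lit 55) (nat_lit 5) (nat_lit 376) (nat_lit 315) (nat_lit 89)) (XT.nd (nat_lit 78) (nat_lit 0) (nat_lit 0) (XT.lf (nat_lit 0) (nat_lit 9046755821) (nat_lit 1140) (nat_lit 872939075) (nat_lit 1140) (nat_lit 872939075) (nat_lit 173) (nat_lit 3) (nat_lit 188) (nat_lit 3) (nat_lit 188) (nat_lit 5) (nat_lit 316) (nat_lit 316) (nat_lit 148)) (XT.lf (nat_lit 76) (nat_lit 7672846366) (nat_lit 0) (nat_lit 10895262525) (nat_lit 1140) (nat_lit 3334583194) (nat_lit 174) (nat_lit 5) (nat_lit 173) (nat_lit 3) (nat_lit 188) (nat_lit 5) (nat_lit 317) (nat_lit 316) (nat_lit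 147))))))) (XT.nd (nat_lit 936) (nat_lit 2432) (nat_lit 0) (XT.nd (nat_lit 468) (nat_lit 912) (nat_lit 0) (XT.nd (nat_lit 234) (nat_lit 0) (nat_lit 152) (XT.nd (nat_lit 78) (nat_lit 0) (nat_lit 76) (XT.lf (nat_lit 76) (nat_lit 17407262891) (nat_lit 0) (nat_lit 1662233934) (nat_lit 1140) (nat_lit 3159775652) (nat_lit 174) (nat_lit 5) (nat_lit 173) (nat_lit 3) (nat_lit 188) (nat_lit 5) (nat_lit 318) (nat_lit 316) (nat_lit 146)) (XT.nd (nat_lit 78) (nat_lit 0) (nat_lit 0) (XT.lf (nat_lit 76) (nat_lit 4885190218) (nat_lit 0) (nat_lit 14818226607) (nat_lit 1140) (nat_lit 2858718560) (nat_lit 175) (nat_lit 5) (nat_lit 174) (nat_lit 5) (nat_lit 189) (nat_lit 5) (nat_lit 319) (nat_lit 316) (nat_lit 145)) (XT.lf (nat_lit 76) (nat_lit 14962932905) (nat_lit 0) (nat_lit 5453620677) (nat_lit 1140) (nat_lit 2486634152) (nat_lit 175) (nat_lit 5) (nat_lit 174) (nat_lit 5) (nat_lit 189) (nat_lit 5) (nat_lit 320)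 (nat_lit 316) (nat_lit 144)))) (XT.nd (nat_lit 78) (nat_lit 0) (nat_lit 0) (XT.lf (nat_lit 76) (nat_lit 2086126124) (nat_lit 0) (nat_lit 19120675379) (nat_lit 1140) (nat_lit 2046007890) (nat_lit 176) (nat_lit 5) (nat_lit 175) (nat_lit 5) (nat_lit 190) (nat_lit 5) (nat_lit 321) (nat_lit 316) (nat_lit 143)) (XT.nd (nat_lit 78) (nat_lit 0) (nat_lit 76) (XT.lf (nat_lit 76) (nat_lit 12518200149) (nat_lit 0) (nat_lit 9631681224) (nat_lit 1140) (nat_lit 1459173577) (nat_lit 176) (nat_lit 5) (nat_lit 175) (nat_lit 5) (nat_lit 190) (nat_lit 5) (nat_lit 322) (nat_lit 316) (nat_lit 142)) (XT.lf (nat_lit 0) (nat_lit 23118242981) (nat_lit 1064) (nat_lit 716986420) (nat_lit 1140) (nat_lit 140857512) (nat_lit 176) (nat_lit 5) (nat_lit 190) (nat_lit 5) (nat_lit 191) (nat_lit 5) (nat_lit 323) (nat_lit 316) (nat_lit 141))))) (XT.nd (nat_lit 234) (nat_lit 0) (nat_lit 76) (XT.nd (nat_lit 78) (nat_lit 1140) (nat_lit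 0) (XT.lf (nat_lit 76) (nat_lit 10066379633) (nat_lit 0) (nat_lit 14237155140) (nat_lit 1140) (nat_lit 44967149) (nat_lit 177) (nat_lit 5) (nat_lit 176) (nat_lit 5) (nat_lit 191) (nat_lit 5) (nat_lit 324) (nat_lit 316) (nat_lit 140)) (XT.nd (nat_lit 78) (nat_lit 0) (nat_lit 76) (XT.lf (nat_lit 0) (nat_lit 779947238) (nat_lit 1140) (nat_lit 3554466478) (nat_lit 1216) (nat_lit 20397361808) (nat_lit 161) (nat_lit 5) (nat_lit 176) (nat_lit 5) (nat_lit 177) (nat_lit 5) (nat_lit 325) (nat_lit 316) (nat_lit 139)) (XT.lf (nat_lit 0) (nat_lit 1755202806) (nat_lit 1140) (nat_lit 17540679035) (nat_lit 1216) (nat_lit 5826864960) (nat_lit 162) (nat_lit 5) (nat_lit 177) (nat_lit 5) (nat_lit 178) (nat_lit 5) (nat_lit 326) (nat_lit 316) (nat_lit 138)))) (XT.nd (nat_lit 78) (nat_lit 0) (nat_lit 76) (XT.lf (nat_lit 0) (nat_lit 2834906270) (nat_lit 1140) (nat_lit 6444959317) (nat_lit 1216) (nat_lit 16243333444) (nat_lit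 162) (nat_lit 5) (nat_lit 177) (nat_lit 5) (nat_lit 178) (nat_lit 5) (nat_lit 327) (nat_lit 316) (nat_lit 137)) (XT.nd (nat_lit 78) (nat_lit 0) (nat_lit 0) (XT.lf (nat_lit 0) (nat_lit 4002433438) (nat_lit 1140) (nat_lit 20864816706) (nat_lit 1216) (nat_lit 1066759010) (nat_lit 163) (nat_lit 5) (nat_lit 178) (nat_lit 5) (nat_lit 179) (nat_lit 5) (nat_lit 328) (nat_lit 316) (nat_lit 136)) (XT.lf (nat_lit 0) (nat_lit 5358829940) (nat_lit 1140) (nat_lit 9389729506) (nat_lit 1216) (nat_lit 11603975919) (nat_lit 163) (nat_lit 5) (nat_lit 178) (nat_lit 5) (nat_lit 179) (nat_lit 5) (nat_lit 329) (nat_lit 316) (nat_lit 135)))))) (XT.nd (nat_lit 468) (nat_lit 1672) (nat_lit 0) (XT.nd (nat_lit 234) (nat_lit 912) (nat_lit 0) (XT.nd (nat_lit 78) (nat_lit 0) (nat_lit 76) (XT.lf (nat_lit 76) (nat_lit 2475094476) (nat_lit 0) (nat_lit 4300963401) (nat_lit 1216) (nat_lit 20006962183) (nat_lit 164) (nat_lit 5) (nat_lit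 163) (nat_lit 5) (nat_lit 179) (nat_lit 5) (nat_lit 330) (nat_lit 316) (nat_lit 134)) (XT.nd (nat_lit 78) (nat_lit 0) (nat_lit 0) (XT.lf (nat_lit 0) (nat_lit 8390091937) (nat_lit 1140) (nat_lit 12401175867) (nat_lit 1216) (nat_lit 6430529497) (nat_lit 164) (nat_lit 5) (nat_lit 179) (nat_lit 5) (nat_lit 180) (nat_lit 5) (nat_lit 331) (nat_lit 316) (nat_lit 133)) (XT.lf (nat_lit 0) (nat_lit 10091669245) (nat_lit 1140) (nat_lit 182630455) (nat_lit 1216) (nat_lit 17398270983) (nat_lit 164) (nat_lit 5) (nat_lit 179) (nat_lit 5) (nat_lit 180) (nat_lit 5) (nat_lit 332) (nat_lit 316) (nat_lit 132)))) (XT.nd (nat_lit 78) (nat_lit 1064) (nat_lit 0) (XT.lf (nat_lit 0) (nat_lit 11969074236) (nat_lit 1140) (nat_lit 15493393041) (nat_lit 76) (nat_lit 670662878) (nat_lit 165) (nat_lit 5) (nat_lit 180) (nat_lit 5) (nat_lit 166) (nat_lit 5) (nat_lit 333) (nat_lit 316) (nat_lit 131)) (XT.nd (nat_lit 78) (nat_lit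 1064) (nat_lit 0) (XT.lf (nat_lit 0) (nat_lit 14003106163) (nat_lit 1140) (nat_lit 2861499846) (nat_lit 76) (nat_lit 11739897373) (nat_lit 165) (nat_lit 5) (nat_lit 180) (nat_lit 5) (nat_lit 166) (nat_lit 5) (nat_lit 334) (nat_lit 316) (nat_lit 130)) (XT.lf (nat_lit 0) (nat_lit 10348545582) (nat_lit 1064) (nat_lit 5845902229) (nat_lit 1140) (nat_lit 12892687273) (nat_lit 151) (nat_lit 5) (nat_lit 165) (nat_lit 5) (nat_lit 166) (nat_lit 5) (nat_lit 335) (nat_lit 316) (nat_lit 129))))) (XT.nd (nat_lit 234) (nat_lit 1140) (nat_lit 0) (XT.nd (nat_lit 78) (nat_lit 532) (nat_lit 0) (XT.lf (nat_lit 0) (nat_lit 18530495892) (nat_lit 1140) (nat_lit 5625834714) (nat_lit 76) (nat_lit 5425551908) (nat_lit 151) (nat_lit 5) (nat_lit 166) (nat_lit 5) (nat_lit 152) (nat_lit 5) (nat_lit 336) (nat_lit 316) (nat_lit 128)) (XT.nd (nat_lit 78) (nat_lit 0) (nat_lit 0) (XT.lf (nat_lit 0) (nat_lit 7975313296) (nat_lit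 532) (nat_lit 13092829584) (nat_lit 608) (nat_lit 9019389563) (nat_lit 144) (nat_lit 5) (nat_lit 151) (nat_lit 5) (nat_lit 152) (nat_lit 5) (nat_lit 337) (nat_lit 316) (nat_lit 127)) (XT.lf (nat_lit 0) (nat_lit 22097110382) (nat_lit 532) (nat_lit 1638654549) (nat_lit 608) (nat_lit 6870977002) (nat_lit 144) (nat_lit 5) (nat_lit 151) (nat_lit 5) (nat_lit 152) (nat_lit 5) (nat_lit 338) (nat_lit 316) (nat_lit 126)))) (XT.nd (nat_lit 78) (nat_lit 608) (nat_lit 0) (XT.lf (nat_lit 0) (nat_lit 5508136798) (nat_lit 532) (nat_lit 21123006821) (nat_lit 608) (nat_lit 4505957528) (nat_lit 137) (nat_lit 5) (nat_lit 144) (nat_lit 5) (nat_lit 145) (nat_lit 5) (nat_lit 339) (nat_lit 316) (nat_lit 125)) (XT.nd (nat_lit 78) (nat_lit 608) (nat_lit 0) (XT.lf (nat_lit 0) (nat_lit 20101632280) (nat_lit 532) (nat_lit 9610929510) (nat_lit 608) (nat_lit 1967839123) (nat_lit 137) (nat_lit 5) (nat_lit 144) (nat_lit 5) (nat_lit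 145) (nat_lit 5) (nat_lit 340) (nat_lit 316) (nat_lit 124)) (XT.lf (nat_lit 0) (nat_lit 681253245) (nat_lit 608) (nat_lit 29319551988) (nat_lit 76) (nat_lit 2237589521) (nat_lit 129) (nat_lit 5) (nat_lit 137) (nat_lit 5) (nat_lit 130) (nat_lit 5) (nat_lit 341) (nat_lit 316) (nat_lit 123))))))))
noncomputable def xc231 : XT := (XT.nd (nat_lit 1794) (nat_lit 1520) (nat_lit 0) (XT.nd (nat_lit 858) (nat_lit 1824) (nat_lit 0) (XT.nd (nat_lit 390) (nat_lit 1368) (nat_lit 0) (XT.nd (nat_lit 156) (nat_lit 456) (nat_lit 0) (XT.nd (nat_lit 78) (nat_lit 532) (nat_lit 0) (XT.lf (nat_lit 0) (nat_lit 3580793077) (nat_lit 608) (nat_lit 14839423262) (nat_lit 76) (nat_lit 14386016463) (nat_lit 129) (nat_lit 5) (nat_lit 137) (nat_lit 5) (nat_lit 130) (nat_lit 5) (nat_lit 342) (nat_lit 316) (nat_lit 122)) (XT.lf (nat_lit 0) (nat_lit 73891479) (nat_lit 532) (nat_lit 6491504981) (nat_lit 608) (nat_lit 26825771762)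 (nat_lit 122) (nat_lit 5) (nat_lit 129) (nat_lit 5) (nat_lit 130) (nat_lit 5) (nat_lit 343) (nat_lit 316) (nat_lit 121))) (XT.nd (nat_lit 78) (nat_lit 456) (nat_lit 0) (XT.lf (nat_lit 0) (nat_lit 9843994351) (nat_lit 608) (nat_lit 18310261354) (nat_lit 76) (nat_lit 5833266726) (nat_lit 122) (nat_lit 5) (nat_lit 130) (nat_lit 5) (nat_lit 123) (nat_lit 5) (nat_lit 344) (nat_lit 316) (nat_lit 120)) (XT.nd (nat_lit 78) (nat_lit 456) (nat_lit 0) (XT.lf (nat_lit 0) (nat_lit 13282715647) (nat_lit 608) (nat_lit 2919943775) (nat_lit 76) (nat_lit 18397259170) (nat_lit 122) (nat_lit 5) (nat_lit 130) (nat_lit 5) (nat_lit 123) (nat_lit 5) (nat_lit 345) (nat_lit 316) (nat_lit 119)) (XT.lf (nat_lit 0) (nat_lit 13186847044) (nat_lit 456) (nat_lit 3762077737) (nat_lit 532) (nat_lit 18278036236) (nat_lit 116) (nat_lit 5) (nat_lit 122) (nat_lit 5) (nat_lit 123) (nat_lit 5) (nat_lit 346) (nat_lit 316) (nat_lit 118)))))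 (XT.nd (nat_lit 234) (nat_lit 912) (nat_lit 0) (XT.nd (nat_lit 78) (nat_lit 456) (nat_lit 0) (XT.lf (nat_lit 0) (nat_lit 20839519794) (nat_lit 532) (nat_lit 6125143525) (nat_lit 76) (nat_lit 8904723451) (nat_lit 116) (nat_lit 5) (nat_lit 123) (nat_lit 5) (nat_lit 117) (nat_lit 5) (nat_lit 347) (nat_lit 316) (nat_lit 117)) (XT.nd (nat_lit 78) (nat_lit 0) (nat_lit 0) (XT.lf (nat_lit 0) (nat_lit 10431042592) (nat_lit 456) (nat_lit 14550988773) (nat_lit 532) (nat_lit 11545001896) (nat_lit 110) (nat_lit 5) (nat_lit 116) (nat_lit 5) (nat_lit 117) (nat_lit 5) (nat_lit 348) (nat_lit 316) (nat_lit 116)) (XT.lf (nat_lit 0) (nat_lit 27606966197) (nat_lit 456) (nat_lit 1701428322) (nat_lit 532) (nat_lit 7894231152) (nat_lit 110) (nat_lit 5) (nat_lit 116) (nat_lit 5) (nat_lit 117) (nat_lit 5) (nat_lit 349) (nat_lit 316) (nat_lit 115)))) (XT.nd (nat_lit 78) (nat_lit 532) (nat_lit 0) (XT.lf (nat_lit 0) (nat_lit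 7431323014) (nat_lit 380) (nat_lit 26513316592) (nat_lit 456) (nat_lit 3948447218) (nat_lit 105) (nat_lit 5) (nat_lit 110) (nat_lit 5) (nat_lit 111) (nat_lit 5) (nat_lit 350) (nat_lit 316) (nat_lit 114)) (XT.nd (nat_lit 78) (nat_lit 456) (nat_lit 0) (XT.lf (nat_lit 0) (nat_lit 225958855) (nat_lit 456) (nat_lit 13456980762) (nat_lit 76) (nat_lit 24917917116) (nat_lit 104) (nat_lit 5) (nat_lit 110) (nat_lit 5) (nat_lit 105) (nat_lit 5) (nat_lit 351) (nat_lit 316) (nat_lit 113)) (XT.lf (nat_lit 0) (nat_lit 4096335055) (nat_lit 456) (nat_lit 387146609) (nat_lit 532) (nat_lit 34844091323) (nat_lit 98) (nat_lit 5) (nat_lit 104) (nat_lit 5) (nat_lit 105) (nat_lit 5) (nat_lit 352) (nat_lit 316) (nat_lit 112)))))) (XT.nd (nat_lit 468) (nat_lit 1064) (nat_lit 0) (XT.nd (nat_lit 234) (nat_lit 380) (nat_lit 0) (XT.nd (nat_lit 78) (nat_lit 380) (nat_lit 0) (XT.lf (nat_lit 0) (nat_lit 9131788248) (nat_lit 532)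 (nat_lit 17751664535) (nat_lit 76) (nat_lit 13184749492) (nat_lit 98) (nat_lit 5) (nat_lit 105) (nat_lit 5) (nat_lit 99) (nat_lit 5) (nat_lit 353) (nat_lit 316) (nat_lit 111)) (XT.nd (nat_lit 78) (nat_lit 0) (nat_lit 0) (XT.lf (nat_lit 0) (nat_lit 250941966) (nat_lit 380) (nat_lit 13672811976) (nat_lit 456) (nat_lit 26907173393) (nat_lit 93) (nat_lit 5) (nat_lit 98) (nat_lit 5) (nat_lit 99) (nat_lit 5) (nat_lit 354) (nat_lit 316) (nat_lit 110)) (XT.lf (nat_lit 0) (nat_lit 19037874471) (nat_lit 456) (nat_lit 22457233188) (nat_lit 76) (nat_lit 116077712) (nat_lit 93) (nat_lit 5) (nat_lit 99) (nat_lit 5) (nat_lit 94) (nat_lit 5) (nat_lit 355) (nat_lit 316) (nat_lit 109)))) (XT.nd (nat_lit 78) (nat_lit 380) (nat_lit 0) (XT.lf (nat_lit 0) (nat_lit 24438848377) (nat_lit 456) (nat_lit 3928554681) (nat_lit 76) (nat_lit 14043448206) (nat_lit 93) (nat_lit 5) (nat_lit 99) (nat_lit 5) (nat_lit 94) (nat_lit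 5) (nat_lit 356) (nat_lit 316) (nat_lit 108)) (XT.nd (nat_lit 78) (nat_lit 0) (nat_lit 0) (XT.lf (nat_lit 0) (nat_lit 15455259472) (nat_lit 380) (nat_lit 14693269460) (nat_lit 456) (nat_lit 13081580799) (nat_lit 88) (nat_lit 5) (nat_lit 93) (nat_lit 5) (nat_lit 94) (nat_lit 5) (nat_lit 357) (nat_lit 316) (nat_lit 107)) (XT.lf (nat_lit 0) (nat_lit 35498829752) (nat_lit 380) (nat_lit 568485854) (nat_lit 456) (nat_lit 8005498712) (nat_lit 88) (nat_lit 5) (nat_lit 93) (nat_lit 5) (nat_lit 94) (nat_lit 5) (nat_lit 358) (nat_lit 316) (nat_lit 106))))) (XT.nd (nat_lit 234) (nat_lit 304) (nat_lit 0) (XT.nd (nat_lit 78) (nat_lit 456) (nat_lit 0) (XT.lf (nat_lit 0) (nat_lit 11286486544) (nat_lit 304) (nat_lit 31118251633) (nat_lit 380) (nat_lit 2528832451) (nat_lit 84) (nat_lit 5) (nat_lit 88) (nat_lit 5) (nat_lit 89) (nat_lit 5) (nat_lit 359) (nat_lit 316) (nat_lit 105)) (XT.nd (nat_lit 78) (nat_lit 380)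 (nat_lit 0) (XT.lf (nat_lit 0) (nat_lit 3142676793) (nat_lit 380) (nat_lit 13937715528) (nat_lit 76) (nat_lit 28736124271) (nat_lit 83) (nat_lit 5) (nat_lit 88) (nat_lit 5) (nat_lit 84) (nat_lit 5) (nat_lit 360) (nat_lit 316) (nat_lit 104)) (XT.lf (nat_lit 0) (nat_lit 6461763327) (nat_lit 380) (nat_lit 2532113340) (nat_lit 456) (nat_lit 37729514478) (nat_lit 78) (nat_lit 5) (nat_lit 83) (nat_lit 5) (nat_lit 84) (nat_lit 5) (nat_lit 361) (nat_lit 316) (nat_lit 103)))) (XT.nd (nat_lit 78) (nat_lit 304) (nat_lit 0) (XT.lf (nat_lit 0) (nat_lit 15280734583) (nat_lit 456) (nat_lit 20017661597) (nat_lit 76) (nat_lit 12351274540) (nat_lit 78) (nat_lit 5) (nat_lit 84) (nat_lit 5) (nat_lit 79) (nat_lit 5) (nat_lit 362) (nat_lit 316) (nat_lit 102)) (XT.nd (nat_lit 78) (nat_lit 0) (nat_lit 0) (XT.lf (nat_lit 0) (nat_lit 822414679) (nat_lit 304) (nat_lit 20965092355) (nat_lit 380) (nat_lit 26815294759) (nat_lit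 74) (nat_lit 5) (nat_lit 78) (nat_lit 5) (nat_lit 79) (nat_lit 5) (nat_lit 363) (nat_lit 316) (nat_lit 101)) (XT.lf (nat_lit 0) (nat_lit 22695870347) (nat_lit 304) (nat_lit 5994112005) (nat_lit 380) (nat_lit 20888531761) (nat_lit 74) (nat_lit 5) (nat_lit 78) (nat_lit 5) (nat_lit 79) (nat_lit 5) (nat_lit 364) (nat_lit 316) (nat_lit 100))))))) (XT.nd (nat_lit 36894) (nat_lit 0) (nat_lit 8132) (XT.nd (nat_lit 468) (nat_lit 532) (nat_lit 0) (XT.nd (nat_lit 234) (nat_lit 684) (nat_lit 0) (XT.nd (nat_lit 78) (nat_lit 304) (nat_lit 0) (XT.lf (nat_lit 0) (nat_lit 35888543791) (nat_lit 380) (nat_lit 5450723926) (nat_lit 76) (nat_lit 9241561970) (nat_lit 74) (nat_lit 5) (nat_lit 79) (nat_lit 5) (nat_lit 75) (nat_lit 5) (nat_lit 365) (nat_lit 316) (nat_lit 99)) (XT.nd (nat_lit 78) (nat_lit 0) (nat_lit 0) (XT.lf (nat_lit 0) (nat_lit 16892351687) (nat_lit 304) (nat_lit 26630887554) (nat_lit 380) (nat_lit 8083372346)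 (nat_lit 70) (nat_lit 5) (nat_lit 74) (nat_lit 5) (nat_lit 75) (nat_lit 5) (nat_lit 366) (nat_lit 316) (nat_lit 98)) (XT.lf (nat_lit 0) (nat_lit 40015389700) (nat_lit 304) (nat_lit 11425102689) (nat_lit 380) (nat_lit 1221071159) (nat_lit 70) (nat_lit 5) (nat_lit 74) (nat_lit 5) (nat_lit 75) (nat_lit 5) (nat_lit 367) (nat_lit 316) (nat_lit 97)))) (XT.nd (nat_lit 78) (nat_lit 304) (nat_lit 0) (XT.lf (nat_lit 0) (nat_lit 5872047101) (nat_lit 380) (nat_lit 43560583584) (nat_lit 76) (nat_lit 4309677815) (nat_lit 65) (nat_lit 5) (nat_lit 70) (nat_lit 5) (nat_lit 66) (nat_lit 5) (nat_lit 368) (nat_lit 316) (nat_lit 96)) (XT.nd (nat_lit 78) (nat_lit 304) (nat_lit 0) (XT.lf (nat_lit 0) (nat_lit 13394024307) (nat_lit 380) (nat_lit 21026480912) (nat_lit 76) (nat_lit 20427391589) (nat_lit 65) (nat_lit 5) (nat_lit 70) (nat_lit 5) (nat_lit 66) (nat_lit 5) (nat_lit 369) (nat_lit 316) (nat_lit 95)) (XT.lf (nat_lit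 0) (nat_lit 2225066865) (nat_lit 304) (nat_lit 18936547675) (nat_lit 380) (nat_lit 34824441488) (nat_lit 61) (nat_lit 5) (nat_lit 65) (nat_lit 5) (nat_lit 66) (nat_lit 5) (nat_lit 370) (nat_lit 316) (nat_lit 94))))) (XT.nd (nat_lit 234) (nat_lit 304) (nat_lit 0) (XT.nd (nat_lit 78) (nat_lit 228) (nat_lit 0) (XT.lf (nat_lit 0) (nat_lit 26603205856) (nat_lit 304) (nat_lit 2769940648) (nat_lit 380) (nat_lit 27778887919) (nat_lit 61) (nat_lit 5) (nat_lit 65) (nat_lit 5) (nat_lit 66) (nat_lit 5) (nat_lit 371) (nat_lit 316) (nat_lit 93)) (XT.nd (nat_lit 78) (nat_lit 228) (nat_lit 0) (XT.lf (nat_lit 0) (nat_lit 37963087132) (nat_lit 380) (nat_lit 6775699700) (nat_lit 76) (nat_lit 13610245226) (nat_lit 61) (nat_lit 5) (nat_lit 66) (nat_lit 5) (nat_lit 62) (nat_lit 5) (nat_lit 372) (nat_lit 316) (nat_lit 92)) (XT.lf (nat_lit 0) (nat_lit 18033189888) (nat_lit 228) (nat_lit 28976971037) (nat_lit 304) (nat_lit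 12565797364) (nat_lit 58) (nat_lit 5) (nat_lit 61) (nat_lit 5) (nat_lit 62) (nat_lit 5) (nat_lit 373) (nat_lit 316) (nat_lit 91)))) (XT.nd (nat_lit 78) (nat_lit 304) (nat_lit 0) (XT.lf (nat_lit 0) (nat_lit 43723359519) (nat_lit 228) (nat_lit 12672393264) (nat_lit 304) (nat_lit 4441928014) (nat_lit 58) (nat_lit 5) (nat_lit 61) (nat_lit 5) (nat_lit 62) (nat_lit 5) (nat_lit 374) (nat_lit 316) (nat_lit 90)) (XT.nd (nat_lit 78) (nat_lit 0) (nat_lit 0) (XT.lf (nat_lit 0) (nat_lit 3967028311) (nat_lit 304) (nat_lit 54007818370) (nat_lit 76) (nat_lit 4157738556) (nat_lit 54) (nat_lit 5) (nat_lit 58) (nat_lit 5) (nat_lit 55) (nat_lit 5) (nat_lit 375) (nat_lit 316) (nat_lit 89)) (XT.lf (nat_lit 0) (nat_lit 12837699586) (nat_lit 304) (nat_lit 29162327901) (nat_lit 76) (nat_lit 21456029726) (nat_lit 54) (nat_lit 5) (nat_lit 58) (nat_lit 5) (nat_lit 55) (nat_lit 5) (nat_lit 376) (nat_lit 316) (nat_lit 88))))))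 (XT.nd (nat_lit 468) (nat_lit 912) (nat_lit 0) (XT.nd (nat_lit 234) (nat_lit 0) (nat_lit 76) (XT.nd (nat_lit 78) (nat_lit 0) (nat_lit 0) (XT.lf (nat_lit 0) (nat_lit 9446352735) (nat_lit 1140) (nat_lit 832978939) (nat_lit 1140) (nat_lit 832978939) (nat_lit 173) (nat_lit 3) (nat_lit 188) (nat_lit 3) (nat_lit 188) (nat_lit 5) (nat_lit 317) (nat_lit 317) (nat_lit 146)) (XT.nd (nat_lit 78) (nat_lit 0) (nat_lit 0) (XT.lf (nat_lit 76) (nat_lit 8034031347) (nat_lit 0) (nat_lit 11341300911) (nat_lit 1140) (nat_lit 3176437032) (nat_lit 174) (nat_lit 5) (nat_lit 173) (nat_lit 3) (nat_lit 188) (nat_lit 5) (nat_lit 318) (nat_lit 317) (nat_lit 145)) (XT.lf (nat_lit 76) (nat_lit 18056664846) (nat_lit 0) (nat_lit 1827810186) (nat_lit 1140) (nat_lit 3003905176) (nat_lit 174) (nat_lit 5) (nat_lit 173) (nat_lit 3) (nat_lit 188) (nat_lit 5) (nat_lit 319) (nat_lit 317) (nat_lit 144)))) (XT.nd (nat_lit 78) (nat_lit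 0) (nat_lit 0) (XT.lf (nat_lit 76) (nat_lit 5166478717) (nat_lit 0) (nat_lit 15364074614) (nat_lit 1140) (nat_lit 2700895537) (nat_lit 175) (nat_lit 5) (nat_lit 174) (nat_lit 5) (nat_lit 189) (nat_lit 5) (nat_lit 320) (nat_lit 317) (nat_lit 143)) (XT.nd (nat_lit 78) (nat_lit 0) (nat_lit 76) (XT.lf (nat_lit 76) (nat_lit 15542629428) (nat_lit 0) (nat_lit 5715579986) (nat_lit 1140) (nat_lit 2324743293) (nat_lit 175) (nat_lit 5) (nat_lit 174) (nat_lit 5) (nat_lit 189) (nat_lit 5) (nat_lit 321) (nat_lit 317) (nat_lit 142)) (XT.lf (nat_lit 76) (nat_lit 2286430935) (nat_lit 0) (nat_lit 19779465285) (nat_lit 1140) (nat_lit 1877368131) (nat_lit 176) (nat_lit 5) (nat_lit 175) (nat_lit 5) (nat_lit 190) (nat_lit 5) (nat_lit 322) (nat_lit 317) (nat_lit 141))))) (XT.nd (nat_lit 234) (nat_lit 0) (nat_lit 0) (XT.nd (nat_lit 78) (nat_lit 1064) (nat_lit 0) (XT.lf (nat_lit 76) (nat_lit 13027455889) (nat_lit 0) (nat_lit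 10003320636) (nat_lit 1140) (nat_lit 1279628399) (nat_lit 176) (nat_lit 5) (nat_lit 175) (nat_lit 5) (nat_lit 190) (nat_lit 5) (nat_lit 323) (nat_lit 317) (nat_lit 140)) (XT.nd (nat_lit 78) (nat_lit 1140) (nat_lit 0) (XT.lf (nat_lit 0) (nat_lit 24021114400) (nat_lit 1064) (nat_lit 601188959) (nat_lit 1140) (nat_lit 66369241) (nat_lit 176) (nat_lit 5) (nat_lit 190) (nat_lit 5) (nat_lit 191) (nat_lit 5) (nat_lit 324) (nat_lit 317) (nat_lit 139)) (XT.lf (nat_lit 0) (nat_lit 161544114) (nat_lit 1140) (nat_lit 14569667745) (nat_lit 1216) (nat_lit 10341156535) (nat_lit 161) (nat_lit 5) (nat_lit 176) (nat_lit 5) (nat_lit 177) (nat_lit 5) (nat_lit 325) (nat_lit 317) (nat_lit 138)))) (XT.nd (nat_lit 78) (nat_lit 0) (nat_lit 76) (XT.lf (nat_lit 0) (nat_lit 1004274280) (nat_lit 1140) (nat_lit 3524718925) (nat_lit 1216) (nat_lit 20938325933) (nat_lit 161) (nat_lit 5) (nat_lit 176) (nat_lit 5) (nat_lit 177)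 (nat_lit 5) (nat_lit 326) (nat_lit 317) (nat_lit 137)) (XT.nd (nat_lit 78) (nat_lit 0) (nat_lit 0) (XT.lf (nat_lit 0) (nat_lit 2003643813) (nat_lit 1140) (nat_lit 17925003483) (nat_lit 1216) (nat_lit 5941537688) (nat_lit 162) (nat_lit 5) (nat_lit 177) (nat_lit 5) (nat_lit 178) (nat_lit 5) (nat_lit 327) (nat_lit 317) (nat_lit 136)) (XT.lf (nat_lit 0) (nat_lit 3110035908) (nat_lit 1140) (nat_lit 6500545065) (nat_lit 1216) (nat_lit 16672251678) (nat_lit 162) (nat_lit 5) (nat_lit 177) (nat_lit 5) (nat_lit 178) (nat_lit 5) (nat_lit 328) (nat_lit 317) (nat_lit 135))))))))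
noncomputable def xc232 : XT := (XT.nd (nat_lit 1794) (nat_lit 3572) (nat_lit 0) (XT.nd (nat_lit 858) (nat_lit 2964) (nat_lit 0) (XT.nd (nat_lit 390) (nat_lit 1444) (nat_lit 0) (XT.nd (nat_lit 156) (nat_lit 0) (nat_lit 0) (XT.nd (nat_lit 78) (nat_lit 0) (nat_lit 0) (XT.lf (nat_lit 0) (nat_lit 4307888493) (nat_lit 1140) (nat_lit 21347948382) (nat_lit 1216) (nat_lit 1050281696) (nat_lit 163) (nat_lit 5) (nat_lit 178) (nat_lit 5) (nat_lit 179) (nat_lit 5) (nat_lit 329) (nat_lit 317) (nat_lit 134)) (XT.lf (nat_lit 0) (nat_lit 5699577413) (nat_lit 1140) (nat_lit 9532768163) (nat_lit 1216) (nat_lit 11905027153) (nat_lit 163) (nat_lit 5) (nat_lit 178) (nat_lit 5) (nat_lit 179) (nat_lit 5) (nat_lit 330) (nat_lit 317) (nat_lit 133))) (XT.nd (nat_lit 78) (nat_lit 0) (nat_lit 76) (XT.lf (nat_lit 76) (nat_lit 2686641193) (nat_lit 0) (nat_lit 4468758537) (nat_lit 1216) (nat_lit 20425499789) (nat_lit 164) (nat_lit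 5) (nat_lit 163) (nat_lit 5) (nat_lit 179) (nat_lit 5) (nat_lit 331) (nat_lit 317) (nat_lit 132)) (XT.nd (nat_lit 78) (nat_lit 0) (nat_lit 0) (XT.lf (nat_lit 0) (nat_lit 8812365057) (nat_lit 1140) (nat_lit 12634106610) (nat_lit 1216) (nat_lit 6586542697) (nat_lit 164) (nat_lit 5) (nat_lit 179) (nat_lit 5) (nat_lit 180) (nat_lit 5) (nat_lit 332) (nat_lit 317) (nat_lit 131)) (XT.lf (nat_lit 0) (nat_lit 10560021615) (nat_lit 1140) (nat_lit 53056423) (nat_lit 1216) (nat_lit 17884391263) (nat_lit 164) (nat_lit 5) (nat_lit 179) (nat_lit 5) (nat_lit 180) (nat_lit 5) (nat_lit 333) (nat_lit 317) (nat_lit 130))))) (XT.nd (nat_lit 234) (nat_lit 532) (nat_lit 0) (XT.nd (nat_lit 78) (nat_lit 1064) (nat_lit 0) (XT.lf (nat_lit 0) (nat_lit 12489938493) (nat_lit 1140) (nat_lit 15819030233) (nat_lit 76) (nat_lit 663000180) (nat_lit 165) (nat_lit 5) (nat_lit 180) (nat_lit 5) (nat_lit 166) (nat_lit 5) (nat_lit 334)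 (nat_lit 317) (nat_lit 129)) (XT.nd (nat_lit 78) (nat_lit 1064) (nat_lit 0) (XT.lf (nat_lit 0) (nat_lit 14580278989) (nat_lit 1140) (nat_lit 2812233580) (nat_lit 76) (nat_lit 12065120912) (nat_lit 165) (nat_lit 5) (nat_lit 180) (nat_lit 5) (nat_lit 166) (nat_lit 5) (nat_lit 335) (nat_lit 317) (nat_lit 128)) (XT.lf (nat_lit 0) (nat_lit 10792788590) (nat_lit 1064) (nat_lit 6041283200) (nat_lit 1140) (nat_lit 13120779539) (nat_lit 151) (nat_lit 5) (nat_lit 165) (nat_lit 5) (nat_lit 166) (nat_lit 5) (nat_lit 336) (nat_lit 317) (nat_lit 127)))) (XT.nd (nat_lit 78) (nat_lit 532) (nat_lit 0) (XT.lf (nat_lit 0) (nat_lit 19235535289) (nat_lit 1140) (nat_lit 5659777972) (nat_lit 76) (nat_lit 5569276178) (nat_lit 151) (nat_lit 5) (nat_lit 166) (nat_lit 5) (nat_lit 152) (nat_lit 5) (nat_lit 337) (nat_lit 317) (nat_lit 126)) (XT.nd (nat_lit 78) (nat_lit 0) (nat_lit 0) (XT.lf (nat_lit 0) (nat_lit 8348082598)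 (nat_lit 532) (nat_lit 13498169033) (nat_lit 608) (nat_lit 9139257068) (nat_lit 144) (nat_lit 5) (nat_lit 151) (nat_lit 5) (nat_lit 152) (nat_lit 5) (nat_lit 338) (nat_lit 317) (nat_lit 125)) (XT.lf (nat_lit 0) (nat_lit 22889644959) (nat_lit 532) (nat_lit 1700003081) (nat_lit 608) (nat_lit 6930781864) (nat_lit 144) (nat_lit 5) (nat_lit 151) (nat_lit 5) (nat_lit 152) (nat_lit 5) (nat_lit 339) (nat_lit 317) (nat_lit 124)))))) (XT.nd (nat_lit 468) (nat_lit 1292) (nat_lit 0) (XT.nd (nat_lit 234) (nat_lit 532) (nat_lit 0) (XT.nd (nat_lit 78) (nat_lit 608) (nat_lit 0) (XT.lf (nat_lit 0) (nat_lit 5806317419) (nat_lit 532) (nat_lit 21762604388) (nat_lit 608) (nat_lit 4497874646) (nat_lit 137) (nat_lit 5) (nat_lit 144) (nat_lit 5) (nat_lit 145) (nat_lit 5) (nat_lit 340) (nat_lit 317) (nat_lit 123)) (XT.nd (nat_lit 78) (nat_lit 608) (nat_lit 0) (XT.lf (nat_lit 0) (nat_lit 20833745828) (nat_lit 532) (nat_lit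 9904992699) (nat_lit 608) (nat_lit 1887785358) (nat_lit 137) (nat_lit 5) (nat_lit 144) (nat_lit 5) (nat_lit 145) (nat_lit 5) (nat_lit 341) (nat_lit 317) (nat_lit 122)) (XT.lf (nat_lit 0) (nat_lit 835321925) (nat_lit 608) (nat_lit 30064147198) (nat_lit 76) (nat_lit 2301837549) (nat_lit 129) (nat_lit 5) (nat_lit 137) (nat_lit 5) (nat_lit 130) (nat_lit 5) (nat_lit 342) (nat_lit 317) (nat_lit 121)))) (XT.nd (nat_lit 78) (nat_lit 532) (nat_lit 0) (XT.lf (nat_lit 0) (nat_lit 3817955784) (nat_lit 608) (nat_lit 15153546397) (nat_lit 76) (nat_lit 14814801174) (nat_lit 129) (nat_lit 5) (nat_lit 137) (nat_lit 5) (nat_lit 130) (nat_lit 5) (nat_lit 343) (nat_lit 317) (nat_lit 120)) (XT.nd (nat_lit 78) (nat_lit 0) (nat_lit 0) (XT.lf (nat_lit 0) (nat_lit 205882889) (nat_lit 532) (nat_lit 6683683050) (nat_lit 608) (nat_lit 27499303371) (nat_lit 122) (nat_lit 5) (nat_lit 129) (nat_lit 5) (nat_lit 130) (nat_lit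 5) (nat_lit 344) (nat_lit 317) (nat_lit 119)) (XT.lf (nat_lit 0) (nat_lit 10262840649) (nat_lit 608) (nat_lit 18729681866) (nat_lit 76) (nat_lit 6010708405) (nat_lit 122) (nat_lit 5) (nat_lit 130) (nat_lit 5) (nat_lit 123) (nat_lit 5) (nat_lit 345) (nat_lit 317) (nat_lit 118))))) (XT.nd (nat_lit 234) (nat_lit 836) (nat_lit 0) (XT.nd (nat_lit 78) (nat_lit 456) (nat_lit 0) (XT.lf (nat_lit 0) (nat_lit 13801125726) (nat_lit 608) (nat_lit 2881437886) (nat_lit 76) (nat_lit 18951549447) (nat_lit 122) (nat_lit 5) (nat_lit 130) (nat_lit 5) (nat_lit 123) (nat_lit 5) (nat_lit 346) (nat_lit 317) (nat_lit 117)) (XT.nd (nat_lit 78) (nat_lit 0) (nat_lit 0) (XT.lf (nat_lit 0) (nat_lit 13707320342) (nat_lit 456) (nat_lit 3867708032) (nat_lit 532) (nat_lit 18705013143) (nat_lit 116) (nat_lit 5) (nat_lit 122) (nat_lit 5) (nat_lit 123) (nat_lit 5) (nat_lit 347) (nat_lit 317) (nat_lit 116)) (XT.lf (nat_lit 0) (nat_lit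 21578982445) (nat_lit 532) (nat_lit 6184114628) (nat_lit 76) (nat_lit 9178749537) (nat_lit 116) (nat_lit 5) (nat_lit 123) (nat_lit 5) (nat_lit 117) (nat_lit 5) (nat_lit 348) (nat_lit 317) (nat_lit 115)))) (XT.nd (nat_lit 78) (nat_lit 380) (nat_lit 0) (XT.lf (nat_lit 0) (nat_lit 10867533708) (nat_lit 456) (nat_lit 14976094930) (nat_lit 532) (nat_lit 11775663714) (nat_lit 110) (nat_lit 5) (nat_lit 116) (nat_lit 5) (nat_lit 117) (nat_lit 5) (nat_lit 349) (nat_lit 317) (nat_lit 114)) (XT.nd (nat_lit 78) (nat_lit 380) (nat_lit 0) (XT.lf (nat_lit 0) (nat_lit 28555136191) (nat_lit 456) (nat_lit 1741380389) (nat_lit 532) (nat_lit 8018739409) (nat_lit 110) (nat_lit 5) (nat_lit 116) (nat_lit 5) (nat_lit 117) (nat_lit 5) (nat_lit 350) (nat_lit 317) (nat_lit 113)) (XT.lf (nat_lit 0) (nat_lit 7776356702) (nat_lit 380) (nat_lit 27293598487) (nat_lit 456) (nat_lit 3956537911) (nat_lit 105) (nat_lit 5) (nat_lit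 110) (nat_lit 5) (nat_lit 111) (nat_lit 5) (nat_lit 351) (nat_lit 317) (nat_lit 112))))))) (XT.nd (nat_lit 936) (nat_lit 1520) (nat_lit 0) (XT.nd (nat_lit 468) (nat_lit 1140) (nat_lit 0) (XT.nd (nat_lit 234) (nat_lit 380) (nat_lit 0) (XT.nd (nat_lit 78) (nat_lit 456) (nat_lit 0) (XT.lf (nat_lit 0) (nat_lit 337795047) (nat_lit 456) (nat_lit 13739894600) (nat_lit 76) (nat_lit 25677874192) (nat_lit 104) (nat_lit 5) (nat_lit 110) (nat_lit 5) (nat_lit 105) (nat_lit 5) (nat_lit 352) (nat_lit 317) (nat_lit 111)) (XT.nd (nat_lit 78) (nat_lit 0) (nat_lit 0) (XT.lf (nat_lit 0) (nat_lit 4338836421) (nat_lit 456) (nat_lit 382296971) (nat_lit 532) (nat_lit 35783010353) (nat_lit 98) (nat_lit 5) (nat_lit 104) (nat_lit 5) (nat_lit 105) (nat_lit 5) (nat_lit 353) (nat_lit 317) (nat_lit 110)) (XT.lf (nat_lit 0) (nat_lit 9506038537) (nat_lit 532) (nat_lit 18165079050) (nat_lit 76) (nat_lit 13595964562) (nat_lit 98)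 (nat_lit 5) (nat_lit 105) (nat_lit 5) (nat_lit 99) (nat_lit 5) (nat_lit 354) (nat_lit 317) (nat_lit 109)))) (XT.nd (nat_lit 78) (nat_lit 0) (nat_lit 0) (XT.lf (nat_lit 0) (nat_lit 376437651) (nat_lit 380) (nat_lit 14063538264) (nat_lit 456) (nat_lit 27612771247) (nat_lit 93) (nat_lit 5) (nat_lit 98) (nat_lit 5) (nat_lit 99) (nat_lit 5) (nat_lit 355) (nat_lit 317) (nat_lit 108)) (XT.nd (nat_lit 78) (nat_lit 0) (nat_lit 0) (XT.lf (nat_lit 0) (nat_lit 19704832451) (nat_lit 456) (nat_lit 23013582828) (nat_lit 76) (nat_lit 138082736) (nat_lit 93) (nat_lit 5) (nat_lit 99) (nat_lit 5) (nat_lit 94) (nat_lit 5) (nat_lit 356) (nat_lit 317) (nat_lit 107)) (XT.lf (nat_lit 0) (nat_lit 25265044649) (nat_lit 456) (nat_lit 3932462432) (nat_lit 76) (nat_lit 14482734849) (nat_lit 93) (nat_lit 5) (nat_lit 99) (nat_lit 5) (nat_lit 94) (nat_lit 5) (nat_lit 357) (nat_lit 317) (nat_lit 106))))) (XT.nd (nat_lit 234) (nat_lit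 456) (nat_lit 0) (XT.nd (nat_lit 78) (nat_lit 304) (nat_lit 0) (XT.lf (nat_lit 0) (nat_lit 16031748999) (nat_lit 380) (nat_lit 15112641594) (nat_lit 456) (nat_lit 13379740502) (nat_lit 88) (nat_lit 5) (nat_lit 93) (nat_lit 5) (nat_lit 94) (nat_lit 5) (nat_lit 358) (nat_lit 317) (nat_lit 105)) (XT.nd (nat_lit 78) (nat_lit 304) (nat_lit 0) (XT.lf (nat_lit 0) (nat_lit 36673340026) (nat_lit 380) (nat_lit 564738537) (nat_lit 456) (nat_lit 8154122197) (nat_lit 88) (nat_lit 5) (nat_lit 93) (nat_lit 5) (nat_lit 94) (nat_lit 5) (nat_lit 359) (nat_lit 317) (nat_lit 104)) (XT.lf (nat_lit 0) (nat_lit 11736125104) (nat_lit 304) (nat_lit 32028175504) (nat_lit 380) (nat_lit 2514522799) (nat_lit 84) (nat_lit 5) (nat_lit 88) (nat_lit 5) (nat_lit 89) (nat_lit 5) (nat_lit 360) (nat_lit 317) (nat_lit 103)))) (XT.nd (nat_lit 78) (nat_lit 380) (nat_lit 0) (XT.lf (nat_lit 0) (nat_lit 3322796896) (nat_lit 380) (nat_lit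 14246204771) (nat_lit 76) (nat_lit 29619311059) (nat_lit 83) (nat_lit 5) (nat_lit 88) (nat_lit 5) (nat_lit 84) (nat_lit 5) (nat_lit 361) (nat_lit 317) (nat_lit 102)) (XT.nd (nat_lit 78) (nat_lit 0) (nat_lit 0) (XT.lf (nat_lit 0) (nat_lit 6764183526) (nat_lit 380) (nat_lit 2583892668) (nat_lit 456) (nat_lit 38774364636) (nat_lit 78) (nat_lit 5) (nat_lit 83) (nat_lit 5) (nat_lit 84) (nat_lit 5) (nat_lit 362) (nat_lit 317) (nat_lit 101)) (XT.lf (nat_lit 0) (nat_lit 15821307784) (nat_lit 456) (nat_lit 20510437195) (nat_lit 76) (nat_lit 12744834285) (nat_lit 78) (nat_lit 5) (nat_lit 84) (nat_lit 5) (nat_lit 79) (nat_lit 5) (nat_lit 363) (nat_lit 317) (nat_lit 100)))))) (XT.nd (nat_lit 468) (nat_lit 532) (nat_lit 0) (XT.nd (nat_lit 234) (nat_lit 684) (nat_lit 0) (XT.nd (nat_lit 78) (nat_lit 0) (nat_lit 0) (XT.lf (nat_lit 0) (nat_lit 953784955) (nat_lit 304) (nat_lit 21568131347) (nat_lit 380) (nat_lit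 27536432391) (nat_lit 74) (nat_lit 5) (nat_lit 78) (nat_lit 5) (nat_lit 79) (nat_lit 5) (nat_lit 364) (nat_lit 317) (nat_lit 99)) (XT.nd (nat_lit 78) (nat_lit 0) (nat_lit 0) (XT.lf (nat_lit 0) (nat_lit 23480336589) (nat_lit 304) (nat_lit 6148776357) (nat_lit 380) (nat_lit 21434293335) (nat_lit 74) (nat_lit 5) (nat_lit 78) (nat_lit 5) (nat_lit 79) (nat_lit 5) (nat_lit 365) (nat_lit 317) (nat_lit 98)) (XT.lf (nat_lit 0) (nat_lit 37041581626) (nat_lit 380) (nat_lit 5511515989) (nat_lit 76) (nat_lit 9542758408) (nat_lit 74) (nat_lit 5) (nat_lit 79) (nat_lit 5) (nat_lit 75) (nat_lit 5) (nat_lit 366) (nat_lit 317) (nat_lit 97)))) (XT.nd (nat_lit 78) (nat_lit 380) (nat_lit 0) (XT.lf (nat_lit 0) (nat_lit 17500844738) (nat_lit 304) (nat_lit 27403226315) (nat_lit 380) (nat_lit 8248380852) (nat_lit 70) (nat_lit 5) (nat_lit 74) (nat_lit 5) (nat_lit 75) (nat_lit 5) (nat_lit 367) (nat_lit 317) (nat_lit 96))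 (XT.nd (nat_lit 78) (nat_lit 380) (nat_lit 0) (XT.lf (nat_lit 0) (nat_lit 41314611101) (nat_lit 304) (nat_lit 11742042308) (nat_lit 380) (nat_lit 1182467697) (nat_lit 70) (nat_lit 5) (nat_lit 74) (nat_lit 5) (nat_lit 75) (nat_lit 5) (nat_lit 368) (nat_lit 317) (nat_lit 95)) (XT.lf (nat_lit 0) (nat_lit 6121039679) (nat_lit 380) (nat_lit 44766043764) (nat_lit 76) (nat_lit 4465214212) (nat_lit 65) (nat_lit 5) (nat_lit 70) (nat_lit 5) (nat_lit 66) (nat_lit 5) (nat_lit 369) (nat_lit 317) (nat_lit 94))))) (XT.nd (nat_lit 234) (nat_lit 228) (nat_lit 0) (XT.nd (nat_lit 78) (nat_lit 304) (nat_lit 0) (XT.lf (nat_lit 0) (nat_lit 13866554905) (nat_lit 380) (nat_lit 21558870167) (nat_lit 76) (nat_lit 21065694950) (nat_lit 65) (nat_lit 5) (nat_lit 70) (nat_lit 5) (nat_lit 66) (nat_lit 5) (nat_lit 370) (nat_lit 317) (nat_lit 93)) (XT.nd (nat_lit 78) (nat_lit 0) (nat_lit 0) (XT.lf (nat_lit 0) (nat_lit 2389259287)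 (nat_lit 304) (nat_lit 19476790704) (nat_lit 380) (nat_lit 35797410405) (nat_lit 61) (nat_lit 5) (nat_lit 65) (nat_lit 5) (nat_lit 66) (nat_lit 5) (nat_lit 371) (nat_lit 317) (nat_lit 92)) (XT.lf (nat_lit 0) (nat_lit 27495904377) (nat_lit 304) (nat_lit 2825996731) (nat_lit 380) (nat_lit 28542580453) (nat_lit 61) (nat_lit 5) (nat_lit 65) (nat_lit 5) (nat_lit 66) (nat_lit 5) (nat_lit 372) (nat_lit 317) (nat_lit 91)))) (XT.nd (nat_lit 78) (nat_lit 228) (nat_lit 0) (XT.lf (nat_lit 0) (nat_lit 39167824555) (nat_lit 380) (nat_lit 6885323801) (nat_lit 76) (nat_lit 14044294765) (nat_lit 61) (nat_lit 5) (nat_lit 66) (nat_lit 5) (nat_lit 62) (nat_lit 5) (nat_lit 373) (nat_lit 317) (nat_lit 90)) (XT.nd (nat_lit 78) (nat_lit 0) (nat_lit 0) (XT.lf (nat_lit 0) (nat_lit 18666914367) (nat_lit 228) (nat_lit 29818369751) (nat_lit 304) (nat_lit 12875926278) (nat_lit 58) (nat_lit 5) (nat_lit 61) (nat_lit 5) (nat_lit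 62) (nat_lit 5) (nat_lit 374) (nat_lit 317) (nat_lit 89)) (XT.lf (nat_lit 0) (nat_lit 45125088249) (nat_lit 228) (nat_lit 13025467570) (nat_lit 304) (nat_lit 4510287789) (nat_lit 58) (nat_lit 5) (nat_lit 61) (nat_lit 5) (nat_lit 62) (nat_lit 5) (nat_lit 375) (nat_lit 317) (nat_lit 88))))))))
noncomputable def xc233 : XT := (XT.nd (nat_lit 1794) (nat_lit 5016) (nat_lit 0) (XT.nd (nat_lit 858) (nat_lit 1292) (nat_lit 0) (XT.nd (nat_lit 390) (nat_lit 912) (nat_lit 0) (XT.nd (nat_lit 156) (nat_lit 0) (nat_lit 0) (XT.nd (nat_lit 78) (nat_lit 0) (nat_lit 0) (XT.lf (nat_lit 0) (nat_lit 9850578682) (nat_lit 1140) (nat_lit 795617183) (nat_lit 1140) (nat_lit 795617183) (nat_lit 173) (nat_lit 3) (nat_lit 188) (nat_lit 3) (nat_lit 188) (nat_lit 5) (nat_lit 318) (nat_lit 318) (nat_lit 144)) (XT.lf (nat_lit 76) (nat_lit 8398531965) (nat_lit 0) (nat_lit 11793879000) (nat_lit 1140) (nat_lit 3028367283) (nat_lit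 174) (nat_lit 5) (nat_lit 173) (nat_lit 3) (nat_lit 188) (nat_lit 5) (nat_lit 319) (nat_lit 318) (nat_lit 143))) (XT.nd (nat_lit 78) (nat_lit 0) (nat_lit 76) (XT.lf (nat_lit 76) (nat_lit 18718247974) (nat_lit 0) (nat_lit 1991711542) (nat_lit 1140) (nat_lit 2857747710) (nat_lit 174) (nat_lit 5) (nat_lit 173) (nat_lit 3) (nat_lit 188) (nat_lit 5) (nat_lit 320) (nat_lit 318) (nat_lit 142)) (XT.nd (nat_lit 78) (nat_lit 0) (nat_lit 0) (XT.lf (nat_lit 76) (nat_lit 5448471657) (nat_lit 0) (nat_lit 15920482959) (nat_lit 1140) (nat_lit 2552320574) (nat_lit 175) (nat_lit 5) (nat_lit 174) (nat_lit 5) (nat_lit 189) (nat_lit 5) (nat_lit 321) (nat_lit 318) (nat_lit 141)) (XT.lf (nat_lit 76) (nat_lit 16132207902) (nat_lit 0) (nat_lit 5979752343) (nat_lit 1140) (nat_lit 2171571195) (nat_lit 175) (nat_lit 5) (nat_lit 174) (nat_lit 5) (nat_lit 189) (nat_lit 5) (nat_lit 322) (nat_lit 318) (nat_lit 140))))) (XT.nd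 (nat_lit 234) (nat_lit 1064) (nat_lit 0) (XT.nd (nat_lit 78) (nat_lit 0) (nat_lit 0) (XT.lf (nat_lit 76) (nat_lit 2484839140) (nat_lit 0) (nat_lit 20453129803) (nat_lit 1140) (nat_lit 1716873267) (nat_lit 176) (nat_lit 5) (nat_lit 175) (nat_lit 5) (nat_lit 190) (nat_lit 5) (nat_lit 323) (nat_lit 318) (nat_lit 139)) (XT.nd (nat_lit 78) (nat_lit 0) (nat_lit 0) (XT.lf (nat_lit 76) (nat_lit 13544313815) (nat_lit 0) (nat_lit 10381362546) (nat_lit 1140) (nat_lit 1107516370) (nat_lit 176) (nat_lit 5) (nat_lit 175) (nat_lit 5) (nat_lit 190) (nat_lit 5) (nat_lit 324) (nat_lit 318) (nat_lit 138)) (XT.lf (nat_lit 76) (nat_lit 24933161805) (nat_lit 0) (nat_lit 5951303) (nat_lit 1140) (nat_lit 483905464) (nat_lit 176) (nat_lit 5) (nat_lit 175) (nat_lit 5) (nat_lit 190) (nat_lit 5) (nat_lit 325) (nat_lit 318) (nat_lit 137)))) (XT.nd (nat_lit 78) (nat_lit 0) (nat_lit 0) (XT.lf (nat_lit 0) (nat_lit 361466772)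 (nat_lit 1140) (nat_lit 14874348507) (nat_lit 1216) (nat_lit 10582501203) (nat_lit 161) (nat_lit 5) (nat_lit 176) (nat_lit 5) (nat_lit 177) (nat_lit 5) (nat_lit 326) (nat_lit 318) (nat_lit 136)) (XT.nd (nat_lit 78) (nat_lit 0) (nat_lit 76) (XT.lf (nat_lit 0) (nat_lit 1223797007) (nat_lit 1140) (nat_lit 3501907804) (nat_lit 1216) (nat_lit 21499592188) (nat_lit 161) (nat_lit 5) (nat_lit 176) (nat_lit 5) (nat_lit 177) (nat_lit 5) (nat_lit 327) (nat_lit 318) (nat_lit 135)) (XT.lf (nat_lit 0) (nat_lit 2248299195) (nat_lit 1140) (nat_lit 18329003071) (nat_lit 1216) (nat_lit 6063102489) (nat_lit 162) (nat_lit 5) (nat_lit 177) (nat_lit 5) (nat_lit 178) (nat_lit 5) (nat_lit 328) (nat_lit 318) (nat_lit 134)))))) (XT.nd (nat_lit 468) (nat_lit 1368) (nat_lit 0) (XT.nd (nat_lit 234) (nat_lit 0) (nat_lit 76) (XT.nd (nat_lit 78) (nat_lit 0) (nat_lit 76) (XT.lf (nat_lit 0) (nat_lit 3382507924) (nat_lit 1140) (nat_lit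 6565706547) (nat_lit 1216) (nat_lit 17117388812) (nat_lit 162) (nat_lit 5) (nat_lit 177) (nat_lit 5) (nat_lit 178) (nat_lit 5) (nat_lit 329) (nat_lit 318) (nat_lit 133)) (XT.nd (nat_lit 78) (nat_lit 0) (nat_lit 0) (XT.lf (nat_lit 0) (nat_lit 4611865511) (nat_lit 1140) (nat_lit 21853772049) (nat_lit 1216) (nat_lit 1036093018) (nat_lit 163) (nat_lit 5) (nat_lit 178) (nat_lit 5) (nat_lit 179) (nat_lit 5) (nat_lit 330) (nat_lit 318) (nat_lit 132)) (XT.lf (nat_lit 0) (nat_lit 6040215574) (nat_lit 1140) (nat_lit 9688057243) (nat_lit 1216) (nat_lit 12217811823) (nat_lit 163) (nat_lit 5) (nat_lit 178) (nat_lit 5) (nat_lit 179) (nat_lit 5) (nat_lit 331) (nat_lit 318) (nat_lit 131)))) (XT.nd (nat_lit 78) (nat_lit 0) (nat_lit 76) (XT.lf (nat_lit 76) (nat_lit 2896653081) (nat_lit 0) (nat_lit 4639362187) (nat_lit 1216) (nat_lit 20867022198) (nat_lit 164) (nat_lit 5) (nat_lit 163) (nat_lit 5) (nat_lit 179) (nat_lit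 5) (nat_lit 332) (nat_lit 318) (nat_lit 130)) (XT.nd (nat_lit 78) (nat_lit 0) (nat_lit 0) (XT.lf (nat_lit 0) (nat_lit 9237514933) (nat_lit 1140) (nat_lit 12882010444) (nat_lit 1216) (nat_lit 6749354658) (nat_lit 164) (nat_lit 5) (nat_lit 179) (nat_lit 5) (nat_lit 180) (nat_lit 5) (nat_lit 333) (nat_lit 318) (nat_lit 129)) (XT.lf (nat_lit 76) (nat_lit 74098159) (nat_lit 0) (nat_lit 10959532424) (nat_lit 1216) (nat_lit 18313765935) (nat_lit 165) (nat_lit 5) (nat_lit 164) (nat_lit 5) (nat_lit 180) (nat_lit 5) (nat_lit 334) (nat_lit 318) (nat_lit 128))))) (XT.nd (nat_lit 234) (nat_lit 532) (nat_lit 0) (XT.nd (nat_lit 78) (nat_lit 1064) (nat_lit 0) (XT.lf (nat_lit 0) (nat_lit 13017141154) (nat_lit 1140) (nat_lit 16162425159) (nat_lit 76) (nat_lit 656702435) (nat_lit 165) (nat_lit 5) (nat_lit 180) (nat_lit 5) (nat_lit 166) (nat_lit 5) (nat_lit 335) (nat_lit 318) (nat_lit 127)) (XT.nd (nat_lit 78) (nat_lit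 1064) (nat_lit 0) (XT.lf (nat_lit 0) (nat_lit 15165749986) (nat_lit 1140) (nat_lit 2769245266) (nat_lit 76) (nat_lit 12401649539) (nat_lit 165) (nat_lit 5) (nat_lit 180) (nat_lit 5) (nat_lit 166) (nat_lit 5) (nat_lit 336) (nat_lit 318) (nat_lit 126)) (XT.lf (nat_lit 0) (nat_lit 11242678988) (nat_lit 1064) (nat_lit 6241377294) (nat_lit 1140) (nat_lit 13364823934) (nat_lit 151) (nat_lit 5) (nat_lit 165) (nat_lit 5) (nat_lit 166) (nat_lit 5) (nat_lit 337) (nat_lit 318) (nat_lit 125)))) (XT.nd (nat_lit 78) (nat_lit 532) (nat_lit 0) (XT.lf (nat_lit 0) (nat_lit 19953165509) (nat_lit 1140) (nat_lit 5702479423) (nat_lit 76) (nat_lit 5718405282) (nat_lit 151) (nat_lit 5) (nat_lit 166) (nat_lit 5) (nat_lit 152) (nat_lit 5) (nat_lit 338) (nat_lit 318) (nat_lit 124)) (XT.nd (nat_lit 78) (nat_lit 0) (nat_lit 0) (XT.lf (nat_lit 0) (nat_lit 8724370965) (nat_lit 532) (nat_lit 13914947983) (nat_lit 608) (nat_lit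 9271372208) (nat_lit 144) (nat_lit 5) (nat_lit 151) (nat_lit 5) (nat_lit 152) (nat_lit 5) (nat_lit 339) (nat_lit 318) (nat_lit 123)) (XT.lf (nat_lit 0) (nat_lit 23698514782) (nat_lit 532) (nat_lit 1762492377) (nat_lit 608) (nat_lit 7000780493) (nat_lit 144) (nat_lit 5) (nat_lit 151) (nat_lit 5) (nat_lit 152) (nat_lit 5) (nat_lit 340) (nat_lit 318) (nat_lit 122))))))) (XT.nd (nat_lit 936) (nat_lit 2052) (nat_lit 0) (XT.nd (nat_lit 468) (nat_lit 1292) (nat_lit 0) (XT.nd (nat_lit 234) (nat_lit 532) (nat_lit 0) (XT.nd (nat_lit 78) (nat_lit 608) (nat_lit 0) (XT.lf (nat_lit 0) (nat_lit 6105812359) (nat_lit 532) (nat_lit 22421050776) (nat_lit 608) (nat_lit 4497773080) (nat_lit 137) (nat_lit 5) (nat_lit 144) (nat_lit 5) (nat_lit 145) (nat_lit 5) (nat_lit 341) (nat_lit 318) (nat_lit 121)) (XT.nd (nat_lit 78) (nat_lit 608) (nat_lit 0) (XT.lf (nat_lit 0) (nat_lit 21580413948) (nat_lit 532) (nat_lit 10207548554)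 (nat_lit 608) (nat_lit 1813314253) (nat_lit 137) (nat_lit 5) (nat_lit 144) (nat_lit 5) (nat_lit 145) (nat_lit 5) (nat_lit 342) (nat_lit 318) (nat_lit 120)) (XT.lf (nat_lit 0) (nat_lit 986341695) (nat_lit 608) (nat_lit 30838829320) (nat_lit 76) (nat_lit 2368178323) (nat_lit 129) (nat_lit 5) (nat_lit 137) (nat_lit 5) (nat_lit 130) (nat_lit 5) (nat_lit 343) (nat_lit 318) (nat_lit 119)))) (XT.nd (nat_lit 78) (nat_lit 532) (nat_lit 0) (XT.lf (nat_lit 0) (nat_lit 4054785829) (nat_lit 608) (nat_lit 15484616581) (nat_lit 76) (nat_lit 15256609915) (nat_lit 129) (nat_lit 5) (nat_lit 137) (nat_lit 5) (nat_lit 130) (nat_lit 5) (nat_lit 344) (nat_lit 318) (nat_lit 118)) (XT.nd (nat_lit 78) (nat_lit 0) (nat_lit 0) (XT.lf (nat_lit 0) (nat_lit 334384444) (nat_lit 532) (nat_lit 6881773822) (nat_lit 608) (nat_lit 28200574729) (nat_lit 122) (nat_lit 5) (nat_lit 129) (nat_lit 5) (nat_lit 130) (nat_lit 5) (nat_lit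 345) (nat_lit 318) (nat_lit 117)) (XT.lf (nat_lit 0) (nat_lit 10687161411) (nat_lit 608) (nat_lit 19169141058) (nat_lit 76) (nat_lit 6193333057) (nat_lit 122) (nat_lit 5) (nat_lit 130) (nat_lit 5) (nat_lit 123) (nat_lit 5) (nat_lit 346) (nat_lit 318) (nat_lit 116))))) (XT.nd (nat_lit 234) (nat_lit 836) (nat_lit 0) (XT.nd (nat_lit 78) (nat_lit 456) (nat_lit 0) (XT.lf (nat_lit 0) (nat_lit 14328203714) (nat_lit 608) (nat_lit 2849015717) (nat_lit 76) (nat_lit 19522332241) (nat_lit 122) (nat_lit 5) (nat_lit 130) (nat_lit 5) (nat_lit 123) (nat_lit 5) (nat_lit 347) (nat_lit 318) (nat_lit 115)) (XT.nd (nat_lit 78) (nat_lit 0) (nat_lit 0) (XT.lf (nat_lit 0) (nat_lit 14236239911) (nat_lit 456) (nat_lit 3976922385) (nat_lit 532) (nat_lit 19151766157) (nat_lit 116) (nat_lit 5) (nat_lit 122) (nat_lit 5) (nat_lit 123) (nat_lit 5) (nat_lit 348) (nat_lit 318) (nat_lit 114)) (XT.lf (nat_lit 0) (nat_lit 22334069004)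 (nat_lit 532) (nat_lit 6252017931) (nat_lit 76) (nat_lit 9460601214) (nat_lit 116) (nat_lit 5) (nat_lit 123) (nat_lit 5) (nat_lit 117) (nat_lit 5) (nat_lit 349) (nat_lit 318) (nat_lit 113)))) (XT.nd (nat_lit 78) (nat_lit 380) (nat_lit 0) (XT.lf (nat_lit 0) (nat_lit 11310026717) (nat_lit 456) (nat_lit 15414610027) (nat_lit 532) (nat_lit 12019886365) (nat_lit 110) (nat_lit 5) (nat_lit 116) (nat_lit 5) (nat_lit 117) (nat_lit 5) (nat_lit 350) (nat_lit 318) (nat_lit 112)) (XT.nd (nat_lit 78) (nat_lit 380) (nat_lit 0) (XT.lf (nat_lit 0) (nat_lit 29524865031) (nat_lit 456) (nat_lit 1783167674) (nat_lit 532) (nat_lit 8153430464) (nat_lit 110) (nat_lit 5) (nat_lit 116) (nat_lit 5) (nat_lit 117) (nat_lit 5) (nat_lit 351) (nat_lit 318) (nat_lit 111)) (XT.lf (nat_lit 0) (nat_lit 8124732707) (nat_lit 380) (nat_lit 28098156651) (nat_lit 456) (nat_lit 3971206597) (nat_lit 105) (nat_lit 5) (nat_lit 110) (nat_lit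 5) (nat_lit 111) (nat_lit 5) (nat_lit 352) (nat_lit 318) (nat_lit 110)))))) (XT.nd (nat_lit 468) (nat_lit 1140) (nat_lit 0) (XT.nd (nat_lit 234) (nat_lit 380) (nat_lit 0) (XT.nd (nat_lit 78) (nat_lit 456) (nat_lit 0) (XT.lf (nat_lit 0) (nat_lit 446955599) (nat_lit 456) (nat_lit 14038230014) (nat_lit 76) (nat_lit 26459917046) (nat_lit 104) (nat_lit 5) (nat_lit 110) (nat_lit 5) (nat_lit 105) (nat_lit 5) (nat_lit 353) (nat_lit 318) (nat_lit 109)) (XT.nd (nat_lit 78) (nat_lit 0) (nat_lit 0) (XT.lf (nat_lit 0) (nat_lit 4581746649) (nat_lit 456) (nat_lit 378246948) (nat_lit 532) (nat_lit 36756204962) (nat_lit 98) (nat_lit 5) (nat_lit 104) (nat_lit 5) (nat_lit 105) (nat_lit 5) (nat_lit 354) (nat_lit 318) (nat_lit 108)) (XT.lf (nat_lit 0) (nat_lit 9885758897) (nat_lit 532) (nat_lit 18597734862) (nat_lit 76) (nat_lit 14018616414) (nat_lit 98) (nat_lit 5) (nat_lit 105) (nat_lit 5) (nat_lit 99) (nat_lit 5)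 (nat_lit 355) (nat_lit 318) (nat_lit 107)))) (XT.nd (nat_lit 78) (nat_lit 0) (nat_lit 0) (XT.lf (nat_lit 0) (nat_lit 498926394) (nat_lit 380) (nat_lit 14467103314) (nat_lit 456) (nat_lit 28345370287) (nat_lit 93) (nat_lit 5) (nat_lit 98) (nat_lit 5) (nat_lit 99) (nat_lit 5) (nat_lit 356) (nat_lit 318) (nat_lit 106)) (XT.nd (nat_lit 78) (nat_lit 0) (nat_lit 0) (XT.lf (nat_lit 0) (nat_lit 20386298610) (nat_lit 456) (nat_lit 23593360323) (nat_lit 76) (nat_lit 159684633) (nat_lit 93) (nat_lit 5) (nat_lit 99) (nat_lit 5) (nat_lit 94) (nat_lit 5) (nat_lit 357) (nat_lit 318) (nat_lit 105)) (XT.lf (nat_lit 0) (nat_lit 26110686460) (nat_lit 456) (nat_lit 3943028548) (nat_lit 76) (nat_lit 14934167783) (nat_lit 93) (nat_lit 5) (nat_lit 99) (nat_lit 5) (nat_lit 94) (nat_lit 5) (nat_lit 358) (nat_lit 318) (nat_lit 104))))) (XT.nd (nat_lit 234) (nat_lit 456) (nat_lit 0) (XT.nd (nat_lit 78) (nat_lit 304) (nat_lit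 0) (XT.lf (nat_lit 0) (nat_lit 16619056209) (nat_lit 380) (nat_lit 15545824829) (nat_lit 456) (nat_lit 13692257498) (nat_lit 88) (nat_lit 5) (nat_lit 93) (nat_lit 5) (nat_lit 94) (nat_lit 5) (nat_lit 359) (nat_lit 318) (nat_lit 103)) (XT.nd (nat_lit 78) (nat_lit 304) (nat_lit 0) (XT.lf (nat_lit 0) (nat_lit 37876797256) (nat_lit 380) (nat_lit 562072914) (nat_lit 456) (nat_lit 8312459241) (nat_lit 88) (nat_lit 5) (nat_lit 93) (nat_lit 5) (nat_lit 94) (nat_lit 5) (nat_lit 360) (nat_lit 318) (nat_lit 102)) (XT.lf (nat_lit 0) (nat_lit 12192878443) (nat_lit 304) (nat_lit 32966753187) (nat_lit 380) (nat_lit 2504960250) (nat_lit 84) (nat_lit 5) (nat_lit 88) (nat_lit 5) (nat_lit 89) (nat_lit 5) (nat_lit 361) (nat_lit 318) (nat_lit 101)))) (XT.nd (nat_lit 78) (nat_lit 380) (nat_lit 0) (XT.lf (nat_lit 0) (nat_lit 3503393047) (nat_lit 380) (nat_lit 14570242603) (nat_lit 76) (nat_lit 30527782049) (nat_lit 83)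 (nat_lit 5) (nat_lit 88) (nat_lit 5) (nat_lit 84) (nat_lit 5) (nat_lit 362) (nat_lit 318) (nat_lit 100)) (XT.nd (nat_lit 78) (nat_lit 0) (nat_lit 0) (XT.lf (nat_lit 0) (nat_lit 7069444124) (nat_lit 380) (nat_lit 2638613640) (nat_lit 456) (nat_lit 39855556479) (nat_lit 78) (nat_lit 5) (nat_lit 83) (nat_lit 5) (nat_lit 84) (nat_lit 5) (nat_lit 363) (nat_lit 318) (nat_lit 99)) (XT.lf (nat_lit 0) (nat_lit 16373382369) (nat_lit 456) (nat_lit 21024181596) (nat_lit 76) (nat_lit 13148879294) (nat_lit 78) (nat_lit 5) (nat_lit 84) (nat_lit 5) (nat_lit 79) (nat_lit 5) (nat_lit 364) (nat_lit 318) (nat_lit 98))))))))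
noncomputable def xc234 : XT := (XT.nd (nat_lit 38064) (nat_lit 0) (nat_lit 2812) (XT.nd (nat_lit 37128) (nat_lit 0) (nat_lit 7600) (XT.nd (nat_lit 390) (nat_lit 684) (nat_lit 0) (XT.nd (nat_lit 156) (nat_lit 304) (nat_lit 0) (XT.nd (nat_lit 78) (nat_lit 0) (nat_lit 0) (XT.lf (nat_lit 0) (nat_lit 1082971447) (nat_lit 304) (nat_lit 22190749065) (nat_lit 380) (nat_lit 28283987130) (nat_lit 74) (nat_lit 5) (nat_lit 78) (nat_lit 5) (nat_lit 79) (nat_lit 5) (nat_lit 365) (nat_lit 318) (nat_lit 97)) (XT.lf (nat_lit 0) (nat_lit 24282390320) (nat_lit 304) (nat_lit 6309524869) (nat_lit 380) (nat_lit 22001071424) (nat_lit 74) (nat_lit 5) (nat_lit 78) (nat_lit 5) (nat_lit 79) (nat_lit 5) (nat_lit 366) (nat_lit 318) (nat_lit 96))) (XT.nd (nat_lit 78) (nat_lit 304) (nat_lit 0) (XT.lf (nat_lit 0) (nat_lit 38224825984) (nat_lit 380) (nat_lit 5580028916) (nat_lit 76) (nat_lit 9851615935) (nat_lit 74) (nat_lit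 5) (nat_lit 79) (nat_lit 5) (nat_lit 75) (nat_lit 5) (nat_lit 367) (nat_lit 318) (nat_lit 95)) (XT.nd (nat_lit 78) (nat_lit 0) (nat_lit 0) (XT.lf (nat_lit 0) (nat_lit 18121753294) (nat_lit 304) (nat_lit 28200261491) (nat_lit 380) (nat_lit 8422788009) (nat_lit 70) (nat_lit 5) (nat_lit 74) (nat_lit 5) (nat_lit 75) (nat_lit 5) (nat_lit 368) (nat_lit 318) (nat_lit 94)) (XT.lf (nat_lit 0) (nat_lit 42647139932) (nat_lit 304) (nat_lit 12069971914) (nat_lit 380) (nat_lit 1147024963) (nat_lit 70) (nat_lit 5) (nat_lit 74) (nat_lit 5) (nat_lit 75) (nat_lit 5) (nat_lit 369) (nat_lit 318) (nat_lit 93))))) (XT.nd (nat_lit 234) (nat_lit 0) (nat_lit 0) (XT.nd (nat_lit 78) (nat_lit 304) (nat_lit 0) (XT.lf (nat_lit 0) (nat_lit 6373321227) (nat_lit 380) (nat_lit 46013486075) (nat_lit 76) (nat_lit 4623910070) (nat_lit 65) (nat_lit 5) (nat_lit 70) (nat_lit 5) (nat_lit 66) (nat_lit 5) (nat_lit 370) (nat_lit 318) (nat_lit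 92)) (XT.nd (nat_lit 78) (nat_lit 304) (nat_lit 0) (XT.lf (nat_lit 0) (nat_lit 14349202385) (nat_lit 380) (nat_lit 22112879959) (nat_lit 76) (nat_lit 21721684664) (nat_lit 65) (nat_lit 5) (nat_lit 70) (nat_lit 5) (nat_lit 66) (nat_lit 5) (nat_lit 371) (nat_lit 318) (nat_lit 91)) (XT.lf (nat_lit 0) (nat_lit 2552784002) (nat_lit 304) (nat_lit 20034839924) (nat_lit 380) (nat_lit 36803687955) (nat_lit 61) (nat_lit 5) (nat_lit 65) (nat_lit 5) (nat_lit 66) (nat_lit 5) (nat_lit 372) (nat_lit 318) (nat_lit 90)))) (XT.nd (nat_lit 78) (nat_lit 0) (nat_lit 0) (XT.lf (nat_lit 0) (nat_lit 28409953292) (nat_lit 304) (nat_lit 2885286825) (nat_lit 380) (nat_lit 29333183340) (nat_lit 61) (nat_lit 5) (nat_lit 65) (nat_lit 5) (nat_lit 66) (nat_lit 5) (nat_lit 373) (nat_lit 318) (nat_lit 89)) (XT.nd (nat_lit 36348) (nat_lit 0) (nat_lit 8512) (XT.lf (nat_lit 0) (nat_lit 40404924340) (nat_lit 380) (nat_lit 7003612341)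 (nat_lit 76) (nat_lit 14489888084) (nat_lit 61) (nat_lit 5) (nat_lit 66) (nat_lit 5) (nat_lit 62) (nat_lit 5) (nat_lit 374) (nat_lit 318) (nat_lit 88)) (XT.lf (nat_lit 0) (nat_lit 10259994964) (nat_lit 1140) (nat_lit 760713784) (nat_lit 1140) (nat_lit 760713784) (nat_lit 173) (nat_lit 3) (nat_lit 188) (nat_lit 3) (nat_lit 188) (nat_lit 5) (nat_lit 319) (nat_lit 319) (nat_lit 142)))))) (XT.nd (nat_lit 468) (nat_lit 912) (nat_lit 0) (XT.nd (nat_lit 234) (nat_lit 0) (nat_lit 76) (XT.nd (nat_lit 78) (nat_lit 0) (nat_lit 0) (XT.lf (nat_lit 76) (nat_lit 8766879363) (nat_lit 0) (nat_lit 12253585710) (nat_lit 1140) (nat_lit 2889825465) (nat_lit 174) (nat_lit 5) (nat_lit 173) (nat_lit 3) (nat_lit 188) (nat_lit 5) (nat_lit 320) (nat_lit 319) (nat_lit 141)) (XT.nd (nat_lit 78) (nat_lit 0) (nat_lit 76) (XT.lf (nat_lit 76) (nat_lit 19392796810) (nat_lit 0) (nat_lit 2154269044) (nat_lit 1140) (nat_lit 2720768650)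 (nat_lit 174) (nat_lit 5) (nat_lit 173) (nat_lit 3) (nat_lit 188) (nat_lit 5) (nat_lit 321) (nat_lit 319) (nat_lit 140)) (XT.lf (nat_lit 76) (nat_lit 5731634148) (nat_lit 0) (nat_lit 16488102260) (nat_lit 1140) (nat_lit 2412468447) (nat_lit 175) (nat_lit 5) (nat_lit 174) (nat_lit 5) (nat_lit 189) (nat_lit 5) (nat_lit 322) (nat_lit 319) (nat_lit 139)))) (XT.nd (nat_lit 78) (nat_lit 0) (nat_lit 76) (XT.lf (nat_lit 76) (nat_lit 16732395829) (nat_lit 0) (nat_lit 6246528226) (nat_lit 1140) (nat_lit 2026600132) (nat_lit 175) (nat_lit 5) (nat_lit 174) (nat_lit 5) (nat_lit 189) (nat_lit 5) (nat_lit 323) (nat_lit 319) (nat_lit 138)) (XT.nd (nat_lit 78) (nat_lit 0) (nat_lit 0) (XT.lf (nat_lit 76) (nat_lit 2681747663) (nat_lit 0) (nat_lit 21142395824) (nat_lit 1140) (nat_lit 1564009678) (nat_lit 176) (nat_lit 5) (nat_lit 175) (nat_lit 5) (nat_lit 190) (nat_lit 5) (nat_lit 324) (nat_lit 319) (nat_lit 137))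 (XT.lf (nat_lit 76) (nat_lit 14069442597) (nat_lit 0) (nat_lit 10766271507) (nat_lit 1140) (nat_lit 942324592) (nat_lit 176) (nat_lit 5) (nat_lit 175) (nat_lit 5) (nat_lit 190) (nat_lit 5) (nat_lit 325) (nat_lit 319) (nat_lit 136))))) (XT.nd (nat_lit 234) (nat_lit 0) (nat_lit 76) (XT.nd (nat_lit 78) (nat_lit 1064) (nat_lit 0) (XT.lf (nat_lit 76) (nat_lit 25796495851) (nat_lit 0) (nat_lit 77458079) (nat_lit 1140) (nat_lit 305784502) (nat_lit 176) (nat_lit 5) (nat_lit 175) (nat_lit 5) (nat_lit 190) (nat_lit 5) (nat_lit 326) (nat_lit 319) (nat_lit 135)) (XT.nd (nat_lit 78) (nat_lit 0) (nat_lit 0) (XT.lf (nat_lit 0) (nat_lit 556188929) (nat_lit 1140) (nat_lit 15195770527) (nat_lit 1216) (nat_lit 10835040780) (nat_lit 161) (nat_lit 5) (nat_lit 176) (nat_lit 5) (nat_lit 177) (nat_lit 5) (nat_lit 327) (nat_lit 319) (nat_lit 134)) (XT.lf (nat_lit 0) (nat_lit 1439033398) (nat_lit 1140) (nat_lit 3485791799)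 (nat_lit 1216) (nat_lit 22081535819) (nat_lit 161) (nat_lit 5) (nat_lit 176) (nat_lit 5) (nat_lit 177) (nat_lit 5) (nat_lit 328) (nat_lit 319) (nat_lit 133)))) (XT.nd (nat_lit 78) (nat_lit 0) (nat_lit 0) (XT.lf (nat_lit 0) (nat_lit 2489700539) (nat_lit 1140) (nat_lit 18752800474) (nat_lit 1216) (nat_lit 6191567976) (nat_lit 162) (nat_lit 5) (nat_lit 177) (nat_lit 5) (nat_lit 178) (nat_lit 5) (nat_lit 329) (nat_lit 319) (nat_lit 132)) (XT.nd (nat_lit 78) (nat_lit 0) (nat_lit 76) (XT.lf (nat_lit 0) (nat_lit 3652868956) (nat_lit 1140) (nat_lit 6640277074) (nat_lit 1216) (nat_lit 17579039032) (nat_lit 162) (nat_lit 5) (nat_lit 177) (nat_lit 5) (nat_lit 178) (nat_lit 5) (nat_lit 330) (nat_lit 319) (nat_lit 131)) (XT.lf (nat_lit 0) (nat_lit 4914931029) (nat_lit 1140) (nat_lit 22382497866) (nat_lit 1216) (nat_lit 1024101881) (nat_lit 163) (nat_lit 5) (nat_lit 178) (nat_lit 5) (nat_lit 179) (nat_lit 5)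 (nat_lit 331) (nat_lit 319) (nat_lit 130))))))) (XT.nd (nat_lit 936) (nat_lit 2964) (nat_lit 0) (XT.nd (nat_lit 468) (nat_lit 1976) (nat_lit 0) (XT.nd (nat_lit 234) (nat_lit 0) (nat_lit 76) (XT.nd (nat_lit 78) (nat_lit 0) (nat_lit 0) (XT.lf (nat_lit 0) (nat_lit 6381334228) (nat_lit 1140) (nat_lit 9855507363) (nat_lit 1216) (nat_lit 12542526831) (nat_lit 163) (nat_lit 5) (nat_lit 178) (nat_lit 5) (nat_lit 179) (nat_lit 5) (nat_lit 332) (nat_lit 319) (nat_lit 129)) (XT.nd (nat_lit 78) (nat_lit 0) (nat_lit 76) (XT.lf (nat_lit 76) (nat_lit 3105536510) (nat_lit 0) (nat_lit 4812986350) (nat_lit 1216) (nat_lit 21331620303) (nat_lit 164) (nat_lit 5) (nat_lit 163) (nat_lit 5) (nat_lit 179) (nat_lit 5) (nat_lit 333) (nat_lit 319) (nat_lit 128)) (XT.lf (nat_lit 0) (nat_lit 9666189938) (nat_lit 1140) (nat_lit 13144878181) (nat_lit 1216) (nat_lit 6919047740) (nat_lit 164) (nat_lit 5) (nat_lit 179) (nat_lit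 5) (nat_lit 180) (nat_lit 5) (nat_lit 334) (nat_lit 319) (nat_lit 127)))) (XT.nd (nat_lit 78) (nat_lit 0) (nat_lit 76) (XT.lf (nat_lit 76) (nat_lit 198701988) (nat_lit 0) (nat_lit 11314249404) (nat_lit 1216) (nat_lit 18710141848) (nat_lit 165) (nat_lit 5) (nat_lit 164) (nat_lit 5) (nat_lit 180) (nat_lit 5) (nat_lit 335) (nat_lit 319) (nat_lit 126)) (XT.nd (nat_lit 78) (nat_lit 0) (nat_lit 0) (XT.lf (nat_lit 0) (nat_lit 13551405512) (nat_lit 1140) (nat_lit 16523651970) (nat_lit 76) (nat_lit 651719042) (nat_lit 165) (nat_lit 5) (nat_lit 180) (nat_lit 5) (nat_lit 166) (nat_lit 5) (nat_lit 336) (nat_lit 319) (nat_lit 125)) (XT.lf (nat_lit 0) (nat_lit 15760285712) (nat_lit 1140) (nat_lit 2732278019) (nat_lit 76) (nat_lit 12749733525) (nat_lit 165) (nat_lit 5) (nat_lit 180) (nat_lit 5) (nat_lit 166) (nat_lit 5) (nat_lit 337) (nat_lit 319) (nat_lit 124))))) (XT.nd (nat_lit 234) (nat_lit 532) (nat_lit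 0) (XT.nd (nat_lit 78) (nat_lit 532) (nat_lit 0) (XT.lf (nat_lit 0) (nat_lit 11698827055) (nat_lit 1064) (nat_lit 6446391822) (nat_lit 1140) (nat_lit 13624776107) (nat_lit 151) (nat_lit 5) (nat_lit 165) (nat_lit 5) (nat_lit 166) (nat_lit 5) (nat_lit 338) (nat_lit 319) (nat_lit 123)) (XT.nd (nat_lit 78) (nat_lit 532) (nat_lit 0) (XT.lf (nat_lit 0) (nat_lit 20684255679) (nat_lit 1140) (nat_lit 5753757512) (nat_lit 76) (nat_lit 5873038614) (nat_lit 151) (nat_lit 5) (nat_lit 166) (nat_lit 5) (nat_lit 152) (nat_lit 5) (nat_lit 339) (nat_lit 319) (nat_lit 122)) (XT.lf (nat_lit 0) (nat_lit 9104723914) (nat_lit 532) (nat_lit 14343550989) (nat_lit 608) (nat_lit 9415605776) (nat_lit 144) (nat_lit 5) (nat_lit 151) (nat_lit 5) (nat_lit 152) (nat_lit 5) (nat_lit 340) (nat_lit 319) (nat_lit 121)))) (XT.nd (nat_lit 78) (nat_lit 532) (nat_lit 0) (XT.lf (nat_lit 0) (nat_lit 24524637041) (nat_lit 532) (nat_lit 1826196824)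 (nat_lit 608) (nat_lit 7080796530) (nat_lit 144) (nat_lit 5) (nat_lit 151) (nat_lit 5) (nat_lit 152) (nat_lit 5) (nat_lit 341) (nat_lit 319) (nat_lit 120)) (XT.nd (nat_lit 78) (nat_lit 0) (nat_lit 0) (XT.lf (nat_lit 0) (nat_lit 6407099104) (nat_lit 532) (nat_lit 23098930915) (nat_lit 608) (nat_lit 4505420189) (nat_lit 137) (nat_lit 5) (nat_lit 144) (nat_lit 5) (nat_lit 145) (nat_lit 5) (nat_lit 342) (nat_lit 319) (nat_lit 119)) (XT.lf (nat_lit 0) (nat_lit 22342498575) (nat_lit 532) (nat_lit 10518870754) (nat_lit 608) (nat_lit 1744134959) (nat_lit 137) (nat_lit 5) (nat_lit 144) (nat_lit 5) (nat_lit 145) (nat_lit 5) (nat_lit 343) (nat_lit 319) (nat_lit 118)))))) (XT.nd (nat_lit 468) (nat_lit 1368) (nat_lit 0) (XT.nd (nat_lit 234) (nat_lit 456) (nat_lit 0) (XT.nd (nat_lit 78) (nat_lit 532) (nat_lit 0) (XT.lf (nat_lit 0) (nat_lit 1134661432) (nat_lit 608) (nat_lit 31644056133) (nat_lit 76) (nat_lit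 2436665135) (nat_lit 129) (nat_lit 5) (nat_lit 137) (nat_lit 5) (nat_lit 130) (nat_lit 5) (nat_lit 344) (nat_lit 319) (nat_lit 117)) (XT.nd (nat_lit 78) (nat_lit 532) (nat_lit 0) (XT.lf (nat_lit 0) (nat_lit 4291700749) (nat_lit 608) (nat_lit 15832710354) (nat_lit 76) (nat_lit 15711824195) (nat_lit 129) (nat_lit 5) (nat_lit 137) (nat_lit 5) (nat_lit 130) (nat_lit 5) (nat_lit 345) (nat_lit 319) (nat_lit 116)) (XT.lf (nat_lit 0) (nat_lit 459719087) (nat_lit 532) (nat_lit 7085946220) (nat_lit 608) (nat_lit 28929985558) (nat_lit 122) (nat_lit 5) (nat_lit 129) (nat_lit 5) (nat_lit 130) (nat_lit 5) (nat_lit 346) (nat_lit 319) (nat_lit 115)))) (XT.nd (nat_lit 78) (nat_lit 456) (nat_lit 0) (XT.lf (nat_lit 0) (nat_lit 11117527920) (nat_lit 608) (nat_lit 19628812081) (nat_lit 76) (nat_lit 6381304223) (nat_lit 122) (nat_lit 5) (nat_lit 130) (nat_lit 5) (nat_lit 123) (nat_lit 5) (nat_lit 347) (nat_lit 319)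 (nat_lit 114)) (XT.nd (nat_lit 78) (nat_lit 456) (nat_lit 0) (XT.lf (nat_lit 0) (nat_lit 14864604842) (nat_lit 608) (nat_lit 2822444238) (nat_lit 76) (nat_lit 20110110145) (nat_lit 122) (nat_lit 5) (nat_lit 130) (nat_lit 5) (nat_lit 123) (nat_lit 5) (nat_lit 348) (nat_lit 319) (nat_lit 113)) (XT.lf (nat_lit 0) (nat_lit 14774270608) (nat_lit 456) (nat_lit 4089804485) (nat_lit 532) (nat_lit 19618488640) (nat_lit 116) (nat_lit 5) (nat_lit 122) (nat_lit 5) (nat_lit 123) (nat_lit 5) (nat_lit 349) (nat_lit 319) (nat_lit 112))))) (XT.nd (nat_lit 234) (nat_lit 912) (nat_lit 0) (XT.nd (nat_lit 78) (nat_lit 456) (nat_lit 0) (XT.lf (nat_lit 0) (nat_lit 23105624759) (nat_lit 532) (nat_lit 6328710209) (nat_lit 76) (nat_lit 9750535935) (nat_lit 116) (nat_lit 5) (nat_lit 123) (nat_lit 5) (nat_lit 117) (nat_lit 5) (nat_lit 350) (nat_lit 319) (nat_lit 111)) (XT.nd (nat_lit 78) (nat_lit 0) (nat_lit 0) (XT.lf (nat_lit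 0) (nat_lit 11759108834) (nat_lit 456) (nat_lit 15866898691) (nat_lit 532) (nat_lit 12277695454) (nat_lit 110) (nat_lit 5) (nat_lit 116) (nat_lit 5) (nat_lit 117) (nat_lit 5) (nat_lit 351) (nat_lit 319) (nat_lit 110)) (XT.lf (nat_lit 0) (nat_lit 30517194784) (nat_lit 456) (nat_lit 1826808687) (nat_lit 532) (nat_lit 8298239687) (nat_lit 110) (nat_lit 5) (nat_lit 116) (nat_lit 5) (nat_lit 117) (nat_lit 5) (nat_lit 352) (nat_lit 319) (nat_lit 109)))) (XT.nd (nat_lit 78) (nat_lit 532) (nat_lit 0) (XT.lf (nat_lit 0) (nat_lit 8476953624) (nat_lit 380) (nat_lit 28927669556) (nat_lit 456) (nat_lit 3992286944) (nat_lit 105) (nat_lit 5) (nat_lit 110) (nat_lit 5) (nat_lit 111) (nat_lit 5) (nat_lit 353) (nat_lit 319) (nat_lit 108)) (XT.nd (nat_lit 78) (nat_lit 456) (nat_lit 0) (XT.lf (nat_lit 0) (nat_lit 553706429) (nat_lit 456) (nat_lit 14352051602) (nat_lit 76) (nat_lit 27264749178) (nat_lit 104) (nat_lit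 5) (nat_lit 110) (nat_lit 5) (nat_lit 105) (nat_lit 5) (nat_lit 354) (nat_lit 319) (nat_lit 107)) (XT.lf (nat_lit 0) (nat_lit 4825472152) (nat_lit 456) (nat_lit 374966274) (nat_lit 532) (nat_lit 37764352793) (nat_lit 98) (nat_lit 5) (nat_lit 104) (nat_lit 5) (nat_lit 105) (nat_lit 5) (nat_lit 355) (nat_lit 319) (nat_lit 106))))))))
noncomputable def xc235 : XT := (XT.nd (nat_lit 38142) (nat_lit 0) (nat_lit 4636) (XT.nd (nat_lit 858) (nat_lit 988) (nat_lit 0) (XT.nd (nat_lit 390) (nat_lit 1064) (nat_lit 0) (XT.nd (nat_lit 156) (nat_lit 380) (nat_lit 0) (XT.nd (nat_lit 78) (nat_lit 380) (nat_lit 0) (XT.lf (nat_lit 0) (nat_lit 10271443931) (nat_lit 532) (nat_lit 19049816630) (nat_lit 76) (nat_lit 14453099796) (nat_lit 98) (nat_lit 5) (nat_lit 105) (nat_lit 5) (nat_lit 99) (nat_lit 5) (nat_lit 356) (nat_lit 319) (nat_lit 105)) (XT.lf (nat_lit 0) (nat_lit 618706716) (nat_lit 380) (nat_lit 14883828170)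 (nat_lit 456) (nat_lit 29105445698) (nat_lit 93) (nat_lit 5) (nat_lit 98) (nat_lit 5) (nat_lit 99) (nat_lit 5) (nat_lit 357) (nat_lit 319) (nat_lit 104))) (XT.nd (nat_lit 78) (nat_lit 380) (nat_lit 0) (XT.lf (nat_lit 0) (nat_lit 21083023948) (nat_lit 456) (nat_lit 24196881757) (nat_lit 76) (nat_lit 180932344) (nat_lit 93) (nat_lit 5) (nat_lit 99) (nat_lit 5) (nat_lit 94) (nat_lit 5) (nat_lit 358) (nat_lit 319) (nat_lit 103)) (XT.nd (nat_lit 78) (nat_lit 380) (nat_lit 0) (XT.lf (nat_lit 0) (nat_lit 26976663733) (nat_lit 456) (nat_lit 3960077293) (nat_lit 76) (nat_lit 15398170654) (nat_lit 93) (nat_lit 5) (nat_lit 99) (nat_lit 5) (nat_lit 94) (nat_lit 5) (nat_lit 359) (nat_lit 319) (nat_lit 102)) (XT.lf (nat_lit 0) (nat_lit 17217877437) (nat_lit 380) (nat_lit 15993162895) (nat_lit 456) (nat_lit 14019251804) (nat_lit 88) (nat_lit 5) (nat_lit 93) (nat_lit 5) (nat_lit 94) (nat_lit 5) (nat_lit 360) (nat_lit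 319) (nat_lit 101))))) (XT.nd (nat_lit 234) (nat_lit 684) (nat_lit 0) (XT.nd (nat_lit 78) (nat_lit 380) (nat_lit 0) (XT.lf (nat_lit 0) (nat_lit 39110430826) (nat_lit 380) (nat_lit 560452889) (nat_lit 456) (nat_lit 8480499602) (nat_lit 88) (nat_lit 5) (nat_lit 93) (nat_lit 5) (nat_lit 94) (nat_lit 5) (nat_lit 361) (nat_lit 319) (nat_lit 100)) (XT.nd (nat_lit 78) (nat_lit 76) (nat_lit 0) (XT.lf (nat_lit 0) (nat_lit 12657325920) (nat_lit 304) (nat_lit 33934766450) (nat_lit 380) (nat_lit 2499990070) (nat_lit 84) (nat_lit 5) (nat_lit 88) (nat_lit 5) (nat_lit 89) (nat_lit 5) (nat_lit 362) (nat_lit 319) (nat_lit 99)) (XT.lf (nat_lit 0) (nat_lit 3684762389) (nat_lit 380) (nat_lit 14909934185) (nat_lit 76) (nat_lit 31462365306) (nat_lit 83) (nat_lit 5) (nat_lit 88) (nat_lit 5) (nat_lit 84) (nat_lit 5) (nat_lit 363) (nat_lit 319) (nat_lit 98)))) (XT.nd (nat_lit 78) (nat_lit 304) (nat_lit 0) (XT.lf (nat_lit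 0) (nat_lit 7377988088) (nat_lit 380) (nat_lit 2696284814) (nat_lit 456) (nat_lit 40973893458) (nat_lit 78) (nat_lit 5) (nat_lit 83) (nat_lit 5) (nat_lit 84) (nat_lit 5) (nat_lit 364) (nat_lit 319) (nat_lit 97)) (XT.nd (nat_lit 78) (nat_lit 304) (nat_lit 0) (XT.lf (nat_lit 0) (nat_lit 16937574085) (nat_lit 456) (nat_lit 21559168789) (nat_lit 76) (nat_lit 13563799985) (nat_lit 78) (nat_lit 5) (nat_lit 84) (nat_lit 5) (nat_lit 79) (nat_lit 5) (nat_lit 365) (nat_lit 319) (nat_lit 96)) (XT.lf (nat_lit 0) (nat_lit 1210260235) (nat_lit 304) (nat_lit 22833447480) (nat_lit 380) (nat_lit 29058476927) (nat_lit 74) (nat_lit 5) (nat_lit 78) (nat_lit 5) (nat_lit 79) (nat_lit 5) (nat_lit 366) (nat_lit 319) (nat_lit 95)))))) (XT.nd (nat_lit 468) (nat_lit 304) (nat_lit 0) (XT.nd (nat_lit 234) (nat_lit 380) (nat_lit 0) (XT.nd (nat_lit 78) (nat_lit 304) (nat_lit 0) (XT.lf (nat_lit 0) (nat_lit 25102900520) (nat_lit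 304) (nat_lit 6476457162) (nat_lit 380) (nat_lit 22589229958) (nat_lit 74) (nat_lit 5) (nat_lit 78) (nat_lit 5) (nat_lit 79) (nat_lit 5) (nat_lit 367) (nat_lit 319) (nat_lit 94)) (XT.nd (nat_lit 78) (nat_lit 304) (nat_lit 0) (XT.lf (nat_lit 0) (nat_lit 39439434755) (nat_lit 380) (nat_lit 5656155816) (nat_lit 76) (nat_lit 10168443303) (nat_lit 74) (nat_lit 5) (nat_lit 79) (nat_lit 5) (nat_lit 75) (nat_lit 5) (nat_lit 368) (nat_lit 319) (nat_lit 93)) (XT.lf (nat_lit 0) (nat_lit 18755785018) (nat_lit 304) (nat_lit 29022646361) (nat_lit 380) (nat_lit 8606620421) (nat_lit 70) (nat_lit 5) (nat_lit 74) (nat_lit 5) (nat_lit 75) (nat_lit 5) (nat_lit 369) (nat_lit 319) (nat_lit 92)))) (XT.nd (nat_lit 78) (nat_lit 380) (nat_lit 0) (XT.lf (nat_lit 0) (nat_lit 44014300853) (nat_lit 304) (nat_lit 12409136145) (nat_lit 380) (nat_lit 1114589859) (nat_lit 70) (nat_lit 5) (nat_lit 74) (nat_lit 5) (nat_lit 75) (nat_lit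 5) (nat_lit 370) (nat_lit 319) (nat_lit 91)) (XT.nd (nat_lit 78) (nat_lit 0) (nat_lit 0) (XT.lf (nat_lit 0) (nat_lit 6629230410) (nat_lit 380) (nat_lit 47303835984) (nat_lit 76) (nat_lit 4785946659) (nat_lit 65) (nat_lit 5) (nat_lit 70) (nat_lit 5) (nat_lit 66) (nat_lit 5) (nat_lit 371) (nat_lit 319) (nat_lit 90)) (XT.lf (nat_lit 0) (nat_lit 14842503259) (nat_lit 380) (nat_lit 22688834637) (nat_lit 76) (nat_lit 22395975288) (nat_lit 65) (nat_lit 5) (nat_lit 70) (nat_lit 5) (nat_lit 66) (nat_lit 5) (nat_lit 372) (nat_lit 319) (nat_lit 89))))) (XT.nd (nat_lit 36582) (nat_lit 0) (nat_lit 8512) (XT.nd (nat_lit 78) (nat_lit 0) (nat_lit 0) (XT.lf (nat_lit 0) (nat_lit 2715942070) (nat_lit 304) (nat_lit 20611137735) (nat_lit 380) (nat_lit 37844036918) (nat_lit 61) (nat_lit 5) (nat_lit 65) (nat_lit 5) (nat_lit 66) (nat_lit 5) (nat_lit 373) (nat_lit 319) (nat_lit 88)) (XT.nd (nat_lit 36426) (nat_lit 0) (nat_lit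 8512) (XT.lf (nat_lit 0) (nat_lit 29346304850) (nat_lit 304) (nat_lit 2947818841) (nat_lit 380) (nat_lit 30151274301) (nat_lit 61) (nat_lit 5) (nat_lit 65) (nat_lit 5) (nat_lit 66) (nat_lit 5) (nat_lit 374) (nat_lit 319) (nat_lit 87)) (XT.lf (nat_lit 0) (nat_lit 10675155470) (nat_lit 1140) (nat_lit 728137031) (nat_lit 1140) (nat_lit 728137031) (nat_lit 173) (nat_lit 3) (nat_lit 188) (nat_lit 3) (nat_lit 188) (nat_lit 5) (nat_lit 320) (nat_lit 320) (nat_lit 140)))) (XT.nd (nat_lit 78) (nat_lit 0) (nat_lit 0) (XT.lf (nat_lit 76) (nat_lit 9139595838) (nat_lit 0) (nat_lit 12721005083) (nat_lit 1140) (nat_lit 2760295480) (nat_lit 174) (nat_lit 5) (nat_lit 173) (nat_lit 3) (nat_lit 188) (nat_lit 5) (nat_lit 321) (nat_lit 320) (nat_lit 139)) (XT.nd (nat_lit 78) (nat_lit 0) (nat_lit 76) (XT.lf (nat_lit 76) (nat_lit 20081095369) (nat_lit 0) (nat_lit 2315801776) (nat_lit 1140) (nat_lit 2592464768) (nat_lit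 174) (nat_lit 5) (nat_lit 173) (nat_lit 3) (nat_lit 188) (nat_lit 5) (nat_lit 322) (nat_lit 320) (nat_lit 138)) (XT.lf (nat_lit 76) (nat_lit 6016419764) (nat_lit 0) (nat_lit 17067583496) (nat_lit 1140) (nat_lit 2280844250) (nat_lit 175) (nat_lit 5) (nat_lit 174) (nat_lit 5) (nat_lit 189) (nat_lit 5) (nat_lit 323) (nat_lit 320) (nat_lit 137))))))) (XT.nd (nat_lit 936) (nat_lit 2964) (nat_lit 0) (XT.nd (nat_lit 468) (nat_lit 0) (nat_lit 76) (XT.nd (nat_lit 234) (nat_lit 988) (nat_lit 0) (XT.nd (nat_lit 78) (nat_lit 0) (nat_lit 76) (XT.lf (nat_lit 76) (nat_lit 17343917794) (nat_lit 0) (nat_lit 6516291227) (nat_lit 1140) (nat_lit 1889341582) (nat_lit 175) (nat_lit 5) (nat_lit 174) (nat_lit 5) (nat_lit 189) (nat_lit 5) (nat_lit 324) (nat_lit 320) (nat_lit 136)) (XT.nd (nat_lit 78) (nat_lit 0) (nat_lit 0) (XT.lf (nat_lit 76) (nat_lit 2877539285) (nat_lit 0) (nat_lit 21847995936) (nat_lit 1140) (nat_lit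 1418291842) (nat_lit 176) (nat_lit 5) (nat_lit 175) (nat_lit 5) (nat_lit 190) (nat_lit 5) (nat_lit 325) (nat_lit 320) (nat_lit 135)) (XT.lf (nat_lit 76) (nat_lit 14603505673) (nat_lit 0) (nat_lit 11158510367) (nat_lit 1140) (nat_lit 783567023) (nat_lit 176) (nat_lit 5) (nat_lit 175) (nat_lit 5) (nat_lit 190) (nat_lit 5) (nat_lit 326) (nat_lit 320) (nat_lit 134)))) (XT.nd (nat_lit 78) (nat_lit 1064) (nat_lit 0) (XT.lf (nat_lit 76) (nat_lit 26679108977) (nat_lit 0) (nat_lit 147015526) (nat_lit 1140) (nat_lit 133378128) (nat_lit 176) (nat_lit 5) (nat_lit 175) (nat_lit 5) (nat_lit 190) (nat_lit 5) (nat_lit 327) (nat_lit 320) (nat_lit 133)) (XT.nd (nat_lit 78) (nat_lit 0) (nat_lit 0) (XT.lf (nat_lit 0) (nat_lit 746197394) (nat_lit 1140) (nat_lit 15533999721) (nat_lit 1216) (nat_lit 11098884105) (nat_lit 161) (nat_lit 5) (nat_lit 176) (nat_lit 5) (nat_lit 177) (nat_lit 5) (nat_lit 328) (nat_lit 320)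 (nat_lit 132)) (XT.lf (nat_lit 0) (nat_lit 1650478960) (nat_lit 1140) (nat_lit 3476148154) (nat_lit 1216) (nat_lit 22684556749) (nat_lit 161) (nat_lit 5) (nat_lit 176) (nat_lit 5) (nat_lit 177) (nat_lit 5) (nat_lit 329) (nat_lit 320) (nat_lit 131))))) (XT.nd (nat_lit 234) (nat_lit 0) (nat_lit 76) (XT.nd (nat_lit 78) (nat_lit 0) (nat_lit 0) (XT.lf (nat_lit 0) (nat_lit 2728358346) (nat_lit 1140) (nat_lit 19196548887) (nat_lit 1216) (nat_lit 6326954388) (nat_lit 162) (nat_lit 5) (nat_lit 177) (nat_lit 5) (nat_lit 178) (nat_lit 5) (nat_lit 330) (nat_lit 320) (nat_lit 130)) (XT.nd (nat_lit 78) (nat_lit 0) (nat_lit 76) (XT.lf (nat_lit 0) (nat_lit 3921646084) (nat_lit 1140) (nat_lit 6724111016) (nat_lit 1216) (nat_lit 18057516390) (nat_lit 162) (nat_lit 5) (nat_lit 177) (nat_lit 5) (nat_lit 178) (nat_lit 5) (nat_lit 331) (nat_lit 320) (nat_lit 129)) (XT.lf (nat_lit 0) (nat_lit 5217633510) (nat_lit 1140)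 (nat_lit 22934369310) (nat_lit 1216) (nat_lit 1014223630) (nat_lit 163) (nat_lit 5) (nat_lit 178) (nat_lit 5) (nat_lit 179) (nat_lit 5) (nat_lit 332) (nat_lit 320) (nat_lit 128)))) (XT.nd (nat_lit 78) (nat_lit 0) (nat_lit 0) (XT.lf (nat_lit 0) (nat_lit 6723506828) (nat_lit 1140) (nat_lit 10035052688) (nat_lit 1216) (nat_lit 12879383890) (nat_lit 163) (nat_lit 5) (nat_lit 178) (nat_lit 5) (nat_lit 179) (nat_lit 5) (nat_lit 333) (nat_lit 320) (nat_lit 127)) (XT.nd (nat_lit 78) (nat_lit 0) (nat_lit 76) (XT.lf (nat_lit 76) (nat_lit 3313684070) (nat_lit 0) (nat_lit 4989842051) (nat_lit 1216) (nat_lit 21819422093) (nat_lit 164) (nat_lit 5) (nat_lit 163) (nat_lit 5) (nat_lit 179) (nat_lit 5) (nat_lit 334) (nat_lit 320) (nat_lit 126)) (XT.lf (nat_lit 0) (nat_lit 10099025628) (nat_lit 1140) (nat_lit 13422726670) (nat_lit 1216) (nat_lit 7095713755) (nat_lit 164) (nat_lit 5) (nat_lit 179) (nat_lit 5) (nat_lit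 180) (nat_lit 5) (nat_lit 335) (nat_lit 320) (nat_lit 125)))))) (XT.nd (nat_lit 468) (nat_lit 1672) (nat_lit 0) (XT.nd (nat_lit 234) (nat_lit 1520) (nat_lit 0) (XT.nd (nat_lit 78) (nat_lit 0) (nat_lit 76) (XT.lf (nat_lit 76) (nat_lit 320018768) (nat_lit 0) (nat_lit 11678119348) (nat_lit 1216) (nat_lit 19127193992) (nat_lit 165) (nat_lit 5) (nat_lit 164) (nat_lit 5) (nat_lit 180) (nat_lit 5) (nat_lit 336) (nat_lit 320) (nat_lit 124)) (XT.nd (nat_lit 78) (nat_lit 0) (nat_lit 0) (XT.lf (nat_lit 0) (nat_lit 14093445956) (nat_lit 1140) (nat_lit 16902813368) (nat_lit 76) (nat_lit 648003137) (nat_lit 165) (nat_lit 5) (nat_lit 180) (nat_lit 5) (nat_lit 166) (nat_lit 5) (nat_lit 337) (nat_lit 320) (nat_lit 123)) (XT.lf (nat_lit 0) (nat_lit 16364646010) (nat_lit 1140) (nat_lit 2701092805) (nat_lit 76) (nat_lit 13109635747) (nat_lit 165) (nat_lit 5) (nat_lit 180) (nat_lit 5) (nat_lit 166) (nat_lit 5) (nat_lit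 338) (nat_lit 320) (nat_lit 122)))) (XT.nd (nat_lit 78) (nat_lit 532) (nat_lit 0) (XT.lf (nat_lit 0) (nat_lit 12161836072) (nat_lit 1064) (nat_lit 6656536532) (nat_lit 1140) (nat_lit 13900620394) (nat_lit 151) (nat_lit 5) (nat_lit 165) (nat_lit 5) (nat_lit 166) (nat_lit 5) (nat_lit 339) (nat_lit 320) (nat_lit 121)) (XT.nd (nat_lit 78) (nat_lit 532) (nat_lit 0) (XT.lf (nat_lit 0) (nat_lit 21429672787) (nat_lit 1140) (nat_lit 5813450741) (nat_lit 76) (nat_lit 6033282157) (nat_lit 151) (nat_lit 5) (nat_lit 166) (nat_lit 5) (nat_lit 152) (nat_lit 5) (nat_lit 340) (nat_lit 320) (nat_lit 120)) (XT.lf (nat_lit 0) (nat_lit 9489678074) (nat_lit 532) (nat_lit 14784371767) (nat_lit 608) (nat_lit 9571853194) (nat_lit 144) (nat_lit 5) (nat_lit 151) (nat_lit 5) (nat_lit 152) (nat_lit 5) (nat_lit 341) (nat_lit 320) (nat_lit 119))))) (XT.nd (nat_lit 234) (nat_lit 1140) (nat_lit 0) (XT.nd (nat_lit 78) (nat_lit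 532) (nat_lit 0) (XT.lf (nat_lit 0) (nat_lit 25368931922) (nat_lit 532) (nat_lit 1891190736) (nat_lit 608) (nat_lit 7170676003) (nat_lit 144) (nat_lit 5) (nat_lit 151) (nat_lit 5) (nat_lit 152) (nat_lit 5) (nat_lit 342) (nat_lit 320) (nat_lit 118)) (XT.nd (nat_lit 78) (nat_lit 0) (nat_lit 0) (XT.lf (nat_lit 0) (nat_lit 6710644318) (nat_lit 532) (nat_lit 23796846166) (nat_lit 608) (nat_lit 4520603454) (nat_lit 137) (nat_lit 5) (nat_lit 144) (nat_lit 5) (nat_lit 145) (nat_lit 5) (nat_lit 343) (nat_lit 320) (nat_lit 117)) (XT.lf (nat_lit 0) (nat_lit 23120863086) (nat_lit 532) (nat_lit 10839240104) (nat_lit 608) (nat_lit 1679974211) (nat_lit 137) (nat_lit 5) (nat_lit 144) (nat_lit 5) (nat_lit 145) (nat_lit 5) (nat_lit 344) (nat_lit 320) (nat_lit 116)))) (XT.nd (nat_lit 78) (nat_lit 532) (nat_lit 0) (XT.lf (nat_lit 0) (nat_lit 1280615203) (nat_lit 608) (nat_lit 32480324687) (nat_lit 76) (nat_lit 2507353422)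 (nat_lit 129) (nat_lit 5) (nat_lit 137) (nat_lit 5) (nat_lit 130) (nat_lit 5) (nat_lit 345) (nat_lit 320) (nat_lit 115)) (XT.nd (nat_lit 78) (nat_lit 532) (nat_lit 0) (XT.lf (nat_lit 0) (nat_lit 4529106071) (nat_lit 608) (nat_lit 16197931344) (nat_lit 76) (nat_lit 16180837497) (nat_lit 129) (nat_lit 5) (nat_lit 137) (nat_lit 5) (nat_lit 130) (nat_lit 5) (nat_lit 346) (nat_lit 320) (nat_lit 114)) (XT.lf (nat_lit 0) (nat_lit 582194899) (nat_lit 532) (nat_lit 7296374717) (nat_lit 608) (nat_lit 29687972397) (nat_lit 122) (nat_lit 5) (nat_lit 129) (nat_lit 5) (nat_lit 130) (nat_lit 5) (nat_lit 347) (nat_lit 320) (nat_lit 113))))))))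
noncomputable def xc236 : XT := (XT.nd (nat_lit 1794) (nat_lit 380) (nat_lit 0) (XT.nd (nat_lit 858) (nat_lit 1748) (nat_lit 0) (XT.nd (nat_lit 390) (nat_lit 1292) (nat_lit 0) (XT.nd (nat_lit 156) (nat_lit 912) (nat_lit 0) (XT.nd (nat_lit 78) (nat_lit 0) (nat_lit 0) (XT.lf (nat_lit 0) (nat_lit 11554505230) (nat_lit 608) (nat_lit 20108897850) (nat_lit 76) (nat_lit 6574789891) (nat_lit 122) (nat_lit 5) (nat_lit 130) (nat_lit 5) (nat_lit 123) (nat_lit 5) (nat_lit 348) (nat_lit 320) (nat_lit 112)) (XT.lf (nat_lit 0) (nat_lit 15410981309) (nat_lit 608) (nat_lit 2801507281) (nat_lit 76) (nat_lit 20715400382) (nat_lit 122) (nat_lit 5) (nat_lit 130) (nat_lit 5) (nat_lit 123) (nat_lit 5) (nat_lit 349) (nat_lit 320) (nat_lit 111))) (XT.nd (nat_lit 78) (nat_lit 456) (nat_lit 0) (XT.lf (nat_lit 0) (nat_lit 15322073616) (nat_lit 456) (nat_lit 4206441902) (nat_lit 532) (nat_lit 20105402708) (nat_lit 116) (nat_lit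 5) (nat_lit 122) (nat_lit 5) (nat_lit 123) (nat_lit 5) (nat_lit 350) (nat_lit 320) (nat_lit 110)) (XT.nd (nat_lit 78) (nat_lit 456) (nat_lit 0) (XT.lf (nat_lit 0) (nat_lit 23894498738) (nat_lit 532) (nat_lit 6414067548) (nat_lit 76) (nat_lit 10048817575) (nat_lit 116) (nat_lit 5) (nat_lit 123) (nat_lit 5) (nat_lit 117) (nat_lit 5) (nat_lit 351) (nat_lit 320) (nat_lit 109)) (XT.lf (nat_lit 0) (nat_lit 12215361518) (nat_lit 456) (nat_lit 16333338645) (nat_lit 532) (nat_lit 12549139239) (nat_lit 110) (nat_lit 5) (nat_lit 116) (nat_lit 5) (nat_lit 117) (nat_lit 5) (nat_lit 352) (nat_lit 320) (nat_lit 108))))) (XT.nd (nat_lit 234) (nat_lit 836) (nat_lit 0) (XT.nd (nat_lit 78) (nat_lit 456) (nat_lit 0) (XT.lf (nat_lit 0) (nat_lit 31533176083) (nat_lit 456) (nat_lit 1872324591) (nat_lit 532) (nat_lit 8453121753) (nat_lit 110) (nat_lit 5) (nat_lit 116) (nat_lit 5) (nat_lit 117) (nat_lit 5) (nat_lit 353)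 (nat_lit 320) (nat_lit 107)) (XT.nd (nat_lit 78) (nat_lit 76) (nat_lit 0) (XT.lf (nat_lit 0) (nat_lit 8833514035) (nat_lit 380) (nat_lit 29782838888) (nat_lit 456) (nat_lit 4019628509) (nat_lit 105) (nat_lit 5) (nat_lit 110) (nat_lit 5) (nat_lit 111) (nat_lit 5) (nat_lit 354) (nat_lit 320) (nat_lit 106)) (XT.lf (nat_lit 0) (nat_lit 658301563) (nat_lit 456) (nat_lit 14681448750) (nat_lit 76) (nat_lit 28093092841) (nat_lit 104) (nat_lit 5) (nat_lit 110) (nat_lit 5) (nat_lit 105) (nat_lit 5) (nat_lit 355) (nat_lit 320) (nat_lit 105)))) (XT.nd (nat_lit 78) (nat_lit 380) (nat_lit 0) (XT.lf (nat_lit 0) (nat_lit 5070408909) (nat_lit 456) (nat_lit 372426891) (nat_lit 532) (nat_lit 38808171945) (nat_lit 98) (nat_lit 5) (nat_lit 104) (nat_lit 5) (nat_lit 105) (nat_lit 5) (nat_lit 356) (nat_lit 320) (nat_lit 104)) (XT.nd (nat_lit 78) (nat_lit 380) (nat_lit 0) (XT.lf (nat_lit 0) (nat_lit 10663584107) (nat_lit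 532) (nat_lit 19521537090) (nat_lit 76) (nat_lit 14899818333) (nat_lit 98) (nat_lit 5) (nat_lit 105) (nat_lit 5) (nat_lit 99) (nat_lit 5) (nat_lit 357) (nat_lit 320) (nat_lit 103)) (XT.lf (nat_lit 0) (nat_lit 736063779) (nat_lit 380) (nat_lit 15314047187) (nat_lit 456) (nat_lit 29893506139) (nat_lit 93) (nat_lit 5) (nat_lit 98) (nat_lit 5) (nat_lit 99) (nat_lit 5) (nat_lit 358) (nat_lit 320) (nat_lit 102)))))) (XT.nd (nat_lit 468) (nat_lit 988) (nat_lit 0) (XT.nd (nat_lit 234) (nat_lit 380) (nat_lit 0) (XT.nd (nat_lit 78) (nat_lit 380) (nat_lit 0) (XT.lf (nat_lit 0) (nat_lit 21795763870) (nat_lit 456) (nat_lit 24824494897) (nat_lit 76) (nat_lit 201872779) (nat_lit 93) (nat_lit 5) (nat_lit 99) (nat_lit 5) (nat_lit 94) (nat_lit 5) (nat_lit 359) (nat_lit 320) (nat_lit 101)) (XT.nd (nat_lit 78) (nat_lit 380) (nat_lit 0) (XT.lf (nat_lit 0) (nat_lit 27863875493) (nat_lit 456) (nat_lit 3983449211) (nat_lit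 76) (nat_lit 15875176418) (nat_lit 93) (nat_lit 5) (nat_lit 99) (nat_lit 5) (nat_lit 94) (nat_lit 5) (nat_lit 360) (nat_lit 320) (nat_lit 100)) (XT.lf (nat_lit 0) (nat_lit 17828908569) (nat_lit 380) (nat_lit 16455013886) (nat_lit 456) (nat_lit 14360864876) (nat_lit 88) (nat_lit 5) (nat_lit 93) (nat_lit 5) (nat_lit 94) (nat_lit 5) (nat_lit 361) (nat_lit 320) (nat_lit 99)))) (XT.nd (nat_lit 78) (nat_lit 380) (nat_lit 0) (XT.lf (nat_lit 0) (nat_lit 40375486283) (nat_lit 380) (nat_lit 559845217) (nat_lit 456) (nat_lit 8658250045) (nat_lit 88) (nat_lit 5) (nat_lit 93) (nat_lit 5) (nat_lit 94) (nat_lit 5) (nat_lit 362) (nat_lit 320) (nat_lit 98)) (XT.nd (nat_lit 78) (nat_lit 76) (nat_lit 0) (XT.lf (nat_lit 0) (nat_lit 13130043269) (nat_lit 304) (nat_lit 34933024985) (nat_lit 380) (nat_lit 2499469943) (nat_lit 84) (nat_lit 5) (nat_lit 88) (nat_lit 5) (nat_lit 89) (nat_lit 5) (nat_lit 363) (nat_lit 320)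 (nat_lit 97)) (XT.lf (nat_lit 0) (nat_lit 3867194742) (nat_lit 380) (nat_lit 15265408575) (nat_lit 76) (nat_lit 32423909746) (nat_lit 83) (nat_lit 5) (nat_lit 88) (nat_lit 5) (nat_lit 84) (nat_lit 5) (nat_lit 364) (nat_lit 320) (nat_lit 96))))) (XT.nd (nat_lit 234) (nat_lit 304) (nat_lit 0) (XT.nd (nat_lit 78) (nat_lit 304) (nat_lit 0) (XT.lf (nat_lit 0) (nat_lit 7690251134) (nat_lit 380) (nat_lit 2756919578) (nat_lit 456) (nat_lit 42130219588) (nat_lit 78) (nat_lit 5) (nat_lit 83) (nat_lit 5) (nat_lit 84) (nat_lit 5) (nat_lit 365) (nat_lit 320) (nat_lit 95)) (XT.nd (nat_lit 78) (nat_lit 304) (nat_lit 0) (XT.lf (nat_lit 0) (nat_lit 17514501614) (nat_lit 456) (nat_lit 22115701365) (nat_lit 76) (nat_lit 13989994136) (nat_lit 78) (nat_lit 5) (nat_lit 84) (nat_lit 5) (nat_lit 79) (nat_lit 5) (nat_lit 366) (nat_lit 320) (nat_lit 94)) (XT.lf (nat_lit 0) (nat_lit 1335925799) (nat_lit 304) (nat_lit 23496748523)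 (nat_lit 380) (nat_lit 29860451033) (nat_lit 74) (nat_lit 5) (nat_lit 78) (nat_lit 5) (nat_lit 79) (nat_lit 5) (nat_lit 367) (nat_lit 320) (nat_lit 93)))) (XT.nd (nat_lit 78) (nat_lit 304) (nat_lit 0) (XT.lf (nat_lit 0) (nat_lit 25942742640) (nat_lit 304) (nat_lit 6649680603) (nat_lit 380) (nat_lit 23199159088) (nat_lit 74) (nat_lit 5) (nat_lit 78) (nat_lit 5) (nat_lit 79) (nat_lit 5) (nat_lit 368) (nat_lit 320) (nat_lit 92)) (XT.nd (nat_lit 78) (nat_lit 304) (nat_lit 0) (XT.lf (nat_lit 0) (nat_lit 40686586119) (nat_lit 380) (nat_lit 5739806023) (nat_lit 76) (nat_lit 10493553997) (nat_lit 74) (nat_lit 5) (nat_lit 79) (nat_lit 5) (nat_lit 75) (nat_lit 5) (nat_lit 369) (nat_lit 320) (nat_lit 91)) (XT.lf (nat_lit 0) (nat_lit 19403649561) (nat_lit 304) (nat_lit 29871058833) (nat_lit 380) (nat_lit 8799920147) (nat_lit 70) (nat_lit 5) (nat_lit 74) (nat_lit 5) (nat_lit 75) (nat_lit 5) (nat_lit 370) (nat_lit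 320) (nat_lit 90))))))) (XT.nd (nat_lit 37440) (nat_lit 0) (nat_lit 6536) (XT.nd (nat_lit 36972) (nat_lit 0) (nat_lit 7220) (XT.nd (nat_lit 36738) (nat_lit 0) (nat_lit 8208) (XT.nd (nat_lit 78) (nat_lit 380) (nat_lit 0) (XT.lf (nat_lit 0) (nat_lit 45417439581) (nat_lit 304) (nat_lit 12759791861) (nat_lit 380) (nat_lit 1085018927) (nat_lit 70) (nat_lit 5) (nat_lit 74) (nat_lit 5) (nat_lit 75) (nat_lit 5) (nat_lit 371) (nat_lit 320) (nat_lit 89)) (XT.nd (nat_lit 78) (nat_lit 0) (nat_lit 0) (XT.lf (nat_lit 0) (nat_lit 6889102276) (nat_lit 380) (nat_lit 48638065898) (nat_lit 76) (nat_lit 4951505723) (nat_lit 65) (nat_lit 5) (nat_lit 70) (nat_lit 5) (nat_lit 66) (nat_lit 5) (nat_lit 372) (nat_lit 320) (nat_lit 88)) (XT.lf (nat_lit 0) (nat_lit 15346996758) (nat_lit 380) (nat_lit 23287086893) (nat_lit 76) (nat_lit 23089194998) (nat_lit 65) (nat_lit 5) (nat_lit 70) (nat_lit 5) (nat_lit 66) (nat_lit 5)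 (nat_lit 373) (nat_lit 320) (nat_lit 87)))) (XT.nd (nat_lit 78) (nat_lit 0) (nat_lit 0) (XT.lf (nat_lit 0) (nat_lit 11096607850) (nat_lit 1140) (nat_lit 697763056) (nat_lit 1140) (nat_lit 697763056) (nat_lit 173) (nat_lit 3) (nat_lit 188) (nat_lit 3) (nat_lit 188) (nat_lit 5) (nat_lit 321) (nat_lit 321) (nat_lit 138)) (XT.nd (nat_lit 78) (nat_lit 0) (nat_lit 0) (XT.lf (nat_lit 76) (nat_lit 9517196000) (nat_lit 0) (nat_lit 13196717431) (nat_lit 1140) (nat_lit 2639291780) (nat_lit 174) (nat_lit 5) (nat_lit 173) (nat_lit 3) (nat_lit 188) (nat_lit 5) (nat_lit 322) (nat_lit 321) (nat_lit 137)) (XT.lf (nat_lit 76) (nat_lit 20783928508) (nat_lit 0) (nat_lit 2476617767) (nat_lit 1140) (nat_lit 2472362436) (nat_lit 174) (nat_lit 5) (nat_lit 173) (nat_lit 3) (nat_lit 188) (nat_lit 5) (nat_lit 323) (nat_lit 321) (nat_lit 136))))) (XT.nd (nat_lit 234) (nat_lit 1064) (nat_lit 0) (XT.nd (nat_lit 78) (nat_lit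 0) (nat_lit 0) (XT.lf (nat_lit 76) (nat_lit 6303271667) (nat_lit 0) (nat_lit 17659579112) (nat_lit 1140) (nat_lit 2156981660) (nat_lit 175) (nat_lit 5) (nat_lit 174) (nat_lit 5) (nat_lit 189) (nat_lit 5) (nat_lit 324) (nat_lit 321) (nat_lit 135)) (XT.nd (nat_lit 78) (nat_lit 0) (nat_lit 76) (XT.lf (nat_lit 76) (nat_lit 17967496794) (nat_lit 0) (nat_lit 6789418906) (nat_lit 1140) (nat_lit 1759334532) (nat_lit 175) (nat_lit 5) (nat_lit 174) (nat_lit 5) (nat_lit 189) (nat_lit 5) (nat_lit 325) (nat_lit 321) (nat_lit 134)) (XT.lf (nat_lit 76) (nat_lit 3072583714) (nat_lit 0) (nat_lit 22570669518) (nat_lit 1140) (nat_lit 1279260689) (nat_lit 176) (nat_lit 5) (nat_lit 175) (nat_lit 5) (nat_lit 190) (nat_lit 5) (nat_lit 326) (nat_lit 321) (nat_lit 133)))) (XT.nd (nat_lit 78) (nat_lit 1140) (nat_lit 0) (XT.lf (nat_lit 76) (nat_lit 15147162543) (nat_lit 0) (nat_lit 11558541120) (nat_lit 1140) (nat_lit 630782860)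 (nat_lit 176) (nat_lit 5) (nat_lit 175) (nat_lit 5) (nat_lit 190) (nat_lit 5) (nat_lit 327) (nat_lit 321) (nat_lit 132)) (XT.nd (nat_lit 78) (nat_lit 0) (nat_lit 76) (XT.lf (nat_lit 0) (nat_lit 33117895) (nat_lit 1140) (nat_lit 181347885) (nat_lit 1216) (nat_lit 27548507303) (nat_lit 160) (nat_lit 5) (nat_lit 175) (nat_lit 5) (nat_lit 176) (nat_lit 5) (nat_lit 328) (nat_lit 321) (nat_lit 131)) (XT.lf (nat_lit 0) (nat_lit 931956674) (nat_lit 1140) (nat_lit 15889129034) (nat_lit 1216) (nat_lit 11374156314) (nat_lit 161) (nat_lit 5) (nat_lit 176) (nat_lit 5) (nat_lit 177) (nat_lit 5) (nat_lit 329) (nat_lit 321) (nat_lit 130)))))) (XT.nd (nat_lit 468) (nat_lit 760) (nat_lit 0) (XT.nd (nat_lit 234) (nat_lit 0) (nat_lit 152) (XT.nd (nat_lit 78) (nat_lit 0) (nat_lit 76) (XT.lf (nat_lit 0) (nat_lit 1858608240) (nat_lit 1140) (nat_lit 3472771746) (nat_lit 1216) (nat_lit 23309079555) (nat_lit 161) (nat_lit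 5) (nat_lit 176) (nat_lit 5) (nat_lit 177) (nat_lit 5) (nat_lit 330) (nat_lit 321) (nat_lit 129)) (XT.nd (nat_lit 78) (nat_lit 0) (nat_lit 0) (XT.lf (nat_lit 0) (nat_lit 2964763522) (nat_lit 1140) (nat_lit 19660431402) (nat_lit 1216) (nat_lit 6469293300) (nat_lit 162) (nat_lit 5) (nat_lit 177) (nat_lit 5) (nat_lit 178) (nat_lit 5) (nat_lit 331) (nat_lit 321) (nat_lit 128)) (XT.lf (nat_lit 0) (nat_lit 4189348307) (nat_lit 1140) (nat_lit 6817082937) (nat_lit 1216) (nat_lit 18553154775) (nat_lit 162) (nat_lit 5) (nat_lit 177) (nat_lit 5) (nat_lit 178) (nat_lit 5) (nat_lit 332) (nat_lit 321) (nat_lit 127)))) (XT.nd (nat_lit 78) (nat_lit 0) (nat_lit 0) (XT.lf (nat_lit 0) (nat_lit 5520504819) (nat_lit 1140) (nat_lit 23509662626) (nat_lit 1216) (nat_lit 1006379712) (nat_lit 163) (nat_lit 5) (nat_lit 178) (nat_lit 5) (nat_lit 179) (nat_lit 5) (nat_lit 333) (nat_lit 321) (nat_lit 126)) (XT.nd (nat_lit 78)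 (nat_lit 0) (nat_lit 0) (XT.lf (nat_lit 0) (nat_lit 7067291940) (nat_lit 1140) (nat_lit 10226650131) (nat_lit 1216) (nat_lit 13228609459) (nat_lit 163) (nat_lit 5) (nat_lit 178) (nat_lit 5) (nat_lit 179) (nat_lit 5) (nat_lit 334) (nat_lit 321) (nat_lit 125)) (XT.lf (nat_lit 76) (nat_lit 3521475651) (nat_lit 0) (nat_lit 5170139736) (nat_lit 1216) (nat_lit 22330591786) (nat_lit 164) (nat_lit 5) (nat_lit 163) (nat_lit 5) (nat_lit 179) (nat_lit 5) (nat_lit 335) (nat_lit 321) (nat_lit 124))))) (XT.nd (nat_lit 234) (nat_lit 988) (nat_lit 0) (XT.nd (nat_lit 78) (nat_lit 0) (nat_lit 0) (XT.lf (nat_lit 0) (nat_lit 10536646215) (nat_lit 1140) (nat_lit 13715598067) (nat_lit 1216) (nat_lit 7279453847) (nat_lit 164) (nat_lit 5) (nat_lit 179) (nat_lit 5) (nat_lit 180) (nat_lit 5) (nat_lit 336) (nat_lit 321) (nat_lit 123)) (XT.nd (nat_lit 78) (nat_lit 0) (nat_lit 76) (XT.lf (nat_lit 76) (nat_lit 438353162) (nat_lit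 0) (nat_lit 12051502293) (nat_lit 1216) (nat_lit 19565038363) (nat_lit 165) (nat_lit 5) (nat_lit 164) (nat_lit 5) (nat_lit 180) (nat_lit 5) (nat_lit 337) (nat_lit 321) (nat_lit 122)) (XT.lf (nat_lit 0) (nat_lit 14643969457) (nat_lit 1140) (nat_lit 17300039950) (nat_lit 76) (nat_lit 645511402) (nat_lit 165) (nat_lit 5) (nat_lit 180) (nat_lit 5) (nat_lit 166) (nat_lit 5) (nat_lit 338) (nat_lit 321) (nat_lit 121)))) (XT.nd (nat_lit 78) (nat_lit 1064) (nat_lit 0) (XT.lf (nat_lit 0) (nat_lit 16979585509) (nat_lit 1140) (nat_lit 2675467512) (nat_lit 76) (nat_lit 13481631782) (nat_lit 165) (nat_lit 5) (nat_lit 180) (nat_lit 5) (nat_lit 166) (nat_lit 5) (nat_lit 339) (nat_lit 321) (nat_lit 120)) (XT.nd (nat_lit 78) (nat_lit 0) (nat_lit 0) (XT.lf (nat_lit 0) (nat_lit 12632303564) (nat_lit 1064) (nat_lit 6872023895) (nat_lit 1140) (nat_lit 14192368955) (nat_lit 151) (nat_lit 5) (nat_lit 165) (nat_lit 5)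 (nat_lit 166) (nat_lit 5) (nat_lit 340) (nat_lit 321) (nat_lit 119)) (XT.lf (nat_lit 0) (nat_lit 22190283243) (nat_lit 1140) (nat_lit 5881416808) (nat_lit 76) (nat_lit 6199248464) (nat_lit 151) (nat_lit 5) (nat_lit 166) (nat_lit 5) (nat_lit 152) (nat_lit 5) (nat_lit 341) (nat_lit 321) (nat_lit 118))))))))
noncomputable def xc237 : XT := (XT.nd (nat_lit 1794) (nat_lit 1444) (nat_lit 0) (XT.nd (nat_lit 858) (nat_lit 2432) (nat_lit 0) (XT.nd (nat_lit 390) (nat_lit 988) (nat_lit 0) (XT.nd (nat_lit 156) (nat_lit 1140) (nat_lit 0) (XT.nd (nat_lit 78) (nat_lit 0) (nat_lit 0) (XT.lf (nat_lit 0) (nat_lit 9879762367) (nat_lit 532) (nat_lit 15237813607) (nat_lit 608) (nat_lit 9740033622) (nat_lit 144) (nat_lit 5) (nat_lit 151) (nat_lit 5) (nat_lit 152) (nat_lit 5) (nat_lit 342) (nat_lit 321) (nat_lit 117)) (XT.lf (nat_lit 0) (nat_lit 26232324104) (nat_lit 532) (nat_lit 1957548485) (nat_lit 608) (nat_lit 7270286412)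 (nat_lit 144) (nat_lit 5) (nat_lit 151) (nat_lit 5) (nat_lit 152) (nat_lit 5) (nat_lit 343) (nat_lit 321) (nat_lit 116))) (XT.nd (nat_lit 78) (nat_lit 608) (nat_lit 0) (XT.lf (nat_lit 0) (nat_lit 7016904962) (nat_lit 532) (nat_lit 24515414878) (nat_lit 608) (nat_lit 4543129521) (nat_lit 137) (nat_lit 5) (nat_lit 144) (nat_lit 5) (nat_lit 145) (nat_lit 5) (nat_lit 344) (nat_lit 321) (nat_lit 115)) (XT.nd (nat_lit 78) (nat_lit 608) (nat_lit 0) (XT.lf (nat_lit 0) (nat_lit 23916373750) (nat_lit 532) (nat_lit 11168944809) (nat_lit 608) (nat_lit 1620575344) (nat_lit 137) (nat_lit 5) (nat_lit 144) (nat_lit 5) (nat_lit 145) (nat_lit 5) (nat_lit 345) (nat_lit 321) (nat_lit 114)) (XT.lf (nat_lit 0) (nat_lit 1424523270) (nat_lit 608) (nat_lit 33348171009) (nat_lit 76) (nat_lit 2580300797) (nat_lit 129) (nat_lit 5) (nat_lit 137) (nat_lit 5) (nat_lit 130) (nat_lit 5) (nat_lit 346) (nat_lit 321) (nat_lit 113)))))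 (XT.nd (nat_lit 234) (nat_lit 456) (nat_lit 0) (XT.nd (nat_lit 78) (nat_lit 532) (nat_lit 0) (XT.lf (nat_lit 0) (nat_lit 4767396351) (nat_lit 608) (nat_lit 16580409655) (nat_lit 76) (nat_lit 16664055604) (nat_lit 129) (nat_lit 5) (nat_lit 137) (nat_lit 5) (nat_lit 130) (nat_lit 5) (nat_lit 347) (nat_lit 321) (nat_lit 112)) (XT.nd (nat_lit 78) (nat_lit 0) (nat_lit 0) (XT.lf (nat_lit 0) (nat_lit 702106065) (nat_lit 532) (nat_lit 7513239482) (nat_lit 608) (nat_lit 30475008282) (nat_lit 122) (nat_lit 5) (nat_lit 129) (nat_lit 5) (nat_lit 130) (nat_lit 5) (nat_lit 348) (nat_lit 321) (nat_lit 111)) (XT.lf (nat_lit 0) (nat_lit 11998653321) (nat_lit 608) (nat_lit 20609630529) (nat_lit 76) (nat_lit 6773962649) (nat_lit 122) (nat_lit 5) (nat_lit 130) (nat_lit 5) (nat_lit 123) (nat_lit 5) (nat_lit 349) (nat_lit 321) (nat_lit 110)))) (XT.nd (nat_lit 78) (nat_lit 456) (nat_lit 0) (XT.lf (nat_lit 0) (nat_lit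 15967983500) (nat_lit 608) (nat_lit 2786004678) (nat_lit 76) (nat_lit 21338735268) (nat_lit 122) (nat_lit 5) (nat_lit 130) (nat_lit 5) (nat_lit 123) (nat_lit 5) (nat_lit 350) (nat_lit 321) (nat_lit 109)) (XT.nd (nat_lit 78) (nat_lit 0) (nat_lit 0) (XT.lf (nat_lit 0) (nat_lit 15880307687) (nat_lit 456) (nat_lit 4326926123) (nat_lit 532) (nat_lit 20612758785) (nat_lit 116) (nat_lit 5) (nat_lit 122) (nat_lit 5) (nat_lit 123) (nat_lit 5) (nat_lit 351) (nat_lit 321) (nat_lit 108)) (XT.lf (nat_lit 0) (nat_lit 24701545064) (nat_lit 532) (nat_lit 6507984562) (nat_lit 76) (nat_lit 10355716698) (nat_lit 116) (nat_lit 5) (nat_lit 123) (nat_lit 5) (nat_lit 117) (nat_lit 5) (nat_lit 352) (nat_lit 321) (nat_lit 107)))))) (XT.nd (nat_lit 468) (nat_lit 1064) (nat_lit 0) (XT.nd (nat_lit 234) (nat_lit 532) (nat_lit 0) (XT.nd (nat_lit 78) (nat_lit 380) (nat_lit 0) (XT.lf (nat_lit 0) (nat_lit 12679361641) (nat_lit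 456) (nat_lit 16814320982) (nat_lit 532) (nat_lit 12834288053) (nat_lit 110) (nat_lit 5) (nat_lit 116) (nat_lit 5) (nat_lit 117) (nat_lit 5) (nat_lit 353) (nat_lit 321) (nat_lit 106)) (XT.nd (nat_lit 78) (nat_lit 380) (nat_lit 0) (XT.lf (nat_lit 0) (nat_lit 32573869693) (nat_lit 456) (nat_lit 1919739162) (nat_lit 532) (nat_lit 8618050004) (nat_lit 110) (nat_lit 5) (nat_lit 116) (nat_lit 5) (nat_lit 117) (nat_lit 5) (nat_lit 354) (nat_lit 321) (nat_lit 105)) (XT.lf (nat_lit 0) (nat_lit 9194901586) (nat_lit 380) (nat_lit 30664390080) (nat_lit 456) (nat_lit 4053096012) (nat_lit 105) (nat_lit 5) (nat_lit 110) (nat_lit 5) (nat_lit 111) (nat_lit 5) (nat_lit 355) (nat_lit 321) (nat_lit 104)))) (XT.nd (nat_lit 78) (nat_lit 456) (nat_lit 0) (XT.lf (nat_lit 0) (nat_lit 760983912) (nat_lit 456) (nat_lit 15026535062) (nat_lit 76) (nat_lit 28945689743) (nat_lit 104) (nat_lit 5) (nat_lit 110) (nat_lit 5) (nat_lit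 105) (nat_lit 5) (nat_lit 356) (nat_lit 321) (nat_lit 103)) (XT.nd (nat_lit 78) (nat_lit 0) (nat_lit 0) (XT.lf (nat_lit 0) (nat_lit 5316943452) (nat_lit 456) (nat_lit 370602836) (nat_lit 532) (nat_lit 39888421033) (nat_lit 98) (nat_lit 5) (nat_lit 104) (nat_lit 5) (nat_lit 105) (nat_lit 5) (nat_lit 357) (nat_lit 321) (nat_lit 102)) (XT.lf (nat_lit 0) (nat_lit 11062666725) (nat_lit 532) (nat_lit 20013136602) (nat_lit 76) (nat_lit 15359184967) (nat_lit 98) (nat_lit 5) (nat_lit 105) (nat_lit 5) (nat_lit 99) (nat_lit 5) (nat_lit 358) (nat_lit 321) (nat_lit 101))))) (XT.nd (nat_lit 234) (nat_lit 684) (nat_lit 0) (XT.nd (nat_lit 78) (nat_lit 0) (nat_lit 0) (XT.lf (nat_lit 0) (nat_lit 851270268) (nat_lit 380) (nat_lit 15758108222) (nat_lit 456) (nat_lit 30710093650) (nat_lit 93) (nat_lit 5) (nat_lit 98) (nat_lit 5) (nat_lit 99) (nat_lit 5) (nat_lit 359) (nat_lit 321) (nat_lit 100)) (XT.nd (nat_lit 78)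 (nat_lit 0) (nat_lit 0) (XT.lf (nat_lit 0) (nat_lit 22525279357) (nat_lit 456) (nat_lit 25476578870) (nat_lit 76) (nat_lit 222550947) (nat_lit 93) (nat_lit 5) (nat_lit 99) (nat_lit 5) (nat_lit 94) (nat_lit 5) (nat_lit 360) (nat_lit 321) (nat_lit 99)) (XT.lf (nat_lit 0) (nat_lit 28773231147) (nat_lit 456) (nat_lit 4013000382) (nat_lit 76) (nat_lit 16365627812) (nat_lit 93) (nat_lit 5) (nat_lit 99) (nat_lit 5) (nat_lit 94) (nat_lit 5) (nat_lit 361) (nat_lit 321) (nat_lit 98)))) (XT.nd (nat_lit 78) (nat_lit 304) (nat_lit 0) (XT.lf (nat_lit 0) (nat_lit 18452846246) (nat_lit 380) (nat_lit 16931750460) (nat_lit 456) (nat_lit 14717259225) (nat_lit 88) (nat_lit 5) (nat_lit 93) (nat_lit 5) (nat_lit 94) (nat_lit 5) (nat_lit 362) (nat_lit 321) (nat_lit 97)) (XT.nd (nat_lit 78) (nat_lit 304) (nat_lit 0) (XT.lf (nat_lit 0) (nat_lit 41673227008) (nat_lit 380) (nat_lit 560219367) (nat_lit 456) (nat_lit 8845733860)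 (nat_lit 88) (nat_lit 5) (nat_lit 93) (nat_lit 5) (nat_lit 94) (nat_lit 5) (nat_lit 363) (nat_lit 321) (nat_lit 96)) (XT.lf (nat_lit 0) (nat_lit 13611603698) (nat_lit 304) (nat_lit 35962366985) (nat_lit 380) (nat_lit 2503269359) (nat_lit 84) (nat_lit 5) (nat_lit 88) (nat_lit 5) (nat_lit 89) (nat_lit 5) (nat_lit 364) (nat_lit 321) (nat_lit 95))))))) (XT.nd (nat_lit 37518) (nat_lit 0) (nat_lit 7220) (XT.nd (nat_lit 468) (nat_lit 684) (nat_lit 0) (XT.nd (nat_lit 234) (nat_lit 304) (nat_lit 0) (XT.nd (nat_lit 78) (nat_lit 380) (nat_lit 0) (XT.lf (nat_lit 0) (nat_lit 4050973315) (nat_lit 380) (nat_lit 15636818249) (nat_lit 76) (nat_lit 33413285989) (nat_lit 83) (nat_lit 5) (nat_lit 88) (nat_lit 5) (nat_lit 84) (nat_lit 5) (nat_lit 365) (nat_lit 321) (nat_lit 94)) (XT.nd (nat_lit 78) (nat_lit 0) (nat_lit 0) (XT.lf (nat_lit 0) (nat_lit 8006662697) (nat_lit 380) (nat_lit 2820536035) (nat_lit 456) (nat_lit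 43325419724) (nat_lit 78) (nat_lit 5) (nat_lit 83) (nat_lit 5) (nat_lit 84) (nat_lit 5) (nat_lit 366) (nat_lit 321) (nat_lit 93)) (XT.lf (nat_lit 0) (nat_lit 18104787550) (nat_lit 456) (nat_lit 22694110207) (nat_lit 76) (nat_lit 14427867352) (nat_lit 78) (nat_lit 5) (nat_lit 84) (nat_lit 5) (nat_lit 79) (nat_lit 5) (nat_lit 367) (nat_lit 321) (nat_lit 92)))) (XT.nd (nat_lit 78) (nat_lit 0) (nat_lit 0) (XT.lf (nat_lit 0) (nat_lit 1460231830) (nat_lit 304) (nat_lit 24181194402) (nat_lit 380) (nat_lit 30690490031) (nat_lit 74) (nat_lit 5) (nat_lit 78) (nat_lit 5) (nat_lit 79) (nat_lit 5) (nat_lit 368) (nat_lit 321) (nat_lit 91)) (XT.nd (nat_lit 78) (nat_lit 0) (nat_lit 0) (XT.lf (nat_lit 0) (nat_lit 26802799925) (nat_lit 304) (nat_lit 6829310268) (nat_lit 380) (nat_lit 23831275090) (nat_lit 74) (nat_lit 5) (nat_lit 78) (nat_lit 5) (nat_lit 79) (nat_lit 5) (nat_lit 369) (nat_lit 321) (nat_lit 90))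 (XT.lf (nat_lit 0) (nat_lit 41967479981) (nat_lit 380) (nat_lit 5830904465) (nat_lit 76) (nat_lit 10827266635) (nat_lit 74) (nat_lit 5) (nat_lit 79) (nat_lit 5) (nat_lit 75) (nat_lit 5) (nat_lit 370) (nat_lit 321) (nat_lit 89))))) (XT.nd (nat_lit 36816) (nat_lit 0) (nat_lit 8208) (XT.nd (nat_lit 78) (nat_lit 380) (nat_lit 0) (XT.lf (nat_lit 0) (nat_lit 20066059730) (nat_lit 304) (nat_lit 30746201891) (nat_lit 380) (nat_lit 9002744327) (nat_lit 70) (nat_lit 5) (nat_lit 74) (nat_lit 5) (nat_lit 75) (nat_lit 5) (nat_lit 371) (nat_lit 321) (nat_lit 88)) (XT.nd (nat_lit 78) (nat_lit 380) (nat_lit 0) (XT.lf (nat_lit 0) (nat_lit 46857924595) (nat_lit 304) (nat_lit 13122208232) (nat_lit 380) (nat_lit 1058177820) (nat_lit 70) (nat_lit 5) (nat_lit 74) (nat_lit 5) (nat_lit 75) (nat_lit 5) (nat_lit 372) (nat_lit 321) (nat_lit 87)) (XT.lf (nat_lit 0) (nat_lit 7153268939) (nat_lit 380) (nat_lit 50017195464)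 (nat_lit 76) (nat_lit 5120769779) (nat_lit 65) (nat_lit 5) (nat_lit 70) (nat_lit 5) (nat_lit 66) (nat_lit 5) (nat_lit 373) (nat_lit 321) (nat_lit 86)))) (XT.nd (nat_lit 78) (nat_lit 0) (nat_lit 0) (XT.lf (nat_lit 0) (nat_lit 11524894638) (nat_lit 1140) (nat_lit 669475395) (nat_lit 1140) (nat_lit 669475395) (nat_lit 173) (nat_lit 3) (nat_lit 188) (nat_lit 3) (nat_lit 188) (nat_lit 5) (nat_lit 322) (nat_lit 322) (nat_lit 136)) (XT.nd (nat_lit 78) (nat_lit 0) (nat_lit 0) (XT.lf (nat_lit 76) (nat_lit 9900187878) (nat_lit 0) (nat_lit 13681300447) (nat_lit 1140) (nat_lit 2526357645) (nat_lit 174) (nat_lit 5) (nat_lit 173) (nat_lit 3) (nat_lit 188) (nat_lit 5) (nat_lit 323) (nat_lit 322) (nat_lit 135)) (XT.lf (nat_lit 76) (nat_lit 21502083254) (nat_lit 0) (nat_lit 2637014837) (nat_lit 1140) (nat_lit 2360015941) (nat_lit 174) (nat_lit 5) (nat_lit 173) (nat_lit 3) (nat_lit 188) (nat_lit 5) (nat_lit 324)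 (nat_lit 322) (nat_lit 134)))))) (XT.nd (nat_lit 468) (nat_lit 0) (nat_lit 76) (XT.nd (nat_lit 234) (nat_lit 1064) (nat_lit 0) (XT.nd (nat_lit 78) (nat_lit 0) (nat_lit 0) (XT.lf (nat_lit 76) (nat_lit 6592623668) (nat_lit 0) (nat_lit 18264744099) (nat_lit 1140) (nat_lit 2040441306) (nat_lit 175) (nat_lit 5) (nat_lit 174) (nat_lit 5) (nat_lit 189) (nat_lit 5) (nat_lit 325) (nat_lit 322) (nat_lit 133)) (XT.nd (nat_lit 78) (nat_lit 0) (nat_lit 76) (XT.lf (nat_lit 76) (nat_lit 18603855533) (nat_lit 0) (nat_lit 7066283622) (nat_lit 1140) (nat_lit 1636143884) (nat_lit 175) (nat_lit 5) (nat_lit 174) (nat_lit 5) (nat_lit 189) (nat_lit 5) (nat_lit 326) (nat_lit 322) (nat_lit 132)) (XT.lf (nat_lit 76) (nat_lit 3267238604) (nat_lit 0) (nat_lit 23311163819) (nat_lit 1140) (nat_lit 1146482030) (nat_lit 176) (nat_lit 5) (nat_lit 175) (nat_lit 5) (nat_lit 190) (nat_lit 5) (nat_lit 327) (nat_lit 322) (nat_lit 131))))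 (XT.nd (nat_lit 78) (nat_lit 1140) (nat_lit 0) (XT.lf (nat_lit 76) (nat_lit 15701070019) (nat_lit 0) (nat_lit 11966825717) (nat_lit 1140) (nat_lit 483535006) (nat_lit 176) (nat_lit 5) (nat_lit 175) (nat_lit 5) (nat_lit 190) (nat_lit 5) (nat_lit 328) (nat_lit 322) (nat_lit 130)) (XT.nd (nat_lit 78) (nat_lit 0) (nat_lit 76) (XT.lf (nat_lit 0) (nat_lit 192294673) (nat_lit 1140) (nat_lit 86744016) (nat_lit 1216) (nat_lit 28311776698) (nat_lit 160) (nat_lit 5) (nat_lit 175) (nat_lit 5) (nat_lit 176) (nat_lit 5) (nat_lit 329) (nat_lit 322) (nat_lit 129)) (XT.lf (nat_lit 0) (nat_lit 1113910434) (nat_lit 1140) (nat_lit 16261277805) (nat_lit 1216) (nat_lit 11660998579) (nat_lit 161) (nat_lit 5) (nat_lit 176) (nat_lit 5) (nat_lit 177) (nat_lit 5) (nat_lit 330) (nat_lit 322) (nat_lit 128))))) (XT.nd (nat_lit 234) (nat_lit 0) (nat_lit 152) (XT.nd (nat_lit 78) (nat_lit 0) (nat_lit 76) (XT.lf (nat_lit 0) (nat_lit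 2063876254) (nat_lit 1140) (nat_lit 3475474218) (nat_lit 1216) (nat_lit 23955553471) (nat_lit 161) (nat_lit 5) (nat_lit 176) (nat_lit 5) (nat_lit 177) (nat_lit 5) (nat_lit 331) (nat_lit 322) (nat_lit 127)) (XT.nd (nat_lit 78) (nat_lit 0) (nat_lit 0) (XT.lf (nat_lit 0) (nat_lit 3199388798) (nat_lit 1140) (nat_lit 20144660451) (nat_lit 1216) (nat_lit 6618627334) (nat_lit 162) (nat_lit 5) (nat_lit 177) (nat_lit 5) (nat_lit 178) (nat_lit 5) (nat_lit 332) (nat_lit 322) (nat_lit 126)) (XT.lf (nat_lit 0) (nat_lit 4456467951) (nat_lit 1140) (nat_lit 6919086792) (nat_lit 1216) (nat_lit 19066307899) (nat_lit 162) (nat_lit 5) (nat_lit 177) (nat_lit 5) (nat_lit 178) (nat_lit 5) (nat_lit 333) (nat_lit 322) (nat_lit 125)))) (XT.nd (nat_lit 78) (nat_lit 0) (nat_lit 0) (XT.lf (nat_lit 0) (nat_lit 5824061621) (nat_lit 1140) (nat_lit 24108686351) (nat_lit 1216) (nat_lit 1000497368) (nat_lit 163) (nat_lit 5) (nat_lit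 178) (nat_lit 5) (nat_lit 179) (nat_lit 5) (nat_lit 334) (nat_lit 322) (nat_lit 124)) (XT.nd (nat_lit 78) (nat_lit 0) (nat_lit 0) (XT.lf (nat_lit 0) (nat_lit 7413234637) (nat_lit 1140) (nat_lit 10430278612) (nat_lit 1216) (nat_lit 13590444698) (nat_lit 163) (nat_lit 5) (nat_lit 178) (nat_lit 5) (nat_lit 179) (nat_lit 5) (nat_lit 335) (nat_lit 322) (nat_lit 123)) (XT.lf (nat_lit 76) (nat_lit 3729279463) (nat_lit 0) (nat_lit 5354089647) (nat_lit 1216) (nat_lit 22865329061) (nat_lit 164) (nat_lit 5) (nat_lit 163) (nat_lit 5) (nat_lit 179) (nat_lit 5) (nat_lit 336) (nat_lit 322) (nat_lit 122))))))))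
noncomputable def xc238 : XT := (XT.nd (nat_lit 1794) (nat_lit 2128) (nat_lit 0) (XT.nd (nat_lit 858) (nat_lit 2356) (nat_lit 0) (XT.nd (nat_lit 390) (nat_lit 1672) (nat_lit 0) (XT.nd (nat_lit 156) (nat_lit 988) (nat_lit 0) (XT.nd (nat_lit 78) (nat_lit 0) (nat_lit 0) (XT.lf (nat_lit 0) (nat_lit 10979665969) (nat_lit 1140) (nat_lit 14023559172) (nat_lit 1216) (nat_lit 7470378400) (nat_lit 164) (nat_lit 5) (nat_lit 179) (nat_lit 5) (nat_lit 180) (nat_lit 5) (nat_lit 337) (nat_lit 322) (nat_lit 121)) (XT.lf (nat_lit 76) (nat_lit 553995821) (nat_lit 0) (nat_lit 12434764172) (nat_lit 1216) (nat_lit 20023823381) (nat_lit 165) (nat_lit 5) (nat_lit 164) (nat_lit 5) (nat_lit 180) (nat_lit 5) (nat_lit 338) (nat_lit 322) (nat_lit 120))) (XT.nd (nat_lit 78) (nat_lit 1064) (nat_lit 0) (XT.lf (nat_lit 0) (nat_lit 15203677006) (nat_lit 1140) (nat_lit 17715489617) (nat_lit 76) (nat_lit 644203893) (nat_lit 165)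 (nat_lit 5) (nat_lit 180) (nat_lit 5) (nat_lit 166) (nat_lit 5) (nat_lit 339) (nat_lit 322) (nat_lit 119)) (XT.nd (nat_lit 78) (nat_lit 1064) (nat_lit 0) (XT.lf (nat_lit 0) (nat_lit 17605855080) (nat_lit 1140) (nat_lit 2655196071) (nat_lit 76) (nat_lit 13866010006) (nat_lit 165) (nat_lit 5) (nat_lit 180) (nat_lit 5) (nat_lit 166) (nat_lit 5) (nat_lit 340) (nat_lit 322) (nat_lit 118)) (XT.lf (nat_lit 0) (nat_lit 13110822496) (nat_lit 1064) (nat_lit 7093069395) (nat_lit 1140) (nat_lit 14500060987) (nat_lit 151) (nat_lit 5) (nat_lit 165) (nat_lit 5) (nat_lit 166) (nat_lit 5) (nat_lit 341) (nat_lit 322) (nat_lit 117))))) (XT.nd (nat_lit 234) (nat_lit 1140) (nat_lit 0) (XT.nd (nat_lit 78) (nat_lit 532) (nat_lit 0) (XT.lf (nat_lit 0) (nat_lit 22966954388) (nat_lit 1140) (nat_lit 5957531803) (nat_lit 76) (nat_lit 6371056668) (nat_lit 151) (nat_lit 5) (nat_lit 166) (nat_lit 5) (nat_lit 152) (nat_lit 5)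 (nat_lit 342) (nat_lit 322) (nat_lit 116)) (XT.nd (nat_lit 78) (nat_lit 0) (nat_lit 0) (XT.lf (nat_lit 0) (nat_lit 10275499145) (nat_lit 532) (nat_lit 15704289789) (nat_lit 608) (nat_lit 9920089125) (nat_lit 144) (nat_lit 5) (nat_lit 151) (nat_lit 5) (nat_lit 152) (nat_lit 5) (nat_lit 343) (nat_lit 322) (nat_lit 115)) (XT.lf (nat_lit 0) (nat_lit 27115744222) (nat_lit 532) (nat_lit 2025344622) (nat_lit 608) (nat_lit 7379515873) (nat_lit 144) (nat_lit 5) (nat_lit 151) (nat_lit 5) (nat_lit 152) (nat_lit 5) (nat_lit 344) (nat_lit 322) (nat_lit 114)))) (XT.nd (nat_lit 78) (nat_lit 608) (nat_lit 0) (XT.lf (nat_lit 0) (nat_lit 7326329364) (nat_lit 532) (nat_lit 25255272958) (nat_lit 608) (nat_lit 4572823316) (nat_lit 137) (nat_lit 5) (nat_lit 144) (nat_lit 5) (nat_lit 145) (nat_lit 5) (nat_lit 345) (nat_lit 322) (nat_lit 113)) (XT.nd (nat_lit 78) (nat_lit 608) (nat_lit 0) (XT.lf (nat_lit 0) (nat_lit 24729901131)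 (nat_lit 532) (nat_lit 11508280758) (nat_lit 608) (nat_lit 1565697371) (nat_lit 137) (nat_lit 5) (nat_lit 144) (nat_lit 5) (nat_lit 145) (nat_lit 5) (nat_lit 346) (nat_lit 322) (nat_lit 112)) (XT.lf (nat_lit 0) (nat_lit 1566693043) (nat_lit 608) (nat_lit 34248169898) (nat_lit 76) (nat_lit 2655567086) (nat_lit 129) (nat_lit 5) (nat_lit 137) (nat_lit 5) (nat_lit 130) (nat_lit 5) (nat_lit 347) (nat_lit 322) (nat_lit 111)))))) (XT.nd (nat_lit 468) (nat_lit 1368) (nat_lit 0) (XT.nd (nat_lit 234) (nat_lit 456) (nat_lit 0) (XT.nd (nat_lit 78) (nat_lit 532) (nat_lit 0) (XT.lf (nat_lit 0) (nat_lit 5006956179) (nat_lit 608) (nat_lit 16980301321) (nat_lit 76) (nat_lit 17161896947) (nat_lit 129) (nat_lit 5) (nat_lit 137) (nat_lit 5) (nat_lit 130) (nat_lit 5) (nat_lit 348) (nat_lit 322) (nat_lit 110)) (XT.nd (nat_lit 78) (nat_lit 0) (nat_lit 0) (XT.lf (nat_lit 0) (nat_lit 819733786) (nat_lit 532) (nat_lit 7736726518)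 (nat_lit 608) (nat_lit 31291602496) (nat_lit 122) (nat_lit 5) (nat_lit 129) (nat_lit 5) (nat_lit 130) (nat_lit 5) (nat_lit 349) (nat_lit 322) (nat_lit 109)) (XT.lf (nat_lit 0) (nat_lit 12450528214) (nat_lit 608) (nat_lit 21131271075) (nat_lit 76) (nat_lit 6978999853) (nat_lit 122) (nat_lit 5) (nat_lit 130) (nat_lit 5) (nat_lit 123) (nat_lit 5) (nat_lit 350) (nat_lit 322) (nat_lit 108)))) (XT.nd (nat_lit 78) (nat_lit 456) (nat_lit 0) (XT.lf (nat_lit 0) (nat_lit 16536261154) (nat_lit 608) (nat_lit 2775751448) (nat_lit 76) (nat_lit 21980662691) (nat_lit 122) (nat_lit 5) (nat_lit 130) (nat_lit 5) (nat_lit 123) (nat_lit 5) (nat_lit 351) (nat_lit 322) (nat_lit 107)) (XT.nd (nat_lit 78) (nat_lit 0) (nat_lit 0) (XT.lf (nat_lit 0) (nat_lit 16449630352) (nat_lit 456) (nat_lit 4451352592) (nat_lit 532) (nat_lit 21140835200) (nat_lit 116) (nat_lit 5) (nat_lit 122) (nat_lit 5) (nat_lit 123) (nat_lit 5) (nat_lit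 352) (nat_lit 322) (nat_lit 106)) (XT.lf (nat_lit 0) (nat_lit 25527624278) (nat_lit 532) (nat_lit 6610373677) (nat_lit 76) (nat_lit 10671510826) (nat_lit 116) (nat_lit 5) (nat_lit 123) (nat_lit 5) (nat_lit 117) (nat_lit 5) (nat_lit 353) (nat_lit 322) (nat_lit 105))))) (XT.nd (nat_lit 234) (nat_lit 532) (nat_lit 0) (XT.nd (nat_lit 78) (nat_lit 380) (nat_lit 0) (XT.lf (nat_lit 0) (nat_lit 13151682613) (nat_lit 456) (nat_lit 17310250450) (nat_lit 532) (nat_lit 13133233780) (nat_lit 110) (nat_lit 5) (nat_lit 116) (nat_lit 5) (nat_lit 117) (nat_lit 5) (nat_lit 354) (nat_lit 322) (nat_lit 104)) (XT.nd (nat_lit 78) (nat_lit 380) (nat_lit 0) (XT.lf (nat_lit 0) (nat_lit 33640348039) (nat_lit 456) (nat_lit 1969078753) (nat_lit 532) (nat_lit 8793015859) (nat_lit 110) (nat_lit 5) (nat_lit 116) (nat_lit 5) (nat_lit 117) (nat_lit 5) (nat_lit 355) (nat_lit 322) (nat_lit 103)) (XT.lf (nat_lit 0) (nat_lit 9561598035)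 (nat_lit 380) (nat_lit 31573072866) (nat_lit 456) (nat_lit 4092568661) (nat_lit 105) (nat_lit 5) (nat_lit 110) (nat_lit 5) (nat_lit 111) (nat_lit 5) (nat_lit 356) (nat_lit 322) (nat_lit 102)))) (XT.nd (nat_lit 78) (nat_lit 456) (nat_lit 0) (XT.lf (nat_lit 0) (nat_lit 861986021) (nat_lit 456) (nat_lit 15387447855) (nat_lit 76) (nat_lit 29823301756) (nat_lit 104) (nat_lit 5) (nat_lit 110) (nat_lit 5) (nat_lit 105) (nat_lit 5) (nat_lit 357) (nat_lit 322) (nat_lit 101)) (XT.nd (nat_lit 78) (nat_lit 0) (nat_lit 0) (XT.lf (nat_lit 0) (nat_lit 5565453807) (nat_lit 456) (nat_lit 369470132) (nat_lit 532) (nat_lit 41005899311) (nat_lit 98) (nat_lit 5) (nat_lit 104) (nat_lit 5) (nat_lit 105) (nat_lit 5) (nat_lit 358) (nat_lit 322) (nat_lit 100)) (XT.lf (nat_lit 0) (nat_lit 11469176848) (nat_lit 532) (nat_lit 20524882758) (nat_lit 76) (nat_lit 15831622391) (nat_lit 98) (nat_lit 5) (nat_lit 105) (nat_lit 5)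 (nat_lit 99) (nat_lit 5) (nat_lit 359) (nat_lit 322) (nat_lit 99))))))) (XT.nd (nat_lit 936) (nat_lit 304) (nat_lit 0) (XT.nd (nat_lit 468) (nat_lit 760) (nat_lit 0) (XT.nd (nat_lit 234) (nat_lit 684) (nat_lit 0) (XT.nd (nat_lit 78) (nat_lit 0) (nat_lit 0) (XT.lf (nat_lit 0) (nat_lit 964587220) (nat_lit 380) (nat_lit 16216372836) (nat_lit 456) (nat_lit 31555783609) (nat_lit 93) (nat_lit 5) (nat_lit 98) (nat_lit 5) (nat_lit 99) (nat_lit 5) (nat_lit 360) (nat_lit 322) (nat_lit 98)) (XT.nd (nat_lit 78) (nat_lit 0) (nat_lit 0) (XT.lf (nat_lit 0) (nat_lit 23272338116) (nat_lit 456) (nat_lit 26153543901) (nat_lit 76) (nat_lit 243010098) (nat_lit 93) (nat_lit 5) (nat_lit 99) (nat_lit 5) (nat_lit 94) (nat_lit 5) (nat_lit 361) (nat_lit 322) (nat_lit 97)) (XT.lf (nat_lit 0) (nat_lit 29705651750) (nat_lit 456) (nat_lit 4048601718) (nat_lit 76) (nat_lit 16869977834) (nat_lit 93) (nat_lit 5) (nat_lit 99) (nat_lit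 5) (nat_lit 94) (nat_lit 5) (nat_lit 362) (nat_lit 322) (nat_lit 96)))) (XT.nd (nat_lit 78) (nat_lit 304) (nat_lit 0) (XT.lf (nat_lit 0) (nat_lit 19090389047) (nat_lit 380) (nat_lit 17423760055) (nat_lit 456) (nat_lit 15088618083) (nat_lit 88) (nat_lit 5) (nat_lit 93) (nat_lit 5) (nat_lit 94) (nat_lit 5) (nat_lit 363) (nat_lit 322) (nat_lit 95)) (XT.nd (nat_lit 78) (nat_lit 304) (nat_lit 0) (XT.lf (nat_lit 0) (nat_lit 43004935870) (nat_lit 380) (nat_lit 561547386) (nat_lit 456) (nat_lit 9042990420) (nat_lit 88) (nat_lit 5) (nat_lit 93) (nat_lit 5) (nat_lit 94) (nat_lit 5) (nat_lit 364) (nat_lit 322) (nat_lit 94)) (XT.lf (nat_lit 0) (nat_lit 14102578946) (nat_lit 304) (nat_lit 37023659760) (nat_lit 380) (nat_lit 2511269050) (nat_lit 84) (nat_lit 5) (nat_lit 88) (nat_lit 5) (nat_lit 89) (nat_lit 5) (nat_lit 365) (nat_lit 322) (nat_lit 93))))) (XT.nd (nat_lit 234) (nat_lit 304) (nat_lit 0) (XT.nd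 (nat_lit 78) (nat_lit 380) (nat_lit 0) (XT.lf (nat_lit 0) (nat_lit 4236375387) (nat_lit 380) (nat_lit 16024338685) (nat_lit 76) (nat_lit 34431387227) (nat_lit 83) (nat_lit 5) (nat_lit 88) (nat_lit 5) (nat_lit 84) (nat_lit 5) (nat_lit 366) (nat_lit 322) (nat_lit 92)) (XT.nd (nat_lit 78) (nat_lit 0) (nat_lit 0) (XT.lf (nat_lit 0) (nat_lit 8327646845) (nat_lit 380) (nat_lit 2887156894) (nat_lit 456) (nat_lit 44560419897) (nat_lit 78) (nat_lit 5) (nat_lit 83) (nat_lit 5) (nat_lit 84) (nat_lit 5) (nat_lit 367) (nat_lit 322) (nat_lit 91)) (XT.lf (nat_lit 0) (nat_lit 18709059358) (nat_lit 456) (nat_lit 23294754231) (nat_lit 76) (nat_lit 14877833538) (nat_lit 78) (nat_lit 5) (nat_lit 84) (nat_lit 5) (nat_lit 79) (nat_lit 5) (nat_lit 368) (nat_lit 322) (nat_lit 90)))) (XT.nd (nat_lit 78) (nat_lit 0) (nat_lit 0) (XT.lf (nat_lit 0) (nat_lit 1583431995) (nat_lit 304) (nat_lit 24887347949) (nat_lit 380) (nat_lit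 31549205926) (nat_lit 74) (nat_lit 5) (nat_lit 78) (nat_lit 5) (nat_lit 79) (nat_lit 5) (nat_lit 369) (nat_lit 322) (nat_lit 89)) (XT.nd (nat_lit 78) (nat_lit 0) (nat_lit 0) (XT.lf (nat_lit 0) (nat_lit 27683964710) (nat_lit 304) (nat_lit 7015468911) (nat_lit 380) (nat_lit 24486020328) (nat_lit 74) (nat_lit 5) (nat_lit 78) (nat_lit 5) (nat_lit 79) (nat_lit 5) (nat_lit 370) (nat_lit 322) (nat_lit 88)) (XT.lf (nat_lit 0) (nat_lit 43283339405) (nat_lit 380) (nat_lit 5929391088) (nat_lit 76) (nat_lit 11169905370) (nat_lit 74) (nat_lit 5) (nat_lit 79) (nat_lit 5) (nat_lit 75) (nat_lit 5) (nat_lit 371) (nat_lit 322) (nat_lit 87)))))) (XT.nd (nat_lit 37206) (nat_lit 0) (nat_lit 6840) (XT.nd (nat_lit 36972) (nat_lit 0) (nat_lit 7828) (XT.nd (nat_lit 36816) (nat_lit 0) (nat_lit 7828) (XT.lf (nat_lit 0) (nat_lit 20743732616) (nat_lit 304) (nat_lit 31648804079) (nat_lit 380) (nat_lit 9215164836) (nat_lit 70)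 (nat_lit 5) (nat_lit 74) (nat_lit 5) (nat_lit 75) (nat_lit 5) (nat_lit 372) (nat_lit 322) (nat_lit 86)) (XT.nd (nat_lit 78) (nat_lit 0) (nat_lit 0) (XT.lf (nat_lit 0) (nat_lit 11960554338) (nat_lit 1140) (nat_lit 643164564) (nat_lit 1140) (nat_lit 643164564) (nat_lit 173) (nat_lit 3) (nat_lit 188) (nat_lit 3) (nat_lit 188) (nat_lit 5) (nat_lit 323) (nat_lit 323) (nat_lit 134)) (XT.lf (nat_lit 76) (nat_lit 10289073991) (nat_lit 0) (nat_lit 14175330273) (nat_lit 1140) (nat_lit 2421063551) (nat_lit 174) (nat_lit 5) (nat_lit 173) (nat_lit 3) (nat_lit 188) (nat_lit 5) (nat_lit 324) (nat_lit 323) (nat_lit 133)))) (XT.nd (nat_lit 78) (nat_lit 0) (nat_lit 76) (XT.lf (nat_lit 76) (nat_lit 22236350098) (nat_lit 0) (nat_lit 2797281411) (nat_lit 1140) (nat_lit 2255005911) (nat_lit 174) (nat_lit 5) (nat_lit 173) (nat_lit 3) (nat_lit 188) (nat_lit 5) (nat_lit 325) (nat_lit 323) (nat_lit 132)) (XT.nd (nat_lit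 78) (nat_lit 0) (nat_lit 0) (XT.lf (nat_lit 76) (nat_lit 6884901248) (nat_lit 0) (nat_lit 18883737052) (nat_lit 1140) (nat_lit 1930809222) (nat_lit 175) (nat_lit 5) (nat_lit 174) (nat_lit 5) (nat_lit 189) (nat_lit 5) (nat_lit 326) (nat_lit 323) (nat_lit 131)) (XT.lf (nat_lit 76) (nat_lit 19253717675) (nat_lit 0) (nat_lit 7347253325) (nat_lit 1140) (nat_lit 1519358954) (nat_lit 175) (nat_lit 5) (nat_lit 174) (nat_lit 5) (nat_lit 189) (nat_lit 5) (nat_lit 327) (nat_lit 323) (nat_lit 130))))) (XT.nd (nat_lit 234) (nat_lit 0) (nat_lit 76) (XT.nd (nat_lit 78) (nat_lit 1140) (nat_lit 0) (XT.lf (nat_lit 76) (nat_lit 3461850520) (nat_lit 0) (nat_lit 24070235009) (nat_lit 1140) (nat_lit 1019545093) (nat_lit 176) (nat_lit 5) (nat_lit 175) (nat_lit 5) (nat_lit 190) (nat_lit 5) (nat_lit 328) (nat_lit 323) (nat_lit 129)) (XT.nd (nat_lit 78) (nat_lit 1140) (nat_lit 0) (XT.lf (nat_lit 76) (nat_lit 16265883438)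 (nat_lit 0) (nat_lit 12383826873) (nat_lit 1140) (nat_lit 341408632) (nat_lit 176) (nat_lit 5) (nat_lit 175) (nat_lit 5) (nat_lit 190) (nat_lit 5) (nat_lit 329) (nat_lit 323) (nat_lit 128)) (XT.lf (nat_lit 76) (nat_lit 5053631) (nat_lit 0) (nat_lit 342161337) (nat_lit 1216) (nat_lit 29096566247) (nat_lit 161) (nat_lit 5) (nat_lit 160) (nat_lit 5) (nat_lit 176) (nat_lit 5) (nat_lit 330) (nat_lit 323) (nat_lit 127)))) (XT.nd (nat_lit 78) (nat_lit 0) (nat_lit 0) (XT.lf (nat_lit 0) (nat_lit 1292482860) (nat_lit 1140) (nat_lit 16650591208) (nat_lit 1216) (nat_lit 11959567886) (nat_lit 161) (nat_lit 5) (nat_lit 176) (nat_lit 5) (nat_lit 177) (nat_lit 5) (nat_lit 331) (nat_lit 323) (nat_lit 126)) (XT.nd (nat_lit 78) (nat_lit 0) (nat_lit 76) (XT.lf (nat_lit 0) (nat_lit 2266719836) (nat_lit 1140) (nat_lit 3484083171) (nat_lit 1216) (nat_lit 24624452453) (nat_lit 161) (nat_lit 5) (nat_lit 176) (nat_lit 5)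 (nat_lit 177) (nat_lit 5) (nat_lit 332) (nat_lit 323) (nat_lit 125)) (XT.lf (nat_lit 0) (nat_lit 3432690067) (nat_lit 1140) (nat_lit 20649477320) (nat_lit 1216) (nat_lit 6775009922) (nat_lit 162) (nat_lit 5) (nat_lit 177) (nat_lit 5) (nat_lit 178) (nat_lit 5) (nat_lit 333) (nat_lit 323) (nat_lit 124))))))))
noncomputable def xc239 : XT := (XT.nd (nat_lit 1872) (nat_lit 2356) (nat_lit 0) (XT.nd (nat_lit 936) (nat_lit 2964) (nat_lit 0) (XT.nd (nat_lit 468) (nat_lit 1368) (nat_lit 0) (XT.nd (nat_lit 234) (nat_lit 0) (nat_lit 76) (XT.nd (nat_lit 78) (nat_lit 0) (nat_lit 76) (XT.lf (nat_lit 0) (nat_lit 4723481995) (nat_lit 1140) (nat_lit 7030035177) (nat_lit 1216) (nat_lit 19597349338) (nat_lit 162) (nat_lit 5) (nat_lit 177) (nat_lit 5) (nat_lit 178) (nat_lit 5) (nat_lit 334) (nat_lit 323) (nat_lit 123)) (XT.nd (nat_lit 78) (nat_lit 0) (nat_lit 0) (XT.lf (nat_lit 0) (nat_lit 6128806711) (nat_lit 1140)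 (nat_lit 24731780900) (nat_lit 1216) (nat_lit 996509333) (nat_lit 163) (nat_lit 5) (nat_lit 178) (nat_lit 5) (nat_lit 179) (nat_lit 5) (nat_lit 335) (nat_lit 323) (nat_lit 122)) (XT.lf (nat_lit 0) (nat_lit 7761867832) (nat_lit 1140) (nat_lit 10645938386) (nat_lit 1216) (nat_lit 13965145461) (nat_lit 163) (nat_lit 5) (nat_lit 178) (nat_lit 5) (nat_lit 179) (nat_lit 5) (nat_lit 336) (nat_lit 323) (nat_lit 121)))) (XT.nd (nat_lit 78) (nat_lit 0) (nat_lit 76) (XT.lf (nat_lit 76) (nat_lit 3937453013) (nat_lit 0) (nat_lit 5541902194) (nat_lit 1216) (nat_lit 23423868367) (nat_lit 164) (nat_lit 5) (nat_lit 163) (nat_lit 5) (nat_lit 179) (nat_lit 5) (nat_lit 337) (nat_lit 323) (nat_lit 120)) (XT.nd (nat_lit 78) (nat_lit 0) (nat_lit 0) (XT.lf (nat_lit 0) (nat_lit 11428690568) (nat_lit 1140) (nat_lit 14346700826) (nat_lit 1216) (nat_lit 7668606951) (nat_lit 164) (nat_lit 5) (nat_lit 179) (nat_lit 5) (nat_lit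 180) (nat_lit 5) (nat_lit 338) (nat_lit 323) (nat_lit 119)) (XT.lf (nat_lit 76) (nat_lit 667224296) (nat_lit 0) (nat_lit 12828277274) (nat_lit 1216) (nat_lit 20503729211) (nat_lit 165) (nat_lit 5) (nat_lit 164) (nat_lit 5) (nat_lit 180) (nat_lit 5) (nat_lit 339) (nat_lit 323) (nat_lit 118))))) (XT.nd (nat_lit 234) (nat_lit 532) (nat_lit 0) (XT.nd (nat_lit 78) (nat_lit 1064) (nat_lit 0) (XT.lf (nat_lit 0) (nat_lit 15773264991) (nat_lit 1140) (nat_lit 18149347056) (nat_lit 76) (nat_lit 644043864) (nat_lit 165) (nat_lit 5) (nat_lit 180) (nat_lit 5) (nat_lit 166) (nat_lit 5) (nat_lit 340) (nat_lit 323) (nat_lit 117)) (XT.nd (nat_lit 78) (nat_lit 1064) (nat_lit 0) (XT.lf (nat_lit 0) (nat_lit 18244203232) (nat_lit 1140) (nat_lit 2640087633) (nat_lit 76) (nat_lit 14263071718) (nat_lit 165) (nat_lit 5) (nat_lit 180) (nat_lit 5) (nat_lit 166) (nat_lit 5) (nat_lit 341) (nat_lit 323) (nat_lit 116)) (XT.lf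 (nat_lit 0) (nat_lit 13597982429) (nat_lit 1064) (nat_lit 7319891813) (nat_lit 1140) (nat_lit 14823762000) (nat_lit 151) (nat_lit 5) (nat_lit 165) (nat_lit 5) (nat_lit 166) (nat_lit 5) (nat_lit 342) (nat_lit 323) (nat_lit 115)))) (XT.nd (nat_lit 78) (nat_lit 532) (nat_lit 0) (XT.lf (nat_lit 0) (nat_lit 23760555957) (nat_lit 1140) (nat_lit 6041689456) (nat_lit 76) (nat_lit 6548832491) (nat_lit 151) (nat_lit 5) (nat_lit 166) (nat_lit 5) (nat_lit 152) (nat_lit 5) (nat_lit 343) (nat_lit 323) (nat_lit 114)) (XT.nd (nat_lit 78) (nat_lit 0) (nat_lit 0) (XT.lf (nat_lit 0) (nat_lit 10677405280) (nat_lit 532) (nat_lit 16184224000) (nat_lit 608) (nat_lit 10111983904) (nat_lit 144) (nat_lit 5) (nat_lit 151) (nat_lit 5) (nat_lit 152) (nat_lit 5) (nat_lit 344) (nat_lit 323) (nat_lit 113)) (XT.lf (nat_lit 0) (nat_lit 28020130296) (nat_lit 532) (nat_lit 2094654007) (nat_lit 608) (nat_lit 7498272324) (nat_lit 144)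 (nat_lit 5) (nat_lit 151) (nat_lit 5) (nat_lit 152) (nat_lit 5) (nat_lit 345) (nat_lit 323) (nat_lit 112)))))) (XT.nd (nat_lit 468) (nat_lit 1292) (nat_lit 0) (XT.nd (nat_lit 234) (nat_lit 532) (nat_lit 0) (XT.nd (nat_lit 78) (nat_lit 608) (nat_lit 0) (XT.lf (nat_lit 0) (nat_lit 7639358244) (nat_lit 532) (nat_lit 26017074452) (nat_lit 608) (nat_lit 4609527206) (nat_lit 137) (nat_lit 5) (nat_lit 144) (nat_lit 5) (nat_lit 145) (nat_lit 5) (nat_lit 346) (nat_lit 323) (nat_lit 111)) (XT.nd (nat_lit 78) (nat_lit 608) (nat_lit 0) (XT.lf (nat_lit 0) (nat_lit 25562321465) (nat_lit 532) (nat_lit 11857551807) (nat_lit 608) (nat_lit 1515114108) (nat_lit 137) (nat_lit 5) (nat_lit 144) (nat_lit 5) (nat_lit 145) (nat_lit 5) (nat_lit 347) (nat_lit 323) (nat_lit 110)) (XT.lf (nat_lit 0) (nat_lit 1707419987) (nat_lit 608) (nat_lit 35180934778) (nat_lit 76) (nat_lit 2733214365) (nat_lit 129) (nat_lit 5) (nat_lit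 137) (nat_lit 5) (nat_lit 130) (nat_lit 5) (nat_lit 348) (nat_lit 323) (nat_lit 109)))) (XT.nd (nat_lit 78) (nat_lit 532) (nat_lit 0) (XT.lf (nat_lit 0) (nat_lit 5248161129) (nat_lit 608) (nat_lit 17397787820) (nat_lit 76) (nat_lit 17674792949) (nat_lit 129) (nat_lit 5) (nat_lit 137) (nat_lit 5) (nat_lit 130) (nat_lit 5) (nat_lit 349) (nat_lit 323) (nat_lit 108)) (XT.nd (nat_lit 78) (nat_lit 0) (nat_lit 0) (XT.lf (nat_lit 0) (nat_lit 935347138) (nat_lit 532) (nat_lit 7967027815) (nat_lit 608) (nat_lit 32138300392) (nat_lit 122) (nat_lit 5) (nat_lit 129) (nat_lit 5) (nat_lit 130) (nat_lit 5) (nat_lit 350) (nat_lit 323) (nat_lit 107)) (XT.lf (nat_lit 0) (nat_lit 12910683039) (nat_lit 608) (nat_lit 21674108848) (nat_lit 76) (nat_lit 7190083794) (nat_lit 122) (nat_lit 5) (nat_lit 130) (nat_lit 5) (nat_lit 123) (nat_lit 5) (nat_lit 351) (nat_lit 323) (nat_lit 106))))) (XT.nd (nat_lit 234) (nat_lit 836)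 (nat_lit 0) (XT.nd (nat_lit 78) (nat_lit 456) (nat_lit 0) (XT.lf (nat_lit 0) (nat_lit 17116464502) (nat_lit 608) (nat_lit 2770577042) (nat_lit 76) (nat_lit 22641746596) (nat_lit 122) (nat_lit 5) (nat_lit 130) (nat_lit 5) (nat_lit 123) (nat_lit 5) (nat_lit 352) (nat_lit 323) (nat_lit 105)) (XT.nd (nat_lit 78) (nat_lit 0) (nat_lit 0) (XT.lf (nat_lit 0) (nat_lit 17030699086) (nat_lit 456) (nat_lit 4579820764) (nat_lit 532) (nat_lit 21689937862) (nat_lit 116) (nat_lit 5) (nat_lit 122) (nat_lit 5) (nat_lit 123) (nat_lit 5) (nat_lit 353) (nat_lit 323) (nat_lit 104)) (XT.lf (nat_lit 0) (nat_lit 26373604635) (nat_lit 532) (nat_lit 6721164460) (nat_lit 76) (nat_lit 10996484718) (nat_lit 116) (nat_lit 5) (nat_lit 123) (nat_lit 5) (nat_lit 117) (nat_lit 5) (nat_lit 354) (nat_lit 323) (nat_lit 103)))) (XT.nd (nat_lit 78) (nat_lit 380) (nat_lit 0) (XT.lf (nat_lit 0) (nat_lit 13632895476) (nat_lit 456) (nat_lit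 17821545746) (nat_lit 532) (nat_lit 13446089390) (nat_lit 110) (nat_lit 5) (nat_lit 116) (nat_lit 5) (nat_lit 117) (nat_lit 5) (nat_lit 355) (nat_lit 323) (nat_lit 102)) (XT.nd (nat_lit 78) (nat_lit 380) (nat_lit 0) (XT.lf (nat_lit 0) (nat_lit 34733696718) (nat_lit 456) (nat_lit 2020372264) (nat_lit 532) (nat_lit 8978028273) (nat_lit 110) (nat_lit 5) (nat_lit 116) (nat_lit 5) (nat_lit 117) (nat_lit 5) (nat_lit 356) (nat_lit 323) (nat_lit 101)) (XT.lf (nat_lit 0) (nat_lit 9934080250) (nat_lit 380) (nat_lit 32509661870) (nat_lit 456) (nat_lit 4137939527) (nat_lit 105) (nat_lit 5) (nat_lit 110) (nat_lit 5) (nat_lit 111) (nat_lit 5) (nat_lit 357) (nat_lit 323) (nat_lit 100))))))) (XT.nd (nat_lit 936) (nat_lit 304) (nat_lit 0) (XT.nd (nat_lit 468) (nat_lit 1140) (nat_lit 0) (XT.nd (nat_lit 234) (nat_lit 380) (nat_lit 0) (XT.nd (nat_lit 78) (nat_lit 456) (nat_lit 0) (XT.lf (nat_lit 0) (nat_lit 961530767)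 (nat_lit 456) (nat_lit 15764347698) (nat_lit 76) (nat_lit 30726711640) (nat_lit 104) (nat_lit 5) (nat_lit 110) (nat_lit 5) (nat_lit 105) (nat_lit 5) (nat_lit 358) (nat_lit 323) (nat_lit 99)) (XT.nd (nat_lit 78) (nat_lit 0) (nat_lit 0) (XT.lf (nat_lit 0) (nat_lit 5816310390) (nat_lit 456) (nat_lit 369006693) (nat_lit 532) (nat_lit 42161446869) (nat_lit 98) (nat_lit 5) (nat_lit 104) (nat_lit 5) (nat_lit 105) (nat_lit 5) (nat_lit 359) (nat_lit 323) (nat_lit 98)) (XT.lf (nat_lit 0) (nat_lit 11883598200) (nat_lit 532) (nat_lit 21057070054) (nat_lit 76) (nat_lit 16317563499) (nat_lit 98) (nat_lit 5) (nat_lit 105) (nat_lit 5) (nat_lit 99) (nat_lit 5) (nat_lit 360) (nat_lit 323) (nat_lit 97)))) (XT.nd (nat_lit 78) (nat_lit 0) (nat_lit 0) (XT.lf (nat_lit 0) (nat_lit 1076264816) (nat_lit 380) (nat_lit 16689216522) (nat_lit 456) (nat_lit 32431184753) (nat_lit 93) (nat_lit 5) (nat_lit 98) (nat_lit 5) (nat_lit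 99) (nat_lit 5) (nat_lit 361) (nat_lit 323) (nat_lit 96)) (XT.nd (nat_lit 78) (nat_lit 0) (nat_lit 0) (XT.lf (nat_lit 0) (nat_lit 24037715704) (nat_lit 456) (nat_lit 26855831116) (nat_lit 76) (nat_lit 263291846) (nat_lit 93) (nat_lit 5) (nat_lit 99) (nat_lit 5) (nat_lit 94) (nat_lit 5) (nat_lit 362) (nat_lit 323) (nat_lit 95)) (XT.lf (nat_lit 0) (nat_lit 30662071248) (nat_lit 456) (nat_lit 4090138311) (nat_lit 76) (nat_lit 17388690222) (nat_lit 93) (nat_lit 5) (nat_lit 99) (nat_lit 5) (nat_lit 94) (nat_lit 5) (nat_lit 363) (nat_lit 323) (nat_lit 94))))) (XT.nd (nat_lit 234) (nat_lit 456) (nat_lit 0) (XT.nd (nat_lit 78) (nat_lit 304) (nat_lit 0) (XT.lf (nat_lit 0) (nat_lit 19742238633) (nat_lit 380) (nat_lit 17931445127) (nat_lit 456) (nat_lit 15475145115) (nat_lit 88) (nat_lit 5) (nat_lit 93) (nat_lit 5) (nat_lit 94) (nat_lit 5) (nat_lit 364) (nat_lit 323) (nat_lit 93)) (XT.nd (nat_lit 78) (nat_lit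 304) (nat_lit 0) (XT.lf (nat_lit 0) (nat_lit 44371916873) (nat_lit 380) (nat_lit 563803779) (nat_lit 456) (nat_lit 9250074783) (nat_lit 88) (nat_lit 5) (nat_lit 93) (nat_lit 5) (nat_lit 94) (nat_lit 5) (nat_lit 365) (nat_lit 323) (nat_lit 92)) (XT.lf (nat_lit 0) (nat_lit 14603540317) (nat_lit 304) (nat_lit 38117800380) (nat_lit 380) (nat_lit 2523360453) (nat_lit 84) (nat_lit 5) (nat_lit 88) (nat_lit 5) (nat_lit 89) (nat_lit 5) (nat_lit 366) (nat_lit 323) (nat_lit 91)))) (XT.nd (nat_lit 78) (nat_lit 380) (nat_lit 0) (XT.lf (nat_lit 0) (nat_lit 4423672957) (nat_lit 380) (nat_lit 16428167996) (nat_lit 76) (nat_lit 35479130106) (nat_lit 83) (nat_lit 5) (nat_lit 88) (nat_lit 5) (nat_lit 84) (nat_lit 5) (nat_lit 367) (nat_lit 323) (nat_lit 90)) (XT.nd (nat_lit 78) (nat_lit 0) (nat_lit 0) (XT.lf (nat_lit 0) (nat_lit 8653623170) (nat_lit 380) (nat_lit 2956809379) (nat_lit 456) (nat_lit 45836187702) (nat_lit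 78) (nat_lit 5) (nat_lit 83) (nat_lit 5) (nat_lit 84) (nat_lit 5) (nat_lit 368) (nat_lit 323) (nat_lit 89)) (XT.lf (nat_lit 0) (nat_lit 19327950312) (nat_lit 456) (nat_lit 23918020196) (nat_lit 76) (nat_lit 15340315367) (nat_lit 78) (nat_lit 5) (nat_lit 84) (nat_lit 5) (nat_lit 79) (nat_lit 5) (nat_lit 369) (nat_lit 323) (nat_lit 88)))))) (XT.nd (nat_lit 37284) (nat_lit 0) (nat_lit 6536) (XT.nd (nat_lit 37050) (nat_lit 0) (nat_lit 7524) (XT.nd (nat_lit 78) (nat_lit 0) (nat_lit 0) (XT.lf (nat_lit 0) (nat_lit 1705770669) (nat_lit 304) (nat_lit 25615792985) (nat_lit 380) (nat_lit 32437242283) (nat_lit 74) (nat_lit 5) (nat_lit 78) (nat_lit 5) (nat_lit 79) (nat_lit 5) (nat_lit 370) (nat_lit 323) (nat_lit 87)) (XT.nd (nat_lit 78) (nat_lit 0) (nat_lit 0) (XT.lf (nat_lit 0) (nat_lit 28587139685) (nat_lit 304) (nat_lit 7208286955) (nat_lit 380) (nat_lit 25163863247) (nat_lit 74) (nat_lit 5) (nat_lit 78)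 (nat_lit 5) (nat_lit 79) (nat_lit 5) (nat_lit 371) (nat_lit 323) (nat_lit 86)) (XT.lf (nat_lit 0) (nat_lit 44635412050) (nat_lit 380) (nat_lit 6035220308) (nat_lit 76) (nat_lit 11521800283) (nat_lit 74) (nat_lit 5) (nat_lit 79) (nat_lit 5) (nat_lit 75) (nat_lit 5) (nat_lit 372) (nat_lit 323) (nat_lit 85)))) (XT.nd (nat_lit 78) (nat_lit 0) (nat_lit 0) (XT.lf (nat_lit 0) (nat_lit 12404122462) (nat_lit 1140) (nat_lit 618727677) (nat_lit 1140) (nat_lit 618727677) (nat_lit 173) (nat_lit 3) (nat_lit 188) (nat_lit 3) (nat_lit 188) (nat_lit 5) (nat_lit 324) (nat_lit 324) (nat_lit 132)) (XT.nd (nat_lit 78) (nat_lit 0) (nat_lit 0) (XT.lf (nat_lit 76) (nat_lit 10684352372) (nat_lit 0) (nat_lit 14679382539) (nat_lit 1140) (nat_lit 2323005644) (nat_lit 174) (nat_lit 5) (nat_lit 173) (nat_lit 3) (nat_lit 188) (nat_lit 5) (nat_lit 325) (nat_lit 324) (nat_lit 131)) (XT.lf (nat_lit 76) (nat_lit 22987524253) (nat_lit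 0) (nat_lit 2957697288) (nat_lit 1140) (nat_lit 2156937823) (nat_lit 174) (nat_lit 5) (nat_lit 173) (nat_lit 3) (nat_lit 188) (nat_lit 5) (nat_lit 326) (nat_lit 324) (nat_lit 130))))) (XT.nd (nat_lit 234) (nat_lit 1064) (nat_lit 0) (XT.nd (nat_lit 78) (nat_lit 0) (nat_lit 0) (XT.lf (nat_lit 76) (nat_lit 7180522533) (nat_lit 0) (nat_lit 19517221197) (nat_lit 1140) (nat_lit 1827695395) (nat_lit 175) (nat_lit 5) (nat_lit 174) (nat_lit 5) (nat_lit 189) (nat_lit 5) (nat_lit 327) (nat_lit 324) (nat_lit 129)) (XT.nd (nat_lit 78) (nat_lit 0) (nat_lit 76) (XT.lf (nat_lit 76) (nat_lit 19917809057) (nat_lit 0) (nat_lit 7632692317) (nat_lit 1140) (nat_lit 1408592050) (nat_lit 175) (nat_lit 5) (nat_lit 174) (nat_lit 5) (nat_lit 189) (nat_lit 5) (nat_lit 328) (nat_lit 324) (nat_lit 128)) (XT.lf (nat_lit 76) (nat_lit 3656755858) (nat_lit 0) (nat_lit 24848649228) (nat_lit 1140) (nat_lit 898061131) (nat_lit 176)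 (nat_lit 5) (nat_lit 175) (nat_lit 5) (nat_lit 190) (nat_lit 5) (nat_lit 329) (nat_lit 324) (nat_lit 127)))) (XT.nd (nat_lit 78) (nat_lit 1140) (nat_lit 0) (XT.lf (nat_lit 76) (nat_lit 16842257828) (nat_lit 0) (nat_lit 12810008833) (nat_lit 1140) (nat_lit 204009808) (nat_lit 176) (nat_lit 5) (nat_lit 175) (nat_lit 5) (nat_lit 190) (nat_lit 5) (nat_lit 330) (nat_lit 324) (nat_lit 126)) (XT.nd (nat_lit 78) (nat_lit 0) (nat_lit 76) (XT.lf (nat_lit 76) (nat_lit 95862356) (nat_lit 0) (nat_lit 403184272) (nat_lit 1216) (nat_lit 29823537784) (nat_lit 161) (nat_lit 5) (nat_lit 160) (nat_lit 5) (nat_lit 176) (nat_lit 5) (nat_lit 331) (nat_lit 324) (nat_lit 125)) (XT.lf (nat_lit 0) (nat_lit 1468079962) (nat_lit 1140) (nat_lit 17057239746) (nat_lit 1216) (nat_lit 12270036842) (nat_lit 161) (nat_lit 5) (nat_lit 176) (nat_lit 5) (nat_lit 177) (nat_lit 5) (nat_lit 332) (nat_lit 324) (nat_lit 124))))))))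
noncomputable def xc240 : XT := (XT.nd (nat_lit 1794) (nat_lit 3192) (nat_lit 0) (XT.nd (nat_lit 858) (nat_lit 2660) (nat_lit 0) (XT.nd (nat_lit 390) (nat_lit 760) (nat_lit 0) (XT.nd (nat_lit 156) (nat_lit 0) (nat_lit 76) (XT.nd (nat_lit 78) (nat_lit 0) (nat_lit 76) (XT.lf (nat_lit 0) (nat_lit 2467558922) (nat_lit 1140) (nat_lit 3498441397) (nat_lit 1216) (nat_lit 25316275269) (nat_lit 161) (nat_lit 5) (nat_lit 176) (nat_lit 5) (nat_lit 177) (nat_lit 5) (nat_lit 333) (nat_lit 324) (nat_lit 123)) (XT.lf (nat_lit 0) (nat_lit 3665107668) (nat_lit 1140) (nat_lit 21175151718) (nat_lit 1216) (nat_lit 6938505077) (nat_lit 162) (nat_lit 5) (nat_lit 177) (nat_lit 5) (nat_lit 178) (nat_lit 5) (nat_lit 334) (nat_lit 324) (nat_lit 122))) (XT.nd (nat_lit 78) (nat_lit 0) (nat_lit 76) (XT.lf (nat_lit 0) (nat_lit 4990853347) (nat_lit 1140) (nat_lit 7149858639) (nat_lit 1216) (nat_lit 20146672592) (nat_lit 162)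 (nat_lit 5) (nat_lit 177) (nat_lit 5) (nat_lit 178) (nat_lit 5) (nat_lit 335) (nat_lit 324) (nat_lit 121)) (XT.nd (nat_lit 78) (nat_lit 0) (nat_lit 0) (XT.lf (nat_lit 0) (nat_lit 6435230288) (nat_lit 1140) (nat_lit 25379318226) (nat_lit 1216) (nat_lit 994353566) (nat_lit 163) (nat_lit 5) (nat_lit 178) (nat_lit 5) (nat_lit 179) (nat_lit 5) (nat_lit 336) (nat_lit 324) (nat_lit 120)) (XT.lf (nat_lit 0) (nat_lit 8113713552) (nat_lit 1140) (nat_lit 10873650419) (nat_lit 1216) (nat_lit 14352982303) (nat_lit 163) (nat_lit 5) (nat_lit 178) (nat_lit 5) (nat_lit 179) (nat_lit 5) (nat_lit 337) (nat_lit 324) (nat_lit 119))))) (XT.nd (nat_lit 234) (nat_lit 912) (nat_lit 0) (XT.nd (nat_lit 78) (nat_lit 0) (nat_lit 76) (XT.lf (nat_lit 76) (nat_lit 4146344034) (nat_lit 0) (nat_lit 5733788307) (nat_lit 1216) (nat_lit 24006478314) (nat_lit 164) (nat_lit 5) (nat_lit 163) (nat_lit 5) (nat_lit 179) (nat_lit 5) (nat_lit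 338) (nat_lit 324) (nat_lit 118)) (XT.nd (nat_lit 78) (nat_lit 0) (nat_lit 0) (XT.lf (nat_lit 0) (nat_lit 11884318388) (nat_lit 1140) (nat_lit 14685137367) (nat_lit 1216) (nat_lit 7874268137) (nat_lit 164) (nat_lit 5) (nat_lit 179) (nat_lit 5) (nat_lit 180) (nat_lit 5) (nat_lit 339) (nat_lit 324) (nat_lit 117)) (XT.lf (nat_lit 76) (nat_lit 778303896) (nat_lit 0) (nat_lit 13232420697) (nat_lit 1216) (nat_lit 21004967138) (nat_lit 165) (nat_lit 5) (nat_lit 164) (nat_lit 5) (nat_lit 180) (nat_lit 5) (nat_lit 340) (nat_lit 324) (nat_lit 116)))) (XT.nd (nat_lit 78) (nat_lit 1064) (nat_lit 0) (XT.lf (nat_lit 0) (nat_lit 16353426533) (nat_lit 1140) (nat_lit 18601823274) (nat_lit 76) (nat_lit 644997619) (nat_lit 165) (nat_lit 5) (nat_lit 180) (nat_lit 5) (nat_lit 166) (nat_lit 5) (nat_lit 341) (nat_lit 324) (nat_lit 115)) (XT.nd (nat_lit 78) (nat_lit 1064) (nat_lit 0) (XT.lf (nat_lit 0) (nat_lit 18895377477)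 (nat_lit 1140) (nat_lit 2629965801) (nat_lit 76) (nat_lit 14673131286) (nat_lit 165) (nat_lit 5) (nat_lit 180) (nat_lit 5) (nat_lit 166) (nat_lit 5) (nat_lit 342) (nat_lit 324) (nat_lit 114)) (XT.lf (nat_lit 0) (nat_lit 14094370633) (nat_lit 1064) (nat_lit 7552713504) (nat_lit 1140) (nat_lit 15163563165) (nat_lit 151) (nat_lit 5) (nat_lit 165) (nat_lit 5) (nat_lit 166) (nat_lit 5) (nat_lit 343) (nat_lit 324) (nat_lit 113)))))) (XT.nd (nat_lit 468) (nat_lit 988) (nat_lit 0) (XT.nd (nat_lit 234) (nat_lit 1140) (nat_lit 0) (XT.nd (nat_lit 78) (nat_lit 532) (nat_lit 0) (XT.lf (nat_lit 0) (nat_lit 24571961511) (nat_lit 1140) (nat_lit 6133800447) (nat_lit 76) (nat_lit 6732708270) (nat_lit 151) (nat_lit 5) (nat_lit 166) (nat_lit 5) (nat_lit 152) (nat_lit 5) (nat_lit 344) (nat_lit 324) (nat_lit 112)) (XT.nd (nat_lit 78) (nat_lit 0) (nat_lit 0) (XT.lf (nat_lit 0) (nat_lit 11085993213) (nat_lit 532) (nat_lit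 16678050764) (nat_lit 608) (nat_lit 10315703591) (nat_lit 144) (nat_lit 5) (nat_lit 151) (nat_lit 5) (nat_lit 152) (nat_lit 5) (nat_lit 345) (nat_lit 324) (nat_lit 111)) (XT.lf (nat_lit 0) (nat_lit 28946429132) (nat_lit 532) (nat_lit 2165551923) (nat_lit 608) (nat_lit 7626482795) (nat_lit 144) (nat_lit 5) (nat_lit 151) (nat_lit 5) (nat_lit 152) (nat_lit 5) (nat_lit 346) (nat_lit 324) (nat_lit 110)))) (XT.nd (nat_lit 78) (nat_lit 608) (nat_lit 0) (XT.lf (nat_lit 0) (nat_lit 7956425690) (nat_lit 532) (nat_lit 26801492148) (nat_lit 608) (nat_lit 4653100223) (nat_lit 137) (nat_lit 5) (nat_lit 144) (nat_lit 5) (nat_lit 145) (nat_lit 5) (nat_lit 347) (nat_lit 324) (nat_lit 109)) (XT.nd (nat_lit 78) (nat_lit 608) (nat_lit 0) (XT.lf (nat_lit 0) (nat_lit 26414518001) (nat_lit 532) (nat_lit 12217070073) (nat_lit 608) (nat_lit 1468613357) (nat_lit 137) (nat_lit 5) (nat_lit 144) (nat_lit 5) (nat_lit 145) (nat_lit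 5) (nat_lit 348) (nat_lit 324) (nat_lit 108)) (XT.lf (nat_lit 0) (nat_lit 1846988475) (nat_lit 608) (nat_lit 36147117636) (nat_lit 76) (nat_lit 2813307003) (nat_lit 129) (nat_lit 5) (nat_lit 137) (nat_lit 5) (nat_lit 130) (nat_lit 5) (nat_lit 349) (nat_lit 324) (nat_lit 107))))) (XT.nd (nat_lit 234) (nat_lit 456) (nat_lit 0) (XT.nd (nat_lit 78) (nat_lit 532) (nat_lit 0) (XT.lf (nat_lit 0) (nat_lit 5491378670) (nat_lit 608) (nat_lit 17833075644) (nat_lit 76) (nat_lit 18203188396) (nat_lit 129) (nat_lit 5) (nat_lit 137) (nat_lit 5) (nat_lit 130) (nat_lit 5) (nat_lit 350) (nat_lit 324) (nat_lit 106)) (XT.nd (nat_lit 78) (nat_lit 0) (nat_lit 0) (XT.lf (nat_lit 0) (nat_lit 1049203895) (nat_lit 532) (nat_lit 8204341507) (nat_lit 608) (nat_lit 33015683281) (nat_lit 122) (nat_lit 5) (nat_lit 129) (nat_lit 5) (nat_lit 130) (nat_lit 5) (nat_lit 351) (nat_lit 324) (nat_lit 105)) (XT.lf (nat_lit 0) (nat_lit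 13379669077) (nat_lit 608) (nat_lit 22238461288) (nat_lit 76) (nat_lit 7407401866) (nat_lit 122) (nat_lit 5) (nat_lit 130) (nat_lit 5) (nat_lit 123) (nat_lit 5) (nat_lit 352) (nat_lit 324) (nat_lit 104)))) (XT.nd (nat_lit 78) (nat_lit 456) (nat_lit 0) (XT.lf (nat_lit 0) (nat_lit 17709245376) (nat_lit 608) (nat_lit 2770324619) (nat_lit 76) (nat_lit 23322567497) (nat_lit 122) (nat_lit 5) (nat_lit 130) (nat_lit 5) (nat_lit 123) (nat_lit 5) (nat_lit 353) (nat_lit 324) (nat_lit 103)) (XT.nd (nat_lit 78) (nat_lit 0) (nat_lit 0) (XT.lf (nat_lit 0) (nat_lit 17624172442) (nat_lit 456) (nat_lit 4712434159) (nat_lit 532) (nat_lit 22260399977) (nat_lit 116) (nat_lit 5) (nat_lit 122) (nat_lit 5) (nat_lit 123) (nat_lit 5) (nat_lit 354) (nat_lit 324) (nat_lit 102)) (XT.lf (nat_lit 0) (nat_lit 27240363371) (nat_lit 532) (nat_lit 6840302996) (nat_lit 76) (nat_lit 11330930647) (nat_lit 116) (nat_lit 5) (nat_lit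 123) (nat_lit 5) (nat_lit 117) (nat_lit 5) (nat_lit 355) (nat_lit 324) (nat_lit 101))))))) (XT.nd (nat_lit 936) (nat_lit 760) (nat_lit 0) (XT.nd (nat_lit 468) (nat_lit 1064) (nat_lit 0) (XT.nd (nat_lit 234) (nat_lit 532) (nat_lit 0) (XT.nd (nat_lit 78) (nat_lit 380) (nat_lit 0) (XT.lf (nat_lit 0) (nat_lit 14123569949) (nat_lit 456) (nat_lit 18348639835) (nat_lit 532) (nat_lit 13772988517) (nat_lit 110) (nat_lit 5) (nat_lit 116) (nat_lit 5) (nat_lit 117) (nat_lit 5) (nat_lit 356) (nat_lit 324) (nat_lit 100)) (XT.nd (nat_lit 78) (nat_lit 380) (nat_lit 0) (XT.lf (nat_lit 0) (nat_lit 35855015977) (nat_lit 456) (nat_lit 2073651118) (nat_lit 532) (nat_lit 9173113243) (nat_lit 110) (nat_lit 5) (nat_lit 116) (nat_lit 5) (nat_lit 117) (nat_lit 5) (nat_lit 357) (nat_lit 324) (nat_lit 99)) (XT.lf (nat_lit 0) (nat_lit 10312821174) (nat_lit 380) (nat_lit 33474957209) (nat_lit 456) (nat_lit 4189114951) (nat_lit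 105) (nat_lit 5) (nat_lit 110) (nat_lit 5) (nat_lit 111) (nat_lit 5) (nat_lit 358) (nat_lit 324) (nat_lit 98)))) (XT.nd (nat_lit 78) (nat_lit 456) (nat_lit 0) (XT.lf (nat_lit 0) (nat_lit 1059832025) (nat_lit 456) (nat_lit 16157418017) (nat_lit 76) (nat_lit 31656723783) (nat_lit 104) (nat_lit 5) (nat_lit 110) (nat_lit 5) (nat_lit 105) (nat_lit 5) (nat_lit 359) (nat_lit 324) (nat_lit 97)) (XT.nd (nat_lit 78) (nat_lit 0) (nat_lit 0) (XT.lf (nat_lit 0) (nat_lit 6069876872) (nat_lit 456) (nat_lit 369192227) (nat_lit 532) (nat_lit 43355944888) (nat_lit 98) (nat_lit 5) (nat_lit 104) (nat_lit 5) (nat_lit 105) (nat_lit 5) (nat_lit 360) (nat_lit 324) (nat_lit 96)) (XT.lf (nat_lit 0) (nat_lit 12306414041) (nat_lit 532) (nat_lit 21610019608) (nat_lit 76) (nat_lit 16817451830) (nat_lit 98) (nat_lit 5) (nat_lit 105) (nat_lit 5) (nat_lit 99) (nat_lit 5) (nat_lit 361) (nat_lit 324) (nat_lit 95))))) (XT.nd (nat_lit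 234) (nat_lit 684) (nat_lit 0) (XT.nd (nat_lit 78) (nat_lit 0) (nat_lit 0) (XT.lf (nat_lit 0) (nat_lit 1186543126) (nat_lit 380) (nat_lit 17177028941) (nat_lit 456) (nat_lit 33336939257) (nat_lit 93) (nat_lit 5) (nat_lit 98) (nat_lit 5) (nat_lit 99) (nat_lit 5) (nat_lit 362) (nat_lit 324) (nat_lit 94)) (XT.nd (nat_lit 78) (nat_lit 0) (nat_lit 0) (XT.lf (nat_lit 0) (nat_lit 24822196637) (nat_lit 456) (nat_lit 27583912401) (nat_lit 76) (nat_lit 283436283) (nat_lit 93) (nat_lit 5) (nat_lit 99) (nat_lit 5) (nat_lit 94) (nat_lit 5) (nat_lit 363) (nat_lit 324) (nat_lit 93)) (XT.lf (nat_lit 0) (nat_lit 31643437718) (nat_lit 456) (nat_lit 4137508821) (nat_lit 76) (nat_lit 17922239940) (nat_lit 93) (nat_lit 5) (nat_lit 99) (nat_lit 5) (nat_lit 94) (nat_lit 5) (nat_lit 364) (nat_lit 324) (nat_lit 92)))) (XT.nd (nat_lit 78) (nat_lit 304) (nat_lit 0) (XT.lf (nat_lit 0) (nat_lit 20409100866) (nat_lit 380) (nat_lit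 18455223403) (nat_lit 456) (nat_lit 15877064177) (nat_lit 88) (nat_lit 5) (nat_lit 93) (nat_lit 5) (nat_lit 94) (nat_lit 5) (nat_lit 365) (nat_lit 324) (nat_lit 91)) (XT.nd (nat_lit 78) (nat_lit 304) (nat_lit 0) (XT.lf (nat_lit 0) (nat_lit 45775496781) (nat_lit 380) (nat_lit 566965390) (nat_lit 456) (nat_lit 9467057326) (nat_lit 88) (nat_lit 5) (nat_lit 93) (nat_lit 5) (nat_lit 94) (nat_lit 5) (nat_lit 366) (nat_lit 324) (nat_lit 90)) (XT.lf (nat_lit 0) (nat_lit 15115059668) (nat_lit 304) (nat_lit 39245716357) (nat_lit 380) (nat_lit 2539445216) (nat_lit 84) (nat_lit 5) (nat_lit 88) (nat_lit 5) (nat_lit 89) (nat_lit 5) (nat_lit 367) (nat_lit 324) (nat_lit 89)))))) (XT.nd (nat_lit 37440) (nat_lit 0) (nat_lit 6536) (XT.nd (nat_lit 234) (nat_lit 304) (nat_lit 0) (XT.nd (nat_lit 78) (nat_lit 380) (nat_lit 0) (XT.lf (nat_lit 0) (nat_lit 4613133366) (nat_lit 380) (nat_lit 16848526610) (nat_lit 76) (nat_lit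 36557455618) (nat_lit 83) (nat_lit 5) (nat_lit 88) (nat_lit 5) (nat_lit 84) (nat_lit 5) (nat_lit 368) (nat_lit 324) (nat_lit 88)) (XT.nd (nat_lit 78) (nat_lit 0) (nat_lit 0) (XT.lf (nat_lit 0) (nat_lit 8985007640) (nat_lit 380) (nat_lit 3029525139) (nat_lit 456) (nat_lit 47153732762) (nat_lit 78) (nat_lit 5) (nat_lit 83) (nat_lit 5) (nat_lit 84) (nat_lit 5) (nat_lit 369) (nat_lit 324) (nat_lit 87)) (XT.lf (nat_lit 0) (nat_lit 19962100419) (nat_lit 456) (nat_lit 24564322549) (nat_lit 76) (nat_lit 15815744758) (nat_lit 78) (nat_lit 5) (nat_lit 84) (nat_lit 5) (nat_lit 79) (nat_lit 5) (nat_lit 370) (nat_lit 324) (nat_lit 86)))) (XT.nd (nat_lit 37050) (nat_lit 0) (nat_lit 7524) (XT.lf (nat_lit 0) (nat_lit 1827483628) (nat_lit 304) (nat_lit 26367134713) (nat_lit 380) (nat_lit 33355274415) (nat_lit 74) (nat_lit 5) (nat_lit 78) (nat_lit 5) (nat_lit 79) (nat_lit 5) (nat_lit 371) (nat_lit 324) (nat_lit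 85)) (XT.nd (nat_lit 78) (nat_lit 0) (nat_lit 0) (XT.lf (nat_lit 0) (nat_lit 12856132547) (nat_lit 1140) (nat_lit 596068069) (nat_lit 1140) (nat_lit 596068069) (nat_lit 173) (nat_lit 3) (nat_lit 188) (nat_lit 3) (nat_lit 188) (nat_lit 5) (nat_lit 325) (nat_lit 325) (nat_lit 130)) (XT.lf (nat_lit 76) (nat_lit 11086517557) (nat_lit 0) (nat_lit 15194033369) (nat_lit 1140) (nat_lit 2231804293) (nat_lit 174) (nat_lit 5) (nat_lit 173) (nat_lit 3) (nat_lit 188) (nat_lit 5) (nat_lit 326) (nat_lit 325) (nat_lit 129))))) (XT.nd (nat_lit 234) (nat_lit 988) (nat_lit 0) (XT.nd (nat_lit 78) (nat_lit 0) (nat_lit 76) (XT.lf (nat_lit 76) (nat_lit 23756406888) (nat_lit 0) (nat_lit 3118534375) (nat_lit 1140) (nat_lit 2065440598) (nat_lit 174) (nat_lit 5) (nat_lit 173) (nat_lit 3) (nat_lit 188) (nat_lit 5) (nat_lit 327) (nat_lit 325) (nat_lit 128)) (XT.nd (nat_lit 78) (nat_lit 0) (nat_lit 0) (XT.lf (nat_lit 76) (nat_lit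 7479899231) (nat_lit 0) (nat_lit 20165865397) (nat_lit 1140) (nat_lit 1730732400) (nat_lit 175) (nat_lit 5) (nat_lit 174) (nat_lit 5) (nat_lit 189) (nat_lit 5) (nat_lit 328) (nat_lit 325) (nat_lit 127)) (XT.lf (nat_lit 76) (nat_lit 20596858884) (nat_lit 0) (nat_lit 7922961984) (nat_lit 1140) (nat_lit 1303477135) (nat_lit 175) (nat_lit 5) (nat_lit 174) (nat_lit 5) (nat_lit 189) (nat_lit 5) (nat_lit 329) (nat_lit 325) (nat_lit 126)))) (XT.nd (nat_lit 78) (nat_lit 1140) (nat_lit 0) (XT.lf (nat_lit 76) (nat_lit 3852281725) (nat_lit 0) (nat_lit 25647183612) (nat_lit 1140) (nat_lit 781662108) (nat_lit 176) (nat_lit 5) (nat_lit 175) (nat_lit 5) (nat_lit 190) (nat_lit 5) (nat_lit 330) (nat_lit 325) (nat_lit 125)) (XT.nd (nat_lit 78) (nat_lit 1140) (nat_lit 0) (XT.lf (nat_lit 76) (nat_lit 17430849049) (nat_lit 0) (nat_lit 13245838134) (nat_lit 1140) (nat_lit 70964222) (nat_lit 176) (nat_lit 5) (nat_lit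 175) (nat_lit 5) (nat_lit 190) (nat_lit 5) (nat_lit 331) (nat_lit 325) (nat_lit 124)) (XT.lf (nat_lit 76) (nat_lit 184191254) (nat_lit 0) (nat_lit 463124174) (nat_lit 1216) (nat_lit 30580695184) (nat_lit 161) (nat_lit 5) (nat_lit 160) (nat_lit 5) (nat_lit 176) (nat_lit 5) (nat_lit 332) (nat_lit 325) (nat_lit 123))))))))
noncomputable def xc241 : XT := (XT.nd (nat_lit 1794) (nat_lit 2888) (nat_lit 0) (XT.nd (nat_lit 858) (nat_lit 3420) (nat_lit 0) (XT.nd (nat_lit 390) (nat_lit 0) (nat_lit 152) (XT.nd (nat_lit 156) (nat_lit 0) (nat_lit 76) (XT.nd (nat_lit 78) (nat_lit 0) (nat_lit 0) (XT.lf (nat_lit 0) (nat_lit 1641090799) (nat_lit 1140) (nat_lit 17481418813) (nat_lit 1216) (nat_lit 12592593523) (nat_lit 161) (nat_lit 5) (nat_lit 176) (nat_lit 5) (nat_lit 177) (nat_lit 5) (nat_lit 333) (nat_lit 325) (nat_lit 122)) (XT.lf (nat_lit 0) (nat_lit 2666797766) (nat_lit 1140) (nat_lit 3518406167) (nat_lit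 1216) (nat_lit 26031545639) (nat_lit 161) (nat_lit 5) (nat_lit 176) (nat_lit 5) (nat_lit 177) (nat_lit 5) (nat_lit 334) (nat_lit 325) (nat_lit 121))) (XT.nd (nat_lit 78) (nat_lit 0) (nat_lit 0) (XT.lf (nat_lit 0) (nat_lit 3897067589) (nat_lit 1140) (nat_lit 21721981422) (nat_lit 1216) (nat_lit 7109187193) (nat_lit 162) (nat_lit 5) (nat_lit 177) (nat_lit 5) (nat_lit 178) (nat_lit 5) (nat_lit 335) (nat_lit 325) (nat_lit 120)) (XT.nd (nat_lit 78) (nat_lit 0) (nat_lit 76) (XT.lf (nat_lit 0) (nat_lit 5259032045) (nat_lit 1140) (nat_lit 7278505031) (nat_lit 1216) (nat_lit 20714691182) (nat_lit 162) (nat_lit 5) (nat_lit 177) (nat_lit 5) (nat_lit 178) (nat_lit 5) (nat_lit 336) (nat_lit 325) (nat_lit 119)) (XT.lf (nat_lit 0) (nat_lit 6743811162) (nat_lit 1140) (nat_lit 26051701542) (nat_lit 1216) (nat_lit 993972987) (nat_lit 163) (nat_lit 5) (nat_lit 178) (nat_lit 5) (nat_lit 179) (nat_lit 5) (nat_lit 337)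 (nat_lit 325) (nat_lit 118))))) (XT.nd (nat_lit 234) (nat_lit 0) (nat_lit 76) (XT.nd (nat_lit 78) (nat_lit 0) (nat_lit 0) (XT.lf (nat_lit 0) (nat_lit 8469284149) (nat_lit 1140) (nat_lit 11113455825) (nat_lit 1216) (nat_lit 14754240524) (nat_lit 163) (nat_lit 5) (nat_lit 178) (nat_lit 5) (nat_lit 179) (nat_lit 5) (nat_lit 338) (nat_lit 325) (nat_lit 117)) (XT.nd (nat_lit 78) (nat_lit 0) (nat_lit 76) (XT.lf (nat_lit 76) (nat_lit 4356291364) (nat_lit 0) (nat_lit 5929959792) (nat_lit 1216) (nat_lit 24613461141) (nat_lit 164) (nat_lit 5) (nat_lit 163) (nat_lit 5) (nat_lit 179) (nat_lit 5) (nat_lit 339) (nat_lit 325) (nat_lit 116)) (XT.lf (nat_lit 0) (nat_lit 12347141749) (nat_lit 1140) (nat_lit 15039006141) (nat_lit 1216) (nat_lit 8087499648) (nat_lit 164) (nat_lit 5) (nat_lit 179) (nat_lit 5) (nat_lit 180) (nat_lit 5) (nat_lit 340) (nat_lit 325) (nat_lit 115)))) (XT.nd (nat_lit 78) (nat_lit 0) (nat_lit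 76) (XT.lf (nat_lit 76) (nat_lit 887488503) (nat_lit 0) (nat_lit 13647580805) (nat_lit 1216) (nat_lit 21527779035) (nat_lit 165) (nat_lit 5) (nat_lit 164) (nat_lit 5) (nat_lit 180) (nat_lit 5) (nat_lit 341) (nat_lit 325) (nat_lit 114)) (XT.nd (nat_lit 78) (nat_lit 0) (nat_lit 0) (XT.lf (nat_lit 0) (nat_lit 16944852773) (nat_lit 1140) (nat_lit 19073155195) (nat_lit 76) (nat_lit 647034360) (nat_lit 165) (nat_lit 5) (nat_lit 180) (nat_lit 5) (nat_lit 166) (nat_lit 5) (nat_lit 342) (nat_lit 325) (nat_lit 113)) (XT.lf (nat_lit 0) (nat_lit 19560125640) (nat_lit 1140) (nat_lit 2624667904) (nat_lit 76) (nat_lit 15096516304) (nat_lit 165) (nat_lit 5) (nat_lit 180) (nat_lit 5) (nat_lit 166) (nat_lit 5) (nat_lit 343) (nat_lit 325) (nat_lit 112)))))) (XT.nd (nat_lit 468) (nat_lit 1596) (nat_lit 0) (XT.nd (nat_lit 234) (nat_lit 532) (nat_lit 0) (XT.nd (nat_lit 78) (nat_lit 532) (nat_lit 0) (XT.lf (nat_lit 0)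 (nat_lit 14600573163) (nat_lit 1064) (nat_lit 7791760681) (nat_lit 1140) (nat_lit 15519580725) (nat_lit 151) (nat_lit 5) (nat_lit 165) (nat_lit 5) (nat_lit 166) (nat_lit 5) (nat_lit 344) (nat_lit 325) (nat_lit 111)) (XT.nd (nat_lit 78) (nat_lit 532) (nat_lit 0) (XT.lf (nat_lit 0) (nat_lit 25402049827) (nat_lit 1140) (nat_lit 6233791750) (nat_lit 76) (nat_lit 6922822994) (nat_lit 151) (nat_lit 5) (nat_lit 166) (nat_lit 5) (nat_lit 152) (nat_lit 5) (nat_lit 345) (nat_lit 325) (nat_lit 110)) (XT.lf (nat_lit 0) (nat_lit 11501771967) (nat_lit 532) (nat_lit 17186215875) (nat_lit 608) (nat_lit 10531254603) (nat_lit 144) (nat_lit 5) (nat_lit 151) (nat_lit 5) (nat_lit 152) (nat_lit 5) (nat_lit 346) (nat_lit 325) (nat_lit 109)))) (XT.nd (nat_lit 78) (nat_lit 532) (nat_lit 0) (XT.lf (nat_lit 0) (nat_lit 29895597693) (nat_lit 532) (nat_lit 2238114197) (nat_lit 608) (nat_lit 7764092720) (nat_lit 144) (nat_lit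 5) (nat_lit 151) (nat_lit 5) (nat_lit 152) (nat_lit 5) (nat_lit 347) (nat_lit 325) (nat_lit 108)) (XT.nd (nat_lit 78) (nat_lit 0) (nat_lit 0) (XT.lf (nat_lit 0) (nat_lit 8277960104) (nat_lit 532) (nat_lit 27609218186) (nat_lit 608) (nat_lit 4703417332) (nat_lit 137) (nat_lit 5) (nat_lit 144) (nat_lit 5) (nat_lit 145) (nat_lit 5) (nat_lit 348) (nat_lit 325) (nat_lit 107)) (XT.lf (nat_lit 0) (nat_lit 27287382320) (nat_lit 532) (nat_lit 12587156227) (nat_lit 608) (nat_lit 1425996129) (nat_lit 137) (nat_lit 5) (nat_lit 144) (nat_lit 5) (nat_lit 145) (nat_lit 5) (nat_lit 349) (nat_lit 325) (nat_lit 106))))) (XT.nd (nat_lit 234) (nat_lit 456) (nat_lit 0) (XT.nd (nat_lit 78) (nat_lit 532) (nat_lit 0) (XT.lf (nat_lit 0) (nat_lit 1985672602) (nat_lit 608) (nat_lit 37147409019) (nat_lit 76) (nat_lit 2895911707) (nat_lit 129) (nat_lit 5) (nat_lit 137) (nat_lit 5) (nat_lit 130) (nat_lit 5) (nat_lit 350) (nat_lit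 325) (nat_lit 105)) (XT.nd (nat_lit 78) (nat_lit 532) (nat_lit 0) (XT.lf (nat_lit 0) (nat_lit 5736969032) (nat_lit 608) (nat_lit 18286395927) (nat_lit 76) (nat_lit 18747541808) (nat_lit 129) (nat_lit 5) (nat_lit 137) (nat_lit 5) (nat_lit 130) (nat_lit 5) (nat_lit 351) (nat_lit 325) (nat_lit 104)) (XT.lf (nat_lit 0) (nat_lit 1161551292) (nat_lit 532) (nat_lit 8448872033) (nat_lit 608) (nat_lit 33924368388) (nat_lit 122) (nat_lit 5) (nat_lit 129) (nat_lit 5) (nat_lit 130) (nat_lit 5) (nat_lit 352) (nat_lit 325) (nat_lit 103)))) (XT.nd (nat_lit 78) (nat_lit 456) (nat_lit 0) (XT.lf (nat_lit 0) (nat_lit 13858036761) (nat_lit 608) (nat_lit 22824673638) (nat_lit 76) (nat_lit 7631146741) (nat_lit 122) (nat_lit 5) (nat_lit 130) (nat_lit 5) (nat_lit 123) (nat_lit 5) (nat_lit 353) (nat_lit 325) (nat_lit 102)) (XT.nd (nat_lit 78) (nat_lit 456) (nat_lit 0) (XT.lf (nat_lit 0) (nat_lit 18315258282) (nat_lit 608)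 (nat_lit 2774850388) (nat_lit 76) (nat_lit 24023722987) (nat_lit 122) (nat_lit 5) (nat_lit 130) (nat_lit 5) (nat_lit 123) (nat_lit 5) (nat_lit 354) (nat_lit 325) (nat_lit 101)) (XT.lf (nat_lit 0) (nat_lit 18230711154) (nat_lit 456) (nat_lit 4849300417) (nat_lit 532) (nat_lit 22852581832) (nat_lit 116) (nat_lit 5) (nat_lit 122) (nat_lit 5) (nat_lit 123) (nat_lit 5) (nat_lit 355) (nat_lit 325) (nat_lit 100))))))) (XT.nd (nat_lit 936) (nat_lit 760) (nat_lit 0) (XT.nd (nat_lit 468) (nat_lit 760) (nat_lit 0) (XT.nd (nat_lit 234) (nat_lit 912) (nat_lit 0) (XT.nd (nat_lit 78) (nat_lit 456) (nat_lit 0) (XT.lf (nat_lit 0) (nat_lit 28128787956) (nat_lit 532) (nat_lit 6967751320) (nat_lit 76) (nat_lit 11675148686) (nat_lit 116) (nat_lit 5) (nat_lit 123) (nat_lit 5) (nat_lit 117) (nat_lit 5) (nat_lit 356) (nat_lit 325) (nat_lit 99)) (XT.nd (nat_lit 78) (nat_lit 0) (nat_lit 0) (XT.lf (nat_lit 0) (nat_lit 14624275454)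 (nat_lit 456) (nat_lit 18891980279) (nat_lit 532) (nat_lit 14114085087) (nat_lit 110) (nat_lit 5) (nat_lit 116) (nat_lit 5) (nat_lit 117) (nat_lit 5) (nat_lit 357) (nat_lit 325) (nat_lit 98)) (XT.lf (nat_lit 0) (nat_lit 37005422191) (nat_lit 456) (nat_lit 2128949242) (nat_lit 532) (nat_lit 9378313354) (nat_lit 110) (nat_lit 5) (nat_lit 116) (nat_lit 5) (nat_lit 117) (nat_lit 5) (nat_lit 358) (nat_lit 325) (nat_lit 97)))) (XT.nd (nat_lit 78) (nat_lit 532) (nat_lit 0) (XT.lf (nat_lit 0) (nat_lit 10698290752) (nat_lit 380) (nat_lit 34469785135) (nat_lit 456) (nat_lit 4246013999) (nat_lit 105) (nat_lit 5) (nat_lit 110) (nat_lit 5) (nat_lit 111) (nat_lit 5) (nat_lit 359) (nat_lit 325) (nat_lit 96)) (XT.nd (nat_lit 78) (nat_lit 456) (nat_lit 0) (XT.lf (nat_lit 0) (nat_lit 1157095301) (nat_lit 456) (nat_lit 16566864743) (nat_lit 76) (nat_lit 32614164957) (nat_lit 104) (nat_lit 5) (nat_lit 110) (nat_lit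 5) (nat_lit 105) (nat_lit 5) (nat_lit 360) (nat_lit 325) (nat_lit 95)) (XT.lf (nat_lit 0) (nat_lit 6326510994) (nat_lit 456) (nat_lit 370008151) (nat_lit 532) (nat_lit 44590315961) (nat_lit 98) (nat_lit 5) (nat_lit 104) (nat_lit 5) (nat_lit 105) (nat_lit 5) (nat_lit 361) (nat_lit 325) (nat_lit 94))))) (XT.nd (nat_lit 234) (nat_lit 380) (nat_lit 0) (XT.nd (nat_lit 78) (nat_lit 380) (nat_lit 0) (XT.lf (nat_lit 0) (nat_lit 12738108014) (nat_lit 532) (nat_lit 22184078941) (nat_lit 76) (nat_lit 17331742022) (nat_lit 98) (nat_lit 5) (nat_lit 105) (nat_lit 5) (nat_lit 99) (nat_lit 5) (nat_lit 362) (nat_lit 325) (nat_lit 93)) (XT.nd (nat_lit 78) (nat_lit 0) (nat_lit 0) (XT.lf (nat_lit 0) (nat_lit 1295652820) (nat_lit 380) (nat_lit 17680214182) (nat_lit 456) (nat_lit 34273722863) (nat_lit 93) (nat_lit 5) (nat_lit 98) (nat_lit 5) (nat_lit 99) (nat_lit 5) (nat_lit 363) (nat_lit 325) (nat_lit 92)) (XT.lf (nat_lit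 0) (nat_lit 25626575480) (nat_lit 456) (nat_lit 28338290317) (nat_lit 76) (nat_lit 303482101) (nat_lit 93) (nat_lit 5) (nat_lit 99) (nat_lit 5) (nat_lit 94) (nat_lit 5) (nat_lit 364) (nat_lit 325) (nat_lit 91)))) (XT.nd (nat_lit 78) (nat_lit 380) (nat_lit 0) (XT.lf (nat_lit 0) (nat_lit 32650714582) (nat_lit 456) (nat_lit 4190624905) (nat_lit 76) (nat_lit 18471113673) (nat_lit 93) (nat_lit 5) (nat_lit 99) (nat_lit 5) (nat_lit 94) (nat_lit 5) (nat_lit 365) (nat_lit 325) (nat_lit 90)) (XT.nd (nat_lit 78) (nat_lit 0) (nat_lit 0) (XT.lf (nat_lit 0) (nat_lit 21091686904) (nat_lit 380) (nat_lit 18995528162) (nat_lit 456) (nat_lit 16294619112) (nat_lit 88) (nat_lit 5) (nat_lit 93) (nat_lit 5) (nat_lit 94) (nat_lit 5) (nat_lit 366) (nat_lit 325) (nat_lit 89)) (XT.lf (nat_lit 0) (nat_lit 47217026745) (nat_lit 380) (nat_lit 571011300) (nat_lit 456) (nat_lit 9694023424) (nat_lit 88) (nat_lit 5) (nat_lit 93)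 (nat_lit 5) (nat_lit 94) (nat_lit 5) (nat_lit 367) (nat_lit 325) (nat_lit 88)))))) (XT.nd (nat_lit 37518) (nat_lit 0) (nat_lit 6232) (XT.nd (nat_lit 234) (nat_lit 0) (nat_lit 0) (XT.nd (nat_lit 78) (nat_lit 456) (nat_lit 0) (XT.lf (nat_lit 0) (nat_lit 15637710385) (nat_lit 304) (nat_lit 40408366353) (nat_lit 380) (nat_lit 2559434727) (nat_lit 84) (nat_lit 5) (nat_lit 88) (nat_lit 5) (nat_lit 89) (nat_lit 5) (nat_lit 368) (nat_lit 325) (nat_lit 87)) (XT.nd (nat_lit 78) (nat_lit 380) (nat_lit 0) (XT.lf (nat_lit 0) (nat_lit 4805019892) (nat_lit 380) (nat_lit 17285656999) (nat_lit 76) (nat_lit 37667330016) (nat_lit 83) (nat_lit 5) (nat_lit 88) (nat_lit 5) (nat_lit 84) (nat_lit 5) (nat_lit 369) (nat_lit 325) (nat_lit 86)) (XT.lf (nat_lit 0) (nat_lit 9322213421) (nat_lit 380) (nat_lit 3105340179) (nat_lit 456) (nat_lit 48514107238) (nat_lit 78) (nat_lit 5) (nat_lit 83) (nat_lit 5) (nat_lit 84) (nat_lit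 5) (nat_lit 370) (nat_lit 325) (nat_lit 85)))) (XT.nd (nat_lit 37128) (nat_lit 0) (nat_lit 7220) (XT.lf (nat_lit 0) (nat_lit 20612157321) (nat_lit 456) (nat_lit 25234103339) (nat_lit 76) (nat_lit 16304563344) (nat_lit 78) (nat_lit 5) (nat_lit 84) (nat_lit 5) (nat_lit 79) (nat_lit 5) (nat_lit 371) (nat_lit 325) (nat_lit 84)) (XT.nd (nat_lit 78) (nat_lit 0) (nat_lit 0) (XT.lf (nat_lit 0) (nat_lit 13317117129) (nat_lit 1140) (nat_lit 575094952) (nat_lit 1140) (nat_lit 575094952) (nat_lit 173) (nat_lit 3) (nat_lit 188) (nat_lit 3) (nat_lit 188) (nat_lit 5) (nat_lit 326) (nat_lit 326) (nat_lit 128)) (XT.lf (nat_lit 76) (nat_lit 11496061537) (nat_lit 0) (nat_lit 15719860359) (nat_lit 1140) (nat_lit 2147102733) (nat_lit 174) (nat_lit 5) (nat_lit 173) (nat_lit 3) (nat_lit 188) (nat_lit 5) (nat_lit 327) (nat_lit 326) (nat_lit 127))))) (XT.nd (nat_lit 234) (nat_lit 988) (nat_lit 0) (XT.nd (nat_lit 78) (nat_lit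 0) (nat_lit 76) (XT.lf (nat_lit 76) (nat_lit 24543806330) (nat_lit 0) (nat_lit 3280057386) (nat_lit 1140) (nat_lit 1980165283) (nat_lit 174) (nat_lit 5) (nat_lit 173) (nat_lit 3) (nat_lit 188) (nat_lit 5) (nat_lit 328) (nat_lit 326) (nat_lit 126)) (XT.nd (nat_lit 78) (nat_lit 0) (nat_lit 0) (XT.lf (nat_lit 76) (nat_lit 7783437523) (nat_lit 0) (nat_lit 20830345144) (nat_lit 1140) (nat_lit 1639574103) (nat_lit 175) (nat_lit 5) (nat_lit 174) (nat_lit 5) (nat_lit 189) (nat_lit 5) (nat_lit 329) (nat_lit 326) (nat_lit 125)) (XT.lf (nat_lit 76) (nat_lit 21291600879) (nat_lit 0) (nat_lit 8218421508) (nat_lit 1140) (nat_lit 1203668566) (nat_lit 175) (nat_lit 5) (nat_lit 174) (nat_lit 5) (nat_lit 189) (nat_lit 5) (nat_lit 330) (nat_lit 326) (nat_lit 124)))) (XT.nd (nat_lit 78) (nat_lit 1140) (nat_lit 0) (XT.lf (nat_lit 76) (nat_lit 4048746766) (nat_lit 0) (nat_lit 26466627311) (nat_lit 1140) (nat_lit 669999465)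 (nat_lit 176) (nat_lit 5) (nat_lit 175) (nat_lit 5) (nat_lit 190) (nat_lit 5) (nat_lit 331) (nat_lit 326) (nat_lit 123)) (XT.nd (nat_lit 78) (nat_lit 0) (nat_lit 0) (XT.lf (nat_lit 0) (nat_lit 56950612) (nat_lit 1140) (nat_lit 13634258635) (nat_lit 1216) (nat_lit 17974789196) (nat_lit 160) (nat_lit 5) (nat_lit 175) (nat_lit 5) (nat_lit 176) (nat_lit 5) (nat_lit 332) (nat_lit 326) (nat_lit 122)) (XT.lf (nat_lit 76) (nat_lit 270264666) (nat_lit 0) (nat_lit 522115809) (nat_lit 1216) (nat_lit 31368463166) (nat_lit 161) (nat_lit 5) (nat_lit 160) (nat_lit 5) (nat_lit 176) (nat_lit 5) (nat_lit 333) (nat_lit 326) (nat_lit 121))))))))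
noncomputable def xc242 : XT := (XT.nd (nat_lit 1794) (nat_lit 2508) (nat_lit 0) (XT.nd (nat_lit 858) (nat_lit 3420) (nat_lit 0) (XT.nd (nat_lit 390) (nat_lit 0) (nat_lit 152) (XT.nd (nat_lit 156) (nat_lit 0) (nat_lit 76) (XT.nd (nat_lit 78) (nat_lit 0) (nat_lit 0) (XT.lf (nat_lit 0) (nat_lit 1811888645) (nat_lit 1140) (nat_lit 17923348298) (nat_lit 1216) (nat_lit 12927441341) (nat_lit 161) (nat_lit 5) (nat_lit 176) (nat_lit 5) (nat_lit 177) (nat_lit 5) (nat_lit 334) (nat_lit 326) (nat_lit 120)) (XT.lf (nat_lit 0) (nat_lit 2864826089) (nat_lit 1140) (nat_lit 3543848567) (nat_lit 1216) (nat_lit 26770812409) (nat_lit 161) (nat_lit 5) (nat_lit 176) (nat_lit 5) (nat_lit 177) (nat_lit 5) (nat_lit 335) (nat_lit 326) (nat_lit 119))) (XT.nd (nat_lit 78) (nat_lit 0) (nat_lit 0) (XT.lf (nat_lit 0) (nat_lit 4128982625) (nat_lit 1140) (nat_lit 22290291965) (nat_lit 1216) (nat_lit 7287140879) (nat_lit 162)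 (nat_lit 5) (nat_lit 177) (nat_lit 5) (nat_lit 178) (nat_lit 5) (nat_lit 336) (nat_lit 326) (nat_lit 118)) (XT.nd (nat_lit 78) (nat_lit 0) (nat_lit 76) (XT.lf (nat_lit 0) (nat_lit 5528456413) (nat_lit 1140) (nat_lit 7415938920) (nat_lit 1216) (nat_lit 21301838781) (nat_lit 162) (nat_lit 5) (nat_lit 177) (nat_lit 5) (nat_lit 178) (nat_lit 5) (nat_lit 337) (nat_lit 326) (nat_lit 117)) (XT.lf (nat_lit 0) (nat_lit 7055017915) (nat_lit 1140) (nat_lit 26749365105) (nat_lit 1216) (nat_lit 995315236) (nat_lit 163) (nat_lit 5) (nat_lit 178) (nat_lit 5) (nat_lit 179) (nat_lit 5) (nat_lit 338) (nat_lit 326) (nat_lit 116))))) (XT.nd (nat_lit 234) (nat_lit 0) (nat_lit 76) (XT.nd (nat_lit 78) (nat_lit 0) (nat_lit 0) (XT.lf (nat_lit 0) (nat_lit 8829083468) (nat_lit 1140) (nat_lit 11365415341) (nat_lit 1216) (nat_lit 15169220225) (nat_lit 163) (nat_lit 5) (nat_lit 178) (nat_lit 5) (nat_lit 179) (nat_lit 5) (nat_lit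 339) (nat_lit 326) (nat_lit 115)) (XT.nd (nat_lit 78) (nat_lit 0) (nat_lit 76) (XT.lf (nat_lit 76) (nat_lit 4567625791) (nat_lit 0) (nat_lit 6130629663) (nat_lit 1216) (nat_lit 25245152258) (nat_lit 164) (nat_lit 5) (nat_lit 163) (nat_lit 5) (nat_lit 179) (nat_lit 5) (nat_lit 340) (nat_lit 326) (nat_lit 114)) (XT.lf (nat_lit 0) (nat_lit 12817748112) (nat_lit 1140) (nat_lit 15408467073) (nat_lit 1216) (nat_lit 8308448200) (nat_lit 164) (nat_lit 5) (nat_lit 179) (nat_lit 5) (nat_lit 180) (nat_lit 5) (nat_lit 341) (nat_lit 326) (nat_lit 113)))) (XT.nd (nat_lit 78) (nat_lit 0) (nat_lit 76) (XT.lf (nat_lit 76) (nat_lit 995021340) (nat_lit 0) (nat_lit 14074151680) (nat_lit 1216) (nat_lit 22072436877) (nat_lit 165) (nat_lit 5) (nat_lit 164) (nat_lit 5) (nat_lit 180) (nat_lit 5) (nat_lit 342) (nat_lit 326) (nat_lit 112)) (XT.nd (nat_lit 78) (nat_lit 0) (nat_lit 0) (XT.lf (nat_lit 0) (nat_lit 17548234122)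 (nat_lit 1140) (nat_lit 19563605316) (nat_lit 76) (nat_lit 650126050) (nat_lit 165) (nat_lit 5) (nat_lit 180) (nat_lit 5) (nat_lit 166) (nat_lit 5) (nat_lit 343) (nat_lit 326) (nat_lit 111)) (XT.lf (nat_lit 0) (nat_lit 20239197144) (nat_lit 1140) (nat_lit 2624044315) (nat_lit 76) (nat_lit 15533567774) (nat_lit 165) (nat_lit 5) (nat_lit 180) (nat_lit 5) (nat_lit 166) (nat_lit 5) (nat_lit 344) (nat_lit 326) (nat_lit 110)))))) (XT.nd (nat_lit 468) (nat_lit 1596) (nat_lit 0) (XT.nd (nat_lit 234) (nat_lit 532) (nat_lit 0) (XT.nd (nat_lit 78) (nat_lit 532) (nat_lit 0) (XT.lf (nat_lit 0) (nat_lit 15117175909) (nat_lit 1064) (nat_lit 8037263687) (nat_lit 1140) (nat_lit 15891955465) (nat_lit 151) (nat_lit 5) (nat_lit 165) (nat_lit 5) (nat_lit 166) (nat_lit 5) (nat_lit 345) (nat_lit 326) (nat_lit 109)) (XT.nd (nat_lit 78) (nat_lit 532) (nat_lit 0) (XT.lf (nat_lit 0) (nat_lit 26251706260) (nat_lit 1140) (nat_lit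 6341606040) (nat_lit 76) (nat_lit 7119322347) (nat_lit 151) (nat_lit 5) (nat_lit 166) (nat_lit 5) (nat_lit 152) (nat_lit 5) (nat_lit 346) (nat_lit 326) (nat_lit 108)) (XT.lf (nat_lit 0) (nat_lit 11925248124) (nat_lit 532) (nat_lit 17709176834) (nat_lit 608) (nat_lit 10758663543) (nat_lit 144) (nat_lit 5) (nat_lit 151) (nat_lit 5) (nat_lit 152) (nat_lit 5) (nat_lit 347) (nat_lit 326) (nat_lit 107)))) (XT.nd (nat_lit 78) (nat_lit 532) (nat_lit 0) (XT.lf (nat_lit 0) (nat_lit 30868604457) (nat_lit 532) (nat_lit 2312417315) (nat_lit 608) (nat_lit 7911065310) (nat_lit 144) (nat_lit 5) (nat_lit 151) (nat_lit 5) (nat_lit 152) (nat_lit 5) (nat_lit 348) (nat_lit 326) (nat_lit 106)) (XT.nd (nat_lit 78) (nat_lit 0) (nat_lit 0) (XT.lf (nat_lit 0) (nat_lit 8604385100) (nat_lit 532) (nat_lit 28440964685) (nat_lit 608) (nat_lit 4760368756) (nat_lit 137) (nat_lit 5) (nat_lit 144) (nat_lit 5) (nat_lit 145) (nat_lit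 5) (nat_lit 349) (nat_lit 326) (nat_lit 105)) (XT.lf (nat_lit 0) (nat_lit 28181815628) (nat_lit 532) (nat_lit 12968139801) (nat_lit 608) (nat_lit 1387075919) (nat_lit 137) (nat_lit 5) (nat_lit 144) (nat_lit 5) (nat_lit 145) (nat_lit 5) (nat_lit 350) (nat_lit 326) (nat_lit 104))))) (XT.nd (nat_lit 234) (nat_lit 456) (nat_lit 0) (XT.nd (nat_lit 78) (nat_lit 532) (nat_lit 0) (XT.lf (nat_lit 0) (nat_lit 2123736958) (nat_lit 608) (nat_lit 38182538098) (nat_lit 76) (nat_lit 2981097563) (nat_lit 129) (nat_lit 5) (nat_lit 137) (nat_lit 5) (nat_lit 130) (nat_lit 5) (nat_lit 351) (nat_lit 326) (nat_lit 103)) (XT.nd (nat_lit 78) (nat_lit 532) (nat_lit 0) (XT.lf (nat_lit 0) (nat_lit 5985286043) (nat_lit 608) (nat_lit 18758004124) (nat_lit 76) (nat_lit 19308325834) (nat_lit 129) (nat_lit 5) (nat_lit 137) (nat_lit 5) (nat_lit 130) (nat_lit 5) (nat_lit 352) (nat_lit 326) (nat_lit 102)) (XT.lf (nat_lit 0) (nat_lit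 1272626770) (nat_lit 532) (nat_lit 8700830305) (nat_lit 608) (nat_lit 34865008864) (nat_lit 122) (nat_lit 5) (nat_lit 129) (nat_lit 5) (nat_lit 130) (nat_lit 5) (nat_lit 353) (nat_lit 326) (nat_lit 101)))) (XT.nd (nat_lit 78) (nat_lit 456) (nat_lit 0) (XT.lf (nat_lit 0) (nat_lit 14346336644) (nat_lit 608) (nat_lit 23433118731) (nat_lit 76) (nat_lit 7861516546) (nat_lit 122) (nat_lit 5) (nat_lit 130) (nat_lit 5) (nat_lit 123) (nat_lit 5) (nat_lit 354) (nat_lit 326) (nat_lit 100)) (XT.nd (nat_lit 78) (nat_lit 456) (nat_lit 0) (XT.lf (nat_lit 0) (nat_lit 18935161449) (nat_lit 608) (nat_lit 2784022971) (nat_lit 76) (nat_lit 24745828271) (nat_lit 122) (nat_lit 5) (nat_lit 130) (nat_lit 5) (nat_lit 123) (nat_lit 5) (nat_lit 355) (nat_lit 326) (nat_lit 99)) (XT.lf (nat_lit 0) (nat_lit 18850979212) (nat_lit 456) (nat_lit 4990531370) (nat_lit 532) (nat_lit 23466870621) (nat_lit 116) (nat_lit 5) (nat_lit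 122) (nat_lit 5) (nat_lit 123) (nat_lit 5) (nat_lit 356) (nat_lit 326) (nat_lit 98))))))) (XT.nd (nat_lit 936) (nat_lit 380) (nat_lit 0) (XT.nd (nat_lit 468) (nat_lit 760) (nat_lit 0) (XT.nd (nat_lit 234) (nat_lit 912) (nat_lit 0) (XT.nd (nat_lit 78) (nat_lit 456) (nat_lit 0) (XT.lf (nat_lit 0) (nat_lit 29039777321) (nat_lit 532) (nat_lit 7103486879) (nat_lit 76) (nat_lit 12029446996) (nat_lit 116) (nat_lit 5) (nat_lit 123) (nat_lit 5) (nat_lit 117) (nat_lit 5) (nat_lit 357) (nat_lit 326) (nat_lit 97)) (XT.nd (nat_lit 78) (nat_lit 0) (nat_lit 0) (XT.lf (nat_lit 0) (nat_lit 15135582100) (nat_lit 456) (nat_lit 19452029581) (nat_lit 532) (nat_lit 14469552992) (nat_lit 110) (nat_lit 5) (nat_lit 116) (nat_lit 5) (nat_lit 117) (nat_lit 5) (nat_lit 358) (nat_lit 326) (nat_lit 96)) (XT.lf (nat_lit 0) (nat_lit 38186049306) (nat_lit 456) (nat_lit 2186303053) (nat_lit 532) (nat_lit 9593687368) (nat_lit 110)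 (nat_lit 5) (nat_lit 116) (nat_lit 5) (nat_lit 117) (nat_lit 5) (nat_lit 359) (nat_lit 326) (nat_lit 95)))) (XT.nd (nat_lit 78) (nat_lit 532) (nat_lit 0) (XT.lf (nat_lit 0) (nat_lit 11090956831) (nat_lit 380) (nat_lit 35494998691) (nat_lit 456) (nat_lit 4308567951) (nat_lit 105) (nat_lit 5) (nat_lit 110) (nat_lit 5) (nat_lit 111) (nat_lit 5) (nat_lit 360) (nat_lit 326) (nat_lit 94)) (XT.nd (nat_lit 78) (nat_lit 456) (nat_lit 0) (XT.lf (nat_lit 0) (nat_lit 1253518325) (nat_lit 456) (nat_lit 16992916010) (nat_lit 76) (nat_lit 33599885090) (nat_lit 104) (nat_lit 5) (nat_lit 110) (nat_lit 5) (nat_lit 105) (nat_lit 5) (nat_lit 361) (nat_lit 326) (nat_lit 93)) (XT.lf (nat_lit 0) (nat_lit 6586565365) (nat_lit 456) (nat_lit 371437509) (nat_lit 532) (nat_lit 45865524474) (nat_lit 98) (nat_lit 5) (nat_lit 104) (nat_lit 5) (nat_lit 105) (nat_lit 5) (nat_lit 362) (nat_lit 326) (nat_lit 92))))) (XT.nd (nat_lit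 234) (nat_lit 380) (nat_lit 0) (XT.nd (nat_lit 78) (nat_lit 380) (nat_lit 0) (XT.lf (nat_lit 0) (nat_lit 13179164961) (nat_lit 532) (nat_lit 22779621806) (nat_lit 76) (nat_lit 17860900275) (nat_lit 98) (nat_lit 5) (nat_lit 105) (nat_lit 5) (nat_lit 99) (nat_lit 5) (nat_lit 363) (nat_lit 326) (nat_lit 91)) (XT.nd (nat_lit 78) (nat_lit 0) (nat_lit 0) (XT.lf (nat_lit 0) (nat_lit 1403815834) (nat_lit 380) (nat_lit 18199191042) (nat_lit 456) (nat_lit 35242245066) (nat_lit 93) (nat_lit 5) (nat_lit 98) (nat_lit 5) (nat_lit 99) (nat_lit 5) (nat_lit 364) (nat_lit 326) (nat_lit 90)) (XT.lf (nat_lit 0) (nat_lit 26451657922) (nat_lit 456) (nat_lit 29119498074) (nat_lit 76) (nat_lit 323466694) (nat_lit 93) (nat_lit 5) (nat_lit 99) (nat_lit 5) (nat_lit 94) (nat_lit 5) (nat_lit 365) (nat_lit 326) (nat_lit 89)))) (XT.nd (nat_lit 78) (nat_lit 380) (nat_lit 0) (XT.lf (nat_lit 0) (nat_lit 33684881822) (nat_lit 456)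 (nat_lit 4249410690) (nat_lit 76) (nat_lit 19035810316) (nat_lit 93) (nat_lit 5) (nat_lit 99) (nat_lit 5) (nat_lit 94) (nat_lit 5) (nat_lit 366) (nat_lit 326) (nat_lit 88)) (XT.nd (nat_lit 78) (nat_lit 0) (nat_lit 0) (XT.lf (nat_lit 0) (nat_lit 21790714269) (nat_lit 380) (nat_lit 19552808519) (nat_lit 456) (nat_lit 16728073587) (nat_lit 88) (nat_lit 5) (nat_lit 93) (nat_lit 5) (nat_lit 94) (nat_lit 5) (nat_lit 367) (nat_lit 326) (nat_lit 87)) (XT.lf (nat_lit 0) (nat_lit 48697883914) (nat_lit 380) (nat_lit 575922719) (nat_lit 456) (nat_lit 9931073157) (nat_lit 88) (nat_lit 5) (nat_lit 93) (nat_lit 5) (nat_lit 94) (nat_lit 5) (nat_lit 368) (nat_lit 326) (nat_lit 86)))))) (XT.nd (nat_lit 37674) (nat_lit 0) (nat_lit 5852) (XT.nd (nat_lit 37440) (nat_lit 0) (nat_lit 6840) (XT.nd (nat_lit 78) (nat_lit 76) (nat_lit 0) (XT.lf (nat_lit 0) (nat_lit 16172068322) (nat_lit 304) (nat_lit 41606740922) (nat_lit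 380) (nat_lit 2583249680) (nat_lit 84) (nat_lit 5) (nat_lit 88) (nat_lit 5) (nat_lit 89) (nat_lit 5) (nat_lit 369) (nat_lit 326) (nat_lit 85)) (XT.nd (nat_lit 37284) (nat_lit 0) (nat_lit 6840) (XT.lf (nat_lit 0) (nat_lit 4999592325) (nat_lit 380) (nat_lit 17739823459) (nat_lit 76) (nat_lit 38809745740) (nat_lit 83) (nat_lit 5) (nat_lit 88) (nat_lit 5) (nat_lit 84) (nat_lit 5) (nat_lit 370) (nat_lit 326) (nat_lit 84)) (XT.lf (nat_lit 0) (nat_lit 13787608684) (nat_lit 1140) (nat_lit 555723086) (nat_lit 1140) (nat_lit 555723086) (nat_lit 173) (nat_lit 3) (nat_lit 188) (nat_lit 3) (nat_lit 188) (nat_lit 5) (nat_lit 327) (nat_lit 327) (nat_lit 126)))) (XT.nd (nat_lit 78) (nat_lit 0) (nat_lit 0) (XT.lf (nat_lit 76) (nat_lit 11913474679) (nat_lit 0) (nat_lit 16257443529) (nat_lit 1140) (nat_lit 2068565783) (nat_lit 174) (nat_lit 5) (nat_lit 173) (nat_lit 3) (nat_lit 188) (nat_lit 5) (nat_lit 328) (nat_lit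 327) (nat_lit 125)) (XT.nd (nat_lit 78) (nat_lit 0) (nat_lit 76) (XT.lf (nat_lit 76) (nat_lit 25350539255) (nat_lit 0) (nat_lit 3442524505) (nat_lit 1140) (nat_lit 1900783803) (nat_lit 174) (nat_lit 5) (nat_lit 173) (nat_lit 3) (nat_lit 188) (nat_lit 5) (nat_lit 329) (nat_lit 327) (nat_lit 124)) (XT.lf (nat_lit 76) (nat_lit 8091538929) (nat_lit 0) (nat_lit 21511343522) (nat_lit 1140) (nat_lit 1553894450) (nat_lit 175) (nat_lit 5) (nat_lit 174) (nat_lit 5) (nat_lit 189) (nat_lit 5) (nat_lit 330) (nat_lit 327) (nat_lit 123))))) (XT.nd (nat_lit 234) (nat_lit 0) (nat_lit 0) (XT.nd (nat_lit 78) (nat_lit 1064) (nat_lit 0) (XT.lf (nat_lit 76) (nat_lit 22002774421) (nat_lit 0) (nat_lit 8519428545) (nat_lit 1140) (nat_lit 1108839909) (nat_lit 175) (nat_lit 5) (nat_lit 174) (nat_lit 5) (nat_lit 189) (nat_lit 5) (nat_lit 331) (nat_lit 327) (nat_lit 122)) (XT.nd (nat_lit 78) (nat_lit 1140) (nat_lit 0) (XT.lf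 (nat_lit 76) (nat_lit 4246461962) (nat_lit 0) (nat_lit 27307782498) (nat_lit 1140) (nat_lit 562742954) (nat_lit 176) (nat_lit 5) (nat_lit 175) (nat_lit 5) (nat_lit 190) (nat_lit 5) (nat_lit 332) (nat_lit 327) (nat_lit 121)) (XT.lf (nat_lit 0) (nat_lit 179893412) (nat_lit 1140) (nat_lit 13966610765) (nat_lit 1216) (nat_lit 18465606199) (nat_lit 160) (nat_lit 5) (nat_lit 175) (nat_lit 5) (nat_lit 176) (nat_lit 5) (nat_lit 333) (nat_lit 327) (nat_lit 120)))) (XT.nd (nat_lit 78) (nat_lit 0) (nat_lit 76) (XT.lf (nat_lit 76) (nat_lit 354296514) (nat_lit 0) (nat_lit 580288389) (nat_lit 1216) (nat_lit 32187306793) (nat_lit 161) (nat_lit 5) (nat_lit 160) (nat_lit 5) (nat_lit 176) (nat_lit 5) (nat_lit 334) (nat_lit 327) (nat_lit 119)) (XT.nd (nat_lit 78) (nat_lit 0) (nat_lit 0) (XT.lf (nat_lit 0) (nat_lit 1980832092) (nat_lit 1140) (nat_lit 18383272256) (nat_lit 1216) (nat_lit 13274798950) (nat_lit 161)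 (nat_lit 5) (nat_lit 176) (nat_lit 5) (nat_lit 177) (nat_lit 5) (nat_lit 335) (nat_lit 327) (nat_lit 118)) (XT.lf (nat_lit 0) (nat_lit 3062020179) (nat_lit 1140) (nat_lit 3574652867) (nat_lit 1216) (nat_lit 27534649760) (nat_lit 161) (nat_lit 5) (nat_lit 176) (nat_lit 5) (nat_lit 177) (nat_lit 5) (nat_lit 336) (nat_lit 327) (nat_lit 117))))))))
noncomputable def xc243 : XT := (XT.nd (nat_lit 1794) (nat_lit 1976) (nat_lit 0) (XT.nd (nat_lit 858) (nat_lit 3116) (nat_lit 0) (XT.nd (nat_lit 390) (nat_lit 836) (nat_lit 0) (XT.nd (nat_lit 156) (nat_lit 0) (nat_lit 76) (XT.nd (nat_lit 78) (nat_lit 0) (nat_lit 0) (XT.lf (nat_lit 0) (nat_lit 4361253469) (nat_lit 1140) (nat_lit 22880436392) (nat_lit 1216) (nat_lit 7472460798) (nat_lit 162) (nat_lit 5) (nat_lit 177) (nat_lit 5) (nat_lit 178) (nat_lit 5) (nat_lit 337) (nat_lit 327) (nat_lit 116)) (XT.lf (nat_lit 0) (nat_lit 5799554149) (nat_lit 1140) (nat_lit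 7562141037) (nat_lit 1216) (nat_lit 21908569375) (nat_lit 162) (nat_lit 5) (nat_lit 177) (nat_lit 5) (nat_lit 178) (nat_lit 5) (nat_lit 338) (nat_lit 327) (nat_lit 115))) (XT.nd (nat_lit 78) (nat_lit 0) (nat_lit 0) (XT.lf (nat_lit 0) (nat_lit 7369310000) (nat_lit 1140) (nat_lit 27472774060) (nat_lit 1216) (nat_lit 998332446) (nat_lit 163) (nat_lit 5) (nat_lit 178) (nat_lit 5) (nat_lit 179) (nat_lit 5) (nat_lit 339) (nat_lit 327) (nat_lit 114)) (XT.nd (nat_lit 78) (nat_lit 0) (nat_lit 0) (XT.lf (nat_lit 0) (nat_lit 9193607960) (nat_lit 1140) (nat_lit 11629608871) (nat_lit 1216) (nat_lit 15598236397) (nat_lit 163) (nat_lit 5) (nat_lit 178) (nat_lit 5) (nat_lit 179) (nat_lit 5) (nat_lit 340) (nat_lit 327) (nat_lit 113)) (XT.lf (nat_lit 76) (nat_lit 4780670858) (nat_lit 0) (nat_lit 6336012477) (nat_lit 1216) (nat_lit 25901919854) (nat_lit 164) (nat_lit 5) (nat_lit 163) (nat_lit 5) (nat_lit 179) (nat_lit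 5) (nat_lit 341) (nat_lit 327) (nat_lit 112))))) (XT.nd (nat_lit 234) (nat_lit 988) (nat_lit 0) (XT.nd (nat_lit 78) (nat_lit 0) (nat_lit 0) (XT.lf (nat_lit 0) (nat_lit 13296721229) (nat_lit 1140) (nat_lit 15793702278) (nat_lit 1216) (nat_lit 8537269524) (nat_lit 164) (nat_lit 5) (nat_lit 179) (nat_lit 5) (nat_lit 180) (nat_lit 5) (nat_lit 342) (nat_lit 327) (nat_lit 111)) (XT.nd (nat_lit 78) (nat_lit 0) (nat_lit 76) (XT.lf (nat_lit 76) (nat_lit 1101135701) (nat_lit 0) (nat_lit 14512535576) (nat_lit 1216) (nat_lit 22639242345) (nat_lit 165) (nat_lit 5) (nat_lit 164) (nat_lit 5) (nat_lit 180) (nat_lit 5) (nat_lit 343) (nat_lit 327) (nat_lit 110)) (XT.lf (nat_lit 0) (nat_lit 18164261471) (nat_lit 1140) (nat_lit 20073461411) (nat_lit 76) (nat_lit 654247289) (nat_lit 165) (nat_lit 5) (nat_lit 180) (nat_lit 5) (nat_lit 166) (nat_lit 5) (nat_lit 344) (nat_lit 327) (nat_lit 109)))) (XT.nd (nat_lit 78)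 (nat_lit 1064) (nat_lit 0) (XT.lf (nat_lit 0) (nat_lit 20933344247) (nat_lit 1140) (nat_lit 2627957816) (nat_lit 76) (nat_lit 15984640299) (nat_lit 165) (nat_lit 5) (nat_lit 180) (nat_lit 5) (nat_lit 166) (nat_lit 5) (nat_lit 345) (nat_lit 327) (nat_lit 108)) (XT.nd (nat_lit 78) (nat_lit 0) (nat_lit 0) (XT.lf (nat_lit 0) (nat_lit 15644765606) (nat_lit 1064) (nat_lit 8289457275) (nat_lit 1140) (nat_lit 16280852236) (nat_lit 151) (nat_lit 5) (nat_lit 165) (nat_lit 5) (nat_lit 166) (nat_lit 5) (nat_lit 346) (nat_lit 327) (nat_lit 107)) (XT.lf (nat_lit 0) (nat_lit 27121824079) (nat_lit 1140) (nat_lit 6457201132) (nat_lit 76) (nat_lit 7322358765) (nat_lit 151) (nat_lit 5) (nat_lit 166) (nat_lit 5) (nat_lit 152) (nat_lit 5) (nat_lit 347) (nat_lit 327) (nat_lit 106)))))) (XT.nd (nat_lit 468) (nat_lit 1444) (nat_lit 0) (XT.nd (nat_lit 234) (nat_lit 608) (nat_lit 0) (XT.nd (nat_lit 78) (nat_lit 532) (nat_lit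 0) (XT.lf (nat_lit 0) (nat_lit 12356926764) (nat_lit 532) (nat_lit 18247403295) (nat_lit 608) (nat_lit 10997976661) (nat_lit 144) (nat_lit 5) (nat_lit 151) (nat_lit 5) (nat_lit 152) (nat_lit 5) (nat_lit 348) (nat_lit 327) (nat_lit 105)) (XT.nd (nat_lit 78) (nat_lit 532) (nat_lit 0) (XT.lf (nat_lit 0) (nat_lit 31866430742) (nat_lit 532) (nat_lit 2388538530) (nat_lit 608) (nat_lit 8067380969) (nat_lit 144) (nat_lit 5) (nat_lit 151) (nat_lit 5) (nat_lit 152) (nat_lit 5) (nat_lit 349) (nat_lit 327) (nat_lit 104)) (XT.lf (nat_lit 0) (nat_lit 8936120380) (nat_lit 532) (nat_lit 29297464389) (nat_lit 608) (nat_lit 4823859340) (nat_lit 137) (nat_lit 5) (nat_lit 144) (nat_lit 5) (nat_lit 145) (nat_lit 5) (nat_lit 350) (nat_lit 327) (nat_lit 103)))) (XT.nd (nat_lit 78) (nat_lit 608) (nat_lit 0) (XT.lf (nat_lit 0) (nat_lit 29098730026) (nat_lit 532) (nat_lit 13360359493) (nat_lit 608) (nat_lit 1351678023)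 (nat_lit 137) (nat_lit 5) (nat_lit 144) (nat_lit 5) (nat_lit 145) (nat_lit 5) (nat_lit 351) (nat_lit 327) (nat_lit 102)) (XT.nd (nat_lit 78) (nat_lit 0) (nat_lit 0) (XT.lf (nat_lit 0) (nat_lit 2261437357) (nat_lit 608) (nat_lit 39253272804) (nat_lit 76) (nat_lit 3068936094) (nat_lit 129) (nat_lit 5) (nat_lit 137) (nat_lit 5) (nat_lit 130) (nat_lit 5) (nat_lit 352) (nat_lit 327) (nat_lit 101)) (XT.lf (nat_lit 0) (nat_lit 6236677916) (nat_lit 608) (nat_lit 19248179746) (nat_lit 76) (nat_lit 19886027651) (nat_lit 129) (nat_lit 5) (nat_lit 137) (nat_lit 5) (nat_lit 130) (nat_lit 5) (nat_lit 353) (nat_lit 327) (nat_lit 100))))) (XT.nd (nat_lit 234) (nat_lit 912) (nat_lit 0) (XT.nd (nat_lit 78) (nat_lit 0) (nat_lit 0) (XT.lf (nat_lit 0) (nat_lit 1382658659) (nat_lit 532) (nat_lit 8960433885) (nat_lit 608) (nat_lit 35838293869) (nat_lit 122) (nat_lit 5) (nat_lit 129) (nat_lit 5) (nat_lit 130) (nat_lit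 5) (nat_lit 354) (nat_lit 327) (nat_lit 99)) (XT.nd (nat_lit 78) (nat_lit 0) (nat_lit 0) (XT.lf (nat_lit 0) (nat_lit 14845120354) (nat_lit 608) (nat_lit 24064196828) (nat_lit 76) (nat_lit 8098715047) (nat_lit 122) (nat_lit 5) (nat_lit 130) (nat_lit 5) (nat_lit 123) (nat_lit 5) (nat_lit 355) (nat_lit 327) (nat_lit 98)) (XT.lf (nat_lit 0) (nat_lit 19569617856) (nat_lit 608) (nat_lit 2797722821) (nat_lit 76) (nat_lit 25489516716) (nat_lit 122) (nat_lit 5) (nat_lit 130) (nat_lit 5) (nat_lit 123) (nat_lit 5) (nat_lit 356) (nat_lit 327) (nat_lit 97)))) (XT.nd (nat_lit 78) (nat_lit 456) (nat_lit 0) (XT.lf (nat_lit 0) (nat_lit 19485644910) (nat_lit 456) (nat_lit 5136243107) (nat_lit 532) (nat_lit 24103680336) (nat_lit 116) (nat_lit 5) (nat_lit 122) (nat_lit 5) (nat_lit 123) (nat_lit 5) (nat_lit 357) (nat_lit 327) (nat_lit 96)) (XT.nd (nat_lit 78) (nat_lit 456) (nat_lit 0) (XT.lf (nat_lit 0) (nat_lit 29974243076)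 (nat_lit 532) (nat_lit 7247502052) (nat_lit 76) (nat_lit 12394142121) (nat_lit 116) (nat_lit 5) (nat_lit 123) (nat_lit 5) (nat_lit 117) (nat_lit 5) (nat_lit 358) (nat_lit 327) (nat_lit 95)) (XT.lf (nat_lit 0) (nat_lit 15658061650) (nat_lit 456) (nat_lit 20029265550) (nat_lit 532) (nat_lit 14839585809) (nat_lit 110) (nat_lit 5) (nat_lit 116) (nat_lit 5) (nat_lit 117) (nat_lit 5) (nat_lit 359) (nat_lit 327) (nat_lit 94))))))) (XT.nd (nat_lit 38220) (nat_lit 0) (nat_lit 5776) (XT.nd (nat_lit 468) (nat_lit 684) (nat_lit 0) (XT.nd (nat_lit 234) (nat_lit 836) (nat_lit 0) (XT.nd (nat_lit 78) (nat_lit 456) (nat_lit 0) (XT.lf (nat_lit 0) (nat_lit 39398050286) (nat_lit 456) (nat_lit 2245751447) (nat_lit 532) (nat_lit 9819309860) (nat_lit 110) (nat_lit 5) (nat_lit 116) (nat_lit 5) (nat_lit 117) (nat_lit 5) (nat_lit 360) (nat_lit 327) (nat_lit 93)) (XT.nd (nat_lit 78) (nat_lit 76) (nat_lit 0) (XT.lf (nat_lit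 0) (nat_lit 11491286023) (nat_lit 380) (nat_lit 36551478402) (nat_lit 456) (nat_lit 4376719825) (nat_lit 105) (nat_lit 5) (nat_lit 110) (nat_lit 5) (nat_lit 111) (nat_lit 5) (nat_lit 361) (nat_lit 327) (nat_lit 92)) (XT.lf (nat_lit 0) (nat_lit 1349291625) (nat_lit 456) (nat_lit 17435821904) (nat_lit 76) (nat_lit 34614758053) (nat_lit 104) (nat_lit 5) (nat_lit 110) (nat_lit 5) (nat_lit 105) (nat_lit 5) (nat_lit 362) (nat_lit 327) (nat_lit 91)))) (XT.nd (nat_lit 78) (nat_lit 380) (nat_lit 0) (XT.lf (nat_lit 0) (nat_lit 6850388211) (nat_lit 456) (nat_lit 373464897) (nat_lit 532) (nat_lit 47182577054) (nat_lit 98) (nat_lit 5) (nat_lit 104) (nat_lit 5) (nat_lit 105) (nat_lit 5) (nat_lit 363) (nat_lit 327) (nat_lit 90)) (XT.nd (nat_lit 78) (nat_lit 380) (nat_lit 0) (XT.lf (nat_lit 0) (nat_lit 13630071728) (nat_lit 532) (nat_lit 23397048066) (nat_lit 76) (nat_lit 18405404813) (nat_lit 98) (nat_lit 5)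 (nat_lit 105) (nat_lit 5) (nat_lit 99) (nat_lit 5) (nat_lit 364) (nat_lit 327) (nat_lit 89)) (XT.lf (nat_lit 0) (nat_lit 1511246013) (nat_lit 380) (nat_lit 18734393311) (nat_lit 456) (nat_lit 36243249356) (nat_lit 93) (nat_lit 5) (nat_lit 98) (nat_lit 5) (nat_lit 99) (nat_lit 5) (nat_lit 365) (nat_lit 327) (nat_lit 88))))) (XT.nd (nat_lit 234) (nat_lit 304) (nat_lit 0) (XT.nd (nat_lit 78) (nat_lit 380) (nat_lit 0) (XT.lf (nat_lit 0) (nat_lit 27298261837) (nat_lit 456) (nat_lit 29928099557) (nat_lit 76) (nat_lit 343426261) (nat_lit 93) (nat_lit 5) (nat_lit 99) (nat_lit 5) (nat_lit 94) (nat_lit 5) (nat_lit 366) (nat_lit 327) (nat_lit 87)) (XT.nd (nat_lit 78) (nat_lit 380) (nat_lit 0) (XT.lf (nat_lit 0) (nat_lit 34746937187) (nat_lit 456) (nat_lit 4313802273) (nat_lit 76) (nat_lit 19616841485) (nat_lit 93) (nat_lit 5) (nat_lit 99) (nat_lit 5) (nat_lit 94) (nat_lit 5) (nat_lit 367) (nat_lit 327) (nat_lit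 86)) (XT.lf (nat_lit 0) (nat_lit 22506907898) (nat_lit 380) (nat_lit 20127529746) (nat_lit 456) (nat_lit 17177710969) (nat_lit 88) (nat_lit 5) (nat_lit 93) (nat_lit 5) (nat_lit 94) (nat_lit 5) (nat_lit 368) (nat_lit 327) (nat_lit 85)))) (XT.nd (nat_lit 78) (nat_lit 304) (nat_lit 0) (XT.lf (nat_lit 0) (nat_lit 50219473053) (nat_lit 380) (nat_lit 581682897) (nat_lit 456) (nat_lit 10178321056) (nat_lit 88) (nat_lit 5) (nat_lit 93) (nat_lit 5) (nat_lit 94) (nat_lit 5) (nat_lit 369) (nat_lit 327) (nat_lit 84)) (XT.nd (nat_lit 37362) (nat_lit 0) (nat_lit 6764) (XT.lf (nat_lit 0) (nat_lit 16718712723) (nat_lit 304) (nat_lit 42841863292) (nat_lit 380) (nat_lit 2610819667) (nat_lit 84) (nat_lit 5) (nat_lit 88) (nat_lit 5) (nat_lit 89) (nat_lit 5) (nat_lit 370) (nat_lit 327) (nat_lit 83)) (XT.lf (nat_lit 0) (nat_lit 14268140557) (nat_lit 1140) (nat_lit 537872473) (nat_lit 1140) (nat_lit 537872473) (nat_lit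 173) (nat_lit 3) (nat_lit 188) (nat_lit 3) (nat_lit 188) (nat_lit 5) (nat_lit 328) (nat_lit 328) (nat_lit 124)))))) (XT.nd (nat_lit 468) (nat_lit 0) (nat_lit 0) (XT.nd (nat_lit 234) (nat_lit 988) (nat_lit 0) (XT.nd (nat_lit 78) (nat_lit 0) (nat_lit 0) (XT.lf (nat_lit 76) (nat_lit 12339246624) (nat_lit 0) (nat_lit 16807366250) (nat_lit 1140) (nat_lit 1995878642) (nat_lit 174) (nat_lit 5) (nat_lit 173) (nat_lit 3) (nat_lit 188) (nat_lit 5) (nat_lit 329) (nat_lit 328) (nat_lit 123)) (XT.nd (nat_lit 78) (nat_lit 0) (nat_lit 76) (XT.lf (nat_lit 76) (nat_lit 26177431844) (nat_lit 0) (nat_lit 3606188022) (nat_lit 1140) (nat_lit 1826987788) (nat_lit 174) (nat_lit 5) (nat_lit 173) (nat_lit 3) (nat_lit 188) (nat_lit 5) (nat_lit 330) (nat_lit 328) (nat_lit 122)) (XT.lf (nat_lit 76) (nat_lit 8404601131) (nat_lit 0) (nat_lit 22209552169) (nat_lit 1140) (nat_lit 1473386318) (nat_lit 175) (nat_lit 5) (nat_lit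 174) (nat_lit 5) (nat_lit 189) (nat_lit 5) (nat_lit 331) (nat_lit 328) (nat_lit 121)))) (XT.nd (nat_lit 78) (nat_lit 1064) (nat_lit 0) (XT.lf (nat_lit 76) (nat_lit 22731125647) (nat_lit 0) (nat_lit 8826339889) (nat_lit 1140) (nat_lit 1018682809) (nat_lit 175) (nat_lit 5) (nat_lit 174) (nat_lit 5) (nat_lit 189) (nat_lit 5) (nat_lit 332) (nat_lit 328) (nat_lit 120)) (XT.nd (nat_lit 78) (nat_lit 1140) (nat_lit 0) (XT.lf (nat_lit 76) (nat_lit 4445731392) (nat_lit 0) (nat_lit 28171465372) (nat_lit 1140) (nat_lit 459579532) (nat_lit 176) (nat_lit 5) (nat_lit 175) (nat_lit 5) (nat_lit 190) (nat_lit 5) (nat_lit 333) (nat_lit 328) (nat_lit 119)) (XT.lf (nat_lit 0) (nat_lit 299565154) (nat_lit 1140) (nat_lit 14313334952) (nat_lit 1216) (nat_lit 18973927602) (nat_lit 160) (nat_lit 5) (nat_lit 175) (nat_lit 5) (nat_lit 176) (nat_lit 5) (nat_lit 334) (nat_lit 328) (nat_lit 118))))) (XT.nd (nat_lit 234) (nat_lit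 0) (nat_lit 152) (XT.nd (nat_lit 78) (nat_lit 0) (nat_lit 76) (XT.lf (nat_lit 76) (nat_lit 436490975) (nat_lit 0) (nat_lit 637765950) (nat_lit 1216) (nat_lit 33037731098) (nat_lit 161) (nat_lit 5) (nat_lit 160) (nat_lit 5) (nat_lit 176) (nat_lit 5) (nat_lit 335) (nat_lit 328) (nat_lit 117)) (XT.nd (nat_lit 78) (nat_lit 0) (nat_lit 0) (XT.lf (nat_lit 0) (nat_lit 2148266091) (nat_lit 1140) (nat_lit 18861458622) (nat_lit 1216) (nat_lit 13634900180) (nat_lit 161) (nat_lit 5) (nat_lit 176) (nat_lit 5) (nat_lit 177) (nat_lit 5) (nat_lit 336) (nat_lit 328) (nat_lit 116)) (XT.lf (nat_lit 0) (nat_lit 3258743927) (nat_lit 1140) (nat_lit 3610715947) (nat_lit 1216) (nat_lit 28323657468) (nat_lit 161) (nat_lit 5) (nat_lit 176) (nat_lit 5) (nat_lit 177) (nat_lit 5) (nat_lit 337) (nat_lit 328) (nat_lit 115)))) (XT.nd (nat_lit 78) (nat_lit 0) (nat_lit 0) (XT.lf (nat_lit 0) (nat_lit 4594269756) (nat_lit 1140) (nat_lit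 23492795065) (nat_lit 1216) (nat_lit 7665251545) (nat_lit 162) (nat_lit 5) (nat_lit 177) (nat_lit 5) (nat_lit 178) (nat_lit 5) (nat_lit 338) (nat_lit 328) (nat_lit 114)) (XT.nd (nat_lit 78) (nat_lit 0) (nat_lit 76) (XT.lf (nat_lit 0) (nat_lit 6072743378) (nat_lit 1140) (nat_lit 7717107775) (nat_lit 1216) (nat_lit 22535357449) (nat_lit 162) (nat_lit 5) (nat_lit 177) (nat_lit 5) (nat_lit 178) (nat_lit 5) (nat_lit 339) (nat_lit 328) (nat_lit 113)) (XT.lf (nat_lit 0) (nat_lit 7687138803) (nat_lit 1140) (nat_lit 28222424340) (nat_lit 1216) (nat_lit 1002981027) (nat_lit 163) (nat_lit 5) (nat_lit 178) (nat_lit 5) (nat_lit 179) (nat_lit 5) (nat_lit 340) (nat_lit 328) (nat_lit 112))))))))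
noncomputable def xc244 : XT := (XT.nd (nat_lit 1794) (nat_lit 1216) (nat_lit 0) (XT.nd (nat_lit 858) (nat_lit 2508) (nat_lit 0) (XT.nd (nat_lit 390) (nat_lit 1976) (nat_lit 0) (XT.nd (nat_lit 156) (nat_lit 0) (nat_lit 76) (XT.nd (nat_lit 78) (nat_lit 0) (nat_lit 0) (XT.lf (nat_lit 0) (nat_lit 9563347755) (nat_lit 1140) (nat_lit 11906135057) (nat_lit 1216) (nat_lit 16041619030) (nat_lit 163) (nat_lit 5) (nat_lit 178) (nat_lit 5) (nat_lit 179) (nat_lit 5) (nat_lit 341) (nat_lit 328) (nat_lit 111)) (XT.lf (nat_lit 76) (nat_lit 4995743632) (nat_lit 0) (nat_lit 6546324658) (nat_lit 1216) (nat_lit 26584164582) (nat_lit 164) (nat_lit 5) (nat_lit 163) (nat_lit 5) (nat_lit 179) (nat_lit 5) (nat_lit 342) (nat_lit 328) (nat_lit 110))) (XT.nd (nat_lit 78) (nat_lit 0) (nat_lit 0) (XT.lf (nat_lit 0) (nat_lit 13784642258) (nat_lit 1140) (nat_lit 16194915733) (nat_lit 1216) (nat_lit 8774128375) (nat_lit 164)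 (nat_lit 5) (nat_lit 179) (nat_lit 5) (nat_lit 180) (nat_lit 5) (nat_lit 343) (nat_lit 328) (nat_lit 109)) (XT.nd (nat_lit 78) (nat_lit 0) (nat_lit 76) (XT.lf (nat_lit 76) (nat_lit 1206055644) (nat_lit 0) (nat_lit 14963143378) (nat_lit 1216) (nat_lit 23228526468) (nat_lit 165) (nat_lit 5) (nat_lit 164) (nat_lit 5) (nat_lit 180) (nat_lit 5) (nat_lit 344) (nat_lit 328) (nat_lit 108)) (XT.lf (nat_lit 0) (nat_lit 18793627362) (nat_lit 1140) (nat_lit 20603036293) (nat_lit 76) (nat_lit 659375185) (nat_lit 165) (nat_lit 5) (nat_lit 180) (nat_lit 5) (nat_lit 166) (nat_lit 5) (nat_lit 345) (nat_lit 328) (nat_lit 107))))) (XT.nd (nat_lit 234) (nat_lit 1064) (nat_lit 0) (XT.nd (nat_lit 78) (nat_lit 1064) (nat_lit 0) (XT.lf (nat_lit 0) (nat_lit 21643323261) (nat_lit 1140) (nat_lit 2636282996) (nat_lit 76) (nat_lit 16450102302) (nat_lit 165) (nat_lit 5) (nat_lit 180) (nat_lit 5) (nat_lit 166) (nat_lit 5) (nat_lit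 346) (nat_lit 328) (nat_lit 106)) (XT.nd (nat_lit 78) (nat_lit 0) (nat_lit 0) (XT.lf (nat_lit 0) (nat_lit 16183930818) (nat_lit 1064) (nat_lit 8548580880) (nat_lit 1140) (nat_lit 16686459542) (nat_lit 151) (nat_lit 5) (nat_lit 165) (nat_lit 5) (nat_lit 166) (nat_lit 5) (nat_lit 347) (nat_lit 328) (nat_lit 105)) (XT.lf (nat_lit 0) (nat_lit 28013305770) (nat_lit 1140) (nat_lit 6580549469) (nat_lit 76) (nat_lit 7532091501) (nat_lit 151) (nat_lit 5) (nat_lit 166) (nat_lit 5) (nat_lit 152) (nat_lit 5) (nat_lit 348) (nat_lit 328) (nat_lit 104)))) (XT.nd (nat_lit 78) (nat_lit 532) (nat_lit 0) (XT.lf (nat_lit 0) (nat_lit 12797312384) (nat_lit 532) (nat_lit 18801377526) (nat_lit 608) (nat_lit 11249259359) (nat_lit 144) (nat_lit 5) (nat_lit 151) (nat_lit 5) (nat_lit 152) (nat_lit 5) (nat_lit 349) (nat_lit 328) (nat_lit 103)) (XT.nd (nat_lit 78) (nat_lit 532) (nat_lit 0) (XT.lf (nat_lit 0) (nat_lit 32890072031)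 (nat_lit 532) (nat_lit 2466555979) (nat_lit 608) (nat_lit 8233036766) (nat_lit 144) (nat_lit 5) (nat_lit 151) (nat_lit 5) (nat_lit 152) (nat_lit 5) (nat_lit 350) (nat_lit 328) (nat_lit 102)) (XT.lf (nat_lit 0) (nat_lit 9273582563) (nat_lit 532) (nat_lit 30179471330) (nat_lit 608) (nat_lit 4893807961) (nat_lit 137) (nat_lit 5) (nat_lit 144) (nat_lit 5) (nat_lit 145) (nat_lit 5) (nat_lit 351) (nat_lit 328) (nat_lit 101)))))) (XT.nd (nat_lit 468) (nat_lit 1368) (nat_lit 0) (XT.nd (nat_lit 234) (nat_lit 532) (nat_lit 0) (XT.nd (nat_lit 78) (nat_lit 608) (nat_lit 0) (XT.lf (nat_lit 0) (nat_lit 30039049763) (nat_lit 532) (nat_lit 13764163490) (nat_lit 608) (nat_lit 1319638890) (nat_lit 137) (nat_lit 5) (nat_lit 144) (nat_lit 5) (nat_lit 145) (nat_lit 5) (nat_lit 352) (nat_lit 328) (nat_lit 100)) (XT.nd (nat_lit 78) (nat_lit 0) (nat_lit 0) (XT.lf (nat_lit 0) (nat_lit 2399021538) (nat_lit 608) (nat_lit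 40360420015) (nat_lit 76) (nat_lit 3159501305) (nat_lit 129) (nat_lit 5) (nat_lit 137) (nat_lit 5) (nat_lit 130) (nat_lit 5) (nat_lit 353) (nat_lit 328) (nat_lit 99)) (XT.lf (nat_lit 0) (nat_lit 6491488020) (nat_lit 608) (nat_lit 19757226135) (nat_lit 76) (nat_lit 20481149383) (nat_lit 129) (nat_lit 5) (nat_lit 137) (nat_lit 5) (nat_lit 130) (nat_lit 5) (nat_lit 354) (nat_lit 328) (nat_lit 98)))) (XT.nd (nat_lit 78) (nat_lit 0) (nat_lit 0) (XT.lf (nat_lit 0) (nat_lit 1491866843) (nat_lit 532) (nat_lit 9227907161) (nat_lit 608) (nat_lit 36844948707) (nat_lit 122) (nat_lit 5) (nat_lit 129) (nat_lit 5) (nat_lit 130) (nat_lit 5) (nat_lit 355) (nat_lit 328) (nat_lit 97)) (XT.nd (nat_lit 78) (nat_lit 0) (nat_lit 0) (XT.lf (nat_lit 0) (nat_lit 15354941502) (nat_lit 608) (nat_lit 24718335510) (nat_lit 76) (nat_lit 8342951835) (nat_lit 122) (nat_lit 5) (nat_lit 130) (nat_lit 5) (nat_lit 123) (nat_lit 5)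 (nat_lit 356) (nat_lit 328) (nat_lit 96)) (XT.lf (nat_lit 0) (nat_lit 20219296233) (nat_lit 608) (nat_lit 2815841668) (nat_lit 76) (nat_lit 26255440408) (nat_lit 122) (nat_lit 5) (nat_lit 130) (nat_lit 5) (nat_lit 123) (nat_lit 5) (nat_lit 357) (nat_lit 328) (nat_lit 95))))) (XT.nd (nat_lit 234) (nat_lit 456) (nat_lit 0) (XT.nd (nat_lit 78) (nat_lit 456) (nat_lit 0) (XT.lf (nat_lit 0) (nat_lit 20135381871) (nat_lit 456) (nat_lit 5286556055) (nat_lit 532) (nat_lit 24763451690) (nat_lit 116) (nat_lit 5) (nat_lit 122) (nat_lit 5) (nat_lit 123) (nat_lit 5) (nat_lit 358) (nat_lit 328) (nat_lit 94)) (XT.nd (nat_lit 78) (nat_lit 456) (nat_lit 0) (XT.lf (nat_lit 0) (nat_lit 30933110707) (nat_lit 532) (nat_lit 7399803695) (nat_lit 76) (nat_lit 12769559293) (nat_lit 116) (nat_lit 5) (nat_lit 123) (nat_lit 5) (nat_lit 117) (nat_lit 5) (nat_lit 359) (nat_lit 328) (nat_lit 93)) (XT.lf (nat_lit 0) (nat_lit 16192288452)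 (nat_lit 456) (nat_lit 20624181674) (nat_lit 532) (nat_lit 15224396560) (nat_lit 110) (nat_lit 5) (nat_lit 116) (nat_lit 5) (nat_lit 117) (nat_lit 5) (nat_lit 360) (nat_lit 328) (nat_lit 92)))) (XT.nd (nat_lit 78) (nat_lit 456) (nat_lit 0) (XT.lf (nat_lit 0) (nat_lit 40642598545) (nat_lit 456) (nat_lit 2307335794) (nat_lit 532) (nat_lit 10055270880) (nat_lit 110) (nat_lit 5) (nat_lit 116) (nat_lit 5) (nat_lit 117) (nat_lit 5) (nat_lit 361) (nat_lit 328) (nat_lit 91)) (XT.nd (nat_lit 78) (nat_lit 76) (nat_lit 0) (XT.lf (nat_lit 0) (nat_lit 11899744546) (nat_lit 380) (nat_lit 37640132990) (nat_lit 456) (nat_lit 4450423942) (nat_lit 105) (nat_lit 5) (nat_lit 110) (nat_lit 5) (nat_lit 111) (nat_lit 5) (nat_lit 362) (nat_lit 328) (nat_lit 90)) (XT.lf (nat_lit 0) (nat_lit 1444599057) (nat_lit 456) (nat_lit 17895854251) (nat_lit 76) (nat_lit 35659682471) (nat_lit 104) (nat_lit 5) (nat_lit 110) (nat_lit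 5) (nat_lit 105) (nat_lit 5) (nat_lit 363) (nat_lit 328) (nat_lit 89))))))) (XT.nd (nat_lit 38376) (nat_lit 0) (nat_lit 5472) (XT.nd (nat_lit 37908) (nat_lit 0) (nat_lit 6460) (XT.nd (nat_lit 234) (nat_lit 380) (nat_lit 0) (XT.nd (nat_lit 78) (nat_lit 380) (nat_lit 0) (XT.lf (nat_lit 0) (nat_lit 7118324105) (nat_lit 456) (nat_lit 376076387) (nat_lit 532) (nat_lit 48542523068) (nat_lit 98) (nat_lit 5) (nat_lit 104) (nat_lit 5) (nat_lit 105) (nat_lit 5) (nat_lit 364) (nat_lit 328) (nat_lit 88)) (XT.nd (nat_lit 78) (nat_lit 380) (nat_lit 0) (XT.lf (nat_lit 0) (nat_lit 14091317945) (nat_lit 532) (nat_lit 24036783626) (nat_lit 76) (nat_lit 18965746363) (nat_lit 98) (nat_lit 5) (nat_lit 105) (nat_lit 5) (nat_lit 99) (nat_lit 5) (nat_lit 365) (nat_lit 328) (nat_lit 87)) (XT.lf (nat_lit 0) (nat_lit 1618149708) (nat_lit 380) (nat_lit 19286270089) (nat_lit 456) (nat_lit 37277513505) (nat_lit 93) (nat_lit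 5) (nat_lit 98) (nat_lit 5) (nat_lit 99) (nat_lit 5) (nat_lit 366) (nat_lit 328) (nat_lit 86)))) (XT.nd (nat_lit 78) (nat_lit 380) (nat_lit 0) (XT.lf (nat_lit 0) (nat_lit 28167218342) (nat_lit 456) (nat_lit 30764689401) (nat_lit 76) (nat_lit 363395904) (nat_lit 93) (nat_lit 5) (nat_lit 99) (nat_lit 5) (nat_lit 94) (nat_lit 5) (nat_lit 367) (nat_lit 328) (nat_lit 85)) (XT.nd (nat_lit 78) (nat_lit 380) (nat_lit 0) (XT.lf (nat_lit 0) (nat_lit 35837897390) (nat_lit 456) (nat_lit 4383747271) (nat_lit 76) (nat_lit 20214732026) (nat_lit 93) (nat_lit 5) (nat_lit 99) (nat_lit 5) (nat_lit 94) (nat_lit 5) (nat_lit 368) (nat_lit 328) (nat_lit 84)) (XT.lf (nat_lit 0) (nat_lit 23241001175) (nat_lit 380) (nat_lit 20720173596) (nat_lit 456) (nat_lit 17643834244) (nat_lit 88) (nat_lit 5) (nat_lit 93) (nat_lit 5) (nat_lit 94) (nat_lit 5) (nat_lit 369) (nat_lit 328) (nat_lit 83))))) (XT.nd (nat_lit 234) (nat_lit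 0) (nat_lit 76) (XT.nd (nat_lit 78) (nat_lit 0) (nat_lit 0) (XT.lf (nat_lit 0) (nat_lit 14759247845) (nat_lit 1140) (nat_lit 521468063) (nat_lit 1140) (nat_lit 521468063) (nat_lit 173) (nat_lit 3) (nat_lit 188) (nat_lit 3) (nat_lit 188) (nat_lit 5) (nat_lit 329) (nat_lit 329) (nat_lit 122)) (XT.nd (nat_lit 78) (nat_lit 0) (nat_lit 0) (XT.lf (nat_lit 76) (nat_lit 12773867140) (nat_lit 0) (nat_lit 17370216151) (nat_lit 1140) (nat_lit 1928745749) (nat_lit 174) (nat_lit 5) (nat_lit 173) (nat_lit 3) (nat_lit 188) (nat_lit 5) (nat_lit 330) (nat_lit 329) (nat_lit 121)) (XT.lf (nat_lit 76) (nat_lit 27025320933) (nat_lit 0) (nat_lit 3771294938) (nat_lit 1140) (nat_lit 1758487469) (nat_lit 174) (nat_lit 5) (nat_lit 173) (nat_lit 3) (nat_lit 188) (nat_lit 5) (nat_lit 331) (nat_lit 329) (nat_lit 120)))) (XT.nd (nat_lit 78) (nat_lit 0) (nat_lit 0) (XT.lf (nat_lit 76) (nat_lit 8723018771) (nat_lit 0) (nat_lit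 22925672217) (nat_lit 1140) (nat_lit 1397760435) (nat_lit 175) (nat_lit 5) (nat_lit 174) (nat_lit 5) (nat_lit 189) (nat_lit 5) (nat_lit 332) (nat_lit 329) (nat_lit 119)) (XT.nd (nat_lit 78) (nat_lit 0) (nat_lit 76) (XT.lf (nat_lit 76) (nat_lit 23477408548) (nat_lit 0) (nat_lit 9139512107) (nat_lit 1140) (nat_lit 932905941) (nat_lit 175) (nat_lit 5) (nat_lit 174) (nat_lit 5) (nat_lit 189) (nat_lit 5) (nat_lit 333) (nat_lit 329) (nat_lit 118)) (XT.lf (nat_lit 76) (nat_lit 4646852953) (nat_lit 0) (nat_lit 29058507155) (nat_lit 1140) (nat_lit 360212322) (nat_lit 176) (nat_lit 5) (nat_lit 175) (nat_lit 5) (nat_lit 190) (nat_lit 5) (nat_lit 334) (nat_lit 329) (nat_lit 117)))))) (XT.nd (nat_lit 468) (nat_lit 0) (nat_lit 228) (XT.nd (nat_lit 234) (nat_lit 0) (nat_lit 76) (XT.nd (nat_lit 78) (nat_lit 0) (nat_lit 0) (XT.lf (nat_lit 0) (nat_lit 416267198) (nat_lit 1140) (nat_lit 14674609697) (nat_lit 1216)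 (nat_lit 19500118958) (nat_lit 160) (nat_lit 5) (nat_lit 175) (nat_lit 5) (nat_lit 176) (nat_lit 5) (nat_lit 335) (nat_lit 329) (nat_lit 116)) (XT.nd (nat_lit 78) (nat_lit 0) (nat_lit 76) (XT.lf (nat_lit 76) (nat_lit 517043113) (nat_lit 0) (nat_lit 694667719) (nat_lit 1216) (nat_lit 33920280790) (nat_lit 161) (nat_lit 5) (nat_lit 160) (nat_lit 5) (nat_lit 176) (nat_lit 5) (nat_lit 336) (nat_lit 329) (nat_lit 115)) (XT.lf (nat_lit 0) (nat_lit 2314522950) (nat_lit 1140) (nat_lit 19358198975) (nat_lit 1216) (nat_lit 14007993996) (nat_lit 161) (nat_lit 5) (nat_lit 176) (nat_lit 5) (nat_lit 177) (nat_lit 5) (nat_lit 337) (nat_lit 329) (nat_lit 114)))) (XT.nd (nat_lit 78) (nat_lit 0) (nat_lit 76) (XT.lf (nat_lit 0) (nat_lit 3455349814) (nat_lit 1140) (nat_lit 3651946741) (nat_lit 1216) (nat_lit 29138461183) (nat_lit 161) (nat_lit 5) (nat_lit 176) (nat_lit 5) (nat_lit 177) (nat_lit 5) (nat_lit 338) (nat_lit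 329) (nat_lit 113)) (XT.nd (nat_lit 78) (nat_lit 0) (nat_lit 0) (XT.lf (nat_lit 0) (nat_lit 4828411057) (nat_lit 1140) (nat_lit 24127775526) (nat_lit 1216) (nat_lit 7865627531) (nat_lit 162) (nat_lit 5) (nat_lit 177) (nat_lit 5) (nat_lit 178) (nat_lit 5) (nat_lit 339) (nat_lit 329) (nat_lit 112)) (XT.lf (nat_lit 0) (nat_lit 6348433649) (nat_lit 1140) (nat_lit 7880850725) (nat_lit 1216) (nat_lit 23182698211) (nat_lit 162) (nat_lit 5) (nat_lit 177) (nat_lit 5) (nat_lit 178) (nat_lit 5) (nat_lit 340) (nat_lit 329) (nat_lit 111))))) (XT.nd (nat_lit 234) (nat_lit 0) (nat_lit 76) (XT.nd (nat_lit 78) (nat_lit 0) (nat_lit 0) (XT.lf (nat_lit 0) (nat_lit 8008948652) (nat_lit 1140) (nat_lit 28998842623) (nat_lit 1216) (nat_lit 1009221469) (nat_lit 163) (nat_lit 5) (nat_lit 178) (nat_lit 5) (nat_lit 179) (nat_lit 5) (nat_lit 341) (nat_lit 329) (nat_lit 110)) (XT.nd (nat_lit 78) (nat_lit 0) (nat_lit 0) (XT.lf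 (nat_lit 0) (nat_lit 9938787688) (nat_lit 1140) (nat_lit 12195110908) (nat_lit 1216) (nat_lit 16499713243) (nat_lit 163) (nat_lit 5) (nat_lit 178) (nat_lit 5) (nat_lit 179) (nat_lit 5) (nat_lit 342) (nat_lit 329) (nat_lit 109)) (XT.lf (nat_lit 76) (nat_lit 5213155433) (nat_lit 0) (nat_lit 6761784816) (nat_lit 1216) (nat_lit 27292319298) (nat_lit 164) (nat_lit 5) (nat_lit 163) (nat_lit 5) (nat_lit 179) (nat_lit 5) (nat_lit 343) (nat_lit 329) (nat_lit 108)))) (XT.nd (nat_lit 78) (nat_lit 0) (nat_lit 0) (XT.lf (nat_lit 0) (nat_lit 14282090841) (nat_lit 1140) (nat_lit 16612332992) (nat_lit 1216) (nat_lit 9019198551) (nat_lit 164) (nat_lit 5) (nat_lit 179) (nat_lit 5) (nat_lit 180) (nat_lit 5) (nat_lit 344) (nat_lit 329) (nat_lit 107)) (XT.nd (nat_lit 78) (nat_lit 0) (nat_lit 76) (XT.lf (nat_lit 76) (nat_lit 1309996642) (nat_lit 0) (nat_lit 15426395049) (nat_lit 1216) (nat_lit 23840649350) (nat_lit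 165) (nat_lit 5) (nat_lit 164) (nat_lit 5) (nat_lit 180) (nat_lit 5) (nat_lit 345) (nat_lit 329) (nat_lit 106)) (XT.lf (nat_lit 0) (nat_lit 19437027141) (nat_lit 1140) (nat_lit 21152667621) (nat_lit 76) (nat_lit 665489250) (nat_lit 165) (nat_lit 5) (nat_lit 180) (nat_lit 5) (nat_lit 166) (nat_lit 5) (nat_lit 346) (nat_lit 329) (nat_lit 105))))))))
noncomputable def xc245 : XT := (XT.nd (nat_lit 39312) (nat_lit 0) (nat_lit 3344) (XT.nd (nat_lit 858) (nat_lit 2204) (nat_lit 0) (XT.nd (nat_lit 390) (nat_lit 1672) (nat_lit 0) (XT.nd (nat_lit 156) (nat_lit 532) (nat_lit 0) (XT.nd (nat_lit 78) (nat_lit 1064) (nat_lit 0) (XT.lf (nat_lit 0) (nat_lit 22369895733) (nat_lit 1140) (nat_lit 2648905699) (nat_lit 76) (nat_lit 16930336254) (nat_lit 165) (nat_lit 5) (nat_lit 180) (nat_lit 5) (nat_lit 166) (nat_lit 5) (nat_lit 347) (nat_lit 329) (nat_lit 104)) (XT.lf (nat_lit 0) (nat_lit 16735262905) (nat_lit 1064)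 (nat_lit 8814878902) (nat_lit 1140) (nat_lit 17108989175) (nat_lit 151) (nat_lit 5) (nat_lit 165) (nat_lit 5) (nat_lit 166) (nat_lit 5) (nat_lit 348) (nat_lit 329) (nat_lit 103))) (XT.nd (nat_lit 78) (nat_lit 532) (nat_lit 0) (XT.lf (nat_lit 0) (nat_lit 28927064325) (nat_lit 1140) (nat_lit 6711637650) (nat_lit 76) (nat_lit 7748686702) (nat_lit 151) (nat_lit 5) (nat_lit 166) (nat_lit 5) (nat_lit 152) (nat_lit 5) (nat_lit 349) (nat_lit 329) (nat_lit 102)) (XT.nd (nat_lit 78) (nat_lit 0) (nat_lit 0) (XT.lf (nat_lit 0) (nat_lit 13246909782) (nat_lit 532) (nat_lit 19371594865) (nat_lit 608) (nat_lit 11512595749) (nat_lit 144) (nat_lit 5) (nat_lit 151) (nat_lit 5) (nat_lit 152) (nat_lit 5) (nat_lit 350) (nat_lit 329) (nat_lit 101)) (XT.lf (nat_lit 0) (nat_lit 33940539266) (nat_lit 532) (nat_lit 2546548787) (nat_lit 608) (nat_lit 8408045936) (nat_lit 144) (nat_lit 5) (nat_lit 151) (nat_lit 5) (nat_lit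 152) (nat_lit 5) (nat_lit 351) (nat_lit 329) (nat_lit 100))))) (XT.nd (nat_lit 234) (nat_lit 532) (nat_lit 0) (XT.nd (nat_lit 78) (nat_lit 608) (nat_lit 0) (XT.lf (nat_lit 0) (nat_lit 9617185998) (nat_lit 532) (nat_lit 31087761501) (nat_lit 608) (nat_lit 4970146982) (nat_lit 137) (nat_lit 5) (nat_lit 144) (nat_lit 5) (nat_lit 145) (nat_lit 5) (nat_lit 352) (nat_lit 329) (nat_lit 99)) (XT.nd (nat_lit 78) (nat_lit 608) (nat_lit 0) (XT.lf (nat_lit 0) (nat_lit 31003712477) (nat_lit 532) (nat_lit 14179909785) (nat_lit 608) (nat_lit 1290805515) (nat_lit 137) (nat_lit 5) (nat_lit 144) (nat_lit 5) (nat_lit 145) (nat_lit 5) (nat_lit 353) (nat_lit 329) (nat_lit 98)) (XT.lf (nat_lit 0) (nat_lit 2536729822) (nat_lit 608) (nat_lit 41504825816) (nat_lit 76) (nat_lit 3252869744) (nat_lit 129) (nat_lit 5) (nat_lit 137) (nat_lit 5) (nat_lit 130) (nat_lit 5) (nat_lit 354) (nat_lit 329) (nat_lit 97)))) (XT.nd (nat_lit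 78) (nat_lit 532) (nat_lit 0) (XT.lf (nat_lit 0) (nat_lit 6750055610) (nat_lit 608) (nat_lit 20285470298) (nat_lit 76) (nat_lit 21094208524) (nat_lit 129) (nat_lit 5) (nat_lit 137) (nat_lit 5) (nat_lit 130) (nat_lit 5) (nat_lit 355) (nat_lit 329) (nat_lit 96)) (XT.nd (nat_lit 78) (nat_lit 0) (nat_lit 0) (XT.lf (nat_lit 0) (nat_lit 1600463384) (nat_lit 532) (nat_lit 9503481543) (nat_lit 608) (nat_lit 37885735025) (nat_lit 122) (nat_lit 5) (nat_lit 129) (nat_lit 5) (nat_lit 130) (nat_lit 5) (nat_lit 356) (nat_lit 329) (nat_lit 95)) (XT.lf (nat_lit 0) (nat_lit 15876356584) (nat_lit 608) (nat_lit 25395989617) (nat_lit 76) (nat_lit 8594442517) (nat_lit 122) (nat_lit 5) (nat_lit 130) (nat_lit 5) (nat_lit 123) (nat_lit 5) (nat_lit 357) (nat_lit 329) (nat_lit 94)))))) (XT.nd (nat_lit 468) (nat_lit 912) (nat_lit 0) (XT.nd (nat_lit 234) (nat_lit 836) (nat_lit 0) (XT.nd (nat_lit 78) (nat_lit 456) (nat_lit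 0) (XT.lf (nat_lit 0) (nat_lit 20884872049) (nat_lit 608) (nat_lit 2838282007) (nat_lit 76) (nat_lit 27044270734) (nat_lit 122) (nat_lit 5) (nat_lit 130) (nat_lit 5) (nat_lit 123) (nat_lit 5) (nat_lit 358) (nat_lit 329) (nat_lit 93)) (XT.nd (nat_lit 78) (nat_lit 0) (nat_lit 0) (XT.lf (nat_lit 0) (nat_lit 20800870053) (nat_lit 456) (nat_lit 5441595053) (nat_lit 532) (nat_lit 25446652106) (nat_lit 116) (nat_lit 5) (nat_lit 122) (nat_lit 5) (nat_lit 123) (nat_lit 5) (nat_lit 359) (nat_lit 329) (nat_lit 92)) (XT.lf (nat_lit 0) (nat_lit 31917320768) (nat_lit 532) (nat_lit 7560412739) (nat_lit 76) (nat_lit 13156032731) (nat_lit 116) (nat_lit 5) (nat_lit 123) (nat_lit 5) (nat_lit 117) (nat_lit 5) (nat_lit 360) (nat_lit 329) (nat_lit 91)))) (XT.nd (nat_lit 78) (nat_lit 380) (nat_lit 0) (XT.lf (nat_lit 0) (nat_lit 16738840358) (nat_lit 456) (nat_lit 21237287516) (nat_lit 532) (nat_lit 15624217509) (nat_lit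 110) (nat_lit 5) (nat_lit 116) (nat_lit 5) (nat_lit 117) (nat_lit 5) (nat_lit 361) (nat_lit 329) (nat_lit 90)) (XT.nd (nat_lit 78) (nat_lit 380) (nat_lit 0) (XT.lf (nat_lit 0) (nat_lit 41920889368) (nat_lit 456) (nat_lit 2371099937) (nat_lit 532) (nat_lit 10301675660) (nat_lit 110) (nat_lit 5) (nat_lit 116) (nat_lit 5) (nat_lit 117) (nat_lit 5) (nat_lit 362) (nat_lit 329) (nat_lit 89)) (XT.lf (nat_lit 0) (nat_lit 12316799039) (nat_lit 380) (nat_lit 38761900121) (nat_lit 456) (nat_lit 4529645514) (nat_lit 105) (nat_lit 5) (nat_lit 110) (nat_lit 5) (nat_lit 111) (nat_lit 5) (nat_lit 363) (nat_lit 329) (nat_lit 88))))) (XT.nd (nat_lit 234) (nat_lit 380) (nat_lit 0) (XT.nd (nat_lit 78) (nat_lit 456) (nat_lit 0) (XT.lf (nat_lit 0) (nat_lit 1539618321) (nat_lit 456) (nat_lit 18373306455) (nat_lit 76) (nat_lit 36735582547) (nat_lit 104) (nat_lit 5) (nat_lit 110) (nat_lit 5) (nat_lit 105) (nat_lit 5) (nat_lit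 364) (nat_lit 329) (nat_lit 87)) (XT.nd (nat_lit 78) (nat_lit 0) (nat_lit 0) (XT.lf (nat_lit 0) (nat_lit 7390714669) (nat_lit 456) (nat_lit 379259465) (nat_lit 532) (nat_lit 49946455185) (nat_lit 98) (nat_lit 5) (nat_lit 104) (nat_lit 5) (nat_lit 105) (nat_lit 5) (nat_lit 365) (nat_lit 329) (nat_lit 86)) (XT.lf (nat_lit 0) (nat_lit 14563396785) (nat_lit 532) (nat_lit 24699280402) (nat_lit 76) (nat_lit 19542428627) (nat_lit 98) (nat_lit 5) (nat_lit 105) (nat_lit 5) (nat_lit 99) (nat_lit 5) (nat_lit 366) (nat_lit 329) (nat_lit 85)))) (XT.nd (nat_lit 78) (nat_lit 0) (nat_lit 0) (XT.lf (nat_lit 0) (nat_lit 1724726356) (nat_lit 380) (nat_lit 19855286111) (nat_lit 456) (nat_lit 38345849908) (nat_lit 93) (nat_lit 5) (nat_lit 98) (nat_lit 5) (nat_lit 99) (nat_lit 5) (nat_lit 367) (nat_lit 329) (nat_lit 84)) (XT.nd (nat_lit 78) (nat_lit 0) (nat_lit 0) (XT.lf (nat_lit 0) (nat_lit 29059372842) (nat_lit 456)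 (nat_lit 31629893121) (nat_lit 76) (nat_lit 383409718) (nat_lit 93) (nat_lit 5) (nat_lit 99) (nat_lit 5) (nat_lit 94) (nat_lit 5) (nat_lit 368) (nat_lit 329) (nat_lit 83)) (XT.lf (nat_lit 0) (nat_lit 36958799311) (nat_lit 456) (nat_lit 4459204386) (nat_lit 76) (nat_lit 20830020528) (nat_lit 93) (nat_lit 5) (nat_lit 99) (nat_lit 5) (nat_lit 94) (nat_lit 5) (nat_lit 369) (nat_lit 329) (nat_lit 82))))))) (XT.nd (nat_lit 936) (nat_lit 1748) (nat_lit 0) (XT.nd (nat_lit 468) (nat_lit 988) (nat_lit 0) (XT.nd (nat_lit 234) (nat_lit 0) (nat_lit 76) (XT.nd (nat_lit 78) (nat_lit 0) (nat_lit 0) (XT.lf (nat_lit 0) (nat_lit 15261468273) (nat_lit 1140) (nat_lit 506439483) (nat_lit 1140) (nat_lit 506439483) (nat_lit 173) (nat_lit 3) (nat_lit 188) (nat_lit 3) (nat_lit 188) (nat_lit 5) (nat_lit 330) (nat_lit 330) (nat_lit 120)) (XT.nd (nat_lit 78) (nat_lit 0) (nat_lit 0) (XT.lf (nat_lit 76) (nat_lit 13217826974)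 (nat_lit 0) (nat_lit 17946586010) (nat_lit 1140) (nat_lit 1866889721) (nat_lit 174) (nat_lit 5) (nat_lit 173) (nat_lit 3) (nat_lit 188) (nat_lit 5) (nat_lit 331) (nat_lit 330) (nat_lit 119)) (XT.lf (nat_lit 76) (nat_lit 27895055143) (nat_lit 0) (nat_lit 3938087548) (nat_lit 1140) (nat_lit 1695010636) (nat_lit 174) (nat_lit 5) (nat_lit 173) (nat_lit 3) (nat_lit 188) (nat_lit 5) (nat_lit 332) (nat_lit 330) (nat_lit 118)))) (XT.nd (nat_lit 78) (nat_lit 0) (nat_lit 0) (XT.lf (nat_lit 76) (nat_lit 9047184219) (nat_lit 0) (nat_lit 23660415220) (nat_lit 1140) (nat_lit 1326744362) (nat_lit 175) (nat_lit 5) (nat_lit 174) (nat_lit 5) (nat_lit 189) (nat_lit 5) (nat_lit 333) (nat_lit 330) (nat_lit 117)) (XT.nd (nat_lit 78) (nat_lit 0) (nat_lit 76) (XT.lf (nat_lit 76) (nat_lit 24242386033) (nat_lit 0) (nat_lit 9459302166) (nat_lit 1140) (nat_lit 851234007) (nat_lit 175) (nat_lit 5) (nat_lit 174) (nat_lit 5)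 (nat_lit 189) (nat_lit 5) (nat_lit 334) (nat_lit 330) (nat_lit 116)) (XT.lf (nat_lit 76) (nat_lit 4850119056) (nat_lit 0) (nat_lit 29969755085) (nat_lit 1140) (nat_lit 264359632) (nat_lit 176) (nat_lit 5) (nat_lit 175) (nat_lit 5) (nat_lit 190) (nat_lit 5) (nat_lit 335) (nat_lit 330) (nat_lit 115))))) (XT.nd (nat_lit 234) (nat_lit 0) (nat_lit 76) (XT.nd (nat_lit 78) (nat_lit 0) (nat_lit 0) (XT.lf (nat_lit 0) (nat_lit 530287017) (nat_lit 1140) (nat_lit 15050633355) (nat_lit 1216) (nat_lit 20044565951) (nat_lit 160) (nat_lit 5) (nat_lit 175) (nat_lit 5) (nat_lit 176) (nat_lit 5) (nat_lit 336) (nat_lit 330) (nat_lit 114)) (XT.nd (nat_lit 78) (nat_lit 0) (nat_lit 76) (XT.lf (nat_lit 76) (nat_lit 596139484) (nat_lit 0) (nat_lit 751108458) (nat_lit 1216) (nat_lit 34835540039) (nat_lit 161) (nat_lit 5) (nat_lit 160) (nat_lit 5) (nat_lit 176) (nat_lit 5) (nat_lit 337) (nat_lit 330) (nat_lit 113)) (XT.lf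 (nat_lit 0) (nat_lit 2479923268) (nat_lit 1140) (nat_lit 19873808358) (nat_lit 1216) (nat_lit 14394344487) (nat_lit 161) (nat_lit 5) (nat_lit 176) (nat_lit 5) (nat_lit 177) (nat_lit 5) (nat_lit 338) (nat_lit 330) (nat_lit 112)))) (XT.nd (nat_lit 78) (nat_lit 0) (nat_lit 76) (XT.lf (nat_lit 0) (nat_lit 3652179852) (nat_lit 1140) (nat_lit 3698265738) (nat_lit 1216) (nat_lit 29979712758) (nat_lit 161) (nat_lit 5) (nat_lit 176) (nat_lit 5) (nat_lit 177) (nat_lit 5) (nat_lit 339) (nat_lit 330) (nat_lit 111)) (XT.nd (nat_lit 78) (nat_lit 0) (nat_lit 0) (XT.lf (nat_lit 0) (nat_lit 5064047826) (nat_lit 1140) (nat_lit 24785812401) (nat_lit 1216) (nat_lit 8073712899) (nat_lit 162) (nat_lit 5) (nat_lit 177) (nat_lit 5) (nat_lit 178) (nat_lit 5) (nat_lit 340) (nat_lit 330) (nat_lit 110)) (XT.lf (nat_lit 0) (nat_lit 6627026888) (nat_lit 1140) (nat_lit 8053396256) (nat_lit 1216) (nat_lit 23851107839) (nat_lit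 162) (nat_lit 5) (nat_lit 177) (nat_lit 5) (nat_lit 178) (nat_lit 5) (nat_lit 341) (nat_lit 330) (nat_lit 109)))))) (XT.nd (nat_lit 468) (nat_lit 1976) (nat_lit 0) (XT.nd (nat_lit 234) (nat_lit 0) (nat_lit 76) (XT.nd (nat_lit 78) (nat_lit 0) (nat_lit 0) (XT.lf (nat_lit 0) (nat_lit 8335177792) (nat_lit 1140) (nat_lit 29802586348) (nat_lit 1216) (nat_lit 1017018153) (nat_lit 163) (nat_lit 5) (nat_lit 178) (nat_lit 5) (nat_lit 179) (nat_lit 5) (nat_lit 342) (nat_lit 330) (nat_lit 108)) (XT.nd (nat_lit 78) (nat_lit 0) (nat_lit 0) (XT.lf (nat_lit 0) (nat_lit 10320408289) (nat_lit 1140) (nat_lit 12496671465) (nat_lit 1216) (nat_lit 16972879437) (nat_lit 163) (nat_lit 5) (nat_lit 178) (nat_lit 5) (nat_lit 179) (nat_lit 5) (nat_lit 343) (nat_lit 330) (nat_lit 107)) (XT.lf (nat_lit 76) (nat_lit 5433212546) (nat_lit 0) (nat_lit 6982614059) (nat_lit 1216) (nat_lit 28026848872) (nat_lit 164) (nat_lit 5) (nat_lit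 163) (nat_lit 5) (nat_lit 179) (nat_lit 5) (nat_lit 344) (nat_lit 330) (nat_lit 106)))) (XT.nd (nat_lit 78) (nat_lit 0) (nat_lit 0) (XT.lf (nat_lit 0) (nat_lit 14789646143) (nat_lit 1140) (nat_lit 17046200943) (nat_lit 1216) (nat_lit 9272662927) (nat_lit 164) (nat_lit 5) (nat_lit 179) (nat_lit 5) (nat_lit 180) (nat_lit 5) (nat_lit 345) (nat_lit 330) (nat_lit 105)) (XT.nd (nat_lit 78) (nat_lit 0) (nat_lit 76) (XT.lf (nat_lit 76) (nat_lit 1413166207) (nat_lit 0) (nat_lit 15902720099) (nat_lit 1216) (nat_lit 24475999934) (nat_lit 165) (nat_lit 5) (nat_lit 164) (nat_lit 5) (nat_lit 180) (nat_lit 5) (nat_lit 346) (nat_lit 330) (nat_lit 104)) (XT.lf (nat_lit 0) (nat_lit 20095160067) (nat_lit 1140) (nat_lit 21722717759) (nat_lit 76) (nat_lit 672571290) (nat_lit 165) (nat_lit 5) (nat_lit 180) (nat_lit 5) (nat_lit 166) (nat_lit 5) (nat_lit 347) (nat_lit 330) (nat_lit 103))))) (XT.nd (nat_lit 234) (nat_lit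 1064) (nat_lit 0) (XT.nd (nat_lit 78) (nat_lit 1064) (nat_lit 0) (XT.lf (nat_lit 0) (nat_lit 23113829607) (nat_lit 1140) (nat_lit 2665722490) (nat_lit 76) (nat_lit 17425738927) (nat_lit 165) (nat_lit 5) (nat_lit 180) (nat_lit 5) (nat_lit 166) (nat_lit 5) (nat_lit 348) (nat_lit 330) (nat_lit 102)) (XT.nd (nat_lit 78) (nat_lit 0) (nat_lit 0) (XT.lf (nat_lit 0) (nat_lit 17299356952) (nat_lit 1064) (nat_lit 9088600974) (nat_lit 1140) (nat_lit 17548675898) (nat_lit 151) (nat_lit 5) (nat_lit 165) (nat_lit 5) (nat_lit 166) (nat_lit 5) (nat_lit 349) (nat_lit 330) (nat_lit 101)) (XT.lf (nat_lit 0) (nat_lit 29864024508) (nat_lit 1140) (nat_lit 6850465992) (nat_lit 76) (nat_lit 7972317495) (nat_lit 151) (nat_lit 5) (nat_lit 166) (nat_lit 5) (nat_lit 152) (nat_lit 5) (nat_lit 350) (nat_lit 330) (nat_lit 100)))) (XT.nd (nat_lit 78) (nat_lit 532) (nat_lit 0) (XT.lf (nat_lit 0) (nat_lit 13706224913) (nat_lit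 532) (nat_lit 19958564195) (nat_lit 608) (nat_lit 11788088250) (nat_lit 144) (nat_lit 5) (nat_lit 151) (nat_lit 5) (nat_lit 152) (nat_lit 5) (nat_lit 351) (nat_lit 330) (nat_lit 99)) (XT.nd (nat_lit 78) (nat_lit 532) (nat_lit 0) (XT.lf (nat_lit 0) (nat_lit 35018860141) (nat_lit 532) (nat_lit 2628597178) (nat_lit 608) (nat_lit 8592437439) (nat_lit 144) (nat_lit 5) (nat_lit 151) (nat_lit 5) (nat_lit 152) (nat_lit 5) (nat_lit 352) (nat_lit 330) (nat_lit 98)) (XT.lf (nat_lit 0) (nat_lit 9967343540) (nat_lit 532) (nat_lit 32023133559) (nat_lit 608) (nat_lit 5052821740) (nat_lit 137) (nat_lit 5) (nat_lit 144) (nat_lit 5) (nat_lit 145) (nat_lit 5) (nat_lit 353) (nat_lit 330) (nat_lit 97))))))))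
noncomputable def xc246 : XT := (XT.nd (nat_lit 39468) (nat_lit 0) (nat_lit 1748) (XT.nd (nat_lit 858) (nat_lit 912) (nat_lit 0) (XT.nd (nat_lit 390) (nat_lit 1292) (nat_lit 0) (XT.nd (nat_lit 156) (nat_lit 532) (nat_lit 0) (XT.nd (nat_lit 78) (nat_lit 608) (nat_lit 0) (XT.lf (nat_lit 0) (nat_lit 31993670417) (nat_lit 532) (nat_lit 14607966508) (nat_lit 608) (nat_lit 1265034872) (nat_lit 137) (nat_lit 5) (nat_lit 144) (nat_lit 5) (nat_lit 145) (nat_lit 5) (nat_lit 354) (nat_lit 330) (nat_lit 96)) (XT.lf (nat_lit 0) (nat_lit 2674795745) (nat_lit 608) (nat_lit 42687375813) (nat_lit 76) (nat_lit 3349120555) (nat_lit 129) (nat_lit 5) (nat_lit 137) (nat_lit 5) (nat_lit 130) (nat_lit 5) (nat_lit 355) (nat_lit 330) (nat_lit 95))) (XT.nd (nat_lit 78) (nat_lit 532) (nat_lit 0) (XT.lf (nat_lit 0) (nat_lit 7012716529) (nat_lit 608) (nat_lit 20833262779) (nat_lit 76) (nat_lit 21725738390) (nat_lit 129) (nat_lit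 5) (nat_lit 137) (nat_lit 5) (nat_lit 130) (nat_lit 5) (nat_lit 356) (nat_lit 330) (nat_lit 94)) (XT.nd (nat_lit 78) (nat_lit 0) (nat_lit 0) (XT.lf (nat_lit 0) (nat_lit 1708653114) (nat_lit 532) (nat_lit 9787395648) (nat_lit 608) (nat_lit 38961451063) (nat_lit 122) (nat_lit 5) (nat_lit 129) (nat_lit 5) (nat_lit 130) (nat_lit 5) (nat_lit 357) (nat_lit 330) (nat_lit 93)) (XT.lf (nat_lit 0) (nat_lit 16409925853) (nat_lit 608) (nat_lit 26097641236) (nat_lit 76) (nat_lit 8853408912) (nat_lit 122) (nat_lit 5) (nat_lit 130) (nat_lit 5) (nat_lit 123) (nat_lit 5) (nat_lit 358) (nat_lit 330) (nat_lit 92))))) (XT.nd (nat_lit 234) (nat_lit 836) (nat_lit 0) (XT.nd (nat_lit 78) (nat_lit 456) (nat_lit 0) (XT.lf (nat_lit 0) (nat_lit 21567028474) (nat_lit 608) (nat_lit 2864956613) (nat_lit 76) (nat_lit 27856698973) (nat_lit 122) (nat_lit 5) (nat_lit 130) (nat_lit 5) (nat_lit 123) (nat_lit 5) (nat_lit 359) (nat_lit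 330) (nat_lit 91)) (XT.nd (nat_lit 78) (nat_lit 0) (nat_lit 0) (XT.lf (nat_lit 0) (nat_lit 21482796735) (nat_lit 456) (nat_lit 5601489448) (nat_lit 532) (nat_lit 26153775739) (nat_lit 116) (nat_lit 5) (nat_lit 122) (nat_lit 5) (nat_lit 123) (nat_lit 5) (nat_lit 360) (nat_lit 330) (nat_lit 90)) (XT.lf (nat_lit 0) (nat_lit 32927830060) (nat_lit 532) (nat_lit 7729363808) (nat_lit 76) (nat_lit 13553905965) (nat_lit 116) (nat_lit 5) (nat_lit 123) (nat_lit 5) (nat_lit 117) (nat_lit 5) (nat_lit 361) (nat_lit 330) (nat_lit 89)))) (XT.nd (nat_lit 78) (nat_lit 380) (nat_lit 0) (XT.lf (nat_lit 0) (nat_lit 17298299614) (nat_lit 456) (nat_lit 21869109122) (nat_lit 532) (nat_lit 16039300008) (nat_lit 110) (nat_lit 5) (nat_lit 116) (nat_lit 5) (nat_lit 117) (nat_lit 5) (nat_lit 362) (nat_lit 330) (nat_lit 88)) (XT.nd (nat_lit 78) (nat_lit 380) (nat_lit 0) (XT.lf (nat_lit 0) (nat_lit 43234141336) (nat_lit 456)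 (nat_lit 2437090198) (nat_lit 532) (nat_lit 10558644351) (nat_lit 110) (nat_lit 5) (nat_lit 116) (nat_lit 5) (nat_lit 117) (nat_lit 5) (nat_lit 363) (nat_lit 330) (nat_lit 87)) (XT.lf (nat_lit 0) (nat_lit 12742917353) (nat_lit 380) (nat_lit 39917747172) (nat_lit 456) (nat_lit 4614360266) (nat_lit 105) (nat_lit 5) (nat_lit 110) (nat_lit 5) (nat_lit 111) (nat_lit 5) (nat_lit 364) (nat_lit 330) (nat_lit 86)))))) (XT.nd (nat_lit 38142) (nat_lit 0) (nat_lit 5092) (XT.nd (nat_lit 234) (nat_lit 380) (nat_lit 0) (XT.nd (nat_lit 78) (nat_lit 456) (nat_lit 0) (XT.lf (nat_lit 0) (nat_lit 1634521445) (nat_lit 456) (nat_lit 18868493373) (nat_lit 76) (nat_lit 37843408909) (nat_lit 104) (nat_lit 5) (nat_lit 110) (nat_lit 5) (nat_lit 105) (nat_lit 5) (nat_lit 365) (nat_lit 330) (nat_lit 85)) (XT.nd (nat_lit 78) (nat_lit 0) (nat_lit 0) (XT.lf (nat_lit 0) (nat_lit 7667899245) (nat_lit 456) (nat_lit 383002962) (nat_lit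 532) (nat_lit 51395510002) (nat_lit 98) (nat_lit 5) (nat_lit 104) (nat_lit 5) (nat_lit 105) (nat_lit 5) (nat_lit 366) (nat_lit 330) (nat_lit 84)) (XT.lf (nat_lit 0) (nat_lit 15046805713) (nat_lit 532) (nat_lit 25385016348) (nat_lit 76) (nat_lit 20135968781) (nat_lit 98) (nat_lit 5) (nat_lit 105) (nat_lit 5) (nat_lit 99) (nat_lit 5) (nat_lit 367) (nat_lit 330) (nat_lit 83)))) (XT.nd (nat_lit 37752) (nat_lit 0) (nat_lit 6080) (XT.lf (nat_lit 0) (nat_lit 1831169020) (nat_lit 380) (nat_lit 20441922089) (nat_lit 456) (nat_lit 39449105976) (nat_lit 93) (nat_lit 5) (nat_lit 98) (nat_lit 5) (nat_lit 99) (nat_lit 5) (nat_lit 368) (nat_lit 330) (nat_lit 82)) (XT.nd (nat_lit 78) (nat_lit 0) (nat_lit 0) (XT.lf (nat_lit 0) (nat_lit 15775343043) (nat_lit 1140) (nat_lit 492720780) (nat_lit 1140) (nat_lit 492720780) (nat_lit 173) (nat_lit 3) (nat_lit 188) (nat_lit 3) (nat_lit 188) (nat_lit 5) (nat_lit 331) (nat_lit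 331) (nat_lit 118)) (XT.lf (nat_lit 76) (nat_lit 13671618658) (nat_lit 0) (nat_lit 18537074621) (nat_lit 1140) (nat_lit 1810050337) (nat_lit 174) (nat_lit 5) (nat_lit 173) (nat_lit 3) (nat_lit 188) (nat_lit 5) (nat_lit 332) (nat_lit 331) (nat_lit 117))))) (XT.nd (nat_lit 234) (nat_lit 988) (nat_lit 0) (XT.nd (nat_lit 78) (nat_lit 0) (nat_lit 76) (XT.lf (nat_lit 76) (nat_lit 28787495996) (nat_lit 0) (nat_lit 4106803990) (nat_lit 1140) (nat_lit 1636301659) (nat_lit 174) (nat_lit 5) (nat_lit 173) (nat_lit 3) (nat_lit 188) (nat_lit 5) (nat_lit 333) (nat_lit 331) (nat_lit 116)) (XT.nd (nat_lit 78) (nat_lit 0) (nat_lit 0) (XT.lf (nat_lit 76) (nat_lit 9377488317) (nat_lit 0) (nat_lit 24414504080) (nat_lit 1140) (nat_lit 1260081536) (nat_lit 175) (nat_lit 5) (nat_lit 174) (nat_lit 5) (nat_lit 189) (nat_lit 5) (nat_lit 334) (nat_lit 331) (nat_lit 115)) (XT.lf (nat_lit 76) (nat_lit 25026830985) (nat_lit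 0) (nat_lit 9786068031) (nat_lit 1140) (nat_lit 773406797) (nat_lit 175) (nat_lit 5) (nat_lit 174) (nat_lit 5) (nat_lit 189) (nat_lit 5) (nat_lit 335) (nat_lit 331) (nat_lit 114)))) (XT.nd (nat_lit 78) (nat_lit 1140) (nat_lit 0) (XT.lf (nat_lit 76) (nat_lit 5055817287) (nat_lit 0) (nat_lit 30906073410) (nat_lit 1140) (nat_lit 171754028) (nat_lit 176) (nat_lit 5) (nat_lit 175) (nat_lit 5) (nat_lit 190) (nat_lit 5) (nat_lit 336) (nat_lit 331) (nat_lit 113)) (XT.nd (nat_lit 78) (nat_lit 0) (nat_lit 0) (XT.lf (nat_lit 0) (nat_lit 641899090) (nat_lit 1140) (nat_lit 15441623905) (nat_lit 1216) (nat_lit 20607674467) (nat_lit 160) (nat_lit 5) (nat_lit 175) (nat_lit 5) (nat_lit 176) (nat_lit 5) (nat_lit 337) (nat_lit 331) (nat_lit 112)) (XT.lf (nat_lit 76) (nat_lit 673958703) (nat_lit 0) (nat_lit 807198792) (nat_lit 1216) (nat_lit 35784132326) (nat_lit 161) (nat_lit 5) (nat_lit 160) (nat_lit 5) (nat_lit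 176) (nat_lit 5) (nat_lit 338) (nat_lit 331) (nat_lit 111))))))) (XT.nd (nat_lit 936) (nat_lit 2660) (nat_lit 0) (XT.nd (nat_lit 468) (nat_lit 760) (nat_lit 0) (XT.nd (nat_lit 234) (nat_lit 0) (nat_lit 76) (XT.nd (nat_lit 78) (nat_lit 0) (nat_lit 0) (XT.lf (nat_lit 0) (nat_lit 2644776834) (nat_lit 1140) (nat_lit 20408625129) (nat_lit 1216) (nat_lit 14794230879) (nat_lit 161) (nat_lit 5) (nat_lit 176) (nat_lit 5) (nat_lit 177) (nat_lit 5) (nat_lit 339) (nat_lit 331) (nat_lit 110)) (XT.nd (nat_lit 78) (nat_lit 0) (nat_lit 76) (XT.lf (nat_lit 0) (nat_lit 3849566478) (nat_lit 1140) (nat_lit 3749604506) (nat_lit 1216) (nat_lit 30848090604) (nat_lit 161) (nat_lit 5) (nat_lit 176) (nat_lit 5) (nat_lit 177) (nat_lit 5) (nat_lit 340) (nat_lit 331) (nat_lit 109)) (XT.lf (nat_lit 0) (nat_lit 5301542299) (nat_lit 1140) (nat_lit 25467367364) (nat_lit 1216) (nat_lit 8289641453) (nat_lit 162) (nat_lit 5) (nat_lit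 177) (nat_lit 5) (nat_lit 178) (nat_lit 5) (nat_lit 341) (nat_lit 331) (nat_lit 108)))) (XT.nd (nat_lit 78) (nat_lit 0) (nat_lit 76) (XT.lf (nat_lit 0) (nat_lit 6908918314) (nat_lit 1140) (nat_lit 8234785125) (nat_lit 1216) (nat_lit 24541123760) (nat_lit 162) (nat_lit 5) (nat_lit 177) (nat_lit 5) (nat_lit 178) (nat_lit 5) (nat_lit 342) (nat_lit 331) (nat_lit 107)) (XT.nd (nat_lit 78) (nat_lit 0) (nat_lit 0) (XT.lf (nat_lit 0) (nat_lit 8666259311) (nat_lit 1140) (nat_lit 30634243773) (nat_lit 1216) (nat_lit 1026339180) (nat_lit 163) (nat_lit 5) (nat_lit 178) (nat_lit 5) (nat_lit 179) (nat_lit 5) (nat_lit 343) (nat_lit 331) (nat_lit 106)) (XT.lf (nat_lit 0) (nat_lit 10708686737) (nat_lit 1140) (nat_lit 12810969506) (nat_lit 1216) (nat_lit 17461493472) (nat_lit 163) (nat_lit 5) (nat_lit 178) (nat_lit 5) (nat_lit 179) (nat_lit 5) (nat_lit 344) (nat_lit 331) (nat_lit 105))))) (XT.nd (nat_lit 234) (nat_lit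 912) (nat_lit 0) (XT.nd (nat_lit 78) (nat_lit 0) (nat_lit 76) (XT.lf (nat_lit 76) (nat_lit 5656216886) (nat_lit 0) (nat_lit 7209036301) (nat_lit 1216) (nat_lit 28788250054) (nat_lit 164) (nat_lit 5) (nat_lit 163) (nat_lit 5) (nat_lit 179) (nat_lit 5) (nat_lit 345) (nat_lit 331) (nat_lit 104)) (XT.nd (nat_lit 78) (nat_lit 0) (nat_lit 0) (XT.lf (nat_lit 0) (nat_lit 15307887867) (nat_lit 1140) (nat_lit 17496787614) (nat_lit 1216) (nat_lit 9534713509) (nat_lit 164) (nat_lit 5) (nat_lit 179) (nat_lit 5) (nat_lit 180) (nat_lit 5) (nat_lit 346) (nat_lit 331) (nat_lit 103)) (XT.lf (nat_lit 76) (nat_lit 1515764478) (nat_lit 0) (nat_lit 16392558039) (nat_lit 1216) (nat_lit 25134995838) (nat_lit 165) (nat_lit 5) (nat_lit 164) (nat_lit 5) (nat_lit 180) (nat_lit 5) (nat_lit 347) (nat_lit 331) (nat_lit 102)))) (XT.nd (nat_lit 78) (nat_lit 1064) (nat_lit 0) (XT.lf (nat_lit 0) (nat_lit 20768730404) (nat_lit 1140)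 (nat_lit 22313573681) (nat_lit 76) (nat_lit 680605307) (nat_lit 165) (nat_lit 5) (nat_lit 180) (nat_lit 5) (nat_lit 166) (nat_lit 5) (nat_lit 348) (nat_lit 331) (nat_lit 101)) (XT.nd (nat_lit 78) (nat_lit 1064) (nat_lit 0) (XT.lf (nat_lit 0) (nat_lit 23875900354) (nat_lit 1140) (nat_lit 2686640174) (nat_lit 76) (nat_lit 17936721656) (nat_lit 165) (nat_lit 5) (nat_lit 180) (nat_lit 5) (nat_lit 166) (nat_lit 5) (nat_lit 349) (nat_lit 331) (nat_lit 100)) (XT.lf (nat_lit 0) (nat_lit 17876812691) (nat_lit 1064) (nat_lit 9370002245) (nat_lit 1140) (nat_lit 18005777185) (nat_lit 151) (nat_lit 5) (nat_lit 165) (nat_lit 5) (nat_lit 166) (nat_lit 5) (nat_lit 350) (nat_lit 331) (nat_lit 99)))))) (XT.nd (nat_lit 468) (nat_lit 988) (nat_lit 0) (XT.nd (nat_lit 234) (nat_lit 1140) (nat_lit 0) (XT.nd (nat_lit 78) (nat_lit 532) (nat_lit 0) (XT.lf (nat_lit 0) (nat_lit 30825124105) (nat_lit 1140) (nat_lit 6997048133)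 (nat_lit 76) (nat_lit 8203164079) (nat_lit 151) (nat_lit 5) (nat_lit 166) (nat_lit 5) (nat_lit 152) (nat_lit 5) (nat_lit 351) (nat_lit 331) (nat_lit 98)) (XT.nd (nat_lit 78) (nat_lit 0) (nat_lit 0) (XT.lf (nat_lit 0) (nat_lit 14175765736) (nat_lit 532) (nat_lit 20562808428) (nat_lit 608) (nat_lit 12075857232) (nat_lit 144) (nat_lit 5) (nat_lit 151) (nat_lit 5) (nat_lit 152) (nat_lit 5) (nat_lit 352) (nat_lit 331) (nat_lit 97)) (XT.lf (nat_lit 0) (nat_lit 36126080387) (nat_lit 532) (nat_lit 2712782576) (nat_lit 608) (nat_lit 8786255547) (nat_lit 144) (nat_lit 5) (nat_lit 151) (nat_lit 5) (nat_lit 152) (nat_lit 5) (nat_lit 353) (nat_lit 331) (nat_lit 96)))) (XT.nd (nat_lit 78) (nat_lit 608) (nat_lit 0) (XT.lf (nat_lit 0) (nat_lit 10324467307) (nat_lit 532) (nat_lit 32986409537) (nat_lit 608) (nat_lit 5141790073) (nat_lit 137) (nat_lit 5) (nat_lit 144) (nat_lit 5) (nat_lit 145) (nat_lit 5) (nat_lit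 354) (nat_lit 331) (nat_lit 95)) (XT.nd (nat_lit 78) (nat_lit 608) (nat_lit 0) (XT.lf (nat_lit 0) (nat_lit 33009891657) (nat_lit 532) (nat_lit 15048712272) (nat_lit 608) (nat_lit 1242193376) (nat_lit 137) (nat_lit 5) (nat_lit 144) (nat_lit 5) (nat_lit 145) (nat_lit 5) (nat_lit 355) (nat_lit 331) (nat_lit 94)) (XT.lf (nat_lit 0) (nat_lit 2813446657) (nat_lit 608) (nat_lit 43908995507) (nat_lit 76) (nat_lit 3448335540) (nat_lit 129) (nat_lit 5) (nat_lit 137) (nat_lit 5) (nat_lit 130) (nat_lit 5) (nat_lit 356) (nat_lit 331) (nat_lit 93))))) (XT.nd (nat_lit 234) (nat_lit 456) (nat_lit 0) (XT.nd (nat_lit 78) (nat_lit 532) (nat_lit 0) (XT.lf (nat_lit 0) (nat_lit 7279803889) (nat_lit 608) (nat_lit 21400977574) (nat_lit 76) (nat_lit 22376288570) (nat_lit 129) (nat_lit 5) (nat_lit 137) (nat_lit 5) (nat_lit 130) (nat_lit 5) (nat_lit 357) (nat_lit 331) (nat_lit 92)) (XT.nd (nat_lit 78) (nat_lit 0) (nat_lit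 0) (XT.lf (nat_lit 0) (nat_lit 1816634197) (nat_lit 532) (nat_lit 10079895506) (nat_lit 608) (nat_lit 40072931967) (nat_lit 122) (nat_lit 5) (nat_lit 129) (nat_lit 5) (nat_lit 130) (nat_lit 5) (nat_lit 358) (nat_lit 331) (nat_lit 91)) (XT.lf (nat_lit 0) (nat_lit 16956214176) (nat_lit 608) (nat_lit 26823799741) (nat_lit 76) (nat_lit 9120079254) (nat_lit 122) (nat_lit 5) (nat_lit 130) (nat_lit 5) (nat_lit 123) (nat_lit 5) (nat_lit 359) (nat_lit 331) (nat_lit 90)))) (XT.nd (nat_lit 78) (nat_lit 456) (nat_lit 0) (XT.lf (nat_lit 0) (nat_lit 22266457336) (nat_lit 608) (nat_lit 2895788096) (nat_lit 76) (nat_lit 28693436907) (nat_lit 122) (nat_lit 5) (nat_lit 130) (nat_lit 5) (nat_lit 123) (nat_lit 5) (nat_lit 360) (nat_lit 331) (nat_lit 89)) (XT.nd (nat_lit 78) (nat_lit 0) (nat_lit 0) (XT.lf (nat_lit 0) (nat_lit 22181857488) (nat_lit 456) (nat_lit 5766373176) (nat_lit 532) (nat_lit 26885343549) (nat_lit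 116) (nat_lit 5) (nat_lit 122) (nat_lit 5) (nat_lit 123) (nat_lit 5) (nat_lit 361) (nat_lit 331) (nat_lit 88)) (XT.lf (nat_lit 0) (nat_lit 33965612807) (nat_lit 532) (nat_lit 7906704885) (nat_lit 76) (nat_lit 13963532148) (nat_lit 116) (nat_lit 5) (nat_lit 123) (nat_lit 5) (nat_lit 117) (nat_lit 5) (nat_lit 362) (nat_lit 331) (nat_lit 87))))))))
noncomputable def xc247 : XT := (XT.nd (nat_lit 39624) (nat_lit 0) (nat_lit 456) (XT.nd (nat_lit 38688) (nat_lit 0) (nat_lit 4712) (XT.nd (nat_lit 38220) (nat_lit 0) (nat_lit 5700) (XT.nd (nat_lit 234) (nat_lit 532) (nat_lit 0) (XT.nd (nat_lit 78) (nat_lit 380) (nat_lit 0) (XT.lf (nat_lit 0) (nat_lit 17871253736) (nat_lit 456) (nat_lit 22520189446) (nat_lit 532) (nat_lit 16469914368) (nat_lit 110) (nat_lit 5) (nat_lit 116) (nat_lit 5) (nat_lit 117) (nat_lit 5) (nat_lit 363) (nat_lit 331) (nat_lit 86)) (XT.nd (nat_lit 78) (nat_lit 380) (nat_lit 0) (XT.lf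 (nat_lit 0) (nat_lit 44583597744) (nat_lit 456) (nat_lit 2505355381) (nat_lit 532) (nat_lit 10826311798) (nat_lit 110) (nat_lit 5) (nat_lit 116) (nat_lit 5) (nat_lit 117) (nat_lit 5) (nat_lit 364) (nat_lit 331) (nat_lit 85)) (XT.lf (nat_lit 0) (nat_lit 13178569322) (nat_lit 380) (nat_lit 41108672035) (nat_lit 456) (nat_lit 4704554093) (nat_lit 105) (nat_lit 5) (nat_lit 110) (nat_lit 5) (nat_lit 111) (nat_lit 5) (nat_lit 365) (nat_lit 331) (nat_lit 84)))) (XT.nd (nat_lit 78) (nat_lit 456) (nat_lit 0) (XT.lf (nat_lit 0) (nat_lit 1729475247) (nat_lit 456) (nat_lit 19381751233) (nat_lit 76) (nat_lit 38984139478) (nat_lit 104) (nat_lit 5) (nat_lit 110) (nat_lit 5) (nat_lit 105) (nat_lit 5) (nat_lit 366) (nat_lit 331) (nat_lit 83)) (XT.nd (nat_lit 78) (nat_lit 0) (nat_lit 0) (XT.lf (nat_lit 0) (nat_lit 7950215547) (nat_lit 456) (nat_lit 387297003) (nat_lit 532) (nat_lit 52890868714) (nat_lit 98) (nat_lit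 5) (nat_lit 104) (nat_lit 5) (nat_lit 105) (nat_lit 5) (nat_lit 367) (nat_lit 331) (nat_lit 82)) (XT.lf (nat_lit 0) (nat_lit 15542047214) (nat_lit 532) (nat_lit 26094495516) (nat_lit 76) (nat_lit 20746897967) (nat_lit 98) (nat_lit 5) (nat_lit 105) (nat_lit 5) (nat_lit 99) (nat_lit 5) (nat_lit 368) (nat_lit 331) (nat_lit 81))))) (XT.nd (nat_lit 234) (nat_lit 0) (nat_lit 76) (XT.nd (nat_lit 78) (nat_lit 0) (nat_lit 0) (XT.lf (nat_lit 0) (nat_lit 16301417663) (nat_lit 1140) (nat_lit 480250176) (nat_lit 1140) (nat_lit 480250176) (nat_lit 173) (nat_lit 3) (nat_lit 188) (nat_lit 3) (nat_lit 188) (nat_lit 5) (nat_lit 332) (nat_lit 332) (nat_lit 116)) (XT.nd (nat_lit 78) (nat_lit 0) (nat_lit 0) (XT.lf (nat_lit 76) (nat_lit 14135737315) (nat_lit 0) (nat_lit 19142287652) (nat_lit 1140) (nat_lit 1757983599) (nat_lit 174) (nat_lit 5) (nat_lit 173) (nat_lit 3) (nat_lit 188) (nat_lit 5) (nat_lit 333) (nat_lit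 332) (nat_lit 115)) (XT.lf (nat_lit 76) (nat_lit 29703519028) (nat_lit 0) (nat_lit 4277678782) (nat_lit 1140) (nat_lit 1582120564) (nat_lit 174) (nat_lit 5) (nat_lit 173) (nat_lit 3) (nat_lit 188) (nat_lit 5) (nat_lit 334) (nat_lit 332) (nat_lit 114)))) (XT.nd (nat_lit 78) (nat_lit 0) (nat_lit 0) (XT.lf (nat_lit 76) (nat_lit 9714321093) (nat_lit 0) (nat_lit 25188673960) (nat_lit 1140) (nat_lit 1197530360) (nat_lit 175) (nat_lit 5) (nat_lit 174) (nat_lit 5) (nat_lit 189) (nat_lit 5) (nat_lit 335) (nat_lit 332) (nat_lit 113)) (XT.nd (nat_lit 78) (nat_lit 0) (nat_lit 76) (XT.lf (nat_lit 76) (nat_lit 25831527299) (nat_lit 0) (nat_lit 10120169254) (nat_lit 1140) (nat_lit 699178300) (nat_lit 175) (nat_lit 5) (nat_lit 174) (nat_lit 5) (nat_lit 189) (nat_lit 5) (nat_lit 336) (nat_lit 332) (nat_lit 112)) (XT.lf (nat_lit 76) (nat_lit 5264231046) (nat_lit 0) (nat_lit 31868344378) (nat_lit 1140) (nat_lit 82141456)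 (nat_lit 176) (nat_lit 5) (nat_lit 175) (nat_lit 5) (nat_lit 190) (nat_lit 5) (nat_lit 337) (nat_lit 332) (nat_lit 111)))))) (XT.nd (nat_lit 468) (nat_lit 0) (nat_lit 228) (XT.nd (nat_lit 234) (nat_lit 0) (nat_lit 76) (XT.nd (nat_lit 78) (nat_lit 0) (nat_lit 0) (XT.lf (nat_lit 0) (nat_lit 751365754) (nat_lit 1140) (nat_lit 15847818753) (nat_lit 1216) (nat_lit 21189870709) (nat_lit 160) (nat_lit 5) (nat_lit 175) (nat_lit 5) (nat_lit 176) (nat_lit 5) (nat_lit 338) (nat_lit 332) (nat_lit 110)) (XT.nd (nat_lit 78) (nat_lit 0) (nat_lit 76) (XT.lf (nat_lit 76) (nat_lit 750671982) (nat_lit 0) (nat_lit 863045523) (nat_lit 1216) (nat_lit 36766720379) (nat_lit 161) (nat_lit 5) (nat_lit 160) (nat_lit 5) (nat_lit 176) (nat_lit 5) (nat_lit 339) (nat_lit 332) (nat_lit 109)) (XT.lf (nat_lit 0) (nat_lit 2809383470) (nat_lit 1140) (nat_lit 20963010869) (nat_lit 1216) (nat_lit 15207947575) (nat_lit 161) (nat_lit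 5) (nat_lit 176) (nat_lit 5) (nat_lit 177) (nat_lit 5) (nat_lit 340) (nat_lit 332) (nat_lit 108)))) (XT.nd (nat_lit 78) (nat_lit 0) (nat_lit 76) (XT.lf (nat_lit 0) (nat_lit 4047833405) (nat_lit 1140) (nat_lit 3805905250) (nat_lit 1216) (nat_lit 31744300089) (nat_lit 161) (nat_lit 5) (nat_lit 176) (nat_lit 5) (nat_lit 177) (nat_lit 5) (nat_lit 341) (nat_lit 332) (nat_lit 107)) (XT.nd (nat_lit 78) (nat_lit 0) (nat_lit 0) (XT.lf (nat_lit 0) (nat_lit 5541249364) (nat_lit 1140) (nat_lit 26172929143) (nat_lit 1216) (nat_lit 8513556605) (nat_lit 162) (nat_lit 5) (nat_lit 177) (nat_lit 5) (nat_lit 178) (nat_lit 5) (nat_lit 342) (nat_lit 332) (nat_lit 106)) (XT.lf (nat_lit 0) (nat_lit 7194497316) (nat_lit 1140) (nat_lit 8425072134) (nat_lit 1216) (nat_lit 25253304957) (nat_lit 162) (nat_lit 5) (nat_lit 177) (nat_lit 5) (nat_lit 178) (nat_lit 5) (nat_lit 343) (nat_lit 332) (nat_lit 105))))) (XT.nd (nat_lit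 234) (nat_lit 0) (nat_lit 76) (XT.nd (nat_lit 78) (nat_lit 0) (nat_lit 0) (XT.lf (nat_lit 0) (nat_lit 9002622042) (nat_lit 1140) (nat_lit 31494434093) (nat_lit 1216) (nat_lit 1037156202) (nat_lit 163) (nat_lit 5) (nat_lit 178) (nat_lit 5) (nat_lit 179) (nat_lit 5) (nat_lit 344) (nat_lit 332) (nat_lit 104)) (XT.nd (nat_lit 78) (nat_lit 0) (nat_lit 0) (XT.lf (nat_lit 0) (nat_lit 11104097777) (nat_lit 1140) (nat_lit 13138175297) (nat_lit 1216) (nat_lit 17965946866) (nat_lit 163) (nat_lit 5) (nat_lit 178) (nat_lit 5) (nat_lit 179) (nat_lit 5) (nat_lit 345) (nat_lit 332) (nat_lit 103)) (XT.lf (nat_lit 76) (nat_lit 5882466655) (nat_lit 0) (nat_lit 7441278565) (nat_lit 1216) (nat_lit 29577051403) (nat_lit 164) (nat_lit 5) (nat_lit 163) (nat_lit 5) (nat_lit 179) (nat_lit 5) (nat_lit 346) (nat_lit 332) (nat_lit 102)))) (XT.nd (nat_lit 78) (nat_lit 0) (nat_lit 0) (XT.lf (nat_lit 0) (nat_lit 15837397234)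 (nat_lit 1140) (nat_lit 17964382016) (nat_lit 1216) (nat_lit 9805551496) (nat_lit 164) (nat_lit 5) (nat_lit 179) (nat_lit 5) (nat_lit 180) (nat_lit 5) (nat_lit 347) (nat_lit 332) (nat_lit 101)) (XT.nd (nat_lit 78) (nat_lit 0) (nat_lit 76) (XT.lf (nat_lit 76) (nat_lit 1617984784) (nat_lit 0) (nat_lit 16896358852) (nat_lit 1216) (nat_lit 25818083233) (nat_lit 165) (nat_lit 5) (nat_lit 164) (nat_lit 5) (nat_lit 180) (nat_lit 5) (nat_lit 348) (nat_lit 332) (nat_lit 100)) (XT.lf (nat_lit 0) (nat_lit 21458448490) (nat_lit 1140) (nat_lit 22925646919) (nat_lit 76) (nat_lit 689577410) (nat_lit 165) (nat_lit 5) (nat_lit 180) (nat_lit 5) (nat_lit 166) (nat_lit 5) (nat_lit 349) (nat_lit 332) (nat_lit 99))))))) (XT.nd (nat_lit 936) (nat_lit 1368) (nat_lit 0) (XT.nd (nat_lit 468) (nat_lit 1140) (nat_lit 0) (XT.nd (nat_lit 234) (nat_lit 1064) (nat_lit 0) (XT.nd (nat_lit 78) (nat_lit 1064) (nat_lit 0) (XT.lf (nat_lit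 0) (nat_lit 24656892097) (nat_lit 1140) (nat_lit 2711575329) (nat_lit 76) (nat_lit 18463710629) (nat_lit 165) (nat_lit 5) (nat_lit 180) (nat_lit 5) (nat_lit 166) (nat_lit 5) (nat_lit 350) (nat_lit 332) (nat_lit 98)) (XT.nd (nat_lit 78) (nat_lit 0) (nat_lit 0) (XT.lf (nat_lit 0) (nat_lit 18468235397) (nat_lit 1064) (nat_lit 9659343656) (nat_lit 1140) (nat_lit 18480573001) (nat_lit 151) (nat_lit 5) (nat_lit 165) (nat_lit 5) (nat_lit 166) (nat_lit 5) (nat_lit 351) (nat_lit 332) (nat_lit 97)) (XT.lf (nat_lit 0) (nat_lit 31811315155) (nat_lit 1140) (nat_lit 7151410668) (nat_lit 76) (nat_lit 8441413831) (nat_lit 151) (nat_lit 5) (nat_lit 166) (nat_lit 5) (nat_lit 152) (nat_lit 5) (nat_lit 352) (nat_lit 332) (nat_lit 96)))) (XT.nd (nat_lit 78) (nat_lit 532) (nat_lit 0) (XT.lf (nat_lit 0) (nat_lit 14656043021) (nat_lit 532) (nat_lit 21184864994) (nat_lit 608) (nat_lit 12376040701) (nat_lit 144) (nat_lit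 5) (nat_lit 151) (nat_lit 5) (nat_lit 152) (nat_lit 5) (nat_lit 353) (nat_lit 332) (nat_lit 95)) (XT.nd (nat_lit 78) (nat_lit 532) (nat_lit 0) (XT.lf (nat_lit 0) (nat_lit 37263265044) (nat_lit 532) (nat_lit 2799187716) (nat_lit 608) (nat_lit 8989559478) (nat_lit 144) (nat_lit 5) (nat_lit 151) (nat_lit 5) (nat_lit 152) (nat_lit 5) (nat_lit 354) (nat_lit 332) (nat_lit 94)) (XT.lf (nat_lit 0) (nat_lit 10688969412) (nat_lit 532) (nat_lit 33978435578) (nat_lit 608) (nat_lit 5237021890) (nat_lit 137) (nat_lit 5) (nat_lit 144) (nat_lit 5) (nat_lit 145) (nat_lit 5) (nat_lit 355) (nat_lit 332) (nat_lit 93))))) (XT.nd (nat_lit 234) (nat_lit 532) (nat_lit 0) (XT.nd (nat_lit 78) (nat_lit 608) (nat_lit 0) (XT.lf (nat_lit 0) (nat_lit 34053361305) (nat_lit 532) (nat_lit 15502536509) (nat_lit 608) (nat_lit 1222156376) (nat_lit 137) (nat_lit 5) (nat_lit 144) (nat_lit 5) (nat_lit 145) (nat_lit 5) (nat_lit 356) (nat_lit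 332) (nat_lit 92)) (XT.nd (nat_lit 78) (nat_lit 0) (nat_lit 0) (XT.lf (nat_lit 0) (nat_lit 2952904293) (nat_lit 608) (nat_lit 45170650723) (nat_lit 76) (nat_lit 3550599226) (nat_lit 129) (nat_lit 5) (nat_lit 137) (nat_lit 5) (nat_lit 130) (nat_lit 5) (nat_lit 357) (nat_lit 332) (nat_lit 91)) (XT.lf (nat_lit 0) (nat_lit 7551648721) (nat_lit 608) (nat_lit 21989012097) (nat_lit 76) (nat_lit 23046425401) (nat_lit 129) (nat_lit 5) (nat_lit 137) (nat_lit 5) (nat_lit 130) (nat_lit 5) (nat_lit 358) (nat_lit 332) (nat_lit 90)))) (XT.nd (nat_lit 78) (nat_lit 0) (nat_lit 0) (XT.lf (nat_lit 0) (nat_lit 1924598667) (nat_lit 532) (nat_lit 10381234769) (nat_lit 608) (nat_lit 41221050147) (nat_lit 122) (nat_lit 5) (nat_lit 129) (nat_lit 5) (nat_lit 130) (nat_lit 5) (nat_lit 359) (nat_lit 332) (nat_lit 89)) (XT.nd (nat_lit 78) (nat_lit 0) (nat_lit 0) (XT.lf (nat_lit 0) (nat_lit 17515791870) (nat_lit 608) (nat_lit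 27575001874) (nat_lit 76) (nat_lit 9394688394) (nat_lit 122) (nat_lit 5) (nat_lit 130) (nat_lit 5) (nat_lit 123) (nat_lit 5) (nat_lit 360) (nat_lit 332) (nat_lit 88)) (XT.lf (nat_lit 0) (nat_lit 22983860055) (nat_lit 608) (nat_lit 2930708478) (nat_lit 76) (nat_lit 29555217454) (nat_lit 122) (nat_lit 5) (nat_lit 130) (nat_lit 5) (nat_lit 123) (nat_lit 5) (nat_lit 361) (nat_lit 332) (nat_lit 87)))))) (XT.nd (nat_lit 38376) (nat_lit 0) (nat_lit 4256) (XT.nd (nat_lit 234) (nat_lit 456) (nat_lit 0) (XT.nd (nat_lit 78) (nat_lit 456) (nat_lit 0) (XT.lf (nat_lit 0) (nat_lit 22898757128) (nat_lit 456) (nat_lit 5936384868) (nat_lit 532) (nat_lit 27641903420) (nat_lit 116) (nat_lit 5) (nat_lit 122) (nat_lit 5) (nat_lit 123) (nat_lit 5) (nat_lit 362) (nat_lit 332) (nat_lit 86)) (XT.nd (nat_lit 78) (nat_lit 456) (nat_lit 0) (XT.lf (nat_lit 0) (nat_lit 35031661825) (nat_lit 532) (nat_lit 8092497005) (nat_lit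 76) (nat_lit 14385274387) (nat_lit 116) (nat_lit 5) (nat_lit 123) (nat_lit 5) (nat_lit 117) (nat_lit 5) (nat_lit 363) (nat_lit 332) (nat_lit 85)) (XT.lf (nat_lit 0) (nat_lit 18458296365) (nat_lit 456) (nat_lit 23191088796) (nat_lit 532) (nat_lit 16916349777) (nat_lit 110) (nat_lit 5) (nat_lit 116) (nat_lit 5) (nat_lit 117) (nat_lit 5) (nat_lit 364) (nat_lit 332) (nat_lit 84)))) (XT.nd (nat_lit 78) (nat_lit 456) (nat_lit 0) (XT.lf (nat_lit 0) (nat_lit 45970528023) (nat_lit 456) (nat_lit 2575946786) (nat_lit 532) (nat_lit 11104827343) (nat_lit 110) (nat_lit 5) (nat_lit 116) (nat_lit 5) (nat_lit 117) (nat_lit 5) (nat_lit 365) (nat_lit 332) (nat_lit 83)) (XT.nd (nat_lit 78) (nat_lit 76) (nat_lit 0) (XT.lf (nat_lit 0) (nat_lit 13624227513) (nat_lit 380) (nat_lit 42335703944) (nat_lit 456) (nat_lit 4800222735) (nat_lit 105) (nat_lit 5) (nat_lit 110) (nat_lit 5) (nat_lit 111) (nat_lit 5) (nat_lit 366)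 (nat_lit 332) (nat_lit 82)) (XT.lf (nat_lit 0) (nat_lit 1824641773) (nat_lit 456) (nat_lit 19913437588) (nat_lit 76) (nat_lit 40158780357) (nat_lit 104) (nat_lit 5) (nat_lit 110) (nat_lit 5) (nat_lit 105) (nat_lit 5) (nat_lit 367) (nat_lit 332) (nat_lit 81))))) (XT.nd (nat_lit 234) (nat_lit 988) (nat_lit 0) (XT.nd (nat_lit 78) (nat_lit 0) (nat_lit 0) (XT.lf (nat_lit 0) (nat_lit 16840242764) (nat_lit 1140) (nat_lit 468969844) (nat_lit 1140) (nat_lit 468969844) (nat_lit 173) (nat_lit 3) (nat_lit 188) (nat_lit 3) (nat_lit 188) (nat_lit 5) (nat_lit 333) (nat_lit 333) (nat_lit 114)) (XT.nd (nat_lit 78) (nat_lit 0) (nat_lit 0) (XT.lf (nat_lit 76) (nat_lit 14610681427) (nat_lit 0) (nat_lit 19762838488) (nat_lit 1140) (nat_lit 1710460831) (nat_lit 174) (nat_lit 5) (nat_lit 173) (nat_lit 3) (nat_lit 188) (nat_lit 5) (nat_lit 334) (nat_lit 333) (nat_lit 113)) (XT.lf (nat_lit 76) (nat_lit 30644014883) (nat_lit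 0) (nat_lit 4450943326) (nat_lit 1140) (nat_lit 1532242165) (nat_lit 174) (nat_lit 5) (nat_lit 173) (nat_lit 3) (nat_lit 188) (nat_lit 5) (nat_lit 335) (nat_lit 333) (nat_lit 112)))) (XT.nd (nat_lit 78) (nat_lit 1064) (nat_lit 0) (XT.lf (nat_lit 76) (nat_lit 10058072459) (nat_lit 0) (nat_lit 25983673190) (nat_lit 1140) (nat_lit 1138863357) (nat_lit 175) (nat_lit 5) (nat_lit 174) (nat_lit 5) (nat_lit 189) (nat_lit 5) (nat_lit 336) (nat_lit 333) (nat_lit 111)) (XT.nd (nat_lit 78) (nat_lit 1064) (nat_lit 0) (XT.lf (nat_lit 76) (nat_lit 26657270917) (nat_lit 0) (nat_lit 10461967546) (nat_lit 1140) (nat_lit 628315869) (nat_lit 175) (nat_lit 5) (nat_lit 174) (nat_lit 5) (nat_lit 189) (nat_lit 5) (nat_lit 337) (nat_lit 333) (nat_lit 110)) (XT.lf (nat_lit 0) (nat_lit 4627487) (nat_lit 1140) (nat_lit 32852795021) (nat_lit 1216) (nat_lit 5470965936) (nat_lit 160) (nat_lit 5) (nat_lit 175) (nat_lit 5) (nat_lit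 176) (nat_lit 5) (nat_lit 338) (nat_lit 333) (nat_lit 109))))))))
noncomputable def xc248 : XT := (XT.nd (nat_lit 1794) (nat_lit 1292) (nat_lit 0) (XT.nd (nat_lit 858) (nat_lit 2888) (nat_lit 0) (XT.nd (nat_lit 390) (nat_lit 0) (nat_lit 152) (XT.nd (nat_lit 156) (nat_lit 0) (nat_lit 76) (XT.nd (nat_lit 78) (nat_lit 0) (nat_lit 0) (XT.lf (nat_lit 0) (nat_lit 858938013) (nat_lit 1140) (nat_lit 16269474571) (nat_lit 1216) (nat_lit 21791601336) (nat_lit 160) (nat_lit 5) (nat_lit 175) (nat_lit 5) (nat_lit 176) (nat_lit 5) (nat_lit 339) (nat_lit 333) (nat_lit 108)) (XT.lf (nat_lit 76) (nat_lit 826443643) (nat_lit 0) (nat_lit 918751920) (nat_lit 1216) (nat_lit 37784006167) (nat_lit 161) (nat_lit 5) (nat_lit 160) (nat_lit 5) (nat_lit 176) (nat_lit 5) (nat_lit 340) (nat_lit 333) (nat_lit 107))) (XT.nd (nat_lit 78) (nat_lit 0) (nat_lit 0) (XT.lf (nat_lit 0) (nat_lit 2974033841) (nat_lit 1140) (nat_lit 21537350329)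 (nat_lit 1216) (nat_lit 15635804223) (nat_lit 161) (nat_lit 5) (nat_lit 176) (nat_lit 5) (nat_lit 177) (nat_lit 5) (nat_lit 341) (nat_lit 333) (nat_lit 106)) (XT.nd (nat_lit 78) (nat_lit 0) (nat_lit 76) (XT.lf (nat_lit 0) (nat_lit 4247296433) (nat_lit 1140) (nat_lit 3867120401) (nat_lit 1216) (nat_lit 32669073966) (nat_lit 161) (nat_lit 5) (nat_lit 176) (nat_lit 5) (nat_lit 177) (nat_lit 5) (nat_lit 342) (nat_lit 333) (nat_lit 105)) (XT.lf (nat_lit 0) (nat_lit 5783517381) (nat_lit 1140) (nat_lit 26903013576) (nat_lit 1216) (nat_lit 8745611346) (nat_lit 162) (nat_lit 5) (nat_lit 177) (nat_lit 5) (nat_lit 178) (nat_lit 5) (nat_lit 343) (nat_lit 333) (nat_lit 104))))) (XT.nd (nat_lit 234) (nat_lit 0) (nat_lit 76) (XT.nd (nat_lit 78) (nat_lit 0) (nat_lit 76) (XT.lf (nat_lit 0) (nat_lit 7484148291) (nat_lit 1140) (nat_lit 8624325810) (nat_lit 1216) (nat_lit 25988232303) (nat_lit 162) (nat_lit 5) (nat_lit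 177) (nat_lit 5) (nat_lit 178) (nat_lit 5) (nat_lit 344) (nat_lit 333) (nat_lit 103)) (XT.nd (nat_lit 78) (nat_lit 0) (nat_lit 0) (XT.lf (nat_lit 0) (nat_lit 9344691419) (nat_lit 1140) (nat_lit 32383807607) (nat_lit 1216) (nat_lit 1049444276) (nat_lit 163) (nat_lit 5) (nat_lit 178) (nat_lit 5) (nat_lit 179) (nat_lit 5) (nat_lit 345) (nat_lit 333) (nat_lit 102)) (XT.lf (nat_lit 0) (nat_lit 11507114610) (nat_lit 1140) (nat_lit 13478476373) (nat_lit 1216) (nat_lit 18486647007) (nat_lit 163) (nat_lit 5) (nat_lit 178) (nat_lit 5) (nat_lit 179) (nat_lit 5) (nat_lit 346) (nat_lit 333) (nat_lit 101)))) (XT.nd (nat_lit 78) (nat_lit 0) (nat_lit 76) (XT.lf (nat_lit 76) (nat_lit 6112256954) (nat_lit 0) (nat_lit 7679571286) (nat_lit 1216) (nat_lit 30393813267) (nat_lit 164) (nat_lit 5) (nat_lit 163) (nat_lit 5) (nat_lit 179) (nat_lit 5) (nat_lit 347) (nat_lit 333) (nat_lit 100)) (XT.nd (nat_lit 78) (nat_lit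 0) (nat_lit 0) (XT.lf (nat_lit 0) (nat_lit 16378757939) (nat_lit 1140) (nat_lit 18449294035) (nat_lit 1216) (nat_lit 10085387362) (nat_lit 164) (nat_lit 5) (nat_lit 179) (nat_lit 5) (nat_lit 180) (nat_lit 5) (nat_lit 348) (nat_lit 333) (nat_lit 99)) (XT.lf (nat_lit 76) (nat_lit 1720014167) (nat_lit 0) (nat_lit 17414583458) (nat_lit 1216) (nat_lit 26525736786) (nat_lit 165) (nat_lit 5) (nat_lit 164) (nat_lit 5) (nat_lit 180) (nat_lit 5) (nat_lit 349) (nat_lit 333) (nat_lit 98)))))) (XT.nd (nat_lit 468) (nat_lit 1672) (nat_lit 0) (XT.nd (nat_lit 234) (nat_lit 532) (nat_lit 0) (XT.nd (nat_lit 78) (nat_lit 1064) (nat_lit 0) (XT.lf (nat_lit 0) (nat_lit 22165031782) (nat_lit 1140) (nat_lit 23559373559) (nat_lit 76) (nat_lit 699475726) (nat_lit 165) (nat_lit 5) (nat_lit 180) (nat_lit 5) (nat_lit 166) (nat_lit 5) (nat_lit 350) (nat_lit 333) (nat_lit 97)) (XT.nd (nat_lit 78) (nat_lit 1064) (nat_lit 0) (XT.lf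 (nat_lit 0) (nat_lit 25457598702) (nat_lit 1140) (nat_lit 2740453882) (nat_lit 76) (nat_lit 19007147185) (nat_lit 165) (nat_lit 5) (nat_lit 180) (nat_lit 5) (nat_lit 166) (nat_lit 5) (nat_lit 351) (nat_lit 333) (nat_lit 96)) (XT.lf (nat_lit 0) (nat_lit 19074236766) (nat_lit 1064) (nat_lit 9956892222) (nat_lit 1140) (nat_lit 18973365627) (nat_lit 151) (nat_lit 5) (nat_lit 165) (nat_lit 5) (nat_lit 166) (nat_lit 5) (nat_lit 352) (nat_lit 333) (nat_lit 95)))) (XT.nd (nat_lit 78) (nat_lit 532) (nat_lit 0) (XT.lf (nat_lit 0) (nat_lit 32823565184) (nat_lit 1140) (nat_lit 7313592813) (nat_lit 76) (nat_lit 8687261421) (nat_lit 151) (nat_lit 5) (nat_lit 166) (nat_lit 5) (nat_lit 152) (nat_lit 5) (nat_lit 353) (nat_lit 333) (nat_lit 94)) (XT.nd (nat_lit 78) (nat_lit 0) (nat_lit 0) (XT.lf (nat_lit 0) (nat_lit 15147571151) (nat_lit 532) (nat_lit 21825286346) (nat_lit 608) (nat_lit 12688794024) (nat_lit 144)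 (nat_lit 5) (nat_lit 151) (nat_lit 5) (nat_lit 152) (nat_lit 5) (nat_lit 354) (nat_lit 333) (nat_lit 93)) (XT.lf (nat_lit 0) (nat_lit 38431499733) (nat_lit 532) (nat_lit 2887896747) (nat_lit 608) (nat_lit 9202423060) (nat_lit 144) (nat_lit 5) (nat_lit 151) (nat_lit 5) (nat_lit 152) (nat_lit 5) (nat_lit 355) (nat_lit 333) (nat_lit 92))))) (XT.nd (nat_lit 234) (nat_lit 532) (nat_lit 0) (XT.nd (nat_lit 78) (nat_lit 608) (nat_lit 0) (XT.lf (nat_lit 0) (nat_lit 11061262667) (nat_lit 532) (nat_lit 35000082693) (nat_lit 608) (nat_lit 5338498759) (nat_lit 137) (nat_lit 5) (nat_lit 144) (nat_lit 5) (nat_lit 145) (nat_lit 5) (nat_lit 356) (nat_lit 333) (nat_lit 91)) (XT.nd (nat_lit 78) (nat_lit 608) (nat_lit 0) (XT.lf (nat_lit 0) (nat_lit 35125082700) (nat_lit 532) (nat_lit 15969839835) (nat_lit 608) (nat_lit 1204807681) (nat_lit 137) (nat_lit 5) (nat_lit 144) (nat_lit 5) (nat_lit 145) (nat_lit 5) (nat_lit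 357) (nat_lit 333) (nat_lit 90)) (XT.lf (nat_lit 0) (nat_lit 3093385320) (nat_lit 608) (nat_lit 46473348105) (nat_lit 76) (nat_lit 3655998925) (nat_lit 129) (nat_lit 5) (nat_lit 137) (nat_lit 5) (nat_lit 130) (nat_lit 5) (nat_lit 358) (nat_lit 333) (nat_lit 89)))) (XT.nd (nat_lit 78) (nat_lit 532) (nat_lit 0) (XT.lf (nat_lit 0) (nat_lit 7828580608) (nat_lit 608) (nat_lit 22597787178) (nat_lit 76) (nat_lit 23736732457) (nat_lit 129) (nat_lit 5) (nat_lit 137) (nat_lit 5) (nat_lit 130) (nat_lit 5) (nat_lit 359) (nat_lit 333) (nat_lit 88)) (XT.nd (nat_lit 78) (nat_lit 0) (nat_lit 0) (XT.lf (nat_lit 0) (nat_lit 2032732935) (nat_lit 532) (nat_lit 10691674919) (nat_lit 608) (nat_lit 42406715700) (nat_lit 122) (nat_lit 5) (nat_lit 129) (nat_lit 5) (nat_lit 130) (nat_lit 5) (nat_lit 360) (nat_lit 333) (nat_lit 87)) (XT.lf (nat_lit 0) (nat_lit 18089235528) (nat_lit 608) (nat_lit 28351811870) (nat_lit 76)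 (nat_lit 9677478016) (nat_lit 122) (nat_lit 5) (nat_lit 130) (nat_lit 5) (nat_lit 123) (nat_lit 5) (nat_lit 361) (nat_lit 333) (nat_lit 86))))))) (XT.nd (nat_lit 38922) (nat_lit 0) (nat_lit 4180) (XT.nd (nat_lit 38454) (nat_lit 0) (nat_lit 4180) (XT.nd (nat_lit 234) (nat_lit 836) (nat_lit 0) (XT.nd (nat_lit 78) (nat_lit 456) (nat_lit 0) (XT.lf (nat_lit 0) (nat_lit 23719948577) (nat_lit 608) (nat_lit 2969658800) (nat_lit 76) (nat_lit 30442795308) (nat_lit 122) (nat_lit 5) (nat_lit 130) (nat_lit 5) (nat_lit 123) (nat_lit 5) (nat_lit 362) (nat_lit 333) (nat_lit 85)) (XT.nd (nat_lit 78) (nat_lit 0) (nat_lit 0) (XT.lf (nat_lit 0) (nat_lit 23634210667) (nat_lit 456) (nat_lit 6111667946) (nat_lit 532) (nat_lit 28424030317) (nat_lit 116) (nat_lit 5) (nat_lit 122) (nat_lit 5) (nat_lit 123) (nat_lit 5) (nat_lit 363) (nat_lit 333) (nat_lit 84)) (XT.lf (nat_lit 0) (nat_lit 36126989693) (nat_lit 532) (nat_lit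 8286813976) (nat_lit 76) (nat_lit 14819506079) (nat_lit 116) (nat_lit 5) (nat_lit 123) (nat_lit 5) (nat_lit 117) (nat_lit 5) (nat_lit 364) (nat_lit 333) (nat_lit 83)))) (XT.nd (nat_lit 78) (nat_lit 380) (nat_lit 0) (XT.lf (nat_lit 0) (nat_lit 19060028117) (nat_lit 456) (nat_lit 23882385289) (nat_lit 532) (nat_lit 17378914243) (nat_lit 110) (nat_lit 5) (nat_lit 116) (nat_lit 5) (nat_lit 117) (nat_lit 5) (nat_lit 365) (nat_lit 333) (nat_lit 82)) (XT.nd (nat_lit 78) (nat_lit 380) (nat_lit 0) (XT.lf (nat_lit 0) (nat_lit 47396229166) (nat_lit 456) (nat_lit 2648918228) (nat_lit 532) (nat_lit 11394354661) (nat_lit 110) (nat_lit 5) (nat_lit 116) (nat_lit 5) (nat_lit 117) (nat_lit 5) (nat_lit 366) (nat_lit 333) (nat_lit 81)) (XT.lf (nat_lit 0) (nat_lit 14080367959) (nat_lit 380) (nat_lit 43599904337) (nat_lit 456) (nat_lit 4901371485) (nat_lit 105) (nat_lit 5) (nat_lit 110) (nat_lit 5) (nat_lit 111) (nat_lit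 5) (nat_lit 367) (nat_lit 333) (nat_lit 80))))) (XT.nd (nat_lit 234) (nat_lit 988) (nat_lit 0) (XT.nd (nat_lit 78) (nat_lit 0) (nat_lit 0) (XT.lf (nat_lit 0) (nat_lit 17392374894) (nat_lit 1140) (nat_lit 458825688) (nat_lit 1140) (nat_lit 458825688) (nat_lit 173) (nat_lit 3) (nat_lit 188) (nat_lit 3) (nat_lit 188) (nat_lit 5) (nat_lit 334) (nat_lit 334) (nat_lit 112)) (XT.nd (nat_lit 78) (nat_lit 0) (nat_lit 0) (XT.lf (nat_lit 76) (nat_lit 15096953601) (nat_lit 0) (nat_lit 20399349060) (nat_lit 1140) (nat_lit 1667267844) (nat_lit 174) (nat_lit 5) (nat_lit 173) (nat_lit 3) (nat_lit 188) (nat_lit 5) (nat_lit 335) (nat_lit 334) (nat_lit 111)) (XT.lf (nat_lit 76) (nat_lit 31609890409) (nat_lit 0) (nat_lit 4626826401) (nat_lit 1140) (nat_lit 1486455245) (nat_lit 174) (nat_lit 5) (nat_lit 173) (nat_lit 3) (nat_lit 188) (nat_lit 5) (nat_lit 336) (nat_lit 334) (nat_lit 110)))) (XT.nd (nat_lit 78) (nat_lit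 1064) (nat_lit 0) (XT.lf (nat_lit 76) (nat_lit 10409132884) (nat_lit 0) (nat_lit 26800264177) (nat_lit 1140) (nat_lit 1083866365) (nat_lit 175) (nat_lit 5) (nat_lit 174) (nat_lit 5) (nat_lit 189) (nat_lit 5) (nat_lit 337) (nat_lit 334) (nat_lit 109)) (XT.nd (nat_lit 78) (nat_lit 1064) (nat_lit 0) (XT.lf (nat_lit 76) (nat_lit 27504870842) (nat_lit 0) (nat_lit 10811827341) (nat_lit 1140) (nat_lit 560599430) (nat_lit 175) (nat_lit 5) (nat_lit 174) (nat_lit 5) (nat_lit 189) (nat_lit 5) (nat_lit 338) (nat_lit 334) (nat_lit 108)) (XT.lf (nat_lit 0) (nat_lit 87320959) (nat_lit 1140) (nat_lit 33786166499) (nat_lit 1216) (nat_lit 5602118707) (nat_lit 160) (nat_lit 5) (nat_lit 175) (nat_lit 5) (nat_lit 176) (nat_lit 5) (nat_lit 339) (nat_lit 334) (nat_lit 107)))))) (XT.nd (nat_lit 468) (nat_lit 0) (nat_lit 228) (XT.nd (nat_lit 234) (nat_lit 0) (nat_lit 76) (XT.nd (nat_lit 78) (nat_lit 0) (nat_lit 0) (XT.lf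 (nat_lit 0) (nat_lit 964856297) (nat_lit 1140) (nat_lit 16706867184) (nat_lit 1216) (nat_lit 22413333641) (nat_lit 160) (nat_lit 5) (nat_lit 175) (nat_lit 5) (nat_lit 176) (nat_lit 5) (nat_lit 340) (nat_lit 334) (nat_lit 106)) (XT.nd (nat_lit 78) (nat_lit 0) (nat_lit 76) (XT.lf (nat_lit 76) (nat_lit 901431600) (nat_lit 0) (nat_lit 974418005) (nat_lit 1216) (nat_lit 38836730968) (nat_lit 161) (nat_lit 5) (nat_lit 160) (nat_lit 5) (nat_lit 176) (nat_lit 5) (nat_lit 341) (nat_lit 334) (nat_lit 105)) (XT.lf (nat_lit 0) (nat_lit 3139010221) (nat_lit 1140) (nat_lit 22132051416) (nat_lit 1216) (nat_lit 16078125800) (nat_lit 161) (nat_lit 5) (nat_lit 176) (nat_lit 5) (nat_lit 177) (nat_lit 5) (nat_lit 342) (nat_lit 334) (nat_lit 104)))) (XT.nd (nat_lit 78) (nat_lit 0) (nat_lit 76) (XT.lf (nat_lit 0) (nat_lit 4448264225) (nat_lit 1140) (nat_lit 3933212244) (nat_lit 1216) (nat_lit 33623172836) (nat_lit 161)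 (nat_lit 5) (nat_lit 176) (nat_lit 5) (nat_lit 177) (nat_lit 5) (nat_lit 343) (nat_lit 334) (nat_lit 103)) (XT.nd (nat_lit 78) (nat_lit 0) (nat_lit 0) (XT.lf (nat_lit 0) (nat_lit 6028688975) (nat_lit 1140) (nat_lit 27658163704) (nat_lit 1216) (nat_lit 8985968228) (nat_lit 162) (nat_lit 5) (nat_lit 177) (nat_lit 5) (nat_lit 178) (nat_lit 5) (nat_lit 344) (nat_lit 334) (nat_lit 102)) (XT.lf (nat_lit 0) (nat_lit 7778251450) (nat_lit 1140) (nat_lit 8832628130) (nat_lit 1216) (nat_lit 26746508923) (nat_lit 162) (nat_lit 5) (nat_lit 177) (nat_lit 5) (nat_lit 178) (nat_lit 5) (nat_lit 345) (nat_lit 334) (nat_lit 101))))) (XT.nd (nat_lit 234) (nat_lit 0) (nat_lit 76) (XT.nd (nat_lit 78) (nat_lit 0) (nat_lit 0) (XT.lf (nat_lit 0) (nat_lit 9692890316) (nat_lit 1140) (nat_lit 33303045930) (nat_lit 1216) (nat_lit 1063181717) (nat_lit 163) (nat_lit 5) (nat_lit 178) (nat_lit 5) (nat_lit 179) (nat_lit 5) (nat_lit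 346) (nat_lit 334) (nat_lit 100)) (XT.nd (nat_lit 78) (nat_lit 0) (nat_lit 0) (XT.lf (nat_lit 0) (nat_lit 11918209752) (nat_lit 1140) (nat_lit 13832077357) (nat_lit 1216) (nat_lit 19024017401) (nat_lit 163) (nat_lit 5) (nat_lit 178) (nat_lit 5) (nat_lit 179) (nat_lit 5) (nat_lit 347) (nat_lit 334) (nat_lit 99)) (XT.lf (nat_lit 76) (nat_lit 6345880388) (nat_lit 0) (nat_lit 7924148607) (nat_lit 1216) (nat_lit 31239127827) (nat_lit 164) (nat_lit 5) (nat_lit 163) (nat_lit 5) (nat_lit 179) (nat_lit 5) (nat_lit 348) (nat_lit 334) (nat_lit 98)))) (XT.nd (nat_lit 78) (nat_lit 0) (nat_lit 0) (XT.lf (nat_lit 0) (nat_lit 16932557088) (nat_lit 1140) (nat_lit 18951854351) (nat_lit 1216) (nat_lit 10374440943) (nat_lit 164) (nat_lit 5) (nat_lit 179) (nat_lit 5) (nat_lit 180) (nat_lit 5) (nat_lit 349) (nat_lit 334) (nat_lit 97)) (XT.nd (nat_lit 78) (nat_lit 0) (nat_lit 76) (XT.lf (nat_lit 76) (nat_lit 1822033896)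 (nat_lit 0) (nat_lit 17947704194) (nat_lit 1216) (nat_lit 27258459646) (nat_lit 165) (nat_lit 5) (nat_lit 164) (nat_lit 5) (nat_lit 180) (nat_lit 5) (nat_lit 350) (nat_lit 334) (nat_lit 96)) (XT.lf (nat_lit 0) (nat_lit 22889205883) (nat_lit 1140) (nat_lit 24215214274) (nat_lit 76) (nat_lit 710290324) (nat_lit 165) (nat_lit 5) (nat_lit 180) (nat_lit 5) (nat_lit 166) (nat_lit 5) (nat_lit 351) (nat_lit 334) (nat_lit 95))))))))
noncomputable def xc249 : XT := (XT.nd (nat_lit 39936) (nat_lit 0) (nat_lit 456) (XT.nd (nat_lit 858) (nat_lit 912) (nat_lit 0) (XT.nd (nat_lit 390) (nat_lit 1672) (nat_lit 0) (XT.nd (nat_lit 156) (nat_lit 532) (nat_lit 0) (XT.nd (nat_lit 78) (nat_lit 1064) (nat_lit 0) (XT.lf (nat_lit 0) (nat_lit 26278824865) (nat_lit 1140) (nat_lit 2773210711) (nat_lit 76) (nat_lit 19567488131) (nat_lit 165) (nat_lit 5) (nat_lit 180) (nat_lit 5) (nat_lit 166) (nat_lit 5) (nat_lit 352) (nat_lit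 334) (nat_lit 94)) (XT.lf (nat_lit 0) (nat_lit 19695435786) (nat_lit 1064) (nat_lit 10262921316) (nat_lit 1140) (nat_lit 19484479534) (nat_lit 151) (nat_lit 5) (nat_lit 165) (nat_lit 5) (nat_lit 166) (nat_lit 5) (nat_lit 353) (nat_lit 334) (nat_lit 93))) (XT.nd (nat_lit 78) (nat_lit 532) (nat_lit 0) (XT.lf (nat_lit 0) (nat_lit 33862858409) (nat_lit 1140) (nat_lit 7483646110) (nat_lit 76) (nat_lit 8940908931) (nat_lit 151) (nat_lit 5) (nat_lit 166) (nat_lit 5) (nat_lit 152) (nat_lit 5) (nat_lit 354) (nat_lit 334) (nat_lit 92)) (XT.nd (nat_lit 78) (nat_lit 0) (nat_lit 0) (XT.lf (nat_lit 0) (nat_lit 15650868905) (nat_lit 532) (nat_lit 22484640470) (nat_lit 608) (nat_lit 13014289687) (nat_lit 144) (nat_lit 5) (nat_lit 151) (nat_lit 5) (nat_lit 152) (nat_lit 5) (nat_lit 355) (nat_lit 334) (nat_lit 91)) (XT.lf (nat_lit 0) (nat_lit 39631891928) (nat_lit 532) (nat_lit 2978995333) (nat_lit 608) (nat_lit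 9424934433) (nat_lit 144) (nat_lit 5) (nat_lit 151) (nat_lit 5) (nat_lit 152) (nat_lit 5) (nat_lit 356) (nat_lit 334) (nat_lit 90))))) (XT.nd (nat_lit 234) (nat_lit 532) (nat_lit 0) (XT.nd (nat_lit 78) (nat_lit 608) (nat_lit 0) (XT.lf (nat_lit 0) (nat_lit 11441761281) (nat_lit 532) (nat_lit 36052247534) (nat_lit 608) (nat_lit 5446213541) (nat_lit 137) (nat_lit 5) (nat_lit 144) (nat_lit 5) (nat_lit 145) (nat_lit 5) (nat_lit 357) (nat_lit 334) (nat_lit 89)) (XT.nd (nat_lit 78) (nat_lit 608) (nat_lit 0) (XT.lf (nat_lit 0) (nat_lit 36226078612) (nat_lit 532) (nat_lit 16451034409) (nat_lit 608) (nat_lit 1190039114) (nat_lit 137) (nat_lit 5) (nat_lit 144) (nat_lit 5) (nat_lit 145) (nat_lit 5) (nat_lit 358) (nat_lit 334) (nat_lit 88)) (XT.lf (nat_lit 0) (nat_lit 3235101856) (nat_lit 608) (nat_lit 47818135653) (nat_lit 76) (nat_lit 3764624809) (nat_lit 129) (nat_lit 5) (nat_lit 137) (nat_lit 5) (nat_lit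 130) (nat_lit 5) (nat_lit 359) (nat_lit 334) (nat_lit 87)))) (XT.nd (nat_lit 78) (nat_lit 532) (nat_lit 0) (XT.lf (nat_lit 0) (nat_lit 8110928295) (nat_lit 608) (nat_lit 23227747108) (nat_lit 76) (nat_lit 24447811048) (nat_lit 129) (nat_lit 5) (nat_lit 137) (nat_lit 5) (nat_lit 130) (nat_lit 5) (nat_lit 360) (nat_lit 334) (nat_lit 86)) (XT.nd (nat_lit 78) (nat_lit 0) (nat_lit 0) (XT.lf (nat_lit 0) (nat_lit 2141218278) (nat_lit 532) (nat_lit 11011485500) (nat_lit 608) (nat_lit 43630876873) (nat_lit 122) (nat_lit 5) (nat_lit 129) (nat_lit 5) (nat_lit 130) (nat_lit 5) (nat_lit 361) (nat_lit 334) (nat_lit 85)) (XT.lf (nat_lit 0) (nat_lit 18677128828) (nat_lit 608) (nat_lit 29154821632) (nat_lit 76) (nat_lit 9968696852) (nat_lit 122) (nat_lit 5) (nat_lit 130) (nat_lit 5) (nat_lit 123) (nat_lit 5) (nat_lit 362) (nat_lit 334) (nat_lit 84)))))) (XT.nd (nat_lit 38610) (nat_lit 0) (nat_lit 3800) (XT.nd (nat_lit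 234) (nat_lit 456) (nat_lit 0) (XT.nd (nat_lit 78) (nat_lit 456) (nat_lit 0) (XT.lf (nat_lit 0) (nat_lit 24475446290) (nat_lit 608) (nat_lit 3012588764) (nat_lit 76) (nat_lit 31356947609) (nat_lit 122) (nat_lit 5) (nat_lit 130) (nat_lit 5) (nat_lit 123) (nat_lit 5) (nat_lit 363) (nat_lit 334) (nat_lit 83)) (XT.nd (nat_lit 78) (nat_lit 0) (nat_lit 0) (XT.lf (nat_lit 0) (nat_lit 24388944240) (nat_lit 456) (nat_lit 6292370734) (nat_lit 532) (nat_lit 29232326487) (nat_lit 116) (nat_lit 5) (nat_lit 122) (nat_lit 5) (nat_lit 123) (nat_lit 5) (nat_lit 364) (nat_lit 334) (nat_lit 82)) (XT.lf (nat_lit 0) (nat_lit 37252629918) (nat_lit 532) (nat_lit 8489742140) (nat_lit 76) (nat_lit 15266611254) (nat_lit 116) (nat_lit 5) (nat_lit 123) (nat_lit 5) (nat_lit 117) (nat_lit 5) (nat_lit 365) (nat_lit 334) (nat_lit 81)))) (XT.nd (nat_lit 38220) (nat_lit 0) (nat_lit 4788) (XT.lf (nat_lit 0) (nat_lit 19677057409)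 (nat_lit 456) (nat_lit 24594675332) (nat_lit 532) (nat_lit 17857934580) (nat_lit 110) (nat_lit 5) (nat_lit 116) (nat_lit 5) (nat_lit 117) (nat_lit 5) (nat_lit 366) (nat_lit 334) (nat_lit 80)) (XT.nd (nat_lit 78) (nat_lit 0) (nat_lit 0) (XT.lf (nat_lit 0) (nat_lit 17958377310) (nat_lit 1140) (nat_lit 449767148) (nat_lit 1140) (nat_lit 449767148) (nat_lit 173) (nat_lit 3) (nat_lit 188) (nat_lit 3) (nat_lit 188) (nat_lit 5) (nat_lit 335) (nat_lit 335) (nat_lit 110)) (XT.lf (nat_lit 76) (nat_lit 15595061315) (nat_lit 0) (nat_lit 21052450673) (nat_lit 1140) (nat_lit 1628204146) (nat_lit 174) (nat_lit 5) (nat_lit 173) (nat_lit 3) (nat_lit 188) (nat_lit 5) (nat_lit 336) (nat_lit 335) (nat_lit 109))))) (XT.nd (nat_lit 234) (nat_lit 988) (nat_lit 0) (XT.nd (nat_lit 78) (nat_lit 0) (nat_lit 76) (XT.lf (nat_lit 76) (nat_lit 32602069749) (nat_lit 0) (nat_lit 4805554630) (nat_lit 1140) (nat_lit 1444561782)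 (nat_lit 174) (nat_lit 5) (nat_lit 173) (nat_lit 3) (nat_lit 188) (nat_lit 5) (nat_lit 337) (nat_lit 335) (nat_lit 108)) (XT.nd (nat_lit 78) (nat_lit 0) (nat_lit 0) (XT.lf (nat_lit 76) (nat_lit 10767894053) (nat_lit 0) (nat_lit 27639224304) (nat_lit 1140) (nat_lit 1032337777) (nat_lit 175) (nat_lit 5) (nat_lit 174) (nat_lit 5) (nat_lit 189) (nat_lit 5) (nat_lit 338) (nat_lit 335) (nat_lit 107)) (XT.lf (nat_lit 76) (nat_lit 28375150154) (nat_lit 0) (nat_lit 11170116338) (nat_lit 1140) (nat_lit 495820735) (nat_lit 175) (nat_lit 5) (nat_lit 174) (nat_lit 5) (nat_lit 189) (nat_lit 5) (nat_lit 339) (nat_lit 335) (nat_lit 106)))) (XT.nd (nat_lit 78) (nat_lit 0) (nat_lit 0) (XT.lf (nat_lit 0) (nat_lit 167756260) (nat_lit 1140) (nat_lit 34750536324) (nat_lit 1216) (nat_lit 5739099030) (nat_lit 160) (nat_lit 5) (nat_lit 175) (nat_lit 5) (nat_lit 176) (nat_lit 5) (nat_lit 340) (nat_lit 335) (nat_lit 105))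 (XT.nd (nat_lit 78) (nat_lit 0) (nat_lit 0) (XT.lf (nat_lit 0) (nat_lit 1069351182) (nat_lit 1140) (nat_lit 17160291482) (nat_lit 1216) (nat_lit 23055555749) (nat_lit 160) (nat_lit 5) (nat_lit 175) (nat_lit 5) (nat_lit 176) (nat_lit 5) (nat_lit 341) (nat_lit 335) (nat_lit 104)) (XT.lf (nat_lit 76) (nat_lit 975787817) (nat_lit 0) (nat_lit 1030140814) (nat_lit 1216) (nat_lit 39925675498) (nat_lit 161) (nat_lit 5) (nat_lit 160) (nat_lit 5) (nat_lit 176) (nat_lit 5) (nat_lit 342) (nat_lit 335) (nat_lit 103))))))) (XT.nd (nat_lit 936) (nat_lit 2660) (nat_lit 0) (XT.nd (nat_lit 468) (nat_lit 760) (nat_lit 0) (XT.nd (nat_lit 234) (nat_lit 0) (nat_lit 76) (XT.nd (nat_lit 78) (nat_lit 0) (nat_lit 0) (XT.lf (nat_lit 0) (nat_lit 3304587225) (nat_lit 1140) (nat_lit 22747545220) (nat_lit 1216) (nat_lit 16535252731) (nat_lit 161) (nat_lit 5) (nat_lit 176) (nat_lit 5) (nat_lit 177) (nat_lit 5) (nat_lit 343) (nat_lit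 335) (nat_lit 102)) (XT.nd (nat_lit 78) (nat_lit 0) (nat_lit 76) (XT.lf (nat_lit 0) (nat_lit 4651039042) (nat_lit 1140) (nat_lit 4004152555) (nat_lit 1216) (nat_lit 34607385648) (nat_lit 161) (nat_lit 5) (nat_lit 176) (nat_lit 5) (nat_lit 177) (nat_lit 5) (nat_lit 344) (nat_lit 335) (nat_lit 101)) (XT.lf (nat_lit 0) (nat_lit 6277101791) (nat_lit 1140) (nat_lit 28438949921) (nat_lit 1216) (nat_lit 9234799363) (nat_lit 162) (nat_lit 5) (nat_lit 177) (nat_lit 5) (nat_lit 178) (nat_lit 5) (nat_lit 345) (nat_lit 335) (nat_lit 100)))) (XT.nd (nat_lit 78) (nat_lit 0) (nat_lit 76) (XT.lf (nat_lit 0) (nat_lit 8077183602) (nat_lit 1140) (nat_lit 9050074261) (nat_lit 1216) (nat_lit 27528760588) (nat_lit 162) (nat_lit 5) (nat_lit 177) (nat_lit 5) (nat_lit 178) (nat_lit 5) (nat_lit 346) (nat_lit 335) (nat_lit 99)) (XT.nd (nat_lit 78) (nat_lit 0) (nat_lit 0) (XT.lf (nat_lit 0) (nat_lit 10047639845) (nat_lit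 1140) (nat_lit 34252862252) (nat_lit 1216) (nat_lit 1078349967) (nat_lit 163) (nat_lit 5) (nat_lit 178) (nat_lit 5) (nat_lit 179) (nat_lit 5) (nat_lit 347) (nat_lit 335) (nat_lit 98)) (XT.lf (nat_lit 0) (nat_lit 12337855869) (nat_lit 1140) (nat_lit 14199199819) (nat_lit 1216) (nat_lit 19578497921) (nat_lit 163) (nat_lit 5) (nat_lit 178) (nat_lit 5) (nat_lit 179) (nat_lit 5) (nat_lit 348) (nat_lit 335) (nat_lit 97))))) (XT.nd (nat_lit 234) (nat_lit 912) (nat_lit 0) (XT.nd (nat_lit 78) (nat_lit 0) (nat_lit 76) (XT.lf (nat_lit 76) (nat_lit 6583627640) (nat_lit 0) (nat_lit 8175248674) (nat_lit 1216) (nat_lit 32113619187) (nat_lit 164) (nat_lit 5) (nat_lit 163) (nat_lit 5) (nat_lit 179) (nat_lit 5) (nat_lit 349) (nat_lit 335) (nat_lit 96)) (XT.nd (nat_lit 78) (nat_lit 0) (nat_lit 0) (XT.lf (nat_lit 0) (nat_lit 17499386106) (nat_lit 1140) (nat_lit 19472414407) (nat_lit 1216) (nat_lit 10672941549) (nat_lit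 164) (nat_lit 5) (nat_lit 179) (nat_lit 5) (nat_lit 180) (nat_lit 5) (nat_lit 350) (nat_lit 335) (nat_lit 95)) (XT.lf (nat_lit 76) (nat_lit 1924219942) (nat_lit 0) (nat_lit 18496205290) (nat_lit 1216) (nat_lit 28016783475) (nat_lit 165) (nat_lit 5) (nat_lit 164) (nat_lit 5) (nat_lit 180) (nat_lit 5) (nat_lit 351) (nat_lit 335) (nat_lit 94)))) (XT.nd (nat_lit 78) (nat_lit 1064) (nat_lit 0) (XT.lf (nat_lit 0) (nat_lit 23631705556) (nat_lit 1140) (nat_lit 24893654404) (nat_lit 76) (nat_lit 722013142) (nat_lit 165) (nat_lit 5) (nat_lit 180) (nat_lit 5) (nat_lit 166) (nat_lit 5) (nat_lit 352) (nat_lit 335) (nat_lit 93)) (XT.nd (nat_lit 78) (nat_lit 1064) (nat_lit 0) (XT.lf (nat_lit 0) (nat_lit 27121387180) (nat_lit 1140) (nat_lit 2809789266) (nat_lit 76) (nat_lit 20145206084) (nat_lit 165) (nat_lit 5) (nat_lit 180) (nat_lit 5) (nat_lit 166) (nat_lit 5) (nat_lit 353) (nat_lit 335) (nat_lit 92)) (XT.lf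 (nat_lit 0) (nat_lit 20332459589) (nat_lit 1064) (nat_lit 10577710951) (nat_lit 1140) (nat_lit 20014261293) (nat_lit 151) (nat_lit 5) (nat_lit 165) (nat_lit 5) (nat_lit 166) (nat_lit 5) (nat_lit 354) (nat_lit 335) (nat_lit 91)))))) (XT.nd (nat_lit 468) (nat_lit 988) (nat_lit 0) (XT.nd (nat_lit 234) (nat_lit 1140) (nat_lit 0) (XT.nd (nat_lit 78) (nat_lit 532) (nat_lit 0) (XT.lf (nat_lit 0) (nat_lit 34930196956) (nat_lit 1140) (nat_lit 7661634156) (nat_lit 76) (nat_lit 9202565993) (nat_lit 151) (nat_lit 5) (nat_lit 166) (nat_lit 5) (nat_lit 152) (nat_lit 5) (nat_lit 355) (nat_lit 335) (nat_lit 90)) (XT.nd (nat_lit 78) (nat_lit 0) (nat_lit 0) (XT.lf (nat_lit 0) (nat_lit 16166460218) (nat_lit 532) (nat_lit 23163511415) (nat_lit 608) (nat_lit 13352717098) (nat_lit 144) (nat_lit 5) (nat_lit 151) (nat_lit 5) (nat_lit 152) (nat_lit 5) (nat_lit 356) (nat_lit 335) (nat_lit 89)) (XT.lf (nat_lit 0) (nat_lit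 40865572226) (nat_lit 532) (nat_lit 3072570757) (nat_lit 608) (nat_lit 9657195787) (nat_lit 144) (nat_lit 5) (nat_lit 151) (nat_lit 5) (nat_lit 152) (nat_lit 5) (nat_lit 357) (nat_lit 335) (nat_lit 88)))) (XT.nd (nat_lit 78) (nat_lit 608) (nat_lit 0) (XT.lf (nat_lit 0) (nat_lit 11830881529) (nat_lit 532) (nat_lit 37135853192) (nat_lit 608) (nat_lit 5560170047) (nat_lit 137) (nat_lit 5) (nat_lit 144) (nat_lit 5) (nat_lit 145) (nat_lit 5) (nat_lit 358) (nat_lit 335) (nat_lit 87)) (XT.nd (nat_lit 78) (nat_lit 608) (nat_lit 0) (XT.lf (nat_lit 0) (nat_lit 37357392436) (nat_lit 532) (nat_lit 16946544307) (nat_lit 608) (nat_lit 1177750094) (nat_lit 137) (nat_lit 5) (nat_lit 144) (nat_lit 5) (nat_lit 145) (nat_lit 5) (nat_lit 359) (nat_lit 335) (nat_lit 86)) (XT.lf (nat_lit 0) (nat_lit 3378261969) (nat_lit 608) (nat_lit 49206103329) (nat_lit 76) (nat_lit 3876569979) (nat_lit 129) (nat_lit 5) (nat_lit 137)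 (nat_lit 5) (nat_lit 130) (nat_lit 5) (nat_lit 360) (nat_lit 335) (nat_lit 85))))) (XT.nd (nat_lit 234) (nat_lit 456) (nat_lit 0) (XT.nd (nat_lit 78) (nat_lit 532) (nat_lit 0) (XT.lf (nat_lit 0) (nat_lit 8399020276) (nat_lit 608) (nat_lit 23879359723) (nat_lit 76) (nat_lit 25180280744) (nat_lit 129) (nat_lit 5) (nat_lit 137) (nat_lit 5) (nat_lit 130) (nat_lit 5) (nat_lit 361) (nat_lit 335) (nat_lit 84)) (XT.nd (nat_lit 78) (nat_lit 0) (nat_lit 0) (XT.lf (nat_lit 0) (nat_lit 2250231293) (nat_lit 532) (nat_lit 11340944340) (nat_lit 608) (nat_lit 44894520590) (nat_lit 122) (nat_lit 5) (nat_lit 129) (nat_lit 5) (nat_lit 130) (nat_lit 5) (nat_lit 362) (nat_lit 335) (nat_lit 83)) (XT.lf (nat_lit 0) (nat_lit 19280063329) (nat_lit 608) (nat_lit 29984650941) (nat_lit 76) (nat_lit 10268600905) (nat_lit 122) (nat_lit 5) (nat_lit 130) (nat_lit 5) (nat_lit 123) (nat_lit 5) (nat_lit 363) (nat_lit 335) (nat_lit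 82)))) (XT.nd (nat_lit 78) (nat_lit 456) (nat_lit 0) (XT.lf (nat_lit 0) (nat_lit 25251088938) (nat_lit 608) (nat_lit 3059456388) (nat_lit 76) (nat_lit 32298474627) (nat_lit 122) (nat_lit 5) (nat_lit 130) (nat_lit 5) (nat_lit 123) (nat_lit 5) (nat_lit 364) (nat_lit 335) (nat_lit 81)) (XT.nd (nat_lit 38376) (nat_lit 0) (nat_lit 4332) (XT.lf (nat_lit 0) (nat_lit 25163696037) (nat_lit 456) (nat_lit 6478646569) (nat_lit 532) (nat_lit 30067421704) (nat_lit 116) (nat_lit 5) (nat_lit 122) (nat_lit 5) (nat_lit 123) (nat_lit 5) (nat_lit 365) (nat_lit 335) (nat_lit 80)) (XT.lf (nat_lit 0) (nat_lit 18538820749) (nat_lit 1140) (nat_lit 441747003) (nat_lit 1140) (nat_lit 441747003) (nat_lit 173) (nat_lit 3) (nat_lit 188) (nat_lit 3) (nat_lit 188) (nat_lit 5) (nat_lit 336) (nat_lit 336) (nat_lit 108))))))))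
noncomputable def xc250 : XT := (XT.nd (nat_lit 1794) (nat_lit 1140) (nat_lit 0) (XT.nd (nat_lit 858) (nat_lit 1748) (nat_lit 0) (XT.nd (nat_lit 390) (nat_lit 0) (nat_lit 0) (XT.nd (nat_lit 156) (nat_lit 988) (nat_lit 0) (XT.nd (nat_lit 78) (nat_lit 0) (nat_lit 0) (XT.lf (nat_lit 76) (nat_lit 16105517648) (nat_lit 0) (nat_lit 21722784812) (nat_lit 1140) (nat_lit 1593082193) (nat_lit 174) (nat_lit 5) (nat_lit 173) (nat_lit 3) (nat_lit 188) (nat_lit 5) (nat_lit 337) (nat_lit 336) (nat_lit 107)) (XT.lf (nat_lit 76) (nat_lit 33621495426) (nat_lit 0) (nat_lit 4987352938) (nat_lit 1140) (nat_lit 1406376230) (nat_lit 174) (nat_lit 5) (nat_lit 173) (nat_lit 3) (nat_lit 188) (nat_lit 5) (nat_lit 338) (nat_lit 336) (nat_lit 106))) (XT.nd (nat_lit 78) (nat_lit 1064) (nat_lit 0) (XT.lf (nat_lit 76) (nat_lit 11134749502) (nat_lit 0) (nat_lit 28501346836) (nat_lit 1140) (nat_lit 984087835) (nat_lit 175) (nat_lit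 5) (nat_lit 174) (nat_lit 5) (nat_lit 189) (nat_lit 5) (nat_lit 339) (nat_lit 336) (nat_lit 105)) (XT.nd (nat_lit 78) (nat_lit 1064) (nat_lit 0) (XT.lf (nat_lit 76) (nat_lit 29268947015) (nat_lit 0) (nat_lit 11537206044) (nat_lit 1140) (nat_lit 433782662) (nat_lit 175) (nat_lit 5) (nat_lit 174) (nat_lit 5) (nat_lit 189) (nat_lit 5) (nat_lit 340) (nat_lit 336) (nat_lit 104)) (XT.lf (nat_lit 0) (nat_lit 246137683) (nat_lit 1140) (nat_lit 35746662397) (nat_lit 1216) (nat_lit 5881973067) (nat_lit 160) (nat_lit 5) (nat_lit 175) (nat_lit 5) (nat_lit 176) (nat_lit 5) (nat_lit 341) (nat_lit 336) (nat_lit 103))))) (XT.nd (nat_lit 234) (nat_lit 0) (nat_lit 76) (XT.nd (nat_lit 78) (nat_lit 0) (nat_lit 0) (XT.lf (nat_lit 0) (nat_lit 1172644082) (nat_lit 1140) (nat_lit 17630061375) (nat_lit 1216) (nat_lit 23718776855) (nat_lit 160) (nat_lit 5) (nat_lit 175) (nat_lit 5) (nat_lit 176) (nat_lit 5) (nat_lit 342)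 (nat_lit 336) (nat_lit 102)) (XT.nd (nat_lit 78) (nat_lit 0) (nat_lit 76) (XT.lf (nat_lit 76) (nat_lit 1049658746) (nat_lit 0) (nat_lit 1086014658) (nat_lit 1216) (nat_lit 41051660111) (nat_lit 161) (nat_lit 5) (nat_lit 160) (nat_lit 5) (nat_lit 176) (nat_lit 5) (nat_lit 343) (nat_lit 336) (nat_lit 101)) (XT.lf (nat_lit 0) (nat_lit 3471032502) (nat_lit 1140) (nat_lit 23384286086) (nat_lit 1216) (nat_lit 17007541019) (nat_lit 161) (nat_lit 5) (nat_lit 176) (nat_lit 5) (nat_lit 177) (nat_lit 5) (nat_lit 344) (nat_lit 336) (nat_lit 100)))) (XT.nd (nat_lit 78) (nat_lit 0) (nat_lit 76) (XT.lf (nat_lit 0) (nat_lit 4855917456) (nat_lit 1140) (nat_lit 4079922285) (nat_lit 1216) (nat_lit 35622530234) (nat_lit 161) (nat_lit 5) (nat_lit 176) (nat_lit 5) (nat_lit 177) (nat_lit 5) (nat_lit 345) (nat_lit 336) (nat_lit 99)) (XT.nd (nat_lit 78) (nat_lit 0) (nat_lit 0) (XT.lf (nat_lit 0) (nat_lit 6529089222) (nat_lit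 1140) (nat_lit 29245970154) (nat_lit 1216) (nat_lit 9492286448) (nat_lit 162) (nat_lit 5) (nat_lit 177) (nat_lit 5) (nat_lit 178) (nat_lit 5) (nat_lit 346) (nat_lit 336) (nat_lit 98)) (XT.lf (nat_lit 0) (nat_lit 8381318894) (nat_lit 1140) (nat_lit 9276772348) (nat_lit 1216) (nat_lit 28335636128) (nat_lit 162) (nat_lit 5) (nat_lit 177) (nat_lit 5) (nat_lit 178) (nat_lit 5) (nat_lit 347) (nat_lit 336) (nat_lit 97)))))) (XT.nd (nat_lit 468) (nat_lit 1976) (nat_lit 0) (XT.nd (nat_lit 234) (nat_lit 0) (nat_lit 76) (XT.nd (nat_lit 78) (nat_lit 0) (nat_lit 0) (XT.lf (nat_lit 0) (nat_lit 10409360132) (nat_lit 1140) (nat_lit 35234001654) (nat_lit 1216) (nat_lit 1094933475) (nat_lit 163) (nat_lit 5) (nat_lit 178) (nat_lit 5) (nat_lit 179) (nat_lit 5) (nat_lit 348) (nat_lit 336) (nat_lit 96)) (XT.nd (nat_lit 78) (nat_lit 0) (nat_lit 0) (XT.lf (nat_lit 0) (nat_lit 12766526585) (nat_lit 1140) (nat_lit 14580082158)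 (nat_lit 1216) (nat_lit 20150545101) (nat_lit 163) (nat_lit 5) (nat_lit 178) (nat_lit 5) (nat_lit 179) (nat_lit 5) (nat_lit 349) (nat_lit 336) (nat_lit 95)) (XT.lf (nat_lit 76) (nat_lit 6825788031) (nat_lit 0) (nat_lit 8433113927) (nat_lit 1216) (nat_lit 33017943518) (nat_lit 164) (nat_lit 5) (nat_lit 163) (nat_lit 5) (nat_lit 179) (nat_lit 5) (nat_lit 350) (nat_lit 336) (nat_lit 94)))) (XT.nd (nat_lit 78) (nat_lit 0) (nat_lit 0) (XT.lf (nat_lit 0) (nat_lit 18079841631) (nat_lit 1140) (nat_lit 20011346407) (nat_lit 1216) (nat_lit 10981128077) (nat_lit 164) (nat_lit 5) (nat_lit 179) (nat_lit 5) (nat_lit 180) (nat_lit 5) (nat_lit 351) (nat_lit 336) (nat_lit 93)) (XT.nd (nat_lit 78) (nat_lit 0) (nat_lit 76) (XT.lf (nat_lit 76) (nat_lit 2026743439) (nat_lit 0) (nat_lit 19060583362) (nat_lit 1216) (nat_lit 28801268543) (nat_lit 165) (nat_lit 5) (nat_lit 164) (nat_lit 5) (nat_lit 180) (nat_lit 5) (nat_lit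 352) (nat_lit 336) (nat_lit 92)) (XT.lf (nat_lit 0) (nat_lit 24393275722) (nat_lit 1140) (nat_lit 25595204069) (nat_lit 76) (nat_lit 734637913) (nat_lit 165) (nat_lit 5) (nat_lit 180) (nat_lit 5) (nat_lit 166) (nat_lit 5) (nat_lit 353) (nat_lit 336) (nat_lit 91))))) (XT.nd (nat_lit 234) (nat_lit 1064) (nat_lit 0) (XT.nd (nat_lit 78) (nat_lit 1064) (nat_lit 0) (XT.lf (nat_lit 0) (nat_lit 27986115203) (nat_lit 1140) (nat_lit 2850141228) (nat_lit 76) (nat_lit 20740789817) (nat_lit 165) (nat_lit 5) (nat_lit 180) (nat_lit 5) (nat_lit 166) (nat_lit 5) (nat_lit 354) (nat_lit 336) (nat_lit 90)) (XT.nd (nat_lit 78) (nat_lit 0) (nat_lit 0) (XT.lf (nat_lit 0) (nat_lit 20985944291) (nat_lit 1064) (nat_lit 10901548073) (nat_lit 1140) (nat_lit 20563079530) (nat_lit 151) (nat_lit 5) (nat_lit 165) (nat_lit 5) (nat_lit 166) (nat_lit 5) (nat_lit 355) (nat_lit 336) (nat_lit 89)) (XT.lf (nat_lit 0) (nat_lit 36026602058)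 (nat_lit 1140) (nat_lit 7847632359) (nat_lit 76) (nat_lit 9472449922) (nat_lit 151) (nat_lit 5) (nat_lit 166) (nat_lit 5) (nat_lit 152) (nat_lit 5) (nat_lit 356) (nat_lit 336) (nat_lit 88)))) (XT.nd (nat_lit 78) (nat_lit 532) (nat_lit 0) (XT.lf (nat_lit 0) (nat_lit 16694874937) (nat_lit 532) (nat_lit 23862499829) (nat_lit 608) (nat_lit 13704282417) (nat_lit 144) (nat_lit 5) (nat_lit 151) (nat_lit 5) (nat_lit 152) (nat_lit 5) (nat_lit 357) (nat_lit 336) (nat_lit 87)) (XT.nd (nat_lit 78) (nat_lit 532) (nat_lit 0) (XT.lf (nat_lit 0) (nat_lit 42133695618) (nat_lit 532) (nat_lit 3168712027) (nat_lit 608) (nat_lit 9899323123) (nat_lit 144) (nat_lit 5) (nat_lit 151) (nat_lit 5) (nat_lit 152) (nat_lit 5) (nat_lit 358) (nat_lit 336) (nat_lit 86)) (XT.lf (nat_lit 0) (nat_lit 12229042407) (nat_lit 532) (nat_lit 38251850017) (nat_lit 608) (nat_lit 5680382727) (nat_lit 137) (nat_lit 5) (nat_lit 144) (nat_lit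 5) (nat_lit 145) (nat_lit 5) (nat_lit 359) (nat_lit 336) (nat_lit 85))))))) (XT.nd (nat_lit 39312) (nat_lit 0) (nat_lit 2888) (XT.nd (nat_lit 38844) (nat_lit 0) (nat_lit 2888) (XT.nd (nat_lit 234) (nat_lit 532) (nat_lit 0) (XT.nd (nat_lit 78) (nat_lit 608) (nat_lit 0) (XT.lf (nat_lit 0) (nat_lit 38520089386) (nat_lit 532) (nat_lit 17456805907) (nat_lit 608) (nat_lit 1167847236) (nat_lit 137) (nat_lit 5) (nat_lit 144) (nat_lit 5) (nat_lit 145) (nat_lit 5) (nat_lit 360) (nat_lit 336) (nat_lit 84)) (XT.nd (nat_lit 78) (nat_lit 0) (nat_lit 0) (XT.lf (nat_lit 0) (nat_lit 3523070151) (nat_lit 608) (nat_lit 50638383712) (nat_lit 76) (nat_lit 3991930538) (nat_lit 129) (nat_lit 5) (nat_lit 137) (nat_lit 5) (nat_lit 130) (nat_lit 5) (nat_lit 361) (nat_lit 336) (nat_lit 83)) (XT.lf (nat_lit 0) (nat_lit 8693185372) (nat_lit 608) (nat_lit 24553116517) (nat_lit 76) (nat_lit 25934779904) (nat_lit 129) (nat_lit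 5) (nat_lit 137) (nat_lit 5) (nat_lit 130) (nat_lit 5) (nat_lit 362) (nat_lit 336) (nat_lit 82)))) (XT.nd (nat_lit 78) (nat_lit 0) (nat_lit 0) (XT.lf (nat_lit 0) (nat_lit 2359944347) (nat_lit 532) (nat_lit 11680337788) (nat_lit 608) (nat_lit 46198673026) (nat_lit 122) (nat_lit 5) (nat_lit 129) (nat_lit 5) (nat_lit 130) (nat_lit 5) (nat_lit 363) (nat_lit 336) (nat_lit 81)) (XT.nd (nat_lit 78) (nat_lit 0) (nat_lit 0) (XT.lf (nat_lit 0) (nat_lit 19898639267) (nat_lit 608) (nat_lit 30841947713) (nat_lit 76) (nat_lit 10577453680) (nat_lit 122) (nat_lit 5) (nat_lit 130) (nat_lit 5) (nat_lit 123) (nat_lit 5) (nat_lit 364) (nat_lit 336) (nat_lit 80)) (XT.lf (nat_lit 0) (nat_lit 26047625526) (nat_lit 608) (nat_lit 3110227695) (nat_lit 76) (nat_lit 33268200466) (nat_lit 122) (nat_lit 5) (nat_lit 130) (nat_lit 5) (nat_lit 123) (nat_lit 5) (nat_lit 365) (nat_lit 336) (nat_lit 79))))) (XT.nd (nat_lit 234) (nat_lit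 988) (nat_lit 0) (XT.nd (nat_lit 78) (nat_lit 0) (nat_lit 0) (XT.lf (nat_lit 0) (nat_lit 19134284192) (nat_lit 1140) (nat_lit 434721197) (nat_lit 1140) (nat_lit 434721197) (nat_lit 173) (nat_lit 3) (nat_lit 188) (nat_lit 3) (nat_lit 188) (nat_lit 5) (nat_lit 337) (nat_lit 337) (nat_lit 106)) (XT.nd (nat_lit 78) (nat_lit 0) (nat_lit 0) (XT.lf (nat_lit 76) (nat_lit 16628841998) (nat_lit 0) (nat_lit 22411003957) (nat_lit 1140) (nat_lit 1561726692) (nat_lit 174) (nat_lit 5) (nat_lit 173) (nat_lit 3) (nat_lit 188) (nat_lit 5) (nat_lit 338) (nat_lit 337) (nat_lit 105)) (XT.lf (nat_lit 76) (nat_lit 34669129435) (nat_lit 0) (nat_lit 5172444983) (nat_lit 1140) (nat_lit 1371724831) (nat_lit 174) (nat_lit 5) (nat_lit 173) (nat_lit 3) (nat_lit 188) (nat_lit 5) (nat_lit 339) (nat_lit 337) (nat_lit 104)))) (XT.nd (nat_lit 78) (nat_lit 1064) (nat_lit 0) (XT.lf (nat_lit 76) (nat_lit 11510095246) (nat_lit 0) (nat_lit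 29387441820) (nat_lit 1140) (nat_lit 938937951) (nat_lit 175) (nat_lit 5) (nat_lit 174) (nat_lit 5) (nat_lit 189) (nat_lit 5) (nat_lit 340) (nat_lit 337) (nat_lit 103)) (XT.nd (nat_lit 78) (nat_lit 1064) (nat_lit 0) (XT.lf (nat_lit 76) (nat_lit 30187115677) (nat_lit 0) (nat_lit 11913472302) (nat_lit 1140) (nat_lit 374298550) (nat_lit 175) (nat_lit 5) (nat_lit 174) (nat_lit 5) (nat_lit 189) (nat_lit 5) (nat_lit 341) (nat_lit 337) (nat_lit 102)) (XT.lf (nat_lit 0) (nat_lit 322660030) (nat_lit 1140) (nat_lit 36775335229) (nat_lit 1216) (nat_lit 6030815204) (nat_lit 160) (nat_lit 5) (nat_lit 175) (nat_lit 5) (nat_lit 176) (nat_lit 5) (nat_lit 342) (nat_lit 337) (nat_lit 101)))))) (XT.nd (nat_lit 468) (nat_lit 0) (nat_lit 228) (XT.nd (nat_lit 234) (nat_lit 0) (nat_lit 76) (XT.nd (nat_lit 78) (nat_lit 0) (nat_lit 0) (XT.lf (nat_lit 0) (nat_lit 1274947887) (nat_lit 1140) (nat_lit 18116509779) (nat_lit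 1216) (nat_lit 24403527486) (nat_lit 160) (nat_lit 5) (nat_lit 175) (nat_lit 5) (nat_lit 176) (nat_lit 5) (nat_lit 343) (nat_lit 337) (nat_lit 100)) (XT.nd (nat_lit 78) (nat_lit 0) (nat_lit 76) (XT.lf (nat_lit 76) (nat_lit 1123185735) (nat_lit 0) (nat_lit 1142131359) (nat_lit 1216) (nat_lit 42215545052) (nat_lit 161) (nat_lit 5) (nat_lit 160) (nat_lit 5) (nat_lit 176) (nat_lit 5) (nat_lit 344) (nat_lit 337) (nat_lit 99)) (XT.lf (nat_lit 0) (nat_lit 3638607403) (nat_lit 1140) (nat_lit 24042751711) (nat_lit 1216) (nat_lit 17495362411) (nat_lit 161) (nat_lit 5) (nat_lit 176) (nat_lit 5) (nat_lit 177) (nat_lit 5) (nat_lit 345) (nat_lit 337) (nat_lit 98)))) (XT.nd (nat_lit 78) (nat_lit 0) (nat_lit 76) (XT.lf (nat_lit 0) (nat_lit 5063191024) (nat_lit 1140) (nat_lit 4160511258) (nat_lit 1216) (nat_lit 36669453870) (nat_lit 161) (nat_lit 5) (nat_lit 176) (nat_lit 5) (nat_lit 177) (nat_lit 5) (nat_lit 346)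 (nat_lit 337) (nat_lit 97)) (XT.nd (nat_lit 78) (nat_lit 0) (nat_lit 0) (XT.lf (nat_lit 0) (nat_lit 6784981106) (nat_lit 1140) (nat_lit 30079850092) (nat_lit 1216) (nat_lit 9758620791) (nat_lit 162) (nat_lit 5) (nat_lit 177) (nat_lit 5) (nat_lit 178) (nat_lit 5) (nat_lit 347) (nat_lit 337) (nat_lit 96)) (XT.lf (nat_lit 0) (nat_lit 8691029536) (nat_lit 1140) (nat_lit 9512843318) (nat_lit 1216) (nat_lit 29167807881) (nat_lit 162) (nat_lit 5) (nat_lit 177) (nat_lit 5) (nat_lit 178) (nat_lit 5) (nat_lit 348) (nat_lit 337) (nat_lit 95))))) (XT.nd (nat_lit 234) (nat_lit 0) (nat_lit 76) (XT.nd (nat_lit 78) (nat_lit 0) (nat_lit 0) (XT.lf (nat_lit 0) (nat_lit 10778471072) (nat_lit 1140) (nat_lit 36247241456) (nat_lit 1216) (nat_lit 1112919577) (nat_lit 163) (nat_lit 5) (nat_lit 178) (nat_lit 5) (nat_lit 179) (nat_lit 5) (nat_lit 349) (nat_lit 337) (nat_lit 94)) (XT.nd (nat_lit 78) (nat_lit 0) (nat_lit 0)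 (XT.lf (nat_lit 0) (nat_lit 13204697272) (nat_lit 1140) (nat_lit 14974979527) (nat_lit 1216) (nat_lit 20740632423) (nat_lit 163) (nat_lit 5) (nat_lit 178) (nat_lit 5) (nat_lit 179) (nat_lit 5) (nat_lit 350) (nat_lit 337) (nat_lit 93)) (XT.lf (nat_lit 76) (nat_lit 7072650051) (nat_lit 0) (nat_lit 8697991399) (nat_lit 1216) (nat_lit 33952789256) (nat_lit 164) (nat_lit 5) (nat_lit 163) (nat_lit 5) (nat_lit 179) (nat_lit 5) (nat_lit 351) (nat_lit 337) (nat_lit 92)))) (XT.nd (nat_lit 78) (nat_lit 0) (nat_lit 0) (XT.lf (nat_lit 0) (nat_lit 18674526391) (nat_lit 1140) (nat_lit 20569043353) (nat_lit 1216) (nat_lit 11299249149) (nat_lit 164) (nat_lit 5) (nat_lit 179) (nat_lit 5) (nat_lit 180) (nat_lit 5) (nat_lit 352) (nat_lit 337) (nat_lit 91)) (XT.nd (nat_lit 78) (nat_lit 0) (nat_lit 76) (XT.lf (nat_lit 76) (nat_lit 2129771116) (nat_lit 0) (nat_lit 19641347901) (nat_lit 1216) (nat_lit 29612503849) (nat_lit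 165) (nat_lit 5) (nat_lit 164) (nat_lit 5) (nat_lit 180) (nat_lit 5) (nat_lit 353) (nat_lit 337) (nat_lit 90)) (XT.lf (nat_lit 0) (nat_lit 25174672448) (nat_lit 1140) (nat_lit 26320398331) (nat_lit 76) (nat_lit 748160109) (nat_lit 165) (nat_lit 5) (nat_lit 180) (nat_lit 5) (nat_lit 166) (nat_lit 5) (nat_lit 354) (nat_lit 337) (nat_lit 89))))))))
noncomputable def xc251 : XT := (XT.nd (nat_lit 40326) (nat_lit 0) (nat_lit 532) (XT.nd (nat_lit 39390) (nat_lit 0) (nat_lit 2888) (XT.nd (nat_lit 390) (nat_lit 1672) (nat_lit 0) (XT.nd (nat_lit 156) (nat_lit 532) (nat_lit 0) (XT.nd (nat_lit 78) (nat_lit 1064) (nat_lit 0) (XT.lf (nat_lit 0) (nat_lit 28873852498) (nat_lit 1140) (nat_lit 2894226184) (nat_lit 76) (nat_lit 21354744636) (nat_lit 165) (nat_lit 5) (nat_lit 180) (nat_lit 5) (nat_lit 166) (nat_lit 5) (nat_lit 355) (nat_lit 337) (nat_lit 88)) (XT.lf (nat_lit 0) (nat_lit 21656535830) (nat_lit 1064)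 (nat_lit 11234726849) (nat_lit 1140) (nat_lit 21131324916) (nat_lit 151) (nat_lit 5) (nat_lit 165) (nat_lit 5) (nat_lit 166) (nat_lit 5) (nat_lit 356) (nat_lit 337) (nat_lit 87))) (XT.nd (nat_lit 78) (nat_lit 532) (nat_lit 0) (XT.lf (nat_lit 0) (nat_lit 37153115262) (nat_lit 1140) (nat_lit 8041727724) (nat_lit 76) (nat_lit 9750785877) (nat_lit 151) (nat_lit 5) (nat_lit 166) (nat_lit 5) (nat_lit 152) (nat_lit 5) (nat_lit 357) (nat_lit 337) (nat_lit 86)) (XT.nd (nat_lit 78) (nat_lit 0) (nat_lit 0) (XT.lf (nat_lit 0) (nat_lit 17236649559) (nat_lit 532) (nat_lit 24582223511) (nat_lit 608) (nat_lit 14069208426) (nat_lit 144) (nat_lit 5) (nat_lit 151) (nat_lit 5) (nat_lit 152) (nat_lit 5) (nat_lit 358) (nat_lit 337) (nat_lit 85)) (XT.lf (nat_lit 0) (nat_lit 43437442772) (nat_lit 532) (nat_lit 3267509977) (nat_lit 608) (nat_lit 10151446056) (nat_lit 144) (nat_lit 5) (nat_lit 151) (nat_lit 5) (nat_lit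 152) (nat_lit 5) (nat_lit 359) (nat_lit 337) (nat_lit 84))))) (XT.nd (nat_lit 234) (nat_lit 532) (nat_lit 0) (XT.nd (nat_lit 78) (nat_lit 608) (nat_lit 0) (XT.lf (nat_lit 0) (nat_lit 12636666278) (nat_lit 532) (nat_lit 39401216460) (nat_lit 608) (nat_lit 5806876383) (nat_lit 137) (nat_lit 5) (nat_lit 144) (nat_lit 5) (nat_lit 145) (nat_lit 5) (nat_lit 360) (nat_lit 337) (nat_lit 83)) (XT.nd (nat_lit 78) (nat_lit 608) (nat_lit 0) (XT.lf (nat_lit 0) (nat_lit 39715257697) (nat_lit 532) (nat_lit 17982268281) (nat_lit 608) (nat_lit 1160243987) (nat_lit 137) (nat_lit 5) (nat_lit 144) (nat_lit 5) (nat_lit 145) (nat_lit 5) (nat_lit 361) (nat_lit 337) (nat_lit 82)) (XT.lf (nat_lit 0) (nat_lit 3669727778) (nat_lit 608) (nat_lit 52116152702) (nat_lit 76) (nat_lit 4110805676) (nat_lit 129) (nat_lit 5) (nat_lit 137) (nat_lit 5) (nat_lit 130) (nat_lit 5) (nat_lit 362) (nat_lit 337) (nat_lit 81)))) (XT.nd (nat_lit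 78) (nat_lit 532) (nat_lit 0) (XT.lf (nat_lit 0) (nat_lit 8993753286) (nat_lit 608) (nat_lit 25249532807) (nat_lit 76) (nat_lit 26711966235) (nat_lit 129) (nat_lit 5) (nat_lit 137) (nat_lit 5) (nat_lit 130) (nat_lit 5) (nat_lit 363) (nat_lit 337) (nat_lit 80)) (XT.nd (nat_lit 38610) (nat_lit 0) (nat_lit 3876) (XT.lf (nat_lit 0) (nat_lit 2470525989) (nat_lit 532) (nat_lit 12029960966) (nat_lit 608) (nat_lit 47544400223) (nat_lit 122) (nat_lit 5) (nat_lit 129) (nat_lit 5) (nat_lit 130) (nat_lit 5) (nat_lit 364) (nat_lit 337) (nat_lit 79)) (XT.lf (nat_lit 0) (nat_lit 19745355626) (nat_lit 1140) (nat_lit 428648669) (nat_lit 1140) (nat_lit 428648669) (nat_lit 173) (nat_lit 3) (nat_lit 188) (nat_lit 3) (nat_lit 188) (nat_lit 5) (nat_lit 338) (nat_lit 338) (nat_lit 104)))))) (XT.nd (nat_lit 468) (nat_lit 0) (nat_lit 0) (XT.nd (nat_lit 234) (nat_lit 988) (nat_lit 0) (XT.nd (nat_lit 78) (nat_lit 0) (nat_lit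 0) (XT.lf (nat_lit 76) (nat_lit 17165560797) (nat_lit 0) (nat_lit 23117772384) (nat_lit 1140) (nat_lit 1533973943) (nat_lit 174) (nat_lit 5) (nat_lit 173) (nat_lit 3) (nat_lit 188) (nat_lit 5) (nat_lit 339) (nat_lit 338) (nat_lit 103)) (XT.nd (nat_lit 78) (nat_lit 0) (nat_lit 76) (XT.lf (nat_lit 76) (nat_lit 35745954328) (nat_lit 0) (nat_lit 5361053583) (nat_lit 1140) (nat_lit 1340444974) (nat_lit 174) (nat_lit 5) (nat_lit 173) (nat_lit 3) (nat_lit 188) (nat_lit 5) (nat_lit 340) (nat_lit 338) (nat_lit 102)) (XT.lf (nat_lit 76) (nat_lit 11894330386) (nat_lit 0) (nat_lit 30298336993) (nat_lit 1140) (nat_lit 896720078) (nat_lit 175) (nat_lit 5) (nat_lit 174) (nat_lit 5) (nat_lit 189) (nat_lit 5) (nat_lit 341) (nat_lit 338) (nat_lit 101)))) (XT.nd (nat_lit 78) (nat_lit 1064) (nat_lit 0) (XT.lf (nat_lit 76) (nat_lit 31130527481) (nat_lit 0) (nat_lit 12299295810) (nat_lit 1140) (nat_lit 317191573) (nat_lit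 175) (nat_lit 5) (nat_lit 174) (nat_lit 5) (nat_lit 189) (nat_lit 5) (nat_lit 342) (nat_lit 338) (nat_lit 100)) (XT.nd (nat_lit 78) (nat_lit 0) (nat_lit 0) (XT.lf (nat_lit 0) (nat_lit 397509232) (nat_lit 1140) (nat_lit 37837378356) (nat_lit 1216) (nat_lit 6185707938) (nat_lit 160) (nat_lit 5) (nat_lit 175) (nat_lit 5) (nat_lit 176) (nat_lit 5) (nat_lit 343) (nat_lit 338) (nat_lit 99)) (XT.lf (nat_lit 0) (nat_lit 1376467586) (nat_lit 1140) (nat_lit 18619988636) (nat_lit 1216) (nat_lit 25110359793) (nat_lit 160) (nat_lit 5) (nat_lit 175) (nat_lit 5) (nat_lit 176) (nat_lit 5) (nat_lit 344) (nat_lit 338) (nat_lit 98))))) (XT.nd (nat_lit 234) (nat_lit 0) (nat_lit 152) (XT.nd (nat_lit 78) (nat_lit 0) (nat_lit 76) (XT.lf (nat_lit 76) (nat_lit 1196505426) (nat_lit 0) (nat_lit 1198580484) (nat_lit 1216) (nat_lit 43418230781) (nat_lit 161) (nat_lit 5) (nat_lit 160) (nat_lit 5) (nat_lit 176) (nat_lit 5) (nat_lit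 345) (nat_lit 338) (nat_lit 97)) (XT.nd (nat_lit 78) (nat_lit 0) (nat_lit 0) (XT.lf (nat_lit 0) (nat_lit 3807567610) (nat_lit 1140) (nat_lit 24723443295) (nat_lit 1216) (nat_lit 17999104574) (nat_lit 161) (nat_lit 5) (nat_lit 176) (nat_lit 5) (nat_lit 177) (nat_lit 5) (nat_lit 346) (nat_lit 338) (nat_lit 96)) (XT.lf (nat_lit 0) (nat_lit 5273146935) (nat_lit 1140) (nat_lit 4245917889) (nat_lit 1216) (nat_lit 37749033885) (nat_lit 161) (nat_lit 5) (nat_lit 176) (nat_lit 5) (nat_lit 177) (nat_lit 5) (nat_lit 347) (nat_lit 338) (nat_lit 95)))) (XT.nd (nat_lit 78) (nat_lit 0) (nat_lit 0) (XT.lf (nat_lit 0) (nat_lit 7045104399) (nat_lit 1140) (nat_lit 30941243460) (nat_lit 1216) (nat_lit 10034003365) (nat_lit 162) (nat_lit 5) (nat_lit 177) (nat_lit 5) (nat_lit 178) (nat_lit 5) (nat_lit 348) (nat_lit 338) (nat_lit 94)) (XT.nd (nat_lit 78) (nat_lit 0) (nat_lit 76) (XT.lf (nat_lit 0) (nat_lit 9006686500)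 (nat_lit 1140) (nat_lit 9758420719) (nat_lit 1216) (nat_lit 30025972167) (nat_lit 162) (nat_lit 5) (nat_lit 177) (nat_lit 5) (nat_lit 178) (nat_lit 5) (nat_lit 349) (nat_lit 338) (nat_lit 93)) (XT.lf (nat_lit 0) (nat_lit 11155393058) (nat_lit 1140) (nat_lit 37293391616) (nat_lit 1216) (nat_lit 1132298397) (nat_lit 163) (nat_lit 5) (nat_lit 178) (nat_lit 5) (nat_lit 179) (nat_lit 5) (nat_lit 350) (nat_lit 338) (nat_lit 92))))))) (XT.nd (nat_lit 936) (nat_lit 608) (nat_lit 0) (XT.nd (nat_lit 468) (nat_lit 1976) (nat_lit 0) (XT.nd (nat_lit 234) (nat_lit 0) (nat_lit 76) (XT.nd (nat_lit 78) (nat_lit 0) (nat_lit 0) (XT.lf (nat_lit 0) (nat_lit 13652845816) (nat_lit 1140) (nat_lit 15384163784) (nat_lit 1216) (nat_lit 21349250650) (nat_lit 163) (nat_lit 5) (nat_lit 178) (nat_lit 5) (nat_lit 179) (nat_lit 5) (nat_lit 351) (nat_lit 338) (nat_lit 91)) (XT.nd (nat_lit 78) (nat_lit 0) (nat_lit 76) (XT.lf (nat_lit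 76) (nat_lit 7324501886) (nat_lit 0) (nat_lit 8970133002) (nat_lit 1216) (nat_lit 34918877348) (nat_lit 164) (nat_lit 5) (nat_lit 163) (nat_lit 5) (nat_lit 179) (nat_lit 5) (nat_lit 352) (nat_lit 338) (nat_lit 90)) (XT.lf (nat_lit 0) (nat_lit 19284050062) (nat_lit 1140) (nat_lit 21145919115) (nat_lit 1216) (nat_lit 11627563252) (nat_lit 164) (nat_lit 5) (nat_lit 179) (nat_lit 5) (nat_lit 180) (nat_lit 5) (nat_lit 353) (nat_lit 338) (nat_lit 89)))) (XT.nd (nat_lit 78) (nat_lit 0) (nat_lit 76) (XT.lf (nat_lit 76) (nat_lit 2233465713) (nat_lit 0) (nat_lit 20239021780) (nat_lit 1216) (nat_lit 30451107309) (nat_lit 165) (nat_lit 5) (nat_lit 164) (nat_lit 5) (nat_lit 180) (nat_lit 5) (nat_lit 354) (nat_lit 338) (nat_lit 88)) (XT.nd (nat_lit 78) (nat_lit 0) (nat_lit 0) (XT.lf (nat_lit 0) (nat_lit 25976663921) (nat_lit 1140) (nat_lit 27069797387) (nat_lit 76) (nat_lit 762576879) (nat_lit 165) (nat_lit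 5) (nat_lit 180) (nat_lit 5) (nat_lit 166) (nat_lit 5) (nat_lit 355) (nat_lit 338) (nat_lit 87)) (XT.lf (nat_lit 0) (nat_lit 29785457684) (nat_lit 1140) (nat_lit 2942011324) (nat_lit 76) (nat_lit 21987592768) (nat_lit 165) (nat_lit 5) (nat_lit 180) (nat_lit 5) (nat_lit 166) (nat_lit 5) (nat_lit 356) (nat_lit 338) (nat_lit 86))))) (XT.nd (nat_lit 234) (nat_lit 532) (nat_lit 0) (XT.nd (nat_lit 78) (nat_lit 532) (nat_lit 0) (XT.lf (nat_lit 0) (nat_lit 22344890788) (nat_lit 1064) (nat_lit 11577548967) (nat_lit 1140) (nat_lit 21719410201) (nat_lit 151) (nat_lit 5) (nat_lit 165) (nat_lit 5) (nat_lit 166) (nat_lit 5) (nat_lit 357) (nat_lit 338) (nat_lit 85)) (XT.nd (nat_lit 78) (nat_lit 532) (nat_lit 0) (XT.lf (nat_lit 0) (nat_lit 38310799625) (nat_lit 1140) (nat_lit 8244018668) (nat_lit 76) (nat_lit 10037807008) (nat_lit 151) (nat_lit 5) (nat_lit 166) (nat_lit 5) (nat_lit 152) (nat_lit 5) (nat_lit 358)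 (nat_lit 338) (nat_lit 84)) (XT.lf (nat_lit 0) (nat_lit 17792327964) (nat_lit 532) (nat_lit 25323317973) (nat_lit 608) (nat_lit 14447734426) (nat_lit 144) (nat_lit 5) (nat_lit 151) (nat_lit 5) (nat_lit 152) (nat_lit 5) (nat_lit 359) (nat_lit 338) (nat_lit 83)))) (XT.nd (nat_lit 78) (nat_lit 532) (nat_lit 0) (XT.lf (nat_lit 0) (nat_lit 44778021316) (nat_lit 532) (nat_lit 3369057370) (nat_lit 608) (nat_lit 10413707638) (nat_lit 144) (nat_lit 5) (nat_lit 151) (nat_lit 5) (nat_lit 152) (nat_lit 5) (nat_lit 360) (nat_lit 338) (nat_lit 82)) (XT.nd (nat_lit 78) (nat_lit 0) (nat_lit 0) (XT.lf (nat_lit 0) (nat_lit 13054179499) (nat_lit 532) (nat_lit 40584959941) (nat_lit 608) (nat_lit 5939685911) (nat_lit 137) (nat_lit 5) (nat_lit 144) (nat_lit 5) (nat_lit 145) (nat_lit 5) (nat_lit 361) (nat_lit 338) (nat_lit 81)) (XT.lf (nat_lit 0) (nat_lit 40944009829) (nat_lit 532) (nat_lit 18523393599) (nat_lit 608)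 (nat_lit 1154860275) (nat_lit 137) (nat_lit 5) (nat_lit 144) (nat_lit 5) (nat_lit 145) (nat_lit 5) (nat_lit 362) (nat_lit 338) (nat_lit 80)))))) (XT.nd (nat_lit 39078) (nat_lit 0) (nat_lit 2356) (XT.nd (nat_lit 38844) (nat_lit 0) (nat_lit 3344) (XT.nd (nat_lit 78) (nat_lit 0) (nat_lit 0) (XT.lf (nat_lit 0) (nat_lit 3818433545) (nat_lit 608) (nat_lit 53640630287) (nat_lit 76) (nat_lit 4233297743) (nat_lit 129) (nat_lit 5) (nat_lit 137) (nat_lit 5) (nat_lit 130) (nat_lit 5) (nat_lit 363) (nat_lit 338) (nat_lit 79)) (XT.nd (nat_lit 38688) (nat_lit 0) (nat_lit 3344) (XT.lf (nat_lit 0) (nat_lit 9301055140) (nat_lit 608) (nat_lit 25969147922) (nat_lit 76) (nat_lit 27512517355) (nat_lit 129) (nat_lit 5) (nat_lit 137) (nat_lit 5) (nat_lit 130) (nat_lit 5) (nat_lit 364) (nat_lit 338) (nat_lit 78)) (XT.lf (nat_lit 0) (nat_lit 20372632788) (nat_lit 1140) (nat_lit 423491196) (nat_lit 1140) (nat_lit 423491196)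 (nat_lit 173) (nat_lit 3) (nat_lit 188) (nat_lit 3) (nat_lit 188) (nat_lit 5) (nat_lit 339) (nat_lit 339) (nat_lit 102)))) (XT.nd (nat_lit 78) (nat_lit 0) (nat_lit 0) (XT.lf (nat_lit 76) (nat_lit 17716208213) (nat_lit 0) (nat_lit 23843766963) (nat_lit 1140) (nat_lit 1509671218) (nat_lit 174) (nat_lit 5) (nat_lit 173) (nat_lit 3) (nat_lit 188) (nat_lit 5) (nat_lit 340) (nat_lit 339) (nat_lit 101)) (XT.nd (nat_lit 78) (nat_lit 0) (nat_lit 76) (XT.lf (nat_lit 76) (nat_lit 36852974309) (nat_lit 0) (nat_lit 5553401121) (nat_lit 1140) (nat_lit 1312384592) (nat_lit 174) (nat_lit 5) (nat_lit 173) (nat_lit 3) (nat_lit 188) (nat_lit 5) (nat_lit 341) (nat_lit 339) (nat_lit 100)) (XT.lf (nat_lit 76) (nat_lit 12287857709) (nat_lit 0) (nat_lit 31234878694) (nat_lit 1140) (nat_lit 857276114) (nat_lit 175) (nat_lit 5) (nat_lit 174) (nat_lit 5) (nat_lit 189) (nat_lit 5) (nat_lit 342) (nat_lit 339) (nat_lit 99)))))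 (XT.nd (nat_lit 234) (nat_lit 0) (nat_lit 0) (XT.nd (nat_lit 78) (nat_lit 1064) (nat_lit 0) (XT.lf (nat_lit 76) (nat_lit 32100071859) (nat_lit 0) (nat_lit 12695062636) (nat_lit 1140) (nat_lit 262294149) (nat_lit 175) (nat_lit 5) (nat_lit 174) (nat_lit 5) (nat_lit 189) (nat_lit 5) (nat_lit 343) (nat_lit 339) (nat_lit 98)) (XT.nd (nat_lit 78) (nat_lit 0) (nat_lit 0) (XT.lf (nat_lit 0) (nat_lit 470862920) (nat_lit 1140) (nat_lit 38933648798) (nat_lit 1216) (nat_lit 6346741781) (nat_lit 160) (nat_lit 5) (nat_lit 175) (nat_lit 5) (nat_lit 176) (nat_lit 5) (nat_lit 344) (nat_lit 339) (nat_lit 97)) (XT.lf (nat_lit 0) (nat_lit 1477400848) (nat_lit 1140) (nat_lit 19140868966) (nat_lit 1216) (nat_lit 25839847873) (nat_lit 160) (nat_lit 5) (nat_lit 175) (nat_lit 5) (nat_lit 176) (nat_lit 5) (nat_lit 345) (nat_lit 339) (nat_lit 96)))) (XT.nd (nat_lit 78) (nat_lit 0) (nat_lit 76) (XT.lf (nat_lit 76) (nat_lit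 1269750120) (nat_lit 0) (nat_lit 1255449561) (nat_lit 1216) (nat_lit 44660658350) (nat_lit 161) (nat_lit 5) (nat_lit 160) (nat_lit 5) (nat_lit 176) (nat_lit 5) (nat_lit 346) (nat_lit 339) (nat_lit 95)) (XT.nd (nat_lit 78) (nat_lit 0) (nat_lit 0) (XT.lf (nat_lit 0) (nat_lit 3978163744) (nat_lit 1140) (nat_lit 25426885714) (nat_lit 1216) (nat_lit 18519171302) (nat_lit 161) (nat_lit 5) (nat_lit 176) (nat_lit 5) (nat_lit 177) (nat_lit 5) (nat_lit 347) (nat_lit 339) (nat_lit 94)) (XT.lf (nat_lit 0) (nat_lit 5486068630) (nat_lit 1140) (nat_lit 4336148941) (nat_lit 1216) (nat_lit 38862178291) (nat_lit 161) (nat_lit 5) (nat_lit 176) (nat_lit 5) (nat_lit 177) (nat_lit 5) (nat_lit 348) (nat_lit 339) (nat_lit 93))))))))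
noncomputable def xc252 : XT := (XT.nd (nat_lit 40560) (nat_lit 0) (nat_lit 0) (XT.nd (nat_lit 858) (nat_lit 1064) (nat_lit 0) (XT.nd (nat_lit 390) (nat_lit 836) (nat_lit 0) (XT.nd (nat_lit 156) (nat_lit 0) (nat_lit 76) (XT.nd (nat_lit 78) (nat_lit 0) (nat_lit 0) (XT.lf (nat_lit 0) (nat_lit 7309783819) (nat_lit 1140) (nat_lit 31830832318) (nat_lit 1216) (nat_lit 10318644874) (nat_lit 162) (nat_lit 5) (nat_lit 177) (nat_lit 5) (nat_lit 178) (nat_lit 5) (nat_lit 349) (nat_lit 339) (nat_lit 92)) (XT.lf (nat_lit 0) (nat_lit 9328660190) (nat_lit 1140) (nat_lit 10013650578) (nat_lit 1216) (nat_lit 30910849785) (nat_lit 162) (nat_lit 5) (nat_lit 177) (nat_lit 5) (nat_lit 178) (nat_lit 5) (nat_lit 350) (nat_lit 339) (nat_lit 91))) (XT.nd (nat_lit 78) (nat_lit 0) (nat_lit 0) (XT.lf (nat_lit 0) (nat_lit 11540547690) (nat_lit 1140) (nat_lit 38373295181) (nat_lit 1216) (nat_lit 1153062742) (nat_lit 163) (nat_lit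 5) (nat_lit 178) (nat_lit 5) (nat_lit 179) (nat_lit 5) (nat_lit 351) (nat_lit 339) (nat_lit 90)) (XT.nd (nat_lit 78) (nat_lit 0) (nat_lit 0) (XT.lf (nat_lit 0) (nat_lit 14111453365) (nat_lit 1140) (nat_lit 15807923470) (nat_lit 1216) (nat_lit 21976908163) (nat_lit 163) (nat_lit 5) (nat_lit 178) (nat_lit 5) (nat_lit 179) (nat_lit 5) (nat_lit 352) (nat_lit 339) (nat_lit 89)) (XT.lf (nat_lit 76) (nat_lit 7581631922) (nat_lit 0) (nat_lit 9249795821) (nat_lit 1216) (nat_lit 35916961544) (nat_lit 164) (nat_lit 5) (nat_lit 163) (nat_lit 5) (nat_lit 179) (nat_lit 5) (nat_lit 353) (nat_lit 339) (nat_lit 88))))) (XT.nd (nat_lit 234) (nat_lit 988) (nat_lit 0) (XT.nd (nat_lit 78) (nat_lit 0) (nat_lit 0) (XT.lf (nat_lit 0) (nat_lit 19909030117) (nat_lit 1140) (nat_lit 21742408539) (nat_lit 1216) (nat_lit 11966338900) (nat_lit 164) (nat_lit 5) (nat_lit 179) (nat_lit 5) (nat_lit 180) (nat_lit 5) (nat_lit 354)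 (nat_lit 339) (nat_lit 87)) (XT.nd (nat_lit 78) (nat_lit 0) (nat_lit 76) (XT.lf (nat_lit 76) (nat_lit 2337986382) (nat_lit 0) (nat_lit 20854141761) (nat_lit 1216) (nat_lit 31317725970) (nat_lit 165) (nat_lit 5) (nat_lit 164) (nat_lit 5) (nat_lit 180) (nat_lit 5) (nat_lit 355) (nat_lit 339) (nat_lit 86)) (XT.lf (nat_lit 0) (nat_lit 26800031422) (nat_lit 1140) (nat_lit 27843986798) (nat_lit 76) (nat_lit 777886993) (nat_lit 165) (nat_lit 5) (nat_lit 180) (nat_lit 5) (nat_lit 166) (nat_lit 5) (nat_lit 356) (nat_lit 339) (nat_lit 85)))) (XT.nd (nat_lit 78) (nat_lit 1064) (nat_lit 0) (XT.lf (nat_lit 0) (nat_lit 30721805476) (nat_lit 1140) (nat_lit 2993471169) (nat_lit 76) (nat_lit 22639873762) (nat_lit 165) (nat_lit 5) (nat_lit 180) (nat_lit 5) (nat_lit 166) (nat_lit 5) (nat_lit 357) (nat_lit 339) (nat_lit 84)) (XT.nd (nat_lit 78) (nat_lit 0) (nat_lit 0) (XT.lf (nat_lit 0) (nat_lit 23051677218) (nat_lit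 1064) (nat_lit 11930323935) (nat_lit 1140) (nat_lit 22327770277) (nat_lit 151) (nat_lit 5) (nat_lit 165) (nat_lit 5) (nat_lit 166) (nat_lit 5) (nat_lit 358) (nat_lit 339) (nat_lit 83)) (XT.lf (nat_lit 0) (nat_lit 39500740925) (nat_lit 1140) (nat_lit 8454614855) (nat_lit 76) (nat_lit 10333754637) (nat_lit 151) (nat_lit 5) (nat_lit 166) (nat_lit 5) (nat_lit 152) (nat_lit 5) (nat_lit 359) (nat_lit 339) (nat_lit 82)))))) (XT.nd (nat_lit 39234) (nat_lit 0) (nat_lit 1748) (XT.nd (nat_lit 234) (nat_lit 0) (nat_lit 0) (XT.nd (nat_lit 78) (nat_lit 532) (nat_lit 0) (XT.lf (nat_lit 0) (nat_lit 18362462134) (nat_lit 532) (nat_lit 26086437021) (nat_lit 608) (nat_lit 14840116168) (nat_lit 144) (nat_lit 5) (nat_lit 151) (nat_lit 5) (nat_lit 152) (nat_lit 5) (nat_lit 360) (nat_lit 339) (nat_lit 81)) (XT.nd (nat_lit 78) (nat_lit 532) (nat_lit 0) (XT.lf (nat_lit 0) (nat_lit 46156667131) (nat_lit 532) (nat_lit 3473449003)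 (nat_lit 608) (nat_lit 10686264216) (nat_lit 144) (nat_lit 5) (nat_lit 151) (nat_lit 5) (nat_lit 152) (nat_lit 5) (nat_lit 361) (nat_lit 339) (nat_lit 80)) (XT.lf (nat_lit 0) (nat_lit 13482013040) (nat_lit 532) (nat_lit 41804117738) (nat_lit 608) (nat_lit 6078856069) (nat_lit 137) (nat_lit 5) (nat_lit 144) (nat_lit 5) (nat_lit 145) (nat_lit 5) (nat_lit 362) (nat_lit 339) (nat_lit 79)))) (XT.nd (nat_lit 38844) (nat_lit 0) (nat_lit 2736) (XT.lf (nat_lit 0) (nat_lit 42207483674) (nat_lit 532) (nat_lit 19080657542) (nat_lit 608) (nat_lit 1151622181) (nat_lit 137) (nat_lit 5) (nat_lit 144) (nat_lit 5) (nat_lit 145) (nat_lit 5) (nat_lit 363) (nat_lit 339) (nat_lit 78)) (XT.nd (nat_lit 78) (nat_lit 0) (nat_lit 0) (XT.lf (nat_lit 0) (nat_lit 21016723915) (nat_lit 1140) (nat_lit 419213245) (nat_lit 1140) (nat_lit 419213245) (nat_lit 173) (nat_lit 3) (nat_lit 188) (nat_lit 3) (nat_lit 188) (nat_lit 5) (nat_lit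 340) (nat_lit 340) (nat_lit 100)) (XT.lf (nat_lit 76) (nat_lit 18281326840) (nat_lit 0) (nat_lit 24589677963) (nat_lit 1140) (nat_lit 1488676179) (nat_lit 174) (nat_lit 5) (nat_lit 173) (nat_lit 3) (nat_lit 188) (nat_lit 5) (nat_lit 341) (nat_lit 340) (nat_lit 99))))) (XT.nd (nat_lit 234) (nat_lit 988) (nat_lit 0) (XT.nd (nat_lit 78) (nat_lit 0) (nat_lit 76) (XT.lf (nat_lit 76) (nat_lit 37991216334) (nat_lit 0) (nat_lit 5749709941) (nat_lit 1140) (nat_lit 1287401590) (nat_lit 174) (nat_lit 5) (nat_lit 173) (nat_lit 3) (nat_lit 188) (nat_lit 5) (nat_lit 342) (nat_lit 340) (nat_lit 98)) (XT.nd (nat_lit 78) (nat_lit 0) (nat_lit 0) (XT.lf (nat_lit 76) (nat_lit 12691084269) (nat_lit 0) (nat_lit 32197932776) (nat_lit 1140) (nat_lit 820457338) (nat_lit 175) (nat_lit 5) (nat_lit 174) (nat_lit 5) (nat_lit 189) (nat_lit 5) (nat_lit 343) (nat_lit 340) (nat_lit 97)) (XT.lf (nat_lit 76) (nat_lit 33096657344)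 (nat_lit 0) (nat_lit 13101164730) (nat_lit 1140) (nat_lit 209447382) (nat_lit 175) (nat_lit 5) (nat_lit 174) (nat_lit 5) (nat_lit 189) (nat_lit 5) (nat_lit 344) (nat_lit 340) (nat_lit 96)))) (XT.nd (nat_lit 78) (nat_lit 0) (nat_lit 0) (XT.lf (nat_lit 0) (nat_lit 542890976) (nat_lit 1140) (nat_lit 40065037554) (nat_lit 1216) (nat_lit 6514015185) (nat_lit 160) (nat_lit 5) (nat_lit 175) (nat_lit 5) (nat_lit 176) (nat_lit 5) (nat_lit 345) (nat_lit 340) (nat_lit 95)) (XT.nd (nat_lit 78) (nat_lit 0) (nat_lit 0) (XT.lf (nat_lit 0) (nat_lit 1577938571) (nat_lit 1140) (nat_lit 19679540950) (nat_lit 1216) (nat_lit 26592588116) (nat_lit 160) (nat_lit 5) (nat_lit 175) (nat_lit 5) (nat_lit 176) (nat_lit 5) (nat_lit 346) (nat_lit 340) (nat_lit 94)) (XT.lf (nat_lit 76) (nat_lit 1343048140) (nat_lit 0) (nat_lit 1312824297) (nat_lit 1216) (nat_lit 45943809844) (nat_lit 161) (nat_lit 5) (nat_lit 160) (nat_lit 5)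 (nat_lit 176) (nat_lit 5) (nat_lit 347) (nat_lit 340) (nat_lit 93))))))) (XT.nd (nat_lit 936) (nat_lit 1064) (nat_lit 0) (XT.nd (nat_lit 468) (nat_lit 760) (nat_lit 0) (XT.nd (nat_lit 234) (nat_lit 0) (nat_lit 76) (XT.nd (nat_lit 78) (nat_lit 0) (nat_lit 0) (XT.lf (nat_lit 0) (nat_lit 4150641945) (nat_lit 1140) (nat_lit 26153627737) (nat_lit 1216) (nat_lit 19055982741) (nat_lit 161) (nat_lit 5) (nat_lit 176) (nat_lit 5) (nat_lit 177) (nat_lit 5) (nat_lit 348) (nat_lit 340) (nat_lit 92)) (XT.nd (nat_lit 78) (nat_lit 0) (nat_lit 76) (XT.lf (nat_lit 0) (nat_lit 5702236406) (nat_lit 1140) (nat_lit 4431219284) (nat_lit 1216) (nat_lit 40009826455) (nat_lit 161) (nat_lit 5) (nat_lit 176) (nat_lit 5) (nat_lit 177) (nat_lit 5) (nat_lit 349) (nat_lit 340) (nat_lit 91)) (XT.lf (nat_lit 0) (nat_lit 7579342475) (nat_lit 1140) (nat_lit 32749327421) (nat_lit 1216) (nat_lit 10612765825) (nat_lit 162) (nat_lit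 5) (nat_lit 177) (nat_lit 5) (nat_lit 178) (nat_lit 5) (nat_lit 350) (nat_lit 340) (nat_lit 90)))) (XT.nd (nat_lit 78) (nat_lit 0) (nat_lit 76) (XT.lf (nat_lit 0) (nat_lit 9657321104) (nat_lit 1140) (nat_lit 10278691293) (nat_lit 1216) (nat_lit 31823186546) (nat_lit 162) (nat_lit 5) (nat_lit 177) (nat_lit 5) (nat_lit 178) (nat_lit 5) (nat_lit 351) (nat_lit 340) (nat_lit 89)) (XT.nd (nat_lit 78) (nat_lit 0) (nat_lit 0) (XT.lf (nat_lit 0) (nat_lit 11934358465) (nat_lit 1140) (nat_lit 39487828768) (nat_lit 1216) (nat_lit 1175208016) (nat_lit 163) (nat_lit 5) (nat_lit 178) (nat_lit 5) (nat_lit 179) (nat_lit 5) (nat_lit 352) (nat_lit 340) (nat_lit 88)) (XT.lf (nat_lit 0) (nat_lit 14581005067) (nat_lit 1140) (nat_lit 16246563826) (nat_lit 1216) (nat_lit 22624131322) (nat_lit 163) (nat_lit 5) (nat_lit 178) (nat_lit 5) (nat_lit 179) (nat_lit 5) (nat_lit 353) (nat_lit 340) (nat_lit 87))))) (XT.nd (nat_lit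 234) (nat_lit 912) (nat_lit 0) (XT.nd (nat_lit 78) (nat_lit 0) (nat_lit 76) (XT.lf (nat_lit 76) (nat_lit 7844329234) (nat_lit 0) (nat_lit 9537242404) (nat_lit 1216) (nat_lit 36947828742) (nat_lit 164) (nat_lit 5) (nat_lit 163) (nat_lit 5) (nat_lit 179) (nat_lit 5) (nat_lit 354) (nat_lit 340) (nat_lit 86)) (XT.nd (nat_lit 78) (nat_lit 0) (nat_lit 0) (XT.lf (nat_lit 0) (nat_lit 20550092663) (nat_lit 1140) (nat_lit 22358967580) (nat_lit 1216) (nat_lit 12315854800) (nat_lit 164) (nat_lit 5) (nat_lit 179) (nat_lit 5) (nat_lit 180) (nat_lit 5) (nat_lit 355) (nat_lit 340) (nat_lit 85)) (XT.lf (nat_lit 76) (nat_lit 2443489059) (nat_lit 0) (nat_lit 21487259018) (nat_lit 1216) (nat_lit 32213036277) (nat_lit 165) (nat_lit 5) (nat_lit 164) (nat_lit 5) (nat_lit 180) (nat_lit 5) (nat_lit 356) (nat_lit 340) (nat_lit 84)))) (XT.nd (nat_lit 78) (nat_lit 1064) (nat_lit 0) (XT.lf (nat_lit 0) (nat_lit 27645570289)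 (nat_lit 1140) (nat_lit 28643577766) (nat_lit 76) (nat_lit 794090799) (nat_lit 165) (nat_lit 5) (nat_lit 180) (nat_lit 5) (nat_lit 166) (nat_lit 5) (nat_lit 357) (nat_lit 340) (nat_lit 83)) (XT.nd (nat_lit 78) (nat_lit 1064) (nat_lit 0) (XT.lf (nat_lit 0) (nat_lit 31683787722) (nat_lit 1140) (nat_lit 3048587308) (nat_lit 76) (nat_lit 23312144923) (nat_lit 165) (nat_lit 5) (nat_lit 180) (nat_lit 5) (nat_lit 166) (nat_lit 5) (nat_lit 358) (nat_lit 340) (nat_lit 82)) (XT.lf (nat_lit 0) (nat_lit 23777575452) (nat_lit 1064) (nat_lit 12293369386) (nat_lit 1140) (nat_lit 22956862289) (nat_lit 151) (nat_lit 5) (nat_lit 165) (nat_lit 5) (nat_lit 166) (nat_lit 5) (nat_lit 359) (nat_lit 340) (nat_lit 81)))))) (XT.nd (nat_lit 39390) (nat_lit 0) (nat_lit 1748) (XT.nd (nat_lit 39156) (nat_lit 0) (nat_lit 2736) (XT.nd (nat_lit 156) (nat_lit 1064) (nat_lit 0) (XT.lf (nat_lit 0) (nat_lit 40724048864) (nat_lit 1140)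 (nat_lit 8673637056) (nat_lit 76) (nat_lit 10638878425) (nat_lit 151) (nat_lit 5) (nat_lit 166) (nat_lit 5) (nat_lit 152) (nat_lit 5) (nat_lit 360) (nat_lit 340) (nat_lit 80)) (XT.nd (nat_lit 78) (nat_lit 532) (nat_lit 0) (XT.lf (nat_lit 0) (nat_lit 47574645658) (nat_lit 532) (nat_lit 3580781808) (nat_lit 608) (nat_lit 10969285312) (nat_lit 144) (nat_lit 5) (nat_lit 151) (nat_lit 5) (nat_lit 152) (nat_lit 5) (nat_lit 362) (nat_lit 340) (nat_lit 78)) (XT.lf (nat_lit 0) (nat_lit 13920603091) (nat_lit 532) (nat_lit 43059757906) (nat_lit 608) (nat_lit 6224441264) (nat_lit 137) (nat_lit 5) (nat_lit 144) (nat_lit 5) (nat_lit 145) (nat_lit 5) (nat_lit 363) (nat_lit 340) (nat_lit 77)))) (XT.nd (nat_lit 78) (nat_lit 0) (nat_lit 0) (XT.lf (nat_lit 0) (nat_lit 21678248485) (nat_lit 1140) (nat_lit 415781832) (nat_lit 1140) (nat_lit 415781832) (nat_lit 173) (nat_lit 3) (nat_lit 188) (nat_lit 3) (nat_lit 188)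 (nat_lit 5) (nat_lit 341) (nat_lit 341) (nat_lit 98)) (XT.nd (nat_lit 78) (nat_lit 0) (nat_lit 0) (XT.lf (nat_lit 76) (nat_lit 18861468388) (nat_lit 0) (nat_lit 25356209842) (nat_lit 1140) (nat_lit 1470856328) (nat_lit 174) (nat_lit 5) (nat_lit 173) (nat_lit 3) (nat_lit 188) (nat_lit 5) (nat_lit 342) (nat_lit 341) (nat_lit 97)) (XT.lf (nat_lit 76) (nat_lit 39161731217) (nat_lit 0) (nat_lit 5950202735) (nat_lit 1140) (nat_lit 1265363312) (nat_lit 174) (nat_lit 5) (nat_lit 173) (nat_lit 3) (nat_lit 188) (nat_lit 5) (nat_lit 343) (nat_lit 341) (nat_lit 96))))) (XT.nd (nat_lit 234) (nat_lit 0) (nat_lit 0) (XT.nd (nat_lit 78) (nat_lit 1064) (nat_lit 0) (XT.lf (nat_lit 76) (nat_lit 13104421972) (nat_lit 0) (nat_lit 33188385531) (nat_lit 1140) (nat_lit 786123882) (nat_lit 175) (nat_lit 5) (nat_lit 174) (nat_lit 5) (nat_lit 189) (nat_lit 5) (nat_lit 344) (nat_lit 341) (nat_lit 95)) (XT.nd (nat_lit 78)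 (nat_lit 1064) (nat_lit 0) (XT.lf (nat_lit 76) (nat_lit 34121212573) (nat_lit 0) (nat_lit 13518000421) (nat_lit 1140) (nat_lit 158500535) (nat_lit 175) (nat_lit 5) (nat_lit 174) (nat_lit 5) (nat_lit 189) (nat_lit 5) (nat_lit 345) (nat_lit 341) (nat_lit 94)) (XT.lf (nat_lit 0) (nat_lit 613756052) (nat_lit 1140) (nat_lit 41232470151) (nat_lit 1216) (nat_lit 6687634483) (nat_lit 160) (nat_lit 5) (nat_lit 175) (nat_lit 5) (nat_lit 176) (nat_lit 5) (nat_lit 346) (nat_lit 341) (nat_lit 93)))) (XT.nd (nat_lit 78) (nat_lit 0) (nat_lit 0) (XT.lf (nat_lit 0) (nat_lit 1678265414) (nat_lit 1140) (nat_lit 20236414043) (nat_lit 1216) (nat_lit 27369199587) (nat_lit 160) (nat_lit 5) (nat_lit 175) (nat_lit 5) (nat_lit 176) (nat_lit 5) (nat_lit 347) (nat_lit 341) (nat_lit 92)) (XT.nd (nat_lit 78) (nat_lit 0) (nat_lit 76) (XT.lf (nat_lit 76) (nat_lit 1416524159) (nat_lit 0) (nat_lit 1370788767) (nat_lit 1216) (nat_lit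 47268708872) (nat_lit 161) (nat_lit 5) (nat_lit 160) (nat_lit 5) (nat_lit 176) (nat_lit 5) (nat_lit 348) (nat_lit 341) (nat_lit 91)) (XT.lf (nat_lit 0) (nat_lit 4325244425) (nat_lit 1140) (nat_lit 26904242273) (nat_lit 1216) (nat_lit 19609975636) (nat_lit 161) (nat_lit 5) (nat_lit 176) (nat_lit 5) (nat_lit 177) (nat_lit 5) (nat_lit 349) (nat_lit 341) (nat_lit 90))))))))
noncomputable def xc253 : XT := (XT.nd (nat_lit 40794) (nat_lit 0) (nat_lit 532) (XT.nd (nat_lit 858) (nat_lit 532) (nat_lit 0) (XT.nd (nat_lit 390) (nat_lit 760) (nat_lit 0) (XT.nd (nat_lit 156) (nat_lit 0) (nat_lit 76) (XT.nd (nat_lit 78) (nat_lit 0) (nat_lit 76) (XT.lf (nat_lit 0) (nat_lit 5921927985) (nat_lit 1140) (nat_lit 4531151691) (nat_lit 1216) (nat_lit 41192949805) (nat_lit 161) (nat_lit 5) (nat_lit 176) (nat_lit 5) (nat_lit 177) (nat_lit 5) (nat_lit 350) (nat_lit 341) (nat_lit 89)) (XT.lf (nat_lit 0) (nat_lit 7854102466)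 (nat_lit 1140) (nat_lit 33697468600) (nat_lit 1216) (nat_lit 10916596632) (nat_lit 162) (nat_lit 5) (nat_lit 177) (nat_lit 5) (nat_lit 178) (nat_lit 5) (nat_lit 351) (nat_lit 341) (nat_lit 88))) (XT.nd (nat_lit 78) (nat_lit 0) (nat_lit 76) (XT.lf (nat_lit 0) (nat_lit 9993040462) (nat_lit 1140) (nat_lit 10553713543) (nat_lit 1216) (nat_lit 32763753825) (nat_lit 162) (nat_lit 5) (nat_lit 177) (nat_lit 5) (nat_lit 178) (nat_lit 5) (nat_lit 352) (nat_lit 341) (nat_lit 87)) (XT.nd (nat_lit 78) (nat_lit 0) (nat_lit 0) (XT.lf (nat_lit 0) (nat_lit 12337251453) (nat_lit 1140) (nat_lit 40637903099) (nat_lit 1216) (nat_lit 1198732134) (nat_lit 163) (nat_lit 5) (nat_lit 178) (nat_lit 5) (nat_lit 179) (nat_lit 5) (nat_lit 353) (nat_lit 341) (nat_lit 86)) (XT.lf (nat_lit 0) (nat_lit 15061990787) (nat_lit 1140) (nat_lit 16700406826) (nat_lit 1216) (nat_lit 23291464852) (nat_lit 163) (nat_lit 5) (nat_lit 178)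 (nat_lit 5) (nat_lit 179) (nat_lit 5) (nat_lit 354) (nat_lit 341) (nat_lit 85))))) (XT.nd (nat_lit 234) (nat_lit 912) (nat_lit 0) (XT.nd (nat_lit 78) (nat_lit 0) (nat_lit 76) (XT.lf (nat_lit 76) (nat_lit 8112884066) (nat_lit 0) (nat_lit 9832741058) (nat_lit 1216) (nat_lit 38012299377) (nat_lit 164) (nat_lit 5) (nat_lit 163) (nat_lit 5) (nat_lit 179) (nat_lit 5) (nat_lit 355) (nat_lit 341) (nat_lit 84)) (XT.nd (nat_lit 78) (nat_lit 0) (nat_lit 0) (XT.lf (nat_lit 0) (nat_lit 21207873266) (nat_lit 1140) (nat_lit 22996073477) (nat_lit 1216) (nat_lit 12676400038) (nat_lit 164) (nat_lit 5) (nat_lit 179) (nat_lit 5) (nat_lit 180) (nat_lit 5) (nat_lit 356) (nat_lit 341) (nat_lit 83)) (XT.lf (nat_lit 76) (nat_lit 2550126830) (nat_lit 0) (nat_lit 22138939663) (nat_lit 1216) (nat_lit 33137744387) (nat_lit 165) (nat_lit 5) (nat_lit 164) (nat_lit 5) (nat_lit 180) (nat_lit 5) (nat_lit 357) (nat_lit 341) (nat_lit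 82)))) (XT.nd (nat_lit 78) (nat_lit 1064) (nat_lit 0) (XT.lf (nat_lit 0) (nat_lit 28514090875) (nat_lit 1140) (nat_lit 29469207433) (nat_lit 76) (nat_lit 811190171) (nat_lit 165) (nat_lit 5) (nat_lit 180) (nat_lit 5) (nat_lit 166) (nat_lit 5) (nat_lit 358) (nat_lit 341) (nat_lit 81)) (XT.nd (nat_lit 78) (nat_lit 1064) (nat_lit 0) (XT.lf (nat_lit 0) (nat_lit 32672314438) (nat_lit 1140) (nat_lit 3107348164) (nat_lit 76) (nat_lit 24004981744) (nat_lit 165) (nat_lit 5) (nat_lit 180) (nat_lit 5) (nat_lit 166) (nat_lit 5) (nat_lit 359) (nat_lit 341) (nat_lit 80)) (XT.lf (nat_lit 0) (nat_lit 24523278922) (nat_lit 1064) (nat_lit 12667011388) (nat_lit 1140) (nat_lit 23607165767) (nat_lit 151) (nat_lit 5) (nat_lit 165) (nat_lit 5) (nat_lit 166) (nat_lit 5) (nat_lit 360) (nat_lit 341) (nat_lit 79)))))) (XT.nd (nat_lit 39468) (nat_lit 0) (nat_lit 1216) (XT.nd (nat_lit 39234) (nat_lit 0) (nat_lit 2204) (XT.nd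 (nat_lit 78) (nat_lit 532) (nat_lit 0) (XT.lf (nat_lit 0) (nat_lit 41981858285) (nat_lit 1140) (nat_lit 8901217038) (nat_lit 76) (nat_lit 10953436567) (nat_lit 151) (nat_lit 5) (nat_lit 166) (nat_lit 5) (nat_lit 152) (nat_lit 5) (nat_lit 361) (nat_lit 341) (nat_lit 78)) (XT.nd (nat_lit 39078) (nat_lit 0) (nat_lit 2204) (XT.lf (nat_lit 0) (nat_lit 19548350489) (nat_lit 532) (nat_lit 27681459135) (nat_lit 608) (nat_lit 15667551940) (nat_lit 144) (nat_lit 5) (nat_lit 151) (nat_lit 5) (nat_lit 152) (nat_lit 5) (nat_lit 362) (nat_lit 341) (nat_lit 77)) (XT.lf (nat_lit 0) (nat_lit 22357837953) (nat_lit 1140) (nat_lit 413166389) (nat_lit 1140) (nat_lit 413166389) (nat_lit 173) (nat_lit 3) (nat_lit 188) (nat_lit 3) (nat_lit 188) (nat_lit 5) (nat_lit 342) (nat_lit 342) (nat_lit 96)))) (XT.nd (nat_lit 78) (nat_lit 0) (nat_lit 0) (XT.lf (nat_lit 76) (nat_lit 19457194374) (nat_lit 0) (nat_lit 26144082056)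 (nat_lit 1140) (nat_lit 1456088498) (nat_lit 174) (nat_lit 5) (nat_lit 173) (nat_lit 3) (nat_lit 188) (nat_lit 5) (nat_lit 343) (nat_lit 342) (nat_lit 95)) (XT.nd (nat_lit 78) (nat_lit 0) (nat_lit 76) (XT.lf (nat_lit 76) (nat_lit 40365594739) (nat_lit 0) (nat_lit 6155102913) (nat_lit 1140) (nat_lit 1246146036) (nat_lit 174) (nat_lit 5) (nat_lit 173) (nat_lit 3) (nat_lit 188) (nat_lit 5) (nat_lit 344) (nat_lit 342) (nat_lit 94)) (XT.lf (nat_lit 76) (nat_lit 13528288134) (nat_lit 0) (nat_lit 34207144620) (nat_lit 1140) (nat_lit 754144231) (nat_lit 175) (nat_lit 5) (nat_lit 174) (nat_lit 5) (nat_lit 189) (nat_lit 5) (nat_lit 345) (nat_lit 342) (nat_lit 93))))) (XT.nd (nat_lit 234) (nat_lit 0) (nat_lit 0) (XT.nd (nat_lit 78) (nat_lit 1064) (nat_lit 0) (XT.lf (nat_lit 76) (nat_lit 35174687304) (nat_lit 0) (nat_lit 13945974922) (nat_lit 1140) (nat_lit 109310535) (nat_lit 175) (nat_lit 5) (nat_lit 174)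 (nat_lit 5) (nat_lit 189) (nat_lit 5) (nat_lit 346) (nat_lit 342) (nat_lit 92)) (XT.nd (nat_lit 78) (nat_lit 0) (nat_lit 0) (XT.lf (nat_lit 0) (nat_lit 683614061) (nat_lit 1140) (nat_lit 42436907231) (nat_lit 1216) (nat_lit 6867713835) (nat_lit 160) (nat_lit 5) (nat_lit 175) (nat_lit 5) (nat_lit 176) (nat_lit 5) (nat_lit 347) (nat_lit 342) (nat_lit 91)) (XT.lf (nat_lit 0) (nat_lit 1778560296) (nat_lit 1140) (nat_lit 20811917120) (nat_lit 1216) (nat_lit 28170324427) (nat_lit 160) (nat_lit 5) (nat_lit 175) (nat_lit 5) (nat_lit 176) (nat_lit 5) (nat_lit 348) (nat_lit 342) (nat_lit 90)))) (XT.nd (nat_lit 78) (nat_lit 0) (nat_lit 76) (XT.lf (nat_lit 76) (nat_lit 1490299529) (nat_lit 0) (nat_lit 1429425619) (nat_lit 1216) (nat_lit 48636421126) (nat_lit 161) (nat_lit 5) (nat_lit 160) (nat_lit 5) (nat_lit 176) (nat_lit 5) (nat_lit 349) (nat_lit 342) (nat_lit 89)) (XT.nd (nat_lit 78) (nat_lit 0) (nat_lit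 0) (XT.lf (nat_lit 0) (nat_lit 4502209996) (nat_lit 1140) (nat_lit 27679326656) (nat_lit 1216) (nat_lit 20181603601) (nat_lit 161) (nat_lit 5) (nat_lit 176) (nat_lit 5) (nat_lit 177) (nat_lit 5) (nat_lit 350) (nat_lit 342) (nat_lit 88)) (XT.lf (nat_lit 0) (nat_lit 6145419066) (nat_lit 1140) (nat_lit 4635976646) (nat_lit 1216) (nat_lit 42412552567) (nat_lit 161) (nat_lit 5) (nat_lit 176) (nat_lit 5) (nat_lit 177) (nat_lit 5) (nat_lit 351) (nat_lit 342) (nat_lit 87))))))) (XT.nd (nat_lit 40092) (nat_lit 0) (nat_lit 684) (XT.nd (nat_lit 468) (nat_lit 836) (nat_lit 0) (XT.nd (nat_lit 234) (nat_lit 0) (nat_lit 76) (XT.nd (nat_lit 78) (nat_lit 0) (nat_lit 0) (XT.lf (nat_lit 0) (nat_lit 8134385467) (nat_lit 1140) (nat_lit 34676025194) (nat_lit 1216) (nat_lit 11230377718) (nat_lit 162) (nat_lit 5) (nat_lit 177) (nat_lit 5) (nat_lit 178) (nat_lit 5) (nat_lit 352) (nat_lit 342) (nat_lit 86)) (XT.nd (nat_lit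 78) (nat_lit 0) (nat_lit 76) (XT.lf (nat_lit 0) (nat_lit 10336190828) (nat_lit 1140) (nat_lit 10838900227) (nat_lit 1216) (nat_lit 33733349145) (nat_lit 162) (nat_lit 5) (nat_lit 177) (nat_lit 5) (nat_lit 178) (nat_lit 5) (nat_lit 353) (nat_lit 342) (nat_lit 85)) (XT.lf (nat_lit 0) (nat_lit 12749655955) (nat_lit 1140) (nat_lit 41824463575) (nat_lit 1216) (nat_lit 1223635447) (nat_lit 163) (nat_lit 5) (nat_lit 178) (nat_lit 5) (nat_lit 179) (nat_lit 5) (nat_lit 354) (nat_lit 342) (nat_lit 84)))) (XT.nd (nat_lit 78) (nat_lit 0) (nat_lit 0) (XT.lf (nat_lit 0) (nat_lit 15554905810) (nat_lit 1140) (nat_lit 17169791248) (nat_lit 1216) (nat_lit 23979472243) (nat_lit 163) (nat_lit 5) (nat_lit 178) (nat_lit 5) (nat_lit 179) (nat_lit 5) (nat_lit 355) (nat_lit 342) (nat_lit 83)) (XT.nd (nat_lit 78) (nat_lit 0) (nat_lit 76) (XT.lf (nat_lit 76) (nat_lit 8387588295) (nat_lit 0) (nat_lit 10136566142) (nat_lit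 1216) (nat_lit 39111227858) (nat_lit 164) (nat_lit 5) (nat_lit 163) (nat_lit 5) (nat_lit 179) (nat_lit 5) (nat_lit 356) (nat_lit 342) (nat_lit 82)) (XT.lf (nat_lit 0) (nat_lit 21883017771) (nat_lit 1140) (nat_lit 23654224953) (nat_lit 1216) (nat_lit 13048274276) (nat_lit 164) (nat_lit 5) (nat_lit 179) (nat_lit 5) (nat_lit 180) (nat_lit 5) (nat_lit 357) (nat_lit 342) (nat_lit 81))))) (XT.nd (nat_lit 312) (nat_lit 0) (nat_lit 0) (XT.nd (nat_lit 78) (nat_lit 988) (nat_lit 0) (XT.lf (nat_lit 76) (nat_lit 2658050278) (nat_lit 0) (nat_lit 22809765290) (nat_lit 1216) (nat_lit 34092586514) (nat_lit 165) (nat_lit 5) (nat_lit 164) (nat_lit 5) (nat_lit 180) (nat_lit 5) (nat_lit 358) (nat_lit 342) (nat_lit 80)) (XT.nd (nat_lit 156) (nat_lit 1064) (nat_lit 0) (XT.lf (nat_lit 0) (nat_lit 29406419509) (nat_lit 1140) (nat_lit 30321539226) (nat_lit 76) (nat_lit 829188472) (nat_lit 165) (nat_lit 5) (nat_lit 180)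 (nat_lit 5) (nat_lit 166) (nat_lit 5) (nat_lit 359) (nat_lit 342) (nat_lit 79)) (XT.lf (nat_lit 0) (nat_lit 25289494970) (nat_lit 1064) (nat_lit 13051584762) (nat_lit 1140) (nat_lit 24279182804) (nat_lit 151) (nat_lit 5) (nat_lit 165) (nat_lit 5) (nat_lit 166) (nat_lit 5) (nat_lit 361) (nat_lit 342) (nat_lit 77)))) (XT.nd (nat_lit 39156) (nat_lit 0) (nat_lit 1672) (XT.lf (nat_lit 0) (nat_lit 43275330392) (nat_lit 1140) (nat_lit 9137497465) (nat_lit 76) (nat_lit 11277695984) (nat_lit 151) (nat_lit 5) (nat_lit 166) (nat_lit 5) (nat_lit 152) (nat_lit 5) (nat_lit 362) (nat_lit 342) (nat_lit 76)) (XT.nd (nat_lit 78) (nat_lit 0) (nat_lit 0) (XT.lf (nat_lit 0) (nat_lit 23056136494) (nat_lit 1140) (nat_lit 411338648) (nat_lit 1140) (nat_lit 411338648) (nat_lit 173) (nat_lit 3) (nat_lit 188) (nat_lit 3) (nat_lit 188) (nat_lit 5) (nat_lit 343) (nat_lit 343) (nat_lit 94)) (XT.lf (nat_lit 76) (nat_lit 20069076794)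 (nat_lit 0) (nat_lit 26954029853) (nat_lit 1140) (nat_lit 1444258362) (nat_lit 174) (nat_lit 5) (nat_lit 173) (nat_lit 3) (nat_lit 188) (nat_lit 5) (nat_lit 344) (nat_lit 343) (nat_lit 93)))))) (XT.nd (nat_lit 468) (nat_lit 0) (nat_lit 76) (XT.nd (nat_lit 234) (nat_lit 988) (nat_lit 0) (XT.nd (nat_lit 78) (nat_lit 0) (nat_lit 76) (XT.lf (nat_lit 76) (nat_lit 41603908784) (nat_lit 0) (nat_lit 6364634967) (nat_lit 1140) (nat_lit 1229634503) (nat_lit 174) (nat_lit 5) (nat_lit 173) (nat_lit 3) (nat_lit 188) (nat_lit 5) (nat_lit 345) (nat_lit 343) (nat_lit 92)) (XT.nd (nat_lit 78) (nat_lit 0) (nat_lit 0) (XT.lf (nat_lit 76) (nat_lit 13963106053) (nat_lit 0) (nat_lit 35255140015) (nat_lit 1140) (nat_lit 724394755) (nat_lit 175) (nat_lit 5) (nat_lit 174) (nat_lit 5) (nat_lit 189) (nat_lit 5) (nat_lit 346) (nat_lit 343) (nat_lit 91)) (XT.lf (nat_lit 76) (nat_lit 36258053433) (nat_lit 0) (nat_lit 14385500826)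 (nat_lit 1140) (nat_lit 61741499) (nat_lit 175) (nat_lit 5) (nat_lit 174) (nat_lit 5) (nat_lit 189) (nat_lit 5) (nat_lit 347) (nat_lit 343) (nat_lit 90)))) (XT.nd (nat_lit 78) (nat_lit 0) (nat_lit 0) (XT.lf (nat_lit 0) (nat_lit 752614637) (nat_lit 1140) (nat_lit 43679345182) (nat_lit 1216) (nat_lit 7054375204) (nat_lit 160) (nat_lit 5) (nat_lit 175) (nat_lit 5) (nat_lit 176) (nat_lit 5) (nat_lit 348) (nat_lit 343) (nat_lit 89)) (XT.nd (nat_lit 78) (nat_lit 0) (nat_lit 0) (XT.lf (nat_lit 0) (nat_lit 1878996867) (nat_lit 1140) (nat_lit 21406498647) (nat_lit 1216) (nat_lit 28996628289) (nat_lit 160) (nat_lit 5) (nat_lit 175) (nat_lit 5) (nat_lit 176) (nat_lit 5) (nat_lit 349) (nat_lit 343) (nat_lit 88)) (XT.lf (nat_lit 76) (nat_lit 1564492580) (nat_lit 0) (nat_lit 1488816248) (nat_lit 1216) (nat_lit 50048054987) (nat_lit 161) (nat_lit 5) (nat_lit 160) (nat_lit 5) (nat_lit 176) (nat_lit 5) (nat_lit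 350) (nat_lit 343) (nat_lit 87))))) (XT.nd (nat_lit 234) (nat_lit 0) (nat_lit 76) (XT.nd (nat_lit 78) (nat_lit 0) (nat_lit 0) (XT.lf (nat_lit 0) (nat_lit 4681774589) (nat_lit 1140) (nat_lit 28479502964) (nat_lit 1216) (nat_lit 20771337406) (nat_lit 161) (nat_lit 5) (nat_lit 176) (nat_lit 5) (nat_lit 177) (nat_lit 5) (nat_lit 351) (nat_lit 343) (nat_lit 86)) (XT.nd (nat_lit 78) (nat_lit 0) (nat_lit 76) (XT.lf (nat_lit 0) (nat_lit 6372983864) (nat_lit 1140) (nat_lit 4745732166) (nat_lit 1216) (nat_lit 43669672539) (nat_lit 161) (nat_lit 5) (nat_lit 176) (nat_lit 5) (nat_lit 177) (nat_lit 5) (nat_lit 352) (nat_lit 343) (nat_lit 85)) (XT.lf (nat_lit 0) (nat_lit 8420513296) (nat_lit 1140) (nat_lit 35685796510) (nat_lit 1216) (nat_lit 11554359637) (nat_lit 162) (nat_lit 5) (nat_lit 177) (nat_lit 5) (nat_lit 178) (nat_lit 5) (nat_lit 353) (nat_lit 343) (nat_lit 84)))) (XT.nd (nat_lit 78) (nat_lit 0) (nat_lit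 76) (XT.lf (nat_lit 0) (nat_lit 10687146713) (nat_lit 1140) (nat_lit 11134446418) (nat_lit 1216) (nat_lit 34732796792) (nat_lit 162) (nat_lit 5) (nat_lit 177) (nat_lit 5) (nat_lit 178) (nat_lit 5) (nat_lit 354) (nat_lit 343) (nat_lit 83)) (XT.nd (nat_lit 78) (nat_lit 0) (nat_lit 0) (XT.lf (nat_lit 0) (nat_lit 13172005148) (nat_lit 1140) (nat_lit 43048490897) (nat_lit 1216) (nat_lit 1249920672) (nat_lit 163) (nat_lit 5) (nat_lit 178) (nat_lit 5) (nat_lit 179) (nat_lit 5) (nat_lit 355) (nat_lit 343) (nat_lit 82)) (XT.lf (nat_lit 0) (nat_lit 16060251541) (nat_lit 1140) (nat_lit 17655072767) (nat_lit 1216) (nat_lit 24688736179) (nat_lit 163) (nat_lit 5) (nat_lit 178) (nat_lit 5) (nat_lit 179) (nat_lit 5) (nat_lit 356) (nat_lit 343) (nat_lit 81))))))))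
noncomputable def xc254 : XT := (XT.nd (nat_lit 80496) (nat_lit 76) (nat_lit 0) (XT.nd (nat_lit 40092) (nat_lit 0) (nat_lit 0) (XT.nd (nat_lit 39624) (nat_lit 228) (nat_lit 0) (XT.nd (nat_lit 156) (nat_lit 0) (nat_lit 76) (XT.nd (nat_lit 78) (nat_lit 0) (nat_lit 76) (XT.lf (nat_lit 76) (nat_lit 8668735886) (nat_lit 0) (nat_lit 10448998363) (nat_lit 1216) (nat_lit 40245503048) (nat_lit 164) (nat_lit 5) (nat_lit 163) (nat_lit 5) (nat_lit 179) (nat_lit 5) (nat_lit 357) (nat_lit 343) (nat_lit 80)) (XT.lf (nat_lit 0) (nat_lit 22576183115) (nat_lit 1140) (nat_lit 24333942446) (nat_lit 1216) (nat_lit 13431787954) (nat_lit 164) (nat_lit 5) (nat_lit 179) (nat_lit 5) (nat_lit 180) (nat_lit 5) (nat_lit 358) (nat_lit 343) (nat_lit 79))) (XT.nd (nat_lit 78) (nat_lit 0) (nat_lit 76) (XT.lf (nat_lit 76) (nat_lit 2767407814) (nat_lit 0) (nat_lit 23500333521) (nat_lit 1216) (nat_lit 35078329324) (nat_lit 165) (nat_lit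 5) (nat_lit 164) (nat_lit 5) (nat_lit 180) (nat_lit 5) (nat_lit 359) (nat_lit 343) (nat_lit 78)) (XT.nd (nat_lit 78) (nat_lit 0) (nat_lit 0) (XT.lf (nat_lit 0) (nat_lit 30323399452) (nat_lit 1140) (nat_lit 31201263233) (nat_lit 76) (nat_lit 848090514) (nat_lit 165) (nat_lit 5) (nat_lit 180) (nat_lit 5) (nat_lit 166) (nat_lit 5) (nat_lit 360) (nat_lit 343) (nat_lit 77)) (XT.lf (nat_lit 0) (nat_lit 34732738429) (nat_lit 1140) (nat_lit 3235790587) (nat_lit 76) (nat_lit 25454748106) (nat_lit 165) (nat_lit 5) (nat_lit 180) (nat_lit 5) (nat_lit 166) (nat_lit 5) (nat_lit 361) (nat_lit 343) (nat_lit 76))))) (XT.nd (nat_lit 234) (nat_lit 988) (nat_lit 0) (XT.nd (nat_lit 78) (nat_lit 0) (nat_lit 0) (XT.lf (nat_lit 0) (nat_lit 23773801739) (nat_lit 1140) (nat_lit 410272518) (nat_lit 1140) (nat_lit 410272518) (nat_lit 173) (nat_lit 3) (nat_lit 188) (nat_lit 3) (nat_lit 188) (nat_lit 5) (nat_lit 344) (nat_lit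 344) (nat_lit 92)) (XT.nd (nat_lit 78) (nat_lit 0) (nat_lit 0) (XT.lf (nat_lit 76) (nat_lit 20697698809) (nat_lit 0) (nat_lit 27786805085) (nat_lit 1140) (nat_lit 1435259982) (nat_lit 174) (nat_lit 5) (nat_lit 173) (nat_lit 3) (nat_lit 188) (nat_lit 5) (nat_lit 345) (nat_lit 344) (nat_lit 91)) (XT.lf (nat_lit 76) (nat_lit 42877802466) (nat_lit 0) (nat_lit 6579024828) (nat_lit 1140) (nat_lit 1215721471) (nat_lit 174) (nat_lit 5) (nat_lit 173) (nat_lit 3) (nat_lit 188) (nat_lit 5) (nat_lit 346) (nat_lit 344) (nat_lit 90)))) (XT.nd (nat_lit 78) (nat_lit 1064) (nat_lit 0) (XT.lf (nat_lit 76) (nat_lit 14409305555) (nat_lit 0) (nat_lit 36333324950) (nat_lit 1140) (nat_lit 696759266) (nat_lit 175) (nat_lit 5) (nat_lit 174) (nat_lit 5) (nat_lit 189) (nat_lit 5) (nat_lit 347) (nat_lit 344) (nat_lit 89)) (XT.nd (nat_lit 78) (nat_lit 1064) (nat_lit 0) (XT.lf (nat_lit 76) (nat_lit 37372306026) (nat_lit 0)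 (nat_lit 14836998604) (nat_lit 1140) (nat_lit 15664295) (nat_lit 175) (nat_lit 5) (nat_lit 174) (nat_lit 5) (nat_lit 189) (nat_lit 5) (nat_lit 348) (nat_lit 344) (nat_lit 88)) (XT.lf (nat_lit 0) (nat_lit 820901583) (nat_lit 1140) (nat_lit 44960816812) (nat_lit 1216) (nat_lit 7247748333) (nat_lit 160) (nat_lit 5) (nat_lit 175) (nat_lit 5) (nat_lit 176) (nat_lit 5) (nat_lit 349) (nat_lit 344) (nat_lit 87)))))) (XT.nd (nat_lit 468) (nat_lit 0) (nat_lit 228) (XT.nd (nat_lit 234) (nat_lit 0) (nat_lit 76) (XT.nd (nat_lit 78) (nat_lit 0) (nat_lit 0) (XT.lf (nat_lit 0) (nat_lit 1979743963) (nat_lit 1140) (nat_lit 22020626883) (nat_lit 1216) (nat_lit 29848800801) (nat_lit 160) (nat_lit 5) (nat_lit 175) (nat_lit 5) (nat_lit 176) (nat_lit 5) (nat_lit 350) (nat_lit 344) (nat_lit 86)) (XT.nd (nat_lit 78) (nat_lit 0) (nat_lit 76) (XT.lf (nat_lit 76) (nat_lit 1639218916) (nat_lit 0) (nat_lit 1549040977) (nat_lit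 1216) (nat_lit 51504762191) (nat_lit 161) (nat_lit 5) (nat_lit 160) (nat_lit 5) (nat_lit 176) (nat_lit 5) (nat_lit 351) (nat_lit 344) (nat_lit 85)) (XT.lf (nat_lit 0) (nat_lit 4864171736) (nat_lit 1140) (nat_lit 29305418365) (nat_lit 1216) (nat_lit 21379665290) (nat_lit 161) (nat_lit 5) (nat_lit 176) (nat_lit 5) (nat_lit 177) (nat_lit 5) (nat_lit 352) (nat_lit 344) (nat_lit 84)))) (XT.nd (nat_lit 78) (nat_lit 0) (nat_lit 76) (XT.lf (nat_lit 0) (nat_lit 6604895622) (nat_lit 1140) (nat_lit 4860463658) (nat_lit 1216) (nat_lit 44965381902) (nat_lit 161) (nat_lit 5) (nat_lit 176) (nat_lit 5) (nat_lit 177) (nat_lit 5) (nat_lit 353) (nat_lit 344) (nat_lit 83)) (XT.nd (nat_lit 78) (nat_lit 0) (nat_lit 0) (XT.lf (nat_lit 0) (nat_lit 8712808461) (nat_lit 1140) (nat_lit 36727612332) (nat_lit 1216) (nat_lit 11888803215) (nat_lit 162) (nat_lit 5) (nat_lit 177) (nat_lit 5) (nat_lit 178) (nat_lit 5) (nat_lit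 354) (nat_lit 344) (nat_lit 82)) (XT.lf (nat_lit 0) (nat_lit 11046285160) (nat_lit 1140) (nat_lit 11440559352) (nat_lit 1216) (nat_lit 35762948452) (nat_lit 162) (nat_lit 5) (nat_lit 177) (nat_lit 5) (nat_lit 178) (nat_lit 5) (nat_lit 355) (nat_lit 344) (nat_lit 81))))) (XT.nd (nat_lit 312) (nat_lit 0) (nat_lit 76) (XT.nd (nat_lit 78) (nat_lit 0) (nat_lit 0) (XT.lf (nat_lit 0) (nat_lit 13604736718) (nat_lit 1140) (nat_lit 44311001723) (nat_lit 1216) (nat_lit 1277592825) (nat_lit 163) (nat_lit 5) (nat_lit 178) (nat_lit 5) (nat_lit 179) (nat_lit 5) (nat_lit 356) (nat_lit 344) (nat_lit 80)) (XT.nd (nat_lit 78) (nat_lit 0) (nat_lit 0) (XT.lf (nat_lit 0) (nat_lit 16578536190) (nat_lit 1140) (nat_lit 18156624074) (nat_lit 1216) (nat_lit 25419858975) (nat_lit 163) (nat_lit 5) (nat_lit 178) (nat_lit 5) (nat_lit 179) (nat_lit 5) (nat_lit 357) (nat_lit 344) (nat_lit 79)) (XT.lf (nat_lit 76) (nat_lit 8956623339)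 (nat_lit 0) (nat_lit 10770325074) (nat_lit 1216) (nat_lit 41416048792) (nat_lit 164) (nat_lit 5) (nat_lit 163) (nat_lit 5) (nat_lit 179) (nat_lit 5) (nat_lit 358) (nat_lit 344) (nat_lit 78)))) (XT.nd (nat_lit 39468) (nat_lit 0) (nat_lit 684) (XT.lf (nat_lit 76) (nat_lit 2878345995) (nat_lit 0) (nat_lit 24211258573) (nat_lit 1216) (nat_lit 36095770366) (nat_lit 165) (nat_lit 5) (nat_lit 164) (nat_lit 5) (nat_lit 180) (nat_lit 5) (nat_lit 360) (nat_lit 344) (nat_lit 76)) (XT.nd (nat_lit 78) (nat_lit 0) (nat_lit 0) (XT.lf (nat_lit 0) (nat_lit 24511505517) (nat_lit 1140) (nat_lit 409943979) (nat_lit 1140) (nat_lit 409943979) (nat_lit 173) (nat_lit 3) (nat_lit 188) (nat_lit 3) (nat_lit 188) (nat_lit 5) (nat_lit 345) (nat_lit 345) (nat_lit 90)) (XT.lf (nat_lit 76) (nat_lit 21343655423) (nat_lit 0) (nat_lit 28643177016) (nat_lit 1140) (nat_lit 1428995386) (nat_lit 174) (nat_lit 5) (nat_lit 173) (nat_lit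 3) (nat_lit 188) (nat_lit 5) (nat_lit 346) (nat_lit 345) (nat_lit 89))))))) (XT.nd (nat_lit 1014) (nat_lit 0) (nat_lit 0) (XT.nd (nat_lit 468) (nat_lit 0) (nat_lit 152) (XT.nd (nat_lit 234) (nat_lit 0) (nat_lit 76) (XT.nd (nat_lit 78) (nat_lit 1064) (nat_lit 0) (XT.lf (nat_lit 76) (nat_lit 44188433287) (nat_lit 0) (nat_lit 6798500212) (nat_lit 1140) (nat_lit 1204307293) (nat_lit 174) (nat_lit 5) (nat_lit 173) (nat_lit 3) (nat_lit 188) (nat_lit 5) (nat_lit 347) (nat_lit 345) (nat_lit 88)) (XT.nd (nat_lit 78) (nat_lit 1140) (nat_lit 0) (XT.lf (nat_lit 76) (nat_lit 14867323547) (nat_lit 0) (nat_lit 37442676886) (nat_lit 1140) (nat_lit 671128599) (nat_lit 175) (nat_lit 5) (nat_lit 174) (nat_lit 5) (nat_lit 189) (nat_lit 5) (nat_lit 348) (nat_lit 345) (nat_lit 87)) (XT.lf (nat_lit 0) (nat_lit 28477127) (nat_lit 1140) (nat_lit 15272132402) (nat_lit 1216) (nat_lit 38489699667) (nat_lit 159) (nat_lit 5)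 (nat_lit 174) (nat_lit 5) (nat_lit 175) (nat_lit 5) (nat_lit 349) (nat_lit 345) (nat_lit 86)))) (XT.nd (nat_lit 78) (nat_lit 0) (nat_lit 0) (XT.lf (nat_lit 0) (nat_lit 888613281) (nat_lit 1140) (nat_lit 46282392071) (nat_lit 1216) (nat_lit 7447970748) (nat_lit 160) (nat_lit 5) (nat_lit 175) (nat_lit 5) (nat_lit 176) (nat_lit 5) (nat_lit 350) (nat_lit 345) (nat_lit 85)) (XT.nd (nat_lit 78) (nat_lit 0) (nat_lit 0) (XT.lf (nat_lit 0) (nat_lit 2080966041) (nat_lit 1140) (nat_lit 22654790111) (nat_lit 1216) (nat_lit 30727556053) (nat_lit 160) (nat_lit 5) (nat_lit 175) (nat_lit 5) (nat_lit 176) (nat_lit 5) (nat_lit 351) (nat_lit 345) (nat_lit 84)) (XT.lf (nat_lit 76) (nat_lit 1714591694) (nat_lit 0) (nat_lit 1610179226) (nat_lit 1216) (nat_lit 53007738552) (nat_lit 161) (nat_lit 5) (nat_lit 160) (nat_lit 5) (nat_lit 176) (nat_lit 5) (nat_lit 352) (nat_lit 345) (nat_lit 83))))) (XT.nd (nat_lit 234) (nat_lit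 0) (nat_lit 76) (XT.nd (nat_lit 78) (nat_lit 0) (nat_lit 0) (XT.lf (nat_lit 0) (nat_lit 5049633045) (nat_lit 1140) (nat_lit 30157745505) (nat_lit 1216) (nat_lit 22007093294) (nat_lit 161) (nat_lit 5) (nat_lit 176) (nat_lit 5) (nat_lit 177) (nat_lit 5) (nat_lit 353) (nat_lit 345) (nat_lit 82)) (XT.nd (nat_lit 78) (nat_lit 0) (nat_lit 76) (XT.lf (nat_lit 0) (nat_lit 6841427109) (nat_lit 1140) (nat_lit 4980223770) (nat_lit 1216) (nat_lit 46300788063) (nat_lit 161) (nat_lit 5) (nat_lit 176) (nat_lit 5) (nat_lit 177) (nat_lit 5) (nat_lit 354) (nat_lit 345) (nat_lit 81)) (XT.lf (nat_lit 0) (nat_lit 9011594701) (nat_lit 1140) (nat_lit 37802333460) (nat_lit 1216) (nat_lit 12233979696) (nat_lit 162) (nat_lit 5) (nat_lit 177) (nat_lit 5) (nat_lit 178) (nat_lit 5) (nat_lit 355) (nat_lit 345) (nat_lit 80)))) (XT.nd (nat_lit 78) (nat_lit 0) (nat_lit 76) (XT.lf (nat_lit 0) (nat_lit 11413986322) (nat_lit 1140)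 (nat_lit 11757458422) (nat_lit 1216) (nat_lit 36824683880) (nat_lit 162) (nat_lit 5) (nat_lit 177) (nat_lit 5) (nat_lit 178) (nat_lit 5) (nat_lit 356) (nat_lit 345) (nat_lit 79)) (XT.nd (nat_lit 156) (nat_lit 0) (nat_lit 0) (XT.lf (nat_lit 0) (nat_lit 14048293481) (nat_lit 1140) (nat_lit 45613049371) (nat_lit 1216) (nat_lit 1306659164) (nat_lit 163) (nat_lit 5) (nat_lit 178) (nat_lit 5) (nat_lit 179) (nat_lit 5) (nat_lit 357) (nat_lit 345) (nat_lit 78)) (XT.lf (nat_lit 76) (nat_lit 9251550126) (nat_lit 0) (nat_lit 11100840576) (nat_lit 1216) (nat_lit 42623824489) (nat_lit 164) (nat_lit 5) (nat_lit 163) (nat_lit 5) (nat_lit 179) (nat_lit 5) (nat_lit 359) (nat_lit 345) (nat_lit 76)))))) (XT.nd (nat_lit 39936) (nat_lit 0) (nat_lit 76) (XT.nd (nat_lit 39702) (nat_lit 380) (nat_lit 0) (XT.nd (nat_lit 39546) (nat_lit 0) (nat_lit 684) (XT.lf (nat_lit 0) (nat_lit 24019264374) (nat_lit 1140) (nat_lit 25760267443)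 (nat_lit 1216) (nat_lit 14235030650) (nat_lit 164) (nat_lit 5) (nat_lit 179) (nat_lit 5) (nat_lit 180) (nat_lit 5) (nat_lit 360) (nat_lit 345) (nat_lit 75)) (XT.nd (nat_lit 78) (nat_lit 0) (nat_lit 0) (XT.lf (nat_lit 0) (nat_lit 25269934598) (nat_lit 1140) (nat_lit 410330984) (nat_lit 1140) (nat_lit 410330984) (nat_lit 173) (nat_lit 3) (nat_lit 188) (nat_lit 3) (nat_lit 188) (nat_lit 5) (nat_lit 346) (nat_lit 346) (nat_lit 88)) (XT.lf (nat_lit 76) (nat_lit 22007554160) (nat_lit 0) (nat_lit 29523933141) (nat_lit 1140) (nat_lit 1425374159) (nat_lit 174) (nat_lit 5) (nat_lit 173) (nat_lit 3) (nat_lit 188) (nat_lit 5) (nat_lit 347) (nat_lit 346) (nat_lit 87)))) (XT.nd (nat_lit 78) (nat_lit 1064) (nat_lit 0) (XT.lf (nat_lit 76) (nat_lit 45536988300) (nat_lit 0) (nat_lit 7023290961) (nat_lit 1140) (nat_lit 1195299533) (nat_lit 174) (nat_lit 5) (nat_lit 173) (nat_lit 3) (nat_lit 188) (nat_lit 5) (nat_lit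 348) (nat_lit 346) (nat_lit 86)) (XT.nd (nat_lit 78) (nat_lit 1140) (nat_lit 0) (XT.lf (nat_lit 76) (nat_lit 15337604565) (nat_lit 0) (nat_lit 38584198484) (nat_lit 1140) (nat_lit 647400221) (nat_lit 175) (nat_lit 5) (nat_lit 174) (nat_lit 5) (nat_lit 189) (nat_lit 5) (nat_lit 349) (nat_lit 346) (nat_lit 85)) (XT.lf (nat_lit 0) (nat_lit 71085154) (nat_lit 1140) (nat_lit 15705831022) (nat_lit 1216) (nat_lit 39625769985) (nat_lit 159) (nat_lit 5) (nat_lit 174) (nat_lit 5) (nat_lit 175) (nat_lit 5) (nat_lit 350) (nat_lit 346) (nat_lit 84))))) (XT.nd (nat_lit 234) (nat_lit 0) (nat_lit 76) (XT.nd (nat_lit 78) (nat_lit 0) (nat_lit 0) (XT.lf (nat_lit 0) (nat_lit 955883096) (nat_lit 1140) (nat_lit 47645178805) (nat_lit 1216) (nat_lit 7655187761) (nat_lit 160) (nat_lit 5) (nat_lit 175) (nat_lit 5) (nat_lit 176) (nat_lit 5) (nat_lit 351) (nat_lit 346) (nat_lit 83)) (XT.nd (nat_lit 78) (nat_lit 0) (nat_lit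 0) (XT.lf (nat_lit 0) (nat_lit 2182823581) (nat_lit 1140) (nat_lit 23309496894) (nat_lit 1216) (nat_lit 31633633114) (nat_lit 160) (nat_lit 5) (nat_lit 175) (nat_lit 5) (nat_lit 176) (nat_lit 5) (nat_lit 352) (nat_lit 346) (nat_lit 82)) (XT.lf (nat_lit 76) (nat_lit 1790721885) (nat_lit 0) (nat_lit 1672309676) (nat_lit 1216) (nat_lit 54558224733) (nat_lit 161) (nat_lit 5) (nat_lit 160) (nat_lit 5) (nat_lit 176) (nat_lit 5) (nat_lit 353) (nat_lit 346) (nat_lit 81)))) (XT.nd (nat_lit 78) (nat_lit 0) (nat_lit 0) (XT.lf (nat_lit 0) (nat_lit 5238388656) (nat_lit 1140) (nat_lit 31037182921) (nat_lit 1216) (nat_lit 22654145611) (nat_lit 161) (nat_lit 5) (nat_lit 176) (nat_lit 5) (nat_lit 177) (nat_lit 5) (nat_lit 354) (nat_lit 346) (nat_lit 80)) (XT.nd (nat_lit 78) (nat_lit 0) (nat_lit 76) (XT.lf (nat_lit 0) (nat_lit 7082851107) (nat_lit 1140) (nat_lit 5105072281) (nat_lit 1216) (nat_lit 47677034538) (nat_lit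 161) (nat_lit 5) (nat_lit 176) (nat_lit 5) (nat_lit 177) (nat_lit 5) (nat_lit 355) (nat_lit 346) (nat_lit 79)) (XT.lf (nat_lit 0) (nat_lit 9317197501) (nat_lit 1140) (nat_lit 38910852289) (nat_lit 1216) (nat_lit 12590170908) (nat_lit 162) (nat_lit 5) (nat_lit 177) (nat_lit 5) (nat_lit 178) (nat_lit 5) (nat_lit 356) (nat_lit 346) (nat_lit 78))))))))
noncomputable def xc255 : XT := (XT.nd (nat_lit 81354) (nat_lit 0) (nat_lit 0) (XT.nd (nat_lit 40560) (nat_lit 0) (nat_lit 0) (XT.nd (nat_lit 40092) (nat_lit 228) (nat_lit 0) (XT.nd (nat_lit 39858) (nat_lit 0) (nat_lit 836) (XT.nd (nat_lit 78) (nat_lit 0) (nat_lit 76) (XT.lf (nat_lit 0) (nat_lit 11790634027) (nat_lit 1140) (nat_lit 12085375208) (nat_lit 1216) (nat_lit 37918911601) (nat_lit 162) (nat_lit 5) (nat_lit 177) (nat_lit 5) (nat_lit 178) (nat_lit 5) (nat_lit 357) (nat_lit 346) (nat_lit 77)) (XT.nd (nat_lit 78) (nat_lit 0) (nat_lit 0) (XT.lf (nat_lit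 0) (nat_lit 14503124001) (nat_lit 1140) (nat_lit 46955724570) (nat_lit 1216) (nat_lit 1337129138) (nat_lit 163) (nat_lit 5) (nat_lit 178) (nat_lit 5) (nat_lit 179) (nat_lit 5) (nat_lit 358) (nat_lit 346) (nat_lit 76)) (XT.lf (nat_lit 0) (nat_lit 17655993138) (nat_lit 1140) (nat_lit 19210112813) (nat_lit 1216) (nat_lit 26950191406) (nat_lit 163) (nat_lit 5) (nat_lit 178) (nat_lit 5) (nat_lit 179) (nat_lit 5) (nat_lit 359) (nat_lit 346) (nat_lit 75)))) (XT.nd (nat_lit 78) (nat_lit 0) (nat_lit 0) (XT.lf (nat_lit 0) (nat_lit 26049791440) (nat_lit 1140) (nat_lit 411413356) (nat_lit 1140) (nat_lit 411413356) (nat_lit 173) (nat_lit 3) (nat_lit 188) (nat_lit 3) (nat_lit 188) (nat_lit 5) (nat_lit 347) (nat_lit 347) (nat_lit 86)) (XT.nd (nat_lit 78) (nat_lit 0) (nat_lit 0) (XT.lf (nat_lit 76) (nat_lit 22690015750) (nat_lit 0) (nat_lit 30429880012) (nat_lit 1140) (nat_lit 1424313073) (nat_lit 174) (nat_lit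 5) (nat_lit 173) (nat_lit 3) (nat_lit 188) (nat_lit 5) (nat_lit 348) (nat_lit 347) (nat_lit 85)) (XT.lf (nat_lit 76) (nat_lit 46924685294) (nat_lit 0) (nat_lit 7253629375) (nat_lit 1140) (nat_lit 1188612586) (nat_lit 174) (nat_lit 5) (nat_lit 173) (nat_lit 3) (nat_lit 188) (nat_lit 5) (nat_lit 349) (nat_lit 347) (nat_lit 84))))) (XT.nd (nat_lit 234) (nat_lit 0) (nat_lit 76) (XT.nd (nat_lit 78) (nat_lit 1140) (nat_lit 0) (XT.lf (nat_lit 76) (nat_lit 15820601316) (nat_lit 0) (nat_lit 39758918606) (nat_lit 1140) (nat_lit 625477865) (nat_lit 175) (nat_lit 5) (nat_lit 174) (nat_lit 5) (nat_lit 189) (nat_lit 5) (nat_lit 350) (nat_lit 347) (nat_lit 83)) (XT.nd (nat_lit 78) (nat_lit 0) (nat_lit 76) (XT.lf (nat_lit 0) (nat_lit 112574589) (nat_lit 1140) (nat_lit 16153945012) (nat_lit 1216) (nat_lit 40796991314) (nat_lit 159) (nat_lit 5) (nat_lit 174) (nat_lit 5) (nat_lit 175) (nat_lit 5) (nat_lit 351) (nat_lit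 347) (nat_lit 82)) (XT.lf (nat_lit 0) (nat_lit 1022839743) (nat_lit 1140) (nat_lit 49050323567) (nat_lit 1216) (nat_lit 7869552500) (nat_lit 160) (nat_lit 5) (nat_lit 175) (nat_lit 5) (nat_lit 176) (nat_lit 5) (nat_lit 352) (nat_lit 347) (nat_lit 81)))) (XT.nd (nat_lit 78) (nat_lit 0) (nat_lit 0) (XT.lf (nat_lit 0) (nat_lit 2285473487) (nat_lit 1140) (nat_lit 23985276362) (nat_lit 1216) (nat_lit 32567796580) (nat_lit 160) (nat_lit 5) (nat_lit 175) (nat_lit 5) (nat_lit 176) (nat_lit 5) (nat_lit 353) (nat_lit 347) (nat_lit 80)) (XT.nd (nat_lit 78) (nat_lit 0) (nat_lit 76) (XT.lf (nat_lit 76) (nat_lit 1867718535) (nat_lit 0) (nat_lit 1735510423) (nat_lit 1216) (nat_lit 56157507081) (nat_lit 161) (nat_lit 5) (nat_lit 160) (nat_lit 5) (nat_lit 176) (nat_lit 5) (nat_lit 354) (nat_lit 347) (nat_lit 79)) (XT.lf (nat_lit 0) (nat_lit 5430667679) (nat_lit 1140) (nat_lit 31944455494) (nat_lit 1216) (nat_lit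 23321364964) (nat_lit 161) (nat_lit 5) (nat_lit 176) (nat_lit 5) (nat_lit 177) (nat_lit 5) (nat_lit 355) (nat_lit 347) (nat_lit 78)))))) (XT.nd (nat_lit 40248) (nat_lit 152) (nat_lit 0) (XT.nd (nat_lit 40014) (nat_lit 0) (nat_lit 912) (XT.nd (nat_lit 156) (nat_lit 0) (nat_lit 76) (XT.lf (nat_lit 0) (nat_lit 7329440876) (nat_lit 1140) (nat_lit 5235075987) (nat_lit 1216) (nat_lit 49095301869) (nat_lit 161) (nat_lit 5) (nat_lit 176) (nat_lit 5) (nat_lit 177) (nat_lit 5) (nat_lit 356) (nat_lit 347) (nat_lit 77)) (XT.nd (nat_lit 78) (nat_lit 0) (nat_lit 76) (XT.lf (nat_lit 0) (nat_lit 12176616329) (nat_lit 1140) (nat_lit 12424553519) (nat_lit 1216) (nat_lit 39046569631) (nat_lit 162) (nat_lit 5) (nat_lit 177) (nat_lit 5) (nat_lit 178) (nat_lit 5) (nat_lit 358) (nat_lit 347) (nat_lit 75)) (XT.lf (nat_lit 0) (nat_lit 14969683190) (nat_lit 1140) (nat_lit 48340156245) (nat_lit 1216) (nat_lit 1369014337)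 (nat_lit 163) (nat_lit 5) (nat_lit 178) (nat_lit 5) (nat_lit 179) (nat_lit 5) (nat_lit 359) (nat_lit 347) (nat_lit 74)))) (XT.nd (nat_lit 78) (nat_lit 0) (nat_lit 0) (XT.lf (nat_lit 0) (nat_lit 26851794944) (nat_lit 1140) (nat_lit 413172708) (nat_lit 1140) (nat_lit 413172708) (nat_lit 173) (nat_lit 3) (nat_lit 188) (nat_lit 3) (nat_lit 188) (nat_lit 5) (nat_lit 348) (nat_lit 348) (nat_lit 84)) (XT.nd (nat_lit 78) (nat_lit 0) (nat_lit 0) (XT.lf (nat_lit 76) (nat_lit 23391674810) (nat_lit 0) (nat_lit 31361844068) (nat_lit 1140) (nat_lit 1425735735) (nat_lit 174) (nat_lit 5) (nat_lit 173) (nat_lit 3) (nat_lit 188) (nat_lit 5) (nat_lit 349) (nat_lit 348) (nat_lit 83)) (XT.lf (nat_lit 76) (nat_lit 48352773996) (nat_lit 0) (nat_lit 7489750544) (nat_lit 1140) (nat_lit 1184167343) (nat_lit 174) (nat_lit 5) (nat_lit 173) (nat_lit 3) (nat_lit 188) (nat_lit 5) (nat_lit 350) (nat_lit 348) (nat_lit 82)))))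 (XT.nd (nat_lit 234) (nat_lit 0) (nat_lit 76) (XT.nd (nat_lit 78) (nat_lit 1140) (nat_lit 0) (XT.lf (nat_lit 76) (nat_lit 16316775216) (nat_lit 0) (nat_lit 40967893316) (nat_lit 1140) (nat_lit 605271173) (nat_lit 175) (nat_lit 5) (nat_lit 174) (nat_lit 5) (nat_lit 189) (nat_lit 5) (nat_lit 351) (nat_lit 348) (nat_lit 81)) (XT.nd (nat_lit 78) (nat_lit 0) (nat_lit 76) (XT.lf (nat_lit 0) (nat_lit 153049460) (nat_lit 1140) (nat_lit 16616826214) (nat_lit 1216) (nat_lit 42004356827) (nat_lit 159) (nat_lit 5) (nat_lit 174) (nat_lit 5) (nat_lit 175) (nat_lit 5) (nat_lit 352) (nat_lit 348) (nat_lit 80)) (XT.lf (nat_lit 0) (nat_lit 1089607653) (nat_lit 1140) (nat_lit 50499012460) (nat_lit 1216) (nat_lit 8091225941) (nat_lit 160) (nat_lit 5) (nat_lit 175) (nat_lit 5) (nat_lit 176) (nat_lit 5) (nat_lit 353) (nat_lit 348) (nat_lit 79)))) (XT.nd (nat_lit 78) (nat_lit 0) (nat_lit 0) (XT.lf (nat_lit 0) (nat_lit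 2389069456) (nat_lit 1140) (nat_lit 24682678523) (nat_lit 1216) (nat_lit 33530837144) (nat_lit 160) (nat_lit 5) (nat_lit 175) (nat_lit 5) (nat_lit 176) (nat_lit 5) (nat_lit 354) (nat_lit 348) (nat_lit 78)) (XT.nd (nat_lit 156) (nat_lit 0) (nat_lit 76) (XT.lf (nat_lit 76) (nat_lit 1945689005) (nat_lit 0) (nat_lit 1799859134) (nat_lit 1216) (nat_lit 57806918509) (nat_lit 161) (nat_lit 5) (nat_lit 160) (nat_lit 5) (nat_lit 176) (nat_lit 5) (nat_lit 355) (nat_lit 348) (nat_lit 77)) (XT.lf (nat_lit 0) (nat_lit 7581470616) (nat_lit 1140) (nat_lit 5370308622) (nat_lit 1216) (nat_lit 50556808579) (nat_lit 161) (nat_lit 5) (nat_lit 176) (nat_lit 5) (nat_lit 177) (nat_lit 5) (nat_lit 357) (nat_lit 348) (nat_lit 75))))))) (XT.nd (nat_lit 80886) (nat_lit 0) (nat_lit 0) (XT.nd (nat_lit 40326) (nat_lit 0) (nat_lit 76) (XT.nd (nat_lit 40092) (nat_lit 228) (nat_lit 0) (XT.nd (nat_lit 39936) (nat_lit 0) (nat_lit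 836) (XT.lf (nat_lit 0) (nat_lit 9950166518) (nat_lit 1140) (nat_lit 41233014338) (nat_lit 1216) (nat_lit 13336778823) (nat_lit 162) (nat_lit 5) (nat_lit 177) (nat_lit 5) (nat_lit 178) (nat_lit 5) (nat_lit 358) (nat_lit 348) (nat_lit 74)) (XT.nd (nat_lit 78) (nat_lit 0) (nat_lit 0) (XT.lf (nat_lit 0) (nat_lit 27676681208) (nat_lit 1140) (nat_lit 415592351) (nat_lit 1140) (nat_lit 415592351) (nat_lit 173) (nat_lit 3) (nat_lit 188) (nat_lit 3) (nat_lit 188) (nat_lit 5) (nat_lit 349) (nat_lit 349) (nat_lit 82)) (XT.lf (nat_lit 76) (nat_lit 24113180533) (nat_lit 0) (nat_lit 32320672485) (nat_lit 1140) (nat_lit 1429572252) (nat_lit 174) (nat_lit 5) (nat_lit 173) (nat_lit 3) (nat_lit 188) (nat_lit 5) (nat_lit 350) (nat_lit 349) (nat_lit 81)))) (XT.nd (nat_lit 78) (nat_lit 1064) (nat_lit 0) (XT.lf (nat_lit 76) (nat_lit 49822537292) (nat_lit 0) (nat_lit 7731892667) (nat_lit 1140) (nat_lit 1181890853) (nat_lit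 174) (nat_lit 5) (nat_lit 173) (nat_lit 3) (nat_lit 188) (nat_lit 5) (nat_lit 351) (nat_lit 349) (nat_lit 80)) (XT.nd (nat_lit 78) (nat_lit 1140) (nat_lit 0) (XT.lf (nat_lit 76) (nat_lit 16826596939) (nat_lit 0) (nat_lit 42212206911) (nat_lit 1140) (nat_lit 586695376) (nat_lit 175) (nat_lit 5) (nat_lit 174) (nat_lit 5) (nat_lit 189) (nat_lit 5) (nat_lit 352) (nat_lit 349) (nat_lit 79)) (XT.lf (nat_lit 0) (nat_lit 192609022) (nat_lit 1140) (nat_lit 17094841654) (nat_lit 1216) (nat_lit 43248893012) (nat_lit 159) (nat_lit 5) (nat_lit 174) (nat_lit 5) (nat_lit 175) (nat_lit 5) (nat_lit 353) (nat_lit 349) (nat_lit 78))))) (XT.nd (nat_lit 40326) (nat_lit 0) (nat_lit 988) (XT.nd (nat_lit 156) (nat_lit 0) (nat_lit 0) (XT.lf (nat_lit 0) (nat_lit 1156307304) (nat_lit 1140) (nat_lit 51992472027) (nat_lit 1216) (nat_lit 8320376959) (nat_lit 160) (nat_lit 5) (nat_lit 175) (nat_lit 5) (nat_lit 176) (nat_lit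 5) (nat_lit 354) (nat_lit 349) (nat_lit 77)) (XT.nd (nat_lit 78) (nat_lit 0) (nat_lit 76) (XT.lf (nat_lit 76) (nat_lit 2024739205) (nat_lit 0) (nat_lit 1865433189) (nat_lit 1216) (nat_lit 59507839436) (nat_lit 161) (nat_lit 5) (nat_lit 160) (nat_lit 5) (nat_lit 176) (nat_lit 5) (nat_lit 356) (nat_lit 349) (nat_lit 75)) (XT.lf (nat_lit 0) (nat_lit 5826709784) (nat_lit 1140) (nat_lit 33845540250) (nat_lit 1216) (nat_lit 24718570689) (nat_lit 161) (nat_lit 5) (nat_lit 176) (nat_lit 5) (nat_lit 177) (nat_lit 5) (nat_lit 357) (nat_lit 349) (nat_lit 74)))) (XT.nd (nat_lit 78) (nat_lit 0) (nat_lit 0) (XT.lf (nat_lit 0) (nat_lit 28525204300) (nat_lit 1140) (nat_lit 418657219) (nat_lit 1140) (nat_lit 418657219) (nat_lit 173) (nat_lit 3) (nat_lit 188) (nat_lit 3) (nat_lit 188) (nat_lit 5) (nat_lit 350) (nat_lit 350) (nat_lit 80)) (XT.nd (nat_lit 78) (nat_lit 0) (nat_lit 0) (XT.lf (nat_lit 76) (nat_lit 24855197382)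 (nat_lit 0) (nat_lit 33307234025) (nat_lit 1140) (nat_lit 1435758925) (nat_lit 174) (nat_lit 5) (nat_lit 173) (nat_lit 3) (nat_lit 188) (nat_lit 5) (nat_lit 351) (nat_lit 350) (nat_lit 79)) (XT.lf (nat_lit 76) (nat_lit 51335292472) (nat_lit 0) (nat_lit 7980297375) (nat_lit 1140) (nat_lit 1181716030) (nat_lit 174) (nat_lit 5) (nat_lit 173) (nat_lit 3) (nat_lit 188) (nat_lit 5) (nat_lit 352) (nat_lit 350) (nat_lit 78)))))) (XT.nd (nat_lit 40794) (nat_lit 76) (nat_lit 0) (XT.nd (nat_lit 40560) (nat_lit 0) (nat_lit 988) (XT.nd (nat_lit 156) (nat_lit 1064) (nat_lit 0) (XT.lf (nat_lit 76) (nat_lit 17350546951) (nat_lit 0) (nat_lit 43492972963) (nat_lit 1140) (nat_lit 569670984) (nat_lit 175) (nat_lit 5) (nat_lit 174) (nat_lit 5) (nat_lit 189) (nat_lit 5) (nat_lit 353) (nat_lit 350) (nat_lit 77)) (XT.nd (nat_lit 78) (nat_lit 0) (nat_lit 0) (XT.lf (nat_lit 0) (nat_lit 1223055550) (nat_lit 1140) (nat_lit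 53531970190) (nat_lit 1216) (nat_lit 8557182385) (nat_lit 160) (nat_lit 5) (nat_lit 175) (nat_lit 5) (nat_lit 176) (nat_lit 5) (nat_lit 355) (nat_lit 350) (nat_lit 75)) (XT.lf (nat_lit 0) (nat_lit 2599700477) (nat_lit 1140) (nat_lit 26144657403) (nat_lit 1216) (nat_lit 35546846469) (nat_lit 160) (nat_lit 5) (nat_lit 175) (nat_lit 5) (nat_lit 176) (nat_lit 5) (nat_lit 356) (nat_lit 350) (nat_lit 74)))) (XT.nd (nat_lit 78) (nat_lit 0) (nat_lit 0) (XT.lf (nat_lit 76) (nat_lit 25618405790) (nat_lit 0) (nat_lit 34322419907) (nat_lit 1140) (nat_lit 1444237957) (nat_lit 174) (nat_lit 5) (nat_lit 173) (nat_lit 3) (nat_lit 188) (nat_lit 5) (nat_lit 352) (nat_lit 351) (nat_lit 77)) (XT.nd (nat_lit 78) (nat_lit 0) (nat_lit 76) (XT.lf (nat_lit 76) (nat_lit 52892392496) (nat_lit 0) (nat_lit 8235210045) (nat_lit 1140) (nat_lit 1183581360) (nat_lit 174) (nat_lit 5) (nat_lit 173) (nat_lit 3) (nat_lit 188) (nat_lit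 5) (nat_lit 353) (nat_lit 351) (nat_lit 76)) (XT.lf (nat_lit 76) (nat_lit 17889116054) (nat_lit 0) (nat_lit 44811335386) (nat_lit 1140) (nat_lit 554123491) (nat_lit 175) (nat_lit 5) (nat_lit 174) (nat_lit 5) (nat_lit 189) (nat_lit 5) (nat_lit 354) (nat_lit 351) (nat_lit 75))))) (XT.nd (nat_lit 40560) (nat_lit 0) (nat_lit 1064) (XT.nd (nat_lit 78) (nat_lit 0) (nat_lit 76) (XT.lf (nat_lit 0) (nat_lit 269357185) (nat_lit 1140) (nat_lit 18097820421) (nat_lit 1216) (nat_lit 45853754756) (nat_lit 159) (nat_lit 5) (nat_lit 174) (nat_lit 5) (nat_lit 175) (nat_lit 5) (nat_lit 355) (nat_lit 351) (nat_lit 74)) (XT.nd (nat_lit 40404) (nat_lit 0) (nat_lit 988) (XT.lf (nat_lit 0) (nat_lit 1289965924) (nat_lit 1140) (nat_lit 55118817223) (nat_lit 1216) (nat_lit 8801827084) (nat_lit 160) (nat_lit 5) (nat_lit 175) (nat_lit 5) (nat_lit 176) (nat_lit 5) (nat_lit 356) (nat_lit 351) (nat_lit 73)) (XT.lf (nat_lit 76)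 (nat_lit 26403502866) (nat_lit 0) (nat_lit 35367144688) (nat_lit 1140) (nat_lit 1454957181) (nat_lit 174) (nat_lit 5) (nat_lit 173) (nat_lit 3) (nat_lit 188) (nat_lit 5) (nat_lit 353) (nat_lit 352) (nat_lit 75)))) (XT.nd (nat_lit 78) (nat_lit 0) (nat_lit 0) (XT.lf (nat_lit 76) (nat_lit 54495227283) (nat_lit 0) (nat_lit 8496880117) (nat_lit 1140) (nat_lit 1187430631) (nat_lit 174) (nat_lit 5) (nat_lit 173) (nat_lit 3) (nat_lit 188) (nat_lit 5) (nat_lit 354) (nat_lit 352) (nat_lit 74)) (XT.nd (nat_lit 40560) (nat_lit 76) (nat_lit 0) (XT.lf (nat_lit 76) (nat_lit 18442805931) (nat_lit 0) (nat_lit 46168469523) (nat_lit 1140) (nat_lit 539983107) (nat_lit 175) (nat_lit 5) (nat_lit 174) (nat_lit 5) (nat_lit 189) (nat_lit 5) (nat_lit 355) (nat_lit 352) (nat_lit 73)) (XT.lf (nat_lit 76) (nat_lit 27211203110) (nat_lit 0) (nat_lit 36442347156) (nat_lit 1140) (nat_lit 1467869810) (nat_lit 174) (nat_lit 5) (nat_lit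 173) (nat_lit 3) (nat_lit 188) (nat_lit 5) (nat_lit 354) (nat_lit 353) (nat_lit 73))))))))

set_option maxRecDepth 10000000 in
noncomputable def Tp : PT := (PT.nd (nat_lit 5456412) (PT.nd (nat_lit 4887324) (PT.nd (nat_lit 4359654) (PT.nd (nat_lit 3912870) (PT.nd (nat_lit 3547440) pc0 pc1) (PT.nd (nat_lit 283686) pc2 pc3)) (PT.nd (nat_lit 324090) (PT.nd (nat_lit 162396) pc4 pc5) (PT.nd (nat_lit 121602) pc6 pc7))) (PT.nd (nat_lit 325338) (PT.nd (nat_lit 202176) (PT.nd (nat_lit 120744) pc8 pc9) (PT.nd (nat_lit 80886) pc10 pc11)) (PT.nd (nat_lit 160368) (PT.nd (nat_lit 80340) pc12 pc13) (PT.nd (nat_lit 41730) pc14 pc15)))) (PT.nd (nat_lit 365040) (PT.nd (nat_lit 202488) (PT.nd (nat_lit 120276) (PT.nd (nat_lit 79014) pc16 pc17) (PT.nd (nat_lit 41184) pc18 pc19)) (PT.nd (nat_lit 81510) (PT.nd (nat_lit 40794) pc20 pc21) (PT.nd (nat_lit 40560) pc22 pc23))) (PT.nd (nat_lit 164034) (PT.nd (nat_lit 80340)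 (PT.nd (nat_lit 40248) pc24 pc25) (PT.nd (nat_lit 41730) pc26 pc27)) (PT.nd (nat_lit 197964) (PT.nd (nat_lit 80964) pc28 pc29) (PT.nd (nat_lit 121680) pc30 pc31)))))

set_option maxRecDepth 10000000 in
noncomputable def Tx : XT := (XT.nd (nat_lit 7712016) (nat_lit 0) (nat_lit 152) XT.nil (XT.nd (nat_lit 6660888) (nat_lit 0) (nat_lit 0) (XT.nd (nat_lit 3126474) (nat_lit 0) (nat_lit 532) (XT.nd (nat_lit 2186574) (nat_lit 0) (nat_lit 228) (XT.nd (nat_lit 1502826) (nat_lit 0) (nat_lit 76) (XT.nd (nat_lit 1054482) (nat_lit 0) (nat_lit 76) (XT.nd (nat_lit 729924) (nat_lit 0) (nat_lit 76) (XT.nd (nat_lit 487344) (nat_lit 0) (nat_lit 0) (XT.nd (nat_lit 324948) (nat_lit 0) (nat_lit 0) (XT.nd (nat_lit 242814) (nat_lit 0) (nat_lit 0) xc0 xc1) (XT.nd (nat_lit 81510) (nat_lit 0) (nat_lit 0) xc2 xc3)) (XT.nd (nat_lit 121992) (nat_lit 0) (nat_lit 0) (XT.nd (nat_lit 80262) (nat_lit 0) (nat_lit 0) xc4 xc5) (XT.nd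 (nat_lit 79326) (nat_lit 0) (nat_lit 0) xc6 xc7))) (XT.nd (nat_lit 163488) (nat_lit 0) (nat_lit 0) (XT.nd (nat_lit 82056) (nat_lit 0) (nat_lit 0) (XT.nd (nat_lit 41106) (nat_lit 0) (nat_lit 0) xc8 xc9) (XT.nd (nat_lit 40794) (nat_lit 0) (nat_lit 0) xc10 xc11)) (XT.nd (nat_lit 80808) (nat_lit 0) (nat_lit 0) (XT.nd (nat_lit 40482) (nat_lit 0) (nat_lit 0) xc12 xc13) (XT.nd (nat_lit 40170) (nat_lit 0) (nat_lit 0) xc14 xc15)))) (XT.nd (nat_lit 244140) (nat_lit 0) (nat_lit 0) (XT.nd (nat_lit 122772) (nat_lit 0) (nat_lit 0) (XT.nd (nat_lit 79560) (nat_lit 0) (nat_lit 0) (XT.nd (nat_lit 39858) (nat_lit 0) (nat_lit 0) xc16 xc17) (XT.nd (nat_lit 3666) (nat_lit 0) (nat_lit 0) xc18 xc19)) (XT.nd (nat_lit 78624) (nat_lit 0) (nat_lit 0) (XT.nd (nat_lit 39390) (nat_lit 0) (nat_lit 0) xc20 xc21) (XT.nd (nat_lit 3666) (nat_lit 0) (nat_lit 0) xc22 xc23))) (XT.nd (nat_lit 119964) (nat_lit 0) (nat_lit 0) (XT.nd (nat_lit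 77688) (nat_lit 0) (nat_lit 0) (XT.nd (nat_lit 38922) (nat_lit 0) (nat_lit 0) xc24 xc25) (XT.nd (nat_lit 3666) (nat_lit 228) (nat_lit 0) xc26 xc27)) (XT.nd (nat_lit 42120) (nat_lit 0) (nat_lit 0) (XT.nd (nat_lit 3666) (nat_lit 0) (nat_lit 0) xc28 xc29) (XT.nd (nat_lit 38376) (nat_lit 0) (nat_lit 152) xc30 xc31))))) (XT.nd (nat_lit 364104) (nat_lit 0) (nat_lit 0) (XT.nd (nat_lit 200538) (nat_lit 0) (nat_lit 0) (XT.nd (nat_lit 117858) (nat_lit 0) (nat_lit 0) (XT.nd (nat_lit 76284) (nat_lit 0) (nat_lit 0) (XT.nd (nat_lit 38220) (nat_lit 0) (nat_lit 0) xc32 xc33) (XT.nd (nat_lit 3666) (nat_lit 228) (nat_lit 0) xc34 xc35)) (XT.nd (nat_lit 41418) (nat_lit 0) (nat_lit 0) (XT.nd (nat_lit 3666) (nat_lit 152) (nat_lit 0) xc36 xc37) (XT.nd (nat_lit 3666) (nat_lit 76) (nat_lit 0) xc38 xc39))) (XT.nd (nat_lit 82056) (nat_lit 0) (nat_lit 0) (XT.nd (nat_lit 41106) (nat_lit 0) (nat_lit 0) (XT.nd (nat_lit 37440)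 (nat_lit 0) (nat_lit 532) xc40 xc41) (XT.nd (nat_lit 37284) (nat_lit 0) (nat_lit 456) xc42 xc43)) (XT.nd (nat_lit 40794) (nat_lit 0) (nat_lit 0) (XT.nd (nat_lit 37128) (nat_lit 0) (nat_lit 456) xc44 xc45) (XT.nd (nat_lit 36972) (nat_lit 0) (nat_lit 456) xc46 xc47)))) (XT.nd (nat_lit 160992) (nat_lit 0) (nat_lit 76) (XT.nd (nat_lit 80808) (nat_lit 0) (nat_lit 76) (XT.nd (nat_lit 40482) (nat_lit 0) (nat_lit 0) (XT.nd (nat_lit 36816) (nat_lit 0) (nat_lit 456) xc48 xc49) (XT.nd (nat_lit 36660) (nat_lit 0) (nat_lit 532) xc50 xc51)) (XT.nd (nat_lit 40170) (nat_lit 0) (nat_lit 0) (XT.nd (nat_lit 36504) (nat_lit 0) (nat_lit 608) xc52 xc53) (XT.nd (nat_lit 36348) (nat_lit 0) (nat_lit 912) xc54 xc55))) (XT.nd (nat_lit 79560) (nat_lit 0) (nat_lit 0) (XT.nd (nat_lit 39858) (nat_lit 0) (nat_lit 0) (XT.nd (nat_lit 3666) (nat_lit 76) (nat_lit 0) xc56 xc57) (XT.nd (nat_lit 3666) (nat_lit 152) (nat_lit 0) xc58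 xc59)) (XT.nd (nat_lit 39546) (nat_lit 0) (nat_lit 76) (XT.nd (nat_lit 3666) (nat_lit 380) (nat_lit 0) xc60 xc61) (XT.nd (nat_lit 3666) (nat_lit 532) (nat_lit 0) xc62 xc63)))))) (XT.nd (nat_lit 491556) (nat_lit 0) (nat_lit 76) (XT.nd (nat_lit 248430) (nat_lit 0) (nat_lit 0) (XT.nd (nat_lit 124800) (nat_lit 0) (nat_lit 0) (XT.nd (nat_lit 46644) (nat_lit 0) (nat_lit 0) (XT.nd (nat_lit 7332) (nat_lit 76) (nat_lit 0) (XT.nd (nat_lit 3666) (nat_lit 1064) (nat_lit 0) xc64 xc65) (XT.nd (nat_lit 35646) (nat_lit 0) (nat_lit 304) xc66 xc67)) (XT.nd (nat_lit 39156) (nat_lit 0) (nat_lit 0) (XT.nd (nat_lit 35490) (nat_lit 0) (nat_lit 608) xc68 xc69) (XT.nd (nat_lit 35334) (nat_lit 0) (nat_lit 1748) xc70 xc71))) (XT.nd (nat_lit 77610) (nat_lit 0) (nat_lit 0) (XT.nd (nat_lit 38844) (nat_lit 0) (nat_lit 0) (XT.nd (nat_lit 3666) (nat_lit 152) (nat_lit 0) xc72 xc73) (XT.nd (nat_lit 3666) (nat_lit 608) (nat_lit 0)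 xc74 xc75)) (XT.nd (nat_lit 7332) (nat_lit 228) (nat_lit 0) (XT.nd (nat_lit 3666) (nat_lit 1596) (nat_lit 0) xc76 xc77) (XT.nd (nat_lit 34944) (nat_lit 0) (nat_lit 836) xc78 xc79)))) (XT.nd (nat_lit 122226) (nat_lit 0) (nat_lit 76) (XT.nd (nat_lit 76752) (nat_lit 0) (nat_lit 76) (XT.nd (nat_lit 38454) (nat_lit 0) (nat_lit 0) (XT.nd (nat_lit 34788) (nat_lit 0) (nat_lit 2356) xc80 xc81) (XT.nd (nat_lit 3666) (nat_lit 304) (nat_lit 0) xc82 xc83)) (XT.nd (nat_lit 7332) (nat_lit 0) (nat_lit 0) (XT.nd (nat_lit 3666) (nat_lit 1140) (nat_lit 0) xc84 xc85) (XT.nd (nat_lit 34476) (nat_lit 0) (nat_lit 532) xc86 xc87))) (XT.nd (nat_lit 75816) (nat_lit 0) (nat_lit 0) (XT.nd (nat_lit 37986) (nat_lit 0) (nat_lit 0) (XT.nd (nat_lit 34320) (nat_lit 0) (nat_lit 2660) xc88 xc89) (XT.nd (nat_lit 3666) (nat_lit 304) (nat_lit 0) xc90 xc91)) (XT.nd (nat_lit 7332) (nat_lit 152) (nat_lit 0) (XT.nd (nat_lit 3666) (nat_lit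 1748) (nat_lit 0) xc92 xc93) (XT.nd (nat_lit 34008) (nat_lit 0) (nat_lit 1140) xc94 xc95))))) (XT.nd (nat_lit 238836) (nat_lit 0) (nat_lit 76) (XT.nd (nat_lit 119886) (nat_lit 0) (nat_lit 0) (XT.nd (nat_lit 75192) (nat_lit 0) (nat_lit 0) (XT.nd (nat_lit 37674) (nat_lit 0) (nat_lit 0) (XT.nd (nat_lit 3666) (nat_lit 0) (nat_lit 0) xc96 xc97) (XT.nd (nat_lit 3666) (nat_lit 836) (nat_lit 0) xc98 xc99)) (XT.nd (nat_lit 7332) (nat_lit 684) (nat_lit 0) (XT.nd (nat_lit 3666) (nat_lit 3344) (nat_lit 0) xc100 xc101) (XT.nd (nat_lit 33696) (nat_lit 0) (nat_lit 3496) xc102 xc103))) (XT.nd (nat_lit 44538) (nat_lit 0) (nat_lit 76) (XT.nd (nat_lit 37206) (nat_lit 0) (nat_lit 456) (XT.nd (nat_lit 3666) (nat_lit 532) (nat_lit 0) xc104 xc105) (XT.nd (nat_lit 3666) (nat_lit 2736) (nat_lit 0) xc106 xc107)) (XT.nd (nat_lit 37128) (nat_lit 0) (nat_lit 0) (XT.nd (nat_lit 33462) (nat_lit 0) (nat_lit 3116) xc108 xc109)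 (XT.nd (nat_lit 3666) (nat_lit 380) (nat_lit 0) xc110 xc111)))) (XT.nd (nat_lit 89388) (nat_lit 0) (nat_lit 76) (XT.nd (nat_lit 44616) (nat_lit 0) (nat_lit 0) (XT.nd (nat_lit 7332) (nat_lit 304) (nat_lit 0) (XT.nd (nat_lit 3666) (nat_lit 2280) (nat_lit 0) xc112 xc113) (XT.nd (nat_lit 33618) (nat_lit 0) (nat_lit 2432) xc114 xc115)) (XT.nd (nat_lit 37362) (nat_lit 0) (nat_lit 152) (XT.nd (nat_lit 3666) (nat_lit 228) (nat_lit 0) xc116 xc117) (XT.nd (nat_lit 3666) (nat_lit 1824) (nat_lit 0) xc118 xc119))) (XT.nd (nat_lit 75036) (nat_lit 0) (nat_lit 76) (XT.nd (nat_lit 37440) (nat_lit 0) (nat_lit 0) (XT.nd (nat_lit 33774) (nat_lit 0) (nat_lit 1520) xc120 xc121) (XT.nd (nat_lit 33930) (nat_lit 0) (nat_lit 6156) xc122 xc123)) (XT.nd (nat_lit 37674) (nat_lit 0) (nat_lit 608) (XT.nd (nat_lit 3666) (nat_lit 1064) (nat_lit 0) xc124 xc125) (XT.nd (nat_lit 3666) (nat_lit 4028) (nat_lit 0) xc126 xc127)))))))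 (XT.nd (nat_lit 1092312) (nat_lit 0) (nat_lit 912) (XT.nd (nat_lit 489138) (nat_lit 0) (nat_lit 228) (XT.nd (nat_lit 242736) (nat_lit 0) (nat_lit 76) (XT.nd (nat_lit 120900) (nat_lit 0) (nat_lit 0) (XT.nd (nat_lit 75582) (nat_lit 0) (nat_lit 0) (XT.nd (nat_lit 37752) (nat_lit 0) (nat_lit 0) (XT.nd (nat_lit 34086) (nat_lit 0) (nat_lit 3192) xc128 xc129) (XT.nd (nat_lit 3666) (nat_lit 304) (nat_lit 0) xc130 xc131)) (XT.nd (nat_lit 7332) (nat_lit 76) (nat_lit 0) (XT.nd (nat_lit 3666) (nat_lit 2204) (nat_lit 0) xc132 xc133) (XT.nd (nat_lit 34320) (nat_lit 0) (nat_lit 1444) xc134 xc135))) (XT.nd (nat_lit 76206) (nat_lit 0) (nat_lit 76) (XT.nd (nat_lit 38064) (nat_lit 0) (nat_lit 0) (XT.nd (nat_lit 34398) (nat_lit 0) (nat_lit 4636) xc136 xc137) (XT.nd (nat_lit 3666) (nat_lit 760) (nat_lit 0) xc138 xc139)) (XT.nd (nat_lit 7332) (nat_lit 228) (nat_lit 0) (XT.nd (nat_lit 3666) (nat_lit 2660) (nat_lit 0)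 xc140 xc141) (XT.nd (nat_lit 34554) (nat_lit 0) (nat_lit 1596) xc142 xc143)))) (XT.nd (nat_lit 122694) (nat_lit 0) (nat_lit 152) (XT.nd (nat_lit 76830) (nat_lit 0) (nat_lit 0) (XT.nd (nat_lit 38376) (nat_lit 0) (nat_lit 0) (XT.nd (nat_lit 34710) (nat_lit 0) (nat_lit 4560) xc144 xc145) (XT.nd (nat_lit 3666) (nat_lit 684) (nat_lit 0) xc146 xc147)) (XT.nd (nat_lit 7332) (nat_lit 152) (nat_lit 0) (XT.nd (nat_lit 3666) (nat_lit 2204) (nat_lit 0) xc148 xc149) (XT.nd (nat_lit 34866) (nat_lit 0) (nat_lit 1216) xc150 xc151))) (XT.nd (nat_lit 77454) (nat_lit 0) (nat_lit 0) (XT.nd (nat_lit 38688) (nat_lit 0) (nat_lit 0) (XT.nd (nat_lit 35022) (nat_lit 0) (nat_lit 2964) xc152 xc153) (XT.nd (nat_lit 3666) (nat_lit 76) (nat_lit 0) xc154 xc155)) (XT.nd (nat_lit 38844) (nat_lit 0) (nat_lit 228) (XT.nd (nat_lit 3666) (nat_lit 1216) (nat_lit 0) xc156 xc157) (XT.nd (nat_lit 3666) (nat_lit 2964) (nat_lit 0) xc158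 xc159))))) (XT.nd (nat_lit 282438) (nat_lit 0) (nat_lit 304) (XT.nd (nat_lit 156546) (nat_lit 0) (nat_lit 76) (XT.nd (nat_lit 78078) (nat_lit 0) (nat_lit 76) (XT.nd (nat_lit 39000) (nat_lit 0) (nat_lit 0) (XT.nd (nat_lit 35334) (nat_lit 0) (nat_lit 1064) xc160 xc161) (XT.nd (nat_lit 35412) (nat_lit 0) (nat_lit 2736) xc162 xc163)) (XT.nd (nat_lit 39156) (nat_lit 0) (nat_lit 0) (XT.nd (nat_lit 35490) (nat_lit 0) (nat_lit 5016) xc164 xc165) (XT.nd (nat_lit 3666) (nat_lit 760) (nat_lit 0) xc166 xc167))) (XT.nd (nat_lit 46722) (nat_lit 0) (nat_lit 0) (XT.nd (nat_lit 39390) (nat_lit 0) (nat_lit 228) (XT.nd (nat_lit 3666) (nat_lit 1672) (nat_lit 0) xc168 xc169) (XT.nd (nat_lit 3666) (nat_lit 3192) (nat_lit 0) xc170 xc171)) (XT.nd (nat_lit 39468) (nat_lit 0) (nat_lit 228) (XT.nd (nat_lit 35802) (nat_lit 0) (nat_lit 988) xc172 xc173) (XT.nd (nat_lit 35958) (nat_lit 0) (nat_lit 1444) xc174 xc175)))) (XT.nd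 (nat_lit 159432) (nat_lit 0) (nat_lit 228) (XT.nd (nat_lit 79482) (nat_lit 0) (nat_lit 76) (XT.nd (nat_lit 39702) (nat_lit 0) (nat_lit 0) (XT.nd (nat_lit 36036) (nat_lit 0) (nat_lit 2660) xc176 xc177) (XT.nd (nat_lit 36114) (nat_lit 0) (nat_lit 4104) xc178 xc179)) (XT.nd (nat_lit 39936) (nat_lit 0) (nat_lit 0) (XT.nd (nat_lit 3666) (nat_lit 152) (nat_lit 0) xc180 xc181) (XT.nd (nat_lit 3666) (nat_lit 684) (nat_lit 0) xc182 xc183))) (XT.nd (nat_lit 80418) (nat_lit 0) (nat_lit 0) (XT.nd (nat_lit 40170) (nat_lit 0) (nat_lit 0) (XT.nd (nat_lit 3666) (nat_lit 1064) (nat_lit 0) xc184 xc185) (XT.nd (nat_lit 3666) (nat_lit 1520) (nat_lit 0) xc186 xc187)) (XT.nd (nat_lit 40326) (nat_lit 0) (nat_lit 152) (XT.nd (nat_lit 3666) (nat_lit 2204) (nat_lit 0) xc188 xc189) (XT.nd (nat_lit 3666) (nat_lit 2508) (nat_lit 0) xc190 xc191)))))) (XT.nd (nat_lit 733824) (nat_lit 0) (nat_lit 1748) (XT.nd (nat_lit 327990)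 (nat_lit 0) (nat_lit 532) (XT.nd (nat_lit 163020) (nat_lit 0) (nat_lit 304) (XT.nd (nat_lit 81276) (nat_lit 0) (nat_lit 152) (XT.nd (nat_lit 40560) (nat_lit 0) (nat_lit 0) (XT.nd (nat_lit 3666) (nat_lit 2584) (nat_lit 0) xc192 xc193) (XT.nd (nat_lit 3666) (nat_lit 2812) (nat_lit 0) xc194 xc195)) (XT.nd (nat_lit 40794) (nat_lit 0) (nat_lit 0) (XT.nd (nat_lit 3666) (nat_lit 2660) (nat_lit 0) xc196 xc197) (XT.nd (nat_lit 3666) (nat_lit 2660) (nat_lit 0) xc198 xc199))) (XT.nd (nat_lit 82212) (nat_lit 0) (nat_lit 228) (XT.nd (nat_lit 41028) (nat_lit 0) (nat_lit 76) (XT.nd (nat_lit 3666) (nat_lit 2204) (nat_lit 0) xc200 xc201) (XT.nd (nat_lit 3666) (nat_lit 1672) (nat_lit 0) xc202 xc203)) (XT.nd (nat_lit 41262) (nat_lit 0) (nat_lit 0) (XT.nd (nat_lit 3666) (nat_lit 988) (nat_lit 0) xc204 xc205) (XT.nd (nat_lit 3666) (nat_lit 380) (nat_lit 0) xc206 xc207)))) (XT.nd (nat_lit 201396) (nat_lit 0) (nat_lit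 532) (XT.nd (nat_lit 83148) (nat_lit 0) (nat_lit 228) (XT.nd (nat_lit 41496) (nat_lit 0) (nat_lit 152) (XT.nd (nat_lit 37830) (nat_lit 0) (nat_lit 3192) xc208 xc209) (XT.nd (nat_lit 37986) (nat_lit 0) (nat_lit 1596) xc210 xc211)) (XT.nd (nat_lit 41730) (nat_lit 0) (nat_lit 152) (XT.nd (nat_lit 38064) (nat_lit 0) (nat_lit 304) xc212 xc213) (XT.nd (nat_lit 38220) (nat_lit 0) (nat_lit 152) xc214 xc215))) (XT.nd (nat_lit 84318) (nat_lit 0) (nat_lit 304) (XT.nd (nat_lit 42120) (nat_lit 0) (nat_lit 228) (XT.nd (nat_lit 3666) (nat_lit 1444) (nat_lit 0) xc216 xc217) (XT.nd (nat_lit 38532) (nat_lit 0) (nat_lit 2432) xc218 xc219)) (XT.nd (nat_lit 77454) (nat_lit 0) (nat_lit 152) (XT.nd (nat_lit 38688) (nat_lit 0) (nat_lit 152) xc220 xc221) (XT.nd (nat_lit 3666) (nat_lit 2812) (nat_lit 0) xc222 xc223))))) (XT.nd (nat_lit 528060) (nat_lit 0) (nat_lit 2280) (XT.nd (nat_lit 243282) (nat_lit 0) (nat_lit 1064)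 (XT.nd (nat_lit 121056) (nat_lit 0) (nat_lit 532) (XT.nd (nat_lit 42666) (nat_lit 0) (nat_lit 228) (XT.nd (nat_lit 39000) (nat_lit 0) (nat_lit 2280) xc224 xc225) (XT.nd (nat_lit 39156) (nat_lit 0) (nat_lit 76) xc226 xc227)) (XT.nd (nat_lit 43056) (nat_lit 0) (nat_lit 228) (XT.nd (nat_lit 3666) (nat_lit 532) (nat_lit 0) xc228 xc229) (XT.nd (nat_lit 39546) (nat_lit 0) (nat_lit 0) xc230 xc231))) (XT.nd (nat_lit 123396) (nat_lit 0) (nat_lit 532) (XT.nd (nat_lit 43446) (nat_lit 0) (nat_lit 228) (XT.nd (nat_lit 39780) (nat_lit 0) (nat_lit 1520) xc232 xc233) (XT.nd (nat_lit 39936) (nat_lit 0) (nat_lit 0) xc234 xc235)) (XT.nd (nat_lit 80418) (nat_lit 0) (nat_lit 380) (XT.nd (nat_lit 40170) (nat_lit 0) (nat_lit 0) xc236 xc237) (XT.nd (nat_lit 40404) (nat_lit 0) (nat_lit 304) xc238 xc239)))) (XT.nd (nat_lit 366210) (nat_lit 0) (nat_lit 2356) (XT.nd (nat_lit 163176) (nat_lit 0) (nat_lit 1064) (XT.nd (nat_lit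 81354) (nat_lit 0) (nat_lit 684) (XT.nd (nat_lit 40638) (nat_lit 0) (nat_lit 304) xc240 xc241) (XT.nd (nat_lit 40872) (nat_lit 0) (nat_lit 76) xc242 xc243)) (XT.nd (nat_lit 82290) (nat_lit 0) (nat_lit 380) (XT.nd (nat_lit 41106) (nat_lit 0) (nat_lit 380) xc244 xc245) (XT.nd (nat_lit 41340) (nat_lit 0) (nat_lit 380) xc246 xc247))) (XT.nd (nat_lit 244608) (nat_lit 0) (nat_lit 2432) (XT.nd (nat_lit 121758) (nat_lit 0) (nat_lit 1292) (XT.nd (nat_lit 41652) (nat_lit 0) (nat_lit 380) xc248 xc249) (XT.nd (nat_lit 42042) (nat_lit 0) (nat_lit 0) xc250 xc251)) (XT.nd (nat_lit 163176) (nat_lit 0) (nat_lit 1672) (XT.nd (nat_lit 81354) (nat_lit 0) (nat_lit 532) xc252 xc253) (XT.nd (nat_lit 121914) (nat_lit 0) (nat_lit 0) xc254 xc255)))))))) XT.nil))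

set_option maxRecDepth 10000000 in
noncomputable def Te : XT := XT.nil

set_option maxRecDepth 10000000 in
noncomputable def Tz : ZL := (ZL.cons (nat_lit 76) (nat_lit 6) (nat_lit 182942007893172546468) (ZL.cons (nat_lit 152) (nat_lit 3) (nat_lit 90263623729873985653) (ZL.cons (nat_lit 228) (nat_lit 6) (nat_lit 178194260612057043540) (ZL.cons (nat_lit 304) (nat_lit 6) (nat_lit 175941008817902751688) (ZL.cons (nat_lit 380) (nat_lit 3) (nat_lit 87933626414131828123) (ZL.cons (nat_lit 456) (nat_lit 6) (nat_lit 173620159469923831076) (ZL.cons (nat_lit 532) (nat_lit 6) (nat_lit 171451017057404067214) (ZL.cons (nat_lit 608) (nat_lit 3) (nat_lit 85689704650236453296) (ZL.cons (nat_lit 684) (nat_lit 6) (nat_lit 169216800372508710436) (ZL.cons (nat_lit 760) (nat_lit 6) (nat_lit 167130443027744671946) (ZL.cons (nat_lit 836) (nat_lit 3) (nat_lit 83530460466818374507) (ZL.cons (nat_lit 912) (nat_lit 6) (nat_lit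 164981494962637712304) (ZL.cons (nat_lit 988) (nat_lit 6) (nat_lit 162976705485362183670) (ZL.cons (nat_lit 1064) (nat_lit 3) (nat_lit 81454604153308313713) (ZL.cons (nat_lit 1140) (nat_lit 6) (nat_lit 161044800744014485468) (ZL.cons (nat_lit 1216) (nat_lit 6) (nat_lit 160911772323768389178) (ZL.cons (nat_lit 1292) (nat_lit 6) (nat_lit 158987441681680800076) (ZL.cons (nat_lit 1368) (nat_lit 3) (nat_lit 79460955220090130015) (ZL.cons (nat_lit 1444) (nat_lit 6) (nat_lit 157134534926394754456) (ZL.cons (nat_lit 1520) (nat_lit 6) (nat_lit 157005381120330583298) (ZL.cons (nat_lit 1596) (nat_lit 6) (nat_lit 155160509726949587420) (ZL.cons (nat_lit 1672) (nat_lit 3) (nat_lit 77548443581192978154) (ZL.cons (nat_lit 1748) (nat_lit 6) (nat_lit 153385684236489657934) (ZL.cons (nat_lit 1824) (nat_lit 6) (nat_lit 153260292191767161666) (ZL.cons (nat_lit 1900) (nat_lit 6) (nat_lit 151679353830561072568) (ZL.cons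 (nat_lit 1976) (nat_lit 6) (nat_lit 151493991416752299450) (ZL.cons (nat_lit 2052) (nat_lit 3) (nat_lit 75716110968296717147) (ZL.cons (nat_lit 2128) (nat_lit 6) (nat_lit 149796441467732133376) (ZL.cons (nat_lit 2204) (nat_lit 6) (nat_lit 149674701618486991370) (ZL.cons (nat_lit 2280) (nat_lit 6) (nat_lit 148166159048634704074) (ZL.cons (nat_lit 2356) (nat_lit 6) (nat_lit 147986195540082497164) (ZL.cons (nat_lit 2432) (nat_lit 3) (nat_lit 73963112585498110157) (ZL.cons (nat_lit 2508) (nat_lit 6) (nat_lit 146365228307719209886) (ZL.cons (nat_lit 2584) (nat_lit 6) (nat_lit 146247034279325868132) (ZL.cons (nat_lit 2660) (nat_lit 6) (nat_lit 144810383542262054820) (ZL.cons (nat_lit 2736) (nat_lit 6) (nat_lit 144635661689298747140) (ZL.cons (nat_lit 2812) (nat_lit 3) (nat_lit 72288719014995841118) (ZL.cons (nat_lit 2888) (nat_lit 6) (nat_lit 143320302641488787850) (ZL.cons (nat_lit 2964) (nat_lit 6)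 (nat_lit 143090699405447843348) (ZL.cons (nat_lit 3040) (nat_lit 6) (nat_lit 142975947921570812518) (ZL.cons (nat_lit 3116) (nat_lit 6) (nat_lit 141610797460729015190) (ZL.cons (nat_lit 3192) (nat_lit 6) (nat_lit 141441164593774347538) (ZL.cons (nat_lit 3268) (nat_lit 3) (nat_lit 70692318384602190806) (ZL.cons (nat_lit 3344) (nat_lit 6) (nat_lit 140194662736938139420) (ZL.cons (nat_lit 3420) (nat_lit 6) (nat_lit 139971746973791591358) (ZL.cons (nat_lit 3496) (nat_lit 6) (nat_lit 139860337766143988610) (ZL.cons (nat_lit 3572) (nat_lit 6) (nat_lit 138841057834802000704) (ZL.cons (nat_lit 3648) (nat_lit 6) (nat_lit 138566411104478869722) (ZL.cons (nat_lit 3724) (nat_lit 6) (nat_lit 138401719000639386564) (ZL.cons (nat_lit 3800) (nat_lit 3) (nat_lit 69173418808780874871) (ZL.cons (nat_lit 3876) (nat_lit 6) (nat_lit 137223929022455229766) (ZL.cons (nat_lit 3952) (nat_lit 6) (nat_lit 137007505951439163688)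 (ZL.cons (nat_lit 4028) (nat_lit 6) (nat_lit 136899341672169646456) (ZL.cons (nat_lit 4104) (nat_lit 6) (nat_lit 135943127685124728506) (ZL.cons (nat_lit 4180) (nat_lit 6) (nat_lit 135676480374131397456) (ZL.cons (nat_lit 4256) (nat_lit 6) (nat_lit 135516585127685297304) (ZL.cons (nat_lit 4332) (nat_lit 3) (nat_lit 67731651115746708447) (ZL.cons (nat_lit 4408) (nat_lit 6) (nat_lit 134407479236658246130) (ZL.cons (nat_lit 4484) (nat_lit 6) (nat_lit 134197359750234881006) (ZL.cons (nat_lit 4560) (nat_lit 6) (nat_lit 134092345886866417676) (ZL.cons (nat_lit 4636) (nat_lit 6) (nat_lit 133199393703074344820) (ZL.cons (nat_lit 4712) (nat_lit 6) (nat_lit 132940512818614800112) (ZL.cons (nat_lit 4788) (nat_lit 6) (nat_lit 132785274715269071810) (ZL.cons (nat_lit 4864) (nat_lit 3) (nat_lit 66366771874046244445) (ZL.cons (nat_lit 4940) (nat_lit 6) (nat_lit 132051168164661027984) (ZL.cons (nat_lit 5016) (nat_lit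 6) (nat_lit 131744946117059561348) (ZL.cons (nat_lit 5092) (nat_lit 6) (nat_lit 131540946615677653462) (ZL.cons (nat_lit 5168) (nat_lit 6) (nat_lit 131438991408523805570) (ZL.cons (nat_lit 5244) (nat_lit 6) (nat_lit 130961799317549779132) (ZL.cons (nat_lit 5320) (nat_lit 6) (nat_lit 130609614975635766934) (ZL.cons (nat_lit 5396) (nat_lit 6) (nat_lit 130358274311111937120) (ZL.cons (nat_lit 5472) (nat_lit 6) (nat_lit 130207557705921909644) (ZL.cons (nat_lit 5548) (nat_lit 3) (nat_lit 65078666732972322336) (ZL.cons (nat_lit 5624) (nat_lit 6) (nat_lit 129533527357423726176) (ZL.cons (nat_lit 5700) (nat_lit 6) (nat_lit 129236224398587350800) (ZL.cons (nat_lit 5776) (nat_lit 6) (nat_lit 129038166630255401396) (ZL.cons (nat_lit 5852) (nat_lit 6) (nat_lit 128939180992241956840) (ZL.cons (nat_lit 5928) (nat_lit 6) (nat_lit 128515742991689079034) (ZL.cons (nat_lit 6004) (nat_lit 6) (nat_lit 128173816446141494380)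 (ZL.cons (nat_lit 6080) (nat_lit 6) (nat_lit 127929796383496999414) (ZL.cons (nat_lit 6156) (nat_lit 6) (nat_lit 127783469582341632930) (ZL.cons (nat_lit 6232) (nat_lit 3) (nat_lit 63867354092152726673) (ZL.cons (nat_lit 6308) (nat_lit 6) (nat_lit 127555372552287008832) (ZL.cons (nat_lit 6384) (nat_lit 6) (nat_lit 127170122136146017106) (ZL.cons (nat_lit 6460) (nat_lit 6) (nat_lit 126881478486790312862) (ZL.cons (nat_lit 6536) (nat_lit 6) (nat_lit 126689189391322400816) (ZL.cons (nat_lit 6612) (nat_lit 6) (nat_lit 126593086830144299304) (ZL.cons (nat_lit 6688) (nat_lit 6) (nat_lit 126224264454155291866) (ZL.cons (nat_lit 6764) (nat_lit 6) (nat_lit 125892296934206180550) (ZL.cons (nat_lit 6840) (nat_lit 6) (nat_lit 125655384252027059226) (ZL.cons (nat_lit 6916) (nat_lit 6) (nat_lit 125513319396536412152) (ZL.cons (nat_lit 6992) (nat_lit 3) (nat_lit 62732989116697245112) (ZL.cons (nat_lit 7068) (nat_lit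 6) (nat_lit 125335416922583113172) (ZL.cons (nat_lit 7144) (nat_lit 6) (nat_lit 124961387392349140624) (ZL.cons (nat_lit 7220) (nat_lit 6) (nat_lit 124681150839576612228) (ZL.cons (nat_lit 7296) (nat_lit 6) (nat_lit 124494462397374755876) (ZL.cons (nat_lit 7372) (nat_lit 6) (nat_lit 124401158939920288386) (ZL.cons (nat_lit 7448) (nat_lit 6) (nat_lit 124502802878537816010) (ZL.cons (nat_lit 7524) (nat_lit 6) (nat_lit 124087936445114657800) (ZL.cons (nat_lit 7600) (nat_lit 6) (nat_lit 123765637882057268172) (ZL.cons (nat_lit 7676) (nat_lit 6) (nat_lit 123535625569262004748) (ZL.cons (nat_lit 7752) (nat_lit 6) (nat_lit 123397698525096327980) (ZL.cons (nat_lit 7828) (nat_lit 3) (nat_lit 61675868115391891209) (ZL.cons (nat_lit 7904) (nat_lit 6) (nat_lit 123725694795184797698) (ZL.cons (nat_lit 7980) (nat_lit 6) (nat_lit 123271180882937187386) (ZL.cons (nat_lit 8056) (nat_lit 6) (nat_lit 122908045416690612096)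 (ZL.cons (nat_lit 8132) (nat_lit 6) (nat_lit 122635971093610487440) (ZL.cons (nat_lit 8208) (nat_lit 6) (nat_lit 122454720178851403600) (ZL.cons (nat_lit 8284) (nat_lit 6) (nat_lit 122364134297827648760) (ZL.cons (nat_lit 8360) (nat_lit 6) (nat_lit 122510407035908030626) (ZL.cons (nat_lit 8436) (nat_lit 6) (nat_lit 122107624090837003234) (ZL.cons (nat_lit 8512) (nat_lit 6) (nat_lit 121794712864567692916) (ZL.cons (nat_lit 8588) (nat_lit 6) (nat_lit 121571399939523747844) (ZL.cons (nat_lit 8664) (nat_lit 6) (nat_lit 121437490187906585932) (ZL.cons (nat_lit 8740) (nat_lit 3) (nat_lit 60696433300597688327) (ZL.cons (nat_lit 8816) (nat_lit 6) (nat_lit 121804950150180268830) (ZL.cons (nat_lit 8892) (nat_lit 6) (nat_lit 121363674507221423868) (ZL.cons (nat_lit 8968) (nat_lit 6) (nat_lit 121011115802127661448) (ZL.cons (nat_lit 9044) (nat_lit 6) (nat_lit 120746965973894530714) (ZL.cons (nat_lit 9120)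 (nat_lit 6) (nat_lit 120570994211992507570) (ZL.cons (nat_lit 9196) (nat_lit 6) (nat_lit 120483046754687891220) (ZL.cons (nat_lit 9272) (nat_lit 6) (nat_lit 121154193807115887458) (ZL.cons (nat_lit 9348) (nat_lit 6) (nat_lit 120675546612809646794) (ZL.cons (nat_lit 9424) (nat_lit 6) (nat_lit 120284495209828066804) (ZL.cons (nat_lit 9500) (nat_lit 6) (nat_lit 119980697902770483968) (ZL.cons (nat_lit 9576) (nat_lit 6) (nat_lit 119763889237679275162) (ZL.cons (nat_lit 9652) (nat_lit 6) (nat_lit 119633879770089797580) (ZL.cons (nat_lit 9728) (nat_lit 3) (nat_lit 59795277949748195254) (ZL.cons (nat_lit 9804) (nat_lit 6) (nat_lit 120557569384667548696) (ZL.cons (nat_lit 9880) (nat_lit 6) (nat_lit 120042639130800729680) (ZL.cons (nat_lit 9956) (nat_lit 6) (nat_lit 119614216176471753988) (ZL.cons (nat_lit 10032) (nat_lit 6) (nat_lit 119271926171526353582) (ZL.cons (nat_lit 10108) (nat_lit 6) (nat_lit 119015470027610692674)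 (ZL.cons (nat_lit 10184) (nat_lit 6) (nat_lit 118844623656832029430) (ZL.cons (nat_lit 10260) (nat_lit 6) (nat_lit 118759237775953761126) (ZL.cons (nat_lit 10336) (nat_lit 6) (nat_lit 120014555560524375358) (ZL.cons (nat_lit 10412) (nat_lit 6) (nat_lit 119464399035239519108) (ZL.cons (nat_lit 10488) (nat_lit 6) (nat_lit 118999693021349965064) (ZL.cons (nat_lit 10564) (nat_lit 6) (nat_lit 118620031465057168956) (ZL.cons (nat_lit 10640) (nat_lit 6) (nat_lit 118325082623253690478) (ZL.cons (nat_lit 10716) (nat_lit 6) (nat_lit 118114588773650575132) (ZL.cons (nat_lit 10792) (nat_lit 6) (nat_lit 117988365989583121166) (ZL.cons (nat_lit 10868) (nat_lit 3) (nat_lit 58973151989649129967) (ZL.cons (nat_lit 10944) (nat_lit 6) (nat_lit 118940321067790087802) (ZL.cons (nat_lit 11020) (nat_lit 6) (nat_lit 118440388782482496524) (ZL.cons (nat_lit 11096) (nat_lit 6) (nat_lit 118024444166629122064) (ZL.cons (nat_lit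 11172) (nat_lit 6) (nat_lit 117692123773478247884) (ZL.cons (nat_lit 11248) (nat_lit 6) (nat_lit 117443137225987314968) (ZL.cons (nat_lit 11324) (nat_lit 6) (nat_lit 117277266963095408900) (ZL.cons (nat_lit 11400) (nat_lit 6) (nat_lit 117194368049621362006) (ZL.cons (nat_lit 11476) (nat_lit 6) (nat_lit 118469947296247868300) (ZL.cons (nat_lit 11552) (nat_lit 6) (nat_lit 117935814747427619514) (ZL.cons (nat_lit 11628) (nat_lit 6) (nat_lit 117484643860156207820) (ZL.cons (nat_lit 11704) (nat_lit 6) (nat_lit 117116040407444755288) (ZL.cons (nat_lit 11780) (nat_lit 6) (nat_lit 116829682308606426670) (ZL.cons (nat_lit 11856) (nat_lit 6) (nat_lit 116625319347826703032) (ZL.cons (nat_lit 11932) (nat_lit 6) (nat_lit 116502772955528204036) (ZL.cons (nat_lit 12008) (nat_lit 3) (nat_lit 58230968026169509187) (ZL.cons (nat_lit 12160) (nat_lit 6) (nat_lit 116755719410771229948) (ZL.cons (nat_lit 12236) (nat_lit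 6) (nat_lit 116910879595478138218) (ZL.cons (nat_lit 12312) (nat_lit 6) (nat_lit 117117970677718393482) (ZL.cons (nat_lit 12388) (nat_lit 6) (nat_lit 117377173610864827030) (ZL.cons (nat_lit 12464) (nat_lit 6) (nat_lit 117688714882917275552) (ZL.cons (nat_lit 12540) (nat_lit 6) (nat_lit 118052866714404716914) (ZL.cons (nat_lit 12616) (nat_lit 6) (nat_lit 117485530026251790934) (ZL.cons (nat_lit 12692) (nat_lit 6) (nat_lit 117000158875467721732) (ZL.cons (nat_lit 12768) (nat_lit 6) (nat_lit 116596329151338231966) (ZL.cons (nat_lit 12844) (nat_lit 6) (nat_lit 116273687992939324996) (ZL.cons (nat_lit 12920) (nat_lit 6) (nat_lit 116031953480812205656) (ZL.cons (nat_lit 12996) (nat_lit 6) (nat_lit 115870914390625889090) (ZL.cons (nat_lit 13072) (nat_lit 6) (nat_lit 115790430008612251326) (ZL.cons (nat_lit 13148) (nat_lit 3) (nat_lit 57900137579438091228) (ZL.cons (nat_lit 13224) (nat_lit 6) (nat_lit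 115826486813082844396) (ZL.cons (nat_lit 13300) (nat_lit 6) (nat_lit 115905144679090001078) (ZL.cons (nat_lit 13376) (nat_lit 6) (nat_lit 116036317487071833516) (ZL.cons (nat_lit 13452) (nat_lit 6) (nat_lit 116220119854045024868) (ZL.cons (nat_lit 13528) (nat_lit 6) (nat_lit 116456712384019551702) (ZL.cons (nat_lit 13604) (nat_lit 6) (nat_lit 116746301808332284968) (ZL.cons (nat_lit 13680) (nat_lit 6) (nat_lit 117089141166286022202) (ZL.cons (nat_lit 13756) (nat_lit 6) (nat_lit 116570565876169275806) (ZL.cons (nat_lit 13832) (nat_lit 6) (nat_lit 116132535888527128532) (ZL.cons (nat_lit 13908) (nat_lit 6) (nat_lit 115774668458710184328) (ZL.cons (nat_lit 13984) (nat_lit 6) (nat_lit 115496650887022486636) (ZL.cons (nat_lit 14060) (nat_lit 6) (nat_lit 115298240245488774368) (ZL.cons (nat_lit 14136) (nat_lit 6) (nat_lit 115179263165587319034) (ZL.cons (nat_lit 14212) (nat_lit 3) (nat_lit 57569807843381433466)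 (ZL.cons (nat_lit 14288) (nat_lit 6) (nat_lit 115074828685432256164) (ZL.cons (nat_lit 14364) (nat_lit 6) (nat_lit 115128038343471779898) (ZL.cons (nat_lit 14440) (nat_lit 6) (nat_lit 115234504153426784230) (ZL.cons (nat_lit 14516) (nat_lit 6) (nat_lit 115394319143674899750) (ZL.cons (nat_lit 14592) (nat_lit 6) (nat_lit 115607622958382362672) (ZL.cons (nat_lit 14668) (nat_lit 6) (nat_lit 115874601979523189224) (ZL.cons (nat_lit 14744) (nat_lit 6) (nat_lit 116195489489737211202) (ZL.cons (nat_lit 14820) (nat_lit 6) (nat_lit 115724255362762386734) (ZL.cons (nat_lit 14896) (nat_lit 6) (nat_lit 115332187669432785022) (ZL.cons (nat_lit 14972) (nat_lit 6) (nat_lit 115018943826327050096) (ZL.cons (nat_lit 15048) (nat_lit 6) (nat_lit 114784250125232759476) (ZL.cons (nat_lit 15124) (nat_lit 6) (nat_lit 114627901493983908440) (ZL.cons (nat_lit 15200) (nat_lit 6) (nat_lit 114549761317271638768) (ZL.cons (nat_lit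 15276) (nat_lit 3) (nat_lit 57198361687565125900) (ZL.cons (nat_lit 15352) (nat_lit 6) (nat_lit 114423721378963113594) (ZL.cons (nat_lit 15428) (nat_lit 6) (nat_lit 114504738980950484978) (ZL.cons (nat_lit 15504) (nat_lit 6) (nat_lit 114639846973171772392) (ZL.cons (nat_lit 15580) (nat_lit 6) (nat_lit 114829163411154159482) (ZL.cons (nat_lit 15656) (nat_lit 6) (nat_lit 115072853717027922122) (ZL.cons (nat_lit 15732) (nat_lit 6) (nat_lit 115371130824070037386) (ZL.cons (nat_lit 15808) (nat_lit 6) (nat_lit 114945858991407758480) (ZL.cons (nat_lit 15884) (nat_lit 6) (nat_lit 114598414884789366046) (ZL.cons (nat_lit 15960) (nat_lit 6) (nat_lit 114328494912277038192) (ZL.cons (nat_lit 16036) (nat_lit 6) (nat_lit 114135863221467608804) (ZL.cons (nat_lit 16112) (nat_lit 6) (nat_lit 114020351493407943430) (ZL.cons (nat_lit 16188) (nat_lit 3) (nat_lit 56990929397760062930) (ZL.cons (nat_lit 16264) (nat_lit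 6) (nat_lit 113791578362973654792) (ZL.cons (nat_lit 16340) (nat_lit 6) (nat_lit 113846384310754364236) (ZL.cons (nat_lit 16416) (nat_lit 6) (nat_lit 113956044095008018702) (ZL.cons (nat_lit 16492) (nat_lit 6) (nat_lit 114120653534963577686) (ZL.cons (nat_lit 16568) (nat_lit 6) (nat_lit 114340356464112264494) (ZL.cons (nat_lit 16644) (nat_lit 6) (nat_lit 114615344855887315846) (ZL.cons (nat_lit 16720) (nat_lit 6) (nat_lit 114234696609936246218) (ZL.cons (nat_lit 16796) (nat_lit 6) (nat_lit 113930576373911260856) (ZL.cons (nat_lit 16872) (nat_lit 6) (nat_lit 113702718411683794234) (ZL.cons (nat_lit 16948) (nat_lit 6) (nat_lit 113550923624063550508) (ZL.cons (nat_lit 17024) (nat_lit 6) (nat_lit 113475059374828337236) (ZL.cons (nat_lit 17100) (nat_lit 3) (nat_lit 56615528468764133531) (ZL.cons (nat_lit 17176) (nat_lit 6) (nat_lit 113258864881476114712) (ZL.cons (nat_lit 17252) (nat_lit 6) (nat_lit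 113342313011523107238) (ZL.cons (nat_lit 17328) (nat_lit 6) (nat_lit 113481474243511033274) (ZL.cons (nat_lit 17404) (nat_lit 6) (nat_lit 113676470174632891976) (ZL.cons (nat_lit 17480) (nat_lit 6) (nat_lit 113927471189682867496) (ZL.cons (nat_lit 17556) (nat_lit 6) (nat_lit 113590146814325204940) (ZL.cons (nat_lit 17632) (nat_lit 6) (nat_lit 113328088588585080810) (ZL.cons (nat_lit 17708) (nat_lit 6) (nat_lit 113141067529546799850) (ZL.cons (nat_lit 17784) (nat_lit 6) (nat_lit 113028920220751008226) (ZL.cons (nat_lit 17860) (nat_lit 3) (nat_lit 56495774334701806262) (ZL.cons (nat_lit 17936) (nat_lit 6) (nat_lit 112741667326624134054) (ZL.cons (nat_lit 18012) (nat_lit 6) (nat_lit 112798117452838264786) (ZL.cons (nat_lit 18088) (nat_lit 6) (nat_lit 112911067030619528882) (ZL.cons (nat_lit 18164) (nat_lit 6) (nat_lit 113080614753773754636) (ZL.cons (nat_lit 18240) (nat_lit 6) (nat_lit 113306908770796902050)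 (ZL.cons (nat_lit 18316) (nat_lit 6) (nat_lit 113011646405724100726) (ZL.cons (nat_lit 18392) (nat_lit 6) (nat_lit 112790425083173162258) (ZL.cons (nat_lit 18468) (nat_lit 6) (nat_lit 112643051502959333400) (ZL.cons (nat_lit 18544) (nat_lit 6) (nat_lit 112569396892051359346) (ZL.cons (nat_lit 18620) (nat_lit 3) (nat_lit 56147169863002431139) (ZL.cons (nat_lit 18696) (nat_lit 6) (nat_lit 112322981908271145360) (ZL.cons (nat_lit 18772) (nat_lit 6) (nat_lit 112408933482219547662) (ZL.cons (nat_lit 18848) (nat_lit 6) (nat_lit 112552269551167111476) (ZL.cons (nat_lit 18924) (nat_lit 6) (nat_lit 112753115360222625942) (ZL.cons (nat_lit 19000) (nat_lit 6) (nat_lit 112498689898339010280) (ZL.cons (nat_lit 19076) (nat_lit 6) (nat_lit 112317116054612523914) (ZL.cons (nat_lit 19152) (nat_lit 6) (nat_lit 112208235172286512626) (ZL.cons (nat_lit 19228) (nat_lit 3) (nat_lit 56085976056362967137) (ZL.cons (nat_lit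 19304) (nat_lit 6) (nat_lit 111916491210841059246) (ZL.cons (nat_lit 19380) (nat_lit 6) (nat_lit 111974634840841613898) (ZL.cons (nat_lit 19456) (nat_lit 6) (nat_lit 112090972905956315918) (ZL.cons (nat_lit 19532) (nat_lit 6) (nat_lit 112265607060805168444) (ZL.cons (nat_lit 19608) (nat_lit 6) (nat_lit 112050829077746004884) (ZL.cons (nat_lit 19684) (nat_lit 6) (nat_lit 111907747931907336088) (ZL.cons (nat_lit 19760) (nat_lit 6) (nat_lit 111836238600928720502) (ZL.cons (nat_lit 19836) (nat_lit 3) (nat_lit 55789145087250854158) (ZL.cons (nat_lit 19912) (nat_lit 6) (nat_lit 111607791622235979886) (ZL.cons (nat_lit 19988) (nat_lit 6) (nat_lit 111696321743402834256) (ZL.cons (nat_lit 20064) (nat_lit 6) (nat_lit 111843957894418824988) (ZL.cons (nat_lit 20140) (nat_lit 6) (nat_lit 111667672609247478998) (ZL.cons (nat_lit 20216) (nat_lit 6) (nat_lit 111561963014756205904) (ZL.cons (nat_lit 20292) (nat_lit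 3) (nat_lit 55763368371669084335) (ZL.cons (nat_lit 20368) (nat_lit 6) (nat_lit 111308083283784446526) (ZL.cons (nat_lit 20444) (nat_lit 6) (nat_lit 111367971222685017814) (ZL.cons (nat_lit 20520) (nat_lit 6) (nat_lit 111487799429753160896) (ZL.cons (nat_lit 20596) (nat_lit 6) (nat_lit 111348885695929210608) (ZL.cons (nat_lit 20672) (nat_lit 6) (nat_lit 111279459160998515866) (ZL.cons (nat_lit 20748) (nat_lit 3) (nat_lit 55537623972207290219) (ZL.cons (nat_lit 20824) (nat_lit 6) (nat_lit 111105634435580880156) (ZL.cons (nat_lit 20900) (nat_lit 6) (nat_lit 111196820460382740156) (ZL.cons (nat_lit 20976) (nat_lit 6) (nat_lit 111094189786119368220) (ZL.cons (nat_lit 21052) (nat_lit 3) (nat_lit 55529994761303355356) (ZL.cons (nat_lit 21128) (nat_lit 6) (nat_lit 110909082155771592420) (ZL.cons (nat_lit 21204) (nat_lit 6) (nat_lit 110970766732839180850) (ZL.cons (nat_lit 21280) (nat_lit 6) (nat_lit 110903362329993846148)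 (ZL.cons (nat_lit 21356) (nat_lit 3) (nat_lit 55389071319273320818) (ZL.cons (nat_lit 21432) (nat_lit 6) (nat_lit 110809440724447930348) (ZL.cons (nat_lit 21508) (nat_lit 3) (nat_lit 55388118292557626577) (ZL.cons (nat_lit 21584) (nat_lit 6) (nat_lit 110712701470735637072) (ZL.cons (nat_lit 21660) (nat_lit 1) (nat_lit 18446744073709551617) ZL.nil))))))))))))))))))))))))))))))))))))))))))))))))))))))))))))))))))))))))))))))))))))))))))))))))))))))))))))))))))))))))))))))))))))))))))))))))))))))))))))))))))))))))))))))))))))))))))))))))))))))))))))))))))))))))))))))))))))))))))))))))))))))))))))))))))))))))))))))))))))))))))))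

noncomputable def vl : XL := ⟨(nat_lit 0), (nat_lit 76), (nat_lit 28061124), (nat_lit 152), (nat_lit 601433459), (nat_lit 76), (nat_lit 28061124), (nat_lit 1), (nat_lit 5), (nat_lit 2), (nat_lit 4), (nat_lit 1), (nat_lit 4), (nat_lit 0), (nat_lit 0), (nat_lit 0)⟩

noncomputable def cp0 : Nat := (nat_lit 516237668484664600479653784762547112501958791665803142939556474398651660105094546466306481978714775567627724755919732325238159324565458018457259918871564416320161720450497830967999371425846111459351424728377974183814676295746768762068710979371035676576166687898180727592893141805031906095943599772106282187598621827775098286271388321779604968152532166758123014268365122861817374443106239755439387253773116412360479889634041382180005111864114958968624032541822188067839191943375652124488656831981419798923540781735849722523042463453864014556164940994862951167358481572571085781260498492641547767306716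9949420776692181088726961443875820661883517349895490335851107207973416079018263998190028831540891300528495398820651424343567000120669686587735396929690192901824536145235516177290429560638071303498347152155036300545847855761953050814716852260183380563641216764553365236474193552626338509979520223383454376710678334147974716529942259310505828919676406004287860593280360732414002098436533366917433353326980028601629323598570781710197613590433145235479013521149125280561840289089704488869879106420411048178018076398316400700788942430131229317125299219899588954733989573264279504583873468013006646503371252875490302011471879782301990559861463781002800634693219563119947534315773462360883428504241827217816799888711148427397533706770335931983065974390041473449426668286302355571549254555884173861977097393887002476349461796771445297318456078847860286829873537084685727706269691872361515483867357754617055398065509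7284599434563551963068614414832180889518813359936778528684259348092685041190043101444982025482214242094392074988546645017164853397374925957377041064938382445216294010404124936656939672986993254064680344271467493535223003116360021424238543486190606898334327278878250747532752550812180024344997527409535166901546099930558538502668028315827199314500854850263749252427755838594230624864493063034472990459186402690866688538068584274430945397632420617358146877316652289018260815488460928155037463542641502615619778033759401766235456329848884360859338574865844405447636962993676455159839113895957610766634246873100269960929993636510930814558570965971880116599576131559329481422187147611603633004975537463214029231234035631055058991967135356451148310825961118126124378000830108170969147774030418226244261735197460162277900525797964240669033220087296796145324045282637732658013308487234184868114702343208747352275973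9124461667345884339105725962333046529244625732137696146445283574197243957472563810262386295672443237847090495895173314506484743026930594540085891025080856459907383301889328558726542610549641411627656141137538971212860988964914606758196368945266364088505542914571737430295587517635135719130681476639790489185736430193063899806548838890874910009959136009354336240727505029451838680645407750007818541406308476133837196904264351343711580889560691410122784608544635608499143208117562988816241237235393567266268584346234794178885396262248835291981318413430074487726436499662691801795053268721548906700587088239278258756951811718636291239795681174495539964705464118557002270502208298889845211788852340438597013396740952821094058267460501665204226474049645733780714752071169843722651575576887424059917344830986181155686749163110148380236453539643372277184469038048189994434768680491155718165395292818859895548000761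4282367607561394190304941705461921597260397974052823563556351445159819528721988526069289070506444352185101424550202503770174431116306288059347213063398588964452111227978274640519645005122856486439855561202883905003631209494834543761604369695124358450211508850054077181662709176580308362657206796940274211469809593944898309035883919632886547216771861937891130326753713359207644454991856610910405748601183170330008285353650504877690869737360288887736984889757064719181314709988942801042795231520411289061382137735468270700713157716467683506161102895960890745340003338613288074002643929127503872038624240067981747085967729710643221640187128353012958108601083316574220769741549896382548761862008123431887445018802809511020106192523689723289130437728717810558744315925430268176090322002390087369292536585661296211452924035868054322307943121421287856012272778371981414642461987936759815133523492522807124713030023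1187849197596849841745708927480185485642197971411891631347052253311151012869147921259771545788604503217209627149447138773811002443914506913485090810736430391625562180616126136302548729399633454726287400030012373607457832001136930351086196470720348164895702774434716426768868842853392225609083183940999185367683980418887619340039532107783888224644335852880204769098027915359945125502155416174942591461076023465242300462614039688301590757915190354418040025454715746662362606255345615134730580219641994242794555058070704519750844289944687223135254115251857266096786073346448812434479303507256846387016599940339914550600867416540357640385336789774583283309490211570148321174370286911916055780667828957218352295298100518797320338162911976080068801564524936314219468228307685435397655404234537376145976554198209994967226170099939219102749637129719269279279707462676205212589069915468646295835815655323414811246027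0820062974342842978656628102613112301265080119109923040005143175389242399004812466506926622471743846974426977426366345587459812416766522872048744845204346514316870737902142560787382586854068616844173106644485413117619647606374108320056098417881466520995220395816895602144237972967076865025035481516942818289511865040617846530911640956719578234739320249387659255288814015425662844624162973393111802600972790628615023819787539384632892350800379966811024383179589310572744951103020183620248009437138219476839825902475706268842028565655772034934229291729360795964946866732650724562789778323419034261788684951096120621426309382662587285813336382693246822741118216203018703335918511383068791226322789619032188143974839816528986222500306825508329873303118181322073403031255757771452722663861432826454740309777822356057489913138467105263103001751725276580417218559047444671217395023005487092328482850024367571237440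72517591186463925124532509423079688971099093816291621676967434225483057539534044483717270966156963240341372087140649560026333762863930386683894333305003008542609296274375288330892166211709666461367502179563798777014851471355398854370248652049221859785064406913703074328959301860007661775383063315168749282233909540818311821500575913789810360790525351159279294798148113487659864665218699307875666949757238949771902668059473492551616070839882191688079584293483138099696422364206313785617532835594240)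

noncomputable def cp1 : Nat := (nat_lit 7858856993020697362837968513232951255107272741526365405934617257817563868046999583267700211916507337398770477750589768502695810006554015575469860091806346600577735329212329725338835746091655169282780030981125901168981116905259034686923554552050501595309599014319076983174714308777343308564198439495676046363563396183689904272379822031491588511502001340387027719813876083586268558300580490807407423730977558592857454795811199867069082277068538014154681483570155231316369715865148274711179787026481897320033550250580320817974471334692988899032391452644351494251357416897110082481719906966500169995837915950860112079418332593701978705664107618000931582544800837538107983669598666573693907594532053640585692563826271990114550153376622172963355586538058537952894542171058699604561949273005972282164411266015094690418570580332187119017565310291114483640370230372383604933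4521201666273112469311341567406938025661876028824821621081947721466867979842556297541369313252955255985657392249349370283667812847495570044716908748068869649840738740351704342900971080527640331415374406695052759298355032839187268784610957506991887895436552121149989058162211353318388537415725670713832920274963721513777472022741482907139696342828111081285410434287676184875834975235754487198983318694856213250985491782161085875797351868543216424618770863831174652845842495928205187604020547774317053925267083833201732533285255338017995488272227800675606707213398031383440260339890517189031053083306955193493118879719005944211078874527856214814483733578309769221756102541684061423102076082596823786044945097099945855714058982030598058482317078178450270357523818795160899979906878566263756357735354298654355940266937425739578025209849034921649001419106289761482232810342278709731482429544755209115615940399759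5863617966667205567699457637812101677455551435043423124877488234582062153956813942235029213362916724160744151447254494292247349515013439646742497062496709300210779675147667202758430337108103298313133961967725191804492105852692979653653589568998299294354029469473489606214757095020308242526975766543597280774623214119836566357347780398806000939340422731084363204771269831657531725984860640063012057586514885882287950219845970788045755345508954953024092063671867038554950552187402039861432249451292908117434961165174946738965246489781814116748899011976414761810090260397475241213296124096557930480637598306911913424480173103651837002903318575094132137254967455055931020689148257329741766836326733051590827889117299036718843692214370491794491801728427625339788539778779834875934223752551930394499416273370147511230814027593876144613184750215255117265483063239557835598081845276268691654072424393995669055693503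1908959609983923626050047933961960989276211753878985238683357711434976017654235600846107089317037205575592653559460964180199317325679946530517129321215416284171416443203223195721403277718903043974077748356025137558225688748281895153971620081330208180630068346787618865645411278032014963718478142669789152520953150105407320882552272492090465342201967652559606325938349983287772807362557892613721243492495368447764915326122001020849806317800726921651302114921896152093144443652218241288590090483803781103144517089948944865249431048800315253323746176675618249447283303114669627913949239825138987963563708275565788125843666003069986532289915645491152873753838680010360859321447930752097443658464414439379453282039845679137780653865257771487172377577313408669389422858177122318252960699989301078030964076289424701014678892348161705970436429035026409819610438131471905658014970952889203171672210397479059655105792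9716073244229552404354103796364416125026064788825069606486741113722953834085009436084989972670582640794845662994928705765621498536019237840289867132247718227592095200645610895521468869153831142505310908636114895939429417076548120626472153130131315196504174716731987154991781400118721766413181838784866241140354459474955988744859093096220724196111668844694990089925368299594838108992095213190905864513345524473985851764922474911463633395006441842619666579072861541489747884163406215162542982551048424734647487134397787942735805824676526092915014864022416553754937623536292175724611410622999535894437534018063912992534709909260259507127532150396399875350528496468118138448204552440052305078067268001789158774404967013143221263041836448553124128298117904505504751375642896680015106916783235302656707163724977470395244341330208379815109338939979670108193120601971609803224881587426427410586543327320037897228008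2398253496181455958016579999096892205662184202636462797388945619937900194981658939116310410964906590406155218388361572500444342535784054245592091274759547551154817230334424800522716834433904146305355122217665498897849960771371943697436334828613176151390765066598508284025542578963927239536447885700399529866210227325452135814351978573671607883842987988680299466509123606284232568931469432709583482968333789572718029602792968953251643158897239690321401352111660407928946760458709418505954092701338284045721381975614744493145387755311668679077600033541764361435816040902055466978066747872143197847274590754253211658055451023418613347409433162984326288171221701818958787289978704224215559554226818367340987929675874382908858989532492004969004755447760730591928754458154231476638839061568314167469725291921317458253955570911612020143148430589122236948170898766478363364142191230827661754612092066862925251014408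22345723847705440382659521468899287589304749060052253048119086597100664434698173289144155895575366082112330197630920678426608439699608508156708818913259460951646263604756937602535324519342205984603870801065545792141264611397701102005234697428114355646715743142513465016116707245936397548810914944046449966541885251656512124907545129070472695692675295883589013922327118733095038674050911301211583786353913819702917300727896009486709524676378181545392039520202564564754048097043660089308329533831620439766453112967218193005950050299411343317052153914656882781411899521521320827222146344203961271090868871943311605023635570548587829477740386955962524918425946694717593374025980959911249737084212936564427168166597702300000669577384657536304113186572730934854787769923248569313919236282372119569735775051840731713596338355709910776841986594897142172198925980282211836895573559000089881440957153716991405637929511098124570017129564825413276910412059337185622766501913373979851390496253732962629466674478525276966664389161531423777078400212314612589558384738681220138337990143936968329244944749288168543366301597753064145086275515892573551984640)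

noncomputable def rc0 : Nat := (nat_lit 5118497735922985681326677870022418825798774793494617960956181456865117751005951020907116184438499035065670145076704778758877082676456806241983749001096960841683233742751152390127152155838625475273588825314787612816900788564107041089551056760212353357113761490768648721557252798691012026732824786650167829251586218235911668546113970612475722149163400598696620833259959963461756260360687504747566318009693571376976673462884988186919924430045767448571060815728887155219835481902443982733152167326509009242295502543839491217381686447525079951136392844354481976856115422916198841859903913689433618902607269149157129987272603351217850868007338339107011619673984482436740681533333417015849302834353321126547299281989989225428600836878962737774002658384296147522973677850272684507338852028585908787692911137835954607680179645307215252323141220016541835059517245640361924818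7018922570412074327464996743278052265005308918843192283773429691270589256836192215199205164995576169609034321167330085490496704525649882747869556097964708961953530109295266277598389113394533503247245499851811826599549897915257573948268703787913170413962129368176980911107469494251344211092809446466622261232535085656742082982412784074469530715877237976430714668993885685110993566331891753848010847740397910244578648699939072562913280977437205382014872620118426096028560825439503860020691309559984755392977580707416857690978830298672237479906926931976997144560701106190574938200215448899517963190471234985421285624772355676619278476772793007399453398840193741859994137777200140362658976885736645280914173322957211067096598216592676612507050849428724540319880788969381514959937216767691471580140761329381478737967091172155567245496735843316647418216676642171964832540371309063554581060342243904844886275670575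8009938949195946064763739058600129673880585993805382059301004407518048185408665548916615680738517602112447018785245896251163308666742724342339879346342806934021748238671108786808921084918417769591077880100140349073067049606632365575355733472481742402211424694503924287102673888815937284321944439057042338779225923248559131186037127901466983667498684005317938075599419154926081587498104808867336940617590294035454744372044643136661884008377679688525886162585751394320853879670954266560410676777915534677640054336981887247318640170948126085093447745867793076458918748905782372106678458411425181684285891646293273928331178218815186697059477662612409269103468385444763707282643804337171749524770517777079747011186618892360119403546941568216808185863961989761469202482955753205784700553767101036875400542199653348315759347277821002590704346494768794211180087906183563914523322398135140825875192382937962927380979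5560577132292934463250652900352255606989194079666709224453275742994418823795662621513870355400267885477687955876629513704665263632584271352694337893697457118723160412524964709775806482734822115220988917084743915852742258706446091706735384618896763957758835398266319962096333387889021972620444204230358570077626065087464759964147748608402435299119474195131274654856963643975676804814598561287533355954775746746007487472676624294530595522062567263241449303475515111523662285366083501631348841355765750615750764630470845258973508764765858734752253970243179619044950650385463324094355785181929460728424640647711643955293058862253732566424858601860647075635821206306123152574959485724480819936674122321586668293631300377276629627463873261887009168890913664303346658886123918922227246027862698904790619515340304204129141439810975246194401831532352108693935847370228219973860649803647055518227439530351886279029439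1369428842435959639030945201859204105039442312052389345687877670177344321872724513959563172380398426773813944920856117179814370657545914299687626639702381818783741970901102840605827248631748922256593642977630065570505923584956198895705088001751998257771972243503502044917164840372315679034663242315858737549889575589376910682578531848380732200968938977110904880817669273281566540209383166343102959158566691730727968767169082646218714361025572711490371392097997713675738855872780789410775415527318917023520031080210599020719437560288146153218513198071160062991787756791925578973730083092398587412569159998651241380701932440763256064206976848223467329207998974568186026309044956827535295348056340479613268112779415659328353289038535194457083103421070627993605409202155652914899388886252123762763299416873821654564867653191918483633208084270585159800160258901896790721377526187151854678963946646490111108232239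8429481413619201325881686309640707334377407730832408148666337983507184714506995134909696324490879920270040539486295933149968084107524158547488001268634241318163889771343311849961811264658361898563760362022035405250690681335936015549839078521271152693857115236493470929416662405783100941407848500051189995056296122893912811250128208897028499614567988657503890742510679294540575869144984430047297074677021163476965684844981439030090186122274464324536585107532665794794754652697886402943372018368050586927703049145015206694477331544247692777334369466803992628435267710588613948617177950257544150387434678097700909783970973960364893587068601694010204046109612896351785994462341617912874997624220718159272505103477133801560113247834735079290724394364374772675567887994080139356253735094397624864629021362462507999278347396700607272979205450261675715578994093176672754886989267954077015789490053704294963823361757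13077432273695113870782442786763731951757593601164688430177645089887907505002225897143187146986536053287416542373362523109750175313794870201677266435849187242200622101821030419294299315319171362222535591068264718504542788679611033167039474978082700881374150205243492896685785462472986475233105028005354048475460811395839300892930202001357887068721873267348659391778670071785025580159831117534820225765892401120618704326683929327272157377134102184464403411677657157148220798531876178935325629731342532419250379220333995194644200349197755966078964370583036542914575222932648207263504123588270642873406111677075281112313210357187661308585961809953609911558231374444510966942548524805534613858808789714257831679783646688898328890085347504829500811762904878161121837795577787392616236534641447489077869923137551952754796884959348032065601277279799790377122143898847945355539485015005630751345823934007438005438619019350179717176013989747736650813070663202594119012705029817363576102780673601451934101158501120661034926717850669572843370189135614250334013411961071747468204736450982839078936990624298472090755028034305738189611807381434576928768)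

noncomputable def rc1 : Nat := (nat_lit 5335765241731070373739435469755518228326187938716480719012786082797406098257312125541699453326927484247541264880698082500890142511187336585413992609009147414550891076801900185055030744642168883591720327770002780762786328811097513792904881650922305777788455808522451978284957620757191461677908982397436161284342415676793661172406257256747230452857431319047943698115034660712803352386018376241422131693469146308593939250878302818444118539214827022824001122007045995366738492383597352073180859178027400061146858975736835172165477658243809521919934043088680495891856649135318723239771410240283517070876625203403726832874120711627968764837351184430696314467679188621128253290251706829707733734816629853853466765479535405393711735134916413182901120543725085478423238396998689093663521069947374829766728986555612154443522061082988199949083694701017596802082265401914719524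0925902391422145814047802689820336023332204533323280598328472896542774896020387444019848663803059855479849904697933508997569833561885224860203030546871842130254541032795176154925989539952634070646097181998640570489374521675314689410822467508202805285445137773291804877629915273990398712014503720638398578666692399312217174733966698305209297038319467911271142228058204013218872634834537523908166989995319243901025285035087326993145061625897381871695562199132369916656227217455339646116303573031609204301653598692416211456340227241097710168327525344598791821400606865371254739061217065565427440928046976512130741505440152440818380863573627170281977455481724927663662973805835491090890954704579189706377416313730344621948927473170656615869878427799303682874642897234313927427020143497971709519020097494646386453830480575385202017437521244936465624705194216253580701389221965329402024639566620582005850618192484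5083347061949880495334573711414144423446317749162484194991582827579974423877631778896784235459206500512755953302540950019244530968500299748695213462686747461640438835833521295838972731675488403586144468534271464701493036821408977928454160807108119674628476658123012164003469468421848538614004266486591786524408402962858197707499607824658831414133454173784448993538173247290615329359455156833959462350935235413212301469710760330767148591731760181385829847695883222729565077786864698117486930019711071570798079914211142784207550905618927267889242871294152208400472601707170832790734139453931370961946603077416675231547206415777998229524952666040537817664828912326861318474261673450885628500581685078993670945113888689598096522613298742419904782812582478825429631342529348011104495822450461857619225452086287382214583088318378557250311173216062458825628355871544484195773466360286886290407731725554154544006073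7759111479756187122547959284170147698391468155598503406084722823593364064219753294690876011540673582720382670922824613490873684728864361139164685564978404505029403457035075097212575872913463722568759597921857174580089433554130238721194565663328929932499223450701558300205427252922101722346111470494981807767506881910226692960527221970027147780557862820688053466764136664655350201580593870426405484188039209806852474256440042390789412769058692725019247879993660338410119508046536028878431809943794152542502336659101461637703033148976673432046723827802383722388245310734076059413800281637908385204381683191378333961723402770270321454490605303453892507084107350263995787869314835939609815530114312403433133734507304589650514780725720061705998948843967474039311419798152836803903291383396594413754952444163670009634711294670082849311147449882699162415193516997082529066045568164503970958362852535101941683437095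3399972197683007214277317729395231062519266402911330218933776806745210076955635573510131749343739385328927657731836186500646745691115856305109755731282813229061237262275479261160026563467892399735552414194019371181900752656152466681432430194108617197142346374083945002571289399070346780532137772400232476802080981635799748330952120112236352589907759591736805382586053553180242345291620737250071820270219661942256820976710283628188776003338261589769913291904409493750562763642154170852286424720809394835079620974821527658748487696039065906818729706484847500412057811060479038668296819538146152502791427319326618077552241924092486304176974467615320727780112602008739654968464881040521742780416004686593993872296435516527694295067712650799813499895177859303497288893598305780452215558844945846465089725345883900930558003467520504653015889555351248386677187540873731925749243888934575163193550500601509147565227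1065742252885631668349919243036205980388491088260852666726706622965660227359867345426871637767568513796365906521558781833428809457872334552009351384988724837066119015162046839737868600192421203994060424169112248341145610104709851782178711173475427994456312879068941700554887112900327743855413080546941907764393938403276584842306922373203691690849042236651201356522881140209856974467744877257582881473208945631459353840064845862489490657581593159098394206954051701804250451926216851659419136505511871173237419274404110525310323759913453978230874932500422940245628332409871238329347749947608142542125362007277005649209188017196199584322011110862599395568771325589829267301339255535535624402085036021995697553544552087229488119352452586014822020035513032402047423502296559777191544610457359496080565148989281336836431007170895876469380831393188124112233368540792776510275143009251288665452426876735500949445955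63467341347830843294343215713634679193583816744855192126842769015485146568057088937323862472629051308104625953583885629801646062576145120950120424247774252558945019248682288546061801748487687190134065712223114383351318769511519831367778964454872184094485388405152495298077985385178730479764166087897679354910939113910479992948731432834223364642674709052366502539451249604259161454171537052211382068404699478357091851460875788122104041669511236906335278936721591164960148752643842399041168058627965143638784140022739885010279660535255230044755623183017883010085583170269623077603857413143063154256261073386027942243393652606279452238725926996164413220625237364575876107125719388749080237694119100043296211468934982899150774186438894797692650294766069404449485968204449181558957597523187333274759684798140533239916216926918243412675254940098440808312845749944351762487148199851530780799610212892732316639324205942052878239384832857871097449370158395639870871205113292893138753917814288495350828801038448275461259240482537391611789165706746258247269997188345838314624114054799912706302764693846228233874583698706040654239404818235056824778752)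

noncomputable def rc2 : Nat := (nat_lit 5563150490206747011601935166411117996702623152464184891377007725598553736636481032005219455612655110351614585401433988982614568684997309432322981470626467557221241970745330733716902607191606716645816720318714888545249226819555317941524419965388154769547278630258393059551684393591440365914779990994888537351809903124765244314256172109549553682398679298240951028622757553796960421897107026260461373318837225127006288232472690446252332875509945169854586267711239167707159654963472370181308573979325043969219682925345211298740998731103349774970960514126550834883401254224483575685806960051358328680449658666160819706778774122894837037912218962543578992118528757126125605031119179508637468928716260106500580868475439741216516206203986664744830577725462757603840572857226623394143749159420859802130582676567376155256665918399508033220332086660773166827131223733409157991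6938091969333445325321033906628790658562148265270406546791632498194412456850767953876908519080529894229884035007428998950635978726055826255724075545106481646147454834342415009520726180434658174422482603792613674989041821497495451947204448972218924877983157668437963089294737730499742291334406474084068708815143076157752042283396003799065928319035747635946780135600290884869858676150673022278026371319242159105249441800477763614989934059449424728129354546146888408015169039582109523117154800166684186739715758198705468432608998059098795720417829464338266118913434980359265157211258331282225017982541890498570872458955662492403184454447198330694919531544531861409343693316916387610865849118576056987857684860007699960739511331572257832178324571916220657535506672375045551955881152640276334884289837888073429883780692818098236204489646098303408388740224650392398511324218811562680410456214859401711299859473370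4157075115487881625455972772127932580798203631943487855629235858048801406735194134775762346008774472401018661329894570081389891759422281973233863648597933620534435064248847905282265154823529794698856035156631950699279722469364225959321842626701795886539213686614002586888458022489226768111287136009009722424938244830254649687102237589647731231910281598138116198621513656540586901237492205379289049151185291442526734492560053199784243812660918749245921570323817559388002262065596924175205805258923602563505543770359145137174849017600407667837347475893402179453538051594653372028863692489665967996462595547721981744853055108077293888288959379993595774462434672259989067343404600402441002939047674882282268359450076687451190856722825936798775694862661807924034855570503097405880732175231764973394224173907455098550233789535156788749781313154767930305666179990918320808985136244155808623390910174122090868471404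1565529086235425437882465358393649675421823662236656058327531405015028049333304720272179920051008704048855513627194302133946643124340054721590730471026855245196103861967307892227341921821418494169246896987434579564327821828305510456637387033100131797435625259783954974929860206329715279322899064093190743830812466505837042676089268436427480844048117697524854733380269157870875316494768514988545269100112704037552733564886514987939186936866382999797261392206596378985349875334238040510652648747983492161259036496069884499667335134160709285285069834159201524433124754139488632944848570908029464400057479413800953296911932268913724760372809676076583485533512397755203195321376748741091249027335509598917513238890864175421528069271367030031991636676350420946556978633999498483995289920892829979787674928320095908293775221914642191030030453271298164852112182552232888137035500576266637558247923743608315336058684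7228770722727339693683451083775793284098117992257098778816623810227693506193185216417376566032853488351109840960641038778098217447878836187653433858371224884750358715288200071723115269755423067910523692710234445165573899746457966530048085409722694565882106244675085111534178408065038623526904717217012913831214943312116280868257979209172302722665201834118613075978561256367828657377082623726816075228430270566606779241634998715181971036612999376495554774457070132297640478637022898405842274459771987573781862369837886881499690658808917765412857283448361888560180179808378799787197902690008646369945873207945934601190204761488617279128441370006399346400677584956385157237956232412744146183885248115392421205485325561051413196208777795585504045165860547049684438669970368889620508438308570907251386163127364422053689595903425824563609118607499020080483606158247597026233405991536111129724284406147778855089857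3455386673416609607452613007444430430442502620113255846100798924132423615813679164530055390872434786449682847708289252570633508496999257169275819042378570812614886312981599759528899836783568312156142613893878724839337507790255050747797818685212889838829964036385462224661097308405392949255948671511792753743271383352962844040641602604011700771920710045645142473793073161857116298560921543038494738701630777972988294085954507520713910452349080010662670649816410690553191638583362811969609761321692390810479871805506621533548160314105599923834465269764215719048737885812465624541970481750193429494763468099512228255646220328465741279652700775005018485696613061534693427587672526865110019724159092591980037087031172968025001910726631213296789269950243149933097112668538644457655863395943383361370650776129757175183113811829851018940546217159106065980968244655274765458307112550507371524907604983461395415929133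99951257952383459102404489756276477291216298702903810195751671325509388245614210390627923630612522148171871681412516505891631439594356619679762571837198376257405266509222701751315331776996985484640082641322958397052879957927621376560189348185910302323183089020207928083084949144941059078360711653080488096656467177831848193103523120839192937653939262711771912929502523494598403151071961702662785263972701415229239933819600736394593832094715248774974052896866420377179949174685036418175752960909081692248718338699452381652926203292282661570989453168878202464076372520236882727914905421672183365537067483400074152774191280969495689798638261763543117626276651510869079570744709259213073567293881973740552323272068866001115550766413219420261529275114904390027665992783006226325713729217259615752779452178273493140441224928191908239272605788581701944013217083199141132309322130142749641581327631805328160511021777779583573252697129313703421694921559698597534282191856826803777055337060576596706384843332818507006424594278122677952281867565501897323674994369289660733694474964274808222363649238691721183071717816041170981635870038061680844341248)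

noncomputable def rc3 : Nat := (nat_lit 5800526782928315590698078061655910602540839592680501642824532522070855091261910185239396864152178922020241257455252442881415723785238291450102621623612138855839356519198715073685963843549184097135642858707801270594193912576853436647198420132830804969628131712369549612546513483979354623572446239843770046872793845565602101838032341464435604617053997504645615790016659662150666441128330234972889380489534779144644381463358699896593705570897202899945477297453950113322880928596661047013232848424905037111636791665135102012463319608268307705703205513186423049097888792480613381949109863586556227273304711294994270083035363509983577969385917283660387364173352112781069341730044517105603356860581169763343730907353048003826882659411812284689828938855558189496386090184825619877004589463463366878084133481030750017142285133320798094707039100790055515019521107615694240274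3852123373883242007559344459757000750323970201483763672862778836634937728591579490165635881665220484437283786782315171897877990346609963749840186404737860561915297747551360948705000672220939153645181499467930635651366376542175336283423869206914384476141024491754608548467074419373748804074582172809526987863098179290789062883391089600332856837672594195319849722188963595268117712599054427449417476468838136498305896474362687259528695932752772859865132574949904543991653170303942303799185479592280542340160408219128409205579439929691760578299616941210239659816148988795239610682169187957025726135042467108212151370977733037527989883257173926617883032914884765152920978009786628753451689539299120041875448140619179993058874689022258194476726987455661670716621099523721320554170509482774119753174261788343807937587228047014605268239076780213505736523972695841637743454257663843916112142632826315991714719849815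0219334156495444571161873453364568226040625481415293473931959592086422273883081953029037671446302625381627276766220929143995603495447112525693929775761806022827283619853543047538407525207939384065815431348313839270192262421733612411761446224027189885413940443951579094740819057056726719525425143865172502589604235732146649319901426685208479578251910135309998621647240785927178640453885116298543887235953840726852064967753993135134576834906761753382408243719343515784391626912149009201201030711525271155568454943723844655277954418704322575032532386393160946295180671688127548162909681072442880003638706023275039010532275168145145877246780398541906194009665245561610200462125702005550008227771020832464193545682324751848766265216165807519111276180161171252229764830178860161349465215293499723319682103995000805289922497205002016635571424976939210773282507231301515914644180167012554521583636631119769259259304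2961467385779228510014171178104559390561348171299068581404130400162856769369225086510886002041160271788339595821017618778637879886662287195952436838738648712437861477650505529767464390932480047030588773179934282553377598134018766272598041866179648430538352330143009672641788613416858256080001433777764721504222508021165247477157621239954300636196103941553310239200266257849316696968465537532336612437156321966205828844311387141918672953351544770296985800418379291866569983619648880077184332479845866456764312163640996707120219199384088662874997380496959483337827786893033161433289097327923160986581548756767890809006301031250692472019820886463282972249465059948206661060829329394855626566688528112189751529464641575875813723129457300824609594515687144260753461763654748940467786681391712202314212476475660330128756189107586678889390637333903477608096665827007398541937518586212801156133161646880880828357760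2866140517473726474501078580560212818531702258729843668704810022304525546201348232380700725285581199678704595830572671456720730984186495003563027979230640895892761153877273835161658222754112352248814332082524109319443458330173891492799465091548067737436943082368162725294851555228740140089060256036479615795020770398597827176664230725503303719567512401450670570679754282112290263545409460288999398162171635327046267575361865968210968239501761099012848394836746397106544539946123002804405360782901127195556179473420632581263444639667024675801849851808696089946686284756558229101730596294184291710962202465055985409483410003647502403085356584865310325313874505663502991963323980576226202673425852636457422953100783182033494996757034039692056413058251349183096387174514933220297061044288261482487771354978159437973068476993395403992933405423980565036173296425181018480298515348410636038747689867070396670119431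5814131859155851559017901324662774908784423627431496943758107917317192413886045841819273792257543703213826960306665219762317004878743266779500753191156204553713996222000136764009770043723791342855128635869493216705960492011881316770103043549790955348122478355462921377146493553780581708234887940255050730698303115408315392679782940370654116386467706013382275573898166116004435761096041189619742154752196611587702751326739149714967022646684158264021973350439356193111521279749425316326833373654318608774955638435232797893432841276353319258614053319184732521328648283700138486119433577777528450657532896243610734233610506885651032481335540886375975734881424687224354849701328421275009977106726762171455433542329847744862454402812071070443866203888882531921205217542007450072591869287311831077970574837905082741312530700035867959179772281837270061716764688030186212401066002131348514000721593162540134351957905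23749174737963209162667007068776365571959698002232105848287893070248162696737377583139218892073280848925179473763333418612090148587091886000574355366427086634948862745766450100435475227583957456393620789135871141410176626139642352832559596517948644701090387449176168419981579720708109752025133388797961692626446746306298131435134933670334532885802630652032231605096155984187151244244680587735843729108369703799399092680802100943840707678082767015406486447594823103760119407841460757681395698790909119674542771170349839122406476373976568504885602326657132307738379585406124052828163882592206217552691722793004034788523056243968629845696107795397055131673374909939714275032839080220312345644754821948872446923673808821210515238907448822076471073712921594816542519263468384967893729016193310590239566704549897167667688464408770317831559493283003106311992219385211925493693046923946601922040092974835373013657701946248209291739229727470158506427137597304016265016249468467844003929723684653404539944857138684277049641160215258729869060898710514432321747728151801876834705651995298050312588752956064527570107416135431848804042225659298428485632)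

noncomputable def rc4 : Nat := (nat_lit 6041373173237579905385871304154156191598622783180749568106995325652871331720235090556098297943668230598411875593329130709634894907779337837883406353310052736638861344627437494438401625237399541184137336358503610748478956052378655455870302314709006351175287889606656346854225215709283650625106663413188901630655571712451923499408576536359322751150965537445906899584075701089622408052108673122112393205926759439097467821789219306207924495796628470327954625509833746454655795708360428977521767537702356638174578754666291772203028141505009884692858569139405663791101800828513493776593986105145271171500707163405311410689534397935151317835547190143977573604566778709975749037765752405484151375636387968128468078320081858233912571558773823285918735322410358616018986156232586158798858976478243496138477116805607535895597432302845375045231551340270342846584085474233824095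4426332451448460595249752075505514491985335473818679549391037061290208400926260365958187380511547418531070108045359415927370496743853176917172022720093056415583493658228676865134394029772177319735383920282070564546910799578496769080892967201578976985839400875893247901042789208133092195379434127966042859186426833374881957490860829938037730790569485825654151722347709605323580477508405026911948317984375831123106255602195318519913112980346565826292089923711982734679765276692143970443652433484880290430008200962568572318812257679604375944707296519048912772676095592063015830935691442551916370798127374554416700052218199273810490143241362888691507727807293673695635136045547009548405360907999262181194381188450544806084841928270289224390987211372106626035314770648279924950943795794818621886648949910115609436692460720690233404167593317633494488154227320557557539953677284966683574387434093969777099266660417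7314594416164488205605174905959793878516667865400771451639393525923342594441140061793274910365226255508599659734363442508293823326502344405888661822016264352379265448247337917715915595448467790612274049114180902391653126986496954541371885961268837821851449474853508219997098178762243199001719196705202410144199892982103836415431166302850987303309216303982712553721512454395843338819390768885005381048330620203679862680864432415483682305005948216775383729097971083501448880378049203117974912954906588879322036826697763059144411426471767995906917858664576993125683402763783537307840856277332288742769801673939822346166389150747913340632122331767150536770990203048116362055470949729479690610214026875725485248100866218425643134590459392576281530916356814455432500271336807248992681956076819781488356785170614981836954779529302450019843847523170350951451814989377857759494484457395143946163084133826353273907915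1802309703444738573114252119567815390643398690228063442626784643104252968755606183719775697730951098284624406940416095245460014670778673089852235253387304231780920958018689275297098275649394990707087106085955441645656611434286420121999494391357434103195864048749398719183574039570458052984229982062183580267022561369447636431790977585593216123630007835121747493168928438896662390741821863908049308819157586684951477615051217542500013930172803505718702927721741551798100136172683858689614419657430022958680641447815973225453081717917927183251218013473750449763117834165286185034494927889496132112467705544059392184018864226521205852349476076370041648342646190289354018850191190328569724497199310751909232370450101103348161363251208532188806113168146116624173332335349343045918729848273381153689082656829245723818963279765412982329743058809254992612470068810618351795271930456092769401067458996560040746806829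9809007477501407655847593680514845965944852912965754395799129333748622503912091445116898956777395387517485495580489318755741842407226328028047540152390148997614874890539280358569162910682903171421925067120553854466769225857445523045127188829177983472649856978048536857677288023479407264863615302404357689173760775717668248810917179946972014116860585359170040855076058548647334896209458608262826644729848573523606715570334393488121204407459542275653288567368203777917590402321152990651219570235846329916790160581532380806040625102727057954675988613113266492377218988794248682860443820306017709793592155037137499652199988062440751005313779349743333210905466984271164797161759762845510671365423868194396609080017701797660659720805556296277049700571935572186850828111005384027466267576408403430938473557358056148848522152987746346234187959088930345426803562790961325201545129359528982802630818118666197468522797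4283566886631576215810492984424447107992456314590385328889858338869870232342918789057912961035196127894485856216481418863290105579316074990774998417971368724866864609603402625666265881716448519663696875288068437546519548230822480103811048283838582613046708130096553654868684372166120227133690010887979161484568029831600576340966021779363986083968162258549227966393823241793884618515942648007739280392173418388684570505080765118719844965941895190034571145668979731681097890021061395338087666419513793857269727746667904030175701388086588661884369997346625095524878959055340992425031269878561231757539611230469211864141259160497558752715779930119943923176757678522283479577316023812142620145120952313012427362851557941757418528709163837666497650585411829410361729991340276992865046800926569804235970977460338008895252857211161012136181053743115467646690131713982250718061313712235492274039594029816392393243062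34136388163549668140504600782247694393205498590774810465333136572968345893672438158156738161979754439096414123927147960174894255338458927058995183116363704318096303952510071553877504409162145412487749117240894683541158964886748867009633858870834368131349289600828025537106950063648331775911667927391009091861476372012637917884659973947460484928940748845220097983280685105840974593662959653437646497593440540500042968830909095800370709720166717548969328159476169004910611376679292249295815947972987194861649812765401223961980036168091004291136392479844531017264080691587300398081701137233294926489829282804159024455187460610649252918355913802510861145608581261905456845165802196290375379936143558750155811624644440614982724267058499145368328276980059708668421530107085259608280299680957588750961156063843966580941077165010626212909065654992326868812322719453450227113046197892607057342655419288320193078709574865314543014201505316461926563556699357989967503307556634063425686668331469807617819664051684338754042346963600335213500065681553583241147260658854726609449549896937302797674232238776633154415376304201927964217717631463752147664896)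

noncomputable def rc5 : Nat := (nat_lit 6281333516871086805182625616009226115975697649831586144638132788885548030538663410656148204357113551645126471894777661989563231559098267114420956304409577187623001517297028252891559113083395837416501418932070981413299605847681189815474469734297374809215633766428593770926194386028520332814972965666713191731868215905503844657395591615351292606068244910409975246476753418086066059862027921903503988530448757721184052426848824589278636057447303272035992802454764566175828127985786356994309471773454226321807070224537843076060884902390176009111430982057106674828110725778980614545505575136272454648449338255535239732779310752211092446631624296797459092823723041648005387863383852529665953246904086353062983663802225279253566550319884330503912296451830681231478196616841801056130434317895484797700469416106844056177060057840027464799791572072068391500304236912851120883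0170553433318637464210184175500500261986138512474439437758128293403234610469892666356886825716000359220507332624812606002707916923879751769702652461554346929920862193312977488159272499521584842769397309513301004899081470077010741010415919761390874148903769996105625989661916951259023276800938734923862400212560059385625327330530225742946535660747634396249474275197934664587911728260893822394554947566926524338647627536761088453360572568532469029589729359362857119721429474142548487855376324416997022306234633998168432036780383871004377686953223931328524925736916696744702261405314688500931586244472930505659312987787845218197285422065402087195201219427534034945458110934734968267300541656787625210140224694893580728678482653788825973158223127649968258632855680107688501051179388274145869970339316864080991036757901267314582483530526942387235582802793933203724950011264091508249742946168748481494795113711287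3927484662142634822856018584730450435133797758755766783025572099582919278914574551362260244220581737117561691425696705438534831186518612611959045157049140260810210060585541752054996615486311430951686868903204649167713355020814586994541646592872581332441727096649135294172231447469774460714771389795851117661723429633100833683594068298809517740535771943264645759008359464896104321583362904098174659827098398975978094582697220094298819004407146920071706862676451582579789028135325623711405334864963784110881182777569374917453380485538082595003837328992081679540521134243204353208768581567568688295635939476381884119331097880835596352151562277928120441538612335442269532865077963123192963194254999340411487798564529832696854559600989993725844202154746024302021974331744645866875538582570768237355486885213348137459940458730147500175195383202784494160516707999307783581678171085864533912170650576756086825347681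4175571243618250581346094912373866600433834355184837326655620438249947982262344683853942937110445367749605510457983239285316746688794897930676422465054531273513934589002979776428828653119223881767401894981688645220399584764819574346554577741383430382113188895790925297421575523004162416505693365445803065045018083149619530519485256743802453107123367949734838913258098734081754731418611158572130870030292392950291485821796694006174280877011002761884445841924751127214183298737763257678581740024547874100093135498578612176579758270095098349949164850576221711512326440446183417862470302689621397516025782583927396447696287545817948499784211674483048115769550782011015326810605532875607163805756303035444058957430161234784147518847116861722075039117367265023216832321394200199550077712649244417879352797848190907069096479046990658323631456097725348419921201760810558641302080873048836413158895648852270949539206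5244848234309364309691835330589737097940886789131245823658702918517551103752081512961074667810098274232416966289339319503121826101015041957502244179608350993237743426248792199512823871610240332799361738007343967482541657017228355042739748774314216162739750903831363751982227835937708869927994638488819663034392307358213307824436007366914765889017971927293171825962683824107523713858438657086805617197788350102694947525106178670197345746597536644312808423480018344613978274064886360909511938612585638582884722343320533982731110965144226159569338992744521338231360802848469362913196611439253930568071197635444096128527092614333552271627129231385785445558802926131236534484655542822445581831392227224842738445624110237765748815546719314480016728685806012323823246846275146657272296302321617943654142331342687816591899399751001056570915120265839313278706310301281802868783904107441360646300808513492451721841615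3333703186219356992948910103536128020059094173531541391530057735669812386011107580143243055128942275923451190045899799916544245907298940866452617086239323935378271153124755807655487225453805490446619690791004189258577238890697094924628742027465193467608076694047776347857088242011304921397030081899002500561630105542709705105752184995078142053838878125429331903597733202014510628058959457229097799362318549035664406167493421483093009751864918531876224962936220459207548465303335401580021102909665081076723839158503837051090247015844698993108670478317467606636876416141497305971262352809508959512384465054789799372273905490825571725000736051524884861241903910485623096353227021539691681525979332860533047207190940666230318109157788081445376390792463100585192198115618474093792255384215243218615290818594527579480420845006846243438950439018810313783204741047905640527319673006474430736177441673218274476981222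06714655798656628290576474386662852449027042679457955948207671112781772058544238428901399232792904770271410359252399283493815130383435356817077146098791198336679950902391216719364462576199001106858096350677821976036252118579722063556716870598944561718077207671561063271933188819692766087487805216854925861000138880829509924208363892692128084189392886865063165686845465634756657471540960309953844175366836085835096437369746789842789440047285991636825207429328116086682804857587970710557707133356442220233378343252245287097204281694909925703251352912701378780692624004464412666697376230230831843504331460855300909486280379641279014855713699964319639414400028334803392002177968462383302428436405107411876712385619008906319850446135387746403189604637048580379139766536711971059075275729823650832503082178431968112689631186908368814723411199664492007964566838225025309919147784872368254556910252066612593523116742401040104253973013039502831759232561845950582678714957079446043880836300407651029682301816031247459796993045122800639814541141085632613740790059285858721713298062557784846142579936169834953489578396132967946249978651741181089677312)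

noncomputable def rc6 : Nat := (nat_lit 6517753763307851849713239050760680553127737401030977845743656076479792796492526880887673719822397247440639655992562625561727431915465487206666221803620639462867241660146710327283010944772943668427274111242657274339542022319406375671029028844254526724878434280648161480972443205160918518129022924292760363671378271952280753758301465275038117439710112481027075084247684810977098653341566543204436009876446466708341806362752078900149365995931149949543219732992960335856323672239471060245395301399202672255246042389108978023533479636954573244568304555391983959251510988490224973831833103719742445132596853009729757570600223593504688984183886277267327738645387882931543029396727455741734905893112546148146505523908697142047274965705640221951355132513201941439385554085551459925532880215281553014912656952412143790137256993930462161336782669177798987265818240403604919290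0400412780848721721971486092414937374737483785135714246200228833524358451164051566149327262884165885262589942939144529304988022450164524459095578083728580464450286546078160084151103323279782899583880652945833634146723442272478240858360035547356139628593028824230309486831981325805236004167812387156021488091949870790592810279887242551633630812656290003615856268546889704212867420036997588769401154035051994789186621639492553728679921147420760456537850098231568128263554373477909347855548407629241885299024711061299182993187401378031384250177348412743083103704354006923929216762839263135029815416271504747134169097864777154595674769983950081869592470254061106212935739592052601520326994766622267269991823288512203444629001439355092264786284909188673326929888461468924458429886847690064398268138463712651736810659502187700079877696260481416368693516613631178619386270933728743680557932469839133055435461111970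4164245541505377015856521957729517508632743936034643174648327864067101888244899903282955027643948098388097619162368031635895088171299316003775504526331520446595442019383346824048984585596692036035471569188007719589415592716723320420146519087294786359533637242975033904559674941261553596426611496284800247963754846743097610897569256091118368369218703331592495838529195147873371727746807382360133537828066347202298481123646132702865699430288417938109822413357582750878782403341514554348390292451384686769578084162954394348988230931876488137404744847584289421961602153366886015896294230249856538331365058825948771001090235957973317345983158296211921186970840583212661465719933892757059352019807499847242664771983610562395276834737614929236010031493036532421301565881620649158355530566139505035261979687825842950704660866824660881750856136184152250244842528600090016298553687609034173280968531666273577267384316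5273377544328780822250400887028105935189595933302671924225307921395371870453239811196022115905023761570775672286643788717865198138983969603925721179991730235592769482243067339671977758606931051895840966226543441147258543587718256114540577254937225202335804994017691627047539672588520910204760816997211861308065126515678770319137097945612661990913478260028440106757600270316263835135960312221767274646755714649168454328680611375018409057252371059072855358720981041710934718988477311245091620819439677011519920135229514341474149264733794132714099558170891963638911029040407775474075662432433828842358566834519106668727571223626164141580100018731315943520769628417254348896737050002788462530408074653519372123623048908181342464274682736285297081758877216544750332300599647730013838493454852804264163338589899692306709780739703984423164915883248934994230514767268664433393368616371318568816750653700159148023565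1684518152566510441471344052603767901261952295585587944579140022213792474572442003704109799878104039629420113889592573624074497703733866787214995244886224253934003129560746115031600495775551427135490083553250997163349253125437475428979001706416685087852109477550731573297988516327896540456701498730619737175296391568796298956321056791375176455300809019894726300603781565565891197548029485443762975878644200483227087092363284778582132932527145393768188207375413620091541986922489690199606460529064712715996777151413735602942666475539070562598389610233536754574191605472568173319064119406869254068684469151570731435727312190067002009768572691423750787697508338592100107052115003269645212833041099219636340785524951650060368401957688340548056592871475142458539127675146473914484519130461092753642186658709431814619457464933230414332542741912660635695994038462871328549235176947766797854689453305821264363254307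9678277537874725963540922562194265584388130890218964584918745631516534461481634975813609044475383968111548349327754024676779539104717672864789921331434003541524399286914616421339638791820299300674264624582320134355578363011786355535270521660974011103204574653910300702185580853179532994903103402373660653390378833940589563742253454457791165140652539770180375254261887721564955407596920785766804837002318697887242681156068726798296303915922589609776369315157939904016426544290960633713380120895491145081380182667782543016297003949332420922744309635768915005517027691122180797403350501876234069736230994284537197869730863277323264621250142436561168398571427082346354025146154239995504060833905027721186107747752644394818703969546659116009884093400623620978046055928556359970008193303872173921509686050272897902564603526789677291696684992939590985411428249740896068905925596325702405475771554276740209387289507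98396046775019711377567458576313185350439591163489366750195168638895585037069178939384609669995505950042642316619488635354831930728740986166555243586855888636229851670115843888720852831510562726218512830416758681593767686486209623465832480206045161313635847920315359101653535673414498933267924188909635210654834718437418641985020764738585429168669994558647152812326027862255182752175633829840658551598562980616777311664450213040860043762823239632095066075855846351973125204386919192168280145217983189766627243558132744129642452470600187211606514357935725099190520086243717754620950500264078901392483981606252521749336277280898043599439511222901643524174576229913230544448413994108699132659058919729632768140458531734841872285143154258197884359700436984507707884350861361391719402128460527085752501020578989583307159966784036268405504780591944279844090463393348165102125794596064684169811440793457977259492864036077492820898927289086413276844619785569874292177112592612975101308990775946515007368287610642905712114002242148584370063716525430812768640835137923460429079830656251461611324340107611851595882265338419219763434210238119760887808)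

noncomputable def rc7 : Nat := (nat_lit 6824624465050712180773701783739503441593070409469487039993964847438302769174340665314113207706176751222853166575315037960362579978232003885889656418360111959568168526696174162941848897453364796777319578118454660426396886256773408479885057701930623686068554373750340734479604557184771307945974796094811689713998235086318131438674709411430043934008850273914828267538274479904200160160599975366579760405868164783447793762220663329226346000128000735835008316807916800601905371173696264106126148343316665177488202792880877961562977443571896192102440717784011890098884295400102431804286948069658427307389290734960168515976945729012615430598525732767425173136869039370295759693376032694896031197437178369138018178830326125515332834188326050558942925353619575898910010898406472990104428049511570339117291523912503899669465648213996067951969618859613949628482477581116496404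6429457899862578543701311709151907226396295584740191163330231449754102306473249182622748865073372497381398363557077986966090584268761384477698731627903309391895586840844395653078344682611470749589606863908560098398411520859475850101628490399535843154984165301706455857844936739481275687308151665510181844331270857474139606538496803219616893799096984229865445892983226833080115209350378103235639148120234374483516860096017496081461812505331164290651304944510211004013689487842703051136494911292551147780682829517279228556935323710543783610366825819761494621609874434146798084380539402805261175657058292440984174410898164801743522852810965825386196874663255316560047106938493802836527072815794204708486131214044162106295739029953425303867543044512507569068727877705611570728966872765207676353968990492110234184237745040720627022208783455919643028672946571328073104597339823770435298595562913366934787614929923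0872046956111029251374825484978448165197571312807901647758882612392773866461001878080462930642035356380627045285011934272582437774923929650360804792819668449770953676330651949175762854388951942196878716750414810374891485771174055025796075589469349297025272424421514321352123854485027375478814800130159733017608684471442079251556978166964926424230060694527491732689621067900039884464989203122977918000249745163520316841330299214212695558009105921481106604708244504394502384777851598191352948514623086634751150065082720217124044578442630475578544968859772640409653509786087008200214257658345890222563525942476664501814815007294024253454698116947690801883582713731969529539549481840887770783544470347545055196013347088241304673074203564250783006477113008395200670519741912373767067848835794286004987069522445088097965343667543233181119014911284905446264871386668612361246235316329506262440601041954990364339292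7082815339718329626259115786199127872421035582606639399611422529522256662285886210794186076717801521701326892715885774048840971234946793183354670964226104563286791657882295650825797426997998808469926413805721578044100133601094161226552666590460093634568813826504951167021558521374207844458395783335251263691996279117761468486798492133146372856205170038225092261859464916603633753227567327523890850958182920832638501057642684911409569265307826717190396982184629386974541402921296367868663559523588451122422833230990117056183895071043178126247423242906306341728602041863349459307587164950254421111904946777713213812541979098221214511397135360919606669610231078480248094516411307785288437183694693613851186596572675069391326605953859373752024673123905986468806921079754497797192033193592609548698020592956330915814785384872684332720475742964016918895860194118825628832050997577742749976604770089055223772192918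8249947808778120434059318085335979161896973732899781669141216954313928097442214071232662203667777731283318034081773028435089170159798035775061162808672734964852285850051145182589093678791071849176273727732233542441803257121468830436304951169402468151906454092050766263386214284750210222130857424590754818650304481171196063806987120875840527137966435647902905209403524622833549159805881328364864240232439524495101243151193828947009108854544002238880338896578996561955303318220681170290765589609350906135735777537738917357591974555231957799746889477254800352228171490241089176290346617603671360848017788113878457306076474710035537909489726082606402099007491490243664248833174088813309862779589836668574114939069985232070373269722083172515177007581188376471129179240889248626363203246554849390568357005797898150796126625884681744602841661854314383463904685083018914703964359438368456635413142840895960688612436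9254081827401009933090678600023207716907527647569664992318285322045546525593889928943641938217957253473693157151103715154335505189228493997388311654588022083978335388179442308778453358345550964335722310956104297474526482687814871302193401588044105523219069001864723160993705360278654593110853513239310364480407547381764384655201467964909913603805173162444638783370707768361744238444965715985222444401522003790411773465815101432464920351425501325899813356709958191568778784364507375036677670132252739889665306888401861498473669772304742513205906470155168693983651480094561769108754016140948271170081732449467168702517073861263853047361946103553335972609511731755318469652124675272755853039848190554517281715328756898449138220237043360532473236415732446635954332923079923895533607637156726950260116354244222519074487338943987945077500594021098269921043592693862572048022928298162557140134097591258895459740265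29059362857161809649904774987521261385515913386251801293795139445519480458671970275596468534865436211176389929186955925841506366194314312533402707226977718944025688241172394192689126299072186105698170591396992191084519943244390650782859043827401259434602519809619842048080397182546307456669647054255822378363168766120069695286734530283293644992161007801261344706850950011839632906100645846133010772799005991665250087455712580568525859896872043275028015640928221143011139712836307527362016211122956935650198366361638232408059886207939618866798751904780858141221565573054029080290196268836478647069744737783865029348571566529881328008913488478832451384336291220801065997205520897905219751184019358322323303782362027442470564200048354804912560093263212284335402961133121435285684022813432203511695145308244868878161452399824796224639571956066754301461822089301384360445686810016974788305002719254784175689173748561853611967287230595798695314772579532253113610690124952669832083258128425213250646156438071680812744625522639902579841522295194240599334620947520714619936275779399049971479271318523863843154163132517959767596035588895387433304064)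

noncomputable def rc8 : Nat := (nat_lit 7119639648787260657111664381923980253071552178438960074556419643839129326537741027670876494372115080944557340769424957161753556353754005741041588328960249476040304005198178394255901644128299010715029626630058999851890451078132457294612955647037552546444740637601010793904310349317232092280922433151700888923694742850670503052750419440885917172116177483949761100264775986095613919618877460861368482783251213583666020846811540530211564519055321383507070534132084941321985895986349347116881341292998602768624191270988556952368101646596290311854132780562669309991341481434781451556988257781052673432758261014208727377239147094195040841797910025635026348443391631522486675677467867087513860940966779692761232537927162460267476486975301891583759164004464691566512244771216967617520261514468700355063072962217097702439004427161065117318588503341932218559412087492193722590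6756618172511690598423093825217318613428510684439579287120598162367852928430937145709939472304576069906660331875215319720432315548715673395762235432301882115704200549027323479991000435010582245663771700355415184302577155386573401439335264466861893710311799566281224815769841133007554074524920893766463578940991080226248755084754177238752962285998947835018119308187870456986599578777230161252525483358919939774558391673400979615556684248653519236915879215286118728254780523371730002391202494999473752319211460834738046280956682058923573974593970693313651032211559265589509764494654171146362532719595689517120048131565581549366947852112738014401587392375089852886690784971911025667231247608926162537855719056534108798286311579667461481652612628068462548923771345581739747453038916996142434679952716745280231335900453908877081532931357684134361858172390728257178553031677598428379834742248543397361537263819810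4752950945023730086728609653980318618077109959068127801730524320856334630467284484989657500123448289761225598628947858370422934051830962396304668360530949289150627316135060307548839661259591707780355711751521324223777650411332837700825645235792977668207756266048454030247795513125795121927521417174394935012677441097199713212184705373932813576594891354968192075575959842448559814372688589791805028014075862254527645069863476701463805561298247098850998160572101170872119789751619629524762876807346223841297952252600898232920701908083483919921945896259455529913066140438746208218323094989022779629932585279327856255391287069443184488424430564630736707749317748511384954708989167361032954824357685203805999935702701342325338673833487591036790834515296789313864513866687940702091678085655265849103957026081166351509942870942209392834951788693373167106878064436387596873846504142105889176978136074835739847539429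8479405461918749627645075314959570425238224749147492096320909354548934545076389095323246784651028528472898976138330539990387658210137741691367922720807502241786977256771262590502065306682412126075231313324179945507692139187382992749426156668492401634867502035242957558454925615212905379554530836442498117261899716013243702167605267190360514059398209331712241933690883843896945581753060251619307331945764461224361294765886722699836072105002208161863264144916283320973866681563802583977362926568898940696155953744882446374437413546487086113629174311529677780516500320598155292590287609517810252728707987620347855505469475561856592053740480147027795125242854846529305404323678911100257338118096866972642693810654786333471403672603013391485389992305190809396380704607672730276782277707024839115814679151836628478720965744327371785285256029165045025033216205996291304523287909637979008098738364012084020706813906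5579411563630568611693974894369296862710476146038936723156466639547590323122787444517310272761540288735640630540091689385304565056442248475085317527210633864088708987714625550557334686690183684691005069029759937788146742309531812478942818466657899106269092198843695475414434371476836260313642860810169262250587444637420058304243499870602978488139573059593580262661298362017666586189003159474482373239073918260231586467181874494529435174922688053859824765285417934407391781891601810716010273812329390035167510377334472056792429940000517889067493617106755247516319421128156467058722985654028873420321157281921434909894799215855009570739838383538984765120112546184117558544774713002956814132723420395759209070247012895669402935085605422963199057443793268296809040632253167451237940749630852318304526634001098886024432284504279245992441130331209809287883811998462974791103464660414471738510711341250883480911994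3730764118530501189510449982492345166699498362763733698849887544583238972942842222629790702499380413425709709897129683789281177783985661955764259529329600675755241304672248768156001917548295536507000250173002437711166523803557521552962351736030049466616877962950451843138536970566164571526196205397028309220729207862643647317561557165338898557132386074341394253017196793504504027271127374343714272532247460330871651020461970895939808447652357126440250157592367573193443407651979947356136823676081683625496285970754322036551405322879915027347251938306483369061057507257053670190535331776195450642061746667089897118053613461112090412298152056996616555574003361806276351491449915318745301715101491746887651279429902336827018560775219327054758511899861479681060729708961391387870592610246833576930805510975439571179111016011403035316546660200393862087526123432590995715978182547283885223206843963909792141099602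47359954886878960148588042461978577898842999571651172749556518005445171154850804508166595453654094841284183691328382021107951049414992856367049934478692797447401696895864384035452163202578023440231874889582844258318127082200630982979048040660938981320032521178943846672496969068575570441323984868051142558713374224847693669564606326752359255649087131929429394893912796670085028696792436721549414986162785366392947862158380770472646128392223996697099221141192936021944646094699950428347035234391193134485484219471943414879208129163600216114592001870419189907051139223484217311304526567908063593161827488924779573651731201503348140579827480590571289767905178456172701500123741801053396386185566439123627454185882868302757970510591146531712446293166090467061092611441621116216061922772156378706158130445819855700672868492336741815744368230042649218774369472943332634737263526010770233039147746774212982614211434572204611336701590743596714845086426536002591619585559178404176117402594876066280965938344594385569069096906483777432477169200594420701703514053015355515871026018986655452950705671376434488441246586148878302947409041107004908634112)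

noncomputable def rc9 : Nat := (nat_lit 7401192019514775247095417593271683305525135753173629471305134472524888044840890668350890107523216834658974406919822623684019307675047089224651078516806344722313004737142815915968337440917279355321645415455995305827530751824272792475139921571387375655195955224504283757161476595465705918661036709530570162966244763939641818557600861058152646792930760789453973218645456265147607674001172034133200121327912087456723936322060642233193646747920994058435922629286842588383329524917290346763952453840281491587196309720827915206759340574702314939922518309647972501075087075519093051078433731606972901328005916027486741252741261581955291475815319945264617425567279013660447104480609234275993987151863578471956624594392505583395259330212224658136648856302593535709987512873099393012682650339197928467723183273471366607356460555478632793135591709268086250300147980348714365505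2236864069858408861539273868068196049936303239313816668612565068865130297915311699177663642329544459001613185863090878345164011356796927176798384375970454264875715167591827077499931442177312656219506435868654147913278183903206583922388906945995748310663207096557208595714343102306376054166916253362805180234572947672382679185993750722615301039396074637978316988010542502858994128879849238645913980004917560344270371469059174148043825159282194219359952987843859999461056595191848447228755140770257278205260829501957529946043324698398139234136691197920276928317225102036148131412149132364323166270886197684271148295388994284224755468804335697798267951790351143846393194011131497478234227461260676746178399204067765260649285357153037283558791076621373557788819462187569120125196368915081242581176272451850583236734405790833922723255798503181152785285524305939284318197907298023928744802754009294363743185130314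6751847591739777696550666762661925763788051438006583404943268268781990241299729448621230601001581334997903956575783132774524139880777217920599194350970119661224554844418479815037200869154063226408244876817753802107028750721031570673245836146272289162355432712174467881309340576593658757935416132241091595094215920973085553875329428358191563946581638577626921037266278204319529001118655309576167582085607895729321833019160313554437598708714131161787152976029940675597611113977240139057551733433835330202306605895375476127438392714789700045870550172885234553212018668788028748139269501853711677622506089059057336129223545519579640333804443576734601933527202617192465816260227019016443162508516111060096074146404848569787837712365054160346022055859368633379309520074769967416136021182080215798785591979389444762530969597294179959220868886251137773190441898400690724776466383999591283194200638706979864240764965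0472992546953145891625913377585506054692898207428698255449904411421316809790086015597054515559862313468331422118662755427235594129749186189246073772418362851477877449748944203322688194168221160520341637846313285599568307271227710593840994940616463096537380054508738063329711833836606257705254080928669226229099559883059410756025042726718025089022304886335098844595477697990399354394324190311595637473812040834163926460804918379396646556307800608649600680204336721915296649935210034165162499856304472282197851716414751181846609638559463334628588025281427510236486239790686964456591931956116958249594983123002313115629909059536149529593637456557084040171499505620310837379081052722618441262846326350938854209750291331101550927830515533509960772763590137412950376392577972944980691901690990457118473488393327190672086811774367822484630742134263509302824502504338159386890032276450114064854005793653715030749013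0256244909765903733541649579531361884849781171219901555010602008412845197591623326797026439120047116028190334071335366975578996844345818758177755971744311766754861384876301944213518034440425796428041590324933091259082654033217104180975885452271123053110982817211558551802055039986446377328083896570998237959327545054502497375885508285356643148058123130447487935554859129370151218796381824650447724988883902637559772186443339287445323246098120339471966802834852228982667601917651628764995628362594781678044952454942795687370806055968618547358366811636566534563346725246090695526095939073144804506750030932925530364390225481481682814049545028062574634792311434371547259650222591815828666715262615407026488923604683632886353645661290870838189011400435252139944667628180683625229049211776450862486575575827813178048372859909791487273168742620146428342548143958243084341050239885836619103657340520235558420553428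9909524865342233216917539220007408785616341176238512166479623930567220623377253474631289092365882728058289183077919658127340792364259306687996931514461794704357298189171430811253838499707061004386978343126550469868896340481430632054900975551341604849144842415653368674934064550314542912982018558285649362993117417703220610214319859690118669385655133812634433923631642530057725179525811780725193978744703565152520907200500307471224763835968413144585969070638063709560440852299030808627510250767796082568508000745789342840528347971441780591076133445583477625503996965871870581537821154130599838923622204200060250851112798784500397932996376494393470394306044949533223638848413114894452906588322330002556848524005208735825564761137840983637010270228839871133191025927389040669416195264192512558716901851684869853070050119524848196197158006746648121573383604332958507108270527372225339167494014697391706953213042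64984297909051608940934331788284347400385220831762439704372143144429914272369725862894118908805414537273866234314891074699272945835222445645537414418890008451922158584107476336863499569924513319058327118026072107109987753511692961355136826952687082818062060104893042478622297452390450734838314505588015217396431434464353734646989539206292248421979181242748456116340937801256336604629844605548500082005211439267180136776236242303228262840140145198647160301522174084572528812207234351077334439970453229310368614103267902629314494114274180028389707713512496607689895342428277291784020342319625028475561060421597976105062836129228211350629116261582681990293644191969524545950585190918629719999663237630338770363798312561653999769146146781776197058060221458519157138343443077179802339902383660461048936105656909015872017029208059854470964783635657485773695960492757536750159720514171333080244379339532924712431276392026189029658660646633693177384158386518996586839063737355308244220349617907699964643106053963928463664071697894093091687061888287065985651410539442521775286264287460522873329524246479671846892342388451269268626673788867567419392)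

noncomputable def rc10 : Nat := (nat_lit 766831141681350882031004020290549449522727437884654646945251198061577531339840483206084946907068515338530384128913485523849460663544503222996918260232310312488594188618409678286676898512997821136003239130489322754845742278829356306961251442661318555141101026507488227292762827502773311561138000293421689225522377219993708321887650405970914907018833024782602297542211719510469854569234583810723952931463376560712123197457024843336711963386839868628875273053223593426065192679207219640803886599909543918083026481737820576562652354562022162479481202821090120983185342627749907253412715696485527730686111523188686850740362394962445827750886898967886176436920007865159604973244131672560300755679925545701372207247994586220254088903084553625496603523753983625682916678864690635651893821128745784928540359045696481438060101818949204465282866749686291747791263272589993698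8687361758100358353378721553933798160236433482336912018649087270356891590327979204783076030299990400737658822070246469197354147249232252064966860998591979885700580727748752239716794945024105407053380988361976199161783279900086770205154122261722823113467109286343914320306589416463164526006787902662805913446317366669382117671692140229578031447360498520865335007531568028574773532054152677255121779097479581521213925264108863291688874082670322453687818796365919612079417989141996427291029451945908522288944594303950672997071363087497303140618864500788737640202072914410535136379706665401500205570264186962727557624119396906116721157229387158558793893007299611447869050089682389619208761230553793174446288535472912291234527304211762298965834778571485375043578780633164925119475829574862408241138597062993704661720008706024600750625307907195246809392947396036232012635422103532905315616431715484884034103704285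1434432312831127620450257977580012459712762952802631227859664653590382019930500148216276835332671571639092390274944250575018162709069139309748473039495806149464288621006591465837998534889973650038662926987763255084236628589956555579931061579419472836174892016298199824346275400642895043209057774809891686471712489692109615358080595272809792401577330207744205238988477019342753789283883502954187506935649640199062594983169229025553556053114957241406678317577168983284951059032581124540808293129180590070935479197609593211324081815175005526179323854930017629289512700624952201766645208829998202817036861965173557919899197223025582462914333957211419650051093112359747869368220567519138928059434504957749644255561443767875558375646393740308394760937133495014751357090717150714579802681142477230609567299723412055484126185347099726190463285702911483818626399812426354537745339332342962400319975793837979809725689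4815416700397802851914790176638590433149108338928478660029912816647179938873275209268956199249025670325298911250442408107661697831679787407026878923945698108784256501139695202246156122257965735652191418043974495375040160972577049008718056410694899828691329857153889215699341669861512419560405160514230031790863695503299011896677820734791645334932535779760939113909354865342274652107191852556519077503471891082118523884529301181613297766191301751264065174453939342930791337648442433767578288556557391758661478826895344989627347041213757150188174817660638342062607889659126177588163387824490703293878332700677228989042800035176380261028501797472046791317448997514272077900743838269581311767855857146379116986204282174727030248905573845095458863867488805288882556944571411561396180308414661641967692584786558142847659712801592341359860829127500549365413196841441770375304930650902947682729145209996099424513024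7343121101875693145094623801551372013333316832867759290841326988815609400841560880801880142767975326511653389866285431556296692100614168211519194418408272640820224254570534891690952070765901918296277405891742867198820517790939189268451010240214461109886810162547326688177028560537220407652006285623252894911689035468430072735864334926668685612555878497605872839831876998814601839872209068268707094955604444353348267925753051068652880039078351743420015158221808439290311529361702699281113483886001516242623201895471350352948450337588044426484906398301770317534339175861800771199027094396742805326449411234775869227554916901131819133623137226532148225481151767883990513440559398975527818739038360475636586862994835806422237248494674087745979547401381106349352538651408033494366900631090074894596804234740685549654918948232976508744256436019314875425132571309721082952811005950407035724151006684198713397064452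3273549838438559080925421272557433130316604390388066122368456733237936436885613852800420404646744929763114646161892534666634218998138109263263485213554401081144254726730091074951029514028742304930909180728367504958212328199087272069640819372298058132428968084102838143896457432752263411553850581599569466071677483129727371559722805134048630554736665167345759277741397325946993033877463144967988396910673829354479930527822478046656543466849713070390356826148761362373268160020429863989431110827120541172899863621652505466935311746707345123741853105209185267386637198062982134443227291405418686964564687850594932135475696079299696872304860796025684508165987423693603443771741313440226157520046834485815966372485923924473920258322534985144536234160509900808764277401366174267183834970103262692350663949196612096773096707097211358533669106355925124528653574050839974554912179429848656507472579582779758652179863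687210175437412589815378114504710449904831482102537271195015084683929138363924562352015576865153710767950775279170437153222171968708937719336353297245787743111437530118249123425923569245044374819319077094663875234427914576029760408768528521716206214516326844764662366921088386510833967529932304117832878914225823365718622442148447658799046251703191757109708443907025635437017131895477585984562803261826130609576852280200669561505298442657108012396262280803107155358128778309879689910113422300024697029162269658546402712891442976662614083336308286768080016369207994976218951481676289507121648141253402337360813621292762802742868697358734883719310952696616200170410066687608058008094133240504375275481406708678574417162033901550638777126302151521743246030507761391303876698342601611765259701948073045967200583802901307228847132684486911932418871821754228454231194814089439475700677433905119011497412857123950683664475978951742569704866234302917107191144050086093028192833260043398939857792475898226190286443157806729625659956381887543971139733576861920562124809823209137949214743634718063684035603617213721254989376284158510079734867474513920)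

noncomputable def rc11 : Nat := (nat_lit 785885699302069736283796851323295125510727274152636540593461725781756386804699958326770021191650733739877047775058976850269581000655401557546986009180634660057773532921232972533883574609165516928278003098112590116898111690525903468692355455205050159530959901431907698317471430877734330856419843949567604636356339618368990427237982203149158851150200134038702771981387608358626855830058049080740742373097755859285745479581119986706908227706853801415468148357015523131636971586514827471117978702648189732003355025058032081797447133469298889903239145264435149425135741689711008248171990696650016999583791595086011207941833259370197870566410761800093158254480083753810798366959866657369390759453205364058569256382627199011455015337662217296335558653805853795289454217105869960456194927300597228216441126601509469041857058033218711901756531029111448364037023037238360493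3452120166627311246931134156740693802566187602882482162108194772146686797984255629754136931325295525598565739224934937028366781284749557004471690874806886964984073874035170434290097108052764033141537440669505275929835503283918726878461095750699188789543655212114998905816221135331838853741572567071383292027496372151377747202274148290713969634282811108128541043428767618487583497523575448719898331869485621325098549178216108587579735186854321642461877086383117465284584249592820518760402054777431705392526708383320173253328525533801799548827222780067560670721339803138344026033989051718903105308330695519349311887971900594421107887452785621481448373357830976922175610254168406142310207608259682378604494509709994585571405898203059805848231707817845027035752381879516089997990687856626375635773535429865435594026693742573957802520984903492164900141910628976148223281034227870973148242954475520911561594039975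9586361796666720556769945763781210167745555143504342312487748823458206215395681394223502921336291672416074415144725449429224734951501343964674249706249670930021077967514766720275843033710810329831313396196772519180449210585269297965365358956899829929435402946947348960621475709502030824252697576654359728077462321411983656635734778039880600093934042273108436320477126983165753172598486064006301205758651488588228795021984597078804575534550895495302409206367186703855495055218740203986143224945129290811743496116517494673896524648978181411674889901197641476181009026039747524121329612409655793048063759830691191342448017310365183700290331857509413213725496745505593102068914825732974176683632673305159082788911729903671884369221437049179449180172842762533978853977877983487593422375255193039449941627337014751123081402759387614461318475021525511726548306323955783559808184527626869165407242439399566905569350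3190895960998392362605004793396196098927621175387898523868335771143497601765423560084610708931703720557559265355946096418019931732567994653051712932121541628417141644320322319572140327771890304397407774835602513755822568874828189515397162008133020818063006834678761886564541127803201496371847814266978915252095315010540732088255227249209046534220196765255960632593834998328777280736255789261372124349249536844776491532612200102084980631780072692165130211492189615209314444365221824128859009048380378110314451708994894486524943104880031525332374617667561824944728330311466962791394923982513898796356370827556578812584366600306998653228991564549115287375383868001036085932144793075209744365846441443937945328203984567913778065386525777148717237757731340866938942285817712231825296069998930107803096407628942470101467889234816170597043642903502640981961043813147190565801497095288920317167221039747905965510579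2971607324422955240435410379636441612502606478882506960648674111372295383408500943608498997267058264079484566299492870576562149853601923784028986713224771822759209520064561089552146886915383114250531090863611489593942941707654812062647215313013131519650417471673198715499178140011872176641318183878486624114035445947495598874485909309622072419611166884469499008992536829959483810899209521319090586451334552447398585176492247491146363339500644184261966657907286154148974788416340621516254298255104842473464748713439778794273580582467652609291501486402241655375493762353629217572461141062299953589443753401806391299253470990926025950712753215039639987535052849646811813844820455244005230507806726800178915877440496701314322126304183644855312412829811790450550475137564289668001510691678323530265670716372497747039524434133020837981510933893997967010819312060197160980322488158742642741058654332732003789722800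8239825349618145595801657999909689220566218420263646279738894561993790019498165893911631041096490659040615521838836157250044434253578405424559209127475954755115481723033442480052271683443390414630535512221766549889784996077137194369743633482861317615139076506659850828402554257896392723953644788570039952986621022732545213581435197857367160788384298798868029946650912360628423256893146943270958348296833378957271802960279296895325164315889723969032140135211166040792894676045870941850595409270133828404572138197561474449314538775531166867907760003354176436143581604090205546697806674787214319784727459075425321165805545102341861334740943316298432628817122170181895878728997870422421555955422681836734098792967587438290885898953249200496900475544776073059192875445815423147663883906156831416746972529192131745825395557091161202014314843058912223694817089876647836336414219123082766175461209206686292525101440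822345723847705440382659521468899287589304749060052253048119086597100664434698173289144155895575366082112330197630920678426608439699608508156708818913259460951646263604756937602535324519342205984603870801065545792141264611397701102005234697428114355646715743142513465016116707245936397548810914944046449966541885251656512124907545129070472695692675295883589013922327118733095038674050911301211583786353913819702917300727896009486709524676378181545392039520202564564754048097043660089308329533831620439766453112967218193005950050299411343317052153914656882781411899521521320827222146344203961271090868871943311605023635570548587829477740386955962524918425946694717593374025980959911249737084212936564427168166597702300000669577384657536304113186572730934854787769923248569313919236282372119569735775051840731713596338355709910776841986594897142172198925980282211836895573559000089881440957153716991405637929511098124570017129564825413276910412059337185622766501913373979851390496253732962629466674478525276966664389161531423777078400212314612589558384738681220138337990143936968329244944749288168543366301597753064145086275515892573551984640)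

end Vale.Agent.Lib.P154.PChain.BS.S6
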